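import Mathlib

/-!
# Row 15, block T (helper99): primitives and periods of weight two forms

* `IsPrim F f`, `exists_prim`, `prim`, `per f g = F (g z) - F z`;
* `MS Γ k`, `CS Γ k`: modular and cusp forms for `Γ ≤ SL(2, ℤ)` as submodules of `ℍ → ℂ`;
* `IsPrim.cusp` (shape of a primitive at `i∞`), `per_par` (parabolic periods);
* `re_per_inj`: a cusp form with purely imaginary periods vanishes; `es_inj`.
-/

set_option autoImplicit false

noncomputable section

namespace Crest.Agent.T15.Esc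

open UpperHalfPlane hiding I
open Complex ModularForm Filter Function Set Matrix.SpecialLinearGroup
open scoped MatrixGroups Manifold Topology Real ComplexConjugate

/-- `F' = f` on the upper half plane -/
def IsPrim (F f : ℍ → ℂ) : Prop := ∀ z : ℍ, HasDerivAt (F ∘ ofComplex) (f z) z

variable {F F' f f' : ℍ → ℂ}

lemma IsPrim.mdiff (h : IsPrim F f) : MDiff F := fun z =>
  mdifferentiableAt_iff.2 (h z).differentiableAt

lemma IsPrim.add (h : IsPrim F f) (h' : IsPrim F' f') : IsPrim (F + F') (f + f') :=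
  fun z => (h z).add (h' z)

lemma IsPrim.sub (h : IsPrim F f) (h' : IsPrim F' f') : IsPrim (F - F') (f - f') :=
  fun z => (h z).sub (h' z)

lemma IsPrim.smul (c : ℂ) (h : IsPrim F f) : IsPrim (c • F) (c • f) :=
  fun z => (h z).const_mul c

lemma isPrim_const (c : ℂ) : IsPrim (fun _ => c) 0 := fun z => hasDerivAt_const (z : ℂ) c

lemma IsPrim.unique (h : IsPrim F f) (h' : IsPrim F f') : f = f' :=
  funext fun z => (h z).unique (h' z)

lemma isPrim_deriv (hF : MDiff F) : IsPrim F fun z => deriv (F ∘ ofComplex) z :=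
  fun z => (mdifferentiableAt_iff.1 (hF z)).hasDerivAt

lemma IsPrim.mdiff' (h : IsPrim F f) : MDiff f := by
  rw [h.unique (isPrim_deriv h.mdiff), UpperHalfPlane.mdifferentiable_iff]
  refine ((UpperHalfPlane.mdifferentiable_iff.1 h.mdiff).deriv isOpen_upperHalfPlaneSet).congr fun z hz => ?_
  simp [ofComplex_apply_of_im_pos hz]

lemma IsPrim.comp_smul (h : IsPrim F f) {g : GL (Fin 2) ℝ} (hg : 0 < g.val.det) :
    IsPrim (fun z => F (g • z)) (f ∣[(2 : ℤ)] g) := fun z => by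
  have hdet : g.det.val = g.val.det := Matrix.GeneralLinearGroup.val_det_apply g
  have hσ (x) : σ g x = x := by grind [σ, ContinuousAlgEquiv.refl_apply]
  have h1 : HasDerivAt (fun w ↦ ↑(g • ofComplex w) : ℂ → ℂ)
      ((g.val.det : ℂ) / denom g z ^ 2) ↑z := (hasStrictDerivAt_smul hg z).hasDerivAt
  have h2 : HasDerivAt (F ∘ ofComplex) (f (g • z)) ↑(g • ofComplex (z : ℂ)) :=
    (ofComplex_apply z).symm ▸ h (g • z)
  have h3 := h2.comp (z : ℂ) h1
  have e : (F ∘ ofComplex) ∘ (fun w ↦ ↑(g • ofComplex w) : ℂ → ℂ) =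
      (fun z => F (g • z)) ∘ ofComplex := by
    funext w
    simp [ofComplex_apply]
  rw [e] at h3
  refine h3.congr_deriv ?_
  rw [slash_apply, hσ, hdet, abs_of_pos hg]
  simp only [show (2 : ℤ) - 1 = 1 by norm_num, zpow_neg, zpow_ofNat]
  ring

lemma det_SL (γ : SL(2, ℤ)) : (γ : GL (Fin 2) ℝ).val.det = 1 := by
  rw [← Matrix.GeneralLinearGroup.val_det_apply]; simp

lemma det_SL_pos (γ : SL(2, ℤ)) : 0 < (γ : GL (Fin 2) ℝ).val.det := by
  rw [det_SL]; exact one_pos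

lemma IsPrim.comp_SL (h : IsPrim F f) (γ : SL(2, ℤ)) :
    IsPrim (fun z => F (γ • z)) (f ∣[(2 : ℤ)] γ) := h.comp_smul (det_SL_pos γ)

lemma IsPrim.const_of_zero (h : IsPrim F 0) (z w : ℍ) : F z = F w := by
  have := isOpen_upperHalfPlaneSet.is_const_of_deriv_eq_zero (f := F ∘ ofComplex)
    (convex_halfSpace_im_gt 0).isPreconnected (UpperHalfPlane.mdifferentiable_iff.1 h.mdiff)
    (fun x hx => (h ⟨x, hx⟩).deriv) z.2 w.2
  simpa [ofComplex_apply] using this

lemma IsPrim.sub_eq (h : IsPrim F f) (h' : IsPrim F' f) (z w : ℍ) : F z - F' z = F w - F' w := by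
  have := h.sub h'
  rw [sub_self] at this
  exact this.const_of_zero z w

theorem exists_prim (hf : MDiff f) : ∃ F, IsPrim F f := by
  have hφ : ∀ w : ℂ, w ∈ Metric.ball (0 : ℂ) 1 → 1 - w ≠ 0 ∧ 0 < (I * (1 + w) / (1 - w)).im := by
    intro w hw
    rw [mem_ball_zero_iff] at hw
    have h0 : 1 - w ≠ 0 := by
      intro h
      rw [← sub_eq_zero.1 h] at hw
      simp at hw
    refine ⟨h0, ?_⟩
    have h1 : w.re ^ 2 + w.im ^ 2 < 1 := by
      have := Complex.sq_norm w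
      rw [normSq_apply] at this
      nlinarith [norm_nonneg w]
    have h2 := normSq_pos.2 h0
    rw [div_im, ← sub_div]
    refine div_pos ?_ h2
    simp
    nlinarith
  have hg : DifferentiableOn ℂ (fun w => (f ∘ ofComplex) (I * (1 + w) / (1 - w)) *
      (2 * I / (1 - w) ^ 2)) (Metric.ball 0 1) := by
    intro w hw
    obtain ⟨h0, h1⟩ := hφ w hw
    refine DifferentiableAt.differentiableWithinAt (DifferentiableAt.mul ?_ ?_)
    · refine DifferentiableAt.comp w (g := f ∘ ofComplex) (mdifferentiableAt_iff.1 (hf ⟨_, h1⟩)) ?_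
      exact DifferentiableAt.div (by fun_prop) (by fun_prop) h0
    · exact DifferentiableAt.div (by fun_prop) (by fun_prop) (pow_ne_zero _ h0)
  obtain ⟨G, hG⟩ := hg.isExactOn_ball
  refine ⟨fun z => G ((z - I) / (z + I)), fun z => ?_⟩
  have hz : (z : ℂ) + I ≠ 0 := fun h => by
    have := congrArg Complex.im h
    simp at this
    linarith [z.im_pos]
  have hb : ((z : ℂ) - I) / (z + I) ∈ Metric.ball (0 : ℂ) 1 := by
    rw [mem_ball_zero_iff, norm_div, div_lt_one (norm_pos_iff.2 hz),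
      ← sq_lt_sq₀ (norm_nonneg _) (norm_nonneg _), Complex.sq_norm, Complex.sq_norm]
    simp [normSq_apply]
    nlinarith [z.im_pos]
  have h1 : HasDerivAt (fun w : ℂ => (w - I) / (w + I)) (2 * I / (z + I) ^ 2) z := by
    refine (((hasDerivAt_id (z : ℂ)).sub_const I).div ((hasDerivAt_id (z : ℂ)).add_const I)
      hz).congr_deriv ?_
    simp only [id]
    ring
  have h2 := (hG _ hb).comp (z : ℂ) h1
  have e1 : 1 - ((z : ℂ) - I) / (z + I) = 2 * I / (z + I) := by field_simp; ring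
  have e2 : I * (1 + ((z : ℂ) - I) / (z + I)) / (1 - (z - I) / (z + I)) = z := by
    rw [e1]; field_simp; ring
  refine (h2.congr_deriv ?_).congr_of_eventuallyEq ?_
  · simp only [comp_apply]
    rw [e2, e1, ofComplex_apply]
    field_simp
  · filter_upwards [isOpen_upperHalfPlaneSet.mem_nhds z.im_pos] with w hw
    simp [ofComplex_apply_of_im_pos hw]

open Classical in
/-- a primitive -/
def prim (f : ℍ → ℂ) : ℍ → ℂ := if h : ∃ F, IsPrim F f then h.choose else 0

lemma isPrim_prim (hf : MDiff f) : IsPrim (prim f) f := by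
  rw [prim, dif_pos (exists_prim hf)]
  exact (exists_prim hf).choose_spec

/-- the period `∫_i^{g i} f` -/
def per (f : ℍ → ℂ) (g : GL (Fin 2) ℝ) : ℂ := prim f (g • UpperHalfPlane.I) - prim f UpperHalfPlane.I

lemma IsPrim.per_def (h : IsPrim F f) (g : GL (Fin 2) ℝ) :
    per f g = F (g • UpperHalfPlane.I) - F UpperHalfPlane.I := by
  have := (isPrim_prim h.mdiff').sub_eq h (g • UpperHalfPlane.I) UpperHalfPlane.I
  rw [per]
  linear_combination this

lemma IsPrim.per_eq (h : IsPrim F f) {g : GL (Fin 2) ℝ} (hg : 0 < g.val.det)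
    (hfg : f ∣[(2 : ℤ)] g = f) (z : ℍ) : F (g • z) = per f g + F z := by
  have h1 := h.comp_smul hg
  rw [hfg] at h1
  have := h1.sub_eq h z UpperHalfPlane.I
  rw [h.per_def]
  linear_combination this

lemma per_add (hf : MDiff f) (hf' : MDiff f') (g : GL (Fin 2) ℝ) :
    per (f + f') g = per f g + per f' g := by
  rw [((isPrim_prim hf).add (isPrim_prim hf')).per_def, per, per]
  simp only [Pi.add_apply]
  ring

lemma per_sub (hf : MDiff f) (hf' : MDiff f') (g : GL (Fin 2) ℝ) :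
    per (f - f') g = per f g - per f' g := by
  rw [((isPrim_prim hf).sub (isPrim_prim hf')).per_def, per, per]
  simp only [Pi.sub_apply]
  ring

lemma per_smul (c : ℂ) (hf : MDiff f) (g : GL (Fin 2) ℝ) : per (c • f) g = c * per f g := by
  rw [((isPrim_prim hf).smul c).per_def, per]
  simp only [Pi.smul_apply, smul_eq_mul]
  ring

lemma per_zero (g : GL (Fin 2) ℝ) : per 0 g = 0 := by
  rw [(isPrim_const 0).per_def, sub_self]

lemma per_mul (hf : MDiff f) {g : GL (Fin 2) ℝ} (hg : 0 < g.val.det) (hfg : f ∣[(2 : ℤ)] g = f)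
    (g' : GL (Fin 2) ℝ) : per f (g * g') = per f g + per f g' := by
  have := (isPrim_prim hf).per_eq hg hfg (g' • UpperHalfPlane.I)
  rw [per, mul_smul, this, per, per]
  ring

/-! ### the cusp `i∞` -/

/-- shape of a primitive at `i∞` -/
theorem IsPrim.cusp (h : IsPrim F f) {M : ℝ} (hM : 0 < M) (hp : Periodic (f ∘ ofComplex) M)
    (hb : IsBoundedAtImInfty f) : ∃ Ψ : ℂ → ℂ, DifferentiableOn ℂ Ψ (Metric.ball 0 1) ∧
      ∀ z : ℍ, F z = valueAtInfty f * z + Ψ (Periodic.qParam M z) := by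
  have hφ := differentiableOn_cuspFunction_ball hM hp h.mdiff' hb
  have h0 := cuspFunction_apply_zero hM (analyticAt_cuspFunction_zero hM hp h.mdiff' hb) hp
  have hψ : DifferentiableOn ℂ (dslope (cuspFunction M f) 0) (Metric.ball 0 1) :=
    (differentiableOn_dslope (Metric.ball_mem_nhds 0 one_pos)).2 hφ
  obtain ⟨Ψ, hΨ⟩ := hψ.isExactOn_ball
  have hM' : (M : ℂ) ≠ 0 := ofReal_ne_zero.2 hM.ne'
  have hπ : (π : ℂ) ≠ 0 := ofReal_ne_zero.2 Real.pi_ne_zero
  have h1 : IsPrim (fun z : ℍ => valueAtInfty f * z + M / (2 * π * I) * Ψ (Periodic.qParam M z))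
      f := fun z => by
    have hq : Periodic.qParam M z ∈ Metric.ball (0 : ℂ) 1 :=
      mem_ball_zero_iff.2 (Periodic.norm_qParam_lt_one hM z.im_pos)
    have h2 : HasDerivAt (Periodic.qParam M) (Periodic.qParam M z * (2 * π * I / M)) z := by
      have := (((hasDerivAt_id (z : ℂ)).const_mul (2 * π * I)).div_const (M : ℂ)).cexp
      exact this.congr_deriv (by simp [Periodic.qParam])
    have h3 := ((hasDerivAt_id (z : ℂ)).const_mul (valueAtInfty f)).add
      (((hΨ _ hq).comp (z : ℂ) h2).const_mul (M / (2 * π * I)))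
    refine (h3.congr_deriv ?_).congr_of_eventuallyEq ?_
    · have h4 := sub_smul_dslope (cuspFunction M f) 0 (Periodic.qParam M z)
      rw [eq_cuspFunction z hM.ne' hp, h0, sub_zero, smul_eq_mul] at h4
      field_simp
      linear_combination h4
    · filter_upwards [isOpen_upperHalfPlaneSet.mem_nhds z.im_pos] with w hw
      simp [ofComplex_apply_of_im_pos hw]
  refine ⟨fun q => M / (2 * π * I) * Ψ q + (F UpperHalfPlane.I - (valueAtInfty f * UpperHalfPlane.I
    + M / (2 * π * I) * Ψ (Periodic.qParam M UpperHalfPlane.I))), fun q hq => ?_, fun z => ?_⟩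
  · exact (((hΨ q hq).differentiableAt.const_mul _).add_const _).differentiableWithinAt
  · have := h.sub_eq h1 z UpperHalfPlane.I
    linear_combination this

lemma periodic_of_vadd {M : ℝ} {u : ℍ → ℂ} (h : ∀ z : ℍ, u (M +ᵥ z) = u z) :
    Periodic (u ∘ ofComplex) M := fun w => by
  by_cases hw : 0 < w.im
  · have h1 : 0 < (w + M).im := by simpa using hw
    have := h ⟨w, hw⟩
    simp only [comp_apply, ofComplex_apply_of_im_pos hw, ofComplex_apply_of_im_pos h1]
    rw [← this]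
    congr 1
    ext1
    simp [add_comm]
  · have h1 : (w + M).im ≤ 0 := by simpa using hw
    simp only [comp_apply]
    rw [ofComplex_apply_eq_of_im_nonpos h1 (not_lt.1 hw)]

lemma qParam_vadd {M : ℝ} (hM : 0 < M) (z : ℍ) :
    Periodic.qParam M ((M +ᵥ z : ℍ) : ℂ) = Periodic.qParam M z := by
  have hM' : (M : ℂ) ≠ 0 := ofReal_ne_zero.2 hM.ne'
  simp only [Periodic.qParam, coe_vadd]
  rw [show 2 * π * I * (M + (z : ℂ)) / M = 2 * π * I * z / M + 2 * π * I by field_simp; ring,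
    Complex.exp_add, exp_two_pi_mul_I, mul_one]

lemma IsPrim.vadd (h : IsPrim F f) {M : ℝ} (hM : 0 < M) (hp : Periodic (f ∘ ofComplex) M)
    (hb : IsBoundedAtImInfty f) (z : ℍ) : F (M +ᵥ z) = valueAtInfty f * M + F z := by
  obtain ⟨Ψ, -, hΨ⟩ := h.cusp hM hp hb
  rw [hΨ, hΨ z, qParam_vadd hM, coe_vadd]
  ring

/-- a primitive of a form vanishing at `i∞` has a limit there -/
lemma IsPrim.tendsto (h : IsPrim F f) {M : ℝ} (hM : 0 < M) (hp : Periodic (f ∘ ofComplex) M)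
    (hb : IsZeroAtImInfty f) : ∃ c, Tendsto F atImInfty (𝓝 c) := by
  obtain ⟨Ψ, h1, hΨ⟩ := h.cusp hM hp hb.isBoundedAtImInfty
  have e : F = fun z : ℍ => Ψ (Periodic.qParam M z) := funext fun z => by
    rw [hΨ, hb.valueAtInfty_eq_zero, zero_mul, zero_add]
  rw [e]
  exact ⟨Ψ 0, (h1.differentiableAt (Metric.ball_mem_nhds 0 one_pos)).continuousAt.tendsto.comp
    (qParam_tendsto_atImInfty hM)⟩

lemma bdd_of_tendsto {u : ℍ → ℂ} {c : ℂ} (h : Tendsto u atImInfty (𝓝 c)) :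
    IsBoundedAtImInfty u := h.isBigO_one ℝ

lemma tendsto_valueAtInfty {u : ℍ → ℂ} {M : ℝ} (hM : 0 < M) (hp : Periodic (u ∘ ofComplex) M)
    (hu : MDiff u) (hb : IsBoundedAtImInfty u) : Tendsto u atImInfty (𝓝 (valueAtInfty u)) := by
  have ha := analyticAt_cuspFunction_zero hM hp hu hb
  have : (cuspFunction M u ∘ fun τ : ℍ ↦ Periodic.qParam M τ) = u :=
    funext fun τ => eq_cuspFunction τ hM.ne' hp
  have h2 := ha.continuousAt.tendsto.comp (qParam_tendsto_atImInfty hM)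
  rwa [this, cuspFunction_apply_zero hM ha hp] at h2

/-! ### the spaces of forms -/

/-- modular forms -/
def MS (Γ : Subgroup SL(2, ℤ)) (k : ℤ) : Submodule ℂ (ℍ → ℂ) where
  carrier := {f | MDiff f ∧ (∀ γ ∈ Γ, f ∣[k] γ = f) ∧ ∀ s : SL(2, ℤ), IsBoundedAtImInfty (f ∣[k] s)}
  add_mem' {a b} ha hb := ⟨ha.1.add hb.1,
    fun γ hγ => by rw [SlashAction.add_slash, ha.2.1 γ hγ, hb.2.1 γ hγ],
    fun s => by rw [SlashAction.add_slash]; exact (ha.2.2 s).add (hb.2.2 s)⟩
  zero_mem' := ⟨mdifferentiable_const, fun γ _ => by simp,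
    fun s => by simpa using! zero_form_isBoundedAtImInfty⟩
  smul_mem' c a ha := ⟨ha.1.const_smul c, fun γ hγ => by rw [SL_smul_slash, ha.2.1 γ hγ],
    fun s => by rw [SL_smul_slash]; exact (ha.2.2 s).const_smul_left c⟩

/-- cusp forms -/
def CS (Γ : Subgroup SL(2, ℤ)) (k : ℤ) : Submodule ℂ (ℍ → ℂ) where
  carrier := {f | MDiff f ∧ (∀ γ ∈ Γ, f ∣[k] γ = f) ∧ ∀ s : SL(2, ℤ), IsZeroAtImInfty (f ∣[k] s)}
  add_mem' {a b} ha hb := ⟨ha.1.add hb.1,
    fun γ hγ => by rw [SlashAction.add_slash, ha.2.1 γ hγ, hb.2.1 γ hγ],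
    fun s => by rw [SlashAction.add_slash]; exact (ha.2.2 s).add (hb.2.2 s)⟩
  zero_mem' := ⟨mdifferentiable_const, fun γ _ => by simp,
    fun s => by simpa using! Filter.zero_zeroAtFilter atImInfty⟩
  smul_mem' c a ha := ⟨ha.1.const_smul c, fun γ hγ => by rw [SL_smul_slash, ha.2.1 γ hγ],
    fun s => by rw [SL_smul_slash]; exact (ha.2.2 s).smul c⟩

variable {Γ : Subgroup SL(2, ℤ)} {k : ℤ}

lemma CS_le_MS : CS Γ k ≤ MS Γ k := fun _ h => ⟨h.1, h.2.1, fun s => (h.2.2 s).isBoundedAtImInfty⟩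

lemma MS_anti {Γ' : Subgroup SL(2, ℤ)} (h : Γ ≤ Γ') : MS Γ' k ≤ MS Γ k :=
  fun _ hf => ⟨hf.1, fun γ hγ => hf.2.1 γ (h hγ), hf.2.2⟩

lemma CS_anti {Γ' : Subgroup SL(2, ℤ)} (h : Γ ≤ Γ') : CS Γ' k ≤ CS Γ k :=
  fun _ hf => ⟨hf.1, fun γ hγ => hf.2.1 γ (h hγ), hf.2.2⟩

lemma mdiff_slash (hf : MDiff f) (s : SL(2, ℤ)) : MDiff (f ∣[k] s) := hf.slash k _

/-- a common period of all cusps -/
def IsWid (Γ : Subgroup SL(2, ℤ)) (M : ℕ) : Prop :=
  0 < M ∧ ∀ s : SL(2, ℤ), s * ModularGroup.T ^ M * s⁻¹ ∈ Γ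

lemma exists_wid (Γ : Subgroup SL(2, ℤ)) [Γ.FiniteIndex] : ∃ M, IsWid Γ M :=
  ⟨Γ.normalCore.index, Nat.pos_of_ne_zero Subgroup.FiniteIndex.index_ne_zero, fun s =>
    Γ.normalCore_le (Subgroup.Normal.conj_mem inferInstance _ (Γ.normalCore.pow_index_mem _) s)⟩

lemma T_pow_smul (M : ℕ) (z : ℍ) : ModularGroup.T ^ M • z = (M : ℝ) +ᵥ z := by
  have := modular_T_zpow_smul z M
  rwa [zpow_natCast, Int.cast_natCast] at this

lemma slash_T_pow (u : ℍ → ℂ) (M : ℕ) (z : ℍ) :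
    (u ∣[k] (ModularGroup.T ^ M)) z = u ((M : ℝ) +ᵥ z) := by
  have h : denom (ModularGroup.T ^ M : SL(2, ℤ)) z = 1 := by
    have := ModularGroup.coe_T_zpow M
    rw [zpow_natCast] at this
    rw [ModularGroup.denom_apply, this]
    simp
  rw [SL_slash_apply, h, T_pow_smul, one_zpow, mul_one]

lemma IsWid.pos {M : ℕ} (hM : IsWid Γ M) : (0 : ℝ) < M := Nat.cast_pos.2 hM.1

lemma IsWid.periodic {M : ℕ} (hM : IsWid Γ M) (hf : ∀ γ ∈ Γ, f ∣[k] γ = f) (s : SL(2, ℤ)) :
    Periodic ((f ∣[k] s) ∘ ofComplex) (M : ℝ) := periodic_of_vadd fun z => by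
  rw [← slash_T_pow (k := k) (f ∣[k] s) M z, ← SlashAction.slash_mul,
    show s * ModularGroup.T ^ M = s * ModularGroup.T ^ M * s⁻¹ * s by group,
    SlashAction.slash_mul, hf _ (hM.2 s)]

lemma per_SL (h : IsPrim F f) {γ : SL(2, ℤ)} (hγ : f ∣[(2 : ℤ)] γ = f) (z : ℍ) :
    F (γ • z) = per f γ + F z := h.per_eq (det_SL_pos γ) hγ z

/-- parabolic periods are the constant terms -/
theorem per_par {M : ℕ} (hM : IsWid Γ M) (hf : f ∈ MS Γ 2) (s : SL(2, ℤ)) :
    per f (s * ModularGroup.T ^ M * s⁻¹ : SL(2, ℤ)) = valueAtInfty (f ∣[(2 : ℤ)] s) * M := by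
  have h := isPrim_prim hf.1
  have h1 := (h.comp_SL s).vadd hM.pos (hM.periodic hf.2.1 s) (hf.2.2 s) UpperHalfPlane.I
  have h2 := per_SL h (hf.2.1 _ (hM.2 s)) (s • UpperHalfPlane.I)
  rw [← T_pow_smul, ← mul_smul] at h1
  rw [← mul_smul, inv_mul_cancel_right, h1] at h2
  push_cast at h2
  linear_combination -h2

lemma mem_CS_iff {M : ℕ} (hM : IsWid Γ M) (hf : f ∈ MS Γ 2) :
    f ∈ CS Γ 2 ↔ ∀ s : SL(2, ℤ), per f (s * ModularGroup.T ^ M * s⁻¹ : SL(2, ℤ)) = 0 := by
  simp only [per_par hM hf]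
  refine ⟨fun h s => by rw [(h.2.2 s).valueAtInfty_eq_zero, zero_mul], fun h => ⟨hf.1, hf.2.1,
    fun s => ?_⟩⟩
  have h1 := tendsto_valueAtInfty hM.pos (hM.periodic hf.2.1 s) (mdiff_slash hf.1 s) (hf.2.2 s)
  rwa [(mul_eq_zero.1 (h s)).resolve_right (Nat.cast_ne_zero.2 hM.1.ne')] at h1

/-- maximum principle on the compactified quotient -/
theorem max_principle [Γ.FiniteIndex] {U : ℍ → ℂ} (hU : MDiff U) {M : ℝ} (hM : 0 < M)
    (hp : ∀ (s : SL(2, ℤ)) (z : ℍ), U (s • (M +ᵥ z)) = U (s • z))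
    (hb : ∀ s : SL(2, ℤ), IsBoundedAtImInfty fun z => U (s • z))
    (hn : ∀ γ ∈ Γ, ∀ z, ‖U (γ • z)‖ = ‖U z‖) : ∃ c, ∀ z, U z = c := by
  set r := Real.exp (-π / M)
  have hr0 : 0 ≤ r := (Real.exp_pos _).le
  have hr1 : r < 1 := Real.exp_lt_one_iff.2 (div_neg_of_neg_of_pos (by simp [Real.pi_pos]) hM)
  have hd : ∀ s : SL(2, ℤ), MDiff fun z => U (s • z) := fun s =>
    hU.comp (mdifferentiable_smul (g := s) (by simp))
  have hp' : ∀ s : SL(2, ℤ), Periodic ((fun z => U (s • z)) ∘ ofComplex) M := fun s =>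
    periodic_of_vadd (hp s)
  set φ : SL(2, ℤ) → ℂ → ℂ := fun s => cuspFunction M fun z => U (s • z)
  have hφ : ∀ s, DifferentiableOn ℂ (φ s) (Metric.ball 0 1) := fun s =>
    differentiableOn_cuspFunction_ball hM (hp' s) (hd s) (hb s)
  have hφ' : ∀ s (z : ℍ), φ s (Periodic.qParam M z) = U (s • z) := fun s z =>
    eq_cuspFunction z hM.ne' (hp' s)
  have hw : ∀ s, ∃ w ∈ Metric.closedBall (0 : ℂ) r, IsMaxOn (fun q => ‖φ s q‖)
      (Metric.closedBall 0 r) w := fun s => (isCompact_closedBall 0 r).exists_isMaxOn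
    (Metric.nonempty_closedBall.2 hr0)
    ((hφ s).continuousOn.mono (Metric.closedBall_subset_ball hr1)).norm
  choose w hw1 hw2 using hw
  obtain ⟨x, hx⟩ := Finite.exists_max fun x : SL(2, ℤ) ⧸ Γ => ‖φ x.out⁻¹ (w x.out⁻¹)‖
  have key := Complex.eq_const_of_exists_le (hφ x.out⁻¹) hr0 hr1 fun q hq => by
    refine ⟨w _, hw1 x.out⁻¹, ?_⟩
    rcases eq_or_ne q 0 with rfl | hq'
    · exact hw2 _ (Metric.mem_closedBall_self hr0)
    set τ : ℍ := ⟨_, Periodic.im_invQParam_pos_of_norm_lt_one hM (mem_ball_zero_iff.mp hq) hq'⟩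
    have e1 : q = Periodic.qParam M τ := (Periodic.qParam_right_inv hM.ne' hq').symm
    obtain ⟨γ, hγ⟩ := ModularGroup.exists_one_half_le_im_smul τ
    set y : SL(2, ℤ) ⧸ Γ := QuotientGroup.mk (γ * x.out)
    have hy : (γ * x.out)⁻¹ * y.out ∈ Γ := QuotientGroup.eq.1 (Quotient.out_eq y).symm
    have h1 := hn _ hy (y.out⁻¹ • γ • τ)
    rw [← mul_smul, mul_inv_cancel_right, ← mul_smul, mul_inv_rev, inv_mul_cancel_right] at h1
    rw [e1, hφ', h1, ← hφ']
    refine le_trans (hw2 y.out⁻¹ ?_) (hx y)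
    rw [mem_closedBall_zero_iff, Periodic.norm_qParam]
    refine Real.exp_le_exp.2 (div_le_div_of_nonneg_right ?_ hM.le)
    rw [coe_im]
    nlinarith [Real.pi_pos]
  refine ⟨φ x.out⁻¹ 0, fun z => ?_⟩
  have := key (mem_ball_zero_iff.2 (Periodic.norm_qParam_lt_one hM (x.out • z).im_pos))
  rwa [hφ', inv_smul_smul] at this

/-- a cusp form with purely imaginary periods vanishes -/
theorem re_per_inj [Γ.FiniteIndex] (hf : f ∈ CS Γ 2) (h : ∀ γ ∈ Γ, (per f γ).re = 0) : f = 0 := by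
  obtain ⟨M, hM⟩ := exists_wid Γ
  have hF := isPrim_prim hf.1
  obtain ⟨c, hc⟩ := max_principle (Γ := Γ) (U := fun z => exp (prim f z))
    (fun z => mdifferentiableAt_iff.2 (hF z).differentiableAt.cexp) hM.pos
    (fun s z => by
      have := (hF.comp_SL s).vadd hM.pos (hM.periodic hf.2.1 s) (hf.2.2 s).isBoundedAtImInfty z
      simp only [this, (hf.2.2 s).valueAtInfty_eq_zero, zero_mul, zero_add])
    (fun s => by
      obtain ⟨c, hc⟩ := (hF.comp_SL s).tendsto hM.pos (hM.periodic hf.2.1 s) (hf.2.2 s)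
      exact bdd_of_tendsto hc.cexp)
    (fun γ hγ z => by
      simp only [per_SL hF (hf.2.1 γ hγ), norm_exp, add_re, h γ hγ, zero_add])
  have h1 : IsPrim (fun z => exp (prim f z)) fun z => exp (prim f z) * f z := fun z => by
    simpa [comp_def, ofComplex_apply] using (hF z).cexp
  rw [funext hc] at h1
  funext z
  have := congrFun (h1.unique (isPrim_const c)) z
  simpa [← hc z] using this

/-- **injectivity of the Eichler-Shimura map** -/
theorem es_inj [Γ.FiniteIndex] {g : ℍ → ℂ} (hf : f ∈ MS Γ 2) (hg : g ∈ CS Γ 2)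
    (h : ∀ γ ∈ Γ, per f γ + conj (per g γ) = 0) : f = 0 ∧ g = 0 := by
  obtain ⟨M, hM⟩ := exists_wid Γ
  have hf' : f ∈ CS Γ 2 := (mem_CS_iff hM hf).2 fun s => by
    have := h _ (hM.2 s)
    rwa [(mem_CS_iff hM (CS_le_MS hg)).1 hg s, map_zero, add_zero] at this
  have h1 := re_per_inj ((CS Γ 2).add_mem hf' hg) fun γ hγ => by
    have := congrArg Complex.re (h γ hγ)
    rw [per_add hf.1 hg.1]
    simpa using this
  have h2 := re_per_inj ((CS Γ 2).smul_mem I ((CS Γ 2).sub_mem hf' hg)) fun γ hγ => by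
    have := congrArg Complex.im (h γ hγ)
    rw [per_smul _ (hf.1.sub hg.1), per_sub hf.1 hg.1]
    simp at this ⊢
    linarith
  have h3 : f - g = 0 := (smul_eq_zero.1 h2).resolve_left I_ne_zero
  rw [sub_eq_zero.1 h3, ← two_smul ℂ g] at h1
  have h4 := (smul_eq_zero.1 h1).resolve_left two_ne_zero
  exact ⟨(sub_eq_zero.1 h3).trans h4, h4⟩

end Crest.Agent.T15.Esc
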