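import Crest.Agent.T15.HabB_58
import Crest.Agent.T15.EscA_99
import Crest.Agent.T15.Hk_62

/-!
# Row 15, block Ht (helper58): Haberland's inequality for cusp forms of weight two
-/

set_option autoImplicit false
set_option linter.unusedSectionVars false

noncomputable section

namespace Crest.Agent.T15.Hab

open UpperHalfPlane hiding I
open Complex ModularForm Filter Function Set
open Crest.Agent.T15.Esc Crest.Agent.T15.Hk
open scoped MatrixGroups Manifold Topology Real ComplexConjugate

/-- right multiplication on the right cosets -/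
def rm {G : Type*} [Group G] (Γ : Subgroup G) (g : G) : Equiv.Perm (RC Γ) where
  toFun := Quotient.map' (· * g) fun a b h => by
    rw [QuotientGroup.rightRel_apply] at h ⊢; simpa using h
  invFun := Quotient.map' (· * g⁻¹) fun a b h => by
    rw [QuotientGroup.rightRel_apply] at h ⊢; simpa using h
  left_inv x := by
    induction x using Quotient.inductionOn' with
    | h a => exact congrArg (cs Γ) (mul_inv_cancel_right a g)
  right_inv x := by
    induction x using Quotient.inductionOn' with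
    | h a => exact congrArg (cs Γ) (inv_mul_cancel_right a g)

lemma rm_cs {G : Type*} [Group G] (Γ : Subgroup G) (g h : G) : rm Γ g (cs Γ h) = cs Γ (h * g) := rfl

lemma cs_surj {G : Type*} [Group G] (Γ : Subgroup G) (x : RC Γ) : ∃ g, x = cs Γ g :=
  ⟨x.out, (Quotient.out_eq x).symm⟩

/-- the permutation `A ↦ A S T` of Haberland's form -/
def VV (Γ : Subgroup SL(2, ℤ)) (A : RC Γ) : RC Γ := rm Γ ModularGroup.T (rm Γ ModularGroup.S A)

lemma VV_cs (Γ : Subgroup SL(2, ℤ)) (g : SL(2, ℤ)) :
    VV Γ (cs Γ g) = cs Γ (g * ModularGroup.S * ModularGroup.T) := rfl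

/-- the constant of the coefficient bound -/
def c0 : ℝ := 6 * Real.exp (-4 * π) ^ 2

lemma c0_pos : 0 < c0 := by unfold c0; positivity

variable {Γ : Subgroup SL(2, ℤ)} {f : ℍ → ℂ}

lemma T_smul' (z : ℍ) : ModularGroup.T • z = (1 : ℝ) +ᵥ z := by
  have := T_pow_smul 1 z
  rwa [pow_one, Nat.cast_one] at this

lemma tendsto_T : Tendsto (fun z : ℍ => ModularGroup.T • z) atImInfty atImInfty := by
  simp only [T_smul', atImInfty, tendsto_comap_iff, Function.comp_def, vadd_im]
  exact tendsto_comap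

lemma ofC_T {z : ℂ} (hz : 0 < z.im) : ofComplex (z + 1) = ModularGroup.T • ofComplex z := by
  rw [ofComplex_apply_of_im_pos hz, ofComplex_apply_of_im_pos (by simpa using hz), T_smul']
  ext1
  simp [add_comm]

lemma ofC_S {z : ℂ} (hz : 0 < z.im) : ofComplex (-1 / z) = ModularGroup.S • ofComplex z := by
  rw [ofComplex_apply_of_im_pos hz, ofComplex_apply_of_im_pos (im_neg_inv hz), modular_S_smul]
  ext1
  simp [div_eq_mul_inv, inv_neg]

lemma coef_bound (hf : MDiff f) (hp : Periodic (f ∘ ofComplex) (1 : ℝ)) (hb : IsBoundedAtImInfty f)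
    {y : ℝ} (hy : y ∈ Icc (1 : ℝ) 2) :
    Real.exp (-4 * π) * ‖(qExpansion 1 f).coeff 1‖ ≤
      ∫ x in (-1 / 2 : ℝ)..(1 / 2), ‖(f ∘ ofComplex) (x + I * y)‖ := by
  have hy0 : 0 < y := by linarith [hy.1]
  have h1 := qExpansion_coeff_eq_intervalIntegral one_pos hp hf hb 1 hy0
  have hper : Periodic (fun x : ℝ => ‖(f ∘ ofComplex) (x + I * y)‖) 1 := fun x => by
    have := hp (x + I * y)
    simp only [ofReal_add, ofReal_one] at this ⊢
    rw [show (x : ℂ) + 1 + I * y = x + I * y + 1 by ring, this]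
  have h2 := hper.intervalIntegral_add_eq (-1 / 2) 0
  rw [show (-1 / 2 : ℝ) + 1 = 1 / 2 by norm_num, zero_add] at h2
  have hc : Continuous fun x : ℝ => ‖(f ∘ ofComplex) (x + I * y)‖ := by
    have hd := (UpperHalfPlane.mdifferentiable_iff.1 hf).continuousOn
    exact (hd.comp_continuous (by fun_prop) fun x => by simpa using hy0).norm
  have h3 : ‖(qExpansion 1 f).coeff 1‖ ≤
      ∫ x in (0 : ℝ)..1, Real.exp (4 * π) * ‖(f ∘ ofComplex) (x + I * y)‖ := by
    rw [h1, ofReal_one, div_one, one_mul]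
    refine intervalIntegral.norm_integral_le_of_norm_le zero_le_one
      (Eventually.of_forall fun x _ => ?_) ((hc.const_mul _).intervalIntegrable _ _)
    rw [norm_mul, norm_div, norm_one, pow_one, Periodic.norm_qParam, mul_comm I,
      comp_ofComplex_of_im_pos f _ (by simpa using hy0)]
    refine mul_le_mul_of_nonneg_right ?_ (norm_nonneg _)
    rw [one_div, ← Real.exp_neg]
    refine Real.exp_le_exp.2 ?_
    simp
    nlinarith [Real.pi_pos, hy.2]
  rw [intervalIntegral.integral_const_mul, ← h2] at h3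
  have h4 : Real.exp (-4 * π) * Real.exp (4 * π) = 1 := by rw [← Real.exp_add]; simp
  calc _ ≤ Real.exp (-4 * π) * (Real.exp (4 * π) * ∫ x in (-1 / 2 : ℝ)..(1 / 2),
        ‖(f ∘ ofComplex) (x + I * y)‖) := mul_le_mul_of_nonneg_left h3 (Real.exp_pos _).le
    _ = _ := by rw [← mul_assoc, h4, one_mul]

/-- **Haberland's inequality for a cusp form.**  `c A` is the value of the primitive at the cusp
`A ∞` and `r (Γ A) = c (A S) - c A` is the Manin symbol. -/
theorem hab_CS [Fintype (RC Γ)] (hn : (-1 : SL(2, ℤ)) ∈ Γ) (hT : ModularGroup.T ∈ Γ)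
    (hf : f ∈ CS Γ 2) {c : SL(2, ℤ) → ℂ}
    (hc : ∀ A : SL(2, ℤ), Tendsto (fun z => prim f (A • z)) atImInfty (𝓝 (c A))) {r : RC Γ → ℂ}
    (hr : ∀ A, r (cs Γ A) = c (A * ModularGroup.S) - c A) :
    c0 * ‖(qExpansion 1 f).coeff 1‖ ^ 2 ≤ -∑ A, (conj (r A) * r (VV Γ A)).im := by
  have hF := isPrim_prim hf.1
  have c1 : ∀ γ ∈ Γ, ∀ A, c (γ * A) = per f γ + c A := fun γ hγ A => by
    refine tendsto_nhds_unique (hc _) ?_
    simp only [mul_smul, per_SL hF (hf.2.1 γ hγ)]
    exact (hc A).const_add _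
  have c2 : ∀ A, c (A * ModularGroup.T) = c A := fun A => by
    refine tendsto_nhds_unique (hc _) ?_
    simp only [mul_smul]
    exact (hc A).comp tendsto_T
  set G : RC Γ → ℂ → ℂ := fun A z => prim f (A.out • ofComplex z) - c A.out with hG
  set g : RC Γ → ℂ → ℂ := fun A => (f ∣[(2 : ℤ)] A.out) ∘ ofComplex with hg
  have G1 : ∀ A z, G (cs Γ A) z = prim f (A • ofComplex z) - c A := fun A z => by
    have h1 := mul_out_mem Γ A
    have h2 := c1 _ h1 (cs Γ A).out
    have h3 := per_SL hF (hf.2.1 _ h1) ((cs Γ A).out • ofComplex z)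
    rw [inv_mul_cancel_right] at h2
    rw [← mul_smul, inv_mul_cancel_right] at h3
    rw [h2, h3, hG]
    ring
  have cn : ∀ A : SL(2, ℤ), cs Γ (A * -1) = cs Γ A := fun A => by
    rw [show A * -1 = -1 * A by simp, cs_mul hn]
  have hS : Sys (rm Γ ModularGroup.S) (rm Γ ModularGroup.T) G g r := by
    refine ⟨fun A z hz => ?_, fun A z hz => ?_, fun A z hz => ?_, fun A => ?_, fun A => ?_,
      fun A ε hε => ?_⟩
    · have := (hF.comp_SL A.out ⟨z, hz⟩).sub_const (c A.out)
      rw [hg]
      simp only [comp_apply, ofComplex_apply_of_im_pos hz]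
      exact this
    · obtain ⟨a, rfl⟩ := cs_surj Γ A
      rw [rm_cs, G1, G1, ofC_T hz, mul_smul, c2]
    · obtain ⟨a, rfl⟩ := cs_surj Γ A
      rw [rm_cs, G1, G1, ofC_S hz, mul_smul, hr]
      ring
    · obtain ⟨a, rfl⟩ := cs_surj Γ A
      rw [rm_cs, rm_cs, mul_assoc, show (ModularGroup.S * ModularGroup.S : SL(2, ℤ)) = -1 by decide,
        cn]
    · obtain ⟨a, rfl⟩ := cs_surj Γ A
      simp only [rm_cs, mul_assoc]
      rw [show (ModularGroup.S * (ModularGroup.T * (ModularGroup.S * (ModularGroup.T *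
        (ModularGroup.S * ModularGroup.T)))) : SL(2, ℤ)) = -1 by decide, cn]
    · have h1 := (Metric.tendsto_nhds.1 (hc A.out) ε hε).and
        (Metric.tendsto_nhds.1 (hf.2.2 A.out) ε hε)
      obtain ⟨Y, hY⟩ := (atImInfty_mem _).1 h1
      refine ⟨max Y 1, fun z hz => ?_⟩
      have hz0 : 0 < z.im := by linarith [le_max_right Y 1]
      have := hY ⟨z, hz0⟩ ((le_max_left Y 1).trans hz)
      simp only [mem_ofPred_eq, dist_eq_norm, sub_zero] at this
      simp only [hG, hg, comp_apply, ofComplex_apply_of_im_pos hz0]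
      exact ⟨this.1.le, this.2.le⟩
  have g1 : g (cs Γ 1) = f ∘ ofComplex := by
    have h1 : (cs Γ (1 : SL(2, ℤ))).out ∈ Γ := by simpa using mul_out_mem Γ (1 : SL(2, ℤ))
    rw [hg]
    simp only [hf.2.1 _ h1]
  have hp : Periodic (f ∘ ofComplex) (1 : ℝ) := periodic_of_vadd fun z => by
    have := slash_T_pow (k := 2) f 1 z
    rw [pow_one, hf.2.1 _ hT, Nat.cast_one] at this
    exact this.symm
  have hb : IsBoundedAtImInfty f := by simpa using (hf.2.2 1).isBoundedAtImInfty
  have h1 := hS.haberland (cs Γ 1)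
  have h2 := coef_le (hS.prim (cs Γ 1))
    (c := Real.exp (-4 * π) * ‖(qExpansion 1 f).coeff 1‖) (by positivity) fun y hy => by
      rw [g1]; exact coef_bound hf.1 hp hb hy
  rw [mul_pow] at h2
  unfold c0 VV
  linarith

end Crest.Agent.T15.Hab
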