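import Crest.Agent.T15.MsB_40

/-!
# Row 15, block Ht (helper40): normalised symbols, heights, cosets

* `Ht x` height of a cusp, `Sz δ m` integral matrices with small entries, `exists_rep`;
* `kp Γ x` the canonical cusp of the orbit of `x`, `nm Γ Φ x = Φ x - Φ (kp Γ x)`;
* `rm g` right multiplication on the cosets, `rs Γ f`, `rn Γ f` the symbols, `hab_rn`, `per_comb`.
-/

set_option autoImplicit false
set_option linter.unusedSectionVars false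

noncomputable section

namespace Crest.Agent.T15.Ms

open UpperHalfPlane hiding I
open MatrixGroups ModularGroup OnePoint Matrix.SpecialLinearGroup ModularForm Filter Complex
open scoped Topology Manifold ComplexConjugate
open Crest.Agent.T15.Mf Crest.Agent.T15.Hk Crest.Agent.T15.Esc

/-- the height of a cusp -/
def Ht (x : Cu) : ℕ := OnePoint.rec 1 (fun q : ℚ => max q.num.natAbs q.den) x

lemma ht_le_Ht (x : Cu) : ht x ≤ Ht x := by
  induction x using OnePoint.rec with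
  | infty => exact Nat.zero_le _
  | coe q => exact le_max_right _ _

lemma Ht_pos (x : Cu) : 1 ≤ Ht x := by
  induction x using OnePoint.rec with
  | infty => exact le_rfl
  | coe q => exact le_max_of_le_right q.den_pos

lemma Ht_infty_le (δ : GQ) {a c : ℤ} (ha : (δ : GL (Fin 2) ℚ) 0 0 = a)
    (hc : (δ : GL (Fin 2) ℚ) 1 0 = c) {n : ℕ} (hn : 1 ≤ n) (h1 : a.natAbs ≤ n) (h2 : c.natAbs ≤ n) :
    Ht (ac δ ∞) ≤ n := by
  rw [ac_infty, ha, hc]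
  split_ifs with h
  · exact hn
  · have hc0 : c ≠ 0 := by exact_mod_cast h
    refine max_le ?_ ((den_div_le a c hc0).trans h2)
    rcases eq_or_ne a 0 with rfl | h0
    · simp
    · have := Rat.num_dvd a hc0
      rw [Rat.divInt_eq_div] at this
      exact (Nat.le_of_dvd (Int.natAbs_pos.2 h0) (Int.natAbs_dvd_natAbs.2 this)).trans h1

lemma exists_vec (x : Cu) : ∃ g : SL(2, ℤ), cu g ∞ = x ∧ (g 0 0).natAbs ≤ Ht x ∧
    (g 1 0).natAbs ≤ Ht x := by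
  induction x using OnePoint.rec with
  | infty => exact ⟨1, cu_one _, le_rfl, Nat.zero_le _⟩
  | coe q =>
    refine ⟨_, cu_nx q, ?_, by rw [← ht_cu, cu_nx]; exact ht_le_Ht _⟩
    have g0 : 0 < nx q 1 0 := (nx_rd q).1.trans_lt (nx_rd q).2
    have h := cu_nx q
    rw [cu_infty, if_neg g0.ne'] at h
    rw [← Rat.num_div_eq_of_coprime g0 (coprime_col _), coe_injective h]
    exact le_max_left _ _

/-- integral matrices with entries at most `m` -/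
def Sz (δ : GQ) (m : ℕ) : Prop := 1 ≤ m ∧ ∃ M : Fin 2 → Fin 2 → ℤ,
  (∀ i j, (δ : GL (Fin 2) ℚ) i j = M i j) ∧ ∀ i j, (M i j).natAbs ≤ m

lemma Sz.mono {δ : GQ} {m m' : ℕ} (h : Sz δ m) (h' : m ≤ m') : Sz δ m' :=
  let ⟨h1, M, h2, h3⟩ := h
  ⟨h1.trans h', M, h2, fun i j => (h3 i j).trans h'⟩

lemma Sz.Ht_le {δ : GQ} {m : ℕ} (h : Sz δ m) (x : Cu) : Ht (ac δ x) ≤ 2 * m * Ht x := by
  obtain ⟨h1, M, h2, h3⟩ := h
  obtain ⟨g, hg, h4, h5⟩ := exists_vec x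
  have e : ∀ i, ((δ * Mf.sq g : GQ) : GL (Fin 2) ℚ) i 0 = (M i 0 * g 0 0 + M i 1 * g 1 0 : ℤ) := by
    intro i
    rw [Subgroup.coe_mul, Units.val_mul, Matrix.mul_apply, Fin.sum_univ_two, h2, h2, sq_apply,
      sq_apply]
    push_cast; rfl
  have b : ∀ i, (M i 0 * g 0 0 + M i 1 * g 1 0).natAbs ≤ 2 * m * Ht x := fun i =>
    (Int.natAbs_add_le _ _).trans (by
      rw [Int.natAbs_mul, Int.natAbs_mul]
      linarith [Nat.mul_le_mul (h3 i 0) h4, Nat.mul_le_mul (h3 i 1) h5])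
  conv_lhs => rw [← hg, cu, ← ac_mul]
  exact Ht_infty_le _ (e 0) (e 1) (by nlinarith [Ht_pos x]) (b 0) (b 1)

variable {Γ : Subgroup SL(2, ℤ)}

instance [Γ.FiniteIndex] : Finite (RC Γ) :=
  Finite.of_equiv _ (QuotientGroup.quotientRightRelEquivQuotientLeftRel Γ).symm

/-- right multiplication on the cosets -/
def rm (g : SL(2, ℤ)) : Equiv.Perm (RC Γ) where
  toFun A := cs Γ (A.out * g)
  invFun A := cs Γ (A.out * g⁻¹)
  left_inv A := (cs_eq.2 (by simpa [mul_assoc] using mul_out_mem Γ (A.out * g))).trans A.out_eq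
  right_inv A := (cs_eq.2 (by simpa [mul_assoc] using mul_out_mem Γ (A.out * g⁻¹))).trans A.out_eq

lemma cs_out (A : RC Γ) : cs Γ A.out = A := A.out_eq

lemma cs_mul_right {g h : SL(2, ℤ)} (e : cs Γ g = cs Γ h) (s : SL(2, ℤ)) :
    cs Γ (g * s) = cs Γ (h * s) := cs_eq.2 (by simpa [mul_assoc] using cs_eq.1 e)

lemma rm_cs (g h : SL(2, ℤ)) : rm g (cs Γ h) = cs Γ (h * g) := cs_mul_right (cs_out _) g

/-- small representatives of the cosets -/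
theorem exists_rep [Γ.FiniteIndex] (A : RC Γ) :
    ∃ g : SL(2, ℤ), cs Γ g = A ∧ ∀ i j, (g i j).natAbs ≤ 2 ^ Nat.card (RC Γ) := by
  let X : ℕ → Set (RC Γ) := fun k => {A | ∃ g, cs Γ g = A ∧ ∀ i j, (g i j).natAbs ≤ 2 ^ k}
  have mono : ∀ k, X k ⊆ X (k + 1) := fun k A ⟨g, h1, h2⟩ =>
    ⟨g, h1, fun i j => (h2 i j).trans (Nat.pow_le_pow_right two_pos k.le_succ)⟩
  have one : ∀ k, cs Γ 1 ∈ X k := fun k => ⟨1, rfl, fun i j => le_trans (by
    fin_cases i <;> fin_cases j <;> simp) Nat.one_le_two_pow⟩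
  have step : ∀ k (s : SL(2, ℤ)), (∀ i j, (s i j).natAbs ≤ 1) → ∀ g, cs Γ g ∈ X k →
      cs Γ (g * s) ∈ X (k + 1) := by
    rintro k s hs g ⟨g', h1, h2⟩
    refine ⟨g' * s, cs_mul_right h1 s, fun i j => ?_⟩
    rw [show (g' * s) i j = g' i 0 * s 0 j + g' i 1 * s 1 j by
      simp [Matrix.mul_apply, Fin.sum_univ_two]]
    refine (Int.natAbs_add_le _ _).trans ?_
    rw [Int.natAbs_mul, Int.natAbs_mul, pow_succ]
    linarith [Nat.mul_le_mul (h2 i 0) (hs 0 j), Nat.mul_le_mul (h2 i 1) (hs 1 j)]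
  have gen : ∀ s ∈ ({S, T} : Set SL(2, ℤ)), (∀ i j, (s i j).natAbs ≤ 1) ∧
      ∀ i j, (s⁻¹ i j).natAbs ≤ 1 := by
    rintro s (rfl | rfl) <;> decide
  have key : ∀ k, X k = Set.univ ∨ k < (X k).ncard := by
    intro k
    induction k with
    | zero => exact Or.inr ((Set.ncard_pos (Set.toFinite _)).2 ⟨_, one 0⟩)
    | succ k ih =>
      by_cases h : X (k + 1) ⊆ X k
      · refine Or.inl (Set.eq_univ_of_forall fun A => mono k ?_)
        rw [← cs_out A]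
        exact Subgroup.closure_induction_right (p := fun x _ => cs Γ x ∈ X k) (one k)
          (fun x _ y hy hx => h (step k y (gen y hy).1 x hx))
          (fun x _ y hy hx => h (step k _ (gen y hy).2 x hx))
          (show A.out ∈ Subgroup.closure {S, T} by simp [SpecialLinearGroup.SL2Z_generators])
      · rcases ih with ih | ih
        · exact absurd (ih ▸ Set.subset_univ _) h
        · exact Or.inr (Nat.lt_of_le_of_lt ih (Set.ncard_lt_ncard ⟨mono k, h⟩))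
  rcases key (Nat.card (RC Γ)) with h | h
  · exact (h ▸ Set.mem_univ A : A ∈ X _)
  · exact absurd (Set.ncard_le_card _) h.not_ge

lemma Ht_rep {g : SL(2, ℤ)} {E : ℕ} (h : ∀ i j, (g i j).natAbs ≤ 2 ^ E) :
    Ht (cu g ∞) ≤ 2 ^ E ∧ Ht (cz g) ≤ 2 ^ E :=
  ⟨Ht_infty_le _ (sq_apply _ _ _) (sq_apply _ _ _) Nat.one_le_two_pow (h _ _) (h _ _),
    Ht_infty_le _ (sq_apply _ _ _) (sq_apply _ _ _) Nat.one_le_two_pow
      (by rw [(mulS g).1]; exact h _ _) (by rw [(mulS g).2.2.1]; exact h _ _)⟩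

/-! ### canonical cusps -/

/-- the orbit of a cusp -/
def orb (Γ : Subgroup SL(2, ℤ)) (x : Cu) : Set Cu := {y | ∃ γ ∈ Γ, cu γ y = x}

lemma mem_orb (x : Cu) : x ∈ orb Γ x := ⟨1, one_mem _, cu_one x⟩

lemma orb_cu {γ : SL(2, ℤ)} (hγ : γ ∈ Γ) (x : Cu) : orb Γ (cu γ x) = orb Γ x := by
  ext y
  constructor <;> rintro ⟨δ, hδ, e⟩
  · exact ⟨γ⁻¹ * δ, mul_mem (inv_mem hγ) hδ, by rw [cu_mul, e, ← cu_mul, inv_mul_cancel, cu_one]⟩
  · exact ⟨γ * δ, mul_mem hγ hδ, by rw [cu_mul, e]⟩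

/-- the canonical cusp of an orbit -/
def kp (Γ : Subgroup SL(2, ℤ)) (x : Cu) : Cu := Function.argminOn Ht (orb Γ x) ⟨x, mem_orb x⟩

lemma kp_mem (x : Cu) : ∃ γ ∈ Γ, cu γ (kp Γ x) = x := Function.argminOn_mem Ht (orb Γ x) _

lemma kp_cu {γ : SL(2, ℤ)} (hγ : γ ∈ Γ) (x : Cu) : kp Γ (cu γ x) = kp Γ x := by
  unfold kp; congr 1; exact orb_cu hγ x

lemma kp_kp (x : Cu) : kp Γ (kp Γ x) = kp Γ x := by
  obtain ⟨γ, hγ, e⟩ := kp_mem (Γ := Γ) x
  rw [← kp_cu hγ, e]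

lemma Ht_kp (x : Cu) : Ht (kp Γ x) ≤ Ht x := Function.argminOn_le Ht _ (mem_orb x)

lemma Ht_kp_le [Γ.FiniteIndex] (x : Cu) : Ht (kp Γ x) ≤ 2 ^ Nat.card (RC Γ) := by
  obtain ⟨g, rfl⟩ := exists_cu x
  obtain ⟨g', h1, h2⟩ := exists_rep (cs Γ g)
  rw [← inv_mul_cancel_right g g', cu_mul, kp_cu (cs_eq.1 h1)]
  exact (Ht_kp _).trans (Ht_rep h2).1

variable {A B : Type*} [AddCommGroup A] [AddCommGroup B] {Φ Ψ : Cu → A}

/-- the normalised potential -/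
def nm (Γ : Subgroup SL(2, ℤ)) (Φ : Cu → A) (x : Cu) : A := Φ x - Φ (kp Γ x)

/-- cocycle potentials -/
def Coc (Γ : Subgroup SL(2, ℤ)) (Φ : Cu → A) : Prop := ∀ γ ∈ Γ, ∃ a, ∀ x, Φ (cu γ x) = a + Φ x

/-- invariant potentials -/
def Inv (Γ : Subgroup SL(2, ℤ)) (Φ : Cu → A) : Prop := ∀ γ ∈ Γ, ∀ x, Φ (cu γ x) = Φ x

lemma Inv.kp (h : Inv Γ Φ) (x : Cu) : Φ (kp Γ x) = Φ x := by
  obtain ⟨γ, hγ, e⟩ := kp_mem (Γ := Γ) x
  rw [← h γ hγ, e]

lemma Coc.nm (h : Coc Γ Φ) : Coc Γ (nm Γ Φ) := fun γ hγ =>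
  let ⟨a, ha⟩ := h γ hγ
  ⟨a, fun x => by rw [Ms.nm, Ms.nm, kp_cu hγ, ha, add_sub_assoc]⟩

lemma Coc.sy (h : Coc Γ Φ) {g g' : SL(2, ℤ)} (e : cs Γ g = cs Γ g') : sy Φ g = sy Φ g' := by
  obtain ⟨a, ha⟩ := h _ (cs_eq.1 e)
  rw [← inv_of_cu ha g, inv_mul_cancel_right]

lemma Coc.sum {ι : Type*} (s : Finset ι) {Φ : ι → Cu → A} (h : ∀ i, Coc Γ (Φ i)) :
    Coc Γ fun x => ∑ i ∈ s, Φ i x := fun γ hγ => by
  choose a ha using fun i => h i γ hγ
  exact ⟨∑ i ∈ s, a i, fun x => by simp only [ha, Finset.sum_add_distrib]⟩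

lemma ac_sq (γ : SL(2, ℤ)) (x : Cu) : ac (Mf.sq γ) x = cu γ x := rfl

lemma hk_cu (Φ : Cu → A) (c : MonoidAlgebra ℤ GQ) (γ : SL(2, ℤ)) (x : Cu) :
    hk Φ c (cu γ x) - hk Φ c x = hk Φ (c * e ℤ (Mf.sq γ) - c) x := by
  simp only [hk, map_sub, lin_mul_e, ac_mul, ac_sq]

lemma Inv.hk (h : Inv Γ Φ) {c : MonoidAlgebra ℤ GQ} (hc : c ∈ Corr ℤ (Γ.map Mf.sq) (Γ.map Mf.sq)) :
    Inv Γ (hk Φ c) := fun γ hγ x => by
  rw [← sub_eq_zero, hk_cu]
  refine null_lin (hc _ ⟨γ, hγ, rfl⟩) ?_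
  rintro _ ⟨γ', hγ', rfl⟩ δ
  rw [ac_mul, ac_sq, h γ' hγ']

lemma Coc.hk (h : Coc Γ Φ) {c : MonoidAlgebra ℤ GQ} (hc : c ∈ Corr ℤ (Γ.map Mf.sq) (Γ.map Mf.sq)) :
    Coc Γ (hk Φ c) := fun γ hγ => ⟨Ms.hk Φ (c * e ℤ (Mf.sq γ) - c) ∞, fun x => by
  rw [← sub_eq_iff_eq_add, hk_cu, ← sub_eq_zero, Ms.hk, Ms.hk, ← lin_sub]
  refine null_lin (hc _ ⟨γ, hγ, rfl⟩) ?_
  rintro _ ⟨γ', hγ', rfl⟩ δ
  obtain ⟨a, ha⟩ := h γ' hγ'
  rw [ac_mul, ac_mul, ac_sq, ac_sq, ha, ha]; abel⟩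

/-- finitely many small cusps detect invariance -/
theorem Coc.inv [Γ.FiniteIndex] (h : Coc Γ Φ)
    (h' : ∀ x, Ht x ≤ 2 ^ Nat.card (RC Γ) → Φ x = Φ (kp Γ x)) : Inv Γ Φ := fun γ hγ x => by
  have h1 := sy_eq_zero (Φ := Ms.nm Γ Φ) fun g => by
    obtain ⟨g', h1, h2⟩ := exists_rep (cs Γ g)
    rw [← h.nm.sy h1, Ms.sy, Ms.nm, Ms.nm, ← h' _ (Ht_rep h2).1, ← h' _ (Ht_rep h2).2]; abel
  have h2 := (h1 (cu γ x)).trans (h1 x).symm
  rwa [Ms.nm, Ms.nm, kp_cu hγ, sub_left_inj] at h2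

/-! ### symbols of cusp forms -/

/-- the Manin symbol `∫_{A∞}^{A0} f` -/
def rs (Γ : Subgroup SL(2, ℤ)) (f : ℍ → ℂ) (A : RC Γ) : ℂ := sy (pot f) A.out

/-- the normalised Manin symbol -/
def rn (Γ : Subgroup SL(2, ℤ)) (f : ℍ → ℂ) (A : RC Γ) : ℂ := sy (nm Γ (pot f)) A.out

variable [Γ.FiniteIndex] {f f' : ℍ → ℂ}

lemma coc_pot (hf : f ∈ CS Γ 2) : Coc Γ (pot f) := fun _ hγ => ⟨_, pot_cu hf hγ⟩

lemma rs_cs (hf : f ∈ CS Γ 2) (g : SL(2, ℤ)) : rs Γ f (cs Γ g) = sy (pot f) g :=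
  (coc_pot hf).sy (cs_out _)

lemma rn_cs (hf : f ∈ CS Γ 2) (g : SL(2, ℤ)) : rn Γ f (cs Γ g) = sy (nm Γ (pot f)) g :=
  (coc_pot hf).nm.sy (cs_out _)

lemma PP.rs_eq (hf : f ∈ CS Γ 2) {Φ : Cu → ℂ} (h : PP f Φ) (A : RC Γ) :
    rs Γ f A = sy Φ A.out ∧ rn Γ f A = sy (nm Γ Φ) A.out := by
  obtain ⟨c, hc⟩ := (pp_pot hf).unique h
  constructor <;> simp only [rs, rn, sy, nm, hc] <;> ring

lemma rs_add (hf : f ∈ CS Γ 2) (hf' : f' ∈ CS Γ 2) (A : RC Γ) :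
    rs Γ (f + f') A = rs Γ f A + rs Γ f' A := by
  rw [(((pp_pot hf).add (pp_pot hf')).rs_eq (add_mem hf hf') A).1]
  simp only [rs, sy, Pi.add_apply]; ring

lemma rs_smul (c : ℂ) (hf : f ∈ CS Γ 2) (A : RC Γ) : rs Γ (c • f) A = c * rs Γ f A := by
  rw [(((pp_pot hf).smul c).rs_eq (Submodule.smul_mem _ c hf) A).1]
  simp only [rs, sy, Pi.smul_apply, smul_eq_mul]; ring

lemma rn_add (hf : f ∈ CS Γ 2) (hf' : f' ∈ CS Γ 2) (A : RC Γ) :
    rn Γ (f + f') A = rn Γ f A + rn Γ f' A := by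
  rw [(((pp_pot hf).add (pp_pot hf')).rs_eq (add_mem hf hf') A).2]
  simp only [rn, sy, nm, Pi.add_apply]; ring

lemma rn_smul (c : ℂ) (hf : f ∈ CS Γ 2) (A : RC Γ) : rn Γ (c • f) A = c * rn Γ f A := by
  rw [(((pp_pot hf).smul c).rs_eq (Submodule.smul_mem _ c hf) A).2]
  simp only [rn, sy, nm, Pi.smul_apply, smul_eq_mul]; ring

lemma rn_sum {ι : Type*} (s : Finset ι) (c : ι → ℂ) {f : ι → ℍ → ℂ} (hf : ∀ i, f i ∈ CS Γ 2)
    (A : RC Γ) : rn Γ (∑ i ∈ s, c i • f i) A = ∑ i ∈ s, c i * rn Γ (f i) A := by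
  rw [((PP.sum s fun i => (pp_pot (hf i)).smul (c i)).rs_eq
    (sum_mem fun i _ => Submodule.smul_mem _ _ (hf i)) A).2]
  simp only [rn, sy, nm, Finset.sum_apply, Pi.smul_apply, smul_eq_mul, mul_sub,
    Finset.sum_sub_distrib]

lemma map_pt (φ : A →+ B) (r : SL(2, ℤ) → A) (x : Cu) : φ (pt r x) = pt (fun g => φ (r g)) x := by
  rw [pt, pt, map_neg, map_list_sum, List.map_map]; rfl

/-- the periods are integral combinations of the normalised symbols -/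
theorem per_comb [Fintype (RC Γ)] {γ : SL(2, ℤ)} (hγ : γ ∈ Γ) :
    ∃ m : RC Γ → ℤ, ∀ f ∈ CS Γ 2, per f γ = ∑ A, m A * rn Γ f A := by
  classical
  refine ⟨pt (fun g => Pi.single (cs Γ g) 1) (cu γ ∞), fun f hf => ?_⟩
  have h1 := map_pt (Fintype.linearCombination ℤ (rn Γ f)).toAddMonoidHom
    (fun g => Pi.single (cs Γ g) 1) (cu γ ∞)
  simp only [LinearMap.toAddMonoidHom_coe, Fintype.linearCombination_apply_single, one_smul,
    rn_cs hf] at h1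
  rw [Fintype.linearCombination_apply, pt_sy, nm, nm, kp_cu hγ, pot_cu hf hγ] at h1
  simp only [zsmul_eq_mul] at h1
  linear_combination -h1

lemma hab_core {P : Type*} [Fintype P] (S T : Equiv.Perm P)
    (V3 : ∀ A, T (S (T (S (T (S A))))) = A) (y b : P → ℂ) (hS : ∀ A, y (S A) = -y A)
    (h3 : ∀ A, y A + y (T (S A)) + y (T (S (T (S A)))) = 0) (hb : ∀ A, b (T A) = b A) :
    ∑ A, (conj (y A - (b (S A) - b A)) * (y (T (S A)) - (b (S (T (S A))) - b (T (S A))))).im =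
    ∑ A, (conj (y A + (b (S A) - b A)) * (y (T (S A)) + (b (S (T (S A))) - b (T (S A))))).im := by
  have hV := fun φ : P → ℂ => Equiv.sum_comp (S.trans T) φ
  simp only [Equiv.trans_apply] at hV
  have e1 := hV fun A => conj (b A) * y A
  have e2 := hV fun A => conj (b A) * y (T (S A))
  have e3 := Equiv.sum_comp ((((S.trans T).trans S).trans T).trans S) fun A => conj (b (T A)) * y A
  simp only [Equiv.trans_apply, V3, hS] at e3
  simp only [hb] at e1 e2 e3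
  have e4 : ∑ A, conj (b A) * y (T (S A)) = 0 := by
    rw [← sub_eq_zero, ← Finset.sum_sub_distrib] at e3
    rw [← e3]
    exact Finset.sum_congr rfl fun A _ => by linear_combination conj (b A) * h3 A
  have e5 : ∑ A, conj (b (S A) - b A) * (y (T (S A)) - y (T (S (T (S A))))) = 0 := by
    simp only [map_sub, sub_mul, mul_sub, mul_neg, Finset.sum_sub_distrib,
      Finset.sum_neg_distrib] at e3 ⊢
    linear_combination e1 - e2 - 2 * e4 - e3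
  have e6 := (Equiv.sum_comp (((S.trans T).trans S).trans T)
    fun A => (conj (y A) * (b (S (T (S A))) - b (T (S A)))).im)
  simp only [Equiv.trans_apply, V3] at e6
  have e7 := congrArg Complex.im e5
  rw [im_sum, zero_im] at e7
  rw [← sub_eq_zero] at e6 ⊢
  rw [← Finset.sum_sub_distrib] at e6 ⊢
  rw [show (0 : ℝ) = 2 * 0 - 2 * 0 by ring]
  nth_rewrite 1 [← e6]
  rw [← e7, Finset.mul_sum, Finset.mul_sum, ← Finset.sum_sub_distrib]
  refine Finset.sum_congr rfl fun A _ => ?_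
  simp only [mul_im, conj_re, conj_im, sub_re, sub_im, add_re, add_im]
  ring

lemma rm_V3 (h1 : -1 ∈ Γ) (A : RC Γ) : rm T (rm S (rm T (rm S (rm T (rm S A))))) = A := by
  rw [← cs_out A]
  simp only [rm_cs, mul_assoc]
  rw [show S * (T * (S * (T * (S * T)))) = -1 by decide, mul_neg_one, ← neg_one_mul, cs_mul h1]

lemma rm_SS (h1 : -1 ∈ Γ) (A : RC Γ) : rm S (rm S A) = A := by
  rw [← cs_out A]
  simp only [rm_cs, mul_assoc]
  rw [show S * S = -1 by decide, mul_neg_one, ← neg_one_mul, cs_mul h1]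

lemma Man.three {r : SL(2, ℤ) → A} (h : Man r) (g : SL(2, ℤ)) :
    r g + r (g * S * T) + r (g * S * T * S * T) = 0 := by
  have h1 := h.t (g * S)
  rw [h.s] at h1
  rw [show g * S * T * S * T = g * S * Lm by simp only [mul_assoc]; congr 2; decide, add_assoc, ← h1,
    add_neg_cancel]

/-- Haberland's form does not see the normalisation -/
theorem hab_rn [Fintype (RC Γ)] (h1 : -1 ∈ Γ) (hf : f ∈ CS Γ 2) :
    ∑ A, (conj (rn Γ f A) * rn Γ f (rm T (rm S A))).im =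
      ∑ A, (conj (rs Γ f A) * rs Γ f (rm T (rm S A))).im := by
  have hc : Coc Γ fun x => pot f x - pot f (kp Γ x) / 2 := fun γ hγ =>
    ⟨per f γ, fun x => by simp only [kp_cu hγ, pot_cu hf hγ]; ring⟩
  let y : RC Γ → ℂ := fun A => sy (fun x => pot f x - pot f (kp Γ x) / 2) A.out
  let b : RC Γ → ℂ := fun A => pot f (kp Γ (cu A.out ∞)) / 2
  have hy : ∀ g, y (cs Γ g) = sy (fun x => pot f x - pot f (kp Γ x) / 2) g := fun g =>
    hc.sy (cs_out _)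
  have hb : ∀ g, b (cs Γ g) = pot f (kp Γ (cu g ∞)) / 2 := fun g => by
    conv_rhs => rw [← inv_mul_cancel_right g (cs Γ g).out, cu_mul, kp_cu (mul_out_mem Γ g)]
  have ind : ∀ {p : RC Γ → Prop}, (∀ g, p (cs Γ g)) → ∀ A, p A := fun h A => cs_out A ▸ h _
  have e1 : ∀ A, rn Γ f A = y A - (b (rm S A) - b A) := ind fun g => by
    rw [rn_cs hf, rm_cs, hy, hb, hb]; simp only [sy, nm, cz]; ring
  have e2 : ∀ A, rs Γ f A = y A + (b (rm S A) - b A) := ind fun g => by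
    rw [rs_cs hf, rm_cs, hy, hb, hb]; simp only [sy, cz]; ring
  simp only [e1, e2]
  exact hab_core _ _ (rm_V3 h1) y b (ind fun g => by rw [rm_cs, hy, hy, (man_sy _).s])
    (ind fun g => by simp only [rm_cs, hy, (man_sy _).three])
    (ind fun g => by rw [rm_cs, hb, hb, cu_mulT])

end Crest.Agent.T15.Ms
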