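import Crest.Agent.T15.UndA_98

/-!
# Row 15, block Ht (helper98): the trivial bound for Hecke eigenvalues is strict
-/

set_option autoImplicit false
set_option maxHeartbeats 400000

noncomputable section

namespace Crest.Agent.T15.Und

open UpperHalfPlane hiding I
open Complex hiding Gamma
open ModularForm CongruenceSubgroup Matrix Crest.Agent.T15.Esc Filter
open scoped MatrixGroups Manifold Real Topology

lemma QS.add {c d : ℕ → ℂ} {f g : ℍ → ℂ} (h : QS c f) (h' : QS d g) : QS (c + d) (f + g) :=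
  fun z => ((h z).add (h' z)).congr_fun fun n => by simp [add_mul]

lemma QS.smul {c : ℕ → ℂ} {f : ℍ → ℂ} (h : QS c f) (a : ℂ) : QS (a • c) (a • f) :=
  fun z => ((h z).mul_left a).congr_fun fun n => by simp [mul_assoc]

lemma QS.sub {c d : ℕ → ℂ} {f g : ℍ → ℂ} (h : QS c f) (h' : QS d g) : QS (c - d) (f - g) :=
  fun z => ((h z).sub (h' z)).congr_fun fun n => by simp [sub_mul]

lemma QS.eq_zero {c : ℕ → ℂ} (h : QS c 0) : c = 0 := funext fun n => by
  have := ModularFormClass.qExpansion_coeff_unique (h := 1) (c := c) one_pos (by simp)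
    (f := (0 : CuspForm (Gamma0 1) 2)) (fun z => (h z).congr_fun fun m => by
      rw [Function.Periodic.qParam, ← Complex.exp_nat_mul, smul_eq_mul]
      congr 2
      push_cast
      ring) n
  simpa [qExpansion_zero] using this

/-- the coefficients are determined by the function -/
lemma QS.coeff_eq {c d : ℕ → ℂ} {f : ℍ → ℂ} (h : QS c f) (h' : QS d f) : c = d :=
  sub_eq_zero.1 (QS.eq_zero (by simpa using h.sub h'))

/-- `z ↦ (z + j) / l` -/
def tr (l j : ℕ) (z : ℍ) : ℍ :=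
  if h : 0 < l then ⟨(z + j) / l, by
    simpa [Complex.div_natCast_im] using div_pos z.im_pos (Nat.cast_pos.2 h)⟩ else z

lemma coe_tr {l : ℕ} (h : 0 < l) (j : ℕ) (z : ℍ) : ((tr l j z : ℍ) : ℂ) = (z + j) / l := by
  rw [tr, dif_pos h]

lemma im_tr {l : ℕ} (h : 0 < l) (j : ℕ) (z : ℍ) : (tr l j z).im = z.im / l := by
  rw [← coe_im, coe_tr h]; simp [Complex.div_natCast_im]

lemma im_sc {l : ℕ} (h : 0 < l) (z : ℍ) : (sc l z).im = l * z.im := by
  rw [← coe_im, coe_sc h]; simp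

lemma sum_root {l : ℕ} (hl : 0 < l) (n : ℕ) :
    ∑ j ∈ Finset.range l, Complex.exp (2 * π * I / l) ^ (n * j) = if l ∣ n then (l : ℂ) else 0 := by
  have hζ := Complex.isPrimitiveRoot_exp l hl.ne'
  simp only [pow_mul]
  split_ifs with h
  · simp [(hζ.pow_eq_one_iff_dvd n).2 h]
  · have h1 := mul_geom_sum (Complex.exp (2 * π * I / l) ^ n) l
    rw [← pow_mul, mul_comm n, pow_mul, hζ.pow_eq_one, one_pow, sub_self] at h1
    exact (mul_eq_zero.1 h1).resolve_left
      (sub_ne_zero.2 fun h2 => h ((hζ.pow_eq_one_iff_dvd n).1 h2))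

/-- the operator `U_l` on functions -/
lemma QS.U {c : ℕ → ℂ} {f : ℍ → ℂ} (h : QS c f) {l : ℕ} (hl : 0 < l) :
    QS (fun m => c (l * m)) (fun z => (l : ℂ)⁻¹ * ∑ j ∈ Finset.range l, f (tr l j z)) := fun z => by
  have hlc : (l : ℂ) ≠ 0 := by exact_mod_cast hl.ne'
  have h1 := (hasSum_sum (s := Finset.range l) fun j _ => h (tr l j z)).mul_left (l : ℂ)⁻¹
  have h2 : HasSum (fun n : ℕ => if l ∣ n then c n * Complex.exp (2 * π * I * n * (z / l)) else 0)
      ((l : ℂ)⁻¹ * ∑ j ∈ Finset.range l, f (tr l j z)) := h1.congr_fun fun n => by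
    have e : ∀ j ∈ Finset.range l, c n * Complex.exp (2 * π * I * n * (tr l j z : ℍ)) =
        c n * Complex.exp (2 * π * I * n * (z / l)) * Complex.exp (2 * π * I / l) ^ (n * j) :=
      fun j _ => by
        rw [← Complex.exp_nat_mul, mul_assoc (c n), ← Complex.exp_add, coe_tr hl]
        congr 2
        push_cast
        ring
    rw [Finset.sum_congr rfl e, ← Finset.mul_sum, sum_root hl]
    split_ifs
    · field_simp
    · simp
  refine ((Function.Injective.hasSum_iff (g := fun n => l * n)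
    (fun a b e => Nat.eq_of_mul_eq_mul_left hl e) fun m hm => ?_).2 h2).congr_fun fun n => ?_
  · refine if_neg ?_
    rintro ⟨k, rfl⟩
    exact hm ⟨k, rfl⟩
  · simp only [Function.comp, dvd_mul_right, if_true]
    congr 2
    push_cast
    field_simp

/-- the invariant size of a weight two form -/
def ph (f : ℍ → ℂ) (z : ℍ) : ℝ := z.im * ‖f z‖

lemma ph_nonneg (f : ℍ → ℂ) (z : ℍ) : 0 ≤ ph f z := mul_nonneg z.im_pos.le (norm_nonneg _)

lemma ph_slash (f : ℍ → ℂ) (s : SL(2, ℤ)) (z : ℍ) : ph (f ∣[(2 : ℤ)] s) z = ph f (s • z) := by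
  rw [ph, ph, SL_slash_apply, ModularGroup.im_smul_eq_div_normSq, norm_mul, norm_zpow,
    Complex.normSq_eq_norm_sq]
  simp only [_root_.zpow_neg, zpow_ofNat]
  ring

variable {Γ : Subgroup SL(2, ℤ)} [Γ.FiniteIndex] {f : ℍ → ℂ}

lemma ph_tendsto (hf : f ∈ CS Γ 2) (s : SL(2, ℤ)) :
    Tendsto (fun z => ph f (s • z)) atImInfty (𝓝 0) := by
  obtain ⟨M, hM⟩ := exists_wid Γ
  have hM0 := hM.pos
  have h := ((hf.2.2 s).exp_decay_atImInfty hM0 (hM.periodic hf.2.1 s) (mdiff_slash hf.1 s)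
    (hf.2.2 s).isBoundedAtImInfty).norm_left
  have h1 := (Asymptotics.isBigO_refl (fun z : ℍ => z.im) atImInfty).mul h
  simp only [← ph_slash]
  refine h1.trans_tendsto ?_
  have h2 := (tendsto_rpow_mul_exp_neg_mul_atTop_nhds_zero 1 (2 * π / M) (by positivity)).comp
    (tendsto_comap (f := UpperHalfPlane.im) (x := atTop))
  refine h2.congr fun z => ?_
  simp only [Function.comp, Real.rpow_one]
  congr 2
  ring

lemma cont_sl (s : SL(2, ℤ)) : Continuous fun z : ℍ => s • z :=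
  continuous_const_smul (s : GL (Fin 2) ℝ)

lemma exists_max (hf : f ∈ CS Γ 2) : ∃ z0, ∀ z, ph f z ≤ ph f z0 := by
  by_cases h0 : ∀ z, ph f z = 0
  · exact ⟨UpperHalfPlane.I, fun z => by rw [h0, h0]⟩
  push Not at h0
  obtain ⟨z1, hz1⟩ := h0
  have hm : 0 < ph f z1 := (ph_nonneg f z1).lt_of_ne' hz1
  have h1 : ∀ᶠ z in atImInfty, ∀ x : SL(2, ℤ) ⧸ Γ, ph f (x.out⁻¹ • z) < ph f z1 :=
    eventually_all.2 fun x => (ph_tendsto hf _).eventually_lt_const hm
  obtain ⟨Y, hY⟩ := (atImInfty_mem _).1 h1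
  have hc : Continuous (ph f) := UpperHalfPlane.continuous_im.mul hf.1.continuous.norm
  have hK : IsCompact (insert z1 (⋃ x : SL(2, ℤ) ⧸ Γ, (fun z : ℍ => x.out⁻¹ • z) ''
      ModularGroup.truncatedFundamentalDomain Y)) :=
    (isCompact_iUnion fun x => (ModularGroup.isCompact_truncatedFundamentalDomain Y).image
      (cont_sl _)).insert z1
  obtain ⟨z0, -, hz0⟩ := hK.exists_isMaxOn (Set.insert_nonempty _ _) hc.continuousOn
  refine ⟨z0, fun z => ?_⟩
  obtain ⟨γ, hγ⟩ := ModularGroup.exists_smul_mem_fd z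
  obtain ⟨y, hy⟩ : ∃ y : SL(2, ℤ) ⧸ Γ, y = QuotientGroup.mk γ := ⟨_, rfl⟩
  have h2 : γ⁻¹ * y.out ∈ Γ := QuotientGroup.eq.1 (by rw [← hy]; exact (Quotient.out_eq y).symm)
  have h3 : ph f z = ph f (y.out⁻¹ • γ • z) := by
    rw [← mul_smul, ← ph_slash, hf.2.1 _ (by simpa using Γ.inv_mem h2)]
  rw [h3]
  rcases le_total Y (γ • z).im with h | h
  · exact (hY _ h y).le.trans (hz0 (Set.mem_insert _ _))
  · exact hz0 (Set.mem_insert_of_mem _ (Set.mem_iUnion.2 ⟨y, _, ⟨hγ, h⟩, rfl⟩))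

/-- **strict trivial bound** for an eigenvalue of `T_l` -/
theorem eig_lt (hf : f ∈ CS Γ 2) (h0 : f ≠ 0) {c : ℕ → ℂ} (hc : QS c f) {l : ℕ} (hl : 2 ≤ l)
    {a : ℂ} (hrec : ∀ n, c (l * n) + (if l ∣ n then (l : ℂ) * c (n / l) else 0) = a * c n) :
    ‖a‖ < l + 1 := by
  have hl0 : 0 < l := by omega
  have hlr : (0 : ℝ) < l := by exact_mod_cast hl0
  have e : a • f = (fun z => (l : ℂ)⁻¹ * ∑ j ∈ Finset.range l, f (tr l j z)) +
      (l : ℂ) • fun z => f (sc l z) := by
    refine (hc.smul a).unique ?_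
    convert (hc.U hl0).add ((hc.sc hl0).smul l) using 1
    funext n
    simp [← hrec n]
  obtain ⟨z0, hz0⟩ := exists_max hf
  by_contra ha
  rw [not_lt] at ha
  have key : ∀ z, ph f z = ph f z0 → ph f (sc l z) = ph f z0 := fun z hz => by
    refine le_antisymm (hz0 _) ?_
    have h1 : a * f z = (l : ℂ)⁻¹ * ∑ j ∈ Finset.range l, f (tr l j z) + l * f (sc l z) :=
      congrFun e z
    have h2 : ‖a‖ * ‖f z‖ ≤ (l : ℝ)⁻¹ * ∑ j ∈ Finset.range l, ‖f (tr l j z)‖ +
        l * ‖f (sc l z)‖ := by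
      rw [← norm_mul, h1]
      refine (norm_add_le _ _).trans ?_
      rw [norm_mul, norm_mul, norm_inv, Complex.norm_natCast]
      gcongr
      exact norm_sum_le _ _
    have h3 : z.im * ((l : ℝ)⁻¹ * ∑ j ∈ Finset.range l, ‖f (tr l j z)‖) ≤ l * ph f z0 := by
      rw [← mul_assoc, Finset.mul_sum]
      refine (Finset.sum_le_card_nsmul _ _ (ph f z0) fun j _ => ?_).trans (by simp)
      have := hz0 (tr l j z)
      rwa [ph, im_tr hl0, div_eq_mul_inv] at this
    have h4 := mul_le_mul_of_nonneg_left h2 z.im_pos.le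
    have h5 := mul_le_mul_of_nonneg_right ha (ph_nonneg f z)
    have h6 : ph f (sc l z) = l * z.im * ‖f (sc l z)‖ := by rw [ph, im_sc hl0]
    have h7 : ph f z = z.im * ‖f z‖ := rfl
    rw [h6]
    rw [h7] at hz h5
    nlinarith
  have h1 : ∀ k : ℕ, ph f (sc (l ^ k) z0) = ph f z0 := fun k => by
    induction k with
    | zero => rw [pow_zero, sc_one]
    | succ k ih => rw [pow_succ', ← sc_sc hl0 (pow_pos hl0 k), key _ ih]
  have h2 : Tendsto (fun k : ℕ => sc (l ^ k) z0) atTop atImInfty := by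
    refine tendsto_comap_iff.2 ?_
    have : (1 : ℝ) < l := by exact_mod_cast hl
    refine ((tendsto_pow_atTop_atTop_of_one_lt this).atTop_mul_const z0.im_pos).congr fun k => ?_
    simp [im_sc (pow_pos hl0 k)]
  have h3 := (ph_tendsto hf 1).comp h2
  simp only [Function.comp_def, one_smul, h1] at h3
  have h4 : ph f z0 = 0 := tendsto_nhds_unique tendsto_const_nhds h3
  refine h0 (funext fun z => ?_)
  have h5 := le_antisymm (h4 ▸ hz0 z) (ph_nonneg f z)
  exact norm_eq_zero.1 ((mul_eq_zero.1 h5).resolve_left z.im_pos.ne')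

end Crest.Agent.T15.Und
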