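import Crest.Agent.T15.HabC_58
import Crest.Agent.T15.HabD_58
import Crest.Agent.T15.MsC_40
import Crest.Agent.T15.UndB_98

/-!
# Row 15, block Ht (helper58): the archimedean inequality for a pair of cusp forms
-/

set_option autoImplicit false
set_option linter.unusedSectionVars false

noncomputable section

namespace Crest.Agent.T15.Hab

open UpperHalfPlane hiding I
open Complex ModularForm Filter Function Set CongruenceSubgroup
open Crest.Agent.T15.Esc Crest.Agent.T15.Hk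
open Crest.Agent.T15.Ms (rn rs pot cu)
open Crest.Agent.T15.Und (QS)
open scoped MatrixGroups Manifold Topology Real ComplexConjugate

variable {Γ : Subgroup SL(2, ℤ)} [Γ.FiniteIndex] [Fintype (RC Γ)]

lemma VV_eq (A : RC Γ) : VV Γ A = Ms.rm ModularGroup.T (Ms.rm ModularGroup.S A) := by
  obtain ⟨a, rfl⟩ := cs_surj Γ A
  rw [VV_cs, Ms.rm_cs, Ms.rm_cs]

lemma qs_of_CS (hT : ModularGroup.T ∈ Γ) {f : ℍ → ℂ} (hf : f ∈ CS Γ 2) :
    QS (fun n => (qExpansion 1 f).coeff n) f := fun z => by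
  have hp : Periodic (f ∘ ofComplex) (1 : ℝ) := periodic_of_vadd fun z => by
    have := slash_T_pow (k := 2) f 1 z
    rw [pow_one, hf.2.1 _ hT, Nat.cast_one] at this
    exact this.symm
  have hb : IsBoundedAtImInfty f := by simpa using (hf.2.2 1).isBoundedAtImInfty
  refine (hasSum_qExpansion one_pos hp hf.1 hb z).congr_fun fun m => ?_
  rw [Function.Periodic.qParam, ← Complex.exp_nat_mul, smul_eq_mul]
  congr 2
  push_cast
  ring

/-- Haberland's inequality for the normalised symbols -/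
theorem hab_QS (hn : (-1 : SL(2, ℤ)) ∈ Γ) (hT : ModularGroup.T ∈ Γ) {f : ℍ → ℂ} (hf : f ∈ CS Γ 2)
    {c : ℕ → ℂ} (hc : QS c f) :
    c0 * ‖c 1‖ ^ 2 ≤ -∑ A, (conj (rn Γ f A) * rn Γ f (VV Γ A)).im := by
  have h1 := hab_CS hn hT hf (c := fun A => pot f (cu A OnePoint.infty)) (Ms.tendsto_pot_SL hf)
    (r := rs Γ f) fun A => Ms.rs_cs hf A
  have h2 := Ms.hab_rn hn hf
  simp only [← VV_eq] at h2
  rw [h2, hc.coeff_eq (qs_of_CS hT hf)]
  exact h1

/-- the symbols of the pair on two copies of the cosets -/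
def rr (Γ : Subgroup SL(2, ℤ)) (f : Fin 2 → ℍ → ℂ) (j : Fin 2) (p : Fin 2 × RC Γ) : ℂ :=
  ![![rn Γ (f 0) p.2, 3 * rn Γ (f 1) p.2], ![rn Γ (f 1) p.2, rn Γ (f 0) p.2]] j p.1

lemma rr_pos (hn : (-1 : SL(2, ℤ)) ∈ Γ) (hT : ModularGroup.T ∈ Γ) {f : Fin 2 → ℍ → ℂ}
    (hf : ∀ i, f i ∈ CS Γ 2) {c1 c3 : ℕ → ℂ} (q1 : QS c1 (f 0)) (q3 : QS c3 (f 1))
    (h1 : c1 1 = 1) (h3 : c3 1 = 0) (x : Fin 2 → ℂ) :
    c0 * ∑ j, ‖x j‖ ^ 2 ≤ |∑ p : Fin 2 × RC Γ,
      (conj (∑ j, x j * rr Γ f j p) * ∑ j, x j * rr Γ f j (p.1, VV Γ p.2)).im| := by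
  have key : ∀ u v : ℂ, c0 * ‖u‖ ^ 2 ≤ -∑ A, (conj (u * rn Γ (f 0) A + v * rn Γ (f 1) A) *
      (u * rn Γ (f 0) (VV Γ A) + v * rn Γ (f 1) (VV Γ A))).im := fun u v => by
    have m0 := (CS Γ 2).smul_mem u (hf 0)
    have m1 := (CS Γ 2).smul_mem v (hf 1)
    have := hab_QS hn hT (add_mem m0 m1) ((q1.smul u).add (q3.smul v))
    simpa only [Ms.rn_add m0 m1, Ms.rn_smul _ (hf _), Pi.add_apply, Pi.smul_apply, h1, h3,
      smul_eq_mul, mul_one, mul_zero, add_zero] using this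
  have k0 := key (x 0) (x 1)
  have k1 := key (x 1) (3 * x 0)
  refine le_trans ?_ (neg_le_abs _)
  rw [Fintype.sum_prod_type, Fin.sum_univ_two, Fin.sum_univ_two, mul_add, neg_add]
  refine add_le_add (k0.trans (le_of_eq ?_)) (k1.trans (le_of_eq ?_))
  · simp [rr, Fin.sum_univ_two]
  · congr 1
    refine Finset.sum_congr rfl fun A _ => ?_
    simp only [rr, Fin.sum_univ_two, Matrix.cons_val_zero, Matrix.cons_val_one]
    congr 2
    · congr 1; ring
    · ring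

/-- the period vector -/
def pv2 (f : Fin 2 → ℍ → ℂ) (γ : SL(2, ℤ)) : Fin 2 → ℂ := fun k => 2 * π * I * per (f k) γ

lemma span_comb {f : Fin 2 → ℍ → ℂ} (hf : ∀ i, f i ∈ CS Γ 2) {v : Fin 2 → ℂ}
    (hv : v ∈ Submodule.span ℤ (pv2 f '' (Γ : Set SL(2, ℤ)))) :
    ∃ m : RC Γ → ℤ, ∀ k, v k = 2 * π * I * ∑ A, m A * rn Γ (f k) A := by
  induction hv using Submodule.span_induction with
  | mem x hx =>
    obtain ⟨γ, hγ, rfl⟩ := hx
    obtain ⟨m, hm⟩ := Ms.per_comb (Γ := Γ) hγ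
    exact ⟨m, fun k => by rw [pv2, hm _ (hf k)]⟩
  | zero => exact ⟨0, fun k => by simp⟩
  | add x y _ _ hx hy =>
    obtain ⟨m, hm⟩ := hx
    obtain ⟨m', hm'⟩ := hy
    exact ⟨m + m', fun k => by simp [hm, hm', add_mul, Finset.sum_add_distrib, mul_add]⟩
  | smul n x _ hx =>
    obtain ⟨m, hm⟩ := hx
    refine ⟨n • m, fun k => ?_⟩
    simp only [Pi.smul_apply, hm, zsmul_eq_mul, smul_eq_mul, Int.cast_mul, mul_assoc,
      ← Finset.mul_sum]
    ring

/-- **the archimedean inequality** -/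
theorem arch_core (hn : (-1 : SL(2, ℤ)) ∈ Γ) (hT : ModularGroup.T ∈ Γ) {f : Fin 2 → ℍ → ℂ}
    (hf : ∀ i, f i ∈ CS Γ 2) {c1 c3 : ℕ → ℂ} (q1 : QS c1 (f 0)) (q3 : QS c3 (f 1))
    (h1 : c1 1 = 1) (h3 : c3 1 = 0) {B : ℝ} (hB1 : 1 ≤ B) (R : Set (Fin 2 × RC Γ → ℤ))
    (hB : ∀ row ∈ R, ∀ A, |(row A : ℝ)| ≤ B)
    (hker : ∀ row ∈ R, ∀ j, ∑ A, (row A : ℂ) * rr Γ f j A = 0)
    (hdim : Module.finrank ℝ (Ker R) ≤ 4) (a b : ℝ) (x : Fin 2 ⊕ Fin 2 → Fin 2 → ℂ)
    (hx : ∀ i, ∃ v ∈ Submodule.span ℤ (pv2 f '' (Γ : Set SL(2, ℤ))),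
      ∃ w ∈ Submodule.span ℤ (pv2 f '' (Γ : Set SL(2, ℤ))),
        64 * x i 0 = a * (v 0 + 3 * w 1) + b * (3 * (v 1 + w 0)) ∧
        64 * x i 1 = a * (v 1 + w 0) + b * (v 0 + 3 * w 1))
    (hd : (Matrix.of fun k => ri (x k)).det ≠ 0) :
    a ^ 2 - 3 * b ^ 2 ≠ 0 ∧ c0 ^ 4 * ((a ^ 2 - 3 * b ^ 2) ^ 2) ^ 2 ≤
      64 ^ 8 * 24 * (2 * (2 * Fintype.card (RC Γ)) *
        (2 * Fintype.card (RC Γ) * B) ^ (2 * (2 * Fintype.card (RC Γ)))) ^ 4 *
        (Matrix.of fun k => ri (x k)).det ^ 2 := by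
  classical
  choose v hv w hw hx0 hx1 using hx
  choose m hm using fun i => span_comb hf (hv i)
  choose m' hm' using fun i => span_comb hf (hw i)
  let r : Fin 2 → Fin 2 × RC Γ → ℂ := fun j p => 2 * π * I * rr Γ f j p
  let mm : Fin 2 ⊕ Fin 2 → Fin 2 × RC Γ → ℤ := fun i p => ![m i p.2, m' i p.2] p.1
  have hc := covol_lower (fun p : Fin 2 × RC Γ => (p.1, VV Γ p.2)) r c0_pos.le hB1
    (fun y => by
      have := rr_pos hn hT hf q1 q3 h1 h3 fun j => y j * (2 * π * I)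
      simp only [r, ← mul_assoc] at this ⊢
      refine le_trans (mul_le_mul_of_nonneg_left (Finset.sum_le_sum fun j _ => ?_) c0_pos.le) this
      refine pow_le_pow_left₀ (norm_nonneg _) ?_ 2
      simp only [norm_mul, norm_I, norm_real, Real.norm_eq_abs, abs_of_pos Real.pi_pos,
        Complex.norm_ofNat]
      nlinarith [norm_nonneg (y j), Real.pi_gt_three])
    R hB (fun row hr j => by
      have := hker row hr j
      simp only [r, mul_left_comm _ (2 * π * I : ℂ), ← Finset.mul_sum, this, mul_zero])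
    (by simpa using hdim) mm
  set y : Fin 2 ⊕ Fin 2 → Fin 2 → ℂ := fun k j => ∑ A, (mm k A : ℂ) * r j A with hy
  have y0 : ∀ i, y i 0 = v i 0 + 3 * w i 1 := fun i => by
    rw [hm, hm', hy]
    simp only [Fintype.sum_prod_type, Fin.sum_univ_two, mm, r, rr, Matrix.cons_val_zero,
      Matrix.cons_val_one, Finset.mul_sum]
    congr 1 <;> exact Finset.sum_congr rfl fun A _ => by ring
  have y1 : ∀ i, y i 1 = v i 1 + w i 0 := fun i => by
    rw [hm, hm', hy]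
    simp only [Fintype.sum_prod_type, Fin.sum_univ_two, mm, r, rr, Matrix.cons_val_zero,
      Matrix.cons_val_one, Finset.mul_sum]
    congr 1 <;> exact Finset.sum_congr rfl fun A _ => by ring
  let N : Matrix (Fin 2) (Fin 2) ℝ := !![a / 64, b / 64; 3 * b / 64, a / 64]
  have hN : (Matrix.of fun k => ri (x k)) =
      (Matrix.of fun k => ri (y k)) * Matrix.fromBlocks N 0 0 N := by
    ext k l
    have e0 : x k 0 = (a / 64 : ℝ) * y k 0 + (3 * b / 64 : ℝ) * y k 1 := by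
      rw [y0, y1]; push_cast; linear_combination (hx0 k) / 64
    have e1 : x k 1 = (b / 64 : ℝ) * y k 0 + (a / 64 : ℝ) * y k 1 := by
      rw [y0, y1]; push_cast; linear_combination (hx1 k) / 64
    rw [Matrix.mul_apply, Fintype.sum_sum_type, Fin.sum_univ_two, Fin.sum_univ_two]
    rcases l with l | l <;> fin_cases l <;>
      simp only [Matrix.of_apply, ri, Sum.elim_inl, Sum.elim_inr, Fin.zero_eta, Fin.mk_one, e0, e1,
        add_re, add_im, re_ofReal_mul, im_ofReal_mul] <;> simp [N] <;> ring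
  have hdet : (Matrix.of fun k => ri (x k)).det =
      (Matrix.of fun k => ri (y k)).det * ((a ^ 2 - 3 * b ^ 2) ^ 2 / 64 ^ 4) := by
    rw [hN, Matrix.det_mul, Matrix.det_fromBlocks_zero₂₁, Matrix.det_fin_two_of]
    ring
  rw [hdet] at hd ⊢
  refine ⟨fun h => hd (by rw [h]; ring), ?_⟩
  have hc := hc.resolve_left (left_ne_zero_of_mul hd)
  simp only [Fintype.card_fin, Fintype.card_prod, Nat.cast_mul, Nat.cast_ofNat] at hc
  norm_num [Nat.factorial] at hc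
  have := mul_le_mul_of_nonneg_right hc (sq_nonneg ((a ^ 2 - 3 * b ^ 2) ^ 2))
  refine this.trans (le_of_eq ?_)
  ring

lemma card_RC (L : ℕ) [NeZero L] [Fintype (RC (Gamma0 L))] :
    Fintype.card (RC (Gamma0 L)) ≤ L ^ 2 := by
  have := Fintype.card_le_of_injective
    (fun A : RC (Gamma0 L) => (((A.out 1 0 : ℤ) : ZMod L), ((A.out 1 1 : ℤ) : ZMod L))) fun A B h => by
      rw [← Ms.cs_out A, ← Ms.cs_out B, cs_eq, Gamma0_mem]
      obtain ⟨h0, h1⟩ := Prod.mk.inj h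
      simp [Matrix.mul_apply, Fin.sum_univ_two, Matrix.adjugate_fin_two, h0, h1, mul_comm]
  simpa [sq] using this

/-- the numerical step -/
lemma arch_num (C : ℝ) (k : ℕ) : ∃ C' : ℝ, ∀ (L n : ℕ) (u d : ℝ), 0 < L → n ≤ L ^ 2 → 0 ≤ u →
    c0 ^ 4 * u ^ 2 ≤ 64 ^ 8 * 24 * (2 * (2 * n) *
      (2 * n * Real.exp (|C| * L ^ k)) ^ (2 * (2 * n))) ^ 4 * d ^ 2 →
    u ≤ Real.exp (C' * L ^ (k + 4)) * |d| := by
  set K : ℝ := 64 ^ 8 * 24 / c0 ^ 4 with hK
  have hc : 0 < c0 ^ 4 := pow_pos c0_pos 4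
  have hK0 : 0 < K := by positivity
  refine ⟨K + 4 * (12 + 4 * |C|), fun L n u d hL hn hu h => ?_⟩
  have hL1 : (1 : ℝ) ≤ L := by exact_mod_cast hL
  have hn' : (n : ℝ) ≤ (L : ℝ) ^ 2 := by exact_mod_cast hn
  have hn0 : (0 : ℝ) ≤ n := Nat.cast_nonneg n
  set X : ℝ := (L : ℝ) ^ (k + 4) with hX
  have x1 : 1 ≤ X := one_le_pow₀ hL1
  have x2 : (L : ℝ) ^ 2 ≤ X := pow_le_pow_right₀ hL1 (by omega)
  have x3 : (L : ℝ) ^ 2 * (L : ℝ) ^ 2 ≤ X := by
    rw [← pow_add]; exact pow_le_pow_right₀ hL1 (by omega)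
  have x4 : (L : ℝ) ^ 2 * (L : ℝ) ^ k ≤ X := by
    rw [← pow_add]; exact pow_le_pow_right₀ hL1 (by omega)
  have ex : ∀ t : ℝ, t ≤ Real.exp t := fun t => by linarith [Real.add_one_le_exp t]
  have hk0 : (0 : ℝ) ≤ (L : ℝ) ^ k := by positivity
  have a1 : (2 * n * Real.exp (|C| * L ^ k)) ^ (2 * (2 * n)) ≤ Real.exp ((8 + 4 * |C|) * X) := by
    have : 2 * n * Real.exp (|C| * L ^ k) ≤ Real.exp (2 * n + |C| * L ^ k) := by
      rw [Real.exp_add]; exact mul_le_mul_of_nonneg_right (ex _) (Real.exp_pos _).le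
    refine (pow_le_pow_left₀ (by positivity) this _).trans ?_
    rw [← Real.exp_nat_mul]
    refine Real.exp_le_exp.2 ?_
    push_cast
    have b1 : (n : ℝ) * n ≤ X := (mul_le_mul hn' hn' hn0 (by positivity)).trans x3
    have b2 : (n : ℝ) * L ^ k ≤ X := (mul_le_mul_of_nonneg_right hn' hk0).trans x4
    nlinarith [mul_le_mul_of_nonneg_left b2 (abs_nonneg C)]
  have a2 : (2 * (2 * n) : ℝ) ≤ Real.exp (4 * X) := (ex _).trans (Real.exp_le_exp.2 (by linarith))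
  have a3 : (2 * (2 * n) * (2 * n * Real.exp (|C| * L ^ k)) ^ (2 * (2 * n))) ^ 4 ≤
      Real.exp (4 * (12 + 4 * |C|) * X) := by
    refine (pow_le_pow_left₀ (by positivity) (mul_le_mul a2 a1 (by positivity)
      (Real.exp_pos _).le) 4).trans (le_of_eq ?_)
    rw [← Real.exp_add, ← Real.exp_nat_mul]
    congr 1
    push_cast
    ring
  have a4 : K ≤ Real.exp (K * X) := (ex _).trans (Real.exp_le_exp.2 (by nlinarith))
  set E := Real.exp ((K + 4 * (12 + 4 * |C|)) * X) with hE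
  have e1 : 1 ≤ E := Real.one_le_exp (by positivity)
  have a5 : u ^ 2 ≤ E * d ^ 2 := by
    have b1 : u ^ 2 ≤ K * Real.exp (4 * (12 + 4 * |C|) * X) * d ^ 2 := by
      rw [hK, div_mul_eq_mul_div, div_mul_eq_mul_div, le_div_iff₀ hc, mul_comm]
      exact h.trans (mul_le_mul_of_nonneg_right (mul_le_mul_of_nonneg_left a3 (by norm_num))
        (sq_nonneg d))
    refine b1.trans (mul_le_mul_of_nonneg_right ?_ (sq_nonneg d))
    rw [hE, add_mul, Real.exp_add]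
    exact mul_le_mul_of_nonneg_right a4 (Real.exp_pos _).le
  refine (pow_le_pow_iff_left₀ hu (by positivity) two_ne_zero).1 ?_
  rw [mul_pow, sq_abs]
  exact a5.trans (mul_le_mul_of_nonneg_right (by nlinarith) (sq_nonneg d))

end Crest.Agent.T15.Hab
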