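import Crest.Agent.T15.MsF_40

/-!
# Row 15, block Ht (helper40): Eichler-Shimura for `Γ₀(L)` from the torsion free levels
-/

set_option autoImplicit false

noncomputable section

namespace Crest.Agent.T15.Ms

open UpperHalfPlane hiding I
open MatrixGroups ModularForm CongruenceSubgroup
open scoped ComplexConjugate
open Crest.Agent.T15.Hk Crest.Agent.T15.Esc

/-- Eichler-Shimura for congruence subgroups of `Γ₁(4)` -/
def EsS : Prop :=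
  ∀ (Γ : Subgroup SL(2, ℤ)) [Γ.FiniteIndex], Γ ≤ Gamma1 4 → IsCongruenceSubgroup Γ →
    ∀ φ : HH (Γ.map Mf.sq) ℂ, ∃ f ∈ MS Γ 2, ∃ g ∈ CS Γ 2, ∀ γ ∈ Γ,
      val φ (Mf.sq γ) = per f γ + conj (per g γ)

lemma slash_neg_SL (f : ℍ → ℂ) (γ : SL(2, ℤ)) : f ∣[(2 : ℤ)] (-γ) = f ∣[(2 : ℤ)] γ := by
  funext z
  rw [SL_slash_apply, SL_slash_apply, ModularGroup.SL_neg_smul, ModularGroup.denom_apply,
    ModularGroup.denom_apply]
  simp only [Matrix.SpecialLinearGroup.coe_neg, Matrix.neg_apply, Int.cast_neg, neg_mul, ← neg_add,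
    Even.neg_zpow (by decide : Even (-2 : ℤ))]

lemma per_neg (f : ℍ → ℂ) (γ : SL(2, ℤ)) : per f (-γ : SL(2, ℤ)) = per f γ :=
  congrArg (fun z => prim f z - prim f UpperHalfPlane.I) (ModularGroup.SL_neg_smul γ _)

theorem es_gamma0_of (h : EsS) {L : ℕ} [NeZero L] (h4 : 4 ∣ L) : ES (Gamma0 L) := by
  intro φ hφ
  have hn : -1 ∈ Gamma0 L := by simp [Gamma0_mem]
  have hpm : ∀ γ ∈ Gamma0 L, γ ∈ Gamma0 L ⊓ Gamma1 4 ∨ -γ ∈ Gamma0 L ⊓ Gamma1 4 := fun γ hγ => by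
    have h0 : ((γ 1 0 : ℤ) : ZMod 4) = 0 := by
      simpa using congrArg (ZMod.castHom h4 (ZMod 4)) (Gamma0_mem.1 hγ)
    have h1 := Lv.a_mul_d h0
    have h2 : ∀ a d : ZMod 4, a * d = 1 → (a = 1 ∧ d = 1) ∨ (-a = 1 ∧ -d = 1) := by decide
    rcases h2 _ _ h1 with h3 | h3
    · exact Or.inl ⟨hγ, (Gamma1_mem _ _).2 ⟨h3.1, h3.2, h0⟩⟩
    · refine Or.inr ⟨by simpa using mul_mem hn hγ, (Gamma1_mem _ _).2 ?_⟩
      simpa [h0] using h3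
  have hφ1 : φ 1 = 0 := by simpa using hφ 1 (one_mem _) 1 (one_mem _)
  have hφn : ∀ γ ∈ Gamma0 L, φ (-γ) = φ γ := fun γ hγ => by
    have h1 := hφ _ hn _ hn
    have h2 := hφ _ hn _ hγ
    rw [neg_mul_neg, one_mul, hφ1] at h1
    rw [neg_one_mul] at h2
    linear_combination h2 - h1 / 2
  have e : ∀ γ, Function.extend Mf.sq φ 0 (Mf.sq γ) = φ γ := Mf.sq_injective.extend_apply φ 0
  obtain ⟨f, hf, g, hg, H⟩ := h (Gamma0 L ⊓ Gamma1 4) inf_le_right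
    ⟨L, NeZero.ne L, le_inf (Lv.GH_top ▸ Lv.Gamma_le_GH) (Lv.Gamma_le_GH.trans
      (Lv.GH_le_G4 (H := ⊥) h4 fun u hu => by rw [Subgroup.mem_bot.1 hu, map_one]))⟩
    (mk _ (Function.extend Mf.sq φ 0) (by
      rintro _ ⟨γ, hγ, rfl⟩ _ ⟨γ', hγ', rfl⟩
      rw [← map_mul, e, e, e, hφ _ hγ.1 _ hγ'.1]))
  have inv : ∀ u : ℍ → ℂ, (∀ γ ∈ Gamma0 L ⊓ Gamma1 4, u ∣[(2 : ℤ)] γ = u) →
      ∀ γ ∈ Gamma0 L, u ∣[(2 : ℤ)] γ = u := fun u hu γ hγ =>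
    (hpm γ hγ).elim (hu γ) fun h => slash_neg_SL u γ ▸ hu _ h
  refine ⟨f, ⟨hf.1, inv f hf.2.1, hf.2.2⟩, g, ⟨hg.1, inv g hg.2.1, hg.2.2⟩, fun γ hγ => ?_⟩
  rcases hpm γ hγ with h1 | h1
  · rw [← H γ h1, val_mk _ _ (Subgroup.mem_map_of_mem _ h1), e]
  · rw [← per_neg f, ← per_neg g, ← H _ h1, val_mk _ _ (Subgroup.mem_map_of_mem _ h1), e, hφn γ hγ]

end Crest.Agent.T15.Ms
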