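import Crest.Agent.T15.EscY_12
import Crest.Agent.T15.MsG_40

/-!
# Row 15 (helper12): Eichler-Shimura in the words of the block `Ms`
-/

set_option autoImplicit false

namespace Crest.Agent.T15.EscO

open CongruenceSubgroup

theorem esS : Ms.EsS := fun Γ _ h4 ⟨M, hM, hc⟩ φ =>
  esSurj M Γ (Nat.pos_of_ne_zero hM) hc h4 φ

theorem es_gamma0 {L : ℕ} [NeZero L] (h4 : 4 ∣ L) : Ms.ES (Gamma0 L) := Ms.es_gamma0_of esS h4

end Crest.Agent.T15.EscO
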