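import Crest.Agent.T15.HtDef_95
import Crest.Agent.T15.ArchA_58
import Crest.Agent.T15.EscX_12

/-!
# Row 15, block Ht (helper58): `ArchStmt` from the integer rows
-/

set_option autoImplicit false

noncomputable section

namespace Crest.Agent.T15.Ht

open CongruenceSubgroup
open scoped MatrixGroups UpperHalfPlane
open Crest.Agent.T15.Hk (RC)

/-- bounded integer rows which cut out the symbols of the pair -/
def RowsStmt : Prop :=
  ∃ (C : ℝ) (k : ℕ), ∀ (L : ℕ) (g : ℕ → ℤ) (f : Fin 2 → ℍ → ℂ), Hk L g → Pair L g f →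
    ∀ [Fintype (RC (Gamma0 L))], ∃ R : Set (Fin 2 × RC (Gamma0 L) → ℤ),
      (∀ row ∈ R, ∀ A, |(row A : ℝ)| ≤ Real.exp (C * (L : ℝ) ^ k)) ∧
      (∀ row ∈ R, ∀ j, ∑ A, (row A : ℂ) * Hab.rr (Gamma0 L) f j A = 0) ∧
      Module.finrank ℝ (Hab.Ker R) ≤ 4

theorem archStmt_of (h : RowsStmt) : ArchStmt := by
  obtain ⟨C, k, h⟩ := h
  obtain ⟨C', hC'⟩ := Hab.arch_num C k
  refine ⟨C', k + 4, fun L g f a b x hk hp hx hd => ?_⟩
  have : NeZero L := ⟨hk.pos.ne'⟩
  have := Fintype.ofFinite (RC (Gamma0 L))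
  obtain ⟨R, hB, hker, hdim⟩ := h L g f hk hp
  have hL : (0 : ℝ) ≤ (L : ℝ) ^ k := by positivity
  have := Hab.arch_core (Γ := Gamma0 L) (by simp [Gamma0_mem])
    (by simp [Gamma0_mem, ModularGroup.coe_T]) hp.cs hp.q1 hp.q3 (by simp [pc, hk.one])
    (by simp [pc]) (B := Real.exp (|C| * (L : ℝ) ^ k)) (Real.one_le_exp (by positivity)) R
    (fun row hr A => (hB row hr A).trans
      (Real.exp_le_exp.2 (mul_le_mul_of_nonneg_right (le_abs_self C) hL))) hker hdim a b x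
    (fun i => by
      obtain ⟨v, hv, w, hw, e⟩ := hx i
      refine ⟨v, hv, w, hw, ?_, ?_⟩
      · have := congrFun e 0
        change (64 : ℚ) • x i 0 = a • (v 0 + 3 * w 1) + b • (3 * (v 1 + w 0)) at this
        simp only [Rat.smul_def] at this
        exact_mod_cast this
      · have := congrFun e 1
        change (64 : ℚ) • x i 1 = a • (v 1 + w 0) + b • (v 0 + 3 * w 1) at this
        simp only [Rat.smul_def] at this
        exact_mod_cast this) hd
  refine ⟨fun e => this.1 (by exact_mod_cast e), ?_⟩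
  push_cast
  exact hC' L _ _ _ hk.pos (Hab.card_RC L) (sq_nonneg _) this.2

theorem rowsStmt_of (h : Ms.EsS) : RowsStmt := by
  refine ⟨38, 2, fun L g f hk hp _ => ?_⟩
  have : NeZero L := ⟨hk.pos.ne'⟩
  obtain ⟨R, h1, h2, h3⟩ := Ms.rows_pair (Ms.es_gamma0_of h (dvd_trans (by norm_num) hk.dvd))
    (dvd_trans (by norm_num) hk.dvd) hk.one hk.sup hk.hrec hp.cs hp.q1 hp.q3
  refine ⟨R, fun row hr A => (h1 row hr A).trans ?_, h2, h3⟩
  have hL : (1 : ℝ) ≤ (L : ℝ) ^ 2 := one_le_pow₀ (by exact_mod_cast hk.pos)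
  rw [show 38 * (L : ℝ) ^ 2 = 35 * (L : ℝ) ^ 2 + 3 * (L : ℝ) ^ 2 by ring, Real.exp_add]
  refine mul_le_mul_of_nonneg_right ?_ (Real.exp_pos _).le
  linarith [Real.add_one_le_exp (35 * (L : ℝ) ^ 2)]

/-- leaf ARCH from the surjectivity of the Eichler-Shimura map -/
theorem archStmt_of_es (h : Ms.EsS) : ArchStmt := archStmt_of (rowsStmt_of h)

/-- leaf ARCH -/
theorem archStmt : ArchStmt := archStmt_of_es EscO.esS

end Crest.Agent.T15.Ht
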