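import Mathlib

/-!
# Row 15, block Ht (helper93): integrality of the formal solution after rescaling (core of `BadStmt`)
-/

set_option autoImplicit false
set_option linter.all false

noncomputable section

namespace Crest.Agent.T15.Bad

open scoped NNReal PowerSeries
open PowerSeries

variable {K : Type*} [Field K]

section val
variable (v : Valuation K ℝ≥0)

theorem v_nat (n : ℕ) : v (n : K) ≤ 1 := by
  induction n with
  | zero => simp
  | succ n ih => push_cast; exact v.map_add_le ih (by simp)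

theorem v_int (n : ℤ) : v (n : K) ≤ 1 := by
  obtain ⟨m, rfl | rfl⟩ := n.eq_nat_or_neg
  · simpa using v_nat v m
  · simpa using v_nat v m

theorem pow_le_nat {N : ℕ} (hN : v (N : K) < 1) (n : ℕ) : v (N : K) ^ n ≤ v ((n + 1 : ℕ) : K) := by
  induction n using Nat.strong_induction_on with
  | _ n ih =>
  by_cases h : Nat.gcd (n + 1) N = 1
  · have e := Nat.gcd_eq_gcd_ab (n + 1) N
    rw [h] at e
    have e' : (1 : K) = ((n + 1 : ℕ) : K) * (Nat.gcdA (n + 1) N : K) +
        (N : K) * (Nat.gcdB (n + 1) N : K) := by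
      have := congrArg (Int.cast : ℤ → K) e
      simpa using this
    refine (pow_le_one₀ zero_le hN.le).trans ?_
    by_contra hlt
    push Not at hlt
    have h1 : v (((n + 1 : ℕ) : K) * (Nat.gcdA (n + 1) N : K)) < 1 := by
      rw [map_mul]; exact (mul_le_of_le_one_right' (v_int v _)).trans_lt hlt
    have h2 : v ((N : K) * (Nat.gcdB (n + 1) N : K)) < 1 := by
      rw [map_mul]; exact (mul_le_of_le_one_right' (v_int v _)).trans_lt hN
    have := v.map_add_lt h1 h2
    rw [← e'] at this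
    simp at this
  · obtain ⟨k, hk⟩ := Nat.gcd_dvd_left (n + 1) N
    obtain ⟨N', hN'⟩ := Nat.gcd_dvd_right (n + 1) N
    set d := Nat.gcd (n + 1) N
    have hd0 : d ≠ 0 := by rintro h0; rw [h0] at hk; omega
    have hd : 2 ≤ d := by omega
    obtain ⟨k, rfl⟩ : ∃ k', k = k' + 1 := by
      cases k with
      | zero => omega
      | succ k => exact ⟨k, rfl⟩
    have hkn : k + 1 ≤ n := by nlinarith
    have h1 : v (N : K) ≤ v (d : K) := by
      conv_lhs => rw [hN']
      push_cast; rw [map_mul]; exact mul_le_of_le_one_right' (v_nat v _)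
    calc v (N : K) ^ n ≤ v (N : K) ^ (k + 1) := pow_le_pow_of_le_one zero_le hN.le hkn
      _ = v (N : K) * v (N : K) ^ k := by ring
      _ ≤ v (d : K) * v ((k + 1 : ℕ) : K) := mul_le_mul' h1 (ih k (by omega))
      _ = _ := by rw [hk, Nat.cast_mul, map_mul]

/-- integral below `n` -/
def Ib (n : ℕ) (f : K⟦X⟧) : Prop := ∀ k < n, v (coeff k f) ≤ 1

/-- integral -/
def Ia (f : K⟦X⟧) : Prop := ∀ k, v (coeff k f) ≤ 1

variable {v}

theorem Ia.ib {f : K⟦X⟧} (h : Ia v f) (n : ℕ) : Ib v n f := fun k _ => h k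

theorem ia_of {f : K⟦X⟧} (h : ∀ n, Ib v n f) : Ia v f := fun k => h (k + 1) k k.lt_succ_self

theorem Ib.mono {n m : ℕ} {f : K⟦X⟧} (h : Ib v n f) (hm : m ≤ n) : Ib v m f :=
  fun k hk => h k (hk.trans_le hm)

theorem Ib.add {n : ℕ} {f g : K⟦X⟧} (hf : Ib v n f) (hg : Ib v n g) : Ib v n (f + g) :=
  fun k hk => by rw [map_add]; exact v.map_add_le (hf k hk) (hg k hk)

theorem Ib.neg {n : ℕ} {f : K⟦X⟧} (hf : Ib v n f) : Ib v n (-f) :=
  fun k hk => by rw [map_neg, Valuation.map_neg]; exact hf k hk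

theorem ib_C {n : ℕ} {a : K} (ha : v a ≤ 1) : Ib v n (C a) := fun k _ => by
  rw [coeff_C]; split_ifs <;> simp [ha]

theorem ib_X {n : ℕ} : Ib v n (X : K⟦X⟧) := fun k _ => by
  rw [coeff_X]; split_ifs <;> simp

theorem ib_one {n : ℕ} : Ib v n (1 : K⟦X⟧) := by simpa using ib_C (v := v) (n := n) (a := 1) (by simp)

theorem Ib.mul {n : ℕ} {f g : K⟦X⟧} (hf : Ib v n f) (hg : Ib v n g) : Ib v n (f * g) := fun k hk => by
  rw [coeff_mul]
  refine v.map_sum_le fun p hp => ?_
  have := Finset.HasAntidiagonal.mem_antidiagonal.1 hp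
  rw [map_mul]
  exact mul_le_one' (hf _ (by omega)) (hg _ (by omega))

theorem Ib.mul1 {n : ℕ} {f g : K⟦X⟧} (h0 : constantCoeff f = 0) (hf : Ib v (n + 1) f)
    (hg : Ib v n g) : Ib v (n + 1) (f * g) := fun k hk => by
  rw [coeff_mul]
  refine v.map_sum_le fun p hp => ?_
  have := Finset.HasAntidiagonal.mem_antidiagonal.1 hp
  rw [map_mul]
  rcases Nat.eq_zero_or_pos p.1 with h | h
  · simp [h, h0]
  · exact mul_le_one' (hf _ (by omega)) (hg _ (by omega))

theorem Ib.mul2 {n : ℕ} {f g : K⟦X⟧} (h0 : constantCoeff f = 0) (h0' : constantCoeff g = 0)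
    (hf : Ib v n f) (hg : Ib v n g) : Ib v (n + 1) (f * g) := fun k hk => by
  rw [coeff_mul]
  refine v.map_sum_le fun p hp => ?_
  have := Finset.HasAntidiagonal.mem_antidiagonal.1 hp
  rw [map_mul]
  rcases Nat.eq_zero_or_pos p.1 with h | h
  · simp [h, h0]
  rcases Nat.eq_zero_or_pos p.2 with h' | h'
  · simp [h', h0']
  · exact mul_le_one' (hf _ (by omega)) (hg _ (by omega))

theorem Ib.pow {n : ℕ} {f : K⟦X⟧} (hf : Ib v n f) (k : ℕ) : Ib v n (f ^ k) := by
  induction k with
  | zero => simpa using ib_one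
  | succ k ih => rw [pow_succ]; exact ih.mul hf

theorem Ib.pow2 {n : ℕ} {f : K⟦X⟧} (h0 : constantCoeff f = 0) (hf : Ib v n f) (k : ℕ) :
    Ib v (n + 1) (f ^ (k + 2)) := by
  rw [pow_succ]
  exact Ib.mul2 (by simp [h0]) h0 (hf.pow _) hf

theorem Ia.mul {f g : K⟦X⟧} (hf : Ia v f) (hg : Ia v g) : Ia v (f * g) :=
  ia_of fun n => (hf.ib n).mul (hg.ib n)

theorem Ia.pow {f : K⟦X⟧} (hf : Ia v f) (k : ℕ) : Ia v (f ^ k) := ia_of fun n => (hf.ib n).pow k

theorem Ia.add {f g : K⟦X⟧} (hf : Ia v f) (hg : Ia v g) : Ia v (f + g) :=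
  ia_of fun n => (hf.ib n).add (hg.ib n)

theorem ia_C {a : K} (ha : v a ≤ 1) : Ia v (C a) := ia_of fun _ => ib_C ha

theorem ia_X : Ia v (X : K⟦X⟧) := ia_of fun _ => ib_X

theorem ia_sqrt {Z G : K⟦X⟧} (hZ : constantCoeff Z = 0) (hG0 : constantCoeff G = 0) (hG : Ia v G)
    (e : Z = -(Z * Z) + -(G * (1 + C 2 * Z) ^ 2)) : Ia v Z := by
  refine ia_of fun n => ?_
  induction n with
  | zero => exact fun k hk => absurd hk (by omega)
  | succ n ih =>
    rw [e]
    have h2 : v (2 : K) ≤ 1 := by simpa using v_nat v 2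
    exact (Ib.mul2 hZ hZ ih ih).neg.add
      (Ib.mul1 hG0 (hG.ib _) ((ib_one.add ((ib_C h2).mul ih)).pow 2)).neg

theorem v_subst_le (H y : K⟦X⟧) (hy : constantCoeff y = 0) (n : ℕ) (c : ℝ≥0)
    (h : ∀ k, v (coeff k H * coeff n (y ^ k)) ≤ c) : v (coeff n (H.subst y)) ≤ c := by
  have hs := HasSubst.of_constantCoeff_zero' hy
  rw [coeff_subst' hs, finsum_eq_sum _ (coeff_subst_finite' hs H n)]
  exact v.map_sum_le fun k _ => h k

end val

theorem exists_isqrt [CharZero K] (P : K⟦X⟧) (b : K) (hb : b ≠ 0) (hP : constantCoeff P = b ^ 2) :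
    ∃ U : K⟦X⟧, U ^ 2 * P = 1 ∧ constantCoeff U = b⁻¹ := by
  set G : K⟦X⟧ := C (b ^ 2)⁻¹ * P - 1 with hG
  have hG0 : constantCoeff G = 0 := by simp [hG, hP, hb]
  have hs := HasSubst.of_constantCoeff_zero' hG0
  set B : K⟦X⟧ := binomialSeries K (-1 / 2 : ℚ)
  have hB : B ^ 2 * (1 + X) = 1 := by
    have h1 : binomialSeries K ((1 : ℕ) : ℚ) = (1 + X : K⟦X⟧) := by
      rw [binomialSeries_nat]; simp
    rw [← h1, sq, ← binomialSeries_add, ← binomialSeries_add]
    norm_num
  have hB0 : constantCoeff B = 1 := binomialSeries_constantCoeff _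
  have h1 : (B.subst G : K⟦X⟧) ^ 2 * (1 + G) = 1 := by
    have := congrArg (substAlgHom (R := K) hs) hB
    rw [map_mul, map_pow, map_add, map_one, coe_substAlgHom, subst_X hs] at this
    exact this
  have h0 : constantCoeff (B.subst G : K⟦X⟧) = 1 := by
    have h2 : constantCoeff (B - 1) = 0 := by simp [hB0]
    have := constantCoeff_subst_eq_zero (a := G) hG0 (B - 1) h2
    rw [← coe_substAlgHom hs, map_sub, map_one, coe_substAlgHom, map_sub, map_one,
      sub_eq_zero] at this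
    exact this
  refine ⟨C b⁻¹ * B.subst G, ?_, by simp [h0]⟩
  rw [← h1, hG, mul_pow, ← map_pow, inv_pow]
  ring

theorem sqrt_int [CharZero K] {v : Valuation K ℝ≥0} (P : K⟦X⟧) (b D : K) (hb : b ≠ 0)
    (hP : constantCoeff P = b ^ 2) (hD : v D ≤ 1)
    (hc : ∀ k, v D * v ((b ^ 2)⁻¹ * coeff k P) ≤ 1) :
    ∃ U : K⟦X⟧, U ^ 2 * P = 1 ∧ constantCoeff U = b⁻¹ ∧ Ia v (rescale (4 * D) (C b * U)) ∧
      Ia v (rescale (4 * D) (C (b ^ 2)⁻¹ * P)) := by
  obtain ⟨U, hU, hU0⟩ := exists_isqrt P b hb hP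
  set Ut := rescale (4 * D) (C b * U) with hUt
  set Pt := rescale (4 * D) (C (b ^ 2)⁻¹ * P) with hPt
  have h4 : v (4 : K) ≤ 1 := by simpa using v_nat v 4
  have h2 : v (2 : K) ≤ 1 := by simpa using v_nat v 2
  have e : Ut ^ 2 * Pt = 1 := by
    rw [hUt, hPt, ← map_pow, ← map_mul, ← map_one (rescale (4 * D))]
    congr 1
    have : (C b : K⟦X⟧) ^ 2 * C (b ^ 2)⁻¹ = 1 := by
      rw [← map_pow, ← map_mul, mul_inv_cancel₀ (pow_ne_zero 2 hb), map_one]
    linear_combination (U ^ 2 * P) * this + hU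
  have hU1 : constantCoeff Ut = 1 := by
    rw [← coeff_zero_eq_constantCoeff_apply, hUt, coeff_rescale]; simp [hU0, hb]
  have hP1 : constantCoeff Pt = 1 := by
    rw [← coeff_zero_eq_constantCoeff_apply, hPt, coeff_rescale]; simp [hP, hb]
  set Z : K⟦X⟧ := C 2⁻¹ * (Ut - 1) with hZ
  set G : K⟦X⟧ := C 4⁻¹ * (Pt - 1) with hG
  have c2 : (C 2 : K⟦X⟧) * C 2⁻¹ = 1 := by rw [← map_mul]; simp
  have c4 : (C 2 : K⟦X⟧) ^ 2 * C 4⁻¹ = 1 := by rw [← map_pow, ← map_mul]; norm_num
  have c2' : (C 2 : K⟦X⟧) = 2 := map_ofNat _ 2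
  have eU : Ut = 1 + C 2 * Z := by rw [hZ]; linear_combination (1 - Ut) * c2
  have eP : Pt = 1 + C 2 ^ 2 * G := by rw [hG]; linear_combination (1 - Pt) * c4
  have hG0 : constantCoeff G = 0 := by simp [hG, hP1]
  have hGi : Ia v G := fun k => by
    cases k with
    | zero => simp [hG0]
    | succ k =>
      have : coeff (k + 1) G = (4 * D) ^ k * (D * ((b ^ 2)⁻¹ * coeff (k + 1) P)) := by
        rw [hG, coeff_C_mul, map_sub, hPt, coeff_rescale, coeff_C_mul, coeff_one, if_neg (by omega)]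
        field_simp; ring
      rw [this, map_mul, map_pow, map_mul, map_mul]
      exact mul_le_one' (pow_le_one' (mul_le_one' h4 hD) _) (hc _)
  have hZi : Ia v Z := by
    refine ia_sqrt (by simp [hZ, hU1]) hG0 hGi ?_
    rw [eU, eP] at e
    have h40 : (C 2 : K⟦X⟧) ^ 2 ≠ 0 := fun h => by rw [h] at c4; simp at c4
    apply mul_left_cancel₀ h40
    rw [c2'] at e ⊢
    linear_combination e
  refine ⟨U, hU, hU0, ?_, ?_⟩
  · change Ia v Ut
    rw [eU]; exact (by simpa using ia_C (v := v) (a := 1) (by simp) : Ia v 1).add ((ia_C h2).mul hZi)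
  · change Ia v Pt
    rw [eP]
    exact (by simpa using ia_C (v := v) (a := 1) (by simp) : Ia v 1).add (((ia_C h2).pow 2).mul hGi)

/-- the primitive with zero constant term -/
def prim (H : K⟦X⟧) : K⟦X⟧ := PowerSeries.mk fun k => coeff (k - 1) H / k

theorem deriv_prim [CharZero K] (H : K⟦X⟧) : derivative K (prim H) = H := by
  ext k
  have : ((k : K) + 1) ≠ 0 := by exact_mod_cast k.succ_ne_zero
  rw [coeff_derivative, prim, coeff_mk]
  simp only [Nat.add_sub_cancel]
  push_cast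
  field_simp

/-- the part of degree at least two of the primitive -/
def prim2 (H : K⟦X⟧) : K⟦X⟧ := prim H - C (constantCoeff H) * X

theorem coeff_prim2 (H : K⟦X⟧) (k : ℕ) :
    coeff (k + 2) (prim2 H) = coeff (k + 1) H / ((k + 1 + 1 : ℕ) : K) := by
  rw [prim2, map_sub, coeff_C_mul, coeff_X, if_neg (by omega), prim, coeff_mk, mul_zero, sub_zero]
  rfl

theorem coeff_prim2_zero (H : K⟦X⟧) : coeff 0 (prim2 H) = 0 := by
  rw [prim2, map_sub, coeff_C_mul, coeff_X, if_neg (by omega), prim, coeff_mk]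
  simp

theorem coeff_prim2_one (H : K⟦X⟧) : coeff 1 (prim2 H) = 0 := by
  rw [prim2, map_sub, coeff_C_mul, coeff_X, if_pos rfl, prim, coeff_mk]
  simp

theorem rescale_C' (a r : K) : rescale a (C r : K⟦X⟧) = C r := by
  ext k
  rw [coeff_rescale, coeff_C]
  split_ifs with h
  · simp [h]
  · simp

theorem core [CharZero K] {v : Valuation K ℝ≥0} {g : ℕ} (a b : Fin g → K) (hb : ∀ i, b i ≠ 0)
    (P : Fin g → K⟦X⟧) (W : Fin g → Fin g → K)
    (hW : ∀ j i, ∑ m : Fin g, W j m * (a i ^ (m : ℕ) * (b i)⁻¹) = if i = j then 1 else 0)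
    (D N : K) (hD0 : D ≠ 0) (hN0 : N ≠ 0) (hD : v D ≤ 1) (hN1 : v N ≤ 1)
    (hN : ∀ n : ℕ, v N ^ n ≤ v ((n + 1 : ℕ) : K))
    (ha : ∀ i, v D * v (a i) ≤ 1) (hb1 : ∀ i, v D * v (b i) ≤ 1) (hb2 : ∀ i, v D * v (b i)⁻¹ ≤ 1)
    (hW1 : ∀ j m, v D * v (W j m) ≤ 1) (hc : ∀ i k, v D * v ((b i ^ 2)⁻¹ * coeff k (P i)) ≤ 1)
    (hP : ∀ i, constantCoeff (P i) = b i ^ 2) (Φ y w η : Fin g → K⟦X⟧)
    (hΦ : ∀ m n, v (coeff n (Φ m)) ≤ v (4 * D * N * D ^ (g + 1) * D))
    (sq : ∀ i, w i ^ 2 = (P i).subst (y i)) (y0 : ∀ i, constantCoeff (y i) = 0)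
    (w0 : ∀ i, constantCoeff (w i) = b i) (dy : ∀ i, derivative K (y i) = η i * w i)
    (sum : ∀ m : Fin g, ∑ i, (C (a i) + y i) ^ (m : ℕ) * η i = derivative K (Φ m)) :
    ∀ i n, 0 < n → v (coeff n (y i)) ≤ 1 ∧ v (coeff n (w i)) ≤ 1 := by
  choose U hU hU0 hUi hPi using fun i => sqrt_int (v := v) (P i) (b i) D (hb i) (hP i) hD (hc i)
  have hs : ∀ i, HasSubst (y i) := fun i => HasSubst.of_constantCoeff_zero' (y0 i)
  have h4 : v (4 : K) ≤ 1 := by simpa using v_nat v 4
  have h40 : v (4 * D) ≤ 1 := by rw [map_mul]; exact mul_le_one' h4 hD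
  set μ : K := 4 * D * N * D ^ (g + 1) with hμ
  have hμ0 : μ ≠ 0 := by simp [hμ, hD0, hN0]
  have hvμ0 : v μ ≠ 0 := by simpa using hμ0
  have hvD0 : v D ≠ 0 := by simpa using hD0
  have hvμ : v μ = v (4 * D) * v N * v D ^ (g + 1) := by rw [hμ, map_mul, map_mul, map_pow]
  have hμ1 : v μ ≤ 1 := by rw [hvμ]; exact mul_le_one' (mul_le_one' h40 hN1) (pow_le_one' hD _)
  -- the inverse of `w`
  have hUw : ∀ i, ((U i).subst (y i) : K⟦X⟧) * w i = 1 := fun i => by
    have e := congrArg (substAlgHom (R := K) (hs i)) (hU i)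
    rw [map_mul, map_pow, map_one, coe_substAlgHom, ← sq i] at e
    have e0 : constantCoeff ((U i).subst (y i) : K⟦X⟧) = (b i)⁻¹ := by
      have h2 : constantCoeff (U i - C (b i)⁻¹) = 0 := by simp [hU0]
      have := constantCoeff_subst_eq_zero (a := y i) (y0 i) _ h2
      rw [subst_sub (hs i), subst_C, map_sub, sub_eq_zero] at this
      exact this
    have e1 : (((U i).subst (y i) : K⟦X⟧) * w i - 1) * (((U i).subst (y i) : K⟦X⟧) * w i + 1) = 0 := by
      linear_combination e
    rcases mul_eq_zero.1 e1 with h | h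
    · exact sub_eq_zero.1 h
    · have := congrArg constantCoeff h
      rw [map_add, map_mul, e0, w0, inv_mul_cancel₀ (hb i), map_one, map_zero] at this
      norm_num at this
  set H : Fin g → Fin g → K⟦X⟧ := fun i m => (C (a i) + X) ^ (m : ℕ) * U i with hH
  have hHi : ∀ i m k, v D ^ (g + 1) * (v (4 * D) ^ k * v (coeff k (H i m))) ≤ v D := fun i m k => by
    have e : C (D ^ ((m : ℕ) + 1)) * rescale (4 * D) (H i m) =
        (C (D * a i) + C (D * (4 * D)) * X) ^ (m : ℕ) *
          (C (D * (b i)⁻¹) * rescale (4 * D) (C (b i) * U i)) := by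
      have : (C (b i)⁻¹ : K⟦X⟧) * C (b i) = 1 := by rw [← map_mul, inv_mul_cancel₀ (hb i), map_one]
      simp only [hH, map_mul, map_pow, map_add, rescale_C', rescale_X]
      rw [show C D * C (a i) + C D * (C 4 * C D) * X = C D * (C (a i) + C 4 * C D * X) by ring, mul_pow]
      linear_combination (-(C D ^ (m : ℕ) * (C (a i) + C 4 * C D * X) ^ (m : ℕ) * C D *
        rescale (4 * D) (U i))) * this
    have hI : Ia v (C (D ^ ((m : ℕ) + 1)) * rescale (4 * D) (H i m)) := by
      rw [e]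
      refine (((ia_C ?_).add ((ia_C ?_).mul ia_X)).pow _).mul ((ia_C ?_).mul (hUi i))
      · rw [map_mul]; exact ha i
      · rw [map_mul]; exact mul_le_one' hD h40
      · rw [map_mul]; exact hb2 i
    have := hI k
    rw [coeff_C_mul, coeff_rescale, map_mul, map_mul, map_pow, map_pow] at this
    calc _ = v D * (v D ^ g * (v (4 * D) ^ k * v (coeff k (H i m)))) := by ring
      _ ≤ v D * (v D ^ ((m : ℕ) + 1) * (v (4 * D) ^ k * v (coeff k (H i m)))) :=
        mul_le_mul' le_rfl (mul_le_mul' (pow_le_pow_of_le_one zero_le hD m.2) le_rfl)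
      _ ≤ v D := mul_le_of_le_one_right' this
  -- the integrated equation
  have hint : ∀ (m : Fin g) (n : ℕ), ∑ i, (a i ^ (m : ℕ) * (b i)⁻¹) * coeff (n + 1) (y i) =
      coeff (n + 1) (Φ m) - ∑ i, coeff (n + 1) ((prim2 (H i m)).subst (y i) : K⟦X⟧) := fun m n => by
    have e : derivative K (∑ i, ((prim (H i m)).subst (y i) : K⟦X⟧)) = derivative K (Φ m) := by
      rw [← sum m, map_sum]
      refine Finset.sum_congr rfl fun i _ => ?_
      rw [derivative_subst (hs i), deriv_prim, dy i]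
      simp only [hH]
      rw [subst_mul (hs i), subst_pow (hs i), subst_add (hs i), subst_X (hs i), subst_C]
      change (C (a i) + y i) ^ (m : ℕ) * _ * _ = _
      linear_combination ((C (a i) + y i) ^ (m : ℕ) * η i) * hUw i
    have e1 := congrArg (coeff n) e
    have hn : ((n : K) + 1) ≠ 0 := by exact_mod_cast n.succ_ne_zero
    rw [coeff_derivative, coeff_derivative] at e1
    rw [← mul_right_cancel₀ hn e1, map_sum, ← Finset.sum_sub_distrib]
    refine Finset.sum_congr rfl fun i _ => ?_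
    rw [prim2, subst_sub (hs i), subst_mul (hs i), subst_X (hs i), subst_C, map_sub]
    change _ = _ - (_ - coeff (n + 1) (C (constantCoeff (H i m)) * y i))
    rw [coeff_C_mul]
    simp [hH, hU0]
  set z : Fin g → K⟦X⟧ := fun i => C μ⁻¹ * y i with hz
  have hyz : ∀ i, y i = C μ * z i := fun i => by
    rw [hz, ← mul_assoc, ← map_mul, mul_inv_cancel₀ hμ0, map_one, one_mul]
  have z0 : ∀ i, constantCoeff (z i) = 0 := fun i => by simp [hz, y0]
  have hpow : ∀ i k n, coeff n (y i ^ k) = μ ^ k * coeff n (z i ^ k) := fun i k n => by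
    rw [hyz i, mul_pow, ← map_pow, coeff_C_mul]
  have key : ∀ n i, Ib v n (z i) := by
    intro n
    induction n with
    | zero => exact fun i k hk => absurd hk (by omega)
    | succ n ih =>
      intro j k hk
      rcases (Nat.lt_succ_iff.1 hk).lt_or_eq with h | rfl
      · exact ih j k h
      cases k with
      | zero => simp [z0]
      | succ n =>
      have e : coeff (n + 1) (y j) = ∑ m, W j m * (coeff (n + 1) (Φ m) -
          ∑ i, coeff (n + 1) ((prim2 (H i m)).subst (y i) : K⟦X⟧)) := by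
        simp only [← hint, Finset.mul_sum]
        rw [Finset.sum_comm]
        have : ∀ i, ∑ m : Fin g, W j m * (a i ^ (m : ℕ) * (b i)⁻¹ * coeff (n + 1) (y i)) =
            (if i = j then 1 else 0) * coeff (n + 1) (y i) := fun i => by
          rw [← hW j i, Finset.sum_mul]
          exact Finset.sum_congr rfl fun m _ => by ring
        simp [this]
      have hb : v (coeff (n + 1) (y j)) ≤ v μ := by
        rw [e]
        refine v.map_sum_le fun m _ => ?_
        have h1 : v (coeff (n + 1) (Φ m) -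
            ∑ i, coeff (n + 1) ((prim2 (H i m)).subst (y i) : K⟦X⟧)) ≤ v μ * v D := by
          refine v.map_sub_le ((hΦ m _).trans (by rw [map_mul])) (v.map_sum_le fun i _ => ?_)
          refine v_subst_le _ _ (y0 i) _ _ fun k => ?_
          match k with
          | 0 => simp [coeff_prim2_zero]
          | 1 => simp [coeff_prim2_one]
          | k + 2 =>
            have h2 := (ih i).pow2 (z0 i) k (n + 1) (by omega)
            have h3 := hN (k + 1)
            have h5 := hHi i m (k + 1)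
            have h6 : v ((k + 1 + 1 : ℕ) : K) ≠ 0 := by
              simpa using (by exact_mod_cast (by omega : k + 1 + 1 ≠ 0) : ((k + 1 + 1 : ℕ) : K) ≠ 0)
            rw [coeff_prim2, hpow, map_mul v, map_mul v, map_div₀ v, map_pow v]
            set e := v ((k + 1 + 1 : ℕ) : K)
            set c := v (coeff (k + 1) (H i m))
            have h7 : v N ^ (k + 1) / e ≤ 1 := div_le_one_of_le₀ h3 zero_le
            have h8 : (v D ^ (g + 1)) ^ k ≤ 1 := pow_le_one' (pow_le_one' hD _) _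
            calc c / e * (v μ ^ (k + 2) * v (coeff (n + 1) (z i ^ (k + 2))))
                ≤ c / e * (v μ ^ (k + 2) * 1) := by gcongr
              _ = v μ * (v D ^ (g + 1) * (v (4 * D) ^ (k + 1) * c)) *
                  ((v N ^ (k + 1) / e) * (v D ^ (g + 1)) ^ k) := by
                rw [show v μ ^ (k + 2) = v μ * v μ ^ (k + 1) by ring]
                conv_lhs => rw [show v μ ^ (k + 1) = (v (4 * D) * v N * v D ^ (g + 1)) ^ (k + 1) by
                  rw [← hvμ]]
                simp only [div_eq_mul_inv]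
                ring
              _ ≤ v μ * v D * 1 := mul_le_mul' (mul_le_mul' le_rfl h5) (mul_le_one' h7 h8)
              _ = _ := mul_one _
        rw [map_mul]
        calc _ ≤ v (W j m) * (v μ * v D) := mul_le_mul' le_rfl h1
          _ = v μ * (v D * v (W j m)) := by ring
          _ ≤ v μ := mul_le_of_le_one_right' (hW1 j m)
      simp only [hz]
      rw [coeff_C_mul, map_mul, map_inv₀]
      exact inv_mul_le_one_of_le₀ hb zero_le
  have kz : ∀ i, Ia v (z i) := fun i => ia_of fun n => key n i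
  intro i n hn
  refine ⟨?_, ?_⟩
  · rw [hyz i, coeff_C_mul, map_mul]; exact mul_le_one' hμ1 (kz i n)
  · have e : w i = (P i * U i).subst (y i) := by
      rw [subst_mul (hs i), ← sq i]
      linear_combination (-w i) * hUw i
    rw [e]
    refine v_subst_le _ _ (y0 i) _ _ fun k => ?_
    cases k with
    | zero => simp [coeff_one, hn.ne']
    | succ k =>
      have e2 : C D * rescale (4 * D) (P i * U i) = C (D * b i) *
          (rescale (4 * D) (C (b i) * U i) * rescale (4 * D) (C (b i ^ 2)⁻¹ * P i)) := by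
        have : (C (b i) : K⟦X⟧) ^ 2 * C (b i ^ 2)⁻¹ = 1 := by
          rw [← map_pow, ← map_mul, mul_inv_cancel₀ (pow_ne_zero 2 (hb i)), map_one]
        simp only [map_mul, rescale_C']
        linear_combination (-(C D * rescale (4 * D) (P i) * rescale (4 * D) (U i))) * this
      have hI : Ia v (C D * rescale (4 * D) (P i * U i)) := by
        rw [e2]; exact (ia_C (by rw [map_mul]; exact hb1 i)).mul ((hUi i).mul (hPi i))
      have h1 := hI (k + 1)
      rw [coeff_C_mul, coeff_rescale, map_mul, map_mul, map_pow] at h1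
      have h2 := (kz i).pow (k + 1) n
      rw [hpow, map_mul v, map_mul v, map_pow v]
      set c := v (coeff (k + 1) (P i * U i))
      have h8 : v N ^ (k + 1) * (v D ^ g * (v D ^ (g + 1)) ^ k) ≤ 1 :=
        mul_le_one' (pow_le_one' hN1 _) (mul_le_one' (pow_le_one' hD _) (pow_le_one' (pow_le_one' hD _) _))
      calc c * (v μ ^ (k + 1) * v (coeff n (z i ^ (k + 1)))) ≤ c * (v μ ^ (k + 1) * 1) := by gcongr
        _ = (v D * (v (4 * D) ^ (k + 1) * c)) * (v N ^ (k + 1) * (v D ^ g * (v D ^ (g + 1)) ^ k)) := by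
          rw [hvμ]; ring
        _ ≤ 1 := mul_le_one' h1 h8

/-- a common denominator -/
theorem exists_den [CharZero K] [Algebra.IsAlgebraic ℚ K] {s : Set K} (hs : s.Finite) :
    ∃ D : ℕ, D ≠ 0 ∧ ∀ v : Valuation K ℝ≥0, ∀ z ∈ s, v (D : K) * v z ≤ 1 := by
  induction s, hs using Set.Finite.induction_on with
  | empty => exact ⟨1, one_ne_zero, by simp⟩
  | @insert x s _ _ ih =>
    obtain ⟨D, hD, h⟩ := ih
    have hx : IsAlgebraic ℤ x :=
      (IsFractionRing.isAlgebraic_iff ℤ ℚ K).2 (Algebra.IsAlgebraic.isAlgebraic x)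
    obtain ⟨y, hy, hi⟩ := hx.exists_integral_multiple
    refine ⟨D * y.natAbs, by simp [hD, hy], fun v z hz => ?_⟩
    rw [Nat.cast_mul, map_mul]
    rcases hz with rfl | hz
    · have h1 : v (y • z) ≤ 1 :=
        (Valuation.integer.integers v).mem_of_integral (hi.tower_top (A := v.integer))
      have h2 : v ((y.natAbs : ℕ) : K) = v (y : K) := by
        rcases Int.natAbs_eq y with h | h
        · conv_rhs => rw [h]
          simp
        · conv_rhs => rw [h]
          simp
      rw [zsmul_eq_mul, map_mul] at h1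
      rw [h2, mul_assoc]
      exact mul_le_one' (v_nat v _) h1
    · rw [mul_right_comm]
      exact mul_le_one' (h v z hz) (v_nat v _)

end Crest.Agent.T15.Bad
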