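import Crest.Agent.T15.HonDef_54
import Crest.Agent.T15.BadA_93

/-!
# Row 15, block Ht (helper93): leaf `Hon.BadStmt`
-/

set_option autoImplicit false
set_option linter.all false

noncomputable section

namespace Crest.Agent.T15.Hon

open scoped NNReal PowerSeries
open PowerSeries Crest.Agent.T15.Bad

theorem badStmt : BadStmt := by
  intro K0 _ _ _ g F a b ha hb N hN
  set P : Fin g → Polynomial K0 := fun i => F.comp (Polynomial.C (a i) + Polynomial.X) with hP
  set V := Matrix.vandermonde a
  have hV : IsUnit V.det := (Matrix.det_vandermonde_ne_zero_iff.2 ha).isUnit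
  set W : Fin g → Fin g → K0 := fun j m => b j * V⁻¹ m j with hWd
  have hW : ∀ j i, ∑ m : Fin g, W j m * (a i ^ (m : ℕ) * (b i)⁻¹) = if i = j then 1 else 0 := by
    intro j i
    have e := congrFun (congrFun (Matrix.mul_nonsing_inv V hV) i) j
    rw [Matrix.mul_apply, Matrix.one_apply] at e
    have : ∑ m : Fin g, W j m * (a i ^ (m : ℕ) * (b i)⁻¹) =
        (b j * (b i)⁻¹) * ∑ m : Fin g, V i m * V⁻¹ m j := by
      rw [Finset.mul_sum]
      exact Finset.sum_congr rfl fun m _ => by simp only [hWd, V, Matrix.vandermonde_apply]; ring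
    rw [this, e]
    split_ifs with h
    · subst h; simp [hb i]
    · simp
  have hfin : (Set.range a ∪ Set.range b ∪ Set.range (fun i => (b i)⁻¹) ∪
      Set.range (fun p : Fin g × Fin g => W p.1 p.2) ∪
      Set.range (fun p : (i : Fin g) × Fin ((P i).natDegree + 1) =>
        (b p.1 ^ 2)⁻¹ * (P p.1).coeff p.2)).Finite :=
    ((((Set.finite_range _).union (Set.finite_range _)).union (Set.finite_range _)).union
      (Set.finite_range _)).union (Set.finite_range _)
  obtain ⟨D, hD, hden⟩ := exists_den hfin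
  refine ⟨4 * D * N * D ^ (g + 1) * D, by simp [hD, hN], fun v0 hv Φ x w η hΦ hS => ?_⟩
  have hy0 : ∀ i, constantCoeff (x i - C (a i)) = 0 := fun i => by simp [hS.x0]
  have hs : ∀ i, HasSubst (x i - C (a i)) := fun i => HasSubst.of_constantCoeff_zero' (hy0 i)
  have hsq : ∀ i, w i ^ 2 = ((P i : K0⟦X⟧)).subst (x i - C (a i)) := fun i => by
    rw [subst_coe (hs i), hS.sq i]
    simp only [hP, Polynomial.aeval_comp, map_add, Polynomial.aeval_C, Polynomial.aeval_X]
    have : (algebraMap K0 (MvPowerSeries Unit K0)) (a i) + (x i - C (a i)) = x i := by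
      change C (a i) + (x i - C (a i)) = x i
      ring
    rw [this]
  have hP0 : ∀ i, constantCoeff (P i : K0⟦X⟧) = b i ^ 2 := fun i => by
    have h2 : constantCoeff ((P i : K0⟦X⟧) - C (constantCoeff (P i : K0⟦X⟧))) = 0 := by simp
    have := constantCoeff_subst_eq_zero (a := x i - C (a i)) (hy0 i) _ h2
    rw [subst_sub (hs i), subst_C, map_sub, sub_eq_zero, ← hsq i] at this
    rw [← hS.w0 i, ← map_pow]
    exact this.symm
  have := core (v := v0) a b hb (fun i => (P i : K0⟦X⟧)) W hW D N (by exact_mod_cast hD)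
    (by exact_mod_cast hN) (v_nat v0 D) hv.le (pow_le_nat v0 hv)
    (fun i => hden v0 _ (by simp)) (fun i => hden v0 _ (by simp)) (fun i => hden v0 _ (by simp))
    (fun j m => hden v0 _ (Or.inl (Or.inr ⟨(j, m), rfl⟩)))
    (fun i k => by
      rw [Polynomial.coeff_coe]
      by_cases hk : k < (P i).natDegree + 1
      · exact hden v0 _ (Or.inr ⟨⟨i, ⟨k, hk⟩⟩, rfl⟩)
      · rw [Polynomial.coeff_eq_zero_of_natDegree_lt (by omega)]; simp)
    hP0 Φ (fun i => x i - C (a i)) w η
    (fun m n => by have := hΦ m n; push_cast at this; exact this) hsq hy0 hS.w0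
    (fun i => by rw [map_sub, derivative_C, sub_zero, hS.dx i])
    (fun m => by rw [← hS.sum m]; exact Finset.sum_congr rfl fun i _ => by rw [add_sub_cancel])
  intro i n hn
  obtain ⟨h1, h2⟩ := this i n hn
  refine ⟨?_, h2⟩
  rwa [map_sub, coeff_C, if_neg hn.ne', sub_zero] at h1

end Crest.Agent.T15.Hon
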