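import Mathlib
import Crest.Agent.R007.RatL1

/-!
# T15 / ModA (helper53): invariant meromorphic functions are quotients of modular forms
-/

set_option autoImplicit false
set_option linter.all false

noncomputable section

namespace Crest.Agent.T15.Mod

open UpperHalfPlane ModularForm CongruenceSubgroup Matrix.SpecialLinearGroup Filter Topology Set
open scoped MatrixGroups Manifold
open Crest.Agent.R007 Crest.Agent.R007.Rat

/-- meromorphic on the upper half plane -/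
def Mero (s : ℍ → ℂ) : Prop := ∀ τ : ℍ, MeromorphicAt (s ∘ ofComplex) τ

/-- equal off a countable set -/
def AE (s t : ℍ → ℂ) : Prop := {τ | s τ ≠ t τ}.Countable

/-- removable singularity -/
def Rem (f : ℍ → ℂ) (τ : ℍ) : Prop :=
  ∃ h : ℂ → ℂ, AnalyticAt ℂ h τ ∧ f ∘ ofComplex =ᶠ[𝓝[≠] (τ : ℂ)] h

variable {s t u f P : ℍ → ℂ} {τ : ℍ}

theorem AE.refl (s : ℍ → ℂ) : AE s s := by simp [AE]

theorem AE.of_eq (h : s = t) : AE s t := h ▸ AE.refl s

theorem AE.symm (h : AE s t) : AE t s := h.mono fun τ hτ => Ne.symm hτ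

theorem AE.trans (h : AE s t) (h' : AE t u) : AE s u :=
  (h.union h').mono fun τ hτ => by
    by_contra hc
    simp only [mem_union, mem_setOf_eq, not_or, not_not] at hc
    exact hτ (hc.1.trans hc.2)

theorem AE.of_sub {Z : Set ℍ} (hZ : Z.Countable) (h : ∀ τ, τ ∉ Z → s τ = t τ) : AE s t :=
  hZ.mono fun τ hτ => by_contra fun hc => hτ (h τ hc)

theorem AE.op (φ : ℂ → ℂ → ℂ) {s' t' : ℍ → ℂ} (h : AE s t) (h' : AE s' t') :
    AE (fun τ => φ (s τ) (s' τ)) (fun τ => φ (t τ) (t' τ)) :=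
  AE.of_sub (h.union h') fun τ hτ => by
    simp only [mem_union, mem_setOf_eq, not_or, not_not] at hτ
    rw [hτ.1, hτ.2]

theorem AE.mul {s' t' : ℍ → ℂ} (h : AE s t) (h' : AE s' t') : AE (s * s') (t * t') :=
  AE.op (· * ·) h h'

theorem AE.add {s' t' : ℍ → ℂ} (h : AE s t) (h' : AE s' t') : AE (s + s') (t + t') :=
  AE.op (· + ·) h h'

theorem AE.sub {s' t' : ℍ → ℂ} (h : AE s t) (h' : AE s' t') : AE (s - s') (t - t') :=
  AE.op (· - ·) h h'

theorem AE.comp (h : AE s t) (g : SL(2, ℤ)) : AE (fun τ => s (g • τ)) fun τ => t (g • τ) :=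
  h.preimage (f := fun τ : ℍ => g • τ) (MulAction.injective g)

theorem dense_compl {Z : Set ℍ} (hZ : Z.Countable) : Dense Zᶜ := by
  have h1 : Dense (((↑) : ℍ → ℂ) '' Z)ᶜ := (hZ.image _).dense_compl ℂ
  refine (h1.preimage isOpenEmbedding_coe.isOpenMap).mono fun τ hτ hz => ?_
  exact (show ¬ (τ : ℂ) ∈ ((↑) : ℍ → ℂ) '' Z from hτ) ⟨τ, hz, rfl⟩

theorem AE.eq (h : AE s t) (hs : Continuous s) (ht : Continuous t) : s = t :=
  hs.ext_on (dense_compl h) ht fun τ hτ => not_not.1 hτ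

theorem freq_compl {Z : Set ℍ} (hZ : Z.Countable) (τ : ℍ) :
    ∃ᶠ z in 𝓝[≠] (τ : ℂ), ofComplex z ∉ Z := by
  have h1 : Dense (insert (τ : ℂ) (((↑) : ℍ → ℂ) '' Z))ᶜ := ((hZ.image _).insert _).dense_compl ℂ
  rw [frequently_nhdsWithin_iff]
  have h2 : ∃ᶠ z in 𝓝 (τ : ℂ), z ∈ (insert (τ : ℂ) (((↑) : ℍ → ℂ) '' Z))ᶜ :=
    mem_closure_iff_frequently.1 (h1 τ)
  refine (h2.and_eventually (isOpen_upperHalfPlaneSet.mem_nhds τ.im_pos)).mono fun z hz => ?_
  have hz1 := hz.1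
  simp only [mem_compl_iff, mem_insert_iff, not_or] at hz1
  refine ⟨fun hc => hz1.2 ⟨_, hc, ?_⟩, hz1.1⟩
  rw [ofComplex_apply_of_im_pos hz.2]

theorem AE.ev (h : AE s t) (hs : MeromorphicAt (s ∘ ofComplex) τ)
    (ht : MeromorphicAt (t ∘ ofComplex) τ) : s ∘ ofComplex =ᶠ[𝓝[≠] (τ : ℂ)] t ∘ ofComplex :=
  (hs.frequently_eq_iff_eventuallyEq ht).1 ((freq_compl h τ).mono fun z hz => not_not.1 hz)

theorem tend_coe (τ : ℍ) : Tendsto ((↑) : ℍ → ℂ) (𝓝[≠] τ) (𝓝[≠] (τ : ℂ)) :=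
  tendsto_nhdsWithin_iff.2 ⟨continuous_coe.continuousAt.tendsto.mono_left nhdsWithin_le_nhds,
    eventually_mem_nhdsWithin.mono fun z hz hc => hz (UpperHalfPlane.ext hc)⟩

theorem countable_of_ev {p : ℍ → Prop} (h : ∀ τ : ℍ, ∀ᶠ z in 𝓝[≠] τ, p z) :
    {τ | ¬ p τ}.Countable := by
  obtain ⟨c, hc, hU⟩ := TopologicalSpace.countable_cover_nhds (f := fun τ : ℍ => {z | z ≠ τ → p z})
    fun τ => eventually_nhdsWithin_iff.1 (h τ)
  refine hc.mono fun τ hτ => ?_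
  obtain ⟨x, hx, hτx⟩ := mem_iUnion₂.1 (hU.symm ▸ mem_univ τ)
  by_cases e : τ = x
  · exact e ▸ hx
  · exact absurd (hτx e) hτ

theorem ae_of_ev (h : ∀ τ : ℍ, s ∘ ofComplex =ᶠ[𝓝[≠] (τ : ℂ)] t ∘ ofComplex) : AE s t :=
  countable_of_ev (p := fun z => s z = t z) fun τ =>
    ((tend_coe τ).eventually (h τ)).mono fun z hz => by simpa using hz

theorem an_of_mdiff (hP : MDiff P) (τ : ℍ) : AnalyticAt ℂ (P ∘ ofComplex) τ :=
  (UpperHalfPlane.mdifferentiable_iff.1 hP).analyticAt (isOpen_upperHalfPlaneSet.mem_nhds τ.im_pos)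

theorem mero_of_mdiff (hP : MDiff P) : Mero P := fun τ => (an_of_mdiff hP τ).meromorphicAt

theorem Mero.mul (hs : Mero s) (ht : Mero t) : Mero (s * t) := fun τ => (hs τ).mul (ht τ)
theorem Mero.add (hs : Mero s) (ht : Mero t) : Mero (s + t) := fun τ => (hs τ).add (ht τ)
theorem Mero.sub (hs : Mero s) (ht : Mero t) : Mero (s - t) := fun τ => (hs τ).sub (ht τ)
theorem Mero.inv (hs : Mero s) : Mero s⁻¹ := fun τ => (hs τ).inv
theorem Mero.div (hs : Mero s) (ht : Mero t) : Mero (s / t) := fun τ => (hs τ).div (ht τ)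
theorem Mero.pow (hs : Mero s) (n : ℕ) : Mero (s ^ n) := fun τ => (hs τ).pow n
theorem Mero.const (c : ℂ) : Mero fun _ => c := fun τ => MeromorphicAt.const c (τ : ℂ)

/-- countably many zeros -/
theorem countable_zero (hP : MDiff P) (h0 : P ≠ 0) : {τ | P τ = 0}.Countable := by
  have := countable_of_ev (p := fun z => P z ≠ 0) fun τ =>
    not_frequently.1 fun h => h0 (eq_zero_of_frequently hP h)
  simpa using this

/-- the action in the coordinate `z` -/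
def mg (g : SL(2, ℤ)) (z : ℂ) : ℂ := ((g • ofComplex z : ℍ) : ℂ)

theorem mg_coe (g : SL(2, ℤ)) (τ : ℍ) : mg g τ = ((g • τ : ℍ) : ℂ) := by simp [mg]

theorem an_mg (g : SL(2, ℤ)) (τ : ℍ) : AnalyticAt ℂ (mg g) τ :=
  analyticAt_smul (g := (g : GL (Fin 2) ℝ))
    (by rw [← Matrix.GeneralLinearGroup.val_det_apply]; simp) τ

theorem comp_mg (s : ℍ → ℂ) (g : SL(2, ℤ)) :
    (s ∘ ofComplex) ∘ mg g = (fun τ => s (g • τ)) ∘ ofComplex := by
  funext z; simp [mg]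

theorem tend_mg (g : SL(2, ℤ)) (τ : ℍ) :
    Tendsto (mg g) (𝓝[≠] (τ : ℂ)) (𝓝[≠] ((g • τ : ℍ) : ℂ)) := by
  refine tendsto_nhdsWithin_iff.2 ⟨?_, ?_⟩
  · rw [← mg_coe]
    exact (an_mg g τ).continuousAt.tendsto.mono_left nhdsWithin_le_nhds
  · filter_upwards [self_mem_nhdsWithin,
      mem_nhdsWithin_of_mem_nhds (isOpen_upperHalfPlaneSet.mem_nhds τ.im_pos)] with z hz hz' hc
    have h1 : g • ofComplex z = g • τ := UpperHalfPlane.ext hc
    have h2 := MulAction.injective g h1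
    rw [ofComplex_apply_of_im_pos hz'] at h2
    exact hz (congrArg ((↑) : ℍ → ℂ) h2)

theorem Mero.comp (hs : Mero s) (g : SL(2, ℤ)) : Mero fun τ => s (g • τ) := fun τ => by
  rw [← comp_mg]
  exact MeromorphicAt.comp_analyticAt (by rw [mg_coe]; exact hs _) (an_mg g τ)

theorem Rem.comp (g : SL(2, ℤ)) (h : Rem f (g • τ)) : Rem (fun τ => f (g • τ)) τ := by
  obtain ⟨h, ha, he⟩ := h
  refine ⟨h ∘ mg g, AnalyticAt.comp (by rw [mg_coe]; exact ha) (an_mg g τ), ?_⟩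
  rw [← comp_mg]
  exact (tend_mg g τ).eventually he

theorem Rem.of_comp (g : SL(2, ℤ)) (h : Rem (fun τ => f (g • τ)) τ) : Rem f (g • τ) := by
  have := Rem.comp (f := fun τ => f (g • τ)) (τ := g • τ) g⁻¹ (by rwa [inv_smul_smul])
  simpa using this

theorem Rem.congr (h : Rem t τ) (he : s ∘ ofComplex =ᶠ[𝓝[≠] (τ : ℂ)] t ∘ ofComplex) : Rem s τ := by
  obtain ⟨h, ha, he'⟩ := h
  exact ⟨h, ha, he.trans he'⟩

theorem Rem.of_ae (h : Rem t τ) (hs : Mero s) (ht : Mero t) (he : AE s t) : Rem s τ :=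
  h.congr (he.ev (hs τ) (ht τ))

theorem Rem.mul (hP : MDiff P) (h : Rem f τ) : Rem (P * f) τ := by
  obtain ⟨h, ha, he⟩ := h
  exact ⟨P ∘ ofComplex * h, (an_of_mdiff hP τ).mul ha, he.mono fun z hz => by
    simp only [Function.comp_apply, Pi.mul_apply] at hz ⊢
    rw [hz]⟩

theorem rem_of_an (h : AnalyticAt ℂ (f ∘ ofComplex) τ) : Rem f τ := ⟨_, h, EventuallyEq.rfl⟩

/-- removing the singularities -/
theorem exists_hol (h : ∀ τ, Rem f τ) : ∃ F : ℍ → ℂ, MDiff F ∧ AE f F := by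
  choose H ha he using h
  have key : ∀ τ : ℍ, (fun τ : ℍ => H τ τ) ∘ ofComplex =ᶠ[𝓝 (τ : ℂ)] H τ := fun τ => by
    have h1 := eventually_nhdsWithin_iff.1 (he τ)
    filter_upwards [h1.eventually_nhds, (ha τ).eventually_analyticAt,
      isOpen_upperHalfPlaneSet.mem_nhds τ.im_pos] with z hz hz' hz0
    by_cases e : z = τ
    · subst e; simp
    · have h2 : H ⟨z, hz0⟩ =ᶠ[𝓝[≠] z] H τ := by
        filter_upwards [he ⟨z, hz0⟩, mem_nhdsWithin_of_mem_nhds hz,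
          mem_nhdsWithin_of_mem_nhds (isOpen_ne.mem_nhds e)] with w h3 h4 h5
        exact h3.symm.trans (h4 h5)
      have h3 := ((ha ⟨z, hz0⟩).continuousAt.eventuallyEq_nhds_iff_eventuallyEq_nhdsNE
        hz'.continuousAt).1 h2
      simp only [Function.comp_apply, ofComplex_apply_of_im_pos hz0]
      exact h3.eq_of_nhds
  refine ⟨fun τ => H τ τ, fun τ => mdifferentiableAt_iff.2
    ((ha τ).differentiableAt.congr_of_eventuallyEq (key τ)), ae_of_ev fun τ => ?_⟩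
  exact (he τ).trans ((key τ).symm.filter_mono nhdsWithin_le_nhds)

theorem ev_rem (hf : Mero f) (τ : ℍ) : ∀ᶠ z in 𝓝[≠] τ, Rem f z :=
  ((tend_coe τ).eventually (hf τ).eventually_analyticAt).mono fun z hz => rem_of_an hz

theorem finite_pole (hf : Mero f) {K : Set ℍ} (hK : IsCompact K) : {τ ∈ K | ¬ Rem f τ}.Finite := by
  obtain ⟨c, -, hc⟩ := hK.elim_nhds_subcover (fun τ : ℍ => {z | z ≠ τ → Rem f z})
    fun τ _ => eventually_nhdsWithin_iff.1 (ev_rem hf τ)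
  refine c.finite_toSet.subset fun τ hτ => ?_
  obtain ⟨x, hx, hτx⟩ := mem_iUnion₂.1 (hc hτ.1)
  by_cases e : τ = x
  · exact e ▸ hx
  · exact absurd (hτx e) hτ.2

theorem exists_pow_rem (hf : Mero f) (hP : MDiff P) (h0 : P τ = 0) :
    ∃ n : ℕ, ∀ m, n ≤ m → Rem (P ^ m * f) τ := by
  obtain ⟨n, hn⟩ := hf τ
  obtain ⟨p, hp⟩ := an_of_mdiff hP τ
  have hg : AnalyticAt ℂ (dslope (P ∘ ofComplex) τ) τ := ⟨_, hp.has_fpower_series_dslope_fslope⟩
  refine ⟨n, fun m hm => ?_⟩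
  obtain ⟨j, rfl⟩ := Nat.exists_eq_add_of_le hm
  have h1 : Rem (P ^ n * f) τ := by
    refine ⟨_, (hg.pow n).mul hn, Eventually.of_forall fun z => ?_⟩
    have h2 := sub_smul_dslope (P ∘ ofComplex) τ z
    simp only [Function.comp_apply, ofComplex_apply, h0, sub_zero, smul_eq_mul] at h2
    simp only [Function.comp_apply, Pi.mul_apply, Pi.pow_apply, smul_eq_mul, ← h2, mul_pow]
    ring
  have h2 := h1.mul (hP.pow j)
  rwa [← mul_assoc, ← pow_add, add_comm] at h2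

/-- behaviour at the cusp `∞`, width `M` -/
def Cusp (M : ℕ) (s : ℍ → ℂ) : Prop :=
  ∃ (S : ℂ → ℂ) (Z : Set ℍ), MeromorphicAt S 0 ∧ Z.Countable ∧
    ∀ᶠ τ in atImInfty, τ ∉ Z → s τ = S (Function.Periodic.qParam M τ)

theorem tend_q {M : ℕ} (hM : M ≠ 0) :
    Tendsto (fun τ : ℍ => Function.Periodic.qParam M τ) atImInfty (𝓝[≠] 0) :=
  (Function.Periodic.qParam_tendsto (by exact_mod_cast Nat.pos_of_ne_zero hM)).comp
    tendsto_coe_atImInfty

theorem an_q (M : ℕ) (z : ℂ) : AnalyticAt ℂ (Function.Periodic.qParam M) z := by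
  unfold Function.Periodic.qParam
  fun_prop

theorem Cusp.ae {M : ℕ} (h : Cusp M t) (he : AE s t) : Cusp M s := by
  obtain ⟨S, Z, hS, hZ, h⟩ := h
  refine ⟨S, Z ∪ {τ | s τ ≠ t τ}, hS, hZ.union he, h.mono fun τ hτ hn => ?_⟩
  simp only [mem_union, mem_setOf_eq, not_or, not_not] at hn
  rw [hn.2, hτ hn.1]

theorem Cusp.rem {M : ℕ} (hM : M ≠ 0) (h : Cusp M s) (hs : Mero s) :
    ∀ᶠ τ in atImInfty, Rem s τ := by
  obtain ⟨S, Z, hS, hZ, h⟩ := h
  obtain ⟨A, hA⟩ := (atImInfty_mem _).1 (h.and ((tend_q hM).eventually hS.eventually_analyticAt))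
  refine (atImInfty_mem _).2 ⟨A + 1, fun τ hτ => ?_⟩
  have ha : AnalyticAt ℂ (S ∘ Function.Periodic.qParam M) τ :=
    AnalyticAt.comp (hA τ (by linarith)).2 (an_q M τ)
  refine ⟨_, ha, ((hs τ).frequently_eq_iff_eventuallyEq ha.meromorphicAt).1 ?_⟩
  have h1 : ∀ᶠ z in 𝓝[≠] (τ : ℂ), A < z.im := mem_nhdsWithin_of_mem_nhds
    ((isOpen_lt continuous_const Complex.continuous_im).mem_nhds (by simp; linarith))
  have h2 : ∀ᶠ z in 𝓝[≠] (τ : ℂ), 0 < z.im :=
    mem_nhdsWithin_of_mem_nhds (isOpen_upperHalfPlaneSet.mem_nhds τ.im_pos)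
  refine ((freq_compl hZ τ).and_eventually (h1.and h2)).mono fun z hz => ?_
  have h3 := hz.1
  rw [ofComplex_apply_of_im_pos hz.2.2] at h3
  simp only [Function.comp_apply, ofComplex_apply_of_im_pos hz.2.2]
  exact (hA ⟨z, hz.2.2⟩ hz.2.1.le).1 h3

theorem dl_ne (τ : ℍ) : dl τ ≠ 0 := ModularForm.discriminant_ne_zero τ

theorem dl_isBigO {M : ℕ} (hM : M ≠ 0) :
    dl =O[atImInfty] fun τ : ℍ => Function.Periodic.qParam M τ := by
  have h1 : dl =O[atImInfty] fun τ : ℍ => Real.exp (-2 * Real.pi * τ.im / 1) := by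
    have := IsZeroAtImInfty.exp_decay_atImInfty (h := 1) ModularForm.discriminant_isZeroAtImInfty
      one_pos (by simpa [dl] using isF_dl.periodic) isF_dl.holo isF_dl.bdd_infty
    exact this
  refine h1.trans (Asymptotics.IsBigO.of_bound 1 (Eventually.of_forall fun τ => ?_))
  rw [Function.Periodic.norm_qParam, Real.norm_of_nonneg (Real.exp_pos _).le, one_mul,
    Real.exp_le_exp, div_one]
  have hM1 : (1 : ℝ) ≤ M := by exact_mod_cast Nat.pos_of_ne_zero hM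
  have h2 : 0 < Real.pi * τ.im := mul_pos Real.pi_pos τ.im_pos
  rw [le_div_iff₀ (by linarith)]
  have : (τ : ℂ).im = τ.im := rfl
  rw [this]
  nlinarith

/-- `Δ^n s` is bounded at the cusp, off a countable set -/
theorem Cusp.bdd {M : ℕ} (hM : M ≠ 0) (h : Cusp M s) : ∃ n : ℕ, ∀ m, n ≤ m →
    ∀ P F : ℍ → ℂ, IsBoundedAtImInfty P → Continuous F → AE F (P * dl ^ m * s) →
      IsBoundedAtImInfty F := by
  obtain ⟨S, Z, ⟨n, hS⟩, hZ, h⟩ := h
  refine ⟨n, fun m hm P F hP hF he => ?_⟩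
  obtain ⟨j, rfl⟩ := Nat.exists_eq_add_of_le hm
  set q : ℍ → ℂ := fun τ : ℍ => Function.Periodic.qParam M τ with hq
  have h1 : (fun τ => (q τ - 0) ^ n • S (q τ)) =O[atImInfty] fun _ => (1 : ℝ) :=
    (hS.continuousAt.tendsto.comp ((tend_q hM).mono_right nhdsWithin_le_nhds)).isBigO_one ℝ
  have h2 : (fun τ => dl τ ^ n * S (q τ)) =O[atImInfty] fun _ => (1 : ℝ) := by
    refine Asymptotics.IsBigO.trans ?_ h1
    simp only [sub_zero, smul_eq_mul]
    exact ((dl_isBigO hM).pow n).mul (Asymptotics.isBigO_refl _ _)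
  have h3 : IsBoundedAtImInfty fun τ => P τ * dl τ ^ j * (dl τ ^ n * S (q τ)) :=
    BoundedAtFilter.mul (BoundedAtFilter.mul hP (isF_dl.pow j).bdd_infty) h2
  obtain ⟨C, A, hC⟩ := isBoundedAtImInfty_iff.1 h3
  obtain ⟨A', hA'⟩ := (atImInfty_mem _).1 h
  refine isBoundedAtImInfty_iff.2 ⟨C, max A A' + 1, fun τ hτ => ?_⟩
  have h4 : ∃ᶠ z in 𝓝 τ, z ∈ (Z ∪ {τ | F τ ≠ (P * dl ^ (n + j) * s) τ})ᶜ :=
    mem_closure_iff_frequently.1 (dense_compl (hZ.union he) τ)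
  have h5 : ∀ᶠ z in 𝓝 τ, max A A' < z.im :=
    (isOpen_lt continuous_const continuous_im).mem_nhds (by simp only [mem_setOf_eq]; linarith)
  refine le_of_tendsto_of_frequently (hF.continuousAt.tendsto.norm) ?_
  refine (h4.and_eventually h5).mono fun z hz => ?_
  have h6 := hz.1
  simp only [mem_compl_iff, mem_union, mem_setOf_eq, not_or, not_not] at h6
  have h7 := hC z ((le_max_left _ _).trans hz.2.le)
  rw [h6.2]
  simp only [Pi.mul_apply, Pi.pow_apply]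
  rw [hA' z ((le_max_right _ _).trans hz.2.le) h6.1]
  rwa [show P z * dl z ^ (n + j) * S (q z) = P z * dl z ^ j * (dl z ^ n * S (q z)) by ring]

/-- a level one form of weight `12` vanishing at `p` -/
def Pp (p : ℍ) : ℍ → ℂ := dl p • e4 ^ 3 - e4 p ^ 3 • dl

theorem isF_Pp (p : ℍ) : IsF 1 12 (Pp p) :=
  (((isF_e4.pow 3).cast (by norm_num)).smul _).sub (isF_dl.smul _)

theorem Pp_self (p : ℍ) : Pp p p = 0 := by simp [Pp, mul_comm]

theorem Pp_ne (p : ℍ) : Pp p ≠ 0 := by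
  intro h
  have h4 : IsF 1 12 (e4 ^ 3) := (isF_e4.pow 3).cast (by norm_num)
  have h1 : dl p • e4 ^ 3 = e4 p ^ 3 • dl := sub_eq_zero.1 h
  have h2 := congrArg (fun f => PowerSeries.constantCoeff (qe 1 f)) h1
  simp only [qe_smul h4, qe_smul isF_dl, qe_pow isF_e4, qe_e4, qe_dl] at h2
  have hA : PowerSeries.constantCoeff psA = 0 := by simp [psA]
  have hB : PowerSeries.constantCoeff psB = 0 := by simp [psB]
  have hC : PowerSeries.constantCoeff psC = 0 := by simp [psC]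
  simp [hA, hB, hC] at h2
  exact dl_ne p h2

theorem slash_apply' (k : ℤ) (f : ℍ → ℂ) (g : SL(2, ℤ)) :
    f ∣[k] g = (fun τ => f (g • τ)) * fun τ : ℍ => denom g τ ^ (-k) := by
  funext τ; rw [SL_slash_apply]; rfl

theorem mul_slash' (k : ℤ) (G s : ℍ → ℂ) (g : SL(2, ℤ)) :
    (G * s) ∣[k] g = (G ∣[k] g) * fun τ => s (g • τ) := by
  funext τ; simp only [SL_slash_apply, Pi.mul_apply]; ring

theorem AE.slash (h : AE s t) (k : ℤ) (g : SL(2, ℤ)) : AE (s ∣[k] g) (t ∣[k] g) := by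
  rw [slash_apply', slash_apply']
  exact (h.comp g).mul (AE.refl _)

/-- **(M1)** a meromorphic function on `ℍ`, invariant under `Γ(M)` and meromorphic at every cusp,
is a quotient of modular forms (the denominator has level one). -/
theorem exists_quo {M : ℕ} (hM : M ≠ 0) (hs : Mero s)
    (hinv : ∀ γ ∈ Gamma M, AE (fun τ => s (γ • τ)) s)
    (hc : ∀ g : SL(2, ℤ), Cusp M fun τ => s (g • τ)) :
    ∃ (k : ℤ) (F G : ℍ → ℂ), IsF M k F ∧ IsF 1 k G ∧ G ≠ 0 ∧ AE (G * s) F := by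
  classical
  haveI : NeZero M := ⟨hM⟩
  haveI : Finite (SL(2, ℤ) ⧸ Gamma M) := Subgroup.finite_quotient_of_finiteIndex
  haveI := Fintype.ofFinite (SL(2, ℤ) ⧸ Gamma M)
  -- coset representatives
  let rep : SL(2, ℤ) ⧸ Gamma M → SL(2, ℤ) := fun a => a.out⁻¹
  have hrep : ∀ g : SL(2, ℤ), ∃ a, AE (fun τ => s (g • τ)) fun τ => s (rep a • τ) := fun g => by
    obtain ⟨h, hh⟩ := QuotientGroup.mk_out_eq_mul (Gamma M) g⁻¹
    refine ⟨(g⁻¹ : SL(2, ℤ)), ?_⟩
    have h1 := (hinv h h.2).comp (rep (g⁻¹ : SL(2, ℤ)))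
    simp only [rep, hh, mul_inv_rev, inv_inv, smul_smul, mul_inv_cancel_left] at h1 ⊢
    exact h1
  -- the poles
  have h1 : ∀ᶠ τ in atImInfty, ∀ a, Rem (fun τ => s (rep a • τ)) τ :=
    eventually_all.2 fun a => (hc _).rem hM (hs.comp _)
  obtain ⟨A, hA⟩ := (atImInfty_mem _).1 h1
  have h2 : (⋃ a, {τ ∈ ModularGroup.truncatedFundamentalDomain A |
      ¬ Rem (fun τ => s (rep a • τ)) τ}).Finite :=
    finite_iUnion fun a => finite_pole (hs.comp _) (ModularGroup.isCompact_truncatedFundamentalDomain A)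
  set T := h2.toFinset with hT
  have h3 : ∀ (a) (p : ℍ), ∃ n : ℕ, ∀ m, n ≤ m → Rem (Pp p ^ m * fun τ => s (rep a • τ)) p :=
    fun a p => exists_pow_rem (hs.comp _) (isF_Pp p).holo (Pp_self p)
  choose n hn using h3
  choose n' hn' using fun a => (hc (rep a)).bdd hM
  set m : ℕ := ∑ a, ∑ p ∈ T, n a p with hm
  set m' : ℕ := ∑ a, n' a with hm'
  have hP : IsF 1 ((T.card : ℤ) * ((m : ℤ) * 12)) (∏ p ∈ T, Pp p ^ m) :=
    IsF.prod T _ fun p _ => (isF_Pp p).pow m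
  have hG := hP.mul (isF_dl.pow m')
  set G := (∏ p ∈ T, Pp p ^ m) * dl ^ m' with hGdef
  set k := (T.card : ℤ) * ((m : ℤ) * 12) + (m' : ℤ) * 12 with hk
  have hG0 : G ≠ 0 := by
    intro h
    rcases (mul_eq_zero_iff hP.holo (isF_dl.pow m').holo).1 h with h | h
    · obtain ⟨p, -, hp⟩ := (prod_eq_zero_iff fun p _ => ((isF_Pp p).pow m).holo).1 h
      by_cases e : m = 0
      · rw [e, pow_zero] at hp; exact one_ne_zero hp
      · exact Pp_ne p (funext fun τ => eq_zero_of_pow_eq_zero (congrFun hp τ))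
    · exact dl_ne UpperHalfPlane.I (eq_zero_of_pow_eq_zero (congrFun h _))
  have h4 : ∀ (a) (τ : ℍ), τ ∈ ModularGroup.fd → Rem (G * fun τ => s (rep a • τ)) τ := by
    intro a τ hτ
    by_cases hr : Rem (fun τ => s (rep a • τ)) τ
    · exact hr.mul hG.holo
    · have h5 : τ ∈ T := by
        rw [hT, Finite.mem_toFinset]
        refine mem_iUnion.2 ⟨a, ⟨hτ, ?_⟩, hr⟩
        by_contra hc'
        exact hr (hA τ (not_le.1 hc').le a)
      have h6 : n a τ ≤ m :=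
        (Finset.single_le_sum (f := fun p => n a p) (fun _ _ => Nat.zero_le _) h5).trans
          (Finset.single_le_sum (f := fun a => ∑ p ∈ T, n a p) (fun _ _ => Nat.zero_le _)
            (Finset.mem_univ a))
      have h7 := (hn a τ m h6).mul ((IsF.prod (T.erase τ) _ fun p _ => (isF_Pp p).pow m).mul
        (isF_dl.pow m')).holo
      rw [hGdef, ← Finset.mul_prod_erase T _ h5]
      convert h7 using 1
      ring
  have h5 : ∀ τ, Rem (G * s) τ := fun τ => by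
    obtain ⟨g, hg⟩ := ModularGroup.exists_smul_mem_fd τ
    obtain ⟨a, ha⟩ := hrep g⁻¹
    rw [← inv_smul_smul g τ]
    refine Rem.of_comp g⁻¹ ?_
    generalize g⁻¹ = g' at ha ⊢
    have h6 : (fun τ => (G * s) (g' • τ)) =
        (fun τ : ℍ => denom g' τ ^ k) * (G * fun τ => s (g' • τ)) := by
      funext z
      have h7 := congrFun (hG.slash_one_level g') z
      rw [SL_slash_apply] at h7
      have := zpow_ne_zero k (denom_ne_zero (g' : SL(2, ℤ)) z)
      rw [zpow_neg] at h7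
      rw [Pi.mul_apply, Pi.mul_apply, Pi.mul_apply, ← h7, ← mul_assoc, mul_comm (G _) _⁻¹,
        mul_inv_cancel_left₀ this]
    rw [h6]
    refine Rem.mul (mdifferentiable_denom_zpow _ k) ?_
    exact (h4 a _ hg).of_ae ((mero_of_mdiff hG.holo).mul (hs.comp _))
      ((mero_of_mdiff hG.holo).mul (hs.comp _)) ((AE.refl G).mul ha)
  obtain ⟨F, hF, hFe⟩ := exists_hol h5
  have h6 : ∀ g : SL(2, ℤ), AE (F ∣[k] g) (G * fun τ => s (g • τ)) := fun g => by
    have := hFe.symm.slash k g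
    rwa [mul_slash', hG.slash_one_level] at this
  have h7 : ∀ g : SL(2, ℤ), Continuous (F ∣[k] g) := fun g =>
    (MDifferentiable.slash hF k (g : GL (Fin 2) ℝ)).continuous
  refine ⟨k, F, G, ⟨fun γ hγ => ?_, hF, fun g => ?_⟩, hG, hG0, hFe⟩
  · exact (((h6 γ).trans ((AE.refl G).mul (hinv γ hγ))).trans hFe).eq (h7 γ) hF.continuous
  · obtain ⟨a, ha⟩ := hrep g
    exact hn' a m' (Finset.single_le_sum (f := n') (fun _ _ => Nat.zero_le _) (Finset.mem_univ a))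
      _ _ hP.bdd_infty (h7 g) ((h6 g).trans ((AE.refl G).mul ha))

end Crest.Agent.T15.Mod
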