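import Crest.Agent.T15.MfB_79
import Crest.Agent.T15.ModA_53
import Crest.Agent.R007.RatGal2

/-!
# T15 / ModB (helper53): the Gauss norm and the derivation `q d/dq` on `q`-expansions

* `th` the derivation `q d/dq` of `HS ℂ`;
* `Bz` Hahn series with coefficients in a finitely generated `ℤ`-module, `B M` those of level `M`;
* `gn v` the Gauss norm for a valuation `v` of `ℂ`, `K0 M = Frac (B M)`, `wK v M` the valuation;
* `dK M = M q d/dq` on `K0 M`, `wK (dK x) ≤ wK x`;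
* `qf F ∈ K0 M` for every form of level `M ≥ 3`.
-/

set_option autoImplicit false
set_option linter.all false

noncomputable section

namespace Crest.Agent.T15.Mod

open UpperHalfPlane ModularForm CongruenceSubgroup Matrix.SpecialLinearGroup Filter Topology Set
open scoped MatrixGroups Manifold NNReal
open Crest.Agent.R007 Crest.Agent.R007.Rat Crest.Agent.T15.Hs Crest.Agent.T15.Mf

attribute [-instance] HahnSeries.powerSeriesAlgebra

/-! ### the derivation -/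

/-- `q d/dq` -/
def thF (x : HS ℂ) : HS ℂ :=
  ⟨fun r => (r : ℂ) * x.coeff r, x.isPWO_support.mono fun r hr => by
    rw [Function.mem_support] at hr
    exact fun h => hr (by rw [h, mul_zero])⟩

theorem coeff_thF (x : HS ℂ) (r : ℚ) : (thF x).coeff r = (r : ℂ) * x.coeff r := rfl

theorem supp_thF (x : HS ℂ) : (thF x).support ⊆ x.support := fun r hr h =>
  hr (by rw [coeff_thF, h, mul_zero])

/-- the derivation `q d/dq` -/
def th : Derivation ℂ (HS ℂ) (HS ℂ) where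
  toFun := thF
  map_add' x y := by ext r; simp only [coeff_thF, HahnSeries.coeff_add]; ring
  map_smul' c x := by
    ext r; simp only [coeff_thF, HahnSeries.coeff_smul, RingHom.id_apply, smul_eq_mul]; ring
  map_one_eq_zero' := by
    ext r
    show (r : ℂ) * (1 : HS ℂ).coeff r = 0
    rw [HahnSeries.coeff_one]
    split_ifs with h <;> simp [h]
  leibniz' x y := by
    ext r
    show (r : ℂ) * (x * y).coeff r = (x * thF y + y * thF x).coeff r
    rw [HahnSeries.coeff_add, mul_comm y,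
      coeff_mul_of x.isPWO_support y.isPWO_support subset_rfl (supp_thF y),
      coeff_mul_of x.isPWO_support y.isPWO_support (supp_thF x) subset_rfl,
      coeff_mul_of x.isPWO_support y.isPWO_support subset_rfl subset_rfl, Finset.mul_sum,
      ← Finset.sum_add_distrib]
    refine Finset.sum_congr rfl fun p hp => ?_
    rw [Finset.mem_antidiagonal] at hp
    rw [coeff_thF, coeff_thF, ← hp.2.2]
    push_cast
    ring

@[simp] theorem coeff_th (x : HS ℂ) (r : ℚ) : (th x).coeff r = (r : ℂ) * x.coeff r := rfl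

theorem algebraMap_HS (c : ℂ) : algebraMap ℂ (HS ℂ) c = HahnSeries.C c := rfl

theorem smul_HS (c : ℂ) (x : HS ℂ) : c • x = HahnSeries.C c * x := HahnSeries.C_mul_eq_smul.symm

theorem coeff_C_mul (c : ℂ) (x : HS ℂ) (r : ℚ) : (HahnSeries.C c * x).coeff r = c * x.coeff r := by
  rw [HahnSeries.C_mul_eq_smul, HahnSeries.coeff_smul, smul_eq_mul]

/-! ### the rings -/

/-- coefficients in a finitely generated `ℤ`-module -/
def Bz : Subalgebra ℂ (HS ℂ) where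
  carrier := {x | ∃ N : Submodule ℤ ℂ, N.FG ∧ ∀ r, x.coeff r ∈ N}
  mul_mem' := by
    rintro x y ⟨N, hN, hx⟩ ⟨N', hN', hy⟩
    refine ⟨N * N', hN.mul hN', fun r => ?_⟩
    rw [HahnSeries.coeff_mul]
    exact Submodule.sum_mem _ fun p _ => Submodule.mul_mem_mul (hx _) (hy _)
  add_mem' := by
    rintro x y ⟨N, hN, hx⟩ ⟨N', hN', hy⟩
    refine ⟨N ⊔ N', hN.sup hN', fun r => ?_⟩
    rw [HahnSeries.coeff_add]
    exact Submodule.add_mem_sup (hx _) (hy _)
  algebraMap_mem' c := by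
    refine ⟨Submodule.span ℤ {c}, Submodule.fg_span_singleton c, fun r => ?_⟩
    rw [algebraMap_HS, HahnSeries.C_apply, HahnSeries.coeff_single]
    split_ifs
    · exact Submodule.mem_span_singleton_self c
    · exact zero_mem _

/-- exponents in `(1/M) ℤ` -/
def Lz (M : ℕ) : Subalgebra ℂ (HS ℂ) where
  carrier := {x | ∀ r, x.coeff r ≠ 0 → ∃ n : ℤ, (M : ℚ) * r = n}
  mul_mem' := by
    intro x y hx hy r hr
    rw [HahnSeries.coeff_mul] at hr
    obtain ⟨p, hp, h0⟩ := Finset.exists_ne_zero_of_sum_ne_zero hr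
    rw [Finset.mem_antidiagonal] at hp
    obtain ⟨a, ha⟩ := hx _ hp.1
    obtain ⟨b, hb⟩ := hy _ hp.2.1
    exact ⟨a + b, by rw [← hp.2.2, mul_add, ha, hb]; push_cast; rfl⟩
  add_mem' := by
    intro x y hx hy r hr
    rw [HahnSeries.coeff_add] at hr
    by_cases h : x.coeff r = 0
    · exact hy r (by rwa [h, zero_add] at hr)
    · exact hx r h
  algebraMap_mem' c r hr := by
    rw [algebraMap_HS, HahnSeries.C_apply, HahnSeries.coeff_single] at hr
    split_ifs at hr with h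
    · exact ⟨0, by simp [h]⟩
    · exact absurd rfl hr

/-- level `M`, coefficients in a finitely generated `ℤ`-module -/
def B (M : ℕ) : Subalgebra ℂ (HS ℂ) := Bz ⊓ Lz M

variable {M : ℕ} {x y a b : HS ℂ}

theorem mem_Lz_of_lev (hM : M ≠ 0) (h : Lev M x) : x ∈ Lz M := fun r hr => by
  obtain ⟨n, rfl⟩ := h r hr
  have : (M : ℚ) ≠ 0 := by exact_mod_cast hM
  exact ⟨n, by field_simp; simp⟩

theorem coeff_thM (hx : x ∈ Lz M) (r : ℚ) :
    ∃ n : ℤ, ((M : ℂ) • th x).coeff r = n • x.coeff r := by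
  rw [HahnSeries.coeff_smul, coeff_th, smul_eq_mul]
  by_cases h : x.coeff r = 0
  · exact ⟨0, by simp [h]⟩
  · obtain ⟨n, hn⟩ := hx r h
    refine ⟨n, ?_⟩
    have : (M : ℂ) * r = n := by exact_mod_cast hn
    rw [← mul_assoc, this, zsmul_eq_mul]

theorem thM_mem (hx : x ∈ B M) : (M : ℂ) • th x ∈ B M := by
  obtain ⟨⟨N, hN, h1⟩, h2⟩ := hx
  refine ⟨⟨N, hN, fun r => ?_⟩, fun r hr => h2 r fun h => hr ?_⟩
  · obtain ⟨n, hn⟩ := coeff_thM h2 r
    rw [hn]; exact N.smul_mem n (h1 r)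
  · rw [HahnSeries.coeff_smul, coeff_th, h, mul_zero, smul_zero]

theorem hq_mem (hM : M ≠ 0) {p : PowerSeries ℂ} {N : Submodule ℤ ℂ} (hN : N.FG)
    (h : ∀ n, PowerSeries.coeff n p ∈ N) : hq M p ∈ B M := by
  refine ⟨⟨N, hN, fun r => ?_⟩, mem_Lz_of_lev hM (lev_hq hM p)⟩
  by_cases h0 : (hq M p).coeff r = 0
  · rw [h0]; exact zero_mem _
  · obtain ⟨n, rfl⟩ := lev_hq hM p r h0
    rw [coeff_hq hM]; exact h n

/-! ### the Gauss norm -/

variable (v : Valuation ℂ ℝ≥0)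

theorem v_zsmul_le (n : ℤ) (c : ℂ) : v (n • c) ≤ v c :=
  (v.leAddSubgroup (v c)).zsmul_mem (show v c ≤ v c from le_rfl) n

theorem exists_max (hx : x ∈ Bz) : ∃ r0, ∀ r, v (x.coeff r) ≤ v (x.coeff r0) := by
  obtain ⟨N, hN, h⟩ := hx
  have h1 : (Submodule.span ℤ (range x.coeff)).FG :=
    hN.of_le (Submodule.span_le.2 (range_subset_iff.2 h))
  obtain ⟨s, hs, he⟩ := (Submodule.fg_span_iff_fg_span_finset_subset _).1 h1
  have key : ∀ m : ℝ≥0, (∀ c ∈ s, v c ≤ m) → ∀ r, v (x.coeff r) ≤ m := fun m hm r => by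
    have h2 : x.coeff r ∈ Submodule.span ℤ (s : Set ℂ) :=
      he ▸ Submodule.subset_span (mem_range_self r)
    exact Submodule.span_le (p := (v.leAddSubgroup m).toIntSubmodule) |>.2 hm h2
  rcases s.eq_empty_or_nonempty with h0 | h0
  · exact ⟨0, fun r => (key 0 (by simp [h0]) r).trans zero_le⟩
  · obtain ⟨c, hc, hm⟩ := s.exists_max_image v h0
    obtain ⟨r0, rfl⟩ := hs hc
    exact ⟨r0, key _ hm⟩

/-- the Gauss norm -/
def gn (x : HS ℂ) : ℝ≥0 := ⨆ r, v (x.coeff r)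

variable {v}

theorem gn_eq {r0 : ℚ} (h : ∀ r, v (x.coeff r) ≤ v (x.coeff r0)) : gn v x = v (x.coeff r0) :=
  le_antisymm (ciSup_le h) (le_ciSup (f := fun r => v (x.coeff r)) ⟨_, forall_mem_range.2 h⟩ r0)

theorem exists_gn (hx : x ∈ Bz) : ∃ r0, gn v x = v (x.coeff r0) :=
  (exists_max v hx).imp fun _ h => gn_eq h

theorem le_gn (hx : x ∈ Bz) (r : ℚ) : v (x.coeff r) ≤ gn v x := by
  obtain ⟨r0, h⟩ := exists_max v hx
  rw [gn_eq h]; exact h r

theorem gn_le {m : ℝ≥0} (h : ∀ r, v (x.coeff r) ≤ m) : gn v x ≤ m := ciSup_le h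

theorem gn_zero : gn v 0 = 0 := le_antisymm (gn_le fun r => by simp) zero_le

theorem gn_ne (hx : x ∈ Bz) (h0 : x ≠ 0) : gn v x ≠ 0 := fun h => h0 (by
  ext r
  have := le_gn (v := v) hx r
  rw [h, nonpos_iff_eq_zero, Valuation.zero_iff] at this
  simpa using this)

theorem gn_C (c : ℂ) : gn v (HahnSeries.C c) = v c := by
  have h0 : (HahnSeries.C c : HS ℂ).coeff 0 = c := by simp
  rw [gn_eq (r0 := 0), h0]
  intro r
  rw [h0, HahnSeries.C_apply, HahnSeries.coeff_single]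
  split_ifs <;> simp

theorem gn_one : gn v 1 = 1 := by rw [← HahnSeries.C_one, gn_C, map_one]

theorem gn_add (hx : x ∈ Bz) (hy : y ∈ Bz) : gn v (x + y) ≤ max (gn v x) (gn v y) :=
  gn_le fun r => by
    rw [HahnSeries.coeff_add]
    exact (v.map_add _ _).trans (max_le_max (le_gn hx r) (le_gn hy r))

theorem gn_neg (x : HS ℂ) : gn v (-x) = gn v x := by simp [gn]

theorem exists_first (hx : x ∈ Bz) (h0 : x ≠ 0) :
    ∃ r0, v (x.coeff r0) = gn v x ∧ ∀ r < r0, v (x.coeff r) < gn v x := by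
  obtain ⟨r1, h1⟩ := exists_gn (v := v) hx
  have hs : {r | v (x.coeff r) = gn v x} ⊆ x.support := fun r hr h =>
    gn_ne (v := v) hx h0 (by rw [← hr, h, map_zero])
  have hw := x.isWF_support.mono hs
  have hn : {r | v (x.coeff r) = gn v x}.Nonempty := ⟨r1, h1.symm⟩
  refine ⟨hw.min hn, hw.min_mem hn, fun r hr => (le_gn hx r).lt_of_ne fun h => ?_⟩
  exact hw.not_lt_min hn h hr

theorem gn_mul (hx : x ∈ Bz) (hy : y ∈ Bz) : gn v (x * y) = gn v x * gn v y := by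
  by_cases hx0 : x = 0
  · rw [hx0, zero_mul, gn_zero, zero_mul]
  by_cases hy0 : y = 0
  · rw [hy0, mul_zero, gn_zero, mul_zero]
  refine le_antisymm (gn_le fun r => ?_) ?_
  · rw [HahnSeries.coeff_mul]
    exact v.map_sum_le fun p _ => by rw [map_mul]; exact mul_le_mul' (le_gn hx _) (le_gn hy _)
  obtain ⟨i, hi, hi'⟩ := exists_first (v := v) hx hx0
  obtain ⟨j, hj, hj'⟩ := exists_first (v := v) hy hy0
  have px := (gn_ne (v := v) hx hx0).bot_lt
  have py := (gn_ne (v := v) hy hy0).bot_lt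
  refine le_trans (le_of_eq ?_) (le_gn (Bz.mul_mem hx hy) (i + j))
  have hm : (i, j) ∈ Finset.antidiagonal x.isPWO_support y.isPWO_support (i + j) := by
    rw [Finset.mem_antidiagonal]
    refine ⟨fun h => px.ne' ?_, fun h => py.ne' ?_, rfl⟩
    · rw [← hi, h, map_zero]; rfl
    · rw [← hj, h, map_zero]; rfl
  classical
  rw [HahnSeries.coeff_mul, ← Finset.add_sum_erase _ _ hm, v.map_add_eq_of_lt_left, map_mul, hi, hj]
  rw [map_mul, hi, hj]
  refine v.map_sum_lt (mul_pos px py).ne' fun p hp => ?_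
  rw [Finset.mem_erase, Finset.mem_antidiagonal] at hp
  rw [map_mul]
  by_cases h : p.1 < i
  · exact (mul_le_mul_right (le_gn hy _) _).trans_lt (mul_lt_mul_of_pos_right (hi' _ h) py)
  · have h2 : p.2 < j := by
      by_contra h3
      have h4 := hp.2.2.2
      exact hp.1 (Prod.ext (by linarith [not_lt.1 h, not_lt.1 h3]) (by linarith [not_lt.1 h, not_lt.1 h3]))
    exact (mul_le_mul_left (le_gn hx _) _).trans_lt (mul_lt_mul_of_pos_left (hj' _ h2) px)

theorem gn_thM (hx : x ∈ B M) : gn v ((M : ℂ) • th x) ≤ gn v x := gn_le fun r => by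
  obtain ⟨n, hn⟩ := coeff_thM hx.2 r
  rw [hn]
  exact (v_zsmul_le v n _).trans (le_gn hx.1 r)

open Classical in
/-- the Gauss norm of a quotient -/
def wF (v : Valuation ℂ ℝ≥0) (x : HS ℂ) : ℝ≥0 :=
  if h : ∃ p : HS ℂ × HS ℂ, p.1 ∈ Bz ∧ p.2 ∈ Bz ∧ p.2 ≠ 0 ∧ x = p.1 / p.2 then
    gn v h.choose.1 / gn v h.choose.2 else 0

theorem wF_div (ha : a ∈ Bz) (hb : b ∈ Bz) (h0 : b ≠ 0) : wF v (a / b) = gn v a / gn v b := by
  have h : ∃ p : HS ℂ × HS ℂ, p.1 ∈ Bz ∧ p.2 ∈ Bz ∧ p.2 ≠ 0 ∧ a / b = p.1 / p.2 :=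
    ⟨(a, b), ha, hb, h0, rfl⟩
  rw [wF, dif_pos h]
  obtain ⟨h1, h2, h3, h4⟩ := h.choose_spec
  rw [div_eq_div_iff h0 h3] at h4
  rw [div_eq_div_iff (gn_ne h2 h3) (gn_ne hb h0), ← gn_mul h1 hb, ← gn_mul ha h2, h4]

theorem wF_of (ha : a ∈ Bz) : wF v a = gn v a := by
  have := wF_div (v := v) ha Bz.one_mem one_ne_zero
  rwa [div_one, gn_one, div_one] at this

/-- the field of fractions of `B M` -/
def K0 (M : ℕ) : IntermediateField ℂ (HS ℂ) where
  carrier := {x | ∃ a ∈ B M, ∃ b ∈ B M, b ≠ 0 ∧ x = a / b}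
  mul_mem' := by
    rintro _ _ ⟨a, ha, b, hb, h0, rfl⟩ ⟨c, hc, d, hd, h1, rfl⟩
    exact ⟨_, mul_mem ha hc, _, mul_mem hb hd, mul_ne_zero h0 h1, div_mul_div_comm _ _ _ _⟩
  add_mem' := by
    rintro _ _ ⟨a, ha, b, hb, h0, rfl⟩ ⟨c, hc, d, hd, h1, rfl⟩
    exact ⟨_, add_mem (mul_mem ha hd) (mul_mem hb hc), _, mul_mem hb hd, mul_ne_zero h0 h1,
      div_add_div _ _ h0 h1⟩
  algebraMap_mem' c := ⟨_, (B M).algebraMap_mem c, 1, one_mem _, one_ne_zero, (div_one _).symm⟩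
  inv_mem' := by
    rintro _ ⟨a, ha, b, hb, h0, rfl⟩
    by_cases h : a = 0
    · exact ⟨0, zero_mem _, 1, one_mem _, one_ne_zero, by simp [h]⟩
    · exact ⟨b, hb, a, ha, h, inv_div _ _⟩

theorem mem_K0_of (ha : a ∈ B M) : a ∈ K0 M := ⟨a, ha, 1, one_mem _, one_ne_zero, (div_one _).symm⟩

/-- the Gauss valuation -/
def wK (v : Valuation ℂ ℝ≥0) (M : ℕ) : Valuation (K0 M) ℝ≥0 where
  toFun x := wF v x
  map_zero' := by show wF v 0 = 0; rw [wF_of (zero_mem _), gn_zero]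
  map_one' := by show wF v 1 = 1; rw [wF_of (one_mem _), gn_one]
  map_mul' := by
    rintro ⟨_, a, ha, b, hb, h0, rfl⟩ ⟨_, c, hc, d, hd, h1, rfl⟩
    show wF v (a / b * (c / d)) = wF v (a / b) * wF v (c / d)
    rw [div_mul_div_comm, wF_div (mul_mem ha.1 hc.1) (mul_mem hb.1 hd.1) (mul_ne_zero h0 h1),
      wF_div ha.1 hb.1 h0, wF_div hc.1 hd.1 h1, gn_mul ha.1 hc.1, gn_mul hb.1 hd.1,
      div_mul_div_comm]
  map_add_le_max' := by
    rintro ⟨_, a, ha, b, hb, h0, rfl⟩ ⟨_, c, hc, d, hd, h1, rfl⟩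
    show wF v (a / b + c / d) ≤ max (wF v (a / b)) (wF v (c / d))
    have pb := (gn_ne (v := v) hb.1 h0).bot_lt
    have pd := (gn_ne (v := v) hd.1 h1).bot_lt
    rw [div_add_div _ _ h0 h1, wF_div (add_mem (mul_mem ha.1 hd.1) (mul_mem hb.1 hc.1))
      (mul_mem hb.1 hd.1) (mul_ne_zero h0 h1), wF_div ha.1 hb.1 h0, wF_div hc.1 hd.1 h1,
      gn_mul hb.1 hd.1, div_le_iff₀ (mul_pos pb pd)]
    refine (gn_add (mul_mem ha.1 hd.1) (mul_mem hb.1 hc.1)).trans (max_le ?_ ?_)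
    · refine le_trans (le_of_eq ?_) (mul_le_mul_left (le_max_left _ _) _)
      rw [gn_mul ha.1 hd.1, ← mul_assoc, div_mul_cancel₀ _ pb.ne']
    · refine le_trans (le_of_eq ?_) (mul_le_mul_left (le_max_right _ _) _)
      rw [gn_mul hb.1 hc.1, mul_comm (gn v b) (gn v d), ← mul_assoc, div_mul_cancel₀ _ pd.ne',
        mul_comm]

theorem wK_apply (x : K0 M) : wK v M x = wF v x := rfl

theorem wK_const (c : ℂ) : wK v M (algebraMap ℂ (K0 M) c) = v c := by
  show wF v (HahnSeries.C c) = v c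
  rw [wF_of (show HahnSeries.C c ∈ Bz from Bz.algebraMap_mem c), gn_C]

/-- coefficients are bounded by the Gauss norm -/
theorem coeff_le_wK {x : K0 M} (hx : (x : HS ℂ) ∈ Bz) (r : ℚ) :
    v ((x : HS ℂ).coeff r) ≤ wK v M x := by
  rw [wK_apply, wF_of hx]; exact le_gn hx r

theorem thM_div (h0 : b ≠ 0) : (M : ℂ) • th (a / b) =
    (b * ((M : ℂ) • th a) - a * ((M : ℂ) • th b)) / (b * b) := by
  rw [th.leibniz_div, smul_HS, smul_HS, smul_HS]
  simp only [smul_eq_mul]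
  field_simp

theorem thM_mem_K0 (hx : x ∈ K0 M) : (M : ℂ) • th x ∈ K0 M := by
  obtain ⟨a, ha, b, hb, h0, rfl⟩ := hx
  exact ⟨_, sub_mem (mul_mem hb (thM_mem ha)) (mul_mem ha (thM_mem hb)), _, mul_mem hb hb,
    mul_ne_zero h0 h0, thM_div h0⟩

/-- `M q d/dq` on `K0 M` -/
def dK (M : ℕ) : Derivation ℂ (K0 M) (K0 M) where
  toFun x := ⟨(M : ℂ) • th (x : HS ℂ), thM_mem_K0 x.2⟩
  map_add' x y := Subtype.ext (by
    show (M : ℂ) • th ((x : HS ℂ) + y) = (M : ℂ) • th (x : HS ℂ) + (M : ℂ) • th (y : HS ℂ)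
    rw [map_add, smul_add])
  map_smul' c x := Subtype.ext (by
    show (M : ℂ) • th (c • (x : HS ℂ)) = c • (M : ℂ) • th (x : HS ℂ)
    rw [Derivation.map_smul, smul_comm])
  map_one_eq_zero' := Subtype.ext (by
    show (M : ℂ) • th (1 : HS ℂ) = 0
    rw [Derivation.map_one_eq_zero, smul_zero])
  leibniz' x y := Subtype.ext (by
    show (M : ℂ) • th ((x : HS ℂ) * y) =
      (x : HS ℂ) * ((M : ℂ) • th (y : HS ℂ)) + (y : HS ℂ) * ((M : ℂ) • th (x : HS ℂ))
    rw [Derivation.leibniz, smul_HS, smul_HS, smul_HS, smul_eq_mul, smul_eq_mul]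
    ring)

theorem coe_dK (x : K0 M) : ((dK M x : K0 M) : HS ℂ) = (M : ℂ) • th (x : HS ℂ) := rfl

theorem wK_dK (x : K0 M) : wK v M (dK M x) ≤ wK v M x := by
  obtain ⟨_, a, ha, b, hb, h0, rfl⟩ := x
  show wF v ((M : ℂ) • th (a / b)) ≤ wF v (a / b)
  have pb := (gn_ne (v := v) hb.1 h0).bot_lt
  have h1 := mul_mem hb.1 (thM_mem ha).1
  have h2 := mul_mem ha.1 (thM_mem hb).1
  rw [thM_div h0, wF_div (sub_mem h1 h2) (mul_mem hb.1 hb.1) (mul_ne_zero h0 h0),
    wF_div ha.1 hb.1 h0, gn_mul hb.1 hb.1, div_le_iff₀ (mul_pos pb pb), ← mul_assoc,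
    div_mul_cancel₀ _ pb.ne', sub_eq_add_neg]
  refine (gn_add h1 (neg_mem h2)).trans (max_le ?_ ?_)
  · rw [gn_mul hb.1 (thM_mem ha).1, mul_comm]
    exact mul_le_mul_left (gn_thM ha) _
  · rw [gn_neg, gn_mul ha.1 (thM_mem hb).1]
    exact mul_le_mul_right (gn_thM hb) _

/-! ### forms -/

section forms

variable {k : ℤ} {F G : ℍ → ℂ}

theorem qf_mem_Sp (hM : M ≠ 0) (hF : F ∈ Sp ⊥ M k) : qf F ∈ B M := by
  induction hF using Submodule.span_induction with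
  | mem f hf =>
    rw [qf_eq hM hf.isF]
    refine hq_mem hM (N := 1) (by rw [Submodule.one_eq_span]; exact Submodule.fg_span_singleton _)
      fun n => ?_
    have := hf.coeff 1 n
    rw [SlashAction.slash_one, Subring.mem_bot] at this
    obtain ⟨m, hm⟩ := this
    exact Submodule.mem_one.2 ⟨m, hm⟩
  | zero => rw [qf_zero]; exact zero_mem _
  | add f g hf hg h1 h2 => rw [qf_add hM (Sp.isF hf) (Sp.isF hg)]; exact add_mem h1 h2
  | smul c f hf h1 =>
    rw [qf_smul hM (Sp.isF hf)]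
    exact mul_mem ((B M).algebraMap_mem c) h1

theorem qf_mem_one (hM : M ≠ 0) (hF : IsF 1 k F) : qf F ∈ B M := by
  haveI : NeZero M := ⟨hM⟩
  exact qf_mem_Sp hM (levelOneSpan ⊥ M k F hF)

theorem qf_Q_mem (hM : M ≠ 0) (u : Fin 2 → ℤ) : qf (Wp.Q M u) ∈ B M := by
  haveI : NeZero M := ⟨hM⟩
  have hz : IsIntegral ℤ (Wp.zeta M) :=
    (Wp.isPrimitiveRoot_zeta hM).isIntegral (Nat.pos_of_ne_zero hM)
  set A := Algebra.adjoin ℤ {Wp.zeta M} with hA
  have hA0 : Wp.zeta M ∈ A := Algebra.self_mem_adjoin_singleton _ _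
  have h1 : ∀ n : ℤ, Wp.zeta M ^ n ∈ A := fun n => by
    have h2 := (Wp.isPrimitiveRoot_zeta hM).zpow_eq_one
    have h3 : (0 : ℤ) < M := by exact_mod_cast Nat.pos_of_ne_zero hM
    rw [← Int.emod_add_mul_ediv n M, zpow_add₀ (Wp.zeta_ne_zero M), zpow_mul, h2, one_zpow, mul_one,
      ← Int.toNat_of_nonneg (Int.emod_nonneg n h3.ne'), zpow_natCast]
    exact pow_mem hA0 _
  have h2 : ∀ (s : ℕ) (a b : ℤ) (d e : ℕ), Wp.chi M s a b d e ∈ A := fun s a b d e => by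
    unfold Wp.chi
    refine add_mem ?_ (mul_mem (pow_mem (neg_mem (one_mem _)) _) ?_)
    · split_ifs
      · exact mul_mem (pow_mem (natCast_mem _ _) _) (pow_mem (h1 _) _)
      · exact zero_mem _
    · split_ifs
      · exact mul_mem (pow_mem (natCast_mem _ _) _) (pow_mem (h1 _) _)
      · exact zero_mem _
  rw [qf_eq hM (Wp.isF_Q hM u), Wp.qe_Q]
  refine hq_mem hM (N := Submodule.span ℤ {Wp.cQ0 M u} ⊔ Subalgebra.toSubmodule A)
    ((Submodule.fg_span_singleton _).sup hz.fg_adjoin_singleton) fun n => ?_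
  rw [PowerSeries.coeff_mk, Wp.cQ]
  refine Submodule.add_mem_sup ?_ (Submodule.sum_mem _ fun p _ => h2 _ _ _ _ _)
  split_ifs
  · exact Submodule.mem_span_singleton_self _
  · exact zero_mem _

theorem qf_sum (hM : M ≠ 0) {ι : Type*} (s : Finset ι) (f : ι → ℍ → ℂ) (h : ∀ i ∈ s, IsF M k (f i)) :
    qf (∑ i ∈ s, f i) = ∑ i ∈ s, qf (f i) := by
  haveI : NeZero M := ⟨hM⟩
  rw [qf_eq hM (IsF.sum s f h), qe_sum s f h, map_sum]
  exact Finset.sum_congr rfl fun i hi => (qf_eq hM (h i hi)).symm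

theorem qf_prod (hM : M ≠ 0) {ι : Type*} (s : Finset ι) (f : ι → ℍ → ℂ) (h : ∀ i ∈ s, IsF M k (f i)) :
    qf (∏ i ∈ s, f i) = ∏ i ∈ s, qf (f i) := by
  haveI : NeZero M := ⟨hM⟩
  rw [qf_eq hM (IsF.prod s f h), qe_prod s f h, map_prod]
  exact Finset.prod_congr rfl fun i hi => (qf_eq hM (h i hi)).symm

/-- the `q`-expansion of every form of level `M` lies in `K0 M` -/
theorem qf_mem_K0 (hM : 3 ≤ M) (hF : IsF M k F) : qf F ∈ K0 M := by
  classical
  have hM0 : M ≠ 0 := by omega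
  haveI : NeZero M := ⟨hM0⟩
  obtain ⟨n, hn⟩ := exists_sep_nat (Wp.isF_Q hM0 ![1, 0]) (Wp.isF_Q hM0 ![0, 1])
    fun g h0 h1 => Wp.mem_Gamma_of_Q_fixed hM h0 h1
  set θ := Wp.Q M ![1, 0] + (n : ℂ) • Wp.Q M ![0, 1] with hθ
  have hθF : IsF M 3 θ := (Wp.isF_Q hM0 _).add ((Wp.isF_Q hM0 _).smul _)
  have h1 : ∀ g : SL(2, ℤ), qf (θ ∣[(3 : ℤ)] g) ∈ B M := fun g => by
    rw [hθ, SlashAction.add_slash, SL_smul_slash, Wp.Q_slash, Wp.Q_slash,
      qf_add hM0 (Wp.isF_Q hM0 _) ((Wp.isF_Q hM0 _).smul _), qf_smul hM0 (Wp.isF_Q hM0 _)]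
    exact add_mem (qf_Q_mem hM0 _) (mul_mem ((B M).algebraMap_mem _) (qf_Q_mem hM0 _))
  have h2 : qf θ ∈ B M := by simpa using h1 1
  have h3 : qf (del M 3 θ) ∈ B M := by
    rw [del, qf_prod hM0 _ _ fun a _ => hθF.sub (hθF.tr a)]
    refine prod_mem fun a _ => ?_
    rw [qf_sub hM0 hθF (hθF.tr a)]
    exact sub_mem h2 (h1 _)
  have h4 : qf (F * del M 3 θ) ∈ B M := by
    rw [interp hθF hF, qf_sum (k := k + wdel M 3) hM0]
    · refine sum_mem fun t ht => ?_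
      have h5 : IsF M (k + (t.card : ℤ) * 3) (F * ∏ a ∈ t, tr 3 θ a) :=
        hF.mul (IsF.prod t _ fun a _ => hθF.tr a)
      rw [qf_smul hM0 ((hθF.pow _).mul (h5.Tr.mono (one_dvd M))),
        qf_mul hM0 (hθF.pow _) (h5.Tr.mono (one_dvd M)), qf_pow hM0 hθF]
      exact mul_mem ((B M).algebraMap_mem _) (mul_mem (pow_mem h2 _) (qf_mem_one hM0 h5.Tr))
    · intro t ht
      rw [Finset.mem_powerset] at ht
      have hc : t.card ≤ (nt M).card := Finset.card_le_card ht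
      have h5 : IsF M (k + (t.card : ℤ) * 3) (F * ∏ a ∈ t, tr 3 θ a) :=
        hF.mul (IsF.prod t _ fun a _ => hθF.tr a)
      refine (((hθF.pow _).mul (h5.Tr.mono (one_dvd M))).cast ?_).smul _
      rw [wdel, Nat.cast_sub hc]
      ring
  have h5 := qf_ne_zero hM0 hθF.del (del_ne_zero hθF hn)
  refine ⟨_, h4, _, h3, h5, ?_⟩
  rw [qf_mul hM0 hF hθF.del, mul_div_cancel_right₀ _ h5]

theorem qx_mem_K0 (hM : 3 ≤ M) {x : FF} (hx : ∀ γ ∈ Gamma M, γ • x = x) : qx x ∈ K0 M := by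
  obtain ⟨k, F, G, hF, hG, hG0, rfl⟩ := exists_quo_level hx
  have hG' := hG.mono (one_dvd M)
  rw [qx_quo (by omega) hF hG']
  exact div_mem (qf_mem_K0 hM hF) (qf_mem_K0 hM hG')

end forms

end Crest.Agent.T15.Mod
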