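import Mathlib

/-!
# Row 15, block T (helper62): local nilpotence and the abstract level lowering at a TW prime

`LN f v` : some power of `f` kills `v`.  `Lev q i tr W U T` : the four relations between the levels
`Γ` and `Γ ∩ Γ₀(q)`.  Result: the trace is a bijection from the `U ≡ α` part onto the `T ≡ s` part.
-/

set_option autoImplicit false

noncomputable section

namespace Crest.Agent.T15.Hk

open Finset Polynomial

variable {O : Type*} [CommRing O] {M M' : Type*} [AddCommGroup M] [Module O M] [AddCommGroup M']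
  [Module O M']

/-- local nilpotence -/
def LN (f : Module.End O M) (v : M) : Prop := ∃ k : ℕ, (f ^ k) v = 0

namespace LN
variable {f g : Module.End O M} {v : M}

lemma of_nilp (h : IsNilpotent f) (v : M) : LN f v := by
  obtain ⟨k, hk⟩ := h; exact ⟨k, by simp [hk]⟩

lemma zero (f : Module.End O M) : LN f 0 := ⟨0, by simp⟩

lemma pow_le {k l : ℕ} (h : (f ^ k) v = 0) (hl : k ≤ l) : (f ^ l) v = 0 := by
  obtain ⟨m, rfl⟩ := Nat.exists_eq_add_of_le' hl
  rw [pow_add, Module.End.mul_apply, h, map_zero]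

lemma map (h : LN f v) (φ : M →ₗ[O] M') {f' : Module.End O M'} (hφ : ∀ x, φ (f x) = f' (φ x)) :
    LN f' (φ v) := by
  obtain ⟨k, hk⟩ := h
  have : ∀ (k : ℕ) x, φ ((f ^ k) x) = (f' ^ k) (φ x) := fun k => by
    induction k with
    | zero => simp
    | succ k ih => intro x; rw [pow_succ, pow_succ, Module.End.mul_apply, ih, hφ]; rfl
  exact ⟨k, by rw [← this, hk, map_zero]⟩

lemma comm (h : LN f v) (hc : Commute g f) : LN f (g v) :=
  h.map g fun x => LinearMap.congr_fun hc x

lemma add_vec {w : M} (h : LN f v) (h' : LN f w) : LN f (v + w) := by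
  obtain ⟨k, hk⟩ := h
  obtain ⟨l, hl⟩ := h'
  exact ⟨k + l, by rw [map_add, pow_le hk (by omega), pow_le hl (by omega), add_zero]⟩

lemma smul_vec (h : LN f v) (r : O) : LN f (r • v) := by
  obtain ⟨k, hk⟩ := h; exact ⟨k, by rw [map_smul, hk, smul_zero]⟩

lemma sub_vec {w : M} (h : LN f v) (h' : LN f w) : LN f (v - w) := by
  simpa [sub_eq_add_neg] using h.add_vec (h'.smul_vec (-1))

lemma add (h : LN f v) (h' : LN g v) (hc : Commute f g) : LN (f + g) v := by
  obtain ⟨k, hk⟩ := h
  obtain ⟨l, hl⟩ := h'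
  refine ⟨k + l, ?_⟩
  rw [hc.add_pow', LinearMap.sum_apply]
  refine sum_eq_zero fun m hm => ?_
  have := mem_antidiagonal.1 hm
  rw [LinearMap.smul_apply]
  rcases le_total l m.2 with h | h
  · rw [Module.End.mul_apply, pow_le hl h, map_zero, smul_zero]
  · rw [(hc.pow_pow _ _).eq, Module.End.mul_apply, pow_le hk (by omega), map_zero, smul_zero]

lemma mul (h : LN f v) (hc : Commute g f) : LN (g * f) v := by
  obtain ⟨k, hk⟩ := h
  exact ⟨k, by rw [hc.mul_pow, Module.End.mul_apply, hk, map_zero]⟩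

lemma of_eq (h : LN f v) (hc : Commute f g) (he : f v = g v) : LN g v := by
  obtain ⟨k, hk⟩ := h
  have : ∀ k : ℕ, (f ^ k) v = (g ^ k) v := fun k => by
    induction k with
    | zero => simp
    | succ k ih =>
      rw [pow_succ', Module.End.mul_apply, ih, ← Module.End.mul_apply, (hc.pow_right k).eq,
        Module.End.mul_apply, he, pow_succ, Module.End.mul_apply]
  exact ⟨k, by rw [← this, hk]⟩

lemma eq_zero (h : LN f v) (he : f v = v) : v = 0 := by
  obtain ⟨k, hk⟩ := h.of_eq (Commute.one_right f) he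
  simpa using hk

lemma of_smul {u : O} (hu : IsUnit u) (h : LN (u • f) v) : LN f v := by
  obtain ⟨k, hk⟩ := h
  rw [_root_.smul_pow, LinearMap.smul_apply, (hu.pow k).smul_eq_zero] at hk
  exact ⟨k, hk⟩

lemma iff_mem {a : O} : LN (f - a • 1) v ↔ v ∈ f.maxGenEigenspace a :=
  (Module.End.mem_maxGenEigenspace f a v).symm

end LN

lemma hensel {q s α : O} (h0 : IsNilpotent (α ^ 2 - s * α + q)) (h1 : IsUnit (s - 2 * α))
    (h2 : IsUnit (s - (q + 1) * α)) (n : ℕ) : ∃ (a c c' : O[X]) (m : ℕ),
    (X - C s) ^ n ∣ a ^ 2 - X * a + C q ∧ (X - C s) ^ n ∣ (a - C α) ^ m ∧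
    (X - C s) ^ n ∣ c * (X - C (q + 1) * a) - 1 ∧ (X - C s) ^ n ∣ c' * (X - a - C α) - 1 := by
  let φ := AdjoinRoot.mk ((X - C s : O[X]) ^ n)
  have hz : ∀ f, φ f = 0 → (X - C s) ^ n ∣ f := fun f h => AdjoinRoot.mk_eq_zero.1 h
  have hx : IsNilpotent (φ X - φ (C s)) := ⟨n, by rw [← map_sub, ← map_pow]; exact AdjoinRoot.mk_self⟩
  let ψ := φ.comp (C : O →+* O[X])
  have hψ : ∀ r, φ (C r) = ψ r := fun _ => rfl
  rw [hψ] at hx
  obtain ⟨r, ⟨r1, r2⟩, -⟩ := existsUnique_nilpotent_sub_and_aeval_eq_zero (x := ψ α)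
    (P := X ^ 2 - C (φ X) * X + C (ψ q)) (by
      have := (Commute.all _ _).isNilpotent_sub (h0.map ψ)
        ((Commute.all _ (ψ α)).isNilpotent_mul_right hx)
      convert this using 1
      simp; ring) (by
      have := (hx.isUnit_add_left_of_commute (h1.map ψ) (Commute.all _ _)).neg
      convert this using 1
      simp [map_ofNat]; ring)
  obtain ⟨a, rfl⟩ := AdjoinRoot.mk_surjective r
  change IsNilpotent (ψ α - φ a) at r1
  obtain ⟨c, hc⟩ := (((Commute.all _ _).isNilpotent_add hx ((Commute.all (ψ (q + 1)) _).isNilpotent_mul_left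
    r1)).isUnit_add_left_of_commute (h2.map ψ) (Commute.all _ _)).exists_left_inv
  obtain ⟨c', hc'⟩ := (((Commute.all _ _).isNilpotent_add hx r1).isUnit_add_left_of_commute
    (h1.map ψ) (Commute.all _ _)).exists_left_inv
  obtain ⟨c, rfl⟩ := AdjoinRoot.mk_surjective c
  obtain ⟨c', rfl⟩ := AdjoinRoot.mk_surjective c'
  obtain ⟨m, hm⟩ := r1.neg
  refine ⟨a, c, c', m, hz _ ?_, hz _ ?_, hz _ ?_, hz _ ?_⟩
  · simpa [φ, ψ] using r2
  · rw [map_pow, map_sub, hψ, ← hm, neg_sub]
  · rw [map_sub, map_mul, map_sub, map_mul, hψ, map_one, ← hc, sub_eq_zero]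
    simp only [map_sub, map_mul]; congr 1; ring
  · rw [map_sub, map_mul, map_sub, map_sub, hψ, map_one, ← hc', sub_eq_zero]
    simp only [map_sub, map_mul, map_ofNat]; congr 1; ring

lemma aeval_eq_zero {T : Module.End O M} {s : O} {n : ℕ} {x : M} (hx : ((T - s • 1) ^ n) x = 0)
    {f : O[X]} (hf : (X - C s) ^ n ∣ f) (g : O[X]) : aeval T f (aeval T g x) = 0 := by
  obtain ⟨h, rfl⟩ := hf
  rw [← Module.End.mul_apply, ← map_mul, mul_assoc, mul_comm, map_mul, Module.End.mul_apply, map_pow,
    map_sub, aeval_X, aeval_C, Algebra.algebraMap_eq_smul_one, hx, map_zero]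

/-- the relations between the two levels -/
structure Lev (q : O) (i : M →ₗ[O] M') (tr : M' →ₗ[O] M) (W U : Module.End O M')
    (T : Module.End O M) : Prop where
  tr_i : ∀ x, tr (i x) = (q + 1) • x
  tr_W : ∀ x, tr (W (i x)) = T x
  UW : ∀ v, U v + W v = i (tr (W v))
  WW : ∀ v, W (W v) = v

namespace Lev
variable {q s α : O} {i : M →ₗ[O] M'} {tr : M' →ₗ[O] M} {W U : Module.End O M'}
  {T : Module.End O M} (h : Lev q i tr W U T)

/-- companion matrix -/
def Mx (q : O) (T : Module.End O M) : Module.End O (M × M) :=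
  (q • LinearMap.snd O M M).prod (T ∘ₗ LinearMap.snd O M M - LinearMap.fst O M M)

lemma Mx_comm : Commute (Mx q T) (T.prodMap T) := by
  ext <;> simp [Mx]

lemma Mx_sq : Mx q T * Mx q T = T.prodMap T * Mx q T - q • 1 := by
  ext <;> simp [Mx]

include h

lemma U_eq (v : M') : U v = i (tr (W v)) - W v := eq_sub_of_add_eq (h.UW v)

lemma ln_pair {v : M'} (hv : LN (U - α • 1) v) : LN (Mx q T - α • 1) (tr v, tr (W v)) :=
  hv.map (tr.prod (tr ∘ₗ W)) fun x => by
    simp [Mx, h.U_eq, h.tr_i, h.tr_W, h.WW, add_smul]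

lemma ln_T (h0 : IsNilpotent (α ^ 2 - s * α + q)) (hα : IsUnit α) {v : M'}
    (hv : LN (U - α • 1) v) : LN (T.prodMap T - s • 1) (tr v, tr (W v)) := by
  refine LN.of_smul hα ?_
  have e : α • (T.prodMap T - s • 1) = (α ^ 2 - s * α + q) • 1 +
      (α • 1 + Mx q T - T.prodMap T) * (Mx q T - α • 1) := by
    simp only [sub_mul, add_mul, mul_sub, Mx_sq, smul_mul_assoc, mul_smul_comm, one_mul, mul_one]
    module
  rw [e]
  refine (LN.of_nilp (by
    simpa [Algebra.algebraMap_eq_smul_one] using h0.map (algebraMap O (Module.End O (M × M)))) _).add ((h.ln_pair hv).mul ?_) ((Commute.one_left _).smul_left _)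
  refine Commute.sub_right ?_ ((Commute.one_right _).smul_right _)
  exact (((Commute.one_left _).smul_left _).add_left (Commute.refl _)).sub_left Mx_comm.symm

/-- the trace maps the `U ≡ α` part to the `T ≡ s` part -/
theorem maps (h0 : IsNilpotent (α ^ 2 - s * α + q)) (hα : IsUnit α) {v : M'}
    (hv : LN (U - α • 1) v) : LN (T - s • 1) (tr v) :=
  (h.ln_T h0 hα hv).map (LinearMap.fst O M M) fun x => by simp

/-- the trace is injective on the `U ≡ α` part -/
theorem inj (h0 : IsNilpotent (α ^ 2 - s * α + q)) (hα : IsUnit α) (hq : IsUnit q)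
    (h1 : IsUnit (s - 2 * α)) (h2 : IsUnit (s - (q + 1) * α)) (h3 : IsUnit (α ^ 2 - 1)) {v : M'}
    (hv : LN (U - α • 1) v) (ht : tr v = 0) : v = 0 := by
  obtain ⟨n, hn⟩ := h.ln_T h0 hα hv
  obtain ⟨a, -, c, -, a1, -, -, a4⟩ := hensel h0 h1 h2 n
  have b0 := h.ln_pair hv
  set p := (tr v, tr (W v)) with hp
  set T2 := T.prodMap T with hT2
  have hc : ∀ f : O[X], Commute (Mx q T) (aeval T2 f) := fun f => by
    induction f using Polynomial.induction_on' with
    | add f g hf hg => rw [map_add]; exact hf.add_right hg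
    | monomial k r =>
      rw [aeval_monomial]
      exact (Algebra.commute_algebraMap_right r _).mul_right (Mx_comm.pow_right k)
  have hc' : ∀ f g : O[X], Commute (aeval T2 f) (aeval T2 g) := fun f g =>
    (Commute.all f g).map _
  have hk : ∀ f : O[X], (X - C s) ^ n ∣ f → aeval T2 f ((Mx q T - aeval T2 a) p) = 0 := fun f hf => by
    rw [← Module.End.mul_apply, ((hc f).symm.sub_right (hc' f a)).eq, Module.End.mul_apply]
    simpa using congrArg (Mx q T - aeval T2 a) (aeval_eq_zero hn hf 1)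
  have b1 : (Mx q T - α • 1) ((Mx q T - aeval T2 a) p) =
      aeval T2 (X - a - C α) ((Mx q T - aeval T2 a) p) := by
    have e : (Mx q T - α • 1) * (Mx q T - aeval T2 a) =
        aeval T2 (X - a - C α) * (Mx q T - aeval T2 a) - aeval T2 (a ^ 2 - X * a + C q) := by
      simp only [map_sub, map_add, map_mul, aeval_X, aeval_C, sq,
        Algebra.algebraMap_eq_smul_one, sub_mul, mul_sub, Mx_sq, (hc a).eq, ← hT2]
      abel
    have := LinearMap.congr_fun e p
    rw [LinearMap.sub_apply, show aeval T2 (a ^ 2 - X * a + C q) p = 0 by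
      simpa using aeval_eq_zero hn a1 1, sub_zero] at this
    exact this
  have hs : ∀ f : O[X], Commute (Mx q T - α • 1) (aeval T2 f) := fun f =>
    (hc f).sub_left ((Commute.one_left _).smul_left _)
  have b2 := ((b0.comm (g := Mx q T - aeval T2 a) (((Commute.refl _).sub_right
    ((Commute.one_right _).smul_right _)).sub_left (hs a).symm)).of_eq (hs _) b1).mul (hc' c _)
  have b3 := b2.eq_zero (by
    have := hk _ a4
    rwa [map_sub, map_mul, map_one, LinearMap.sub_apply, sub_eq_zero] at this)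
  have b4 : tr (W v) = 0 := by
    have e1 := congrArg Prod.fst b3
    have e2 : ∀ f : O[X], (aeval T2 f p).1 = aeval T f p.1 := fun f => by
      induction f using Polynomial.induction_on' with
      | add f g hf hg => simp [hf, hg]
      | monomial k r =>
        have : ∀ (k : ℕ) (p : M × M), ((T2 ^ k) p).1 = (T ^ k) p.1 := fun k => by
          induction k with
          | zero => simp
          | succ k ih => intro p; rw [pow_succ, pow_succ, Module.End.mul_apply, ih]; rfl
        simp [aeval_monomial, this]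
    rw [LinearMap.sub_apply, Prod.fst_sub, e2] at e1
    simpa [hp, ht, Mx, hq.smul_eq_zero] using e1
  have b5 : ((U + α • 1) * (U - α • 1)) v = ((1 - α ^ 2) • (1 : Module.End O M')) v := by
    have e1 : U v = -W v := by rw [h.U_eq, b4]; simp
    have e2 : U (W v) = -v := by rw [h.U_eq, h.WW, ht]; simp
    simp only [Module.End.mul_apply, LinearMap.add_apply, LinearMap.sub_apply,
      LinearMap.smul_apply, Module.End.one_apply, map_sub, map_smul, e1, map_neg, e2]
    module
  have b6 := (hv.mul (g := U + α • 1) (((Commute.refl _).sub_right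
    ((Commute.one_right _).smul_right _)).add_left ((Commute.one_left _).smul_left _))).of_eq
    ((Commute.one_right _).smul_right _) b5
  exact (b6.of_smul (by simpa using h3.neg)).eq_zero rfl

/-- the trace is onto, with an explicit preimage -/
theorem surj (h0 : IsNilpotent (α ^ 2 - s * α + q)) (h1 : IsUnit (s - 2 * α))
    (h2 : IsUnit (s - (q + 1) * α)) {x : M} (hx : LN (T - s • 1) x) : ∃ f g : O[X],
    LN (U - α • 1) (W (i (aeval T f x)) - i (aeval T g x)) ∧
      tr (W (i (aeval T f x)) - i (aeval T g x)) = x := by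
  obtain ⟨n, hn⟩ := hx
  obtain ⟨a, c, -, m, a1, a2, a3, -⟩ := hensel h0 h1 h2 n
  have key : ∀ f : O[X], (U - α • 1) (W (i (aeval T f x)) - i (aeval T (a * f) x)) =
      W (i (aeval T ((a - C α) * f) x)) - i (aeval T (a * ((a - C α) * f)) x) := fun f => by
    have e := aeval_eq_zero hn a1 f
    simp only [map_sub, map_add, map_mul, aeval_X, aeval_C, sq, Module.End.mul_apply,
      Algebra.algebraMap_eq_smul_one, LinearMap.sub_apply, LinearMap.add_apply,
      LinearMap.smul_apply, Module.End.one_apply, map_smul, h.U_eq, h.WW, h.tr_i, h.tr_W] at e ⊢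
    rw [← sub_eq_zero, ← map_zero i, ← e]
    simp only [map_sub, map_add, map_smul]
    module
  have key' : ∀ k : ℕ, ((U - α • 1) ^ k) (W (i (aeval T c x)) - i (aeval T (a * c) x)) =
      W (i (aeval T ((a - C α) ^ k * c) x)) - i (aeval T (a * ((a - C α) ^ k * c)) x) := fun k => by
    induction k with
    | zero => simp
    | succ k ih => rw [pow_succ', Module.End.mul_apply, ih, key, ← mul_assoc (a - C α), ← pow_succ']
  have hz : ∀ f, (X - C s) ^ n ∣ f → aeval T f x = 0 := fun f hf => by
    simpa using aeval_eq_zero hn hf 1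
  refine ⟨c, a * c, ⟨m, ?_⟩, ?_⟩
  · rw [key', hz _ (a2.mul_right _), hz _ ((a2.mul_right _).mul_left _)]; simp
  · have e := hz _ a3
    rw [mul_comm c] at e
    simp only [map_sub, map_mul, aeval_X, aeval_C, Module.End.mul_apply, map_one,
      Algebra.algebraMap_eq_smul_one, LinearMap.sub_apply, LinearMap.smul_apply,
      Module.End.one_apply, h.tr_i, h.tr_W] at e ⊢
    exact sub_eq_zero.1 e

end Lev

end Crest.Agent.T15.Hk

end
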