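import Crest.Agent.T15.LvT_10
import Crest.Agent.T15.HkLev_62

/-!
# Row 15, block T (helper10): localisation at a non-Eisenstein system of eigenvalues

* `Loc s a` : joint generalised eigenspace;  `IsProj s a η` : `η` is the projector onto it;
* `exists_eps` : the projector is given by an element of degree zero of `Cen`;
* `free_loc` : freeness over `O[Δ]`;  `TT`, `DD`, `Tc` : the concrete operators.
-/

set_option autoImplicit false
set_option linter.unusedSectionVars false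

noncomputable section

namespace Crest.Agent.T15.Lv

open Finset
open Crest.Agent.T15.Hk Crest.Agent.T15.Mf

section loc

variable {O : Type*} [CommRing O] {M M' : Type*} [AddCommGroup M] [Module O M] [AddCommGroup M']
  [Module O M'] {ι : Type*} {s : ι → Module.End O M} {s' : ι → Module.End O M'} {a : ι → O}

/-- joint generalised eigenspace -/
def Loc (s : ι → Module.End O M) (a : ι → O) : Submodule O M where
  carrier := {v | ∀ i, LN (s i - a i • 1) v}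
  add_mem' h h' i := (h i).add_vec (h' i)
  zero_mem' _ := LN.zero _
  smul_mem' r _ h i := (h i).smul_vec r

lemma mem_Loc {v : M} : v ∈ Loc s a ↔ ∀ i, LN (s i - a i • 1) v := Iff.rfl

lemma Loc.map {v : M} (h : v ∈ Loc s a) (φ : M →ₗ[O] M') (hφ : ∀ i x, φ (s i x) = s' i (φ x)) :
    φ v ∈ Loc s' a := fun i => (h i).map φ fun x => by simp [hφ]

lemma Loc.comm {v : M} (h : v ∈ Loc s a) {g : Module.End O M} (hg : ∀ i, Commute g (s i)) :
    g v ∈ Loc s a := Loc.map h g fun i x => LinearMap.congr_fun (hg i) x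

lemma Loc.of_map {v : M} (φ : M →ₗ[O] M') (hi : Function.Injective φ)
    (hφ : ∀ i x, φ (s i x) = s' i (φ x)) (h : φ v ∈ Loc s' a) : v ∈ Loc s a := fun i => by
  obtain ⟨k, hk⟩ := h i
  have : ∀ (k : ℕ) x, φ (((s i - a i • 1) ^ k) x) = ((s' i - a i • 1) ^ k) (φ x) := fun k => by
    induction k with
    | zero => simp
    | succ k ih => intro x; rw [pow_succ, pow_succ, Module.End.mul_apply, ih]; simp [hφ]
  exact ⟨k, hi (by rw [this, hk, map_zero])⟩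

/-- changing the eigenvalues by nilpotent elements -/
lemma Loc.congr {a' : ι → O} (h : ∀ i, IsNilpotent (a i - a' i)) {v : M} (hv : v ∈ Loc s a) :
    v ∈ Loc s a' := fun i => by
  have := (hv i).add (LN.of_nilp (((h i).map (algebraMap O (Module.End O M)))) v)
    (Algebra.commutes _ _).symm
  rwa [Algebra.algebraMap_eq_smul_one, sub_smul, sub_add_sub_cancel] at this

lemma LN.eq_zero_of_unit {f : Module.End O M} {v : M} {u : O} (hu : IsUnit u) (h : LN f v)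
    (e : f v = u • v) : v = 0 :=
  (LN.of_smul hu (h.of_eq (g := u • 1) ((Commute.one_right f).smul_right u) (by simpa using e))).eq_zero
    rfl

/-- `η` is the projector onto the generalised eigenspace -/
def IsProj (s : ι → Module.End O M) (a : ι → O) (η : Module.End O M) : Prop :=
  (∀ v, η v ∈ Loc s a) ∧ ∀ v ∈ Loc s a, η v = v

lemma IsProj.idem {η : Module.End O M} (h : IsProj s a η) (v : M) : η (η v) = η v := h.2 _ (h.1 v)

lemma IsProj.range {η : Module.End O M} (h : IsProj s a η) : LinearMap.range η = Loc s a :=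
  le_antisymm (by rintro _ ⟨v, rfl⟩; exact h.1 v) fun v hv => ⟨v, h.2 v hv⟩

lemma IsProj.of_inj {η : Module.End O M} {η' : Module.End O M'} (h : IsProj s' a η')
    (φ : M →ₗ[O] M') (hi : Function.Injective φ) (hφ : ∀ i x, φ (s i x) = s' i (φ x))
    (hη : ∀ x, φ (η x) = η' (φ x)) : IsProj s a η :=
  ⟨fun v => Loc.of_map φ hi hφ (hη v ▸ h.1 _), fun v hv => hi (by rw [hη, h.2 _ (Loc.map hv φ hφ)])⟩

lemma exists_idem {E : Type*} [Monoid E] [Finite E] (f : E) :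
    ∃ m, 0 < m ∧ IsIdempotentElem (f ^ m) := by
  obtain ⟨i, j, hij, h⟩ : ∃ i j : ℕ, i < j ∧ f ^ i = f ^ j := by
    obtain ⟨i, j, hne, h⟩ := Finite.exists_ne_map_eq_of_infinite fun n : ℕ => f ^ n
    rcases hne.lt_or_gt with h' | h'
    exacts [⟨i, j, h', h⟩, ⟨j, i, h', h.symm⟩]
  obtain ⟨d, rfl⟩ := Nat.exists_eq_add_of_lt hij
  have h1 : ∀ k, f ^ (i + k * (d + 1)) = f ^ i := fun k => by
    induction k with
    | zero => simp
    | succ k ih =>
      rw [show i + (k + 1) * (d + 1) = i + d + 1 + k * (d + 1) by ring, pow_add, ← h, ← pow_add, ih]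
  refine ⟨(i + 1) * (d + 1), by positivity, ?_⟩
  rw [IsIdempotentElem, ← pow_add, show (i + 1) * (d + 1) + (i + 1) * (d + 1) =
    i + (i + 1) * (d + 1) + (i * d + d + 1) by ring, pow_add, h1, ← pow_add]
  congr 1; ring

lemma LN.pow_idem {f : Module.End O M} {m : ℕ} (hm : 0 < m) (h : IsIdempotentElem (f ^ m)) {v : M}
    (hv : LN f v) : (f ^ m) v = 0 := by
  obtain ⟨k, hk⟩ := hv
  rw [← h.pow_succ_eq k, ← pow_mul]
  exact LN.pow_le hk (by nlinarith)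

theorem exists_proj₀ [Finite M] (hc : ∀ i j, Commute (s i) (s j)) (a : ι → O) :
    ∃ η ∈ Algebra.adjoin O (Set.range s), IsProj s a η := by
  classical
  have : Finite (Module.End O M) := DFunLike.finite _
  have hn : ∀ i j, Commute (s i - a i • 1) (s j - a j • 1) := fun i j =>
    ((hc i j).sub_left ((Commute.one_left _).smul_left _)).sub_right
      ((Commute.one_right _).smul_right _)
  have key : ∀ F : Finset ι, ∃ η ∈ Algebra.adjoin O (Set.range s),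
      (∀ v, ∀ i ∈ F, LN (s i - a i • 1) (η v)) ∧ ∀ v ∈ Loc s a, η v = v := fun F => by
    induction F using Finset.induction_on with
    | empty => exact ⟨1, one_mem _, by simp, fun _ _ => rfl⟩
    | insert i F _ ih =>
      obtain ⟨η, h1, h2, h3⟩ := ih
      obtain ⟨m, hm, hi⟩ := exists_idem (s i - a i • 1)
      refine ⟨(1 - (s i - a i • 1) ^ m) * η, mul_mem (sub_mem (one_mem _) (pow_mem (sub_mem
        (Algebra.subset_adjoin (Set.mem_range_self i)) (Subalgebra.smul_mem _ (one_mem _) _)) _)) h1,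
        fun v j hj => ?_, fun v hv => ?_⟩
      · rcases mem_insert.1 hj with rfl | hj
        · exact ⟨m, by rw [← Module.End.mul_apply, ← mul_assoc, hi.mul_one_sub_self, zero_mul]; rfl⟩
        · exact (h2 v j hj).comm ((Commute.one_left _).sub_left ((hn i j).pow_left m))
      · rw [Module.End.mul_apply, h3 v hv, LinearMap.sub_apply, LN.pow_idem hm hi (hv i), sub_zero]
        rfl
  obtain ⟨F, hF⟩ : ∃ F : Finset ι, ∀ i, ∃ j ∈ F, s j - a j • 1 = s i - a i • 1 := by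
    obtain ⟨t, -, ht, hf⟩ := (Set.toFinite (Set.range fun i => s i - a i • 1)).exists_subset_finite_image_eq
      (s := Set.univ) (f := fun i => s i - a i • 1) (by simp)
    exact ⟨ht.toFinset, fun i => by simpa using (Set.ext_iff.1 hf _).2 ⟨i, rfl⟩⟩
  obtain ⟨η, h1, h2, h3⟩ := key F
  exact ⟨η, h1, fun v i => by obtain ⟨j, hj, e⟩ := hF i; exact e ▸ h2 v j hj, h3⟩

theorem exists_proj [Finite M] (hc : ∀ i j, Commute (s i) (s j)) (a : ι → O) (i₀ : ι) {d : O}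
    (hu : IsUnit (a i₀ - d)) : ∃ η ∈ Algebra.adjoin O (Set.range s), ∃ m, 0 < m ∧
      IsProj s a (η * (s i₀ - d • 1) ^ m) := by
  have : Finite (Module.End O M) := DFunLike.finite _
  obtain ⟨η, h1, h2⟩ := exists_proj₀ hc a
  obtain ⟨m, hm, hi⟩ := exists_idem (s i₀ - d • 1)
  refine ⟨η, h1, m, hm, fun v => h2.1 _, fun v hv => ?_⟩
  have h3 : v - ((s i₀ - d • 1) ^ m) v ∈ Loc s a := sub_mem hv (Loc.comm hv fun i =>
    ((hc i₀ i).sub_left ((Commute.one_left _).smul_left _)).pow_left m)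
  have h4 : LN (s i₀ - d • 1) (v - ((s i₀ - d • 1) ^ m) v) :=
    ⟨m, by rw [map_sub, ← Module.End.mul_apply, hi.eq, sub_self]⟩
  have h5 := h4.add ((h3 i₀).mul (Commute.neg_one_left _)) (Commute.mul_right
    (Commute.neg_one_right _) (((Commute.refl _).sub_left
      ((Commute.one_left _).smul_left _)).sub_right ((Commute.one_right _).smul_right _)))
  rw [Module.End.mul_apply, ← sub_eq_zero.1 (LN.eq_zero_of_unit hu h5 (by
    simp only [neg_mul, one_mul, neg_sub, sub_add_sub_cancel', ← sub_smul]; rfl)), h2.2 v hv]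

/-- a direct summand of a finite free module over a local ring has a basis -/
lemma IsProj.exists_basis [IsLocalRing O] [Module.Free O M] [Module.Finite O M]
    {η : Module.End O M} (h : IsProj s a η) : ∃ (n : ℕ) (b : Fin n → M), LinearIndependent O b ∧
      Submodule.span O (Set.range b) = Loc s a := by
  have h1 : Module.Projective O (Loc s a) := Module.Projective.of_split (Loc s a).subtype
    (η.codRestrict _ h.1) (LinearMap.ext fun v => Subtype.ext (h.2 v.1 v.2))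
  have h2 : Module.Finite O (Loc s a) := Module.Finite.of_surjective (η.codRestrict _ h.1)
    fun v => ⟨v.1, Subtype.ext (h.2 v.1 v.2)⟩
  have h3 : Module.Free O (Loc s a) := Module.free_of_flat_of_isLocalRing
  let b := Module.finBasis O (Loc s a)
  refine ⟨_, (Loc s a).subtype ∘ b, b.linearIndependent.map' _ (Submodule.ker_subtype _), ?_⟩
  rw [Set.range_comp, ← Submodule.map_span, b.span_eq, Submodule.map_top, Submodule.range_subtype]

end loc

section cen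

variable {G : Type*} [Group G] {O : Type*} [CommRing O] {A B : Type*} [AddCommGroup A] [Module O A]
  [AddCommGroup B] [Module O B] {Γ₀ Γ₁ : Subgroup G} {ι : Type*}

lemma T₁_mul (s t : Cen O Γ₀ Γ₁) : T₁ A (s * t) = T₁ A t * T₁ A s :=
  LinearMap.ext fun φ => (T_mul ⟨s.1, s.2.1⟩ ⟨t.1, t.2.1⟩ φ).symm

lemma T₁_one : T₁ A (1 : Cen O Γ₀ Γ₁) = 1 := T_one

lemma T₁_add (s t : Cen O Γ₀ Γ₁) : T₁ A (s + t) = T₁ A s + T₁ A t := T_add ⟨s.1, s.2.1⟩ ⟨t.1, t.2.1⟩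

lemma T₁_sub (s t : Cen O Γ₀ Γ₁) : T₁ A (s - t) = T₁ A s - T₁ A t := T_sub ⟨s.1, s.2.1⟩ ⟨t.1, t.2.1⟩

lemma T₁_smul (r : O) (t : Cen O Γ₀ Γ₁) : T₁ A (r • t) = r • T₁ A t := T_smul r ⟨t.1, t.2.1⟩

lemma T₁_zero : T₁ A (0 : Cen O Γ₀ Γ₁) = 0 := by simpa using T₁_smul (A := A) (0 : O) (1 : Cen O Γ₀ Γ₁)

lemma T₁_pow (t : Cen O Γ₀ Γ₁) (n : ℕ) : T₁ A (t ^ n) = T₁ A t ^ n := by
  induction n with
  | zero => rw [pow_zero, pow_zero, T₁_one]
  | succ n ih => rw [pow_succ, T₁_mul, ih, pow_succ']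

lemma T₁_comm {s t : Cen O Γ₀ Γ₁} (h : s.1 * t.1 - t.1 * s.1 ∈ Null O Γ₁) :
    Commute (T₁ A s) (T₁ A t) := by
  rw [Commute, SemiconjBy, ← T₁_mul, ← T₁_mul]
  exact (T_congr (c := ⟨(s * t).1, (s * t).2.1⟩) (c' := ⟨(t * s).1, (t * s).2.1⟩) h).symm

lemma exists_lift {t : ι → Cen O Γ₀ Γ₁} {η : Module.End O (HH Γ₁ A)}
    (h : η ∈ Algebra.adjoin O (Set.range fun i => T₁ A (t i))) :
    ∃ r ∈ Algebra.adjoin O (Set.range t), T₁ A r = η := by
  induction h using Algebra.adjoin_induction with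
  | mem x hx => obtain ⟨i, rfl⟩ := hx; exact ⟨t i, Algebra.subset_adjoin ⟨i, rfl⟩, rfl⟩
  | algebraMap r => exact ⟨r • 1, Subalgebra.smul_mem _ (one_mem _) _, by
      rw [T₁_smul, T₁_one, Algebra.algebraMap_eq_smul_one]⟩
  | add x y _ _ hx hy =>
    obtain ⟨r, h1, rfl⟩ := hx; obtain ⟨r', h1', rfl⟩ := hy
    exact ⟨r + r', add_mem h1 h1', T₁_add _ _⟩
  | mul x y _ _ hx hy =>
    obtain ⟨r, h1, rfl⟩ := hx; obtain ⟨r', h1', rfl⟩ := hy
    exact ⟨r' * r, mul_mem h1' h1, T₁_mul _ _⟩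

/-- **the localisation is cut out by an element of degree zero** -/
theorem exists_eps [Finite (HH Γ₁ A)] {t : ι → Cen O Γ₀ Γ₁}
    (hc : ∀ i j, Commute (T₁ A (t i)) (T₁ A (t j))) (a : ι → O) (i₀ : ι)
    (hu : IsUnit (a i₀ - deg (t i₀).1)) : ∃ ε ∈ Algebra.adjoin O (Set.range t), deg ε.1 = 0 ∧
      IsProj (fun i => T₁ A (t i)) a (T₁ A ε) := by
  obtain ⟨η, h1, m, hm, h2⟩ := exists_proj hc a i₀ hu
  obtain ⟨r, h3, rfl⟩ := exists_lift h1
  refine ⟨(t i₀ - deg (t i₀).1 • 1) ^ m * r, mul_mem (pow_mem (sub_mem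
    (Algebra.subset_adjoin (Set.mem_range_self i₀)) (Subalgebra.smul_mem _ (one_mem _) _)) _) h3, ?_, ?_⟩
  · simp [hm.ne']
  · rwa [T₁_mul, T₁_pow, T₁_sub, T₁_smul, T₁_one]

lemma res_loc (h : Γ₁ ≤ Γ₀) {t : ι → Cen O Γ₀ Γ₁} {a : ι → O} {ψ : HH Γ₀ A}
    (hψ : ψ ∈ Loc (fun i => T₀ A h (t i)) a) : res O A h ψ ∈ Loc (fun i => T₁ A (t i)) a :=
  Loc.map hψ _ fun i x => res_T₀ h (t i) x

lemma res_inj_loc (h : Γ₁ ≤ Γ₀) {t : ι → Cen O Γ₀ Γ₁} {a : ι → O} {i₀ : ι}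
    (hu : IsUnit (a i₀ - deg (t i₀).1)) {ψ : HH Γ₀ A} (hψ : ψ ∈ Loc (fun i => T₀ A h (t i)) a)
    (h0 : res O A h ψ = 0) : ψ = 0 :=
  LN.eq_zero_of_unit hu.neg (hψ i₀) (by simp [T₀_of_res h _ h0, sub_smul])

/-- change of coefficients -/
def cf (Γ : Subgroup G) (f : A →ₗ[O] B) : HH Γ A →ₗ[O] HH Γ B :=
  ⟨⟨fun φ => f.toAddMonoidHom.comp φ, fun _ _ => AddMonoidHom.comp_add _ _ _⟩,
    fun r _ => AddMonoidHom.ext fun _ => f.map_smul r _⟩

lemma cf_apply (f : A →ₗ[O] B) (φ : HH Γ₁ A) : cf Γ₁ f φ = f.toAddMonoidHom.comp φ := rfl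

lemma cf_T (f : A →ₗ[O] B) (c : Corr O Γ₀ Γ₁) (φ : HH Γ₀ A) :
    cf Γ₁ f (T A c φ) = T B c (cf Γ₀ f φ) := (T_comp c f φ).symm

lemma cf_inj {f : A →ₗ[O] B} (hf : Function.Injective f) : Function.Injective (cf Γ₁ f) :=
  fun _ _ h => AddMonoidHom.ext fun γ => hf (DFunLike.congr_fun h γ)

lemma cf_loc (f : A →ₗ[O] B) {t : ι → Cen O Γ₀ Γ₁} {a : ι → O} {φ : HH Γ₁ A}
    (hφ : φ ∈ Loc (fun i => T₁ A (t i)) a) : cf Γ₁ f φ ∈ Loc (fun i => T₁ B (t i)) a :=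
  Loc.map hφ _ fun _ _ => cf_T f _ _

lemma IsProj.cf {f : A →ₗ[O] B} (hf : Function.Injective f) {t : ι → Cen O Γ₀ Γ₁} {a : ι → O}
    {ε : Cen O Γ₀ Γ₁} (h : IsProj (fun i => T₁ B (t i)) a (T₁ B ε)) :
    IsProj (fun i => T₁ A (t i)) a (T₁ A ε) :=
  h.of_inj (Lv.cf Γ₁ f) (cf_inj hf) (fun _ _ => cf_T f _ _) fun _ => cf_T f _ _

/-- the localisation is right exact in the coefficients -/
theorem loc_surj [IsFreeGroup Γ₁] [Finite (HH Γ₁ (A × B))] {t : ι → Cen O Γ₀ Γ₁}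
    (hc : ∀ i j, (t i).1 * (t j).1 - (t j).1 * (t i).1 ∈ Null O Γ₁) (a : ι → O) (f : A →ₗ[O] B)
    (hf : Function.Surjective f) {ψ : HH Γ₁ B} (hψ : ψ ∈ Loc (fun i => T₁ B (t i)) a) :
    ∃ φ ∈ Loc (fun i => T₁ A (t i)) a, cf Γ₁ f φ = ψ := by
  obtain ⟨η, h1, h2⟩ := exists_proj₀ (fun i j => T₁_comm (A := A × B) (hc i j)) a
  obtain ⟨ε, -, rfl⟩ := exists_lift h1
  obtain ⟨φ, rfl⟩ := comp_surj (f := f.toAddMonoidHom) hf ψ
  exact ⟨T₁ A ε φ, (h2.cf LinearMap.inl_injective).1 φ,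
    (cf_T f _ φ).trans ((h2.cf LinearMap.inr_injective).2 _ hψ)⟩

variable {Δ : Type*} [CommGroup Δ] {π : Γ₀ →* Δ} (hc : Cov π Γ₁) [Fintype Δ]
include hc

lemma cores_loc {t : ι → Cen O Γ₀ Γ₁} {a : ι → O} {φ : HH Γ₁ A}
    (hφ : φ ∈ Loc (fun i => T₁ A (t i)) a) : hc.cores O A φ ∈ Loc (fun i => T₀ A hc.le (t i)) a :=
  Loc.map hφ _ fun i x => hc.cores_T₁ (t i) x

lemma dia_loc {t : ι → Cen O Γ₀ Γ₁} {a : ι → O} {φ : HH Γ₁ A}
    (hφ : φ ∈ Loc (fun i => T₁ A (t i)) a) (δ : Δ) : hc.dia O A δ φ ∈ Loc (fun i => T₁ A (t i)) a :=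
  Loc.map hφ _ fun i x => hc.dia_T₁ δ (t i) x

lemma isProj₀ [IsFreeGroup Γ₀] {t : ι → Cen O Γ₀ Γ₁} {a : ι → O} {i₀ : ι}
    (hu : IsUnit (a i₀ - deg (t i₀).1)) {ε : Cen O Γ₀ Γ₁}
    (hε : IsProj (fun i => T₁ A (t i)) a (T₁ A ε)) :
    IsProj (fun i => T₀ A hc.le (t i)) a (T₀ A hc.le ε) := by
  have h1 : ∀ ψ, T₀ A hc.le ε ψ ∈ Loc (fun i => T₀ A hc.le (t i)) a := fun ψ => by
    obtain ⟨φ, rfl⟩ := hc.cores_surj (O := O) ψ
    rw [← hc.cores_T₁]
    exact cores_loc hc (hε.1 φ)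
  refine ⟨h1, fun ψ hψ => sub_eq_zero.1 (res_inj_loc hc.le hu (sub_mem (h1 ψ) hψ) ?_)⟩
  rw [map_sub, res_T₀, hε.2 _ (res_loc hc.le hψ), sub_self]

/-- the invariants of the localisation come from the lower level -/
theorem exists_res_loc [IsFreeGroup Γ₀] [Finite (HH Γ₁ A)] {t : ι → Cen O Γ₀ Γ₁}
    (ht : ∀ i j, Commute (T₁ A (t i)) (T₁ A (t j))) {a : ι → O} {i₀ : ι}
    (hu : IsUnit (a i₀ - deg (t i₀).1)) {φ : HH Γ₁ A} (hφ : φ ∈ Loc (fun i => T₁ A (t i)) a)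
    (h : ∀ δ, hc.dia O A δ φ = φ) :
    ∃ ψ ∈ Loc (fun i => T₀ A hc.le (t i)) a, res O A hc.le ψ = φ := by
  obtain ⟨ε, -, h1, h2⟩ := exists_eps ht a i₀ hu
  obtain ⟨ψ, hψ⟩ := hc.exists_res_fixed (by rw [h1, sub_zero]; exact isUnit_one) (h2.2 φ hφ) h
  exact ⟨_, (isProj₀ hc hu h2).1 ψ, hψ⟩

/-- **freeness of the localisation over `O[Δ]`** -/
theorem free_loc [IsFreeGroup Γ₀] [Finite (HH Γ₁ A)] {p : ℕ} (hp : p.Prime)
    (hO : IsNilpotent (p : O)) (hΔ : IsPGroup p Δ) {t : ι → Cen O Γ₀ Γ₁}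
    (ht : ∀ i j, Commute (T₁ A (t i)) (T₁ A (t j))) {a : ι → O} {i₀ : ι}
    (hu : IsUnit (a i₀ - deg (t i₀).1)) {κ : Type*} [Fintype κ] {b : κ → HH Γ₀ A}
    (hli : LinearIndependent O b)
    (hsp : Submodule.span O (Set.range b) = Loc (fun i => T₀ A hc.le (t i)) a) :
    ∃ m : κ → HH Γ₁ A, (∀ i, hc.cores O A (m i) = b i) ∧
      LinearIndependent O (fun q : Δ × κ => hc.dia O A q.1 (m q.2)) ∧
      Submodule.span O (Set.range fun q : Δ × κ => hc.dia O A q.1 (m q.2)) =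
        Loc (fun i => T₁ A (t i)) a := by
  obtain ⟨ε, -, h1, h2⟩ := exists_eps ht a i₀ hu
  rw [← h2.range]
  exact hc.free hp hO hΔ (by rw [h1, sub_zero]; exact isUnit_one) h2.idem hli
    (hsp.trans (isProj₀ hc hu h2).range.symm)

/-- the same with the basis downstairs supplied -/
theorem free_loc' [IsFreeGroup Γ₀] [Group.FG Γ₀] [Finite (HH Γ₁ A)] [IsLocalRing O]
    [Module.Free O A] [Module.Finite O A] {p : ℕ} (hp : p.Prime)
    (hO : IsNilpotent (p : O)) (hΔ : IsPGroup p Δ) {t : ι → Cen O Γ₀ Γ₁}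
    (ht : ∀ i j, Commute (T₁ A (t i)) (T₁ A (t j))) {a : ι → O} {i₀ : ι}
    (hu : IsUnit (a i₀ - deg (t i₀).1)) :
    ∃ (d : ℕ) (m : Fin d → HH Γ₁ A), LinearIndependent O (fun i => hc.cores O A (m i)) ∧
      Submodule.span O (Set.range fun i => hc.cores O A (m i)) = Loc (fun i => T₀ A hc.le (t i)) a ∧
      LinearIndependent O (fun q : Δ × Fin d => hc.dia O A q.1 (m q.2)) ∧
      Submodule.span O (Set.range fun q : Δ × Fin d => hc.dia O A q.1 (m q.2)) =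
        Loc (fun i => T₁ A (t i)) a := by
  obtain ⟨ε, -, -, h2⟩ := exists_eps ht a i₀ hu
  have := moduleFree_HH (O := O) (A := A) (Γ := Γ₀)
  have := moduleFinite_HH (O := O) (A := A) (Γ := Γ₀)
  obtain ⟨d, b, h3, h4⟩ := (isProj₀ hc hu h2).exists_basis
  obtain ⟨m, h5, h6⟩ := free_loc hc hp hO hΔ ht hu h3 h4
  exact ⟨d, m, by simpa only [h5] using h3, by simpa only [h5] using h4, h6⟩

end cen

section concrete

variable {L : ℕ} {H H' : Subgroup (ZMod L)ˣ} (O : Type*) [CommRing O] (A : Type*) [AddCommGroup A]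
  [Module O A]

/-- `T_p` as an element of `Cen` (zero if `p` is not prime) -/
def Tc (h : H ≤ H') (p : ℕ) : Cen O (Gq L H') (Gq L H) :=
  if hp : p.Prime then ⟨Tp O L p, cen_of h (Tp_cen hp)⟩ else 0

/-- `⟨n⟩` as an element of `Cen` -/
def Dc (h : H ≤ H') (n : ℤ) : Cen O (Gq L H') (Gq L H) := ⟨Dia O L n, cen_of h (Dia_cen n)⟩

/-- the Hecke operator on `Hom(Γ_H(L), A)` -/
def TT (L : ℕ) (H : Subgroup (ZMod L)ˣ) (p : ℕ) : Module.End O (HH (Gq L H) A) :=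
  T₁ A (Tc O (le_refl H) p)

/-- the diamond operator on `Hom(Γ_H(L), A)` -/
def DD (L : ℕ) (H : Subgroup (ZMod L)ˣ) (n : ℤ) : Module.End O (HH (Gq L H) A) :=
  T₁ A (Dc O (le_refl H) n)

variable {O A}

lemma Tc_val (h : H ≤ H') {p : ℕ} (hp : p.Prime) : (Tc O h p).1 = Tp O L p := by
  rw [Tc, dif_pos hp]

lemma Tc_val' (h : H ≤ H') {p : ℕ} (hp : ¬ p.Prime) : (Tc O h p).1 = 0 := by
  rw [Tc, dif_neg hp]; rfl

lemma Tp_corr {p : ℕ} (hp : p.Prime) : Tp O L p ∈ Corr O (Gq L H) (Gq L H) :=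
  (cen_of le_rfl (Tp_cen hp)).1

lemma Dia_corr (n : ℤ) : Dia O L n ∈ Corr O (Gq L H) (Gq L H) := (cen_of le_rfl (Dia_cen n)).1

lemma TT_eq {p : ℕ} (hp : p.Prime) : TT O A L H p = T A ⟨Tp O L p, Tp_corr hp⟩ :=
  congrArg (T A) (Subtype.ext (Tc_val le_rfl hp))

lemma DD_eq (n : ℤ) : DD O A L H n = T A ⟨Dia O L n, Dia_corr n⟩ := rfl

lemma T₁_Tc (h : H ≤ H') (p : ℕ) : T₁ A (Tc O h p) = TT O A L H p :=
  congrArg (T A) (Subtype.ext (by
    by_cases hp : p.Prime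
    · exact (Tc_val h hp).trans (Tc_val le_rfl hp).symm
    · exact (Tc_val' h hp).trans (Tc_val' le_rfl hp).symm))

lemma T₀_Tc (h : H ≤ H') (h' : Gq L H ≤ Gq L H') (p : ℕ) : T₀ A h' (Tc O h p) = TT O A L H' p :=
  congrArg (T A) (Subtype.ext (by
    by_cases hp : p.Prime
    · exact (Tc_val h hp).trans (Tc_val le_rfl hp).symm
    · exact (Tc_val' h hp).trans (Tc_val' le_rfl hp).symm))

lemma T₁_Dc (h : H ≤ H') (n : ℤ) : T₁ A (Dc O h n) = DD O A L H n := rfl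

lemma T₀_Dc (h : H ≤ H') (h' : Gq L H ≤ Gq L H') (n : ℤ) : T₀ A h' (Dc O h n) = DD O A L H' n := rfl

lemma Tc_comm (h : H ≤ H') (p l : ℕ) :
    (Tc O h p).1 * (Tc O h l).1 - (Tc O h l).1 * (Tc O h p).1 ∈ Null O (Gq L H) := by
  by_cases hp : p.Prime
  · by_cases hl : l.Prime
    · rw [Tc_val h hp, Tc_val h hl]; exact Tp_comm hp hl
    · simp [Tc_val' h hl]
  · simp [Tc_val' h hp]

theorem TT_comm (p l : ℕ) : Commute (TT O A L H p) (TT O A L H l) := T₁_comm (Tc_comm _ p l)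

/-- every operator of `Cen` at the extreme levels commutes with the diamonds -/
theorem TT_DD_comm (p : ℕ) (n : ℤ) : Commute (TT O A L H p) (DD O A L H n) := T₁_comm (by
  by_cases hp : p.Prime
  · rw [Tc_val _ hp]; exact cen_Dia_comm (Tp_cen hp) n
  · simp [Tc_val' _ hp])

theorem DD_comm (n n' : ℤ) : Commute (DD O A L H n) (DD O A L H n') :=
  T₁_comm (cen_Dia_comm (Dia_cen n) n')

lemma DD_eq_one {n : ℤ} (h : dU L (sg L n) ∈ H) : DD O A L H n = 1 :=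
  (T_congr (c := ⟨_, Dia_corr n⟩) (c' := ⟨1, one_mem_corr le_rfl⟩)
    (e_mul_sub_one (mem_Gq_iff.2 ⟨sg_mem L n, h⟩))).trans T_one

/-- the diamond operators of a covering are the `DD` -/
lemma dia_eq_DD {Δ : Type*} [CommGroup Δ] {χ : (ZMod L)ˣ →* Δ}
    (hc : Cov (χ.comp (dch L H')) (Gq L H)) {n : ℤ} (hn : dU L (sg L n) ∈ H') :
    hc.dia O A (χ (dU L (sg L n))) = DD O A L H n :=
  hc.dia_π ⟨sg L n, mem_Gq_iff.2 ⟨sg_mem L n, hn⟩⟩

lemma deg_Tc (h : H ≤ H') {p : ℕ} (hp : p.Prime) (hL : ¬ p ∣ L) : deg (Tc O h p).1 = p + 1 := by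
  rw [Tc_val h hp, deg_Tp hL]

end concrete

end Crest.Agent.T15.Lv

end
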