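import Crest.Agent.T15.CgH_84
import Crest.Agent.T15.Gw_84
import Crest.Agent.T15.CgB_84
import Crest.Agent.T15.LvL_10
import Crest.Agent.T15.Bc_18

/-!
# Row 15, block T: Galois action and Hecke operators on `Hom(Γ, C)` (helper84)

`j : V →+ HH Γ C` injective; `ActK n j σ u` : `u` is the action of `σ ∈ Aut ℂ` on Kummer classes.
`comm_V`, `es_V`, `inert_V`; for `ρ : Gal →* End V`: `gal_comm`, `gal_Tp`, `gal_e`, `gal_unr`, `gal_es`.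
-/

set_option autoImplicit false
set_option linter.unusedSectionVars false

noncomputable section

namespace Crest.Agent.T15.Cg

open scoped NNReal MatrixGroups
open CongruenceSubgroup NumberField
open Crest.Agent.T15.Hs Crest.Agent.T15.Mf Crest.Agent.T15.Lv Crest.Agent.T15.Bet
open Crest.Agent.T15.Hk Crest.Agent.R018.Placesx484

variable {n : ℕ} [NeZero n] {A : Type*} [AddCommGroup A] [Finite A] {V : Type*} [AddCommGroup V]

/-- `u` is the action of `σ` on Kummer classes -/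
def ActK (n : ℕ) [NeZero n] {Γ : Subgroup GQ} (j : V →+ HH Γ A) (σ : ℂ ≃+* ℂ) (u : V → V) : Prop :=
  ∀ (l : A →+ ZMod n) (x : V) (f : FF), IsK n Γ f (l.comp (j x)) →
    IsK n Γ (σ • f) (l.comp (j (u x)))

section gen

variable {Γ : Subgroup GQ} {j : V →+ HH Γ A} (hm : ∀ c : A, n • c = 0) (hj : Function.Injective j)
  (hex : ∀ φ : HH Γ (ZMod n), ∃ f, IsK n Γ f φ)

include hm hj hex

theorem ActK.unique {σ : ℂ ≃+* ℂ} {u u' : V → V} (hu : ActK n j σ u) (hu' : ActK n j σ u') (x : V) :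
    u x = u' x := hj (Bc.HH_sep hm fun l => by
  obtain ⟨f, hf⟩ := hex (l.comp (j x))
  exact (hu l x f hf).unique (hu' l x f hf))

theorem comm_V {σ : ℂ ≃+* ℂ} {u : V → V} (hu : ActK n j σ u) (c : Corr ℤ Γ Γ)
    (hc : ∀ f : FF, f ≠ 0 → (∀ γ ∈ Γ, γ • f = f) → σ • nrm c.1 f = nrm c.1 (σ • f)) {t : V → V}
    (ht : ∀ x, j (t x) = T A c (j x)) (x : V) : u (t x) = t (u x) :=
  hj (Bc.HH_sep hm fun l => by
    obtain ⟨f, hf⟩ := hex (l.comp (j x))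
    have h1 := hu l (t x) _ (by rw [ht, ← Bc.comp_T]; exact hf.corr c)
    have h2 := (hu l x f hf).corr c
    rw [hc f hf.ne hf.fixed] at h1
    rw [ht, ← Bc.comp_T]
    exact h1.unique h2)

theorem inert_V {v : Valuation ℂ ℝ≥0} {E : Set (HH Γ (ZMod n))} (hI : Inj v n Γ E)
    (hE : ∀ (l : A →+ ZMod n) x, l.comp (j x) ∈ E) {τ : ℂ ≃+* ℂ}
    (hτ : ∀ c, v c ≤ 1 → v (τ c - c) < 1) {u : V → V} (hu : ActK n j τ u) (x : V) : u x = x :=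
  hj (Bc.HH_sep hm fun l => by
    obtain ⟨f, hf⟩ := hex (l.comp (j x))
    refine inert_K hI (isG v) hτ hf (hu l x f hf) ?_
    rw [← AddMonoidHom.comp_sub, ← map_sub]
    exact hE l _)

end gen

variable {L : ℕ} {H : Subgroup (ZMod L)ˣ}

theorem es_V {j : V →+ HH (Gq L H) A} (hm : ∀ c : A, n • c = 0) (hj : Function.Injective j)
    (hex : ∀ φ : HH (Gq L H) (ZMod n), ∃ f, IsK n _ f φ) {v : Valuation ℂ ℝ≥0}
    {E : Set (HH (Gq L H) (ZMod n))} (hI : Inj v n _ E)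
    (hE : ∀ (l : A →+ ZMod n) x, l.comp (j x) ∈ E) {p : ℕ} (hp : p.Prime) (hpL : ¬ p ∣ L)
    (hv : v (p : ℂ) < 1) {σ : ℂ ≃+* ℂ} (hσv : ∀ c, v (σ c) = v c)
    (hσ : ∀ c, v c ≤ 1 → v (σ c - c ^ p) < 1) {u u' t d : V → V} (hu : ActK n j σ u)
    (hu' : ActK n j σ⁻¹ u') (ht : ∀ x, j (t x) = T A ⟨Tp ℤ L p, Tp_corr hp⟩ (j x))
    (hd : ∀ x, j (d x) = T A ⟨Dia ℤ L p, Dia_corr _⟩ (j x)) (x : V) :
    t x = u x + p • u' (d x) :=
  hj (Bc.HH_sep hm fun l => by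
    obtain ⟨f, hf⟩ := hex (l.comp (j x))
    have e : l.comp (j (u x + p • u' (d x))) = l.comp (j (u x)) + p • l.comp (j (u' (d x))) := by
      rw [map_add, map_nsmul, AddMonoidHom.comp_add]
      exact congrArg _ (AddMonoidHom.ext fun γ => map_nsmul l p _)
    rw [e]
    refine es_K hI (isG v) hp hpL hv hσv hσ hf
      (by rw [ht, ← Bc.comp_T]; exact hf.corr ⟨Tp ℤ L p, Tp_corr hp⟩) (hu l x f hf)
      (hu' l (d x) _ (by rw [hd, ← Bc.comp_T]; exact hf.corr ⟨Dia ℤ L p, Dia_corr _⟩)) ?_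
    rw [← e, ← AddMonoidHom.comp_sub, ← map_sub]
    exact hE l _)

lemma neg_one_notMem (h4 : 4 ∣ L) (hH : ∀ u ∈ H, ZMod.unitsMap h4 u = 1) :
    (-1 : SL(2, ℤ)) ∉ GH L H := fun h => by
  have := ((Gamma1_mem _ _).1 (GH_le_G4 h4 hH h)).1
  revert this
  simp only [Matrix.SpecialLinearGroup.coe_neg, Matrix.SpecialLinearGroup.coe_one, Matrix.neg_apply,
    Matrix.one_apply_eq]
  decide

theorem hex_Gq (hL : L ≠ 0) (h4 : 4 ∣ L) (hH : ∀ u ∈ H, ZMod.unitsMap h4 u = 1)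
    (φ : HH (Gq L H) (ZMod n)) : ∃ f, IsK n _ f φ :=
  exists_of_hom' hL Gamma_le_GH (neg_one_notMem h4 hH) φ

section O

variable {O : Type*} [CommRing O] [Module O A]

lemma T_int {G : Type*} [Group G] {Γ Γ' : Subgroup G} (c : Corr O Γ Γ') (c' : Corr ℤ Γ Γ')
    (h : c.1 = Hk.bc O c'.1) (φ : HH Γ A) : T A c φ = T A c' φ := by
  rw [← T_bc (O' := O) c' φ]
  congr 2
  exact Subtype.ext h

lemma TT_int {p : ℕ} (hp : p.Prime) (φ : HH (Gq L H) A) :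
    TT O A L H p φ = T A ⟨Tp ℤ L p, Tp_corr hp⟩ φ := by
  rw [TT_eq hp]
  exact T_int _ _ (bc_Tp p).symm φ

lemma DD_int (m : ℤ) (φ : HH (Gq L H) A) : DD O A L H m φ = T A ⟨Dia ℤ L m, Dia_corr m⟩ φ := by
  rw [DD_eq]
  exact T_int _ _ (bc_Dia m).symm φ

variable [Module O V] {Ω : Type} [Field Ω] [CharZero Ω] [IsGalois ℚ Ω] [IsAlgClosed Ω]
  {ι : Ω →+* ℂ} {ρ : (Ω ≃ₐ[ℚ] Ω) →* Module.End O V} {j : V →+ HH (Gq L H) A}
  (hm : ∀ c : A, n • c = 0) (hj : Function.Injective j)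
  (hex : ∀ φ : HH (Gq L H) (ZMod n), ∃ f, IsK n _ f φ) (hρ : ∀ σ, ActK n j σ (ρ (resA ι σ)))

include hm hj hex hρ

theorem gal_comm (c : Corr ℤ (Gq L H) (Gq L H))
    (hc : ∀ (σ : ℂ ≃+* ℂ) (f : FF), f ≠ 0 → (∀ γ ∈ Gq L H, γ • f = f) →
      σ • nrm c.1 f = nrm c.1 (σ • f)) {t : Module.End O V} (ht : ∀ x, j (t x) = T A c (j x))
    (g : Ω ≃ₐ[ℚ] Ω) : Commute (ρ g) t := by
  obtain ⟨σ, rfl⟩ := resA_surjective ι g
  exact LinearMap.ext fun x => comm_V hm hj hex (hρ σ) c (hc σ) ht x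

theorem gal_Tp (hL : L ≠ 0) {p : ℕ} (hp : p.Prime) {t : Module.End O V}
    (ht : ∀ x, j (t x) = TT O A L H p (j x)) (g : Ω ≃ₐ[ℚ] Ω) : Commute (ρ g) t :=
  gal_comm hm hj hex hρ ⟨Tp ℤ L p, Tp_corr hp⟩ (fun σ _ h0 hf => aut_Tp hL hp.ne_zero σ h0 hf)
    (fun x => by rw [ht, TT_int hp]) g

theorem gal_DD (hL : L ≠ 0) (m : ℤ) {t : Module.End O V}
    (ht : ∀ x, j (t x) = DD O A L H m (j x)) (g : Ω ≃ₐ[ℚ] Ω) : Commute (ρ g) t :=
  gal_comm hm hj hex hρ ⟨Dia ℤ L m, Dia_corr m⟩ (fun σ _ _ hf => aut_Dia hL σ m hf)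
    (fun x => by rw [ht, DD_int]) g

/-- conjugation by an element of `Γ₀(L)` -/
theorem gal_conj (hL : L ≠ 0) {s : GQ} (hs : s ∈ Gq L ⊤) {t : Module.End O V}
    (ht : ∀ x, ∀ γ ∈ Gq L H, val (j (t x)) γ = val (j x) (s * γ * s⁻¹)) (g : Ω ≃ₐ[ℚ] Ω) :
    Commute (ρ g) t :=
  gal_comm hm hj hex hρ ⟨e ℤ s, e_mem_corr fun _ h => conj_mem hs h⟩
    (fun σ _ _ hf => aut_e hL σ hs hf)
    (fun x => HH.ext fun γ hγ => by rw [ht x γ hγ, val_T_e _ _ hγ (conj_mem hs hγ)]) g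

variable {E : Set (HH (Gq L H) (ZMod n))} (hE : ∀ (l : A →+ ZMod n) x, l.comp (j x) ∈ E)
  (P : Place Ω) (hI : Inj (vC ι P) n _ E)

include hE hI

/-- unramified -/
theorem gal_unr : P.ideal.inertia (Ω ≃ₐ[ℚ] Ω) ≤ ρ.ker := fun g hg => by
  have h1 : g ∈ MulAction.stabilizer (Ω ≃ₐ[ℚ] Ω) P :=
    frob_mem P one_ne_zero fun x => by rw [pow_one]; exact hg x
  rw [MonoidHom.mem_ker, show g = resA ι (lft ι P ⟨g, h1⟩) from (resA_lft ι P ⟨g, h1⟩).symm]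
  exact LinearMap.ext fun x => inert_V hm hj hex hI hE (fun c hc => vC_lft_sub ι P ⟨g, h1⟩ hg hc)
    (hρ _) x

/-- **Eichler–Shimura** -/
theorem gal_es (hL : L ≠ 0) (hPL : ¬ P.rchar ∣ L) {s : Ω ≃ₐ[ℚ] Ω}
    (hs : ∀ x : 𝓞 Ω, s • x - x ^ P.rchar ∈ P.ideal)
    {t d : Module.End O V} (ht : ∀ x, j (t x) = TT O A L H P.rchar (j x))
    (hd : ∀ x, j (d x) = DD O A L H P.rchar (j x)) : ρ s + (P.rchar : O) • (d * ρ s⁻¹) = t := by
  have hp := P.rchar_prime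
  have h1 : s ∈ MulAction.stabilizer (Ω ≃ₐ[ℚ] Ω) P := frob_mem P hp.ne_zero hs
  rw [← (gal_DD hm hj hex hρ hL _ hd s⁻¹).eq,
    show s = resA ι (lft ι P ⟨s, h1⟩) from (resA_lft ι P ⟨s, h1⟩).symm, ← map_inv]
  refine LinearMap.ext fun x => ?_
  rw [LinearMap.add_apply, LinearMap.smul_apply, Nat.cast_smul_eq_nsmul, Module.End.mul_apply]
  exact (es_V hm hj hex hI hE hp hPL (vC_rchar_lt_one ι P) (vC_lft ι P _)
    (fun c hc => vC_lft_sub_pow ι P ⟨s, h1⟩ _ hs hc) (hρ _) (hρ _)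
    (fun x => by rw [ht, TT_int hp]) (fun x => by rw [hd, DD_int]) x).symm

end O

end Crest.Agent.T15.Cg

end
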