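import Mathlib

/-!
# T15 / HsA (helper79): Hahn series `R((q^ℚ))`, the operators `q^r ↦ q^{ar}`, `q^r ↦ e(r) q^r`,
coefficientwise maps, power series in `q^{1/M}`
-/

set_option autoImplicit false
set_option linter.all false

noncomputable section

namespace Crest.Agent.T15.Hs

/-- Hahn series with rational exponents -/
abbrev HS (R : Type*) [Zero R] : Type _ := HahnSeries ℚ R

variable {R S : Type*} [CommRing R] [CommRing S]

theorem coeff_mul_of {x y : HS R} {s t : Set ℚ} (hs : s.IsPWO) (ht : t.IsPWO)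
    (hx : x.support ⊆ s) (hy : y.support ⊆ t) (a : ℚ) :
    (x * y).coeff a = ∑ ij ∈ Finset.antidiagonal hs ht a, x.coeff ij.1 * y.coeff ij.2 := by
  rw [HahnSeries.coeff_mul_left' hs hx]
  refine Finset.sum_subset (fun p hp => ?_) (fun p hp hp' => ?_)
  · rw [Finset.mem_antidiagonal] at hp ⊢
    exact ⟨hp.1, hy hp.2.1, hp.2.2⟩
  · rw [Finset.mem_antidiagonal] at hp hp'
    have : y.coeff p.2 = 0 := by
      by_contra h
      exact hp' ⟨hp.1, h, hp.2.2⟩
    rw [this, mul_zero]

/-- coefficientwise ring map -/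
def hm (f : R →+* S) : HS R →+* HS S where
  toFun x := x.map f
  map_one' := by
    ext r
    rw [HahnSeries.map_coeff, HahnSeries.coeff_one, HahnSeries.coeff_one]
    split_ifs <;> simp
  map_mul' x y := HahnSeries.map_mul (f : R →ₙ+* S)
  map_zero' := by ext r; simp
  map_add' x y := by ext r; simp

@[simp] theorem coeff_hm (f : R →+* S) (x : HS R) (r : ℚ) : (hm f x).coeff r = f (x.coeff r) := rfl

theorem hm_C (f : R →+* S) (c : R) : hm f (HahnSeries.C c) = HahnSeries.C (f c) :=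
  HahnSeries.map_C c f

theorem hm_comp {T : Type*} [CommRing T] (f : R →+* S) (g : S →+* T) (x : HS R) :
    hm g (hm f x) = hm (g.comp f) x := by ext r; rfl

theorem hm_id (x : HS R) : hm (RingHom.id R) x = x := by ext r; rfl

theorem hm_injective {f : R →+* S} (hf : Function.Injective f) : Function.Injective (hm f) := by
  intro x y h
  ext r
  exact hf (congrArg (fun z : HS S => z.coeff r) h)

open Classical in
/-- `q^r ↦ q^{a r}` (for `0 < a`; the identity otherwise) -/
def sc (a : ℚ) : HS R →+* HS R :=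
  if h : 0 < a then
    HahnSeries.embDomainRingHom (AddMonoidHom.mulLeft a) (mul_right_injective₀ h.ne')
      (fun g g' => mul_le_mul_iff_right₀ h)
  else RingHom.id _

theorem coeff_sc_mul {a : ℚ} (ha : 0 < a) (x : HS R) (r : ℚ) :
    (sc a x).coeff (a * r) = x.coeff r := by
  unfold sc
  rw [dif_pos ha]
  exact HahnSeries.embDomain_mk_coeff (f := AddMonoidHom.mulLeft a) (mul_right_injective₀ ha.ne')
    (fun g g' => mul_le_mul_iff_right₀ ha)

theorem coeff_sc {a : ℚ} (ha : 0 < a) (x : HS R) (r : ℚ) : (sc a x).coeff r = x.coeff (r / a) := by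
  rw [← coeff_sc_mul ha x (r / a), mul_div_cancel₀ _ ha.ne']

theorem sc_one (x : HS R) : sc 1 x = x := by
  ext r; rw [coeff_sc one_pos, div_one]

theorem sc_sc {a b : ℚ} (ha : 0 < a) (hb : 0 < b) (x : HS R) : sc a (sc b x) = sc (a * b) x := by
  ext r
  rw [coeff_sc ha, coeff_sc hb, coeff_sc (mul_pos ha hb), div_div]

theorem sc_injective {a : ℚ} (ha : 0 < a) : Function.Injective (sc a : HS R → HS R) := by
  intro x y h
  ext r
  rw [← coeff_sc_mul ha x, h, coeff_sc_mul ha]

theorem sc_single {a : ℚ} (ha : 0 < a) (r : ℚ) (c : R) :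
    sc a (HahnSeries.single r c) = HahnSeries.single (a * r) c := by
  ext t
  rw [coeff_sc ha, HahnSeries.coeff_single, HahnSeries.coeff_single]
  have : t / a = r ↔ t = a * r := by rw [div_eq_iff ha.ne', mul_comm]
  by_cases h : t = a * r
  · rw [if_pos h, if_pos (this.mpr h)]
  · rw [if_neg h, if_neg (fun h' => h (this.mp h'))]

theorem sc_C {a : ℚ} (ha : 0 < a) (c : R) : sc a (HahnSeries.C c : HS R) = HahnSeries.C c := by
  rw [HahnSeries.C_apply, sc_single ha, mul_zero]

theorem hm_sc (f : R →+* S) {a : ℚ} (ha : 0 < a) (x : HS R) : hm f (sc a x) = sc a (hm f x) := by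
  ext r
  rw [coeff_hm, coeff_sc ha, coeff_sc ha, coeff_hm]

/-- `q^r ↦ e r • q^r` for a character `e` of `ℚ` -/
def tw (e : Multiplicative ℚ →* R) : HS R →+* HS R where
  toFun x := ⟨fun r => e (Multiplicative.ofAdd r) * x.coeff r, x.isPWO_support.mono fun r hr => by
    rw [Function.mem_support] at hr
    exact fun h => hr (by rw [h, mul_zero])⟩
  map_one' := by
    ext r
    show e (Multiplicative.ofAdd r) * (1 : HS R).coeff r = _
    rw [HahnSeries.coeff_one]
    split_ifs with h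
    · rw [h, ofAdd_zero, map_one, mul_one]
    · rw [mul_zero]
  map_mul' x y := by
    ext r
    rw [coeff_mul_of x.isPWO_support y.isPWO_support]
    · show e (Multiplicative.ofAdd r) * (x * y).coeff r = _
      rw [HahnSeries.coeff_mul, Finset.mul_sum]
      refine Finset.sum_congr rfl fun p hp => ?_
      rw [Finset.mem_antidiagonal] at hp
      show _ = e (Multiplicative.ofAdd p.1) * x.coeff p.1 * (e (Multiplicative.ofAdd p.2) * y.coeff p.2)
      rw [← hp.2.2, ofAdd_add, map_mul]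
      ring
    · intro t ht
      rw [HahnSeries.mem_support] at ht ⊢
      exact fun h => ht (by show e _ * x.coeff t = 0; rw [h, mul_zero])
    · intro t ht
      rw [HahnSeries.mem_support] at ht ⊢
      exact fun h => ht (by show e _ * y.coeff t = 0; rw [h, mul_zero])
  map_zero' := by ext r; show e _ * (0 : HS R).coeff r = _; simp
  map_add' x y := by
    ext r
    show e _ * (x + y).coeff r = e _ * x.coeff r + e _ * y.coeff r
    rw [HahnSeries.coeff_add, mul_add]

@[simp] theorem coeff_tw (e : Multiplicative ℚ →* R) (x : HS R) (r : ℚ) :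
    (tw e x).coeff r = e (Multiplicative.ofAdd r) * x.coeff r := rfl

theorem tw_C (e : Multiplicative ℚ →* R) (c : R) : tw e (HahnSeries.C c : HS R) = HahnSeries.C c := by
  ext r
  rw [coeff_tw, HahnSeries.C_apply, HahnSeries.coeff_single]
  split_ifs with h
  · rw [h, ofAdd_zero, map_one, one_mul]
  · rw [mul_zero]

theorem hm_tw (f : R →+* S) (e : Multiplicative ℚ →* R) (x : HS R) :
    hm f (tw e x) = tw ((f : R →* S).comp e) (hm f x) := by
  ext r
  simp

/-- power series in `q^{1/M}` -/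
def hq (M : ℕ) : PowerSeries R →+* HS R := (sc (1 / (M : ℚ))).comp (HahnSeries.ofPowerSeries ℚ R)

theorem inv_pos' {M : ℕ} (hM : M ≠ 0) : (0 : ℚ) < 1 / (M : ℚ) := by
  have : (0 : ℚ) < M := by exact_mod_cast Nat.pos_of_ne_zero hM
  positivity

theorem coeff_hq {M : ℕ} (hM : M ≠ 0) (p : PowerSeries R) (n : ℕ) :
    (hq M p).coeff ((n : ℚ) / M) = PowerSeries.coeff n p := by
  rw [div_eq_mul_one_div, mul_comm]
  show (sc _ _).coeff _ = _
  rw [coeff_sc_mul (inv_pos' hM), HahnSeries.ofPowerSeries_apply_coeff]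

/-- the support lies in `(1/M) ℕ` -/
def Lev (M : ℕ) (x : HS R) : Prop := ∀ r, x.coeff r ≠ 0 → ∃ n : ℕ, r = (n : ℚ) / M

theorem lev_hq {M : ℕ} (hM : M ≠ 0) (p : PowerSeries R) : Lev M (hq M p) := by
  intro r hr
  have h1 : (hq M p).coeff r = (HahnSeries.ofPowerSeries ℚ R p).coeff (r / (1 / (M : ℚ))) :=
    coeff_sc (inv_pos' hM) _ r
  rw [h1, HahnSeries.ofPowerSeries_apply] at hr
  have h2 : r / (1 / (M : ℚ)) ∈ Set.range (Nat.castOrderEmbedding (α := ℚ)) := by
    by_contra h
    exact hr (HahnSeries.embDomain_of_notMem_range h)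
  obtain ⟨n, hn⟩ := h2
  have hM' : (M : ℚ) ≠ 0 := by exact_mod_cast hM
  refine ⟨n, ?_⟩
  have : (n : ℚ) = r / (1 / (M : ℚ)) := hn
  rw [this]
  field_simp

theorem Lev.mul_right {M : ℕ} {x : HS R} (h : Lev M x) {N : ℕ} (hN : N ≠ 0) : Lev (M * N) x := by
  intro r hr
  obtain ⟨n, rfl⟩ := h r hr
  have hN' : (N : ℚ) ≠ 0 := by exact_mod_cast hN
  exact ⟨n * N, by push_cast; rw [mul_div_mul_right _ _ hN']⟩

theorem Lev.ext {M : ℕ} {x y : HS R} (hx : Lev M x) (hy : Lev M y)
    (h : ∀ n : ℕ, x.coeff ((n : ℚ) / M) = y.coeff ((n : ℚ) / M)) : x = y := by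
  ext r
  by_cases hr : ∃ n : ℕ, r = (n : ℚ) / M
  · obtain ⟨n, rfl⟩ := hr
    exact h n
  · have h1 : x.coeff r = 0 := by by_contra h'; exact hr (hx r h')
    have h2 : y.coeff r = 0 := by by_contra h'; exact hr (hy r h')
    rw [h1, h2]

theorem Lev.eq_hq {M : ℕ} (hM : M ≠ 0) {x : HS R} (hx : Lev M x) :
    x = hq M (PowerSeries.mk fun n => x.coeff ((n : ℚ) / M)) :=
  hx.ext (lev_hq hM _) fun n => by rw [coeff_hq hM, PowerSeries.coeff_mk]

theorem hq_injective {M : ℕ} (hM : M ≠ 0) : Function.Injective (hq M : PowerSeries R → HS R) := by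
  intro p p' h
  ext n
  rw [← coeff_hq hM, h, coeff_hq hM]

theorem hq_C {M : ℕ} (hM : M ≠ 0) (c : R) : hq M (PowerSeries.C c) = HahnSeries.C c := by
  show sc _ _ = _
  rw [HahnSeries.ofPowerSeries_C, sc_C (inv_pos' hM)]

theorem hq_smul {M : ℕ} (hM : M ≠ 0) (c : R) (p : PowerSeries R) :
    hq M (c • p) = HahnSeries.C c * hq M p := by
  rw [← hq_C hM, ← map_mul, PowerSeries.smul_eq_C_mul]

theorem Lev.hm {M : ℕ} {x : HS R} (h : Lev M x) (f : R →+* S) : Lev M (hm f x) :=
  fun r hr => h r fun h0 => hr (by rw [coeff_hm, h0, map_zero])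

theorem Lev.tw {M : ℕ} {x : HS R} (h : Lev M x) (e : Multiplicative ℚ →* R) : Lev M (tw e x) :=
  fun r hr => h r fun h0 => hr (by rw [coeff_tw, h0, mul_zero])

theorem Lev.sc {M : ℕ} {x : HS R} (h : Lev M x) {a : ℚ} (ha : 0 < a) : Lev (M * a.den) (sc a x) := by
  intro r hr
  rw [coeff_sc ha] at hr
  obtain ⟨n, hn⟩ := h _ hr
  have hd : (a.den : ℚ) ≠ 0 := by exact_mod_cast a.den_ne_zero
  have hnum : (0 : ℤ) ≤ a.num := (Rat.num_pos.mpr ha).le
  refine ⟨n * a.num.toNat, ?_⟩
  have h1 : ((a.num.toNat : ℕ) : ℚ) = a * a.den := by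
    rw [Rat.mul_den_eq_num, ← Int.cast_natCast, Int.toNat_of_nonneg hnum]
  rw [div_eq_iff ha.ne'] at hn
  push_cast
  rw [h1, hn, ← mul_assoc, mul_div_mul_right _ _ hd, div_mul_eq_mul_div]

theorem hm_hq {M : ℕ} (hM : M ≠ 0) (f : R →+* S) (p : PowerSeries R) :
    hm f (hq M p) = hq M (PowerSeries.map f p) :=
  ((lev_hq hM p).hm f).ext (lev_hq hM _) fun n => by
    rw [coeff_hm, coeff_hq hM, coeff_hq hM, PowerSeries.coeff_map]

end Crest.Agent.T15.Hs
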