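import Crest.Agent.T15.Desc_48
import Crest.Agent.T15.MfB_79
import Crest.Agent.R007.RatFin

/-!
# Row 15, block T (helper48): the action of `Aut ℂ` on modular functions is smooth
-/

set_option autoImplicit false

noncomputable section

namespace Crest.Agent.T15.Desc

open UpperHalfPlane ModularForm CongruenceSubgroup Matrix.SpecialLinearGroup
open scoped MatrixGroups
open Crest.Agent.R007 Crest.Agent.R007.Rat Crest.Agent.T15.Mf Crest.Agent.T15.Hs
open Crest.Agent.T15.Cg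

/-- qualitative Sturm bound -/
theorem exists_sturm (M : ℕ) [NeZero M] (k : ℤ) : ∃ B : ℕ, ∀ F : ℍ → ℂ, IsF M k F →
    (∀ n < B, PowerSeries.coeff n (qe M F) = 0) → F = 0 := by
  let W : ℕ → Submodule ℂ (FS M k) := fun B =>
    { carrier := {F | ∀ n < B, PowerSeries.coeff n (qe M F.1) = 0}
      add_mem' := fun {F G} hF hG n hn => by
        rw [Submodule.coe_add, Rat.qe_add F.2 G.2, map_add, hF n hn, hG n hn, add_zero]
      zero_mem' := fun n _ => by rw [Submodule.coe_zero, Rat.qe_zero, map_zero]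
      smul_mem' := fun c F hF n hn => by
        rw [Submodule.coe_smul, Rat.qe_smul F.2, map_smul, hF n hn, smul_zero] }
  obtain ⟨B, hB⟩ := IsArtinian.monotone_stabilizes (R := ℂ) (M := FS M k)
    ⟨fun B => OrderDual.toDual (W B), fun a b hab F hF n hn => hF n (hn.trans_le hab)⟩
  refine ⟨B, fun F hF h => (Rat.qe_eq_zero_iff hF).1 (PowerSeries.ext fun n => ?_)⟩
  have e : W B = W (max B (n + 1)) := hB _ (le_max_left _ _)
  have h1 : (⟨F, hF⟩ : FS M k) ∈ W B := h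
  rw [e] at h1
  rw [map_zero]
  exact h1 n (lt_max_of_lt_right n.lt_succ_self)

theorem smooth_form {M : ℕ} (hM : M ≠ 0) {k : ℤ} {F : ℍ → ℂ} (hF : IsF M k F) :
    ∃ S : Finset ℂ, ∀ σ : ℂ →+* ℂ, (∀ a ∈ S, σ a = a) → hm σ (qf F) = qf F := by
  classical
  have hM3 : M * 3 ≠ 0 := mul_ne_zero hM (by norm_num)
  have : NeZero (M * 3) := ⟨hM3⟩
  have hF3 : IsF (M * 3) k F := level_mul_left (N := 3) hF
  obtain ⟨B, hB⟩ := exists_sturm (M * 3) k
  refine ⟨(Finset.range B).image fun n => PowerSeries.coeff n (qe (M * 3) F), fun σ hσ => ?_⟩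
  obtain ⟨s, hs⟩ := exists_zpow_zeta σ (M * 3)
  obtain ⟨F', hF'⟩ := exists_gal (σ := σ) (by omega) hs hF3
  have h1 := qf_of_cjT hM3 hF' (Tw.one s _)
  have h2 := hF'.eq 1 1 (Tw.one s _)
  simp only [SlashAction.slash_one] at h1 h2
  have h3 : F' + (-1 : ℂ) • F = 0 := hB _ (hF'.right.add (hF3.smul _)) fun n hn => by
    rw [Rat.qe_add hF'.right (hF3.smul _), Rat.qe_smul hF3, map_add, map_smul, h2,
      PowerSeries.coeff_map, hσ _ (Finset.mem_image_of_mem _ (Finset.mem_range.2 hn))]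
    simp
  rw [← h1, show F' = F by rw [neg_one_smul, ← sub_eq_add_neg, sub_eq_zero] at h3; exact h3]

/-- **smoothness**: a modular function is fixed by the stabiliser of a finite set -/
theorem smooth_gal (x : FF) :
    ∃ S : Finset ℂ, ∀ σ : ℂ →+* ℂ, (∀ a ∈ S, σ a = a) → gal σ x = x := by
  classical
  obtain ⟨M, k, F, G, hM, hF, hG, -, rfl⟩ := exists_quo x
  obtain ⟨S, hS⟩ := smooth_form hM hF
  obtain ⟨T, hT⟩ := smooth_form hM hG
  refine ⟨S ∪ T, fun σ hσ => qx_injective ?_⟩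
  rw [qx_gal, qx_quo hM hF hG, map_div₀, hS σ fun a ha => hσ a (Finset.mem_union_left _ ha),
    hT σ fun a ha => hσ a (Finset.mem_union_right _ ha)]

theorem smooth (x : FF) :
    ∃ S : Finset ℂ, ∀ σ : ℂ ≃+* ℂ, (∀ a ∈ S, σ a = a) → σ • x = x :=
  let ⟨S, hS⟩ := smooth_gal x
  ⟨S, fun σ hσ => hS (σ : ℂ →+* ℂ) hσ⟩

variable {E : Type} [Field E] [CharZero E] [IsGalois ℚ E] [IsAlgClosed E] (ι : E →+* ℂ)

/-- a linear action read on modular functions (possibly twisted by the action on a root of unity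
`ζ`) descends to `Gal(E/ℚ)` -/
theorem desc_FF {O V : Type*} [CommSemiring O] [AddCommMonoid V] [Module O V] [Module.Finite O V]
    (φ : (ℂ ≃+* ℂ) →* Module.End O V) (S : Finset ℂ)
    (h : ∀ v : V, ∃ T : Finset FF, ∀ σ : ℂ ≃+* ℂ, (∀ a ∈ S, σ a = a) → (∀ f ∈ T, σ • f = f) →
      φ σ v = v) :
    ∃ ρ : (E ≃ₐ[ℚ] E) →* Module.End O V, (∀ σ, ρ (resA ι σ) = φ σ) ∧
      IsOpen (ρ.ker : Set (E ≃ₐ[ℚ] E)) ∧
      ∃ K : IntermediateField ℚ E, FiniteDimensional ℚ K ∧ IsGalois ℚ K ∧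
        K.fixingSubgroup ≤ ρ.ker := by
  classical
  refine desc_end ι φ fun v => ?_
  obtain ⟨T, hT⟩ := h v
  obtain ⟨S', hS'⟩ := exists_common (X := T) (fun f σ => σ • f.1 = f.1) fun f => smooth f.1
  exact ⟨S ∪ S', fun σ hσ => hT σ (fun a ha => hσ a (Finset.mem_union_left _ ha)) fun f hf =>
    hS' σ (fun a ha => hσ a (Finset.mem_union_right _ ha)) ⟨f, hf⟩⟩

end Crest.Agent.T15.Desc

end
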