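import Crest.Agent.T15.BetAz_91
import Crest.Agent.T15.CgI_84
import Crest.Agent.T15.Sm_48

/-!
# T15 / BetAct (helper91): the Galois action on `Hom(Γ_H(M), A)`
-/

set_option autoImplicit false

noncomputable section

namespace Crest.Agent.T15.Bet

open Crest.Agent.T15.Mf Crest.Agent.T15.Lv Crest.Agent.T15.Hk Crest.Agent.T15.Cg

theorem exists_act {E : Type} [Field E] [CharZero E] [IsGalois ℚ E] [IsAlgClosed E] (ι : E →+* ℂ)
    {M : ℕ} {H : Subgroup (ZMod M)ˣ} (hM : M ≠ 0) (h4 : 4 ∣ M)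
    (hH : ∀ u ∈ H, ZMod.unitsMap h4 u = 1) (n : ℕ) [NeZero n] (O A : Type*) [CommRing O]
    [AddCommGroup A] [Module O A] [Finite A] (hm : ∀ c : A, n • c = 0) :
    ∃ ρ : (E ≃ₐ[ℚ] E) →* Module.End O (HH (Gq M H) A),
      (∀ σ, ActK n (AddMonoidHom.id _) σ (ρ (resA ι σ))) ∧ IsOpen (ρ.ker : Set (E ≃ₐ[ℚ] E)) := by
  classical
  have : NeZero M := ⟨hM⟩
  have := fg_Gq h4 hH
  have := fin_HH (Γ := Gq M H) A
  have : Module.Finite O (HH (Gq M H) A) := Module.Finite.of_finite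
  have : Fintype (A →+ ZMod n) := Fintype.ofFinite _
  obtain ⟨g, hg⟩ := exists_galH (n := n) hM (GH_le_G4 h4 hH)
  obtain ⟨ρ, h1, h2, -⟩ := Desc.desc_FF ι ((Bc.bcE O hm (Gq M H)).toMonoidHom.comp g) ∅ fun v => by
    choose x hx using fun l : A →+ ZMod n => hex_Gq hM h4 hH (l.comp v)
    refine ⟨Finset.univ.image x, fun σ _ hσ => Bc.HH_sep hm fun l => ?_⟩
    have := hg σ _ _ (hx l)
    rw [hσ _ (Finset.mem_image_of_mem x (Finset.mem_univ l))] at this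
    exact (Bc.comp_bcE (O := O) hm (g σ) v l).trans (this.unique (hx l))
  refine ⟨ρ, fun σ l x f hf => ?_, h2⟩
  rw [h1]
  exact (Bc.comp_bcE (O := O) hm (g σ) x l).symm ▸ hg σ _ f hf

end Crest.Agent.T15.Bet
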