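import Crest.Agent.T15.Hk_62

/-!
# Row 15, block T: correspondences preserve parabolic homomorphisms (helper84)
-/

set_option autoImplicit false
set_option linter.unusedSectionVars false

noncomputable section

namespace Crest.Agent.T15.Cg

open Crest.Agent.T15.Hk

variable {G : Type*} [Group G] {O : Type*} [CommRing O] {A : Type*} [AddCommGroup A] [Module O A]
  {Γ Γ' : Subgroup G}

/-- a model which is invariant under right multiplication by `B` -/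
theorem exists_model (φ : HH Γ A) (B : Subgroup G)
    (h : ∀ g, ∀ b ∈ B, g * b * g⁻¹ ∈ Γ → val φ (g * b * g⁻¹) = 0) :
    ∃ Φ : G → A, IsMod φ Φ ∧ ∀ g, ∀ b ∈ B, Φ (g * b) = Φ g := by
  let s : Setoid G := DoubleCoset.setoid (Γ : Set G) (B : Set G)
  have h1 : ∀ g : G, ∃ δ ∈ Γ, ∃ b ∈ B, g = δ * (Quotient.mk s g).out * b := fun g =>
    DoubleCoset.rel_iff.1 (Quotient.exact (Quotient.out_eq (Quotient.mk s g)))
  choose δ hδ b hb e using h1
  have key : ∀ (x : G) {d d' c c' : G}, d ∈ Γ → d' ∈ Γ → c ∈ B → c' ∈ B →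
      d * x * c = d' * x * c' → val φ d = val φ d' := fun x d d' c c' hd hd' hc hc' he => by
    have h2 : d'⁻¹ * d = x * (c' * c⁻¹) * x⁻¹ := by
      rw [← mul_inv_eq_iff_eq_mul, ← mul_inv_eq_iff_eq_mul] at he
      rw [← he]; group
    have h3 := Γ.mul_mem (Γ.inv_mem hd') hd
    have h4 := h x _ (B.mul_mem hc' (B.inv_mem hc)) (h2 ▸ h3)
    rw [← h2, val_mul φ (Γ.inv_mem hd') hd, val_inv φ hd'] at h4
    exact (neg_add_eq_zero.1 h4).symm
  refine ⟨fun g => val φ (δ g), fun γ hγ g => ?_, fun g c hc => ?_⟩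
  · have h2 : Quotient.mk s (γ * g) = Quotient.mk s g :=
      (Quotient.sound (DoubleCoset.rel_iff.2 ⟨γ, hγ, 1, B.one_mem, by simp⟩)).symm
    beta_reduce
    rw [← val_mul φ hγ (hδ g)]
    refine key (Quotient.mk s g).out (hδ _) (Γ.mul_mem hγ (hδ g)) (hb (γ * g)) (hb g) ?_
    rw [mul_assoc γ, mul_assoc γ, ← e g, ← h2, ← e]
  · have h2 : Quotient.mk s (g * c) = Quotient.mk s g :=
      (Quotient.sound (DoubleCoset.rel_iff.2 ⟨1, Γ.one_mem, c, hc, by simp⟩)).symm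
    refine key (Quotient.mk s g).out (hδ _) (hδ g) (hb (g * c)) (B.mul_mem (hb g) hc) ?_
    rw [← mul_assoc, ← e g, ← h2, ← e]

theorem val_T_eq_zero (c : Corr O Γ Γ') (φ : HH Γ A) (B : Subgroup G)
    (h : ∀ g, ∀ b ∈ B, g * b * g⁻¹ ∈ Γ → val φ (g * b * g⁻¹) = 0) {γ : G} (hγ : γ ∈ Γ')
    (hB : γ ∈ B) : val (T A c φ) γ = 0 := by
  obtain ⟨Φ, h1, h2⟩ := exists_model φ B h
  rw [val_T c φ hγ, h1.ev_eq (c.2 γ hγ), map_sub, lin_mul_e]
  simp only [h2 _ γ hB, sub_self]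

/-- homomorphisms which vanish on all conjugates of elements of `B` -/
def ParH (O : Type*) [CommRing O] (B Γ : Subgroup G) (A : Type*) [AddCommGroup A] [Module O A] :
    Submodule O (HH Γ A) where
  carrier := {φ | ∀ g, ∀ b ∈ B, g * b * g⁻¹ ∈ Γ → val φ (g * b * g⁻¹) = 0}
  add_mem' {φ ψ} h h' g b hb hg := by rw [val_add, h g b hb hg, h' g b hb hg, add_zero]
  zero_mem' g b _ _ := val_zero _
  smul_mem' r φ h g b hb hg := by rw [val_smul, h g b hb hg, smul_zero]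

lemma mem_parH {B : Subgroup G} {φ : HH Γ A} : φ ∈ ParH O B Γ A ↔
    ∀ g, ∀ b ∈ B, g * b * g⁻¹ ∈ Γ → val φ (g * b * g⁻¹) = 0 := Iff.rfl

/-- **correspondences preserve parabolic homomorphisms** -/
theorem T_mem_parH {B : Subgroup G} (c : Corr O Γ Γ') {φ : HH Γ A} (h : φ ∈ ParH O B Γ A) :
    T A c φ ∈ ParH O B Γ' A := fun g b hb hg => by
  refine val_T_eq_zero c φ (B.map (MulAut.conj g).toMonoidHom) ?_ hg ⟨b, hb, rfl⟩
  rintro x _ ⟨b', hb', rfl⟩ hx
  have e : x * (MulAut.conj g).toMonoidHom b' * x⁻¹ = x * g * b' * (x * g)⁻¹ := by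
    simp [mul_assoc]
  rw [e] at hx ⊢
  exact h _ b' hb' hx

/-- the same for a set of elements stable under powers and conjugation -/
theorem val_T_of_stable {S : Set G} (hS : ∀ γ ∈ S, ∀ (g : G) (m : ℤ), g * γ ^ m * g⁻¹ ∈ S)
    (c : Corr O Γ Γ') {φ : HH Γ A} (h : ∀ γ ∈ Γ, γ ∈ S → val φ γ = 0) :
    ∀ γ ∈ Γ', γ ∈ S → val (T A c φ) γ = 0 := fun γ hγ hs => by
  refine val_T_eq_zero c φ (Subgroup.zpowers γ) ?_ hγ (Subgroup.mem_zpowers γ)
  rintro g _ ⟨m, rfl⟩ hg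
  exact h _ hg (hS γ hs g m)

end Crest.Agent.T15.Cg

end
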