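import Crest.Agent.T15.Hk_62

/-!
# Row 15, block T (helper62): freeness of `Hom(Γ₁, O)_𝔪` over `O[Δ]`

`Γ₀` free, `π : Γ₀ → Δ` onto with kernel `Γ₁` (`Cov π Γ₁`), `Δ` a finite commutative `p`-group, `p`
nilpotent in `O`.  `Cen O Γ₀ Γ₁` = the correspondences commuting with `Γ₀` modulo `Null Γ₁`.
-/

set_option autoImplicit false
set_option linter.unusedSectionVars false

noncomputable section

namespace Crest.Agent.T15.Hk

open Finset

variable {G : Type*} [Group G] {O : Type*} [CommRing O]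
variable {A B : Type*} [AddCommGroup A] [Module O A] [AddCommGroup B] [Module O B]
variable {Γ₀ Γ₁ : Subgroup G}

lemma e_mul_sub_one {Γ : Subgroup G} {γ : G} (hγ : γ ∈ Γ) : e O γ - 1 ∈ Null O Γ := by
  simpa using e_mul_sub_mem (O := O) hγ 1

/-- correspondences of level `Γ₁` which commute with the diamond operators of `Γ₀` -/
def Cen (O : Type*) [CommRing O] (Γ₀ Γ₁ : Subgroup G) : Subalgebra O (MonoidAlgebra O G) where
  carrier := {t | t ∈ Corr O Γ₁ Γ₁ ∧ ∀ γ ∈ Γ₀, t * e O γ - e O γ * t ∈ Null O Γ₁}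
  mul_mem' {a b} ha hb := ⟨corr_mul ha.1 hb.1, fun γ hγ => by
    have := (Null O Γ₁).add_mem (corr_mul_null ha.1 (hb.2 γ hγ)) (null_mul (ha.2 γ hγ) b)
    rwa [show a * (b * e O γ - e O γ * b) + (a * e O γ - e O γ * a) * b =
      a * b * e O γ - e O γ * (a * b) by noncomm_ring] at this⟩
  add_mem' {a b} ha hb := ⟨(Corr O Γ₁ Γ₁).add_mem ha.1 hb.1, fun γ hγ => by
    have := (Null O Γ₁).add_mem (ha.2 γ hγ) (hb.2 γ hγ)
    rwa [show a * e O γ - e O γ * a + (b * e O γ - e O γ * b) =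
      (a + b) * e O γ - e O γ * (a + b) by noncomm_ring] at this⟩
  algebraMap_mem' r := ⟨by
    rw [Algebra.algebraMap_eq_smul_one]
    exact (Corr O Γ₁ Γ₁).smul_mem r (one_mem_corr le_rfl), fun γ _ => by
    rw [Algebra.commutes, sub_self]; exact zero_mem _⟩

lemma cen_corr₁ {t : MonoidAlgebra O G} (ht : t ∈ Cen O Γ₀ Γ₁) : t ∈ Corr O Γ₁ Γ₁ := ht.1

lemma cen_comm {t : MonoidAlgebra O G} (ht : t ∈ Cen O Γ₀ Γ₁) {γ : G} (hγ : γ ∈ Γ₀) :
    t * e O γ - e O γ * t ∈ Null O Γ₁ := ht.2 γ hγ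

lemma cen_corr₀ (h : Γ₁ ≤ Γ₀) {t : MonoidAlgebra O G} (ht : t ∈ Cen O Γ₀ Γ₁) :
    t ∈ Corr O Γ₀ Γ₀ := fun γ hγ => by
  have := (Null O Γ₀).add_mem (null_mono h (ht.2 γ hγ)) (e_mul_sub_mem hγ t)
  rwa [sub_add_sub_cancel] at this

lemma mem_cen (h : Γ₁ ≤ Γ₀) {t : MonoidAlgebra O G}
    (ht : ∀ γ ∈ Γ₀, t * e O γ - e O γ * t ∈ Null O Γ₁) : t ∈ Cen O Γ₀ Γ₁ :=
  ⟨fun γ hγ => by
    have := (Null O Γ₁).add_mem (ht γ (h hγ)) (e_mul_sub_mem hγ t)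
    rwa [sub_add_sub_cancel] at this, ht⟩

/-- membership from a family -/
lemma sum_mem_cen (h : Γ₁ ≤ Γ₀) {ι : Type*} [Fintype ι] {α : ι → G}
    (hα : ∀ γ ∈ Γ₀, ∃ σ : ι ≃ ι, ∀ i, α i * γ * (α (σ i))⁻¹ * γ⁻¹ ∈ Γ₁) :
    ∑ i, e O (α i) ∈ Cen O Γ₀ Γ₁ := mem_cen h fun γ hγ => by
  obtain ⟨σ, hσ⟩ := hα γ hγ
  simp only [sum_mul, mul_sum, ← e_mul]
  exact sum_sub_mem σ fun i => by simpa [mul_assoc] using hσ i

lemma cen_bc {O' : Type*} [CommRing O'] [Algebra O O'] {t : MonoidAlgebra O G}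
    (ht : t ∈ Cen O Γ₀ Γ₁) : bc O' t ∈ Cen O' Γ₀ Γ₁ :=
  ⟨corr_bc ht.1, fun γ hγ => by simpa using null_bc (O' := O') (ht.2 γ hγ)⟩

/-- action at the upper level -/
def T₁ (A : Type*) [AddCommGroup A] [Module O A] (t : Cen O Γ₀ Γ₁) : Module.End O (HH Γ₁ A) :=
  T A ⟨t.1, t.2.1⟩

/-- action at the lower level -/
def T₀ (A : Type*) [AddCommGroup A] [Module O A] (h : Γ₁ ≤ Γ₀) (t : Cen O Γ₀ Γ₁) :
    Module.End O (HH Γ₀ A) := T A ⟨t.1, cen_corr₀ h t.2⟩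

/-- restriction -/
def res (O : Type*) [CommRing O] (A : Type*) [AddCommGroup A] [Module O A] (h : Γ₁ ≤ Γ₀) :
    HH Γ₀ A →ₗ[O] HH Γ₁ A := T A ⟨1, one_mem_corr h⟩

lemma val_res (h : Γ₁ ≤ Γ₀) (φ : HH Γ₀ A) {γ : G} (hγ : γ ∈ Γ₁) :
    val (res O A h φ) γ = val φ γ := val_T_one h φ hγ

lemma res_T₀ (h : Γ₁ ≤ Γ₀) (t : Cen O Γ₀ Γ₁) (φ : HH Γ₀ A) :
    res O A h (T₀ A h t φ) = T₁ A t (res O A h φ) := by
  rw [res, T₀, T₁, T_mul, T_mul]
  exact LinearMap.congr_fun (T_congr (by simp)) φ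

/-- on the kernel of the restriction, `t` acts by its degree -/
lemma T₀_of_res (h : Γ₁ ≤ Γ₀) (t : Cen O Γ₀ Γ₁) {φ : HH Γ₀ A} (hφ : res O A h φ = 0) :
    T₀ A h t φ = deg t.1 • φ := HH.ext fun γ hγ => by
  have h1 : ev O φ (t.1 * e O γ - e O γ * t.1) = 0 :=
    null_lin (t.2.2 γ hγ) fun δ hδ g => by
      rw [isMod_mdl φ δ (h hδ), ← val_res (O := O) h φ hδ, hφ, val_zero, zero_add]
  have h2 := ev_mul φ (e_sub_mem (O := O) (Γ := Γ₀) (g := γ) (h := 1) (by simpa using hγ)) t.1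
  rw [ev_e_sub φ (by simpa using hγ), inv_one, mul_one, sub_mul, e_one, one_mul] at h2
  rw [T₀, val_T _ _ hγ, val_smul, ← h2, ← zero_add (ev O φ (e O γ * t.1 - t.1)), ← h1, ← map_add,
    sub_add_sub_cancel]

variable {Δ : Type*} [CommGroup Δ]

/-- `π` is onto with kernel `Γ₁` -/
structure Cov (π : Γ₀ →* Δ) (Γ₁ : Subgroup G) : Prop where
  le : Γ₁ ≤ Γ₀
  surj : Function.Surjective π
  ker : ∀ γ : Γ₀, π γ = 1 ↔ γ.1 ∈ Γ₁

namespace Cov
variable {π : Γ₀ →* Δ} (hc : Cov π Γ₁)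
include hc

/-- a section -/
def s (δ : Δ) : Γ₀ := Function.surjInv hc.surj δ

lemma π_s (δ : Δ) : π (hc.s δ) = δ := Function.surjInv_eq _ _

lemma mem_of_eq {γ γ' : Γ₀} (h : π γ = π γ') : γ.1 * γ'.1⁻¹ ∈ Γ₁ :=
  (hc.ker (γ * γ'⁻¹)).1 (by simp [h])

lemma conj_mem (g : Γ₀) {γ : G} (hγ : γ ∈ Γ₁) : g.1 * γ * g.1⁻¹ ∈ Γ₁ :=
  (hc.ker (g * ⟨γ, hc.le hγ⟩ * g⁻¹)).1 (by simp [(hc.ker ⟨γ, hc.le hγ⟩).2 hγ])

lemma e_cen (g : Γ₀) : e O g.1 ∈ Cen O Γ₀ Γ₁ := mem_cen hc.le fun γ hγ => by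
  rw [← e_mul, ← e_mul]
  exact e_sub_mem (hc.mem_of_eq (γ := g * ⟨γ, hγ⟩) (γ' := ⟨γ, hγ⟩ * g) (by simp [mul_comm]))

variable (O A) in
/-- diamond operators -/
def dia : Δ →* Module.End O (HH Γ₁ A) where
  toFun δ := T₁ A ⟨e O (hc.s δ).1, hc.e_cen _⟩
  map_one' := by
    refine Eq.trans (T_congr ?_) T_one
    exact e_mul_sub_one ((hc.ker _).1 (hc.π_s 1))
  map_mul' δ δ' := LinearMap.ext fun φ => by
    rw [Module.End.mul_apply, T₁, T₁, T₁, T_mul]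
    refine LinearMap.congr_fun (T_congr ?_) φ
    simp only [← e_mul]
    exact e_sub_mem (hc.mem_of_eq (γ' := hc.s δ' * hc.s δ) (by simp [hc.π_s, mul_comm]))

lemma dia_π (g : Γ₀) : hc.dia O A (π g) = T₁ A ⟨e O g.1, hc.e_cen g⟩ := by
  refine T_congr ?_
  exact e_sub_mem (hc.mem_of_eq (hc.π_s _))

lemma val_dia (g : Γ₀) (φ : HH Γ₁ A) {γ : G} (hγ : γ ∈ Γ₁) :
    val (hc.dia O A (π g) φ) γ = val φ (g.1 * γ * g.1⁻¹) := by
  rw [dia_π]; exact val_T_e _ φ hγ (hc.conj_mem g hγ)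

lemma dia_T₁ (δ : Δ) (t : Cen O Γ₀ Γ₁) (φ : HH Γ₁ A) :
    hc.dia O A δ (T₁ A t φ) = T₁ A t (hc.dia O A δ φ) := by
  change T A _ (T A _ φ) = T A _ (T A _ φ)
  rw [T_mul, T_mul]
  refine LinearMap.congr_fun (T_congr ?_) φ
  exact t.2.2 _ (hc.s δ).2

lemma dia_res (δ : Δ) (φ : HH Γ₀ A) : hc.dia O A δ (res O A hc.le φ) = res O A hc.le φ := by
  change T A _ (T A _ φ) = T A _ φ
  rw [T_mul]
  refine LinearMap.congr_fun (T_congr ?_) φ
  simpa using e_mul_sub_mem (O := O) (hc.s δ).2 1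

/-- **extension lemma** -/
lemma exists_res (t : Cen O Γ₀ Γ₁) {φ : HH Γ₁ A} (hφ : ∀ δ, hc.dia O A δ φ = φ) :
    ∃ ψ, res O A hc.le ψ = T₁ A t φ - deg t.1 • φ := by
  have h1 : ∀ γ ∈ Γ₀, ∀ z ∈ Null O Γ₁, ev O φ (e O γ * z) = ev O φ z := fun γ hγ z hz => by
    have := ev_T ⟨_, (hc.e_cen (O := O) ⟨γ, hγ⟩).1⟩ φ hz
    rw [← this]
    congr 2
    exact (LinearMap.congr_fun (hc.dia_π ⟨γ, hγ⟩) φ).symm.trans (hφ _)
  refine ⟨Hk.mk Γ₀ (fun γ => ev O φ (t.1 * e O γ - e O γ * t.1)) fun γ hγ γ' hγ' => ?_,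
    HH.ext fun γ hγ => ?_⟩
  · rw [← ev_mul_e φ (t.2.2 γ hγ) γ', ← h1 γ hγ _ (t.2.2 γ' hγ'), ← map_add, e_mul]
    congr 1; noncomm_ring
  · have h2 := ev_mul φ (e_sub_mem (O := O) (Γ := Γ₁) (g := γ) (h := 1) (by simpa using hγ)) t.1
    rw [ev_e_sub φ (by simpa using hγ), inv_one, mul_one, sub_mul, e_one, one_mul] at h2
    rw [val_res _ _ hγ, val_mk _ _ (hc.le hγ), val_sub, val_smul, T₁, val_T _ _ hγ, ← h2, ← map_sub,
      sub_sub_sub_cancel_right]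

variable [Fintype Δ]

lemma sum_corr : ∑ δ, e O (hc.s δ).1 ∈ Corr O Γ₁ Γ₀ := sum_mem_corr fun γ hγ =>
  ⟨Equiv.mulRight (π ⟨γ, hγ⟩), fun δ =>
    hc.mem_of_eq (γ := hc.s δ * ⟨γ, hγ⟩) (by simp [hc.π_s])⟩

variable (O A) in
/-- corestriction -/
def cores : HH Γ₁ A →ₗ[O] HH Γ₀ A := T A ⟨_, hc.sum_corr (O := O)⟩

lemma res_cores (φ : HH Γ₁ A) : res O A hc.le (hc.cores O A φ) = ∑ δ, hc.dia O A δ φ := by
  have : ∑ δ, hc.dia O A δ φ = T A (∑ δ, ⟨e O (hc.s δ).1, (hc.e_cen _).1⟩) φ := by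
    rw [T_sum, LinearMap.sum_apply]; rfl
  rw [this, res, cores, T_mul]
  exact LinearMap.congr_fun (T_congr (by simp)) φ

lemma cores_T₁ (t : Cen O Γ₀ Γ₁) (φ : HH Γ₁ A) :
    hc.cores O A (T₁ A t φ) = T₀ A hc.le t (hc.cores O A φ) := by
  rw [cores, T₀, T₁, T_mul, T_mul]
  refine LinearMap.congr_fun (T_congr ?_) φ
  simp only [mul_sum, sum_mul, ← sum_sub_distrib]
  exact Submodule.sum_mem _ fun δ _ => t.2.2 _ (hc.s δ).2

lemma cores_dia (δ : Δ) (φ : HH Γ₁ A) : hc.cores O A (hc.dia O A δ φ) = hc.cores O A φ := by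
  change T A _ (T A _ φ) = T A _ φ
  rw [T_mul]
  refine LinearMap.congr_fun (T_congr ?_) φ
  simp only [mul_sum, ← e_mul]
  exact sum_sub_mem (Equiv.mulLeft δ) fun d =>
    hc.mem_of_eq (γ := hc.s δ * hc.s d) (by simp [hc.π_s])

lemma cores_res (φ : HH Γ₀ A) : hc.cores O A (res O A hc.le φ) = Fintype.card Δ • φ := by
  refine HH.ext fun γ hγ => ?_
  rw [res, cores, T_mul, val_T _ _ hγ]
  simp only [one_mul, sum_mul, ← e_mul, ← sum_sub_distrib, map_sum]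
  rw [val_smul, ← card_univ, ← sum_const]
  refine sum_congr rfl fun δ _ => ?_
  rw [ev_e_sub φ (Γ₀.mul_mem (Γ₀.mul_mem (hc.s δ).2 hγ) (Γ₀.inv_mem (hc.s δ).2)),
    val_mul _ (Γ₀.mul_mem (hc.s δ).2 hγ) (Γ₀.inv_mem (hc.s δ).2), val_mul _ (hc.s δ).2 hγ,
    val_inv _ (hc.s δ).2]
  abel

/-- **Shapiro**: the corestriction from a free group is onto -/
theorem cores_surj [IsFreeGroup Γ₀] : Function.Surjective (hc.cores O A) := by
  classical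
  intro ψ
  let W := (Δ → Multiplicative A) ⋊[mulAutArrow] Δ
  let ρ : Γ₀ →* W := IsFreeGroup.lift fun b =>
    ⟨Pi.mulSingle 1 (Multiplicative.ofAdd (val ψ (IsFreeGroup.of b : Γ₀).1)), π (IsFreeGroup.of b)⟩
  have h1 : ∀ γ, (ρ γ).right = π γ := fun γ => DFunLike.congr_fun
    (IsFreeGroup.ext_hom (f := SemidirectProduct.rightHom.comp ρ) (g := π) fun b => by
      simp [ρ]) γ
  let S : W →* Multiplicative A :=
    { toFun := fun w => ∏ d, w.left d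
      map_one' := by simp [W]
      map_mul' := fun w w' => by
        simp only [W, SemidirectProduct.mul_left, Pi.mul_apply, prod_mul_distrib]
        congr 1
        exact Equiv.prod_comp (Equiv.mulLeft w.right⁻¹) w'.left }
  let ψ' : Γ₀ →* Multiplicative A :=
    { toFun := fun γ => Multiplicative.ofAdd (val ψ γ.1)
      map_one' := by simp
      map_mul' := fun γ γ' => by simp [val_mul ψ γ.2 γ'.2] }
  have h2 : ∀ γ, ∏ d, (ρ γ).left d = ψ' γ := fun γ => DFunLike.congr_fun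
    (IsFreeGroup.ext_hom (f := S.comp ρ) (g := ψ') fun b => by simp [ρ, S, ψ']) γ
  let u : G → A := fun g => if h : g ∈ Γ₀ then ((ρ ⟨g, h⟩).left 1).toAdd else 0
  have h3 : ∀ g g' : Γ₀, u (g.1 * g'.1) = u g.1 + ((ρ g').left (π g)⁻¹).toAdd := fun g g' => by
    simp only [u, dif_pos (Γ₀.mul_mem g.2 g'.2), dif_pos g.2]
    rw [show (⟨g.1 * g'.1, Γ₀.mul_mem g.2 g'.2⟩ : Γ₀) = g * g' from rfl, map_mul,
      SemidirectProduct.mul_left, h1, Pi.mul_apply, toAdd_mul]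
    congr 2
    change (ρ g').left ((π g)⁻¹ • (1 : Δ)) = _
    simp
  have h4 : ∀ γ ∈ Γ₁, ∀ g ∈ Γ₀, u (γ * g) = u γ + u g := fun γ hγ g hg => by
    rw [h3 ⟨γ, hc.le hγ⟩ ⟨g, hg⟩, (hc.ker ⟨γ, hc.le hγ⟩).2 hγ, inv_one]
    simp only [u, dif_pos hg]
  let χ : HH Γ₁ A := Hk.mk Γ₁ u fun γ hγ γ' hγ' => h4 γ hγ γ' (hc.le hγ')
  have h5 : IsMod χ fun g => if g ∈ Γ₀ then u g else mdl χ g := fun γ hγ g => by
    by_cases hg : g ∈ Γ₀
    · simp only [if_pos hg, if_pos (Γ₀.mul_mem (hc.le hγ) hg), h4 γ hγ g hg]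
      rw [val_mk _ _ hγ]
    · have : γ * g ∉ Γ₀ := fun h => hg ((Γ₀.mul_mem_cancel_left (hc.le hγ)).1 h)
      simp only [if_neg hg, if_neg this, isMod_mdl χ γ hγ g]
  refine ⟨χ, HH.ext fun γ hγ => ?_⟩
  rw [cores, val_T _ _ hγ, h5.ev_eq (hc.sum_corr γ hγ)]
  simp only [sum_mul, ← e_mul, map_sub, lin_sum_e, if_pos (hc.s _).2,
    if_pos (Γ₀.mul_mem (hc.s _).2 hγ)]
  have h6 : ∀ δ, u ((hc.s δ).1 * γ) = u (hc.s δ).1 + ((ρ ⟨γ, hγ⟩).left δ⁻¹).toAdd := fun δ => by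
    rw [h3 (hc.s δ) ⟨γ, hγ⟩, hc.π_s]
  simp only [h6, sum_add_distrib, add_sub_cancel_left]
  rw [← toAdd_prod, show ∏ d, (ρ ⟨γ, hγ⟩).left d⁻¹ = _ from
    Equiv.prod_comp (Equiv.inv Δ) (ρ ⟨γ, hγ⟩).left, h2]
  rfl

end Cov

/-! ### modules over `O[Δ]` -/

section mod
variable {V : Type*} [AddCommGroup V] [Module O V] {p : ℕ}

lemma nilp (hp : p.Prime) (hO : IsNilpotent (p : O)) (hΔ : IsPGroup p Δ)
    (ρ : Δ →* Module.End O V) (δ : Δ) : IsNilpotent (ρ δ - 1) := by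
  obtain ⟨k, hk⟩ := hΔ δ
  obtain ⟨r, hr⟩ := (Commute.one_right (ρ δ - 1)).exists_add_pow_prime_pow_eq hp k
  rw [sub_add_cancel, ← map_pow, hk, map_one, one_pow, add_right_comm, eq_comm, add_eq_right,
    add_eq_zero_iff_eq_neg, mul_assoc, mul_assoc] at hr
  refine IsNilpotent.of_pow (m := p ^ k) ?_
  rw [hr]
  refine ((Nat.cast_commute p _).isNilpotent_mul_right ?_).neg
  simpa using hO.map (algebraMap O (Module.End O V))

lemma exists_fixed [Fintype Δ] (ρ : Δ →* Module.End O V) (hn : ∀ δ, IsNilpotent (ρ δ - 1))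
    {F M : Submodule O V} (hF : ∀ δ, ∀ v ∈ F, ρ δ v ∈ F) (hM : ∀ δ, ∀ v ∈ M, ρ δ v ∈ M) {v : V}
    (hv : v ∈ M) (hv' : v ∉ F) : ∃ w ∈ M, w ∉ F ∧ ∀ δ, ρ δ w - w ∈ F := by
  classical
  suffices h : ∀ s : Finset Δ, ∃ w ∈ M, w ∉ F ∧ ∀ δ ∈ s, ρ δ w - w ∈ F by
    obtain ⟨w, h1, h2, h3⟩ := h univ
    exact ⟨w, h1, h2, fun δ => h3 δ (mem_univ δ)⟩
  intro s
  induction s using Finset.induction_on with
  | empty => exact ⟨v, hv, hv', by simp⟩
  | insert a s _ ih =>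
    obtain ⟨w, h1, h2, h3⟩ := ih
    by_contra hc
    have key : ∀ k : ℕ, ((ρ a - 1) ^ k) w ∈ M ∧ ((ρ a - 1) ^ k) w ∉ F ∧
        ∀ δ ∈ s, ρ δ (((ρ a - 1) ^ k) w) - ((ρ a - 1) ^ k) w ∈ F := by
      intro k
      induction k with
      | zero => exact ⟨h1, h2, h3⟩
      | succ k ih =>
        obtain ⟨a1, a2, a3⟩ := ih
        rw [pow_succ', Module.End.mul_apply]
        generalize ((ρ a - 1) ^ k) w = x at a1 a2 a3
        rw [LinearMap.sub_apply, Module.End.one_apply]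
        refine ⟨M.sub_mem (hM a x a1) a1, fun h => hc ⟨x, a1, a2, fun δ hδ => ?_⟩, fun δ hδ => ?_⟩
        · rcases mem_insert.1 hδ with rfl | hδ
          exacts [h, a3 δ hδ]
        · have := F.sub_mem (hF a _ (a3 δ hδ)) (a3 δ hδ)
          rw [map_sub, ← Module.End.mul_apply, ← map_mul, mul_comm, map_mul,
            Module.End.mul_apply] at this
          rw [map_sub]
          convert this using 1
          abel
    obtain ⟨k, hk⟩ := hn a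
    exact (key k).2.1 (by simp [hk])

/-- the regular representation on `Δ × ι → O` -/
def reg (O : Type*) [CommRing O] (Δ ι : Type*) [CommGroup Δ] : Δ →* Module.End O (Δ × ι → O) where
  toFun δ := LinearMap.funLeft O O fun q => (δ⁻¹ * q.1, q.2)
  map_one' := by ext x q; simp
  map_mul' δ δ' := by ext x q; simp [mul_assoc, mul_left_comm]

lemma reg_apply {ι : Type*} (δ : Δ) (x : Δ × ι → O) (q : Δ × ι) :
    reg O Δ ι δ x q = x (δ⁻¹ * q.1, q.2) := rfl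

/-- **freeness criterion**: the norms of the `m i` are a basis of the invariants -/
theorem free_of_inv [Fintype Δ] (hp : p.Prime) (hO : IsNilpotent (p : O)) (hΔ : IsPGroup p Δ)
    (ρ : Δ →* Module.End O V) {M : Submodule O V} (hM : ∀ δ, ∀ v ∈ M, ρ δ v ∈ M) {ι : Type*}
    [Fintype ι] {m : ι → V} (hm : ∀ i, m i ∈ M) (hli : LinearIndependent O fun i => ∑ δ, ρ δ (m i))
    (hsp : ∀ v ∈ M, (∀ δ, ρ δ v = v) → v ∈ Submodule.span O (Set.range fun i => ∑ δ, ρ δ (m i))) :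
    LinearIndependent O (fun q : Δ × ι => ρ q.1 (m q.2)) ∧
      Submodule.span O (Set.range fun q : Δ × ι => ρ q.1 (m q.2)) = M := by
  classical
  set f := Fintype.linearCombination O fun q : Δ × ι => ρ q.1 (m q.2) with hf
  have h1 : ∀ δ x, f (reg O Δ ι δ x) = ρ δ (f x) := fun δ x => by
    rw [hf, Fintype.linearCombination_apply, Fintype.linearCombination_apply, map_sum,
      ← ((Equiv.mulLeft δ).prodCongr (Equiv.refl ι)).sum_comp]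
    refine sum_congr rfl fun q _ => ?_
    simp [reg_apply]
  have h2 : Function.Injective f := by
    rw [← LinearMap.ker_eq_bot, eq_bot_iff]
    intro x hx
    by_contra hx'
    obtain ⟨w, a1, a2, a3⟩ := exists_fixed (reg O Δ ι) (nilp hp hO hΔ _) (F := ⊥)
      (M := LinearMap.ker f) (fun δ v hv => by simp [(Submodule.mem_bot O).1 hv])
      (fun δ v hv => by rw [LinearMap.mem_ker, h1, LinearMap.mem_ker.1 hv, map_zero]) hx hx'
    have a4 : ∀ q : Δ × ι, w q = w (1, q.2) := fun q => by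
      have := congrFun (sub_eq_zero.1 ((Submodule.mem_bot O).1 (a3 q.1))) q
      rw [reg_apply, inv_mul_cancel] at this
      exact this.symm
    have a5 : ∑ i, w (1, i) • ∑ δ, ρ δ (m i) = 0 := by
      rw [← LinearMap.mem_ker.1 a1, hf, Fintype.linearCombination_apply, Fintype.sum_prod_type_right]
      refine sum_congr rfl fun i _ => ?_
      rw [smul_sum]
      exact sum_congr rfl fun δ _ => by rw [a4 (δ, i)]
    exact a2 (funext fun q => by rw [a4 q]; exact Fintype.linearIndependent_iff.1 hli _ a5 q.2)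
  refine ⟨linearIndependent_iff_injective_fintypeLinearCombination.2 h2, le_antisymm ?_ ?_⟩
  · exact Submodule.span_le.2 (by rintro _ ⟨q, rfl⟩; exact hM _ _ (hm _))
  rw [← Fintype.range_linearCombination, ← hf]
  intro v hv
  by_contra hv'
  obtain ⟨w, a1, a2, a3⟩ := exists_fixed ρ (nilp hp hO hΔ _) (F := LinearMap.range f)
    (by rintro δ _ ⟨x, rfl⟩; exact ⟨_, h1 δ x⟩) hM hv hv'
  choose c hc using a3
  have a4 : ∀ δ δ', c (δ * δ') = reg O Δ ι δ (c δ') + c δ := fun δ δ' => h2 (by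
    rw [map_add, h1, hc, hc, hc, map_sub, map_mul, Module.End.mul_apply]; abel)
  let x : Δ × ι → O := fun q => c q.1⁻¹ (1, q.2)
  have a5 : ∀ δ, reg O Δ ι δ x - x = c δ := fun δ => funext fun q => by
    simp only [x, Pi.sub_apply, reg_apply, mul_inv_rev, inv_inv]
    rw [a4, Pi.add_apply, reg_apply]; simp
  have a6 : f x ∈ M := by
    rw [hf, Fintype.linearCombination_apply]
    exact M.sum_mem fun q _ => M.smul_mem _ (hM _ _ (hm _))
  have a7 := hsp (w - f x) (M.sub_mem a1 a6) fun δ => by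
    rw [map_sub, ← h1, sub_eq_sub_iff_sub_eq_sub, ← map_sub, a5, hc]
  have a8 : w - f x ∈ LinearMap.range f := by
    refine (Submodule.span_le.2 ?_ : _ ≤ LinearMap.range f) a7
    rintro _ ⟨i, rfl⟩
    refine Submodule.sum_mem _ fun δ _ => ?_
    rw [hf, Fintype.range_linearCombination]
    exact Submodule.subset_span ⟨(δ, i), rfl⟩
  exact a2 (by simpa using (LinearMap.range f).add_mem a8 ⟨x, rfl⟩)

end mod

namespace Cov
variable {π : Γ₀ →* Δ} (hc : Cov π Γ₁) [Fintype Δ]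
include hc

lemma res_inj {ε : Cen O Γ₀ Γ₁} (hd : IsUnit (1 - deg ε.1)) {φ : HH Γ₀ A}
    (h : T₀ A hc.le ε φ = φ) (h0 : res O A hc.le φ = 0) : φ = 0 := by
  rw [T₀_of_res _ _ h0] at h
  rw [← hd.smul_eq_zero, sub_smul, one_smul, h, sub_self]

lemma exists_res_fixed {ε : Cen O Γ₀ Γ₁} (hd : IsUnit (1 - deg ε.1)) {φ : HH Γ₁ A}
    (h : T₁ A ε φ = φ) (hφ : ∀ δ, hc.dia O A δ φ = φ) :
    ∃ ψ, res O A hc.le (T₀ A hc.le ε ψ) = φ := by
  obtain ⟨ψ, hψ⟩ := hc.exists_res ε hφ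
  obtain ⟨u, hu⟩ := hd.exists_left_inv
  refine ⟨u • ψ, ?_⟩
  have : u • (φ - deg ε.1 • φ) = φ := by
    nth_rw 1 [← one_smul O φ]
    rw [← sub_smul, smul_smul, hu, one_smul]
  rw [res_T₀, map_smul, hψ, h, this, h]

lemma idem₀ [IsFreeGroup Γ₀] {ε : Cen O Γ₀ Γ₁} (hε : ∀ φ, T₁ A ε (T₁ A ε φ) = T₁ A ε φ)
    (ψ : HH Γ₀ A) : T₀ A hc.le ε (T₀ A hc.le ε ψ) = T₀ A hc.le ε ψ := by
  obtain ⟨φ, rfl⟩ := hc.cores_surj (O := O) ψ
  rw [← cores_T₁, ← cores_T₁, hε]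

/-- **freeness over `O[Δ]`**: a basis of the `ε`-part downstairs lifts, under the corestriction, to an
`O[Δ]`-basis of the `ε`-part upstairs -/
theorem free [IsFreeGroup Γ₀] {p : ℕ} (hp : p.Prime) (hO : IsNilpotent (p : O))
    (hΔ : IsPGroup p Δ) {ε : Cen O Γ₀ Γ₁} (hd : IsUnit (1 - deg ε.1))
    (hε : ∀ φ, T₁ A ε (T₁ A ε φ) = T₁ A ε φ) {ι : Type*} [Fintype ι] {b : ι → HH Γ₀ A}
    (hli : LinearIndependent O b)
    (hsp : Submodule.span O (Set.range b) = LinearMap.range (T₀ A hc.le ε)) :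
    ∃ m : ι → HH Γ₁ A, (∀ i, hc.cores O A (m i) = b i) ∧
      LinearIndependent O (fun q : Δ × ι => hc.dia O A q.1 (m q.2)) ∧
      Submodule.span O (Set.range fun q : Δ × ι => hc.dia O A q.1 (m q.2)) =
        LinearMap.range (T₁ A ε) := by
  have h0 : ∀ ψ ∈ Submodule.span O (Set.range b), T₀ A hc.le ε ψ = ψ := by
    rw [hsp]; rintro _ ⟨ψ, rfl⟩; exact hc.idem₀ hε ψ
  have hs : ∀ i, ∃ φ, hc.cores O A φ = b i := fun i => hc.cores_surj (b i)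
  choose m' hm' using hs
  have h1 : ∀ i, hc.cores O A (T₁ A ε (m' i)) = b i := fun i => by
    rw [cores_T₁, hm', h0 _ (Submodule.subset_span ⟨i, rfl⟩)]
  have h2 : (fun i => ∑ δ, hc.dia O A δ (T₁ A ε (m' i))) = res O A hc.le ∘ b := funext fun i => by
    rw [← res_cores, h1]; rfl
  refine ⟨fun i => T₁ A ε (m' i), h1, free_of_inv hp hO hΔ (hc.dia O A)
    (M := LinearMap.range (T₁ A ε)) (m := fun i => T₁ A ε (m' i)) ?_
    (fun i => LinearMap.mem_range_self _ _) ?_ ?_⟩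
  · rintro δ _ ⟨φ, rfl⟩; exact ⟨_, (hc.dia_T₁ δ ε φ).symm⟩
  · rw [h2]
    exact hli.map (Submodule.disjoint_def.2 fun ψ h h' => hc.res_inj hd (h0 ψ h) h')
  · rintro _ ⟨φ, rfl⟩ h
    obtain ⟨ψ, hψ⟩ := hc.exists_res_fixed hd (hε φ) h
    rw [h2, Set.range_comp, ← Submodule.map_span, hsp, ← hψ]
    exact ⟨_, ⟨ψ, rfl⟩, rfl⟩

end Cov

end Crest.Agent.T15.Hk

end
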