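import Crest.Agent.T15.MfA_79
import Crest.Agent.T15.HkF4_62
import Crest.Agent.T15.HkFree_62

/-!
# Row 15, block T (helper10): levels and Hecke elements

* `GH L H ≤ SL(2,ℤ)` : `L ∣ c`, `d mod L ∈ H`;  `Gq L H` its image in `GQ`;
* `gm a b c d : GQ` an integral matrix of positive determinant;
* `up p i`, `dg p`, `sg L u`, `U O p`, `Tp O L p`.
-/

set_option autoImplicit false
set_option linter.unusedSectionVars false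

noncomputable section

namespace Crest.Agent.T15.Lv

open Finset CongruenceSubgroup Matrix.SpecialLinearGroup
open scoped MatrixGroups
open Crest.Agent.T15.Hk Crest.Agent.T15.Mf

variable {L : ℕ} {H H' : Subgroup (ZMod L)ˣ} {O : Type*} [CommRing O]

lemma det_eq (γ : SL(2, ℤ)) : γ 0 0 * γ 1 1 - γ 0 1 * γ 1 0 = 1 := by
  have := γ.det_coe
  rwa [Matrix.det_fin_two] at this

lemma mul_apply (γ δ : SL(2, ℤ)) (i j : Fin 2) : (γ * δ) i j = γ i 0 * δ 0 j + γ i 1 * δ 1 j := by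
  simp [Matrix.mul_apply, Fin.sum_univ_two]

lemma inv_apply (γ : SL(2, ℤ)) :
    γ⁻¹ 0 0 = γ 1 1 ∧ γ⁻¹ 0 1 = -γ 0 1 ∧ γ⁻¹ 1 0 = -γ 1 0 ∧ γ⁻¹ 1 1 = γ 0 0 := by
  simp [Matrix.SpecialLinearGroup.SL2_inv_expl]

lemma a_mul_d {γ : SL(2, ℤ)} (h : ((γ 1 0 : ℤ) : ZMod L) = 0) :
    ((γ 0 0 : ℤ) : ZMod L) * ((γ 1 1 : ℤ) : ZMod L) = 1 := by
  have := congrArg (Int.cast : ℤ → ZMod L) (det_eq γ)
  push_cast at this
  rwa [h, mul_zero, sub_zero] at this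

/-- `Γ_H(L)` -/
def GH (L : ℕ) (H : Subgroup (ZMod L)ˣ) : Subgroup SL(2, ℤ) where
  carrier := {γ | ((γ 1 0 : ℤ) : ZMod L) = 0 ∧ ∃ u ∈ H, (u : ZMod L) = ((γ 1 1 : ℤ) : ZMod L)}
  one_mem' := ⟨by simp, 1, H.one_mem, by simp⟩
  mul_mem' := by
    rintro a b ⟨ha, u, hu, hu'⟩ ⟨hb, v, hv, hv'⟩
    refine ⟨?_, u * v, H.mul_mem hu hv, ?_⟩ <;> rw [mul_apply] <;> push_cast
    · rw [ha, hb]; ring
    · rw [ha, hu', hv']; ring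
  inv_mem' := by
    rintro a ⟨ha, u, hu, hu'⟩
    refine ⟨by rw [(inv_apply a).2.2.1]; push_cast; rw [ha, neg_zero], u⁻¹, H.inv_mem hu, ?_⟩
    rw [(inv_apply a).2.2.2]
    exact Units.inv_eq_of_mul_eq_one_left (by rw [hu']; exact a_mul_d ha)

lemma mem_GH {γ : SL(2, ℤ)} : γ ∈ GH L H ↔
    ((γ 1 0 : ℤ) : ZMod L) = 0 ∧ ∃ u ∈ H, (u : ZMod L) = ((γ 1 1 : ℤ) : ZMod L) := Iff.rfl

lemma mem_GH_top {γ : SL(2, ℤ)} : γ ∈ GH L ⊤ ↔ ((γ 1 0 : ℤ) : ZMod L) = 0 :=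
  ⟨fun h => h.1, fun h => ⟨h, Units.mkOfMulEqOne _ _ ((mul_comm _ _).trans (a_mul_d h)), trivial, rfl⟩⟩

lemma mem_GH_bot {γ : SL(2, ℤ)} :
    γ ∈ GH L ⊥ ↔ ((γ 1 0 : ℤ) : ZMod L) = 0 ∧ ((γ 1 1 : ℤ) : ZMod L) = 1 :=
  ⟨fun ⟨h, u, hu, hu'⟩ => ⟨h, by rw [← hu', Subgroup.mem_bot.1 hu]; rfl⟩,
    fun h => ⟨h.1, 1, Subgroup.one_mem _, h.2.symm⟩⟩

lemma mem_GH_bot' {γ : SL(2, ℤ)} :
    γ ∈ GH L ⊥ ↔ ((γ 1 0 : ℤ) : ZMod L) = 0 ∧ ((γ 0 0 : ℤ) : ZMod L) = 1 := by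
  rw [mem_GH_bot]
  refine and_congr_right fun h => ?_
  have := a_mul_d h
  constructor <;> intro h' <;> simpa [h'] using this

lemma GH_top : GH L ⊤ = Gamma0 L := by ext γ; rw [mem_GH_top, Gamma0_mem]

lemma GH_bot : GH L ⊥ = Gamma1 L := by
  ext γ
  rw [Gamma1_mem]
  exact ⟨fun h => ⟨(mem_GH_bot'.1 h).2, (mem_GH_bot.1 h).2, h.1⟩,
    fun h => mem_GH_bot.2 ⟨h.2.2, h.2.1⟩⟩

lemma GH_mono (h : H ≤ H') : GH L H ≤ GH L H' := fun _ ⟨h1, u, hu, hu'⟩ => ⟨h1, u, h hu, hu'⟩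

lemma Gamma_le_GH : Gamma L ≤ GH L H := fun _ h =>
  GH_mono bot_le (mem_GH_bot.2 ⟨(Gamma_mem.1 h).2.2.1, (Gamma_mem.1 h).2.2.2⟩)

instance [NeZero L] : (GH L H).FiniteIndex := Subgroup.finiteIndex_of_le Gamma_le_GH

lemma isCong [NeZero L] : IsCongruenceSubgroup (GH L H) := ⟨L, NeZero.ne L, Gamma_le_GH⟩

/-- change of the level -/
lemma GH_le {L' : ℕ} (h : L ∣ L') {H' : Subgroup (ZMod L')ˣ}
    (hH : ∀ u ∈ H', ZMod.unitsMap h u ∈ H) : GH L' H' ≤ GH L H := by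
  rintro γ ⟨h1, u, hu, hu'⟩
  refine ⟨?_, _, hH u hu, ?_⟩
  · simpa using congrArg (ZMod.castHom h (ZMod L)) h1
  · rw [ZMod.unitsMap_val, hu', ZMod.cast_intCast h]

lemma GH_le_G4 (h : 4 ∣ L) (hH : ∀ u ∈ H, ZMod.unitsMap h u = 1) : GH L H ≤ Gamma1 4 := by
  rw [← GH_bot]; exact GH_le h fun u hu => Subgroup.mem_bot.2 (hH u hu)

lemma T_mem : ModularGroup.T ∈ GH L H := GH_mono bot_le (mem_GH_bot.2 (by simp [ModularGroup.T]))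

/-- the level group in `GL(2,ℚ)⁺` -/
def Gq (L : ℕ) (H : Subgroup (ZMod L)ˣ) : Subgroup GQ := (GH L H).map sq

lemma mem_Gq {g : GQ} : g ∈ Gq L H ↔ ∃ γ ∈ GH L H, Mf.sq γ = g := Iff.rfl

lemma sq_mem {γ : SL(2, ℤ)} : sq γ ∈ Gq L H ↔ γ ∈ GH L H :=
  Subgroup.mem_map_iff_mem sq_injective

lemma Gq_mono (h : H ≤ H') : Gq L H ≤ Gq L H' := Subgroup.map_mono (GH_mono h)

lemma Gq_le {L' : ℕ} (h : L ∣ L') {H' : Subgroup (ZMod L')ˣ}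
    (hH : ∀ u ∈ H', ZMod.unitsMap h u ∈ H) : Gq L' H' ≤ Gq L H := Subgroup.map_mono (GH_le h hH)

lemma free_Gq (h : 4 ∣ L) (hH : ∀ u ∈ H, ZMod.unitsMap h u = 1) : IsFreeGroup (Gq L H) :=
  free_map sq_injective (GH_le_G4 h hH)

lemma fg_Gq [NeZero L] (h : 4 ∣ L) (hH : ∀ u ∈ H, ZMod.unitsMap h u = 1) : Group.FG (Gq L H) :=
  fg_map sq (GH_le_G4 h hH)

/-! ### the character `d` -/

open Classical in
/-- the lower right entry modulo `L`, as a unit -/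
def dU (L : ℕ) (g : GQ) : (ZMod L)ˣ :=
  if h : IsUnit ((((g : GL (Fin 2) ℚ) 1 1).num : ℤ) : ZMod L) then h.unit else 1

lemma dU_sq {γ : SL(2, ℤ)} (h : γ ∈ GH L ⊤) : (dU L (sq γ) : ZMod L) = ((γ 1 1 : ℤ) : ZMod L) := by
  obtain ⟨-, u, -, hu⟩ := h
  have e : ((((sq γ : GQ) : GL (Fin 2) ℚ) 1 1).num : ℤ) = γ 1 1 := by rw [sq_apply, Rat.num_intCast]
  rw [dU, dif_pos (by rw [e, ← hu]; exact u.isUnit), IsUnit.unit_spec, e]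

lemma mem_Gq_iff {g : GQ} : g ∈ Gq L H ↔ g ∈ Gq L ⊤ ∧ dU L g ∈ H := by
  refine ⟨fun h => ⟨Gq_mono le_top h, ?_⟩, ?_⟩
  · obtain ⟨γ, hγ, rfl⟩ := h
    obtain ⟨u, hu, hu'⟩ := hγ.2
    rwa [show dU L (sq γ) = u from Units.ext ((dU_sq (GH_mono le_top hγ)).trans hu'.symm)]
  · rintro ⟨⟨γ, hγ, rfl⟩, h⟩
    exact ⟨γ, ⟨hγ.1, _, h, dU_sq hγ⟩, rfl⟩

lemma dU_mul {g g' : GQ} (h : g ∈ Gq L ⊤) (h' : g' ∈ Gq L ⊤) : dU L (g * g') = dU L g * dU L g' := by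
  obtain ⟨γ, hγ, rfl⟩ := h
  obtain ⟨γ', hγ', rfl⟩ := h'
  refine Units.ext ?_
  rw [← map_mul, Units.val_mul, dU_sq (mul_mem hγ hγ'), dU_sq hγ, dU_sq hγ', mul_apply]
  push_cast
  rw [hγ.1]; ring

/-- the character `γ ↦ d mod L` -/
def dch (L : ℕ) (H : Subgroup (ZMod L)ˣ) : Gq L H →* (ZMod L)ˣ :=
  MonoidHom.mk' (fun g => dU L g.1) fun g g' => dU_mul (Gq_mono le_top g.2) (Gq_mono le_top g'.2)

lemma dch_apply (g : Gq L H) : dch L H g = dU L g.1 := rfl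

lemma dU_one : dU L 1 = 1 := map_one (dch L ⊤)

lemma dU_inv {g : GQ} (h : g ∈ Gq L ⊤) : dU L g⁻¹ = (dU L g)⁻¹ := map_inv (dch L ⊤) ⟨g, h⟩

lemma mul_inv_mem {g g' : GQ} (h : g ∈ Gq L ⊤) (h' : g' ∈ Gq L ⊤) (e : dU L g = dU L g') :
    g * g'⁻¹ ∈ Gq L H :=
  mem_Gq_iff.2 ⟨mul_mem h (inv_mem h'), by
    rw [dU_mul h (inv_mem h'), dU_inv h', e, mul_inv_cancel]; exact one_mem _⟩

lemma conj_mem {g γ : GQ} (h : g ∈ Gq L ⊤) (hγ : γ ∈ Gq L H) : g * γ * g⁻¹ ∈ Gq L H := by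
  obtain ⟨h1, h2⟩ := mem_Gq_iff.1 hγ
  exact mem_Gq_iff.2 ⟨mul_mem (mul_mem h h1) (inv_mem h), by
    rwa [dU_mul (mul_mem h h1) (inv_mem h), dU_mul h h1, dU_inv h, mul_inv_cancel_comm]⟩

lemma exists_sg (L : ℕ) (n : ℤ) : ∃ γ : SL(2, ℤ), γ ∈ GH L ⊤ ∧
    (IsCoprime n L → γ 1 1 = n ∧ γ 1 0 = L) := by
  by_cases h : IsCoprime n L
  · obtain ⟨a, b, hab⟩ := h
    refine ⟨⟨!![a, -b; L, n], by rw [Matrix.det_fin_two_of]; linarith⟩, mem_GH_top.2 ?_,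
      fun _ => ⟨rfl, rfl⟩⟩
    simp
  · exact ⟨1, one_mem _, fun h' => (h h').elim⟩

/-- a matrix `(* *; L n)` of `Γ₀(L)` (for `n` prime to `L`) -/
def sgZ (L : ℕ) (n : ℤ) : SL(2, ℤ) := (exists_sg L n).choose

lemma sgZ_mem (L : ℕ) (n : ℤ) : sgZ L n ∈ GH L ⊤ := (exists_sg L n).choose_spec.1

lemma sgZ_d {n : ℤ} (h : IsCoprime n L) : sgZ L n 1 1 = n := ((exists_sg L n).choose_spec.2 h).1

lemma sgZ_c {n : ℤ} (h : IsCoprime n L) : sgZ L n 1 0 = L := ((exists_sg L n).choose_spec.2 h).2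

/-- the diamond matrix in `GQ` -/
def sg (L : ℕ) (n : ℤ) : GQ := sq (sgZ L n)

lemma sg_mem (L : ℕ) (n : ℤ) : sg L n ∈ Gq L ⊤ := sq_mem.2 (sgZ_mem L n)

lemma dU_sg {n : ℤ} (h : IsCoprime n L) : (dU L (sg L n) : ZMod L) = n := by
  rw [sg, dU_sq (sgZ_mem L n), sgZ_d h]

lemma dU_surj (u : (ZMod L)ˣ) : ∃ g ∈ Gq L ⊤, dU L g = u := by
  obtain ⟨n, hn⟩ := ZMod.intCast_surjective (u : ZMod L)
  have h : IsCoprime n L := by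
    rw [isCoprime_comm, ← ZMod.coe_int_isUnit_iff_isCoprime, hn]; exact u.isUnit
  exact ⟨sg L n, sg_mem L n, Units.ext ((dU_sg h).trans hn)⟩

/-- the covering attached to a character `χ` of `(ℤ/L)ˣ` -/
lemma cov {Δ : Type*} [CommGroup Δ] (χ : (ZMod L)ˣ →* Δ) (hs : ∀ δ, ∃ u ∈ H', χ u = δ)
    (hH : ∀ u, u ∈ H ↔ u ∈ H' ∧ χ u = 1) : Cov (χ.comp (dch L H')) (Gq L H) where
  le := Gq_mono fun u hu => ((hH u).1 hu).1
  surj δ := by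
    obtain ⟨u, hu, rfl⟩ := hs δ
    obtain ⟨g, hg, rfl⟩ := dU_surj u
    exact ⟨⟨g, mem_Gq_iff.2 ⟨hg, hu⟩⟩, rfl⟩
  ker γ := by
    rw [mem_Gq_iff, hH]
    have := mem_Gq_iff.1 γ.2
    exact ⟨fun h => ⟨this.1, this.2, h⟩, fun h => h.2.2⟩

/-! ### integral matrices -/

/-- the matrix `(a b; c d)` if its determinant is positive -/
def gm (a b c d : ℤ) : GQ :=
  if h : 0 < a * d - b * c then
    ⟨Matrix.GeneralLinearGroup.mkOfDetNeZero !![(a : ℚ), b; c, d] (by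
      rw [Matrix.det_fin_two_of]; exact_mod_cast h.ne'), by
      rw [Matrix.mem_glpos, Matrix.GeneralLinearGroup.val_det_apply]
      change 0 < Matrix.det !![(a : ℚ), b; c, d]
      rw [Matrix.det_fin_two_of]; exact_mod_cast h⟩
  else 1

lemma gm_val {a b c d : ℤ} (h : 0 < a * d - b * c) :
    ((gm a b c d : GL (Fin 2) ℚ) : Matrix (Fin 2) (Fin 2) ℚ) = !![(a : ℚ), b; c, d] := by
  rw [gm, dif_pos h]; rfl

lemma GQ_ext {g g' : GQ} (h : ((g : GL (Fin 2) ℚ) : Matrix (Fin 2) (Fin 2) ℚ) =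
    ((g' : GL (Fin 2) ℚ) : Matrix (Fin 2) (Fin 2) ℚ)) : g = g' := Subtype.ext (Units.ext h)

lemma gm_mul {a b c d a' b' c' d' : ℤ} (h : 0 < a * d - b * c) (h' : 0 < a' * d' - b' * c') :
    gm a b c d * gm a' b' c' d' =
      gm (a * a' + b * c') (a * b' + b * d') (c * a' + d * c') (c * b' + d * d') := by
  refine GQ_ext ?_
  rw [gm_val (by nlinarith [mul_pos h h']), Subgroup.coe_mul, Units.val_mul, gm_val h, gm_val h']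
  push_cast
  simp

lemma sq_eq_gm (γ : SL(2, ℤ)) : Mf.sq γ = gm (γ 0 0) (γ 0 1) (γ 1 0) (γ 1 1) := by
  refine GQ_ext ?_
  rw [gm_val (by rw [det_eq]; exact one_pos)]
  ext i j
  fin_cases i <;> fin_cases j <;> rfl

lemma gm_inj {a b c d a' b' c' d' : ℤ} (h : 0 < a * d - b * c) (h' : 0 < a' * d' - b' * c')
    (e : gm a b c d = gm a' b' c' d') : a = a' ∧ b = b' ∧ c = c' ∧ d = d' := by
  have := gm_val h
  rw [e, gm_val h'] at this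
  have f := fun i j => congrFun (congrFun this i) j
  have h1 := f 0 0; have h2 := f 0 1; have h3 := f 1 0; have h4 := f 1 1
  simp at h1 h2 h3 h4
  exact ⟨h1.symm, h2.symm, h3.symm, h4.symm⟩

lemma gm_mem {a b c d : ℤ} (h : a * d - b * c = 1) (hc : (c : ZMod L) = 0) {u : (ZMod L)ˣ}
    (hu : u ∈ H) (hd : (u : ZMod L) = d) : gm a b c d ∈ Gq L H :=
  ⟨⟨!![a, b; c, d], by rw [Matrix.det_fin_two_of]; exact h⟩, ⟨hc, u, hu, hd⟩, sq_eq_gm _⟩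

lemma gm_T_mem (k : ℤ) : gm 1 k 0 1 ∈ Gq L H := gm_mem (by ring) (by simp) H.one_mem (by simp)

/-- `(1 i; 0 p)` -/
def up (p i : ℕ) : GQ := gm 1 i 0 p
/-- `(p 0; 0 1)` -/
def dg (p : ℕ) : GQ := gm p 0 0 1

/-- `U_p` -/
def U (O : Type*) [CommRing O] (p : ℕ) : MonoidAlgebra O GQ := ∑ i ∈ range p, e O (up p i)

/-- the diamond operator `⟨n⟩` -/
def Dia (O : Type*) [CommRing O] (L : ℕ) (n : ℤ) : MonoidAlgebra O GQ := e O (sg L n)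

/-- `T_p` (`= U_p` for `p ∣ L`) -/
def Tp (O : Type*) [CommRing O] (L p : ℕ) : MonoidAlgebra O GQ :=
  U O p + if p ∣ L then 0 else e O (sg L p * dg p)

lemma Tp_of_dvd {p : ℕ} (h : p ∣ L) : Tp O L p = U O p := by rw [Tp, if_pos h, add_zero]

lemma Tp_of_not_dvd {p : ℕ} (h : ¬ p ∣ L) : Tp O L p = U O p + Dia O L p * e O (dg p) := by
  rw [Tp, if_neg h, Dia, e_mul]

lemma deg_U (p : ℕ) : deg (U O p) = p := by simp [U, map_sum]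

lemma deg_Tp {p : ℕ} (h : ¬ p ∣ L) : deg (Tp O L p) = p + 1 := by
  rw [Tp, if_neg h, map_add, deg_U, deg_e]

lemma deg_Dia (n : ℤ) : deg (Dia O L n) = 1 := deg_e _

section bc
variable {O' : Type*} [CommRing O'] [Algebra O O']

lemma bc_U (p : ℕ) : bc O' (U O p) = U O' p := by simp [U, map_sum]

lemma bc_Dia (n : ℤ) : bc O' (Dia O L n) = Dia O' L n := bc_e _

lemma bc_Tp (p : ℕ) : bc O' (Tp O L p) = Tp O' L p := by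
  rw [Tp, Tp, map_add, bc_U]; split_ifs <;> simp

end bc

lemma cen_mono {G : Type*} [Group G] {Γ₀ Γ₁ Γ₀' Γ₁' : Subgroup G} (h0 : Γ₀' ≤ Γ₀) (h1 : Γ₁ ≤ Γ₁')
    (h : Γ₁' ≤ Γ₀') {t : MonoidAlgebra O G} (ht : t ∈ Cen O Γ₀ Γ₁) : t ∈ Cen O Γ₀' Γ₁' :=
  mem_cen h fun γ hγ => null_mono h1 (ht.2 γ (h0 hγ))

/-- from the extreme levels to all levels -/
lemma cen_of (h : H ≤ H') {t : MonoidAlgebra O GQ} (ht : t ∈ Cen O (Gq L ⊤) (Gq L ⊥)) :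
    t ∈ Cen O (Gq L H') (Gq L H) := cen_mono (Gq_mono le_top) (Gq_mono bot_le) (Gq_mono h) ht

lemma e_cen {g : GQ} (hg : g ∈ Gq L ⊤) : e O g ∈ Cen O (Gq L ⊤) (Gq L ⊥) :=
  mem_cen (Gq_mono le_top) fun γ hγ => by
    rw [← e_mul, ← e_mul]
    exact e_sub_mem (mul_inv_mem (mul_mem hg hγ) (mul_mem hγ hg) (by
      rw [dU_mul hg hγ, dU_mul hγ hg, mul_comm]))

lemma Dia_cen (n : ℤ) : Dia O L n ∈ Cen O (Gq L ⊤) (Gq L ⊥) := e_cen (sg_mem L n)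

end Crest.Agent.T15.Lv

end
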