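import Mathlib
import Crest.Agent.T15.Hk_62
import Crest.Agent.T15.MfA_79

/-!
# Row 15, block T (helper12): `T_p` acts on parabolic values by `p + 1` when `p ≡ 1 mod L`

* `Rep x M`: the element `x` of `GL(2,ℚ)⁺` has the integral matrix `M`;
* `exists_conj`: trace `± 2` gives `γ = ± g T^h g⁻¹`;
* `par_conj`, `par`: the statement for any family of `p + 1` integral matrices of determinant `p`
  in distinct cosets that are congruent mod `L` to elements of `Γ ≥ Γ(L)`;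
* `val_eq_zero_of_nil`: generalised eigenvectors with eigenvalue `≢ p + 1` are parabolic.
-/

set_option autoImplicit false
set_option linter.unusedSectionVars false

noncomputable section

namespace Crest.Agent.T15.Par

open Matrix CongruenceSubgroup Finset
open scoped MatrixGroups
open Crest.Agent.T15.Hk
open Crest.Agent.T15.Mf (GQ)

local notation "TT" => ModularGroup.T
local notation "M2" => Matrix (Fin 2) (Fin 2) ℤ

/-- `x` has the integral matrix `M` -/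
def Rep (x : GQ) (M : M2) : Prop :=
  ((x : GL (Fin 2) ℚ) : Matrix (Fin 2) (Fin 2) ℚ) = M.map (Int.cast : ℤ → ℚ)

theorem Rep.mul {x y : GQ} {M N : M2} (hx : Rep x M) (hy : Rep y N) : Rep (x * y) (M * N) := by
  unfold Rep at *
  rw [Subgroup.coe_mul, Units.val_mul, hx, hy]
  exact (Matrix.map_mul (f := Int.castRingHom ℚ)).symm

theorem rep_sq (γ : SL(2, ℤ)) : Rep (Mf.sq γ) γ := by
  ext i j; exact Mf.sq_apply γ i j

theorem Rep.eq {x y : GQ} {M : M2} (hx : Rep x M) (hy : Rep y M) : x = y :=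
  Subtype.ext (Units.ext (hx.trans hy.symm))

theorem Rep.unique {x : GQ} {M N : M2} (hx : Rep x M) (hy : Rep x N) : M = N := by
  ext i j
  have := congrFun (congrFun (hx.symm.trans hy) i) j
  simpa using this

theorem rep_of_apply {x : GQ} {M : M2} (h : ∀ i j, (x : GL (Fin 2) ℚ) i j = (M i j : ℚ)) :
    Rep x M := by
  ext i j; exact h i j

theorem exists_rep {M : M2} (h : 0 < M.det) : ∃ x : GQ, Rep x M := by
  have e : (M.map (Int.cast : ℤ → ℚ)).det = (M.det : ℚ) := ((Int.castRingHom ℚ).map_det M).symm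
  have h' : (0 : ℚ) < (M.map (Int.cast : ℤ → ℚ)).det := by rw [e]; exact_mod_cast h
  exact ⟨⟨Matrix.GeneralLinearGroup.mkOfDetNeZero _ h'.ne', by
    rw [Matrix.mem_glpos]; simpa using h'⟩, rfl⟩

theorem sq_neg_comm (x : GQ) : x * Mf.sq (-1) = Mf.sq (-1) * x := by
  have h : Rep (Mf.sq (-1)) (-1) := rep_sq (-1)
  refine Subtype.ext (Units.ext ?_)
  rw [Subgroup.coe_mul, Subgroup.coe_mul, Units.val_mul, Units.val_mul, h]
  have : (-1 : M2).map (Int.cast : ℤ → ℚ) = -1 := by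
    ext i j; fin_cases i <;> fin_cases j <;> simp
  rw [this, mul_neg, neg_mul, mul_one, one_mul]

/-- normal form of an element of trace `2` -/
theorem exists_conj_two (γ : SL(2, ℤ)) (h : γ 0 0 + γ 1 1 = 2) :
    ∃ (g : SL(2, ℤ)) (n : ℤ), γ = g * TT ^ n * g⁻¹ := by
  have hd : γ 0 0 * γ 1 1 - γ 0 1 * γ 1 0 = 1 := by
    have := γ.det_coe; rwa [Matrix.det_fin_two] at this
  obtain ⟨x, y, h0, h1, h2⟩ : ∃ x y : ℤ, 0 < Int.gcd x y ∧ γ 0 0 * x + γ 0 1 * y = x ∧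
      γ 1 0 * x + γ 1 1 * y = y := by
    by_cases hb : γ 0 1 = 0 ∧ γ 0 0 = 1
    · refine ⟨0, 1, by simp, by simp [hb.1], ?_⟩
      have := hb.2; simp; omega
    · refine ⟨γ 0 1, 1 - γ 0 0, ?_, by ring, by linear_combination -hd + h⟩
      rw [Int.gcd_pos_iff]
      by_contra hc
      push Not at hc
      exact hb ⟨hc.1, by omega⟩
  obtain ⟨x', y', hg, hx, hy⟩ := Int.exists_gcd_one h0
  obtain ⟨u, v, huv⟩ := Int.isCoprime_iff_gcd_eq_one.2 hg
  have hk : ((Int.gcd x y : ℕ) : ℤ) ≠ 0 := by exact_mod_cast h0.ne'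
  generalize ((Int.gcd x y : ℕ) : ℤ) = k at hx hy hk
  subst hx hy
  have h1' : γ 0 0 * x' + γ 0 1 * y' = x' := mul_right_cancel₀ hk (by linear_combination h1)
  have h2' : γ 1 0 * x' + γ 1 1 * y' = y' := mul_right_cancel₀ hk (by linear_combination h2)
  have h3 : x' * (γ 1 0 * (-v) + γ 1 1 * u) - y' * (γ 0 0 * (-v) + γ 0 1 * u) = 1 := by
    linear_combination (u * x' + v * y') * hd + huv - (γ 1 0 * (-v) + γ 1 1 * u) * h1' +
      (γ 0 0 * (-v) + γ 0 1 * u) * h2'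
  let g : SL(2, ℤ) := ⟨!![x', -v; y', u], by rw [Matrix.det_fin_two_of]; linear_combination huv⟩
  refine ⟨g, u * (γ 0 0 * (-v) + γ 0 1 * u) + v * (γ 1 0 * (-v) + γ 1 1 * u), ?_⟩
  rw [eq_mul_inv_iff_mul_eq]
  refine Subtype.ext ?_
  show γ.1 * !![x', -v; y', u] = !![x', -v; y', u] * (TT ^ _).1
  rw [ModularGroup.coe_T_zpow]
  ext i j
  fin_cases i <;> fin_cases j <;> simp [Matrix.mul_apply, Fin.sum_univ_two]
  · exact h1'
  · linear_combination -(γ 0 0 * (-v) + γ 0 1 * u) * huv - v * h3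
  · exact h2'
  · linear_combination -(γ 1 0 * (-v) + γ 1 1 * u) * huv + u * h3

/-- normal form of a parabolic element -/
theorem exists_conj (γ : SL(2, ℤ)) (h : γ 0 0 + γ 1 1 = 2 ∨ γ 0 0 + γ 1 1 = -2) :
    ∃ (ε g : SL(2, ℤ)) (n : ℤ), (ε = 1 ∨ ε = -1) ∧ γ = ε * (g * TT ^ n * g⁻¹) := by
  rcases h with h | h
  · obtain ⟨g, n, e⟩ := exists_conj_two γ h
    exact ⟨1, g, n, Or.inl rfl, by rw [one_mul, ← e]⟩
  · obtain ⟨g, n, e⟩ := exists_conj_two (-γ) (by simp; omega)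
    exact ⟨-1, g, n, Or.inr rfl, by rw [← e]; simp⟩

/-- representatives that are `≡ 1` modulo `p - 1` -/
def bm (p : ℕ) : Option (ZMod p) → M2
  | none => !![(p : ℤ), 0; 0, 1]
  | some j => !![1, (j.val : ℤ) * (1 - p); 0, (p : ℤ)]

theorem bm_det (p : ℕ) (j : Option (ZMod p)) : (bm p j).det = p := by
  cases j <;> simp [bm, Matrix.det_fin_two_of]

theorem bm_mod {p L : ℕ} (hL : (L : ℤ) ∣ (p : ℤ) - 1) (j : Option (ZMod p)) :
    (bm p j).map (Int.cast : ℤ → ZMod L) = 1 := by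
  have h : ((p : ℕ) : ZMod L) = 1 := by
    have := (ZMod.intCast_zmod_eq_zero_iff_dvd _ L).2 hL
    push_cast at this
    exact sub_eq_zero.1 this
  cases j <;> ext a b <;> fin_cases a <;> fin_cases b <;> simp [bm, h]

theorem exists_bm {p : ℕ} (hp : p.Prime) {M : M2} (hM : M.det = p) :
    ∃ (δ : SL(2, ℤ)) (j : Option (ZMod p)), M = δ.1 * bm p j := by
  have := Fact.mk hp
  have hp0 : (p : ℤ) ≠ 0 := by exact_mod_cast hp.ne_zero
  rw [Matrix.det_fin_two] at hM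
  have hz : ((M 0 0 : ℤ) : ZMod p) * M 1 1 = M 0 1 * M 1 0 := by
    have := congrArg (Int.cast : ℤ → ZMod p) hM
    push_cast at this
    rw [ZMod.natCast_self] at this
    exact sub_eq_zero.1 this
  by_cases h0 : ((M 0 0 : ℤ) : ZMod p) = 0 ∧ ((M 1 0 : ℤ) : ZMod p) = 0
  · obtain ⟨a, ha⟩ := (ZMod.intCast_zmod_eq_zero_iff_dvd _ p).1 h0.1
    obtain ⟨c, hc⟩ := (ZMod.intCast_zmod_eq_zero_iff_dvd _ p).1 h0.2
    refine ⟨⟨!![a, M 0 1; c, M 1 1], ?_⟩, none, ?_⟩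
    · rw [Matrix.det_fin_two_of]
      refine mul_left_cancel₀ hp0 ?_
      rw [ha, hc] at hM
      linear_combination hM
    · ext i j
      fin_cases i <;> fin_cases j <;> simp [bm, Matrix.mul_apply, Fin.sum_univ_two, ha, hc, mul_comm]
  · obtain ⟨j, h1, h2⟩ : ∃ j : ZMod p, ((M 0 1 : ℤ) : ZMod p) = M 0 0 * j ∧
        ((M 1 1 : ℤ) : ZMod p) = M 1 0 * j := by
      by_cases ha : ((M 0 0 : ℤ) : ZMod p) = 0
      · have hc : ((M 1 0 : ℤ) : ZMod p) ≠ 0 := fun hc => h0 ⟨ha, hc⟩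
        refine ⟨M 1 1 / M 1 0, ?_, by field_simp⟩
        rw [ha, zero_mul] at hz
        rw [ha, zero_mul]
        exact (mul_eq_zero.1 hz.symm).resolve_right hc
      · refine ⟨M 0 1 / M 0 0, by field_simp, ?_⟩
        field_simp
        linear_combination hz
    have key : ∀ a b : ℤ, (b : ZMod p) = a * j → (p : ℤ) ∣ b - a * ((j.val : ℤ) * (1 - p)) :=
      fun a b h => (ZMod.intCast_zmod_eq_zero_iff_dvd _ p).1 (by
        push_cast
        rw [ZMod.natCast_self, ZMod.natCast_zmod_val, h]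
        ring)
    obtain ⟨u, hu⟩ := key _ _ h1
    obtain ⟨v, hv⟩ := key _ _ h2
    refine ⟨⟨!![M 0 0, u; M 1 0, v], ?_⟩, some j, ?_⟩
    · rw [Matrix.det_fin_two_of]
      refine mul_left_cancel₀ hp0 ?_
      linear_combination hM - M 0 0 * hv + M 1 0 * hu
    · ext a b
      fin_cases a <;> fin_cases b <;> simp [bm, Matrix.mul_apply, Fin.sum_univ_two]
      · simp at hu; linear_combination hu
      · simp at hv; linear_combination hv

/-- the quotient in `j + h = (j + h mod p) + p t` -/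
def tq {p : ℕ} (h : ℤ) (j : ZMod p) : ℤ := (h + j.val - ((j + h : ZMod p).val : ℤ)) / p

theorem tq_mul {p : ℕ} [NeZero p] (h : ℤ) (j : ZMod p) :
    (p : ℤ) * tq h j = h + j.val - ((j + h : ZMod p).val : ℤ) :=
  Int.mul_ediv_cancel' ((ZMod.intCast_zmod_eq_zero_iff_dvd _ p).1 (by
    push_cast
    rw [ZMod.natCast_zmod_val, ZMod.natCast_zmod_val]
    ring))

theorem sum_tq {p : ℕ} [NeZero p] (h : ℤ) : ∑ j : ZMod p, tq h j = h := by
  have hp0 : (p : ℤ) ≠ 0 := by exact_mod_cast NeZero.ne p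
  refine mul_left_cancel₀ hp0 ?_
  rw [mul_sum]
  simp only [tq_mul, sum_sub_distrib, sum_add_distrib, sum_const, card_univ, ZMod.card]
  rw [← Equiv.sum_comp (Equiv.addRight (h : ZMod p)) (fun j : ZMod p => (j.val : ℤ))]
  simp

/-- the defect exponent, divided by `p - 1` -/
def kq {p : ℕ} (h : ℤ) : Option (ZMod p) → ℤ
  | none => h
  | some j => -tq h j

theorem sum_kq {p : ℕ} [NeZero p] (h : ℤ) : ∑ j : Option (ZMod p), kq h j = 0 := by
  rw [Fintype.sum_option]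
  simp [kq, sum_tq]

theorem bm_T {p : ℕ} [NeZero p] (h : ℤ) (j : Option (ZMod p)) :
    bm p j * (TT ^ h).1 = (TT ^ (h + (p - 1) * kq h j)).1 *
      bm p (Equiv.optionCongr (Equiv.addRight (h : ZMod p)) j) := by
  rw [ModularGroup.coe_T_zpow, ModularGroup.coe_T_zpow]
  cases j with
  | none =>
    ext a b
    fin_cases a <;> fin_cases b <;> simp [bm, kq, Matrix.mul_apply, Fin.sum_univ_two]
    ring
  | some j =>
    have := tq_mul h j
    ext a b
    fin_cases a <;> fin_cases b <;> simp [bm, kq, Matrix.mul_apply, Fin.sum_univ_two]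
    simp at this
    linear_combination ((p : ℤ) - 1) * this

variable {O : Type*} [CommRing O] {A : Type*} [AddCommGroup A] [Module O A]

/-- a family of Hecke representatives for `p`, all congruent mod `L` to elements of `Γ` -/
structure Fam (Γ : Subgroup SL(2, ℤ)) (L p : ℕ) {ι : Type*} [Fintype ι] (α : ι → GQ) : Prop where
  card : Fintype.card ι = p + 1
  rep : ∀ i, ∃ (M : M2) (δ : SL(2, ℤ)), Rep (α i) M ∧ M.det = p ∧ δ ∈ Γ ∧
    M.map (Int.cast : ℤ → ZMod L) = δ.1.map (Int.cast : ℤ → ZMod L)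
  inj : ∀ i j, α i * (α j)⁻¹ ∈ Γ.map Mf.sq → i = j

variable {Γ : Subgroup SL(2, ℤ)} {L p : ℕ} {ι : Type*} [Fintype ι] {α : ι → GQ}

theorem Fam.null (hF : Fam Γ L p α) (hΓ : Gamma L ≤ Γ) (hp : p.Prime) [NeZero p]
    (hL : (L : ℤ) ∣ (p : ℤ) - 1) (g : SL(2, ℤ)) {B : Option (ZMod p) → GQ}
    (hB : ∀ j, Rep (B j) (bm p j)) :
    ∑ i, e O (α i) - ∑ j, e O (Mf.sq g * B j * (Mf.sq g)⁻¹) ∈ Null O (Γ.map Mf.sq) := by
  have key : ∀ i, ∃ j, α i * (Mf.sq g * B j * (Mf.sq g)⁻¹)⁻¹ ∈ Γ.map Mf.sq := fun i => by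
    obtain ⟨M, δ, hM, hd, hδ, hm⟩ := hF.rep i
    obtain ⟨δ', j, e'⟩ := exists_bm hp (M := M * g.1) (by rw [det_mul, hd, g.2, mul_one])
    have h1 : α i * Mf.sq g = Mf.sq δ' * B j :=
      (hM.mul (rep_sq g)).eq (e' ▸ (rep_sq δ').mul (hB j))
    refine ⟨j, δ' * g⁻¹, ?_, ?_⟩
    · have h2 : SpecialLinearGroup.map (Int.castRingHom (ZMod L)) δ' =
          SpecialLinearGroup.map (Int.castRingHom (ZMod L)) (δ * g) := by
        refine Subtype.ext ?_
        have h3 := congrArg (fun N : M2 => N.map (Int.castRingHom (ZMod L))) e'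
        simp only [Matrix.map_mul] at h3
        have h4 : (bm p j).map (Int.castRingHom (ZMod L)) = 1 := bm_mod hL j
        have h5 : M.map (Int.castRingHom (ZMod L)) = δ.1.map (Int.castRingHom (ZMod L)) := hm
        rw [h4, mul_one, h5, ← Matrix.map_mul] at h3
        exact h3.symm
      have h3 : δ' * g⁻¹ * δ⁻¹ ∈ Gamma L := by
        rw [Gamma_mem', map_mul, map_mul, h2, ← map_mul, ← map_mul]
        simp
      have := Γ.mul_mem (hΓ h3) hδ
      simpa using this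
    · rw [map_mul, map_inv, eq_mul_inv_of_mul_eq h1]
      group
  choose σ hσ using key
  have hi : Function.Injective σ := fun i j hij => hF.inj i j (by
    have := (Γ.map Mf.sq).mul_mem (hσ i) ((Γ.map Mf.sq).inv_mem (hσ j))
    rw [hij] at this
    simpa [mul_assoc] using this)
  exact sum_sub_mem (Equiv.ofBijective σ ((Fintype.bijective_iff_injective_and_card σ).2
    ⟨hi, by simp [hF.card]⟩)) hσ

/-- **(PAR)**, conjugated form -/
theorem par_conj (hF : Fam Γ L p α) (hΓ : Gamma L ≤ Γ) (hp : p.Prime)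
    (hL : (L : ℤ) ∣ (p : ℤ) - 1) (c : Corr O (Γ.map Mf.sq) (Γ.map Mf.sq))
    (hc : c.1 - ∑ i, e O (α i) ∈ Null O (Γ.map Mf.sq)) (φ : HH (Γ.map Mf.sq) A)
    {ε : SL(2, ℤ)} (hε : ε = 1 ∨ ε = -1) (g : SL(2, ℤ)) (h : ℤ)
    (hγ : ε * (g * TT ^ h * g⁻¹) ∈ Γ) :
    val (T A c φ) (Mf.sq (ε * (g * TT ^ h * g⁻¹))) =
      (p + 1) • val φ (Mf.sq (ε * (g * TT ^ h * g⁻¹))) := by
  have : NeZero p := ⟨hp.ne_zero⟩
  choose B hB using fun j : Option (ZMod p) =>
    exists_rep (M := bm p j) (by rw [bm_det]; exact_mod_cast hp.pos)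
  have h1 : c.1 - ∑ j, e O (Mf.sq g * B j * (Mf.sq g)⁻¹) ∈ Null O (Γ.map Mf.sq) := by
    have := (Null O _).add_mem hc (hF.null (O := O) hΓ hp hL g hB)
    rwa [sub_add_sub_cancel] at this
  have h2 : ∑ j, e O (Mf.sq g * B j * (Mf.sq g)⁻¹) ∈ Corr O (Γ.map Mf.sq) (Γ.map Mf.sq) :=
    corr_congr c.2 (by simpa using (Null O _).neg_mem h1)
  have hT : ∀ k : ℤ, Mf.sq (g * TT ^ (((p : ℤ) - 1) * k) * g⁻¹) ∈ Γ.map Mf.sq := fun k => by
    refine Subgroup.mem_map_of_mem _ (hΓ ((Gamma_normal L).conj_mem _ ?_ g))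
    exact ModularGroup_T_pow_mem_Gamma L _ (hL.mul_right k)
  have hγ' := Subgroup.mem_map_of_mem Mf.sq hγ
  have hε' : ∀ x : GQ, x * Mf.sq ε = Mf.sq ε * x := fun x => by
    rcases hε with rfl | rfl
    · simp
    · exact sq_neg_comm x
  have h3 : ∀ j, Mf.sq g * B j * (Mf.sq g)⁻¹ * Mf.sq (ε * (g * TT ^ h * g⁻¹)) *
      (Mf.sq g * B (Equiv.optionCongr (Equiv.addRight (h : ZMod p)) j) * (Mf.sq g)⁻¹)⁻¹ =
      Mf.sq (ε * (g * TT ^ h * g⁻¹)) * Mf.sq (g * TT ^ (((p : ℤ) - 1) * kq h j) * g⁻¹) := fun j => by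
    have h4 : B j * Mf.sq (TT ^ h) = Mf.sq (TT ^ (h + (p - 1) * kq h j)) *
        B (Equiv.optionCongr (Equiv.addRight (h : ZMod p)) j) :=
      ((hB j).mul (rep_sq _)).eq (bm_T h j ▸ (rep_sq _).mul (hB _))
    rw [_root_.zpow_add, map_mul] at h4
    rw [map_mul Mf.sq ε, ← mul_assoc, hε', eq_mul_inv_of_mul_eq h4]
    simp only [map_mul, map_inv]
    group
  let f : ℤ →+ A := AddMonoidHom.mk'
    (fun k => val φ (Mf.sq (g * TT ^ (((p : ℤ) - 1) * k) * g⁻¹))) fun k l => by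
      rw [← val_mul φ (hT k) (hT l), ← map_mul, mul_add, _root_.zpow_add]
      congr 2
      group
  rw [T_congr (c' := ⟨_, h2⟩) h1, T_family h2 φ hγ' (Equiv.optionCongr (Equiv.addRight (h : ZMod p)))
    fun j => by rw [h3]; exact Subgroup.mul_mem _ hγ' (hT _)]
  have h5 : ∀ j : Option (ZMod p), val φ (Mf.sq (ε * (g * TT ^ h * g⁻¹)) *
      Mf.sq (g * TT ^ (((p : ℤ) - 1) * kq h j) * g⁻¹)) =
      val φ (Mf.sq (ε * (g * TT ^ h * g⁻¹))) + f (kq h j) := fun j => val_mul φ hγ' (hT _)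
  simp only [h3, h5]
  rw [sum_add_distrib, ← map_sum, sum_kq, map_zero, add_zero, sum_const, card_univ]
  simp

/-- **(PAR)** -/
theorem par (hF : Fam Γ L p α) (hΓ : Gamma L ≤ Γ) (hp : p.Prime)
    (hL : (L : ℤ) ∣ (p : ℤ) - 1) (c : Corr O (Γ.map Mf.sq) (Γ.map Mf.sq))
    (hc : c.1 - ∑ i, e O (α i) ∈ Null O (Γ.map Mf.sq)) (φ : HH (Γ.map Mf.sq) A)
    {γ : SL(2, ℤ)} (hγ : γ ∈ Γ) (htr : γ 0 0 + γ 1 1 = 2 ∨ γ 0 0 + γ 1 1 = -2) :
    val (T A c φ) (Mf.sq γ) = (p + 1) • val φ (Mf.sq γ) := by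
  obtain ⟨ε, g, h, hε, rfl⟩ := exists_conj γ htr
  exact par_conj hF hΓ hp hL c hc φ hε g h hγ

/-- if an operator multiplies the value at `γ` by `n` and `a - n` is a unit, the generalised
eigenvectors for `a` vanish at `γ` -/
theorem val_eq_zero_of_nil {G : Type*} [Group G] {Γ : Subgroup G} (t : Module.End O (HH Γ A))
    {γ : G} {n : ℕ} (ht : ∀ φ, val (t φ) γ = n • val φ γ) {a : O} (ha : IsUnit (a - n)) {k : ℕ}
    {φ : HH Γ A} (hφ : ((t - algebraMap O _ a) ^ k) φ = 0) : val φ γ = 0 := by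
  induction k generalizing φ with
  | zero =>
    rw [pow_zero, Module.End.one_apply] at hφ
    rw [hφ, val_zero]
  | succ k ih =>
    rw [pow_succ, Module.End.mul_apply] at hφ
    have h := ih hφ
    rw [LinearMap.sub_apply, val_sub, ht, Module.algebraMap_end_apply, val_smul,
      ← Nat.cast_smul_eq_nsmul O, ← sub_smul, ← neg_sub, neg_smul, neg_eq_zero] at h
    exact (ha.smul_eq_zero).1 h

end Crest.Agent.T15.Par
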