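import Mathlib

/-!
# T15 / TwiA (helper21): descent of residues along a finite covering

`Ω` a field with a norm `W` and a group `G` of automorphisms, `Fx Γ` the fixed field of `Γ`.
* `P1 W u` : `u ≡ 1`; `sep2`, `sep` : approximation;
* `desc`, `desc0` : an element of `Fx Γ₁` whose residue is fixed by the decomposition group is
  congruent to an element of `Fx Γ`;
* `NP W Γ n f` : the residue of `f` is an `n`-th power at level `Γ`; `red_frob` : if `a` of level `Γ`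
  is `NP` at level `Γ₁`, then `σ a / a ^ q` is `NP` at level `Γ`.
-/

set_option autoImplicit false
set_option linter.all false

noncomputable section

namespace Crest.Agent.T15.Twi

open scoped NNReal
open Finset

variable {Ω : Type*} [Field Ω]

/-- principal units -/
def P1 (W : Valuation Ω ℝ≥0) (u : Ω) : Prop := W (u - 1) < 1

namespace P1

variable {W : Valuation Ω ℝ≥0} {u v a b : Ω}

theorem val (h : P1 W u) : W u = 1 := by
  have := Valuation.map_one_add_of_lt W h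
  simpa using this

theorem ne (h : P1 W u) : u ≠ 0 := by
  rintro rfl
  have := h.val
  simp at this

theorem one : P1 W 1 := by simp [P1]

theorem mul (hu : P1 W u) (hv : P1 W v) : P1 W (u * v) := by
  have e : u * v - 1 = u * (v - 1) + (u - 1) := by ring
  unfold P1
  rw [e]
  refine Valuation.map_add_lt _ ?_ hu
  rw [map_mul, hu.val, one_mul]; exact hv

theorem inv (hu : P1 W u) : P1 W u⁻¹ := by
  have e : u⁻¹ - 1 = -(u⁻¹ * (u - 1)) := by have := hu.ne; field_simp; ring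
  unfold P1
  rw [e, Valuation.map_neg, map_mul, map_inv₀, hu.val, inv_one, one_mul]; exact hu

theorem div (hu : P1 W u) (hv : P1 W v) : P1 W (u / v) := by
  rw [div_eq_mul_inv]; exact hu.mul hv.inv

theorem pow (hu : P1 W u) (n : ℕ) : P1 W (u ^ n) := by
  induction n with
  | zero => simpa using one
  | succ n ih => rw [pow_succ]; exact ih.mul hu

theorem of_lt (h : W (a - b) < W b) : P1 W (a / b) := by
  have hb : b ≠ 0 := by rintro rfl; simp at h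
  have hb' : 0 < W b := lt_of_le_of_lt zero_le h
  have e : a / b - 1 = (a - b) / b := by field_simp
  unfold P1
  rw [e, map_div₀, div_lt_one hb']; exact h

theorem of_sub (hb : W b = 1) (h : W (a - b) < 1) : P1 W (a / b) := of_lt (hb ▸ h)

theorem sub_lt (h : P1 W (a / b)) (hb : W b ≤ 1) : W (a - b) < 1 := by
  have hb0 : b ≠ 0 := by rintro rfl; exact h.ne (by simp)
  have e : a - b = b * (a / b - 1) := by field_simp
  rw [e, map_mul]
  exact mul_lt_one_of_nonneg_of_lt_one_right hb zero_le h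

theorem val_eq (h : P1 W (a / b)) : W a = W b := by
  have hb0 : b ≠ 0 := by rintro rfl; exact h.ne (by simp)
  have := h.val
  rwa [map_div₀, div_eq_one_iff_eq (by simpa using hb0)] at this

theorem map {σ : Ω →+* Ω} (hσ : ∀ f, W (σ f) = W f) (hu : P1 W u) : P1 W (σ u) := by
  unfold P1 at *
  rw [← map_one σ, ← map_sub, hσ]; exact hu

theorem congr (hu : P1 W u) (h : u = v) : P1 W v := h ▸ hu

end P1

/-- two different norms with the same values on the constants can be separated -/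
theorem sep2 (S : Subfield Ω) (w v : Valuation Ω ℝ≥0)
    (hval : ∀ f ∈ S, f ≠ 0 → ∃ c ∈ S, w c = w f ∧ v c = w c)
    (hc : ∃ c ∈ S, 0 < w c ∧ w c < 1 ∧ v c = w c) (hne : ∃ f ∈ S, v f ≠ w f) :
    ∃ y ∈ S, P1 w y ∧ v y < 1 := by
  obtain ⟨f, hf, hne⟩ := hne
  have hf0 : f ≠ 0 := by rintro rfl; simp at hne
  obtain ⟨c, hcS, hc1, hc2⟩ := hval f hf hf0
  have hwf : w f ≠ 0 := by simpa using hf0
  have hvf : v f ≠ 0 := by simpa using hf0
  obtain ⟨g, hg, hg1, hg2⟩ : ∃ g ∈ S, w g = 1 ∧ v g < 1 := by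
    rcases lt_or_gt_of_ne hne with h | h
    · refine ⟨f / c, S.div_mem hf hcS, by rw [map_div₀, hc1, div_self hwf], ?_⟩
      rw [map_div₀, hc2, hc1, div_lt_one (pos_iff_ne_zero.mpr hwf)]; exact h
    · refine ⟨c / f, S.div_mem hcS hf, by rw [map_div₀, hc1, div_self hwf], ?_⟩
      rw [map_div₀, hc2, hc1, div_lt_one (pos_iff_ne_zero.mpr hvf)]; exact h
  obtain ⟨d, hd, hd0, hd1, hd2⟩ := hc
  obtain ⟨r, hr⟩ := NNReal.exists_pow_lt_of_lt_one hd0 hg2
  set z := g ^ r / d with hz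
  have hzS : z ∈ S := S.div_mem (S.pow_mem hg r) hd
  have hwz : 1 < w z := by
    rw [hz, map_div₀, map_pow, hg1, one_pow, one_lt_div hd0]; exact hd1
  have hvz : v z < 1 := by
    rw [hz, map_div₀, map_pow, hd2, div_lt_one hd0]; exact hr
  have h1 : w (1 + z) = w z := Valuation.map_add_eq_of_lt_right _ (by rwa [map_one])
  refine ⟨z / (1 + z), S.div_mem hzS (S.add_mem S.one_mem hzS), P1.of_lt ?_, ?_⟩
  · rw [h1, show z - (1 + z) = -1 by ring, Valuation.map_neg, map_one]; exact hwz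
  · rw [map_div₀, Valuation.map_one_add_of_lt v hvz, div_one]; exact hvz

/-- simultaneous separation -/
theorem sep {ι : Type*} (S : Subfield Ω) (w : Valuation Ω ℝ≥0) (v : ι → Valuation Ω ℝ≥0)
    (s : Finset ι) (h : ∀ i ∈ s, ∃ y ∈ S, P1 w y ∧ v i y < 1) :
    ∃ y ∈ S, P1 w y ∧ ∀ i ∈ s, v i y < 1 := by
  classical
  induction s using Finset.induction_on with
  | empty => exact ⟨1, S.one_mem, P1.one, by simp⟩
  | insert a s ha ih =>
    obtain ⟨y, hy, hy1, hy2⟩ := ih fun i hi => h i (mem_insert_of_mem hi)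
    rcases le_or_gt (v a y) 1 with hle | hgt
    · obtain ⟨t, ht, ht1, ht2⟩ := h a (mem_insert_self a s)
      obtain ⟨r, hr⟩ : ∃ r : ℕ, ∀ i ∈ s, v i y ^ r * v i t < 1 := by
        have : ∀ i ∈ s, ∀ᶠ r : ℕ in Filter.atTop, v i y ^ r * v i t < 1 := fun i hi => by
          have h0 := (NNReal.tendsto_pow_atTop_nhds_zero_of_lt_one (hy2 i hi)).mul_const (v i t)
          rw [zero_mul] at h0
          exact h0.eventually (gt_mem_nhds zero_lt_one)
        exact ((Filter.eventually_all_finset s).mpr this).exists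
      refine ⟨y ^ r * t, S.mul_mem (S.pow_mem hy r) ht, (hy1.pow r).mul ht1, fun i hi => ?_⟩
      rw [map_mul, map_pow]
      rcases mem_insert.mp hi with rfl | hi
      · exact mul_lt_one_of_nonneg_of_lt_one_right (pow_le_one₀ zero_le hle) zero_le ht2
      · exact hr i hi
    · have hden : P1 w (1 - y + y ^ 2) := by
        unfold P1
        rw [show 1 - y + y ^ 2 - 1 = y * (y - 1) by ring, map_mul, hy1.val, one_mul]; exact hy1
      refine ⟨y / (1 - y + y ^ 2),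
        S.div_mem hy (S.add_mem (S.sub_mem S.one_mem hy) (S.pow_mem hy 2)), hy1.div hden,
        fun i hi => ?_⟩
      rw [map_div₀]
      rcases mem_insert.mp hi with rfl | hi
      · have h2 : v i y < v i y ^ 2 := by
          rw [pow_two]; exact lt_mul_of_one_lt_left (zero_lt_one.trans hgt) hgt
        have h3 : v i (1 - y + y ^ 2) = v i (y ^ 2) := by
          refine Valuation.map_add_eq_of_lt_right _ ?_
          rw [map_pow]
          exact Valuation.map_sub_lt _ (by rw [map_one]; exact hgt.trans h2) h2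
        rw [h3, map_pow, div_lt_one ((zero_lt_one.trans hgt).trans h2)]; exact h2
      · have h3 : P1 (v i) (1 - y + y ^ 2) := by
          unfold P1
          rw [show 1 - y + y ^ 2 - 1 = y * (y - 1) by ring, map_mul]
          refine mul_lt_one_of_nonneg_of_lt_one_left zero_le (hy2 i hi) ?_
          exact Valuation.map_sub_le _ (hy2 i hi).le (by rw [map_one])
        rw [h3.val, div_one]; exact hy2 i hi

variable {G : Type*} [Group G] [MulSemiringAction G Ω]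

variable (Ω) in
/-- fixed field -/
def Fx (Γ : Subgroup G) : Subfield Ω where
  carrier := {f | ∀ γ ∈ Γ, γ • f = f}
  mul_mem' ha hb γ hγ := by rw [smul_mul', ha γ hγ, hb γ hγ]
  one_mem' γ _ := smul_one γ
  add_mem' ha hb γ hγ := by rw [smul_add, ha γ hγ, hb γ hγ]
  zero_mem' γ _ := smul_zero γ
  neg_mem' ha γ hγ := by rw [smul_neg, ha γ hγ]
  inv_mem' a ha γ hγ := by rw [smul_inv'', ha γ hγ]

theorem mem_Fx {Γ : Subgroup G} {f : Ω} : f ∈ Fx Ω Γ ↔ ∀ γ ∈ Γ, γ • f = f := Iff.rfl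

theorem Fx_mono {Γ₁ Γ : Subgroup G} (h : Γ₁ ≤ Γ) {f : Ω} (hf : f ∈ Fx Ω Γ) : f ∈ Fx Ω Γ₁ :=
  fun γ hγ => hf γ (h hγ)

theorem smul_mem_Fx {Γ₁ Γ : Subgroup G} {g : G} (h : ∀ γ ∈ Γ₁, g⁻¹ * γ * g ∈ Γ) {f : Ω}
    (hf : f ∈ Fx Ω Γ) : g • f ∈ Fx Ω Γ₁ := fun γ hγ => by
  have := hf _ (h γ hγ)
  rw [mul_smul, mul_smul, inv_smul_eq_iff] at this
  exact this

/-- the constants carry the values of the norm, and the norm is not trivial -/
structure Cst (G : Type*) [Group G] [MulSemiringAction G Ω] (W : Valuation Ω ℝ≥0)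
    (C : Subfield Ω) : Prop where
  fix : ∀ c ∈ C, ∀ g : G, g • c = c
  val : ∀ f, f ≠ 0 → ∃ c ∈ C, W c = W f
  nt : ∃ c ∈ C, 0 < W c ∧ W c < 1

theorem Cst.mem {W : Valuation Ω ℝ≥0} {C : Subfield Ω} (hC : Cst G W C) {c : Ω} (hc : c ∈ C)
    (Γ : Subgroup G) : c ∈ Fx Ω Γ := fun γ _ => hC.fix c hc γ

/-- `γ` keeps the norm on the fixed field of `Γ₁` -/
def Dec (W : Valuation Ω ℝ≥0) (Γ₁ : Subgroup G) (γ : G) : Prop :=
  ∀ f ∈ Fx Ω Γ₁, W (γ • f) = W f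

variable {W : Valuation Ω ℝ≥0} {C : Subfield Ω} {Γ₁ Γ₀ Γ : Subgroup G}

theorem out_smul {y : Ω} (hy : y ∈ Fx Ω Γ₁) (g : Γ) :
    (((QuotientGroup.mk g : Γ ⧸ Γ₁.subgroupOf Γ).out : Γ) : G) • y = (g : G) • y := by
  obtain ⟨h, e⟩ := QuotientGroup.mk_out_eq_mul (Γ₁.subgroupOf Γ) g
  rw [e, Subgroup.coe_mul, mul_smul, hy _ (Subgroup.mem_subgroupOf.mp h.2)]

theorem tr_mem [Fintype (Γ ⧸ Γ₁.subgroupOf Γ)] {y : Ω} (hy : y ∈ Fx Ω Γ₁) :
    ∑ i : Γ ⧸ Γ₁.subgroupOf Γ, ((i.out : Γ) : G) • y ∈ Fx Ω Γ := fun γ hγ => by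
  rw [smul_sum]
  refine Fintype.sum_equiv (MulAction.toPerm (⟨γ, hγ⟩ : Γ)) _ _ fun i => ?_
  rw [MulAction.toPerm_apply, ← MulAction.Quotient.mk_smul_out, out_smul hy, smul_eq_mul,
    Subgroup.coe_mul, mul_smul]

open Classical in
theorem core [Fintype (Γ ⧸ Γ₁.subgroupOf Γ)] (hC : Cst G W C) {x : Ω} (hx : x ∈ Fx Ω Γ₁)
    (hD : ∀ γ ∈ Γ, Dec W Γ₁ γ → W (γ • x - x) < 1) (h1 : W x ≤ 1) :
    ∃ z ∈ Fx Ω Γ, W (z - (#(univ.filter fun i : Γ ⧸ Γ₁.subgroupOf Γ =>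
      Dec W Γ₁ ((i.out : Γ) : G)) : Ω) * x) < 1 := by
  let v : Γ ⧸ Γ₁.subgroupOf Γ → Valuation Ω ℝ≥0 := fun i =>
    W.comap (MulSemiringAction.toRingHom G Ω ((i.out : Γ) : G))
  have hv : ∀ i f, v i f = W (((i.out : Γ) : G) • f) := fun i f => rfl
  obtain ⟨y, hy, hy1, hy2⟩ := sep (Fx Ω Γ₁) W v
    (univ.filter fun i => ¬ Dec W Γ₁ ((i.out : Γ) : G)) fun i hi => by
      refine sep2 _ _ _ (fun f _ hf => ?_) ?_ ?_
      · obtain ⟨c, hc, e⟩ := hC.val f hf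
        exact ⟨c, hC.mem hc _, e, by rw [hv, hC.fix c hc]⟩
      · obtain ⟨c, hc, e1, e2⟩ := hC.nt
        exact ⟨c, hC.mem hc _, e1, e2, by rw [hv, hC.fix c hc]⟩
      · have := (mem_filter.mp hi).2
        unfold Dec at this
        push Not at this
        exact this
  obtain ⟨r, hr⟩ : ∃ r : ℕ, ∀ i ∈ (univ.filter fun i : Γ ⧸ Γ₁.subgroupOf Γ =>
      ¬ Dec W Γ₁ ((i.out : Γ) : G)), v i y ^ r * v i x < 1 := by
    refine ((Filter.eventually_all_finset _).mpr fun i hi => ?_ :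
      ∀ᶠ r : ℕ in Filter.atTop, _).exists
    have h0 := (NNReal.tendsto_pow_atTop_nhds_zero_of_lt_one (hy2 i hi)).mul_const (v i x)
    rw [zero_mul] at h0
    exact h0.eventually (gt_mem_nhds zero_lt_one)
  have hm : y ^ r * x ∈ Fx Ω Γ₁ := mul_mem (pow_mem hy r) hx
  refine ⟨_, tr_mem hm, ?_⟩
  rw [← sum_filter_add_sum_filter_not univ
    (fun i : Γ ⧸ Γ₁.subgroupOf Γ => Dec W Γ₁ ((i.out : Γ) : G)), ← nsmul_eq_mul, ← sum_const,
    add_sub_right_comm, ← sum_sub_distrib]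
  refine Valuation.map_add_lt _ (Valuation.map_sum_lt _ one_ne_zero fun i hi => ?_)
    (Valuation.map_sum_lt _ one_ne_zero fun i hi => ?_)
  · have hi' := (mem_filter.mp hi).2
    rw [show ((i.out : Γ) : G) • (y ^ r * x) - x
      = ((i.out : Γ) : G) • ((y ^ r - 1) * x) + (((i.out : Γ) : G) • x - x) by
        rw [sub_mul, one_mul, smul_sub]; ring]
    refine Valuation.map_add_lt _ ?_ (hD _ (i.out : Γ).2 hi')
    rw [hi' _ (mul_mem (sub_mem (pow_mem hy r) (one_mem _)) hx), map_mul]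
    exact mul_lt_one_of_nonneg_of_lt_one_left zero_le (hy1.pow r) h1
  · rw [← hv, map_mul, map_pow]; exact hr i hi

theorem dec_one_out : Dec W Γ₁ (((QuotientGroup.mk 1 : Γ ⧸ Γ₁.subgroupOf Γ).out : Γ) : G) :=
  fun f hf => by rw [out_smul hf, Subgroup.coe_one, one_smul]

/-- descent along a Galois covering of degree prime to the residue characteristic -/
theorem desc (hC : Cst G W C) (hfin : Γ₁.relIndex Γ ≠ 0)
    (hn : ∀ γ ∈ Γ, ∀ δ ∈ Γ₁, γ⁻¹ * δ * γ ∈ Γ₁)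
    (hW : ∀ m : ℕ, m ∣ Γ₁.relIndex Γ → W m = 1) {x : Ω} (hx : x ∈ Fx Ω Γ₁)
    (hD : ∀ γ ∈ Γ, Dec W Γ₁ γ → W (γ • x - x) < 1) (h1 : W x ≤ 1) :
    ∃ z ∈ Fx Ω Γ, W (z - x) < 1 := by
  classical
  haveI : (Γ₁.subgroupOf Γ).FiniteIndex := ⟨hfin⟩
  haveI : Fintype (Γ ⧸ Γ₁.subgroupOf Γ) := Fintype.ofFinite _
  haveI : (Γ₁.subgroupOf Γ).Normal := ⟨fun δ hδ γ => Subgroup.mem_subgroupOf.mpr (by
    have := hn _ (inv_mem γ.2) _ (Subgroup.mem_subgroupOf.mp hδ)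
    rwa [inv_inv] at this)⟩
  obtain ⟨z, hz, e⟩ := core hC hx hD h1
  let D : Subgroup Γ :=
    { carrier := {γ | Dec W Γ₁ γ}
      one_mem' := fun f _ => by rw [Subgroup.coe_one, one_smul]
      mul_mem' := fun {a b} ha hb f hf => by
        rw [Subgroup.coe_mul, mul_smul, ha _ (smul_mem_Fx (hn _ b.2) hf), hb f hf]
      inv_mem' := fun {a} ha f hf => by
        rw [← ha _ (smul_mem_Fx (hn _ a⁻¹.2) hf), Subgroup.coe_inv, smul_inv_smul] }
  have hd : #(univ.filter fun i : Γ ⧸ Γ₁.subgroupOf Γ => Dec W Γ₁ ((i.out : Γ) : G)) ∣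
      Γ₁.relIndex Γ := by
    have h2 := Subgroup.card_subgroup_dvd_card (D.map (QuotientGroup.mk' (Γ₁.subgroupOf Γ)))
    rw [← Nat.subtype_card _ (p := fun i => i ∈ D.map (QuotientGroup.mk' (Γ₁.subgroupOf Γ)))]
    · exact h2
    · intro i
      simp only [mem_filter, mem_univ, true_and]
      refine ⟨fun h => ⟨i.out, h, QuotientGroup.out_eq' i⟩, ?_⟩
      rintro ⟨g, hg, rfl⟩ f hf
      rw [QuotientGroup.mk'_apply, out_smul hf]
      exact hg f hf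
  generalize #(univ.filter fun i : Γ ⧸ Γ₁.subgroupOf Γ =>
      Dec W Γ₁ ((i.out : Γ) : G)) = m at e hd
  have hm1 : W m = 1 := hW m hd
  have hm0 : (m : Ω) ≠ 0 := by intro h; rw [h, map_zero] at hm1; exact zero_ne_one hm1
  refine ⟨z / m, div_mem hz (natCast_mem _ m), ?_⟩
  rw [show z / m - x = (z - m * x) / m by field_simp, map_div₀, hm1, div_one]; exact e

/-- descent when the decomposition group is trivial -/
theorem desc0 (hC : Cst G W C) (hfin : Γ₀.relIndex Γ ≠ 0)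
    (hB : ∀ γ ∈ Γ, Dec W Γ₀ γ → γ ∈ Γ₀) {x : Ω} (hx : x ∈ Fx Ω Γ₀) (h1 : W x ≤ 1) :
    ∃ z ∈ Fx Ω Γ, W (z - x) < 1 := by
  classical
  haveI : (Γ₀.subgroupOf Γ).FiniteIndex := ⟨hfin⟩
  haveI : Fintype (Γ ⧸ Γ₀.subgroupOf Γ) := Fintype.ofFinite _
  obtain ⟨z, hz, e⟩ := core hC hx
    (fun γ hγ h => by rw [hx γ (hB γ hγ h), sub_self, map_zero]; exact zero_lt_one) h1
  have : (univ.filter fun i : Γ ⧸ Γ₀.subgroupOf Γ => Dec W Γ₀ ((i.out : Γ) : G))
      = {QuotientGroup.mk 1} := by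
    ext i
    simp only [mem_filter, mem_univ, true_and, mem_singleton]
    refine ⟨fun h => ?_, fun h => h ▸ dec_one_out⟩
    rw [← QuotientGroup.out_eq' i, eq_comm, QuotientGroup.eq, inv_one, one_mul]
    exact Subgroup.mem_subgroupOf.mpr (hB _ (i.out : Γ).2 h)
  rw [this, card_singleton, Nat.cast_one, one_mul] at e
  exact ⟨z, hz, e⟩

/-- the residue of `f` is an `n`-th power at level `Γ` -/
def NP (W : Valuation Ω ℝ≥0) (Γ : Subgroup G) (n : ℕ) (f : Ω) : Prop :=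
  ∃ g ∈ Fx Ω Γ, P1 W (f / g ^ n)

namespace NP

variable {n : ℕ} {f f' : Ω}

theorem ne (h : NP W Γ n f) : f ≠ 0 := by
  obtain ⟨g, -, h⟩ := h
  rintro rfl
  exact h.ne (by simp)

theorem of_P1 (h : P1 W f) : NP W Γ n f := ⟨1, one_mem _, by simpa using h⟩

theorem one : NP W Γ n (1 : Ω) := of_P1 P1.one

theorem mul (h : NP W Γ n f) (h' : NP W Γ n f') : NP W Γ n (f * f') := by
  obtain ⟨g, hg, h⟩ := h
  obtain ⟨g', hg', h'⟩ := h'
  exact ⟨g * g', mul_mem hg hg', (h.mul h').congr (by rw [mul_pow, div_mul_div_comm])⟩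

theorem inv (h : NP W Γ n f) : NP W Γ n f⁻¹ := by
  obtain ⟨g, hg, h⟩ := h
  exact ⟨g⁻¹, inv_mem hg, h.inv.congr (by rw [inv_pow, inv_div, inv_div_inv])⟩

theorem div (h : NP W Γ n f) (h' : NP W Γ n f') : NP W Γ n (f / f') := by
  rw [div_eq_mul_inv]; exact h.mul h'.inv

theorem of_pow {g : Ω} (hg : g ∈ Fx Ω Γ) (h0 : g ≠ 0) : NP W Γ n (g ^ n) :=
  ⟨g, hg, by rw [div_self (pow_ne_zero _ h0)]; exact P1.one⟩

theorem congr (h : NP W Γ n f) (e : f = f') : NP W Γ n f' := e ▸ h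

theorem const (hC : Cst G W C) (hr : ∀ c ∈ C, ∃ d ∈ C, d ^ n = c) {c : Ω} (hc : c ∈ C)
    (h0 : c ≠ 0) : NP W Γ n c := by
  obtain ⟨d, hd, e⟩ := hr c hc
  exact ⟨d, hC.mem hd _, by rw [e, div_self h0]; exact P1.one⟩

end NP

/-- normalisation by a constant -/
theorem Cst.norm (hC : Cst G W C) {f : Ω} (hf : f ≠ 0) :
    ∃ c ∈ C, c ≠ 0 ∧ W (f / c) = 1 := by
  obtain ⟨c, hc, e⟩ := hC.val f hf
  have h0 : W f ≠ 0 := by simpa using hf
  refine ⟨c, hc, ?_, by rw [map_div₀, e, div_self h0]⟩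
  rintro rfl
  rw [map_zero] at e
  exact h0 e.symm

/-- an approximate `n`-th root of unity is near a root of unity -/
theorem near_root {n : ℕ} (hn : 0 < n) {ζ t : Ω} (hζ : IsPrimitiveRoot ζ n) (ht : P1 W (t ^ n)) :
    ∃ i : ℕ, W (t - ζ ^ i) < 1 := by
  by_contra hcon
  push Not at hcon
  have e := congrArg (Polynomial.eval t) (X_pow_sub_C_eq_prod hζ hn (one_pow n))
  simp only [Polynomial.eval_sub, Polynomial.eval_pow, Polynomial.eval_X, Polynomial.eval_C,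
    Polynomial.eval_prod, mul_one] at e
  unfold P1 at ht
  rw [e, map_prod] at ht
  exact absurd ht (not_lt.mpr (one_le_prod' fun i _ => hcon i))

theorem val_root {n : ℕ} (hn : 0 < n) {t : Ω} (ht : W (t ^ n) = 1) : W t = 1 := by
  rw [map_pow] at ht
  exact (pow_eq_one_iff_of_nonneg zero_le hn.ne').mp ht

/-- Frobenius on approximate roots of unity -/
theorem frob_root {n q : ℕ} (hn : 0 < n) {ζ t : Ω} (hζ : IsPrimitiveRoot ζ n) {σ : Ω →+* Ω}
    (hσ : ∀ f, W (σ f) = W f) (hq : W (σ ζ - ζ ^ q) < 1) (ht : P1 W (t ^ n)) :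
    P1 W (σ t / t ^ q) := by
  obtain ⟨i, hi⟩ := near_root hn hζ ht
  have h1 : W ζ = 1 := val_root hn (by rw [hζ.pow_eq_one, map_one])
  have h2 : P1 W (t / ζ ^ i) := P1.of_sub (by rw [map_pow, h1, one_pow]) hi
  have h3 : P1 W (σ ζ / ζ ^ q) := P1.of_sub (by rw [map_pow, h1, one_pow]) hq
  have hζ0 : ζ ≠ 0 := hζ.ne_zero hn.ne'
  have hs0 : σ ζ ≠ 0 := by simpa using hζ0
  have ht0 : t ≠ 0 := fun h => h2.ne (by rw [h, zero_div])
  refine (((h2.map hσ).mul (h3.pow i)).div (h2.pow q)).congr ?_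
  rw [map_div₀, map_pow, div_pow, div_pow, ← pow_mul, ← pow_mul, mul_comm q i]
  field_simp

/-- the data of a Frobenius `σ` and of three levels `Γ₁ ≤ Γ₀ ≤ Γ` -/
structure Lev (W : Valuation Ω ℝ≥0) (C : Subfield Ω) (n q : ℕ) (σ : Ω →+* Ω)
    (Γ₁ Γ₀ Γ : Subgroup G) : Prop where
  cst : Cst G W C
  pos : 0 < n
  prim : ∃ ζ : Ω, IsPrimitiveRoot ζ n ∧ W (σ ζ - ζ ^ q) < 1
  le₁ : Γ₁ ≤ Γ₀
  le₀ : Γ₀ ≤ Γ
  fin₁ : Γ₁.relIndex Γ₀ ≠ 0
  fin₀ : Γ₀.relIndex Γ ≠ 0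
  norm : ∀ γ ∈ Γ₀, ∀ δ ∈ Γ₁, γ⁻¹ * δ * γ ∈ Γ₁
  unit : ∀ m : ℕ, m ∣ Γ₁.relIndex Γ₀ → W m = 1
  borel : ∀ γ ∈ Γ, Dec W Γ₀ γ → γ ∈ Γ₀
  iso : ∀ f, W (σ f) = W f
  mem : ∀ f ∈ Fx Ω Γ, σ f ∈ Fx Ω Γ
  comm : ∀ γ ∈ Γ₀, ∀ f ∈ Fx Ω Γ₁, σ (γ • f) = γ • σ f

/-- **descent**: an `n`-th root of the residue upstairs gives one of `σ a / a ^ q` downstairs -/
theorem Lev.red_frob {n q : ℕ} {σ : Ω →+* Ω} (h : Lev W C n q σ Γ₁ Γ₀ Γ) {a : Ω}
    (ha : a ∈ Fx Ω Γ) (hp : NP W Γ₁ n a) : NP W Γ n (σ a / a ^ q) := by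
  have ha0 := hp.ne
  obtain ⟨g, hg, hp⟩ := hp
  have hg0 : g ≠ 0 := by
    rintro rfl
    exact hp.ne (by rw [zero_pow h.pos.ne', div_zero])
  obtain ⟨ζ, hζ, hζq⟩ := h.prim
  obtain ⟨c, hc, hc0, hgc⟩ := h.cst.norm hg0
  have hσg : σ g ∈ Fx Ω Γ₁ := fun γ hγ => by rw [← h.comm γ (h.le₁ hγ) g hg, hg γ hγ]
  have hcΓ := h.cst.mem hc Γ
  have hσc := h.mem c hcΓ
  have hs0 : σ g ≠ 0 := by simpa using hg0
  have hsc0 : σ c ≠ 0 := by simpa using hc0
  have hsa0 : σ a ≠ 0 := by simpa using ha0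
  set x := σ (g / c) / (g / c) ^ q with hx
  have hx1 : W x = 1 := by rw [hx, map_div₀ W, map_pow, h.iso, hgc, one_pow, div_one]
  have hle := h.le₁.trans h.le₀
  have hxm : x ∈ Fx Ω Γ₁ := by
    rw [hx, map_div₀]
    exact div_mem (div_mem hσg (Fx_mono hle hσc)) (pow_mem (div_mem hg (Fx_mono hle hcΓ)) q)
  obtain ⟨z₀, hz₀, e₀⟩ := desc h.cst h.fin₁ h.norm h.unit hxm (fun γ hγ hd => by
    have h1 : P1 W (a / (γ • g) ^ n) := by
      have := hd _ (sub_mem (div_mem (Fx_mono hle ha) (pow_mem hg n)) (one_mem _))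
      rw [smul_sub, smul_one, smul_div₀', smul_pow', ha γ (h.le₀ hγ)] at this
      unfold P1
      rw [this]; exact hp
    have hγg : γ • g ≠ 0 := fun h0 => hg0 (by rw [← inv_smul_smul γ g, h0, smul_zero])
    have h2 : P1 W ((γ • g / g) ^ n) := (hp.div h1).congr (by rw [div_pow]; field_simp)
    have h3 := frob_root h.pos hζ h.iso hζq h2
    refine P1.sub_lt (h3.congr ?_) hx1.le
    rw [hx, map_div₀ σ, map_div₀ σ, smul_div₀', smul_div₀', smul_pow', smul_div₀',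
      ← h.comm γ hγ g hg, hσc γ (h.le₀ hγ), hcΓ γ (h.le₀ hγ), div_pow, div_pow, div_pow]
    field_simp) hx1.le
  have p₀ : P1 W (z₀ / x) := P1.of_sub hx1 e₀
  have hz1 : W z₀ = 1 := p₀.val_eq.trans hx1
  obtain ⟨z, hz, e⟩ := desc0 h.cst h.fin₀ h.borel hz₀ hz1.le
  have p : P1 W (z / z₀) := P1.of_sub hz1 e
  have hz₀0 : z₀ ≠ 0 := fun h0 => by rw [h0, map_zero] at hz1; exact zero_ne_one hz1
  have hz0 : z ≠ 0 := fun h0 => p.ne (by rw [h0, zero_div])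
  refine ⟨z * (σ c / c ^ q), mul_mem hz (div_mem hσc (pow_mem hcΓ q)), ?_⟩
  refine (((hp.map h.iso).div (hp.pow q)).div ((p.mul p₀).pow n)).congr ?_
  rw [hx, map_div₀ σ, map_div₀ σ, map_pow σ]
  simp only [div_pow, mul_pow, ← pow_mul, mul_comm q n]
  field_simp

end Crest.Agent.T15.Twi
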