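import Mathlib
import Crest.Agent.T15.TwiA_21

/-!
# T15 / TwiB (helper21): inertia at an auxiliary prime, abstract form

`Ω, W, G` as in TwiA; `σ` a Frobenius, `τ` an inertia element, `ω` the Atkin-Lehner element,
`β` the second degeneracy map, `d` and `χ` diamond elements.  `Rel` is the Kummer dictionary between
an additive group of classes and functions.  `twi` : `(τ - 1) (τ - χ) = 0` on `E₁`.
-/

set_option autoImplicit false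
set_option linter.all false

noncomputable section

namespace Crest.Agent.T15.Twi

open scoped NNReal

section alg

variable {H : Type*} [AddCommGroup H]

/-- a `p`-group acting on a finite abelian `p`-group has a fixed point -/
theorem exists_fixed {p : ℕ} [Fact p.Prime] {Δ : Type*} [Group Δ] (hΔ : IsPGroup p Δ) [Finite H]
    (dia : Δ → H →+ H) (h1 : ∀ x, dia 1 x = x) (hm : ∀ a b x, dia (a * b) x = dia a (dia b x))
    (S : AddSubgroup H) (hS : ∀ δ, ∀ x ∈ S, dia δ x ∈ S) (hp : ∀ x ∈ S, ∃ m : ℕ, p ^ m • x = 0)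
    {x : H} (hx : x ∈ S) (h0 : x ≠ 0) : ∃ y ∈ S, y ≠ 0 ∧ ∀ δ, dia δ y = y := by
  letI : MulAction Δ S :=
    { smul := fun δ y => ⟨dia δ y.1, hS δ _ y.2⟩
      one_smul := fun y => Subtype.ext (h1 _)
      mul_smul := fun a b y => Subtype.ext (hm a b _) }
  have hP : IsPGroup p (Multiplicative S) := fun y => by
    obtain ⟨m, e⟩ := hp _ y.toAdd.2
    exact ⟨m, by rw [← ofAdd_toAdd y, ← ofAdd_nsmul]; exact congrArg _ (Subtype.ext e)⟩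
  obtain ⟨k, hk⟩ := hP.exists_card_eq
  have hd : p ∣ Nat.card S := by
    have e : Nat.card S = p ^ k := hk
    rw [e]
    refine dvd_pow_self p ?_
    rintro rfl
    rw [pow_zero, Nat.card_eq_one_iff_unique] at e
    exact h0 (congrArg Subtype.val (e.1.elim ⟨x, hx⟩ 0))
  obtain ⟨b, hb, hne⟩ := hΔ.exists_fixed_point_of_prime_dvd_card_of_fixed_point S hd
    (a := 0) (fun δ => Subtype.ext (map_zero (dia δ)))
  exact ⟨b.1, b.2, fun h => hne (Subtype.ext h.symm), fun δ => congrArg Subtype.val (hb δ)⟩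

/-- congruence relation ⇒ `σ - q` is injective -/
theorem es_inj₁ (E : AddSubgroup H) (σ T D : H →+ H) (q : ℕ)
    (hES : ∀ h ∈ E, σ (σ h) - T (σ h) + q • D h = 0) (hq : ∀ h : H, q • h = 0 → h = 0)
    (hu : ∀ h ∈ E, T h - q • h - D h = 0 → h = 0) : ∀ h ∈ E, σ h = q • h → h = 0 :=
  fun h hh e => hu h hh (hq _ (by
    have := hES h hh
    rw [e, map_nsmul, map_nsmul, e] at this
    rw [← neg_eq_zero, ← this, smul_sub, smul_sub]; abel))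

/-- congruence relation ⇒ `σ² D⁻¹ - q²` is injective -/
theorem es_inj₂ (E : AddSubgroup H) (σ T D D' : H →+ H) (q : ℕ)
    (hES : ∀ h ∈ E, σ (σ h) - T (σ h) + q • D h = 0) (hq : ∀ h : H, q • h = 0 → h = 0)
    (hD' : ∀ h ∈ E, D' h ∈ E) (hDD : ∀ h, D (D' h) = h) (hTσ : ∀ h, T (σ h) = σ (T h))
    (hDσ : ∀ h, D (σ h) = σ (D h)) (hDT : ∀ h, D (T h) = T (D h))
    (hu : ∀ h ∈ E, T (T h) - (q + 1) ^ 2 • D h = 0 → h = 0) :
    ∀ h ∈ E, σ (σ (D' h)) = q ^ 2 • h → h = 0 := fun h hh e => by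
  have h1 := hES _ (hD' h hh)
  rw [e, hDD] at h1
  have h2 : T (σ (D' h)) = (q * (q + 1)) • h := by
    rw [← sub_eq_zero, ← neg_eq_zero, ← h1, mul_add, mul_one, ← pow_two, add_smul]; abel
  have h3 : T (σ h) = (q * (q + 1)) • D h := by
    rw [← map_nsmul, ← h2, hDT, hDσ, hDD]
  have h4 : T (σ (T (σ (D' h)))) = q ^ 2 • T (T h) := by
    rw [← hTσ, e, map_nsmul, map_nsmul]
  rw [h2, map_nsmul, map_nsmul, h3] at h4
  refine hu h hh (hq _ (hq _ ?_))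
  rw [smul_smul, ← pow_two, smul_sub, ← h4, smul_smul, smul_smul, sub_eq_zero]
  congr 1; ring

end alg

variable {Ω : Type*} [Field Ω] {G : Type*} [Group G] [MulSemiringAction G Ω]
variable {W : Valuation Ω ℝ≥0} {C : Subfield Ω} {Γ₁ Γ₀ Γ : Subgroup G} {n q : ℕ}

theorem smul_ne {g : G} {f : Ω} (h : f ≠ 0) : g • f ≠ 0 :=
  fun h0 => h (by rw [← inv_smul_smul g f, h0, smul_zero])

theorem NP.map {σ : Ω →+* Ω} (hσ : ∀ f, W (σ f) = W f) (hm : ∀ f ∈ Fx Ω Γ, σ f ∈ Fx Ω Γ) {f : Ω}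
    (h : NP W Γ n f) : NP W Γ n (σ f) := by
  obtain ⟨g, hg, h⟩ := h
  exact ⟨σ g, hm g hg, (h.map hσ).congr (by rw [map_div₀, map_pow])⟩

/-- all the function-theoretic data at the auxiliary prime `q` -/
structure Geo (W : Valuation Ω ℝ≥0) (C : Subfield Ω) (n q : ℕ) (σ τ : Ω →+* Ω)
    (Γ₁ Γ₀ Γ : Subgroup G) (ω β d χ : G) : Prop extends Lev W C n q σ Γ₁ Γ₀ Γ where
  inert : ∀ f, f ≠ 0 → NP W Γ₁ n (τ f / f)
  τmem : ∀ f ∈ Fx Ω Γ₁, τ f ∈ Fx Ω Γ₁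
  τχ : ∀ f ∈ Fx Ω Γ₁, τ (χ • f) = χ • τ f
  χmem : ∀ f ∈ Fx Ω Γ₁, χ • f ∈ Fx Ω Γ₁
  ωmem : ∀ f ∈ Fx Ω Γ₁, ω • f ∈ Fx Ω Γ₁
  τω : ∀ f ∈ Fx Ω Γ₁, τ (ω • χ • f) = ω • τ f
  dmem : ∀ f ∈ Fx Ω Γ, d • f ∈ Fx Ω Γ
  ωα : ∀ f ∈ Fx Ω Γ, ω • f = β • f
  ωβ : ∀ f ∈ Fx Ω Γ, ω • β • f = d • f
  frob : ∀ f, f ≠ 0 → NP W Γ₁ n (σ (β • f) / f ^ q)

variable {σ τ : Ω →+* Ω} {ω β d χ : G}

theorem Geo.z1 (h : Geo W C n q σ τ Γ₁ Γ₀ Γ ω β d χ) {f : Ω} (hf : f ∈ Fx Ω Γ₁) (h0 : f ≠ 0) :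
    NP W Γ₁ n (τ (τ f / χ • f) / (τ f / χ • f)) ∧
      NP W Γ₁ n (ω • (τ (τ f / χ • f) / (τ f / χ • f))) := by
  have h1 : τ f ≠ 0 := by simpa using h0
  have h2 : τ (τ f) ≠ 0 := by simpa using h0
  refine ⟨h.inert _ (div_ne_zero h1 (smul_ne h0)), ?_⟩
  have hy : τ f / f ∈ Fx Ω Γ₁ := div_mem (h.τmem f hf) hf
  refine (h.inert (ω • χ • (τ f / f)) (smul_ne (smul_ne (div_ne_zero h1 h0)))).congr ?_
  rw [h.τω _ hy, ← smul_div₀']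
  congr 1
  have h3 : χ • f ≠ 0 := smul_ne h0
  have h4 : χ • τ f ≠ 0 := smul_ne h1
  rw [map_div₀, map_div₀, h.τχ f hf, smul_div₀']
  field_simp

theorem Geo.z2 (h : Geo W C n q σ τ Γ₁ Γ₀ Γ ω β d χ) {f g : Ω} (hf : f ∈ Fx Ω Γ)
    (hg : g ∈ Fx Ω Γ) (hf0 : f ≠ 0) (hg0 : g ≠ 0) (h1 : NP W Γ₁ n (f * β • g))
    (h2 : NP W Γ₁ n (ω • (f * β • g))) :
    NP W Γ n (σ (σ f * g ^ q) / (σ f * g ^ q) ^ q) ∧
      NP W Γ n (σ (f ^ q * σ (d • g)) / (f ^ q * σ (d • g)) ^ q) := by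
  have hm : ∀ f ∈ Fx Ω Γ₁, σ f ∈ Fx Ω Γ₁ := fun f hf γ hγ => by
    rw [← h.comm γ (h.le₁ hγ) f hf, hf γ hγ]
  have e1 : σ (β • g) ≠ 0 := by simpa using smul_ne hg0
  have e2 : σ (β • f) ≠ 0 := by simpa using smul_ne hf0
  refine ⟨h.toLev.red_frob (mul_mem (h.mem f hf) (pow_mem hg q)) ?_,
    h.toLev.red_frob (mul_mem (pow_mem hf q) (h.mem _ (h.dmem g hg))) ?_⟩
  · refine ((h1.map h.iso hm).div (h.frob g hg0)).congr ?_
    rw [map_mul]; field_simp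
  · refine ((h2.map h.iso hm).div (h.frob f hf0)).congr ?_
    rw [smul_mul', h.ωα f hf, h.ωβ g hg, map_mul]; field_simp

/-- Kummer dictionary: `R l x f` says that the function `f` represents the `l`-th coordinate of `x` -/
structure Rel (Γ : Subgroup G) (n : ℕ) {Λ H : Type*} [AddCommGroup H] (R : Λ → H → Ω → Prop) :
    Prop where
  mem : ∀ {l x f}, R l x f → f ∈ Fx Ω Γ
  ne : ∀ {l x f}, R l x f → f ≠ 0
  ex : ∀ l x, ∃ f, R l x f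
  sub : ∀ {l x y f g}, R l x f → R l y g → R l (x - y) (f / g)
  uniq : ∀ {l f}, R l 0 f → ∃ g ∈ Fx Ω Γ, f = g ^ n
  sep : ∀ {x}, (∀ l, ∃ g ∈ Fx Ω Γ, R l x (g ^ n)) → x = 0

namespace Rel

variable {Λ H : Type*} [AddCommGroup H] {R : Λ → H → Ω → Prop} (h : Rel Γ n R)
include h

theorem zero (l : Λ) : R l 0 1 := by
  obtain ⟨f, hf⟩ := h.ex l 0
  have := h.sub hf hf
  rwa [sub_self, div_self (h.ne hf)] at this

theorem add {l : Λ} {x y : H} {f g : Ω} (hf : R l x f) (hg : R l y g) : R l (x + y) (f * g) := by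
  have := h.sub hf (h.sub (h.zero l) hg)
  rwa [zero_sub, sub_neg_eq_add, one_div, div_inv_eq_mul] at this

theorem nsmul {l : Λ} {x : H} {f : Ω} (hf : R l x f) (m : ℕ) : R l (m • x) (f ^ m) := by
  induction m with
  | zero => simpa using h.zero l
  | succ m ih => rw [succ_nsmul, pow_succ]; exact h.add ih hf

theorem eq_mul' (hn : 0 < n) {l : Λ} {x : H} {f f' : Ω} (hf : R l x f) (hf' : R l x f') :
    ∃ g ∈ Fx Ω Γ, g ≠ 0 ∧ f = f' * g ^ n := by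
  have := h.sub hf hf'
  rw [sub_self] at this
  obtain ⟨g, hg, e⟩ := h.uniq this
  refine ⟨g, hg, ?_, by rw [← e, mul_div_cancel₀ _ (h.ne hf')]⟩
  rintro rfl
  exact h.ne this (by rw [e, zero_pow hn.ne'])

end Rel

/-- classes whose residues at the two norms `W`, `W ∘ ω` are `n`-th powers -/
def Tor (W : Valuation Ω ℝ≥0) (ω : G) {Λ H : Type*} [AddCommGroup H] {R : Λ → H → Ω → Prop}
    (h : Rel Γ₁ n R) : AddSubgroup H where
  carrier := {x | ∀ l, ∃ f, R l x f ∧ NP W Γ₁ n f ∧ NP W Γ₁ n (ω • f)}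
  zero_mem' l := ⟨1, h.zero l, NP.one, by rw [smul_one]; exact NP.one⟩
  add_mem' hx hy l := by
    obtain ⟨f, h1, h2, h3⟩ := hx l
    obtain ⟨g, h4, h5, h6⟩ := hy l
    exact ⟨f * g, h.add h1 h4, h2.mul h5, by rw [smul_mul']; exact h3.mul h6⟩
  neg_mem' {x} hx l := by
    obtain ⟨f, h1, h2, h3⟩ := hx l
    refine ⟨f⁻¹, ?_, h2.inv, by rw [smul_inv'']; exact h3.inv⟩
    have := h.sub (h.zero l) h1
    rwa [zero_sub, one_div] at this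

/-- **inertia at the auxiliary prime**: `(τ - 1) (τ - χ) = 0` on `E₁` -/
theorem twi (h : Geo W C n q σ τ Γ₁ Γ₀ Γ ω β d χ) {Λ H₁ H : Type*} [AddCommGroup H₁]
    [AddCommGroup H] [Finite H₁] {R₁ : Λ → H₁ → Ω → Prop} {R : Λ → H → Ω → Prop}
    (r₁ : Rel Γ₁ n R₁) (r : Rel Γ n R) {p : ℕ} [Fact p.Prime] {Δ : Type*} [Group Δ]
    (hΔ : IsPGroup p Δ) (dia : Δ → H₁ →+ H₁) (d1 : ∀ x, dia 1 x = x)
    (dm : ∀ a b x, dia (a * b) x = dia a (dia b x)) (hp : ∀ x : H₁, ∃ m : ℕ, p ^ m • x = 0)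
    (t X : H₁ →+ H₁) (s D : H →+ H) (a b : H →+ H₁)
    (ht : ∀ {l x f}, R₁ l x f → R₁ l (t x) (τ f)) (hX : ∀ {l x f}, R₁ l x f → R₁ l (X x) (χ • f))
    (hs : ∀ {l x f}, R l x f → R l (s x) (σ f)) (hD : ∀ {l x f}, R l x f → R l (D x) (d • f))
    (ha : ∀ {l x f}, R l x f → R₁ l (a x) f) (hb : ∀ {l x f}, R l x f → R₁ l (b x) (β • f))
    (dt : ∀ δ x, dia δ (t x) = t (dia δ x)) (dX : ∀ δ x, dia δ (X x) = X (dia δ x))
    (E₁ : AddSubgroup H₁) (E : AddSubgroup H) (tE : ∀ x ∈ E₁, t x ∈ E₁) (XE : ∀ x ∈ E₁, X x ∈ E₁)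
    (dE : ∀ δ, ∀ x ∈ E₁, dia δ x ∈ E₁) (sE : ∀ x ∈ E, s x ∈ E) (DE : ∀ x ∈ E, D x ∈ E)
    (old : ∀ x ∈ E₁, (∀ δ, dia δ x = x) → ∃ y ∈ E, ∃ z ∈ E, x = a y + b z)
    (inj : ∀ {l x f}, x ∈ E → R l x f → NP W Γ n f → ∃ g ∈ Fx Ω Γ, f = g ^ n)
    (i₁ : ∀ x ∈ E, s x = q • x → x = 0) (i₂ : ∀ x ∈ E, s (s (D x)) = q ^ 2 • x → x = 0) :
    ∀ x ∈ E₁, t (t x - X x) = t x - X x := by
  intro x hx
  by_contra hne
  let S : AddSubgroup H₁ := E₁ ⊓ ⨅ δ, (Tor W ω r₁).comap (dia δ)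
  have hS : ∀ y, y ∈ S ↔ y ∈ E₁ ∧ ∀ δ, dia δ y ∈ Tor W ω r₁ := fun y => by
    simp only [S, AddSubgroup.mem_inf, AddSubgroup.mem_iInf, AddSubgroup.mem_comap]
  have hu : t (t x - X x) - (t x - X x) ∈ S := by
    have h1 := E₁.sub_mem (tE x hx) (XE x hx)
    refine (hS _).mpr ⟨E₁.sub_mem (tE _ h1) h1, fun δ l => ?_⟩
    obtain ⟨f, hf⟩ := r₁.ex l (dia δ x)
    have h2 := r₁.sub (ht hf) (hX hf)
    refine ⟨_, ?_, h.z1 (r₁.mem hf) (r₁.ne hf)⟩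
    rw [map_sub, dt, map_sub, dt, dX]
    exact r₁.sub (ht h2) h2
  obtain ⟨y, hy, hy0, hfix⟩ := exists_fixed hΔ dia d1 dm S
    (fun δ y hy => (hS _).mpr ⟨dE δ y ((hS _).mp hy).1, fun δ' => by
      rw [← dm]; exact ((hS _).mp hy).2 _⟩) (fun y _ => hp y) hu (sub_ne_zero.mpr hne)
  obtain ⟨hyE, hyT⟩ := (hS _).mp hy
  obtain ⟨u, hu, v, hv, rfl⟩ := old y hyE hfix
  have hT := hyT 1
  rw [d1] at hT
  have m1 : s u + q • v ∈ E := E.add_mem (sE u hu) (E.nsmul_mem hv q)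
  have m2 : q • u + s (D v) ∈ E := E.add_mem (E.nsmul_mem hu q) (sE _ (DE v hv))
  have key : ∀ l, (∃ g ∈ Fx Ω Γ, R l (s (s u + q • v) - q • (s u + q • v)) (g ^ n)) ∧
      ∃ g ∈ Fx Ω Γ, R l (s (q • u + s (D v)) - q • (q • u + s (D v))) (g ^ n) := fun l => by
    obtain ⟨f, hf⟩ := r.ex l u
    obtain ⟨g, hg⟩ := r.ex l v
    obtain ⟨k, hk, k1, k2⟩ := hT l
    obtain ⟨c, hc, hc0, e⟩ := r₁.eq_mul' h.pos (r₁.add (ha hf) (hb hg)) hk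
    obtain ⟨z1, z2⟩ := h.z2 (r.mem hf) (r.mem hg) (r.ne hf) (r.ne hg)
      (by rw [e]; exact k1.mul (NP.of_pow hc hc0))
      (by rw [e, smul_mul', smul_pow']; exact k2.mul (NP.of_pow (h.ωmem c hc) (smul_ne hc0)))
    have a1 := r.add (hs hf) (r.nsmul hg q)
    have a2 := r.add (r.nsmul hf q) (hs (hD hg))
    have b1 := r.sub (hs a1) (r.nsmul a1 q)
    have b2 := r.sub (hs a2) (r.nsmul a2 q)
    obtain ⟨g1, hg1, e1⟩ := inj (E.sub_mem (sE _ m1) (E.nsmul_mem m1 q)) b1 z1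
    obtain ⟨g2, hg2, e2⟩ := inj (E.sub_mem (sE _ m2) (E.nsmul_mem m2 q)) b2 z2
    exact ⟨⟨g1, hg1, e1 ▸ b1⟩, g2, hg2, e2 ▸ b2⟩
  have c1 := i₁ _ m1 (sub_eq_zero.mp (r.sep fun l => (key l).1))
  have c2 := i₁ _ m2 (sub_eq_zero.mp (r.sep fun l => (key l).2))
  have c3 : s u = -(q • v) := eq_neg_of_add_eq_zero_left c1
  have c4 : s (D v) = -(q • u) := eq_neg_of_add_eq_zero_right c2
  have hv0 : v = 0 := i₂ v hv (by rw [c4, map_neg, map_nsmul, c3, smul_neg, neg_neg, smul_smul, pow_two])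
  subst hv0
  have hu0 : u = 0 := i₁ u hu (by
    rw [map_zero, map_zero, add_zero] at c2
    rw [c3, c2, smul_zero, neg_zero])
  subst hu0
  exact hy0 (by rw [map_zero, map_zero, add_zero])

end Crest.Agent.T15.Twi
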