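import Crest.Agent.T15.Bet_91
import Crest.Agent.T15.MfC_79
import Crest.Agent.T15.ParA_12
import Crest.Agent.T15.CgE_84
import Crest.Agent.T15.CgG_84
import Crest.Agent.T15.Bc_18
import Crest.Agent.T15.TwiB_21

/-!
# T15 / BetCus (helper91): parabolic classes and orders at the cusps; the Kummer dictionary

* `ParS Γ₀ φ`, `CK n Γ₀ x`, `IsK.parS_iff`, `CK.aut`, `IsK.parS_aut`;
* `parS_iff_parH`;
* `rel` : the dictionary `Twi.Rel`.
-/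

set_option autoImplicit false

noncomputable section

namespace Crest.Agent.T15.Bet

open UpperHalfPlane hiding I
open CongruenceSubgroup
open scoped MatrixGroups
open Crest.Agent.T15.Mf Crest.Agent.T15.Hk Crest.Agent.T15.Hs Crest.Agent.T15.Lv
open Crest.Agent.R007 Crest.Agent.R007.Rat

local notation "TT" => ModularGroup.T

variable {n : ℕ} [NeZero n] {Γ₀ : Subgroup SL(2, ℤ)} {A : Type*} [AddCommGroup A]

/-- `φ` vanishes on the parabolic elements -/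
def ParS (Γ₀ : Subgroup SL(2, ℤ)) (φ : HH (Γ₀.map Mf.sq) A) : Prop :=
  ∀ γ ∈ Γ₀, (γ 0 0 + γ 1 1 = 2 ∨ γ 0 0 + γ 1 1 = -2) → val φ (Mf.sq γ) = 0

/-- the orders of `x` at the cusps of `Γ₀` are divisible by `n` -/
def CK (n : ℕ) (Γ₀ : Subgroup SL(2, ℤ)) (x : FF) : Prop :=
  ∀ (g : SL(2, ℤ)) (h : ℤ), g * TT ^ h * g⁻¹ ∈ pm Γ₀ →
    ∃ m : ℤ, (h : ℚ) * (qx (g⁻¹ • x)).order = n * m

lemma conjT_apply (g : SL(2, ℤ)) (h : ℤ) :
    (g * TT ^ h * g⁻¹) 0 0 = 1 - h * g 0 0 * g 1 0 ∧ (g * TT ^ h * g⁻¹) 1 0 = -h * g 1 0 ^ 2 ∧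
      (g * TT ^ h * g⁻¹) 1 1 = 1 + h * g 0 0 * g 1 0 := by
  have hd := det_eq g
  obtain ⟨i1, i2, i3, i4⟩ := inv_apply g
  have t : ∀ i j, (TT ^ h) i j = !![1, h; 0, 1] i j := fun i j => by
    rw [← ModularGroup.coe_T_zpow]
  simp only [Lv.mul_apply, i1, i2, i3, i4, t]
  simp only [Matrix.of_apply, Matrix.cons_val', Matrix.cons_val_zero, Matrix.cons_val_one,
    Matrix.cons_val_fin_one]
  refine ⟨?_, ?_, ?_⟩
  · linear_combination hd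
  · ring
  · linear_combination hd

lemma tr_conjT (g : SL(2, ℤ)) (h : ℤ) : (g * TT ^ h * g⁻¹) 0 0 + (g * TT ^ h * g⁻¹) 1 1 = 2 := by
  obtain ⟨h1, -, h2⟩ := conjT_apply g h
  rw [h1, h2]; ring

/-- `ParS` in terms of conjugates of `T ^ h` -/
theorem parS_iff {φ : HH (Γ₀.map Mf.sq) A} : ParS Γ₀ φ ↔ ∀ γ ∈ Γ₀, ∀ (g : SL(2, ℤ)) (h : ℤ),
    (γ = g * TT ^ h * g⁻¹ ∨ γ = -(g * TT ^ h * g⁻¹)) → val φ (Mf.sq γ) = 0 := by
  constructor
  · rintro hp γ hγ g h (rfl | rfl)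
    · exact hp _ hγ (Or.inl (tr_conjT g h))
    · refine hp _ hγ (Or.inr ?_)
      have := tr_conjT g h
      simp only [Matrix.SpecialLinearGroup.coe_neg, Matrix.neg_apply]
      omega
  · intro hp γ hγ htr
    obtain ⟨ε, g, h, hε | hε, e⟩ := Par.exists_conj γ htr
    · exact hp γ hγ g h (Or.inl (by rw [e, hε, one_mul]))
    · exact hp γ hγ g h (Or.inr (by rw [e, hε, neg_one_mul]))

/-- `± T ^ ℤ` in `GQ` -/
def BT : Subgroup GQ := (pm (Subgroup.zpowers TT)).map Mf.sq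

lemma tr_conj (g : GQ) {b γ : SL(2, ℤ)} (e : Mf.sq γ = g * Mf.sq b * g⁻¹) :
    γ 0 0 + γ 1 1 = b 0 0 + b 1 1 := by
  have h := congrArg (fun x : GQ => ((x : GL (Fin 2) ℚ) : Matrix (Fin 2) (Fin 2) ℚ).trace) e
  simp only [Subgroup.coe_mul, Subgroup.coe_inv, Units.val_mul, Matrix.trace_units_conj] at h
  rw [Matrix.trace_fin_two, Matrix.trace_fin_two] at h
  simp only [Mf.sq_apply] at h
  exact_mod_cast h

theorem parS_iff_parH (O : Type*) [CommRing O] [Module O A] {φ : HH (Γ₀.map Mf.sq) A} :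
    ParS Γ₀ φ ↔ φ ∈ Cg.ParH O BT (Γ₀.map Mf.sq) A := by
  constructor
  · rintro hp g _ ⟨b, hb, rfl⟩ ⟨γ, hγ, e⟩
    rw [← e]
    refine hp γ hγ ?_
    rw [tr_conj g e]
    rcases hb with ⟨h, e⟩ | ⟨h, e⟩
    · exact Or.inl (by simpa [← e] using tr_conjT 1 h)
    · have h1 := tr_conjT 1 h
      simp only [one_mul, inv_one, mul_one] at h1 e
      rw [e] at h1
      simp only [Matrix.SpecialLinearGroup.coe_neg, Matrix.neg_apply] at h1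
      omega
  · intro hp
    refine parS_iff.mpr fun γ hγ g h e => ?_
    obtain ⟨b, hb, e⟩ : ∃ b ∈ pm (Subgroup.zpowers TT), γ = g * b * g⁻¹ := by
      rcases e with e | e
      · exact ⟨TT ^ h, Or.inl ⟨h, rfl⟩, e⟩
      · exact ⟨-TT ^ h, Or.inr ⟨h, (neg_neg _).symm⟩, by rw [e, mul_neg, neg_mul]⟩
    have := hp (Mf.sq g) _ ⟨b, hb, rfl⟩
    rw [← map_inv, ← map_mul, ← map_mul, ← e] at this
    exact this (Subgroup.mem_map_of_mem _ hγ)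

/-- correspondences preserve `ParS` -/
theorem ParS.T {O : Type*} [CommRing O] [Module O A] {Γ₁ : Subgroup SL(2, ℤ)}
    (c : Corr O (Γ₀.map Mf.sq) (Γ₁.map Mf.sq)) {φ : HH (Γ₀.map Mf.sq) A} (h : ParS Γ₀ φ) :
    ParS Γ₁ (T A c φ) := (parS_iff_parH O).mpr (Cg.T_mem_parH c ((parS_iff_parH O).mp h))

lemma ParS.comp {B : Type*} [AddCommGroup B] (l : A →+ B) {φ : HH (Γ₀.map Mf.sq) A}
    (h : ParS Γ₀ φ) : ParS Γ₀ (l.comp φ) := fun γ hγ ht => by rw [val_comp, h γ hγ ht, map_zero]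

lemma parS_of_comp [Finite A] (hm : ∀ c : A, n • c = 0) {φ : HH (Γ₀.map Mf.sq) A}
    (h : ∀ l : A →+ ZMod n, ParS Γ₀ (l.comp φ)) : ParS Γ₀ φ :=
  fun γ hγ ht => Bc.sep hm fun l => by rw [← val_comp, h l γ hγ ht]

variable {x : FF} {φ : HH (Γ₀.map Mf.sq) (ZMod n)}

lemma IsK.par_conj (hK : IsK n (Γ₀.map Mf.sq) x φ) {γ : SL(2, ℤ)} (hγ : γ ∈ Γ₀) {g : SL(2, ℤ)}
    {h : ℤ} (e : γ = g * TT ^ h * g⁻¹ ∨ γ = -(g * TT ^ h * g⁻¹)) :
    ∃ m : ℤ, (h : ℚ) * (qx (g⁻¹ • x)).order = m ∧ val φ (Mf.sq γ) = (m : ZMod n) :=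
  hK.par_SL (Subgroup.mem_map_of_mem _ hγ) g h (e.imp (fun e => by rw [e]; group) fun e => by
    rw [e, mul_neg, neg_mul]; congr 1; group)

/-- **parabolic classes correspond to functions with orders divisible by `n` at the cusps** -/
theorem IsK.parS_iff (hK : IsK n (Γ₀.map Mf.sq) x φ) : ParS Γ₀ φ ↔ CK n Γ₀ x := by
  rw [Bet.parS_iff]
  constructor
  · intro hp g h hg
    obtain ⟨γ, hγ, e⟩ : ∃ γ ∈ Γ₀, γ = g * TT ^ h * g⁻¹ ∨ γ = -(g * TT ^ h * g⁻¹) :=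
      hg.elim (fun h => ⟨_, h, Or.inl rfl⟩) fun h => ⟨_, h, Or.inr rfl⟩
    obtain ⟨m, h1, h2⟩ := hK.par_conj hγ e
    rw [hp γ hγ g h e, eq_comm, ZMod.intCast_zmod_eq_zero_iff_dvd] at h2
    obtain ⟨m', rfl⟩ := h2
    exact ⟨m', by rw [h1]; push_cast; rfl⟩
  · intro hc γ hγ g h e
    obtain ⟨m, h1, h2⟩ := hK.par_conj hγ e
    obtain ⟨m', h3⟩ := hc g h (e.elim (fun e => Or.inl (e ▸ hγ)) fun e => Or.inr (e ▸ hγ))
    have : m = n * m' := by exact_mod_cast h1.symm.trans h3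
    rw [h2, this]; simp

/-! ### `Aut ℂ` -/

lemma order_hm (σ : ℂ →+* ℂ) (y : HS ℂ) : (hm σ y).order = y.order := by
  have hs : (hm σ y).support = y.support := by
    ext r; simp [HahnSeries.mem_support]
  by_cases hy : y = 0
  · rw [hy, map_zero]
  · have h0 : hm σ y ≠ 0 := (map_ne_zero _).mpr hy
    rw [HahnSeries.order_of_ne h0, HahnSeries.order_of_ne hy]
    simp only [hs]

lemma order_aut (σ : ℂ ≃+* ℂ) (y : FF) : (qx (σ • y)).order = (qx y).order := by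
  rw [qx_aut, order_hm]

variable {L : ℕ} {H : Subgroup (ZMod L)ˣ}

lemma mem_pm_GH {γ γ' : SL(2, ℤ)} (h : γ ∈ pm (GH L H)) (h0 : ((γ' 1 0 : ℤ) : ZMod L) = 0)
    (h1 : ((γ' 1 1 : ℤ) : ZMod L) = (γ 1 1 : ℤ)) : γ' ∈ pm (GH L H) := by
  rcases h with ⟨-, u, hu, e⟩ | ⟨-, u, hu, e⟩
  · exact Or.inl ⟨h0, u, hu, e.trans h1.symm⟩
  · refine Or.inr ⟨by simpa using h0, u, hu, e.trans ?_⟩
    simpa using h1.symm

lemma pm_GH_10 {γ : SL(2, ℤ)} (h : γ ∈ pm (GH L H)) : ((γ 1 0 : ℤ) : ZMod L) = 0 := by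
  rcases h with h | h
  · exact h.1
  · simpa using h.1

/-- `Aut ℂ` permutes the cusps of `Γ_H(L)` and keeps widths and orders -/
theorem exists_cusp_aut (hL : L ≠ 0) (σ : ℂ ≃+* ℂ) (g : SL(2, ℤ)) : ∃ δ : SL(2, ℤ),
    (∀ x ∈ F (GH L H), g⁻¹ • σ • x = σ • δ⁻¹ • x) ∧
      ∀ h : ℤ, g * TT ^ h * g⁻¹ ∈ pm (GH L H) → δ * TT ^ h * δ⁻¹ ∈ pm (GH L H) := by
  have h3 : NeZero (L * 3) := ⟨mul_ne_zero hL (by norm_num)⟩
  have hM : 3 ≤ L * 3 := by have := Nat.pos_of_ne_zero hL; omega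
  obtain ⟨s, hs⟩ := exists_zpow_zeta (σ : ℂ →+* ℂ) (L * 3)
  obtain ⟨δ, hδ⟩ := exists_tw (isUnit_of_map_zeta hs) g
  have hcast : ∀ {a b : ℤ}, (a : ZMod (L * 3)) = b → (a : ZMod L) = b := by
    intro a b hab
    rw [ZMod.intCast_eq_intCast_iff_dvd_sub] at hab ⊢
    exact (Int.natCast_dvd_natCast.mpr (Dvd.intro 3 rfl)).trans hab
  refine ⟨δ, fun x hx => ?_, fun h hg => ?_⟩
  · rw [aut_smul, aut_smul, gal_inv_smul hM hs (x := x) (fun γ' h' => hx _ (GH_le (Dvd.intro 3 rfl)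
      (H' := ⊥) (fun u hu => by rw [Subgroup.mem_bot.1 hu, map_one]; exact one_mem _)
      (Gamma_le_GH h'))) hδ]
  · have e0 := hcast hδ.1
    have e1 : ((s * g 1 0 : ℤ) : ZMod L) = (δ 1 0 : ℤ) := hcast (by push_cast; exact hδ.2.2.1)
    have h0 := pm_GH_10 hg
    have h1 := (pm (GH L H)).zpow_mem hg s
    rw [conj_zpow, ← zpow_mul] at h1
    rw [(conjT_apply g h).2.1] at h0
    refine mem_pm_GH h1 ?_ ?_
    · rw [(conjT_apply δ h).2.1]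
      push_cast at h0 e1 ⊢
      rw [← e1]; linear_combination (s : ZMod L) ^ 2 * h0
    · rw [(conjT_apply δ h).2.2, (conjT_apply g _).2.2]
      push_cast at e1 ⊢
      rw [← e1, e0]; ring

theorem CK.aut (hL : L ≠ 0) (σ : ℂ ≃+* ℂ) {n : ℕ} (hx : x ∈ F (GH L H)) (hc : CK n (GH L H) x) :
    CK n (GH L H) (σ • x) := fun g h hg => by
  obtain ⟨δ, h1, h2⟩ := exists_cusp_aut (H := H) hL σ g
  rw [h1 x hx, order_aut]
  exact hc δ h (h2 h hg)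

lemma IsK.mem_F (hK : IsK n (Γ₀.map Mf.sq) x φ) : x ∈ F Γ₀ :=
  fun _ hγ => hK.fixed _ (Subgroup.mem_map_of_mem _ hγ)

/-- **`Aut ℂ` preserves parabolic classes** -/
theorem IsK.parS_aut (hL : L ≠ 0) (σ : ℂ ≃+* ℂ) {φ φ' : HH (Gq L H) (ZMod n)}
    (hK : IsK n (Gq L H) x φ) (hK' : IsK n (Gq L H) (σ • x) φ') (hp : ParS (GH L H) φ) :
    ParS (GH L H) φ' :=
  (IsK.parS_iff hK').mpr (CK.aut hL σ (IsK.mem_F hK) ((IsK.parS_iff hK).mp hp))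

/-! ### the dictionary -/

theorem exists_of_odd {M : ℕ} (hM : M ≠ 0) (hΓ : Gamma M ≤ Γ₀) (hn : Odd n ∨ (-1 : SL(2, ℤ)) ∉ Γ₀)
    (φ : HH (Γ₀.map Mf.sq) (ZMod n)) : ∃ x : FF, IsK n (Γ₀.map Mf.sq) x φ := by
  refine exists_of_hom hM hΓ φ fun h => ?_
  have hn := hn.resolve_right (not_not.mpr h)
  have h1 := Subgroup.mem_map_of_mem Mf.sq h
  have h2 := val_mul φ h1 h1
  rw [← map_mul, neg_mul_neg, one_mul, map_one, val_one, ← two_mul] at h2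
  have h3 : IsUnit ((2 : ℕ) : ZMod n) := (ZMod.isUnit_iff_coprime 2 n).mpr (Nat.coprime_two_left.mpr hn)
  exact (h3.mul_right_eq_zero).mp (by exact_mod_cast h2.symm)

/-- **the Kummer dictionary** -/
theorem rel {M : ℕ} (hM : M ≠ 0) (hΓ : Gamma M ≤ Γ₀) (hn : Odd n ∨ (-1 : SL(2, ℤ)) ∉ Γ₀)
    {C : Type*} [AddCommGroup C] [Finite C] (hm : ∀ c : C, n • c = 0) {V : Type*} [AddCommGroup V]
    (i : V →+ HH (Γ₀.map Mf.sq) C) (hi : Function.Injective i) :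
    Twi.Rel (Γ₀.map Mf.sq) n
      fun (l : C →+ ZMod n) (v : V) (f : FF) => IsK n (Γ₀.map Mf.sq) f (l.comp (i v)) where
  mem h := h.fixed
  ne h := h.ne
  ex _ _ := exists_of_odd hM hΓ hn _
  sub h h' := by
    rw [map_sub, AddMonoidHom.comp_sub]; exact h.div h'
  uniq h := by
    rw [map_zero, AddMonoidHom.comp_zero] at h
    obtain ⟨y, h1, h2⟩ := h.exists_pow hM fun γ hγ => Subgroup.mem_map_of_mem _ (hΓ hγ)
    exact ⟨y, h1, h2.symm⟩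
  sep {v} h := hi ((Bc.HH_sep hm fun l => by
    obtain ⟨g, hg, h1⟩ := h l
    rw [AddMonoidHom.comp_zero]
    exact h1.unique (IsK.of_fixed (ne_zero_pow (NeZero.ne n) h1.ne) hg)).trans (map_zero i).symm)

end Crest.Agent.T15.Bet
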