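import Crest.Agent.T15.CgI_84
import Crest.Agent.T15.BetCus_91

/-!
# Row 15, block T: reduction is injective on parabolic Kummer classes (helper84)

`DvdStmt`, `IgStmt` : the two geometric inputs; `inj_GH`, `inj_plc`.
-/

set_option autoImplicit false
set_option linter.unusedSectionVars false

noncomputable section

namespace Crest.Agent.T15.Cg

open scoped NNReal MatrixGroups
open Crest.Agent.T15.Hs Crest.Agent.T15.Mf Crest.Agent.T15.Lv Crest.Agent.T15.Bet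
open Crest.Agent.T15.Hk Crest.Agent.R013.RR7_948 Crest.Agent.R013.RR8_948
open Crest.Agent.R013.RR9_948 Crest.Agent.R013.RR11_948 Crest.Agent.R013.RR12_948
open Crest.Agent.R013.RR14_948 (del)
open Crest.Agent.R018.Placesx484

/-- parabolic Kummer classes have divisors divisible by `n` -/
def DvdStmt : Prop :=
  ∀ (M : ℕ) [NeZero M] (H : Subgroup (ZMod M)ˣ) (h4 : 4 ∣ M), (∀ u ∈ H, ZMod.unitsMap h4 u = 1) →
    ∀ (n : ℕ) [NeZero n] (y : F (GH M H)) (φ : HH (Gq M H) (ZMod n)), ParS (GH M H) φ →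
      IsK n (Gq M H) (y : FF) φ → ∀ P : Pl ℂ (F (GH M H)), (n : ℤ) ∣ divf (k := ℂ) y P

/-- good reduction of `X_H(M)` for the Gauss norm over `v` -/
def IgAt (v : Valuation ℂ ℝ≥0) (M : ℕ) [NeZero M] (H : Subgroup (ZMod M)ˣ) : Prop :=
  ∃ (k κ : Type) (_ : Field k) (_ : IsAlgClosed k) (_ : Field κ) (_ : Algebra k κ)
    (_ : Algebra (RatFunc k) κ) (_ : IsScalarTower k (RatFunc k) κ)
    (_ : FiniteDimensional (RatFunc k) κ) (_ : Algebra.IsSeparable (RatFunc k) κ)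
    (r : ℂ → k) (ρ : F (GH M H) → κ) (sp : Pl ℂ (F (GH M H)) → Pl k κ),
    Disc.Good v r (gwK v (F (GH M H))) ρ sp ∧ del k κ (ρ (xK ℂ (F (GH M H)))) ≠ 0

/-- Igusa's theorem -/
def IgStmt : Prop :=
  ∀ (M : ℕ) [NeZero M] (H : Subgroup (ZMod M)ˣ) (h4 : 4 ∣ M), (∀ u ∈ H, ZMod.unitsMap h4 u = 1) →
    ∀ (v : Valuation ℂ ℝ≥0) (l : ℕ), l.Prime → v (l : ℂ) < 1 → ¬ l ∣ M → IgAt v M H

variable {M : ℕ} [NeZero M] {H : Subgroup (ZMod M)ˣ} {n : ℕ} [NeZero n]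

lemma fix_Gq (x : FF) :
    (∀ γ ∈ Gq M H, γ • x = x) ↔ ∃ y : F (GH M H), algebraMap (F (GH M H)) FF y = x :=
  ⟨fun h => ⟨⟨x, fun γ hγ => h _ (Subgroup.mem_map_of_mem _ hγ)⟩, rfl⟩, by
    rintro ⟨y, rfl⟩ _ ⟨γ, hγ, rfl⟩
    exact y.2 γ hγ⟩

lemma res_natCast {K k : Type*} [Field K] [Field k] {v : Valuation K ℝ≥0} {r : K → k}
    (h : R013.GR4_921.IsRes v r) (n : ℕ) : v (n : K) ≤ 1 ∧ r (n : K) = n := by
  induction n with
  | zero => simp [h.zero]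
  | succ n ih =>
    rw [Nat.cast_succ, Nat.cast_succ, h.add _ _ ih.1 (by simp), ih.2, h.one]
    exact ⟨(Valuation.map_add _ _ _).trans (max_le ih.1 (by simp)), rfl⟩

theorem inj_GH (hD : DvdStmt) (h4 : 4 ∣ M) (hH : ∀ u ∈ H, ZMod.unitsMap h4 u = 1)
    {v : Valuation ℂ ℝ≥0} (hI : IgAt v M H) (hn : v (n : ℂ) = 1) :
    Inj v n (Gq M H) {φ | ParS (GH M H) φ} := by
  obtain ⟨k, κ, _, _, _, _, _, _, _, _, r, ρ, sp, hG, -⟩ := hI
  refine inj_of_good hG (isG v) (algebraMap (F (GH M H)) FF) (fun _ => rfl) (fun _ => rfl) fix_Gq ?_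
    fun y φ hφ hy => hD M H h4 hH n y φ hφ hy
  rw [← (res_natCast hG.rd.resC n).2]
  exact (hG.rd.resC.ne_zero_iff hn.le).2 hn

theorem inj_plc (hD : DvdStmt) (hI : IgStmt) (h4 : 4 ∣ M) (hH : ∀ u ∈ H, ZMod.unitsMap h4 u = 1)
    {Ω : Type} [Field Ω] [CharZero Ω] [IsGalois ℚ Ω] [IsAlgClosed Ω] (ι : Ω →+* ℂ) (P : Place Ω)
    (hM : ¬ P.rchar ∣ M) (hn : ¬ P.rchar ∣ n) : Inj (vC ι P) n (Gq M H) {φ | ParS (GH M H) φ} :=
  inj_GH hD h4 hH (hI M H h4 hH _ _ P.rchar_prime (vC_rchar_lt_one ι P) hM) (vC_natCast_eq_one ι P hn)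

end Crest.Agent.T15.Cg

end
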