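import Mathlib

/-!
# Row 15 (helper71): equivariant integral functions on a finite set

`C` a valued field, `s : G → Aut C`, `π : G → Perm X`.
* `Wf vC s` : the ring of fixed integral elements; `Eqv vC s π` : equivariant integral functions;
* `exists_delta`, `mem_of_approx` : a point separating `Wf`-subalgebra of `Eqv` is open and closed
  among the equivariant functions (no completeness, no discreteness);
* `inv_mem`, `solve_mem` (Cramer), `fg_adjoin`;
* `IsHopf vC s act A` : Hopf order.
-/

set_option autoImplicit false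
set_option linter.all false

namespace Crest.Agent.T15.Hopf

open Polynomial
open scoped NNReal

variable {C : Type*} [Field C] (vC : Valuation C ℝ≥0) {G : Type*} (s : G → C ≃+* C)

/-- fixed integral elements -/
def Wf : Subring C where
  carrier := {c | vC c ≤ 1 ∧ ∀ g, s g c = c}
  mul_mem' := fun {a b} ha hb => ⟨by rw [map_mul]; exact mul_le_one' ha.1 hb.1,
    fun g => by rw [map_mul, ha.2, hb.2]⟩
  one_mem' := ⟨by simp, fun g => map_one _⟩
  add_mem' := fun {a b} ha hb => ⟨(Valuation.map_add _ _ _).trans (max_le ha.1 hb.1),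
    fun g => by rw [map_add, ha.2, hb.2]⟩
  zero_mem' := ⟨by simp, fun g => map_zero _⟩
  neg_mem' := fun {a} ha => ⟨by rw [Valuation.map_neg]; exact ha.1, fun g => by rw [map_neg, ha.2]⟩

theorem mem_Wf {c : C} : c ∈ Wf vC s ↔ vC c ≤ 1 ∧ ∀ g, s g c = c := Iff.rfl

variable {X : Type*} (π : G → X ≃ X)

/-- equivariant functions -/
def IsEq (f : X → C) : Prop := ∀ g x, f (π g x) = s g (f x)

/-- equivariant integral functions -/
def Eqv : Subalgebra (Wf vC s) (X → C) where
  carrier := {f | (∀ x, vC (f x) ≤ 1) ∧ IsEq s π f}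
  mul_mem' := fun {a b} ha hb => ⟨fun x => by
      rw [Pi.mul_apply, map_mul]; exact mul_le_one' (ha.1 x) (hb.1 x),
    fun g x => by rw [Pi.mul_apply, Pi.mul_apply, map_mul, ha.2, hb.2]⟩
  add_mem' := fun {a b} ha hb => ⟨fun x => (Valuation.map_add _ _ _).trans (max_le (ha.1 x) (hb.1 x)),
    fun g x => by rw [Pi.add_apply, Pi.add_apply, map_add, ha.2, hb.2]⟩
  algebraMap_mem' := fun c => ⟨fun x => c.2.1, fun g x => (c.2.2 g).symm⟩

theorem mem_Eqv {f : X → C} : f ∈ Eqv vC s π ↔ (∀ x, vC (f x) ≤ 1) ∧ IsEq s π f := Iff.rfl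

/-- separation of points -/
def Sep (B : Set (X → C)) : Prop := ∀ x y : X, x ≠ y → ∃ f ∈ B, f x ≠ f y

variable {vC s π}

theorem const_mem (B : Subalgebra (Wf vC s) (X → C)) {c : C} (hc : c ∈ Wf vC s) :
    (fun _ => c) ∈ B := B.algebraMap_mem ⟨c, hc⟩

theorem span_eq_top [Fintype X] {W : Subring C} (B : Subalgebra W (X → C)) (hs : Sep (B : Set (X → C))) :
    Submodule.span C (B : Set (X → C)) = ⊤ := by
  classical
  have hmul : ∀ f ∈ Submodule.span C (B : Set (X → C)), ∀ g ∈ Submodule.span C (B : Set (X → C)),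
      f * g ∈ Submodule.span C (B : Set (X → C)) := by
    intro f hf g hg
    have h1 := Submodule.mul_mem_mul hf hg
    rw [Submodule.span_mul_span] at h1
    refine Submodule.span_mono ?_ h1
    rintro _ ⟨a, ha, b, hb, rfl⟩
    exact B.mul_mem ha hb
  have hone : (1 : X → C) ∈ Submodule.span C (B : Set (X → C)) := Submodule.subset_span B.one_mem
  have hsingle : ∀ x : X, (Pi.single x (1 : C) : X → C) ∈ Submodule.span C (B : Set (X → C)) := by
    intro x
    have h1 : ∀ T : Finset X, x ∉ T → ∃ e ∈ Submodule.span C (B : Set (X → C)), e x = 1 ∧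
        ∀ y ∈ T, e y = 0 := by
      intro T
      induction T using Finset.induction_on with
      | empty => exact fun _ => ⟨1, hone, rfl, by simp⟩
      | insert y T hy ih =>
        intro hx
        rw [Finset.mem_insert, not_or] at hx
        obtain ⟨e, he, he1, he0⟩ := ih hx.2
        obtain ⟨f, hf, hne⟩ := hs x y hx.1
        refine ⟨e * ((f x - f y)⁻¹ • (f - f y • 1)), hmul _ he _ (Submodule.smul_mem _ _
          (Submodule.sub_mem _ (Submodule.subset_span hf) (Submodule.smul_mem _ _ hone))), ?_, ?_⟩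
        · simp [he1, inv_mul_cancel₀ (sub_ne_zero.mpr hne)]
        · intro z hz
          rw [Finset.mem_insert] at hz
          rcases hz with rfl | hz
          · simp
          · simp [he0 z hz]
    obtain ⟨e, he, he1, he0⟩ := h1 (Finset.univ.erase x) (by simp)
    have h2 : (Pi.single x (1 : C) : X → C) = e := by
      funext y
      by_cases hy : y = x
      · rw [hy, he1, Pi.single_eq_same]
      · rw [he0 y (by simp [hy]), Pi.single_eq_of_ne hy]
    rw [h2]; exact he
  rw [eq_top_iff]
  intro f _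
  rw [pi_eq_sum_univ' f]
  refine Submodule.sum_mem _ fun x _ => Submodule.smul_mem _ _ ?_
  convert hsingle x

/-- small equivariant functions lie in `B` -/
theorem exists_delta [Fintype X] (B : Subalgebra (Wf vC s) (X → C)) (hB : B ≤ Eqv vC s π)
    (hs : Sep (B : Set (X → C))) :
    ∃ δ : ℝ≥0, 0 < δ ∧ ∀ ψ : X → C, IsEq s π ψ → (∀ x, vC (ψ x) ≤ δ) → ψ ∈ B := by
  classical
  obtain ⟨t, ht, hspan, hli⟩ := exists_linearIndependent C (B : Set (X → C))
  rw [span_eq_top B hs] at hspan
  have hfin : t.Finite := hli.set_finite_of_isNoetherian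
  haveI : Fintype t := hfin.fintype
  let b : Module.Basis t C (X → C) := Module.Basis.mk hli (by rw [Subtype.range_coe, hspan])
  have hb : ∀ i, b i = (i : X → C) := fun i => Module.Basis.mk_apply _ _ i
  let N : ℝ≥0 := (Finset.univ : Finset (X × t)).sup
    (fun p => vC (b.repr (Pi.single p.1 (1 : C)) p.2)) + 1
  have hN : 0 < N := by positivity
  refine ⟨N⁻¹, inv_pos.mpr hN, fun ψ hψ hle => ?_⟩
  have hsum := b.sum_repr ψ
  have hc : ∀ i, b.repr ψ i ∈ Wf vC s := by
    intro i
    constructor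
    · have h1 : b.repr ψ i = ∑ x, ψ x * b.repr (Pi.single x (1 : C)) i := by
        conv_lhs => rw [pi_eq_sum_univ' ψ]
        rw [map_sum, Finsupp.finsetSum_apply]
        refine Finset.sum_congr rfl fun x _ => ?_
        rw [map_smul, Finsupp.smul_apply, smul_eq_mul]
      rw [h1]
      refine Valuation.map_sum_le _ fun x _ => ?_
      rw [map_mul]
      have h2 : vC (b.repr (Pi.single x (1 : C)) i) ≤ N :=
        (Finset.le_sup (f := fun p : X × t => vC (b.repr (Pi.single p.1 (1 : C)) p.2))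
          (Finset.mem_univ (x, i))).trans (le_add_of_nonneg_right zero_le)
      calc _ ≤ N⁻¹ * N := mul_le_mul' (hle x) h2
        _ = 1 := inv_mul_cancel₀ hN.ne'
    · intro g
      have h1 : ∑ j, s g (b.repr ψ j) • b j = ψ := by
        funext y
        obtain ⟨x, rfl⟩ := (π g).surjective y
        rw [hψ g x]
        conv_rhs => rw [← hsum]
        rw [Finset.sum_apply, Finset.sum_apply, map_sum]
        refine Finset.sum_congr rfl fun j _ => ?_
        rw [Pi.smul_apply, Pi.smul_apply, smul_eq_mul, smul_eq_mul, map_mul, hb,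
          (hB (ht j.2)).2 g x]
      have h2 := congrArg (fun f => b.repr f i) h1
      simp only [map_sum, map_smul, Module.Basis.repr_self, Finsupp.finsetSum_apply,
        Finsupp.smul_apply, smul_eq_mul, Finsupp.single_apply, mul_ite, mul_one, mul_zero,
        Finset.sum_ite_eq', Finset.mem_univ, if_true] at h2
      exact h2
  rw [← hsum]
  refine B.sum_mem fun i _ => ?_
  have h3 : b.repr ψ i • b i = (⟨b.repr ψ i, hc i⟩ : Wf vC s) • (i : X → C) := by rw [hb]; rfl
  rw [h3]
  exact B.smul_mem (ht i.2) _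

theorem mem_of_approx [Fintype X] {B : Subalgebra (Wf vC s) (X → C)} (hB : B ≤ Eqv vC s π)
    (hs : Sep (B : Set (X → C))) {ψ : X → C} (hψ : IsEq s π ψ) {θ : ℝ≥0} (hθ : θ < 1)
    (h : ∀ n : ℕ, ∃ b ∈ B, ∀ x, vC (ψ x - b x) ≤ θ ^ n) : ψ ∈ B := by
  obtain ⟨δ, hδ, hm⟩ := exists_delta B hB hs
  obtain ⟨n, hn⟩ := exists_pow_lt_of_lt_one hδ hθ
  obtain ⟨b, hb, hle⟩ := h n
  have h1 := hm (ψ - b) (fun g x => by
    rw [Pi.sub_apply, Pi.sub_apply, map_sub, hψ, (hB hb).2]) (fun x => (hle x).trans hn.le)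
  have h2 := B.add_mem h1 hb
  rwa [sub_add_cancel] at h2

theorem exists_theta [Fintype X] (φ : X → ℝ≥0) (h : ∀ x, φ x < 1) :
    ∃ θ : ℝ≥0, θ < 1 ∧ ∀ x, φ x ≤ θ :=
  ⟨Finset.univ.sup φ, (Finset.sup_lt_iff (by simp)).mpr fun x _ => h x,
    fun x => Finset.le_sup (Finset.mem_univ x)⟩

theorem inv_mem [Fintype X] {B : Subalgebra (Wf vC s) (X → C)} (hB : B ≤ Eqv vC s π)
    (hs : Sep (B : Set (X → C))) {f : X → C} (hf : f ∈ B) (h1 : ∀ x, vC (f x - 1) < 1) :
    (fun x => (f x)⁻¹) ∈ B := by
  obtain ⟨θ, hθ, hle⟩ := exists_theta _ h1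
  refine mem_of_approx hB hs (fun g x => by simp only [(hB hf).2 g x, map_inv₀]) hθ fun n => ?_
  refine ⟨∑ i ∈ Finset.range n, (1 - f) ^ i,
    B.sum_mem fun i _ => B.pow_mem (B.sub_mem B.one_mem hf) i, fun x => ?_⟩
  have hv : vC (f x) = 1 := by
    have h2 : f x = 1 + (f x - 1) := by ring
    rw [h2, Valuation.map_add_eq_of_lt_left _ (by rw [map_one]; exact h1 x), map_one]
  have h0 : f x ≠ 0 := by rintro h0; rw [h0] at hv; simp at hv
  have h3 : (f x)⁻¹ - (∑ i ∈ Finset.range n, (1 - f) ^ i) x = (f x)⁻¹ * (1 - f x) ^ n := by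
    rw [Finset.sum_apply]
    simp only [Pi.pow_apply, Pi.sub_apply, Pi.one_apply]
    have h4 := mul_neg_geom_sum (1 - f x) n
    rw [sub_sub_cancel] at h4
    field_simp
    rw [h4]; ring
  rw [h3, map_mul, map_inv₀, hv, inv_one, one_mul, map_pow, Valuation.map_sub_swap]
  exact pow_le_pow_left' (hle x) n

theorem det_near_one {I : Type*} [Fintype I] [DecidableEq I] (M : Matrix I I C)
    (h : ∀ i j, vC (M i j - (1 : Matrix I I C) i j) < 1) : vC (M.det - 1) < 1 := by
  have hle : ∀ i j, M i j ∈ vC.valuationSubring := by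
    intro i j
    have h1 : M i j = (M i j - (1 : Matrix I I C) i j) + (1 : Matrix I I C) i j := by ring
    show vC (M i j) ≤ 1
    rw [h1]
    refine (Valuation.map_add _ _ _).trans (max_le (h i j).le ?_)
    rw [Matrix.one_apply]; split_ifs <;> simp
  let M' : Matrix I I vC.valuationSubring := fun i j => ⟨M i j, hle i j⟩
  let r := IsLocalRing.residue vC.valuationSubring
  have h1 : r.mapMatrix M' = 1 := by
    rw [← map_one r.mapMatrix]
    ext i j
    rw [RingHom.mapMatrix_apply, RingHom.mapMatrix_apply, Matrix.map_apply, Matrix.map_apply,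
      ← sub_eq_zero, ← map_sub, IsLocalRing.residue_eq_zero_iff, Valuation.mem_maximalIdeal_iff]
    convert h i j using 2
    show M i j - _ = _
    congr 1
    rw [Matrix.one_apply, Matrix.one_apply]; split_ifs <;> simp
  have h2 : r (M'.det - 1) = 0 := by rw [map_sub, RingHom.map_det, h1, Matrix.det_one, map_one, sub_self]
  rw [IsLocalRing.residue_eq_zero_iff, Valuation.mem_maximalIdeal_iff] at h2
  convert h2 using 2
  have h3 := RingHom.map_det (vC.valuationSubring.subtype) M'
  show M.det - 1 = vC.valuationSubring.subtype (M'.det - 1)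
  rw [map_sub, map_one, h3]
  rfl

/-- Cramer's rule in `B` -/
theorem solve_mem [Fintype X] {B : Subalgebra (Wf vC s) (X → C)} (hB : B ≤ Eqv vC s π)
    (hs : Sep (B : Set (X → C))) {I : Type*} [Fintype I] [DecidableEq I] (M : I → I → X → C)
    (hM : ∀ i j, M i j ∈ B) (h1 : ∀ x i j, vC (M i j x - (1 : Matrix I I C) i j) < 1)
    (y : I → X → C) (hy : ∀ i, y i ∈ B) (c : I → X → C)
    (hc : ∀ x i, ∑ j, M i j x * c j x = y i x) (j : I) : c j ∈ B := by
  let M' : Matrix I I B := fun i j => ⟨M i j, hM i j⟩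
  let y' : I → B := fun i => ⟨y i, hy i⟩
  let E : X → B →+* C := fun x => (Pi.evalRingHom (fun _ : X => C) x).comp B.val.toRingHom
  have hE : ∀ x (b : B), E x b = (b : X → C) x := fun _ _ => rfl
  have hdet : ∀ x, vC ((M'.det : X → C) x - 1) < 1 := by
    intro x
    rw [← hE, RingHom.map_det]
    exact det_near_one _ (h1 x)
  have h2 := B.mul_mem (inv_mem hB hs M'.det.2 hdet) (M'.adjugate.mulVec y' j).2
  convert h2 using 1
  funext x
  have hd0 : (M'.det : X → C) x ≠ 0 := by
    intro h0; have := hdet x; rw [h0] at this; simp at this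
  have h3 : ((E x).mapMatrix M').mulVec (fun j => c j x) = fun i => y i x := by
    funext i; exact hc x i
  have h4 := congrArg (((E x).mapMatrix M').adjugate.mulVec) h3
  rw [Matrix.mulVec_mulVec, Matrix.adjugate_mul, Matrix.smul_mulVec, Matrix.one_mulVec,
    ← RingHom.map_det, ← RingHom.map_adjugate] at h4
  have h5 := congrFun h4 j
  rw [Pi.smul_apply, smul_eq_mul, hE] at h5
  have h6 : ((M'.adjugate.mulVec y' j : B) : X → C) x
      = ((E x).mapMatrix M'.adjugate).mulVec (fun i => y i x) j := by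
    rw [← hE]
    unfold Matrix.mulVec dotProduct
    rw [map_sum]
    exact Finset.sum_congr rfl fun i _ => by rw [map_mul]; rfl
  rw [Pi.mul_apply, h6, ← h5, inv_mul_cancel_left₀ hd0]

theorem isIntegral_of_mem [Fintype X] {f : X → C} (hf : f ∈ Eqv vC s π) :
    IsIntegral (Wf vC s) f := by
  classical
  let p : C[X] := ∏ x, (Polynomial.X - Polynomial.C (f x))
  have hp : p.Monic := monic_prod_of_monic _ _ fun x _ => monic_X_sub_C _
  have h1 : p ∈ lifts (vC.integer.subtype) := by
    refine Subsemiring.prod_mem _ fun x _ => ?_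
    exact ⟨Polynomial.X - Polynomial.C ⟨f x, hf.1 x⟩, by simp⟩
  have h2 : ∀ g, p.map (s g : C →+* C) = p := by
    intro g
    rw [Polynomial.map_prod]
    simp only [Polynomial.map_sub, map_X, map_C]
    refine Fintype.prod_equiv (π g) _ _ fun x => ?_
    rw [hf.2 g x]; rfl
  have h3 : p ∈ lifts (algebraMap (Wf vC s) C) := by
    rw [lifts_iff_coeff_lifts] at h1 ⊢
    intro n
    obtain ⟨a, ha⟩ := h1 n
    refine ⟨⟨p.coeff n, ?_, fun g => ?_⟩, rfl⟩
    · rw [← ha]; exact a.2
    · have := congrArg (fun q => q.coeff n) (h2 g)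
      simpa using this
  obtain ⟨q, hq, -, hqm⟩ := lifts_and_degree_eq_and_monic h3 hp
  refine ⟨q, hqm, ?_⟩
  funext x
  have h4 : (eval₂ (algebraMap (Wf vC s) (X → C)) f q) x = eval (f x) p := by
    rw [← hq, eval_map]
    exact Polynomial.hom_eval₂ q (algebraMap (Wf vC s) (X → C)) (Pi.evalRingHom (fun _ : X => C) x) f
  rw [h4, eval_prod]
  exact Finset.prod_eq_zero (Finset.mem_univ x) (by simp)

theorem fg_adjoin [Fintype X] {S : Set (X → C)} (hS : S.Finite) (h : S ⊆ Eqv vC s π) :
    (Algebra.adjoin (Wf vC s) S).toSubmodule.FG :=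
  fg_adjoin_of_finite hS fun f hf => isIntegral_of_mem (h hf)

variable (vC s) in
/-- a Hopf order: a finite `Wf`-algebra of equivariant integral functions on the finite group `V`,
separating points and stable under the antipode and the comultiplication -/
structure IsHopf {V : Type*} [AddCommGroup V] (act : G → V ≃+ V)
    (A : Subalgebra (Wf vC s) (V → C)) : Prop where
  fg : A.toSubmodule.FG
  le : A ≤ Eqv vC s fun g => (act g).toEquiv
  sep : Sep (A : Set (V → C))
  neg : ∀ f ∈ A, (fun a => f (-a)) ∈ A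
  add : ∀ f ∈ A, (fun x : V × V => f (x.1 + x.2)) ∈ Submodule.span (Wf vC s)
    {F : V × V → C | ∃ f₁ ∈ A, ∃ f₂ ∈ A, F = fun x => f₁ x.1 * f₂ x.2}

end Crest.Agent.T15.Hopf
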