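import Mathlib
import Crest.Agent.R013.GR7_921

/-!
# Row 15, block T (helper71): residue discs of a function field with good reduction

`Good vC ρC w ρ sp` : the norm `w` of `L / C` has good reduction `κ / k` with specialisation map `sp`.
* `ev P u` value of `u` at the place `P`;
* `Reg sp b u` : no poles in the residue disc of `b`; maximum principle, reduction of values;
* `red_LD` : `L(D)` reduces onto `L(sp D)` if the dimensions agree; local parameters of discs;
* `exists_nonspecial` : `g` distinct places off a finite set whose sum has `ℓ = 1`.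
-/

set_option autoImplicit false
set_option linter.all false

namespace Crest.Agent.T15.Disc

open Polynomial WithZero Module
open scoped NNReal
open Crest.Agent.R013.RR7_948 Crest.Agent.R013.RR8_948 Crest.Agent.R013.RR9_948
open Crest.Agent.R013.RR11_948 Crest.Agent.R013.RR12_948
open Crest.Agent.R013.GR2_921 Crest.Agent.R013.GR4_921
open Crest.Agent.R013.GR5_921 Crest.Agent.R013.GR6_921 Crest.Agent.R013.GR7_921

section val

variable {k : Type*} [Field k] {K : Type*} [Field K] [Algebra k K]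

theorem v_const_le (P : Pl k K) (c : k) : P.v (algebraMap k K c) ≤ 1 := by
  by_cases hc : c = 0
  · simp [hc]
  · rw [P.const c hc]

theorem const_eq_of_lt (P : Pl k K) {c d : k}
    (h : P.v (algebraMap k K c - algebraMap k K d) < 1) : c = d := by
  by_contra hne
  rw [← map_sub, P.const _ (sub_ne_zero.mpr hne)] at h
  exact lt_irrefl _ h

variable [Algebra (RatFunc k) K] [IsScalarTower k (RatFunc k) K] [FiniteDimensional (RatFunc k) K]
  [Algebra.IsSeparable (RatFunc k) K]

theorem v_le_exp_iff {f : K} (hf : f ≠ 0) (P : Pl k K) (n : ℤ) :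
    P.v f ≤ exp n ↔ -n ≤ divf (k := k) f P := by
  rw [v_eq hf, exp_le_exp]; omega

theorem v_le_one_iff {f : K} (hf : f ≠ 0) (P : Pl k K) :
    P.v f ≤ 1 ↔ 0 ≤ divf (k := k) f P := by
  rw [← exp_zero, v_le_exp_iff hf]; simp

theorem v_lt_one_iff {f : K} (hf : f ≠ 0) (P : Pl k K) :
    P.v f < 1 ↔ 0 < divf (k := k) f P := by
  rw [v_eq hf, ← exp_zero, exp_lt_exp]; omega

theorem v_eq_one_iff {f : K} (hf : f ≠ 0) (P : Pl k K) :
    P.v f = 1 ↔ divf (k := k) f P = 0 := by
  rw [v_eq hf, ← exp_zero, exp_inj]; omega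

theorem divf_const {c : k} (hc : c ≠ 0) : divf (k := k) (algebraMap k K c) = 0 := by
  ext P
  have h0 : algebraMap k K c ≠ 0 := by simpa using hc
  exact (v_eq_one_iff h0 P).mp (P.const c hc)

theorem divf_pow {f : K} (hf : f ≠ 0) (n : ℕ) : divf (k := k) (f ^ n) = n • divf f := by
  induction n with
  | zero => simp [divf_one]
  | succ n ih => rw [pow_succ, divf_mul (pow_ne_zero n hf) hf, ih, succ_nsmul]

theorem divf_div {f g : K} (hf : f ≠ 0) (hg : g ≠ 0) :
    divf (k := k) (f / g) = divf f - divf g := by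
  rw [div_eq_mul_inv, divf_mul hf (inv_ne_zero hg), divf_inv hg, sub_eq_add_neg]

variable [IsAlgClosed k]

/-- the value of `u` at `P` (zero at poles) -/
noncomputable def ev (P : Pl k K) (u : K) : k := by
  classical
  exact if h : P.v u ≤ 1 then (exists_const P h).choose else 0

theorem ev_spec (P : Pl k K) {u : K} (hu : P.v u ≤ 1) :
    P.v (u - algebraMap k K (ev P u)) < 1 := by
  unfold ev
  rw [dif_pos hu]
  exact (exists_const P hu).choose_spec

theorem v_le_of_sub_lt (P : Pl k K) {u : K} {c : k} (h : P.v (u - algebraMap k K c) < 1) :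
    P.v u ≤ 1 := by
  have h1 : u = (u - algebraMap k K c) + algebraMap k K c := by ring
  rw [h1]
  exact (Valuation.map_add _ _ _).trans (max_le h.le (v_const_le P c))

theorem ev_eq (P : Pl k K) {u : K} {c : k} (h : P.v (u - algebraMap k K c) < 1) : ev P u = c := by
  have h1 := ev_spec P (v_le_of_sub_lt P h)
  apply const_eq_of_lt P
  have h2 : algebraMap k K (ev P u) - algebraMap k K c
      = (u - algebraMap k K c) - (u - algebraMap k K (ev P u)) := by ring
  rw [h2]
  exact lt_of_le_of_lt (Valuation.map_sub _ _ _) (max_lt h h1)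

theorem ev_const (P : Pl k K) (c : k) : ev P (algebraMap k K c) = c :=
  ev_eq P (by simp)

theorem ev_zero (P : Pl k K) : ev P (0 : K) = 0 := ev_eq P (by simp)

theorem ev_one (P : Pl k K) : ev P (1 : K) = 1 := ev_eq P (by simp)

theorem ev_add (P : Pl k K) {u u' : K} (hu : P.v u ≤ 1) (hu' : P.v u' ≤ 1) :
    ev P (u + u') = ev P u + ev P u' := by
  apply ev_eq
  have h : u + u' - algebraMap k K (ev P u + ev P u')
      = (u - algebraMap k K (ev P u)) + (u' - algebraMap k K (ev P u')) := by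
    rw [map_add]; ring
  rw [h]
  exact lt_of_le_of_lt (Valuation.map_add _ _ _) (max_lt (ev_spec P hu) (ev_spec P hu'))

theorem ev_mul (P : Pl k K) {u u' : K} (hu : P.v u ≤ 1) (hu' : P.v u' ≤ 1) :
    ev P (u * u') = ev P u * ev P u' := by
  apply ev_eq
  have h : u * u' - algebraMap k K (ev P u * ev P u')
      = (u - algebraMap k K (ev P u)) * u' +
        algebraMap k K (ev P u) * (u' - algebraMap k K (ev P u')) := by
    rw [map_mul]; ring
  rw [h]
  refine lt_of_le_of_lt (Valuation.map_add _ _ _) (max_lt ?_ ?_)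
  · rw [map_mul]
    exact mul_lt_one_of_lt_of_le (ev_spec P hu) hu'
  · rw [map_mul]
    rw [mul_comm]
    exact mul_lt_one_of_lt_of_le (ev_spec P hu') (v_const_le P _)

theorem ev_neg (P : Pl k K) {u : K} (hu : P.v u ≤ 1) : ev P (-u) = -ev P u := by
  apply ev_eq
  have h : -u - algebraMap k K (-ev P u) = -(u - algebraMap k K (ev P u)) := by
    rw [map_neg]; ring
  rw [h, Valuation.map_neg]
  exact ev_spec P hu

theorem ev_sub (P : Pl k K) {u u' : K} (hu : P.v u ≤ 1) (hu' : P.v u' ≤ 1) :
    ev P (u - u') = ev P u - ev P u' := by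
  rw [sub_eq_add_neg, ev_add P hu (by rwa [Valuation.map_neg]), ev_neg P hu', sub_eq_add_neg]

theorem ev_eq_zero_iff (P : Pl k K) {u : K} (hu : P.v u ≤ 1) : ev P u = 0 ↔ P.v u < 1 := by
  constructor
  · intro h
    have h1 := ev_spec P hu
    rwa [h, map_zero, sub_zero] at h1
  · intro h
    exact ev_eq P (by simpa using h)

theorem ev_smul (P : Pl k K) (c : k) {u : K} (hu : P.v u ≤ 1) :
    ev P (c • u) = c * ev P u := by
  rw [Algebra.smul_def, ev_mul P (v_const_le P c) hu, ev_const]

theorem ev_sum (P : Pl k K) {ι : Type*} (s : Finset ι) (f : ι → K) (hf : ∀ i ∈ s, P.v (f i) ≤ 1) :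
    ev P (∑ i ∈ s, f i) = ∑ i ∈ s, ev P (f i) := by
  classical
  induction s using Finset.induction_on with
  | empty => simp [ev_zero]
  | insert a s ha ih =>
    rw [Finset.sum_insert ha, Finset.sum_insert ha,
      ev_add P (hf a (Finset.mem_insert_self a s))
        (Valuation.map_sum_le _ fun i hi => hf i (Finset.mem_insert_of_mem hi)),
      ih fun i hi => hf i (Finset.mem_insert_of_mem hi)]

theorem ev_pow (P : Pl k K) {u : K} (hu : P.v u ≤ 1) (n : ℕ) : ev P (u ^ n) = ev P u ^ n := by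
  induction n with
  | zero => rw [pow_zero, pow_zero, ev_one]
  | succ n ih =>
    rw [pow_succ, pow_succ, ev_mul P (by rw [map_pow]; exact pow_le_one' hu n) hu, ih]

theorem mem_range_of_LD {D : Pl k K →₀ ℤ} (hD : 0 ≤ D) (h1 : ell D ≤ 1) {z : K} (hz : z ∈ LD D) :
    z ∈ Set.range (algebraMap k K) := by
  haveI := LD_finite D
  have hle : LD (0 : Pl k K →₀ ℤ) ≤ LD D := LD_mono hD
  have heq : LD (0 : Pl k K →₀ ℤ) = LD D := by
    apply Submodule.eq_of_le_of_finrank_le hle
    have := ell_zero (k := k) (K := K) hc_of_isAlgClosed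
    unfold ell at this h1
    omega
  rw [← heq, LD_zero hc_of_isAlgClosed, Submodule.mem_one] at hz
  exact hz

theorem exists_mem_LD {D : Pl k K →₀ ℤ} (h : (gen k K : ℤ) ≤ degD D) :
    ∃ f : K, f ≠ 0 ∧ f ∈ LD D := by
  have h1 := ell_ge (k := k) (K := K) hc_of_isAlgClosed D
  have h2 : LD D ≠ ⊥ := by
    intro h0
    have : ell D = 0 := by unfold ell; rw [h0]; simp
    omega
  obtain ⟨f, hf, hf0⟩ := Submodule.exists_mem_ne_zero_of_ne_bot h2
  exact ⟨f, hf0, hf⟩

/-- the divisor `∑_{b ∈ T} b` -/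
noncomputable def sumD (T : Finset (Pl k K)) : Pl k K →₀ ℤ := ∑ b ∈ T, Finsupp.single b 1

omit [Algebra (RatFunc k) K] [IsScalarTower k (RatFunc k) K] [FiniteDimensional (RatFunc k) K]
  [Algebra.IsSeparable (RatFunc k) K] [IsAlgClosed k] in
theorem sumD_apply [DecidableEq (Pl k K)] (T : Finset (Pl k K)) (b : Pl k K) :
    sumD T b = if b ∈ T then 1 else 0 := by
  unfold sumD
  rw [Finsupp.finsetSum_apply]
  simp only [Finsupp.single_apply]
  rw [Finset.sum_ite_eq' T b (fun _ => (1 : ℤ))]

omit [Algebra (RatFunc k) K] [IsScalarTower k (RatFunc k) K] [FiniteDimensional (RatFunc k) K]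
  [Algebra.IsSeparable (RatFunc k) K] [IsAlgClosed k] in
theorem sumD_nonneg (T : Finset (Pl k K)) : 0 ≤ sumD T := by
  classical
  intro b
  rw [sumD_apply]
  split_ifs
  · show (0 : ℤ) ≤ 1; norm_num
  · exact le_refl _

theorem degD_sumD (T : Finset (Pl k K)) : degD (sumD T) = T.card := by
  classical
  unfold sumD
  induction T using Finset.induction_on with
  | empty => simp [degD_zero]
  | insert a s ha ih =>
    rw [Finset.sum_insert ha, degD_add, ih, degD_single, degP_eq_one, Finset.card_insert_of_notMem ha]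
    push_cast; ring

/-- generic points lower the dimension -/
theorem exists_drop (E : Pl k K →₀ ℤ) (S : Finset (Pl k K)) (n : ℕ) :
    ∃ T : Finset (Pl k K), T.card = n ∧ Disjoint T S ∧ ell (E - sumD T) ≤ ell E - n := by
  classical
  induction n with
  | zero => exact ⟨∅, rfl, by simp, by simp [sumD]⟩
  | succ n ih =>
    obtain ⟨T, hT, hTS, hle⟩ := ih
    by_cases h0 : LD (E - sumD T) = ⊥
    · obtain ⟨b, hb⟩ := exists_notMem (k := k) (K := K) (S ∪ T)
      rw [Finset.mem_union, not_or] at hb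
      refine ⟨insert b T, by rw [Finset.card_insert_of_notMem hb.2, hT], ?_, ?_⟩
      · rw [Finset.disjoint_insert_left]; exact ⟨hb.1, hTS⟩
      · have h1 : E - sumD (insert b T) ≤ E - sumD T := by
          intro c
          simp only [Finsupp.sub_apply, sumD_apply, Finset.mem_insert]
          split_ifs <;> first | omega | simp_all
        have h2 := ell_mono h1
        have h3 : ell (E - sumD T) = 0 := by unfold ell; rw [h0]; simp
        omega
    · obtain ⟨z, hz, hz0⟩ := Submodule.exists_mem_ne_zero_of_ne_bot h0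
      obtain ⟨b, hb⟩ := exists_notMem (k := k) (K := K)
        (S ∪ T ∪ (E - sumD T + divf (k := k) z).support)
      rw [Finset.mem_union, Finset.mem_union, not_or, not_or] at hb
      obtain ⟨⟨hbS, hbT⟩, hbz⟩ := hb
      refine ⟨insert b T, by rw [Finset.card_insert_of_notMem hbT, hT], ?_, ?_⟩
      · rw [Finset.disjoint_insert_left]; exact ⟨hbS, hTS⟩
      · have h1 : E - sumD (insert b T) ≤ E - sumD T := by
          intro c
          simp only [Finsupp.sub_apply, sumD_apply, Finset.mem_insert]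
          split_ifs <;> first | omega | simp_all
        have hlt : LD (E - sumD (insert b T)) < LD (E - sumD T) := by
          refine lt_of_le_of_ne (LD_mono h1) ?_
          intro heq
          rw [← heq, mem_LD_iff hz0] at hz
          have h2 := hz b
          rw [Finsupp.notMem_support_iff] at hbz
          simp only [Finsupp.add_apply, Finsupp.sub_apply, sumD_apply, Finset.mem_insert, true_or,
            if_true, hbT, if_false, Finsupp.zero_apply] at h2 hbz
          omega
        haveI := LD_finite (E - sumD T)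
        have h2 : ell (E - sumD (insert b T)) < ell (E - sumD T) :=
          Submodule.finrank_lt_finrank_of_lt hlt
        omega

/-- `g` distinct places off a finite set, non special after adding any fixed degree zero class -/
theorem exists_nonspecial (D : Pl k K →₀ ℤ) (hD : degD D = 0) (S : Finset (Pl k K)) :
    ∃ T : Finset (Pl k K), T.card = gen k K ∧ Disjoint T S ∧ ell (D + sumD T) = 1 := by
  obtain ⟨T, hT, hTS, hle⟩ := exists_drop (canD k K - D) S (gen k K)
  refine ⟨T, hT, hTS, ?_⟩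
  have h1 := riemann_roch (k := k) (K := K) hc_of_isAlgClosed (D + sumD T)
  have h2 := riemann_roch (k := k) (K := K) hc_of_isAlgClosed D
  have h3 : canD k K - (D + sumD T) = canD k K - D - sumD T := by abel
  have h4 : ell D ≤ 1 := by
    by_cases h0 : LD D = ⊥
    · unfold ell; rw [h0]; simp
    · obtain ⟨z, hz, hz0⟩ := Submodule.exists_mem_ne_zero_of_ne_bot h0
      rw [mem_LD_iff hz0] at hz
      have h5 : (0 : Pl k K →₀ ℤ) = D + divf z :=
        eq_of_le_of_degD hz (by rw [degD_add, hD, degD_divf hz0, degD_zero]; simp)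
      rw [← ell_add_divf D hz0, ← h5, ell_zero hc_of_isAlgClosed]
  rw [h3, degD_add, hD, degD_sumD, hT] at h1
  rw [hD] at h2
  omega

end val

section mapD

variable {A B : Type*}

theorem le_mapDomain (D : A →₀ ℤ) (f : A → B) {b : B} (h : ∀ a, f a = b → 0 ≤ D a) {a : A}
    (ha : f a = b) : D a ≤ D.mapDomain f b := by
  classical
  have h1 : D = (D - Finsupp.single a (D a)) + Finsupp.single a (D a) := by abel
  have h2 := mapDomain_nonneg_of (D - Finsupp.single a (D a)) f b (by
    intro c hc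
    rw [Finsupp.sub_apply, Finsupp.single_apply]
    have := h c hc
    split_ifs with h3
    · subst h3; omega
    · omega)
  conv_rhs => rw [h1]
  rw [Finsupp.mapDomain_add, Finsupp.mapDomain_single, Finsupp.add_apply, ha,
    Finsupp.single_eq_same]
  omega

theorem add_le_mapDomain (D : A →₀ ℤ) (f : A → B) {b : B} (h : ∀ a, f a = b → 0 ≤ D a) {a a' : A}
    (ha : f a = b) (ha' : f a' = b) (hne : a' ≠ a) : D a + D a' ≤ D.mapDomain f b := by
  classical
  have h1 : D = (D - Finsupp.single a (D a)) + Finsupp.single a (D a) := by abel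
  have h2 := le_mapDomain (D - Finsupp.single a (D a)) f (b := b) (by
    intro c hc
    rw [Finsupp.sub_apply, Finsupp.single_apply]
    have := h c hc
    split_ifs with h3
    · subst h3; omega
    · omega) ha'
  rw [Finsupp.sub_apply, Finsupp.single_apply, if_neg (Ne.symm hne)] at h2
  conv_rhs => rw [h1]
  rw [Finsupp.mapDomain_add, Finsupp.mapDomain_single, Finsupp.add_apply, ha,
    Finsupp.single_eq_same]
  omega

theorem mapDomain_congr_fibre (D D' : A →₀ ℤ) (f : A → B) {b : B}
    (h : ∀ a, f a = b → D a = D' a) : D.mapDomain f b = D'.mapDomain f b := by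
  have h1 := mapDomain_nonneg_of (D - D') f b (by
    intro a ha; rw [Finsupp.sub_apply, h a ha]; omega)
  have h2 := mapDomain_nonneg_of (D' - D) f b (by
    intro a ha; rw [Finsupp.sub_apply, h a ha]; omega)
  have h3 : (D - D').mapDomain f = D.mapDomain f - D'.mapDomain f :=
    map_sub (Finsupp.mapDomain.addMonoidHom f) D D'
  have h4 : (D' - D).mapDomain f = D'.mapDomain f - D.mapDomain f :=
    map_sub (Finsupp.mapDomain.addMonoidHom f) D' D
  rw [h3, Finsupp.sub_apply] at h1
  rw [h4, Finsupp.sub_apply] at h2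
  omega

theorem exists_pos_of_mapDomain_pos (D : A →₀ ℤ) (f : A → B) {b : B} (h : 0 < D.mapDomain f b) :
    ∃ a, f a = b ∧ 0 < D a := by
  by_contra hcon
  push Not at hcon
  have h1 := mapDomain_nonneg_of (-D) f b (by
    intro a ha; rw [Finsupp.neg_apply]; have := hcon a ha; omega)
  have h3 : (-D).mapDomain f = -D.mapDomain f := map_neg (Finsupp.mapDomain.addMonoidHom f) D
  rw [h3, Finsupp.neg_apply] at h1
  omega

theorem mapDomain_nonneg {D : A →₀ ℤ} (hD : 0 ≤ D) (f : A → B) : 0 ≤ D.mapDomain f :=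
  fun b => mapDomain_nonneg_of D f b fun a _ => hD a

end mapD

section good

variable {C : Type*} [Field C] [IsAlgClosed C] [CharZero C] {L : Type*} [Field L] [Algebra C L]
  [Algebra (RatFunc C) L] [IsScalarTower C (RatFunc C) L] [FiniteDimensional (RatFunc C) L]
  {k κ : Type*} [Field k] [IsAlgClosed k] [Field κ] [Algebra k κ]
  [Algebra (RatFunc k) κ] [IsScalarTower k (RatFunc k) κ] [FiniteDimensional (RatFunc k) κ]
  [Algebra.IsSeparable (RatFunc k) κ]

/-- good reduction -/
structure Good (vC : Valuation C ℝ≥0) (ρC : C → k) (w : Valuation L ℝ≥0) (ρ : L → κ)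
    (sp : Pl C L → Pl k κ) : Prop where
  rd : Red vC ρC w ρ
  orth : Orth vC w
  gen_eq : gen k κ = gen C L
  spp : SpP w ρ sp

theorem exists_good {vC : Valuation C ℝ≥0} {ρC : C → k} {w : Valuation L ℝ≥0} {ρ : L → κ}
    (h : Red vC ρC w ρ) (hO : Orth vC w) (hg : gen k κ = gen C L) :
    ∃ sp : Pl C L → Pl k κ, Good vC ρC w ρ sp := by
  obtain ⟨sp, hsp⟩ := exists_sp h hO hg
  exact ⟨sp, h, hO, hg, hsp⟩

/-- no pole in the residue disc of `b` -/
def Reg (sp : Pl C L → Pl k κ) (b : Pl k κ) (u : L) : Prop := ∀ P, sp P = b → P.v u ≤ 1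

namespace Reg

variable {sp : Pl C L → Pl k κ} {b : Pl k κ}

theorem const (c : C) : Reg sp b (algebraMap C L c) := fun P _ => v_const_le P c

theorem add {u u' : L} (h : Reg sp b u) (h' : Reg sp b u') : Reg sp b (u + u') :=
  fun P hP => (Valuation.map_add _ _ _).trans (max_le (h P hP) (h' P hP))

theorem sub {u u' : L} (h : Reg sp b u) (h' : Reg sp b u') : Reg sp b (u - u') :=
  fun P hP => (Valuation.map_sub _ _ _).trans (max_le (h P hP) (h' P hP))

theorem mul {u u' : L} (h : Reg sp b u) (h' : Reg sp b u') : Reg sp b (u * u') :=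
  fun P hP => by rw [map_mul]; exact mul_le_one' (h P hP) (h' P hP)

theorem smul (c : C) {u : L} (h : Reg sp b u) : Reg sp b (c • u) := by
  rw [Algebra.smul_def]; exact (const c).mul h

theorem pow {u : L} (h : Reg sp b u) (n : ℕ) : Reg sp b (u ^ n) :=
  fun P hP => by rw [map_pow]; exact pow_le_one' (h P hP) n

theorem sum {ι : Type*} (s : Finset ι) (f : ι → L) (h : ∀ i ∈ s, Reg sp b (f i)) :
    Reg sp b (∑ i ∈ s, f i) :=
  fun P hP => Valuation.map_sum_le _ fun i hi => h i hi P hP

end Reg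

namespace Good

variable {vC : Valuation C ℝ≥0} {ρC : C → k} {w : Valuation L ℝ≥0} {ρ : L → κ}
  {sp : Pl C L → Pl k κ} (h : Good vC ρC w ρ sp)

include h

theorem res_ne {u : L} (hu : w u = 1) : ρ u ≠ 0 := (h.rd.res.ne_zero_iff hu.le).mpr hu

theorem reg_res {b : Pl k κ} {u : L} (hu : w u ≤ 1) (hr : Reg sp b u) : b.v (ρ u) ≤ 1 := by
  by_cases h1 : w u = 1
  · have hu0 : u ≠ 0 := by rintro rfl; simp at h1
    rw [v_le_one_iff (h.res_ne h1), h.spp u h1]
    exact mapDomain_nonneg_of _ _ _ fun P hP => (v_le_one_iff hu0 P).mp (hr P hP)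
  · rw [(h.rd.res.zero_iff u hu).mpr (lt_of_le_of_ne hu h1)]; simp

theorem res_lt {b : Pl k κ} {u : L} (hu : w u ≤ 1) (hr : Reg sp b u) {P : Pl C L} (hP : sp P = b)
    (hz : P.v u < 1) : b.v (ρ u) < 1 := by
  by_cases h1 : w u = 1
  · have hu0 : u ≠ 0 := by rintro rfl; simp at h1
    rw [v_lt_one_iff (h.res_ne h1), h.spp u h1]
    exact lt_of_lt_of_le ((v_lt_one_iff hu0 P).mp hz)
      (le_mapDomain _ _ (fun Q hQ => (v_le_one_iff hu0 Q).mp (hr Q hQ)) hP)
  · rw [(h.rd.res.zero_iff u hu).mpr (lt_of_le_of_ne hu h1)]; simp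

theorem ev_le_one {u : L} (hu : w u ≤ 1) {P : Pl C L} (hr : Reg sp (sp P) u) :
    vC (ev P u) ≤ 1 := by
  by_contra hcon
  push Not at hcon
  set c := ev P u with hc
  have hc0 : c ≠ 0 := by rintro h0; rw [h0, map_zero] at hcon; exact not_lt_of_ge zero_le hcon
  have hci : vC c⁻¹ < 1 := by rw [map_inv₀]; exact inv_lt_one_of_one_lt₀ hcon
  have h1 : w (algebraMap C L c⁻¹ * u) < 1 := by
    rw [map_mul, h.rd.norm]; exact mul_lt_one_of_lt_of_le hci hu
  have h2 : w (algebraMap C L c⁻¹ * u - 1) ≤ 1 :=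
    (Valuation.map_sub _ _ _).trans (max_le h1.le (by simp))
  have h3 : Reg sp (sp P) (algebraMap C L c⁻¹ * u - 1) :=
    ((Reg.const _).mul hr).sub (fun Q _ => by simp)
  have h4 : P.v (algebraMap C L c⁻¹ * u - 1) < 1 := by
    rw [← ev_eq_zero_iff P (h3 P rfl), ev_sub P (((Reg.const _).mul hr) P rfl) (by simp),
      ev_mul P (v_const_le P _) (hr P rfl), ev_const, ev_one, ← hc, inv_mul_cancel₀ hc0, sub_self]
  have h5 := h.res_lt h2 h3 rfl h4
  rw [h.rd.res.sub h1.le (by simp), (h.rd.res.zero_iff _ h1.le).mpr h1, h.rd.res.one] at h5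
  simp at h5

/-- values reduce to values -/
theorem res_ev {u : L} (hu : w u ≤ 1) {P : Pl C L} (hr : Reg sp (sp P) u) :
    ρC (ev P u) = ev (sp P) (ρ u) := by
  have h1 := h.ev_le_one hu hr
  have h2 : w (algebraMap C L (ev P u)) ≤ 1 := by rw [h.rd.norm]; exact h1
  have h3 := h.res_lt ((Valuation.map_sub _ _ _).trans (max_le hu h2)) (hr.sub (Reg.const _)) rfl
    (ev_spec P (hr P rfl))
  rw [h.rd.res.sub hu h2, h.rd.comp _ h1] at h3
  exact (ev_eq _ h3).symm

/-- maximum principle -/
theorem ev_le {u : L} {P : Pl C L} (hr : Reg sp (sp P) u) : vC (ev P u) ≤ w u := by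
  by_cases hu0 : u = 0
  · rw [hu0, ev_zero]; simp
  obtain ⟨c, hc0, hc, hc1⟩ := h.rd.normalise hu0
  have h1 := h.ev_le_one hc1.le (hr.mul (Reg.const c⁻¹))
  rw [ev_mul P (hr P rfl) (v_const_le P _), ev_const, map_mul, map_inv₀] at h1
  have hpos : 0 < vC c := by rw [Valuation.pos_iff]; exact hc0
  rw [hc]
  rwa [mul_inv_le_iff₀ hpos, one_mul] at h1

theorem sp_surj (b : Pl k κ) : ∃ P, sp P = b := by
  obtain ⟨z, hz0, hz⟩ := exists_v_eq b (-1)
  obtain ⟨u, hu, rfl⟩ := h.rd.res.lift hz0
  have h1 : 0 < divf (k := k) (ρ u) b := by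
    rw [← v_lt_one_iff hz0, hz, ← exp_zero, exp_lt_exp]; norm_num
  rw [h.spp u hu] at h1
  obtain ⟨P, hP, _⟩ := exists_pos_of_mapDomain_pos _ _ h1
  exact ⟨P, hP⟩

theorem degD_map (D : Pl C L →₀ ℤ) : degD (D.mapDomain sp) = degD D := by
  rw [degD_eq_sum, degD_eq_sum, sum_mapDomain]

theorem res_mem_LD {D : Pl C L →₀ ℤ} {u : L} (hu : u ∈ LD D) (hw : w u ≤ 1) :
    ρ u ∈ LD (D.mapDomain sp) := by
  by_cases h1 : w u = 1
  · have hu0 : u ≠ 0 := by rintro rfl; simp at h1
    rw [mem_LD_iff hu0] at hu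
    rw [mem_LD_iff (h.res_ne h1), h.spp u h1, ← Finsupp.mapDomain_add]
    exact mapDomain_nonneg hu sp
  · rw [(h.rd.res.zero_iff u hw).mpr (lt_of_le_of_ne hw h1)]; exact zero_mem _

theorem ell_le (D : Pl C L →₀ ℤ) : ell D ≤ ell (D.mapDomain sp) := by
  have h1 := finrank_red_LD h.rd h.orth D
  haveI := LD_finite (D.mapDomain sp)
  rw [← h1.2]
  apply Submodule.finrank_mono
  rintro _ ⟨x, hx, hx1, rfl⟩
  exact h.res_mem_LD hx hx1

/-- lifting of functions -/
theorem lift_LD {D : Pl C L →₀ ℤ} (hD : ell (D.mapDomain sp) ≤ ell D) {z : κ}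
    (hz : z ∈ LD (D.mapDomain sp)) : ∃ u ∈ LD D, w u ≤ 1 ∧ ρ u = z := by
  have h1 := finrank_red_LD h.rd h.orth D
  haveI := LD_finite (D.mapDomain sp)
  have hle : red h.rd (LD D) ≤ LD (D.mapDomain sp) := by
    rintro _ ⟨x, hx, hx1, rfl⟩
    exact h.res_mem_LD hx hx1
  have heq := Submodule.eq_of_le_of_finrank_le hle (by rw [h1.2]; exact hD)
  rw [← heq] at hz
  exact hz

theorem ell_eq_of_big {D : Pl C L →₀ ℤ} (hD : 2 * (gen C L : ℤ) - 2 < degD D) :
    ell (D.mapDomain sp) = ell D := by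
  have h1 := ell_eq_of_lt (k := C) (K := L) hc_of_isAlgClosed hD
  have h2 := ell_eq_of_lt (k := k) (K := κ) hc_of_isAlgClosed (D := D.mapDomain sp)
    (by rw [h.degD_map, h.gen_eq]; exact hD)
  rw [h.degD_map, h.gen_eq] at h2
  omega

/-- a regular function of norm one whose reduction has a simple zero has exactly one zero -/
theorem divf_of_simple {b : Pl k κ} {t : L} (ht : w t = 1) (hr : Reg sp b t)
    (hb : divf (k := k) (ρ t) b = 1) {P : Pl C L} (hP : sp P = b) (hz : P.v t < 1) :
    divf (k := C) t P = 1 ∧ ∀ Q, sp Q = b → Q ≠ P → divf (k := C) t Q = 0 := by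
  have ht0 : t ≠ 0 := by rintro rfl; simp at ht
  have hnn : ∀ Q, sp Q = b → 0 ≤ divf (k := C) t Q := fun Q hQ => (v_le_one_iff ht0 Q).mp (hr Q hQ)
  have h1 := (v_lt_one_iff ht0 P).mp hz
  rw [h.spp t ht] at hb
  have h2 := le_mapDomain _ sp hnn hP
  refine ⟨by omega, fun Q hQ hne => ?_⟩
  have h3 := add_le_mapDomain _ sp hnn hP hQ hne
  have h4 := hnn Q hQ
  omega

/-- such a function has a zero in the disc -/
theorem exists_zero {b : Pl k κ} {t : L} (ht : w t = 1) (hb : 0 < divf (k := k) (ρ t) b) :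
    ∃ P, sp P = b ∧ P.v t < 1 := by
  have ht0 : t ≠ 0 := by rintro rfl; simp at ht
  rw [h.spp t ht] at hb
  obtain ⟨P, hP, h1⟩ := exists_pos_of_mapDomain_pos _ _ hb
  exact ⟨P, hP, (v_lt_one_iff ht0 P).mpr h1⟩

/-- local parameter of a disc, centred at `P` -/
theorem exists_param (P : Pl C L) :
    ∃ t : L, w t = 1 ∧ Reg sp (sp P) t ∧ divf (k := k) (ρ t) (sp P) = 1 ∧ P.v t < 1 := by
  classical
  obtain ⟨b0, hb0⟩ := exists_notMem (k := k) (K := κ) {sp P}
  rw [Finset.mem_singleton] at hb0
  obtain ⟨P0, rfl⟩ := h.sp_surj b0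
  have hne : P0 ≠ P := by rintro rfl; exact hb0 rfl
  set m : ℤ := 2 * gen C L + 2 with hm
  set D : Pl C L →₀ ℤ := Finsupp.single P0 m - Finsupp.single P 1 with hD
  have hmap : D.mapDomain sp = Finsupp.single (sp P0) m - Finsupp.single (sp P) 1 := by
    have := map_sub (Finsupp.mapDomain.addMonoidHom sp) (Finsupp.single P0 m) (Finsupp.single P 1)
    simp only [Finsupp.mapDomain.addMonoidHom_apply, Finsupp.mapDomain_single] at this
    exact this
  have hdeg : degD D = m - 1 := by
    rw [hD, degD_sub, degD_single, degD_single, degP_eq_one, degP_eq_one]; simp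
  have e1 := ell_eq_of_lt (k := k) (K := κ) hc_of_isAlgClosed (D := D.mapDomain sp)
    (by rw [h.degD_map, h.gen_eq, hdeg]; omega)
  have e2 := ell_eq_of_lt (k := k) (K := κ) hc_of_isAlgClosed
    (D := D.mapDomain sp - Finsupp.single (sp P) 1)
    (by rw [degD_sub, h.degD_map, h.gen_eq, hdeg, degD_single, degP_eq_one]; push_cast; omega)
  rw [degD_sub, degD_single, degP_eq_one] at e2
  have hex : ∃ z ∈ LD (D.mapDomain sp), z ∉ LD (D.mapDomain sp - Finsupp.single (sp P) 1) := by
    by_contra hcon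
    push Not at hcon
    haveI := LD_finite (D.mapDomain sp - Finsupp.single (sp P) 1)
    have h1 : ell (D.mapDomain sp) ≤ ell (D.mapDomain sp - Finsupp.single (sp P) 1) :=
      Submodule.finrank_mono hcon
    push_cast at e2
    omega
  obtain ⟨z, hz1, hz2⟩ := hex
  obtain ⟨t, ht, hw, rfl⟩ := h.lift_LD (h.ell_eq_of_big (by rw [hdeg]; omega)).le hz1
  have hz0 : ρ t ≠ 0 := by rintro h0; rw [h0] at hz2; exact hz2 (zero_mem _)
  have hw1 : w t = 1 := (h.rd.res.ne_zero_iff hw).mp hz0
  have ht0 : t ≠ 0 := by rintro rfl; simp at hw1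
  rw [mem_LD_iff ht0] at ht
  rw [mem_LD_iff hz0] at hz1 hz2
  refine ⟨t, hw1, ?_, ?_, ?_⟩
  · intro Q hQ
    rw [v_le_one_iff ht0]
    have h1 := ht Q
    have hQ0 : P0 ≠ Q := by rintro rfl; exact hb0 hQ
    simp only [hD, Finsupp.add_apply, Finsupp.sub_apply, Finsupp.single_apply, if_neg hQ0,
      Finsupp.zero_apply] at h1
    split_ifs at h1 <;> omega
  · have h1 := hz1 (sp P)
    have h2 : ¬ (0 ≤ (D.mapDomain sp - Finsupp.single (sp P) 1 + divf (k := k) (ρ t) :
        Pl k κ →₀ ℤ) (sp P)) := by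
      intro h3
      apply hz2
      intro c
      by_cases hc : c = sp P
      · rw [hc]; exact h3
      · have h4 := hz1 c
        simp only [Finsupp.add_apply, Finsupp.sub_apply, Finsupp.single_apply, if_neg (Ne.symm hc),
          Finsupp.zero_apply] at h4 ⊢
        omega
    simp only [hmap, Finsupp.add_apply, Finsupp.sub_apply, Finsupp.single_apply, if_neg hb0,
      Finsupp.zero_apply, if_true] at h1 h2
    omega
  · rw [v_lt_one_iff ht0]
    have h1 := ht P
    simp only [hD, Finsupp.add_apply, Finsupp.sub_apply, Finsupp.single_apply, if_neg hne,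
      Finsupp.zero_apply, if_true] at h1
    omega

end Good

end good

end Crest.Agent.T15.Disc
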