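import Mathlib
import Crest.Agent.T15.Disc_71

/-!
# Row 15, block T (helper71): reduction is injective on torsion of order prime to the residue
characteristic

* `Good.inj_div` : `n D` principal, `sp D` principal, `n ≠ 0` in `k` ⇒ `D` principal;
* `Good.inj_pow` : Kummer form, with a set of "cusps" on which `sp` is injective.
-/

set_option autoImplicit false
set_option linter.all false

namespace Crest.Agent.T15.Disc

open Polynomial WithZero Module
open scoped NNReal
open Crest.Agent.R013.RR7_948 Crest.Agent.R013.RR8_948 Crest.Agent.R013.RR9_948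
open Crest.Agent.R013.RR11_948 Crest.Agent.R013.RR12_948
open Crest.Agent.R013.GR2_921 Crest.Agent.R013.GR4_921
open Crest.Agent.R013.GR5_921 Crest.Agent.R013.GR6_921 Crest.Agent.R013.GR7_921

theorem fibre_single {A B : Type*} [DecidableEq A] {E : A →₀ ℤ} (hE : 0 ≤ E) (f : A → B) {b : B}
    (hb : E.mapDomain f b = 1) :
    ∃ P, f P = b ∧ ∀ R, f R = b → E R = if R = P then 1 else 0 := by
  obtain ⟨P, hP, h1⟩ := exists_pos_of_mapDomain_pos E f (b := b) (by omega)
  have hnn : ∀ a, f a = b → 0 ≤ E a := fun a _ => hE a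
  have h2 := le_mapDomain E f hnn hP
  refine ⟨P, hP, fun R hR => ?_⟩
  split_ifs with h3
  · rw [h3]; omega
  · have h4 := add_le_mapDomain E f hnn hP hR h3
    have h5 := hnn R hR
    omega

theorem fibre_zero {A B : Type*} {E : A →₀ ℤ} (hE : 0 ≤ E) (f : A → B) {b : B}
    (hb : E.mapDomain f b = 0) {R : A} (hR : f R = b) : E R = 0 := by
  have h2 := le_mapDomain E f (fun a _ => hE a) hR
  have h3 : 0 ≤ E R := hE R
  omega

theorem binom_two {L : Type*} [Field L] (w : Valuation L ℝ≥0) {x : L} (hx : w x ≤ 1) (n : ℕ) :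
    ∃ r, w r ≤ 1 ∧ (1 - x) ^ n = 1 - n * x + x ^ 2 * r := by
  induction n with
  | zero => exact ⟨0, by simp, by simp⟩
  | succ n ih =>
    obtain ⟨r, hr, he⟩ := ih
    have hn : w (n : L) ≤ 1 := by
      have : (n : L) ∈ w.integer := natCast_mem _ n
      exact this
    refine ⟨r + n - x * r, ?_, ?_⟩
    · refine (Valuation.map_sub _ _ _).trans (max_le ((Valuation.map_add _ _ _).trans
        (max_le hr hn)) ?_)
      rw [map_mul]; exact mul_le_one' hx hr
    · rw [pow_succ, he]; push_cast; ring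

section const

variable {k : Type*} [Field k] [IsAlgClosed k] {K : Type*} [Field K] [Algebra k K]
  [Algebra (RatFunc k) K] [IsScalarTower k (RatFunc k) K] [FiniteDimensional (RatFunc k) K]
  [Algebra.IsSeparable (RatFunc k) K]

theorem const_of_divf_zero {f : K} (hf : f ≠ 0) (h : divf (k := k) f = 0) :
    f ∈ Set.range (algebraMap k K) := by
  by_contra hcon
  obtain ⟨b, hb⟩ := exists_pole hcon
  have := divf_neg_of_pole hb
  rw [h] at this
  exact lt_irrefl _ this

theorem transcendental_of_notMem {f : K} (h : f ∉ Set.range (algebraMap k K)) :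
    Transcendental k f := by
  intro halg
  have h1 : f ∈ algebraicClosure k K := mem_algebraicClosure_iff.mpr halg
  rw [hc_of_isAlgClosed (k := k) (K := K), IntermediateField.mem_bot] at h1
  exact h h1

end const

variable {C : Type*} [Field C] [IsAlgClosed C] [CharZero C] {L : Type*} [Field L] [Algebra C L]
  [Algebra (RatFunc C) L] [IsScalarTower C (RatFunc C) L] [FiniteDimensional (RatFunc C) L]
  {k κ : Type*} [Field k] [IsAlgClosed k] [Field κ] [Algebra k κ]
  [Algebra (RatFunc k) κ] [IsScalarTower k (RatFunc k) κ] [FiniteDimensional (RatFunc k) κ]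
  [Algebra.IsSeparable (RatFunc k) κ]

namespace Good

variable {vC : Valuation C ℝ≥0} {ρC : C → k} {w : Valuation L ℝ≥0} {ρ : L → κ}
  {sp : Pl C L → Pl k κ} (h : Good vC ρC w ρ sp)

include h

theorem res_natCast (n : ℕ) : ρ (n : L) = (n : κ) := by
  induction n with
  | zero => simp [h.rd.res.zero]
  | succ n ih =>
    have hn : w (n : L) ≤ 1 := by
      have : (n : L) ∈ w.integer := natCast_mem _ n
      exact this
    push_cast
    rw [h.rd.res.add _ _ hn (by simp), ih, h.rd.res.one]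

/-- recentring of a local parameter -/
theorem shift_param {b : Pl k κ} {t : L} (ht : w t = 1) (hr : Reg sp b t)
    (hb : divf (k := k) (ρ t) b = 1) {P' : Pl C L} (hP' : sp P' = b) :
    vC (ev P' t) < 1 ∧ w (t - algebraMap C L (ev P' t)) = 1 ∧
      ρ (t - algebraMap C L (ev P' t)) = ρ t := by
  subst hP'
  have h1 := h.ev_le_one ht.le hr
  have h2 := h.res_ev ht.le hr
  have h3 : (sp P').v (ρ t) < 1 := by rw [v_lt_one_iff (h.res_ne ht)]; omega
  rw [(ev_eq_zero_iff _ h3.le).mpr h3] at h2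
  have h4 := (h.rd.resC.zero_iff _ h1).mp h2
  have h5 : w (algebraMap C L (ev P' t)) < 1 := by rw [h.rd.norm]; exact h4
  refine ⟨h4, ?_, ?_⟩
  · rw [Valuation.map_sub_eq_of_lt_left w (by rw [ht]; exact h5), ht]
  · rw [h.rd.res.sub ht.le h5.le, (h.rd.res.zero_iff _ h5.le).mpr h5, sub_zero]

/-- the local computation -/
theorem loc [DecidableEq (Pl C L)] {n : ℕ} (hn : (n : k) ≠ 0) {P P' : Pl C L} (hP' : sp P' = sp P)
    {F : L} (hF : w F = 1)
    (hdiv : ∀ R, sp R = sp P → divf (k := C) F R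
      = n * ((if R = P' then 1 else 0) - (if R = P then 1 else 0)))
    {a c : C} (hc0 : c ≠ 0) (hu : w ((F - algebraMap C L a) * algebraMap C L c⁻¹) = 1) :
    (sp P).v (ρ ((F - algebraMap C L a) * algebraMap C L c⁻¹)) ≤ exp 1 := by
  obtain ⟨t, ht, hr, hb, hz⟩ := h.exists_param P
  obtain ⟨hε, ht', hρ'⟩ := h.shift_param ht hr hb hP'
  set ε := ev P' t with hεdef
  set t' := t - algebraMap C L ε with ht'def
  have hr' : Reg sp (sp P) t' := hr.sub (Reg.const _)
  have hz' : P'.v t' < 1 := ev_spec P' (hr P' hP')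
  have d1 := h.divf_of_simple ht hr hb rfl hz
  have d2 := h.divf_of_simple ht' hr' (by rw [hρ']; exact hb) hP' hz'
  have ht0 : t ≠ 0 := by rintro h0; rw [h0] at ht; simp at ht
  have ht'0 : t' ≠ 0 := by rintro h0; rw [h0] at ht'; simp at ht'
  have hF0 : F ≠ 0 := by rintro h0; rw [h0] at hF; simp at hF
  set g := F * (t / t') ^ n with hg
  have hg0 : g ≠ 0 := mul_ne_zero hF0 (pow_ne_zero _ (div_ne_zero ht0 ht'0))
  have hwg : w g = 1 := by rw [hg, map_mul, map_pow, map_div₀, hF, ht, ht']; simp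
  have hgdiv : ∀ R, sp R = sp P → divf (k := C) g R = 0 := by
    intro R hR
    rw [hg, divf_mul hF0 (pow_ne_zero _ (div_ne_zero ht0 ht'0)), divf_pow (div_ne_zero ht0 ht'0),
      divf_div ht0 ht'0, Finsupp.add_apply, Finsupp.smul_apply, Finsupp.sub_apply, hdiv R hR]
    have e1 : divf (k := C) t R = if R = P then 1 else 0 := by
      split_ifs with h1
      · rw [h1]; exact d1.1
      · exact d1.2 R hR h1
    have e2 : divf (k := C) t' R = if R = P' then 1 else 0 := by
      split_ifs with h1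
      · rw [h1]; exact d2.1
      · exact d2.2 R hR h1
    rw [e1, e2, nsmul_eq_mul]; ring
  have hgr : Reg sp (sp P) g := fun R hR => by rw [v_le_one_iff hg0, hgdiv R hR]
  have hgb : (sp P).v (ρ g) = 1 := by
    rw [v_eq_one_iff (h.res_ne hwg), h.spp g hwg,
      mapDomain_congr_fibre _ 0 sp (fun R hR => by rw [hgdiv R hR]; rfl)]
    simp
  set e := algebraMap C L ε with he
  have hwe : w e < 1 := by rw [he, h.rd.norm]; exact hε
  have hws : w t⁻¹ = 1 := by rw [map_inv₀, ht, inv_one]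
  obtain ⟨r, hr1, hbin⟩ := binom_two w (x := e * t⁻¹)
    (by rw [map_mul, hws, mul_one]; exact hwe.le) n
  have hFg : F = g * (1 - e * t⁻¹) ^ n := by
    have h1 : 1 - e * t⁻¹ = t' / t := by rw [ht'def]; field_simp
    rw [h1, hg, mul_assoc, ← mul_pow, div_mul_div_comm, mul_comm t t', div_self
      (mul_ne_zero ht'0 ht0), one_pow, mul_one]
  have hwn : w (n : L) ≤ 1 := by
    have : (n : L) ∈ w.integer := natCast_mem _ n
    exact this
  have hsb : (sp P).v (ρ t⁻¹) = exp 1 := by
    rw [h.rd.res.inv ht, map_inv₀, v_eq (h.res_ne ht), hb, ← exp_neg, neg_neg]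
  set A := algebraMap C L a with hA
  set ci := algebraMap C L c⁻¹ with hci
  have hwm : w ((n : L) * t⁻¹ * g) ≤ 1 := by
    rw [map_mul, map_mul, hws, hwg, mul_one, mul_one]; exact hwn
  have hρm : (sp P).v (ρ ((n : L) * t⁻¹ * g)) = exp 1 := by
    rw [h.rd.res.mul _ _ (by rw [map_mul, hws, mul_one]; exact hwn) hwg.le,
      h.rd.res.mul _ _ hwn hws.le, map_mul, map_mul, hgb, hsb, h.res_natCast,
      ← map_natCast (algebraMap k κ), (sp P).const _ hn]
    simp
  have hwr : w (t⁻¹ ^ 2 * r * g) ≤ 1 := by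
    rw [map_mul, map_mul, map_pow, hws, hwg]; simpa using hr1
  by_cases hcase : vC ε ≤ vC c
  · have hpos : 0 < vC c := by rw [Valuation.pos_iff]; exact hc0
    have hq : w (e * ci) ≤ 1 := by
      rw [he, hci, map_mul, h.rd.norm, h.rd.norm, map_inv₀, mul_inv_le_iff₀ hpos, one_mul]
      exact hcase
    have hid : (g - A) * ci = (F - A) * ci + (e * ci) * ((n : L) * t⁻¹ * g)
        - e * ((e * ci) * (t⁻¹ ^ 2 * r * g)) := by
      rw [hFg, hbin]; ring
    have w2 : w ((e * ci) * ((n : L) * t⁻¹ * g)) ≤ 1 := by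
      rw [map_mul]; exact mul_le_one' hq hwm
    have w3 : w (e * ((e * ci) * (t⁻¹ ^ 2 * r * g))) < 1 := by
      rw [map_mul]
      exact mul_lt_one_of_lt_of_le hwe (by rw [map_mul]; exact mul_le_one' hq hwr)
    have w12 : w ((F - A) * ci + (e * ci) * ((n : L) * t⁻¹ * g)) ≤ 1 :=
      (Valuation.map_add _ _ _).trans (max_le hu.le w2)
    have w1 : w ((g - A) * ci) ≤ 1 := by
      rw [hid]; exact (Valuation.map_sub _ _ _).trans (max_le w12 w3.le)
    have r1 := h.reg_res w1 ((hgr.sub (Reg.const a)).mul (Reg.const c⁻¹))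
    rw [hid, h.rd.res.sub w12 w3.le, (h.rd.res.zero_iff _ w3.le).mpr w3, sub_zero,
      h.rd.res.add _ _ hu.le w2] at r1
    have r2 : (sp P).v (ρ ((e * ci) * ((n : L) * t⁻¹ * g))) ≤ exp 1 := by
      rw [h.rd.res.mul _ _ hq hwm, map_mul, hρm, he, hci, ← map_mul, h.rd.comp _ (by
        rw [← h.rd.norm, map_mul]; exact hq)]
      exact mul_le_of_le_one_left' (v_const_le _ _)
    have h9 : ρ ((F - A) * ci) = (ρ ((F - A) * ci) + ρ ((e * ci) * ((n : L) * t⁻¹ * g)))
        - ρ ((e * ci) * ((n : L) * t⁻¹ * g)) := by ring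
    rw [h9]
    refine (Valuation.map_sub _ _ _).trans (max_le (r1.trans ?_) r2)
    rw [← exp_zero, exp_le_exp]; norm_num
  · exfalso
    push Not at hcase
    have hε0 : ε ≠ 0 := by
      rintro h0; rw [h0, map_zero] at hcase; exact not_lt_of_ge zero_le hcase
    have he0 : e ≠ 0 := by rw [he]; simpa using hε0
    have hci0 : ci ≠ 0 := by rw [hci]; simpa using hc0
    have hpos : 0 < vC ε := by rw [Valuation.pos_iff]; exact hε0
    have hq : w (ci⁻¹ * e⁻¹) < 1 := by
      rw [map_mul, map_inv₀ w, map_inv₀ w, he, hci, h.rd.norm, h.rd.norm, map_inv₀, inv_inv,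
        mul_inv_lt_iff₀ hpos, one_mul]
      exact hcase
    have hid : (g - A) * algebraMap C L ε⁻¹ = (n : L) * t⁻¹ * g +
        ((ci⁻¹ * e⁻¹) * ((F - A) * ci) - e * (t⁻¹ ^ 2 * r * g)) := by
      rw [map_inv₀, ← he, hFg, hbin]; field_simp; ring
    have w3 : w ((ci⁻¹ * e⁻¹) * ((F - A) * ci) - e * (t⁻¹ ^ 2 * r * g)) < 1 := by
      refine lt_of_le_of_lt (Valuation.map_sub _ _ _) (max_lt ?_ ?_)
      · rw [map_mul]; exact mul_lt_one_of_lt_of_le hq hu.le
      · rw [map_mul]; exact mul_lt_one_of_lt_of_le hwe hwr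
    have w1 : w ((g - A) * algebraMap C L ε⁻¹) ≤ 1 := by
      rw [hid]; exact (Valuation.map_add _ _ _).trans (max_le hwm w3.le)
    have r1 := h.reg_res w1 ((hgr.sub (Reg.const a)).mul (Reg.const ε⁻¹))
    rw [hid, h.rd.res.add _ _ hwm w3.le, (h.rd.res.zero_iff _ w3.le).mpr w3, add_zero, hρm,
      ← exp_zero, exp_le_exp] at r1
    omega

/-- two effective divisors over a non special reduced divisor whose difference is `n`-torsion agree -/
theorem eq_of_torsion {n : ℕ} (hn : (n : k) ≠ 0) {T : Finset (Pl k κ)} (hT : ell (sumD T) ≤ 1)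
    {E Q : Pl C L →₀ ℤ} (hE : 0 ≤ E) (hQ : 0 ≤ Q) (hE' : E.mapDomain sp = sumD T)
    (hQ' : Q.mapDomain sp = sumD T) {f : L} (hf : f ≠ 0)
    (hdiv : divf (k := C) f = n • (E - Q)) : E = Q := by
  classical
  have hn0 : n ≠ 0 := by rintro rfl; simp at hn
  obtain ⟨c0, hc0, -, hF⟩ := h.rd.normalise hf
  set F := f * algebraMap C L c0⁻¹ with hFdef
  have hF0 : F ≠ 0 := by rintro h0; rw [h0] at hF; simp at hF
  have hdivF : divf (k := C) F = n • (E - Q) := by
    rw [hFdef, divf_mul hf (by simpa using hc0), divf_const (inv_ne_zero hc0), add_zero, hdiv]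
  by_cases hconst : F ∈ Set.range (algebraMap C L)
  · obtain ⟨c, hc⟩ := hconst
    have hc' : c ≠ 0 := by rintro rfl; rw [map_zero] at hc; exact hF0 hc.symm
    rw [← hc, divf_const hc'] at hdivF
    ext P
    have h1 := DFunLike.congr_fun hdivF P
    rw [Finsupp.smul_apply, Finsupp.sub_apply, nsmul_eq_mul, Finsupp.zero_apply] at h1
    have h2 : (n : ℤ) ≠ 0 := by exact_mod_cast hn0
    have h3 := (mul_eq_zero.mp h1.symm).resolve_left h2
    omega
  exfalso
  obtain ⟨a, c, hc, hu, hρ⟩ := exists_good_lift h.rd exists_notMem_range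
    (transcendental_of_notMem hconst)
  apply hρ
  apply mem_range_of_LD (sumD_nonneg T) hT
  rw [mem_LD]
  intro b
  rw [sumD_apply]
  split_ifs with hb
  · obtain ⟨P, hP, hPQ⟩ := fibre_single hQ sp (b := b) (by rw [hQ', sumD_apply, if_pos hb])
    obtain ⟨P', hP', hPE⟩ := fibre_single hE sp (b := b) (by rw [hE', sumD_apply, if_pos hb])
    subst hP
    refine h.loc hn hP' hF ?_ hc hu
    intro R hR
    rw [hdivF, Finsupp.smul_apply, Finsupp.sub_apply, nsmul_eq_mul, hPQ R hR, hPE R hR]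
  · rw [exp_zero]
    refine h.reg_res hu.le ((Reg.sub ?_ (Reg.const a)).mul (Reg.const _))
    intro R hR
    rw [v_le_one_iff hF0, hdivF, Finsupp.smul_apply, Finsupp.sub_apply,
      fibre_zero hE sp (by rw [hE', sumD_apply, if_neg hb]) hR,
      fibre_zero hQ sp (by rw [hQ', sumD_apply, if_neg hb]) hR]
    simp

/-- lifts of a reduced divisor -/
theorem exists_lift_sumD (T : Finset (Pl k κ)) :
    ∃ Q : Pl C L →₀ ℤ, 0 ≤ Q ∧ Q.mapDomain sp = sumD T := by
  classical
  choose l hl using h.sp_surj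
  refine ⟨(sumD T).mapDomain l, mapDomain_nonneg (sumD_nonneg T) l, ?_⟩
  rw [← Finsupp.mapDomain_comp]
  have : sp ∘ l = id := funext hl
  rw [this, Finsupp.mapDomain_id]

/-- a class with trivial reduction is represented by `E - Q` -/
theorem exists_move {T : Finset (Pl k κ)} (hcard : T.card = gen k κ) (hT : ell (sumD T) ≤ 1)
    {Q : Pl C L →₀ ℤ} (hQ' : Q.mapDomain sp = sumD T) {D : Pl C L →₀ ℤ} {z : κ} (hz : z ≠ 0)
    (hD : D.mapDomain sp = divf (k := k) z) :
    ∃ x : L, x ≠ 0 ∧ 0 ≤ D + Q + divf (k := C) x ∧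
      (D + Q + divf (k := C) x).mapDomain sp = sumD T := by
  have hdeg : degD (D + Q) = gen C L := by
    rw [← h.degD_map, Finsupp.mapDomain_add, degD_add, hD, hQ', degD_divf hz, degD_sumD, hcard,
      h.gen_eq, zero_add]
  obtain ⟨x0, hx0, hx⟩ := exists_mem_LD hdeg.ge
  obtain ⟨c0, hc0, -, hw⟩ := h.rd.normalise hx0
  set x := x0 * algebraMap C L c0⁻¹ with hxdef
  have hx' : x ∈ LD (D + Q) := by
    rw [hxdef, mul_comm, ← Algebra.smul_def]; exact Submodule.smul_mem _ _ hx
  have hxne : x ≠ 0 := by rintro h0; rw [h0] at hw; simp at hw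
  refine ⟨x, hxne, (mem_LD_iff hxne).mp hx', ?_⟩
  have h1 := h.res_mem_LD hx' hw.le
  have hρ := h.res_ne hw
  rw [Finsupp.mapDomain_add, hD, hQ', mem_LD_iff hρ] at h1
  have h2 : z * ρ x ∈ LD (sumD T) := by
    rw [mem_LD_iff (mul_ne_zero hz hρ), divf_mul hz hρ]
    convert h1 using 1; abel
  obtain ⟨e, he⟩ := mem_range_of_LD (sumD_nonneg T) hT h2
  have he0 : e ≠ 0 := by rintro rfl; rw [map_zero] at he; exact mul_ne_zero hz hρ he.symm
  have h3 := divf_const (K := κ) he0
  rw [he, divf_mul hz hρ] at h3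
  rw [Finsupp.mapDomain_add, Finsupp.mapDomain_add, hD, hQ', ← h.spp x hw, add_right_comm, h3,
    zero_add]

/-- **reduction is injective on `n`-torsion** -/
theorem inj_div {n : ℕ} (hn : (n : k) ≠ 0) {D : Pl C L →₀ ℤ} {f : L} (hf : f ≠ 0)
    (hdiv : divf (k := C) f = n • D) {z : κ} (hz : z ≠ 0)
    (hD : D.mapDomain sp = divf (k := k) z) : ∃ g : L, g ≠ 0 ∧ divf (k := C) g = D := by
  obtain ⟨T, hcard, -, hT⟩ := exists_nonspecial (0 : Pl k κ →₀ ℤ) degD_zero ∅
  rw [zero_add] at hT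
  obtain ⟨Q, hQ, hQ'⟩ := h.exists_lift_sumD T
  obtain ⟨x, hx0, hE, hE'⟩ := h.exists_move hcard hT.le hQ' hz hD
  have h1 := h.eq_of_torsion hn hT.le hE hQ hE' hQ' (f := f * x ^ n)
    (mul_ne_zero hf (pow_ne_zero _ hx0)) (by
      rw [divf_mul hf (pow_ne_zero _ hx0), divf_pow hx0, hdiv, ← nsmul_add]
      congr 1; abel)
  refine ⟨x⁻¹, inv_ne_zero hx0, ?_⟩
  rw [divf_inv hx0]
  have h2 : D + divf (k := C) x = 0 := by
    have h3 : D + divf (k := C) x + Q = 0 + Q := by rw [zero_add, add_right_comm]; exact h1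
    exact add_right_cancel h3
  exact neg_eq_of_add_eq_zero_left h2

/-- orders at the cusps are divisible too -/
theorem dvd_divf {n : ℕ} {f : L} (hf : w f = 1) (S : Set (Pl C L)) (hS : Set.InjOn sp S)
    (hdiv : ∀ P, P ∉ S → (n : ℤ) ∣ divf (k := C) f P) {z : κ} (hz : ρ f = z ^ n) (P : Pl C L) :
    (n : ℤ) ∣ divf (k := C) f P := by
  classical
  by_cases hP : P ∉ S
  · exact hdiv P hP
  push Not at hP
  by_cases hn0 : n = 0
  · subst hn0
    rw [pow_zero] at hz
    have h1 := h.spp f hf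
    rw [hz, divf_one] at h1
    have h2 := mapDomain_congr_fibre (divf (k := C) f) (Finsupp.single P (divf (k := C) f P)) sp
      (b := sp P) (by
        intro R hR
        rw [Finsupp.single_apply]
        split_ifs with h3
        · rw [h3]
        · have h4 : R ∉ S := fun h5 => h3 (hS hP h5 hR.symm)
          simpa using hdiv R h4)
    rw [← h1, Finsupp.mapDomain_single, Finsupp.single_eq_same, Finsupp.zero_apply] at h2
    rw [← h2]
    exact dvd_zero _
  have hz0 : z ≠ 0 := by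
    rintro rfl
    rw [zero_pow hn0] at hz
    exact h.res_ne hf hz
  let D' : Pl C L →₀ ℤ := (divf (k := C) f).mapRange (fun m => m / (n : ℤ)) (by simp)
  have h2 := mapDomain_congr_fibre (divf (k := C) f)
    (n • D' + Finsupp.single P (divf (k := C) f P % n)) sp (b := sp P) (by
      intro R hR
      rw [Finsupp.add_apply, Finsupp.smul_apply, Finsupp.single_apply, nsmul_eq_mul]
      show _ = (n : ℤ) * (divf (k := C) f R / n) + _
      split_ifs with h3
      · rw [h3]; exact (Int.mul_ediv_add_emod _ _).symm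
      · have h4 : R ∉ S := fun h5 => h3 (hS hP h5 hR.symm)
        rw [add_zero, Int.mul_ediv_cancel' (hdiv R h4)])
  have h3 : (n • D').mapDomain sp = n • D'.mapDomain sp :=
    map_nsmul (Finsupp.mapDomain.addMonoidHom sp) n D'
  rw [← h.spp f hf, hz, divf_pow hz0, Finsupp.mapDomain_add, h3, Finsupp.mapDomain_single,
    Finsupp.add_apply, Finsupp.single_eq_same, Finsupp.smul_apply, Finsupp.smul_apply,
    nsmul_eq_mul, nsmul_eq_mul] at h2
  apply Int.dvd_of_emod_eq_zero
  have h4 : (n : ℤ) ∣ divf (k := C) f P % n :=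
    ⟨divf (k := k) z (sp P) - D'.mapDomain sp (sp P), by rw [mul_sub]; omega⟩
  have h5 := Int.emod_eq_zero_of_dvd h4
  rwa [Int.emod_emod] at h5

/-- **Kummer form** : if the orders of `f` off the cusps are divisible by `n` and the reduction of
`f` is an `n`-th power then `f` is an `n`-th power -/
theorem inj_pow {n : ℕ} (hn : (n : k) ≠ 0) {f : L} (hf : w f = 1) (S : Set (Pl C L))
    (hS : Set.InjOn sp S) (hdiv : ∀ P, P ∉ S → (n : ℤ) ∣ divf (k := C) f P) {z : κ}
    (hz : ρ f = z ^ n) : ∃ g : L, f = g ^ n := by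
  classical
  have hn0 : n ≠ 0 := by rintro rfl; simp at hn
  have hf0 : f ≠ 0 := by rintro rfl; simp at hf
  have hz0 : z ≠ 0 := by
    rintro rfl
    rw [zero_pow hn0] at hz
    exact h.res_ne hf hz
  have hall := h.dvd_divf hf S hS hdiv hz
  let D : Pl C L →₀ ℤ := (divf (k := C) f).mapRange (fun m => m / (n : ℤ)) (by simp)
  have hD : divf (k := C) f = n • D := by
    ext R
    rw [Finsupp.smul_apply, nsmul_eq_mul]
    show _ = (n : ℤ) * (divf (k := C) f R / n)
    rw [Int.mul_ediv_cancel' (hall R)]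
  have hD' : D.mapDomain sp = divf (k := k) z := by
    have h1 := h.spp f hf
    have h3 : (n • D).mapDomain sp = n • D.mapDomain sp :=
      map_nsmul (Finsupp.mapDomain.addMonoidHom sp) n D
    rw [hz, divf_pow hz0, hD, h3] at h1
    ext b
    have h2 := DFunLike.congr_fun h1 b
    rw [Finsupp.smul_apply, Finsupp.smul_apply, nsmul_eq_mul, nsmul_eq_mul] at h2
    exact (mul_left_cancel₀ (by exact_mod_cast hn0) h2).symm
  obtain ⟨g, hg0, hg⟩ := h.inj_div hn hf0 hD hz0 hD'
  have h1 : divf (k := C) (f / g ^ n) = 0 := by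
    rw [divf_div hf0 (pow_ne_zero _ hg0), divf_pow hg0, hg, hD, sub_self]
  obtain ⟨c, hc⟩ := const_of_divf_zero (div_ne_zero hf0 (pow_ne_zero _ hg0)) h1
  obtain ⟨e, he⟩ := IsAlgClosed.exists_pow_nat_eq c (Nat.pos_of_ne_zero hn0)
  refine ⟨algebraMap C L e * g, ?_⟩
  rw [mul_pow, ← map_pow, he, hc, div_mul_cancel₀ _ (pow_ne_zero _ hg0)]

end Good

end Crest.Agent.T15.Disc
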