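import Mathlib
import Crest.Agent.T15.Inj_71
import Crest.Agent.T15.HopfA_71
import Crest.Agent.R013.Frob1_914

/-!
# Row 15 (helper71): isometric semilinear automorphisms and good reduction; invariant parameters;
values of invariant functions at equivariant families of points

* `Good.exists_bar` : an isometric `SI` induces an `SI` of the residue fields, compatible with `sp`;
* `Good.spPic` : reduction of divisor classes;
* `Good.exists_par_in` : local parameters determined by finitely many places;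
* `key` : the values of invariant regular functions lie in `B`.
-/

set_option autoImplicit false
set_option linter.all false

namespace Crest.Agent.T15.Disc

open Polynomial WithZero Module
open scoped NNReal
open Crest.Agent.R013.RR7_948 Crest.Agent.R013.RR8_948 Crest.Agent.R013.RR9_948
open Crest.Agent.R013.RR11_948 Crest.Agent.R013.RR12_948
open Crest.Agent.R013.GR2_921 Crest.Agent.R013.GR4_921
open Crest.Agent.R013.GR5_921 Crest.Agent.R013.GR6_921 Crest.Agent.R013.GR7_921
open Crest.Agent.R013.Frob1_914 Crest.Agent.R013.PicD_398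
open Crest.Agent.T15.Hopf

theorem exists_resEquiv {L κ : Type*} [Field L] [Field κ] {w : Valuation L ℝ≥0} {ρ : L → κ}
    (h : IsRes w ρ) (σ : L ≃+* L) (hσ : ∀ u, w (σ u) = w u) :
    ∃ τ : κ ≃+* κ, ∀ u, w u ≤ 1 → ρ (σ u) = τ (ρ u) := by
  choose l hl1 hl2 using h.surj
  have key : ∀ u, w u ≤ 1 → ρ (σ u) = ρ (σ (l (ρ u))) := by
    intro u hu
    rw [h.eq_iff (by rw [hσ]; exact hu) (by rw [hσ]; exact hl1 _), ← map_sub, hσ,
      ← h.eq_iff hu (hl1 _), hl2]
  let τ : κ →+* κ :=
    { toFun := fun y => ρ (σ (l y))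
      map_one' := by rw [← h.one, ← key 1 (by simp), map_one]
      map_mul' := fun x y => by
        have h1 := key (l x * l y) (by rw [map_mul]; exact mul_le_one' (hl1 x) (hl1 y))
        rw [h.mul _ _ (hl1 x) (hl1 y), hl2, hl2] at h1
        rw [← h1, map_mul, h.mul _ _ (by rw [hσ]; exact hl1 x) (by rw [hσ]; exact hl1 y)]
      map_zero' := by rw [← h.zero, ← key 0 (by simp), map_zero]
      map_add' := fun x y => by
        have h1 := key (l x + l y) ((Valuation.map_add _ _ _).trans (max_le (hl1 x) (hl1 y)))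
        rw [h.add _ _ (hl1 x) (hl1 y), hl2, hl2] at h1
        rw [← h1, map_add, h.add _ _ (by rw [hσ]; exact hl1 x) (by rw [hσ]; exact hl1 y)] }
  have hsurj : Function.Surjective τ := by
    intro y
    have h1 : w (σ.symm (l y)) ≤ 1 := by rw [← hσ, σ.apply_symm_apply]; exact hl1 y
    refine ⟨ρ (σ.symm (l y)), ?_⟩
    show ρ (σ (l _)) = y
    rw [← key _ h1, σ.apply_symm_apply, hl2]
  exact ⟨RingEquiv.ofBijective τ ⟨τ.injective, hsurj⟩, key⟩

section val

variable {k : Type*} [Field k] [IsAlgClosed k] {K : Type*} [Field K] [Algebra k K]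
  [Algebra (RatFunc k) K] [IsScalarTower k (RatFunc k) K] [FiniteDimensional (RatFunc k) K]
  [Algebra.IsSeparable (RatFunc k) K]

theorem ev_pl (e : SI k K k K) (P : Pl k K) {u : K} (hu : P.v u ≤ 1) :
    ev (e.pl P) (e.f u) = e.s (ev P u) := by
  apply ev_eq
  rw [← e.comm, ← map_sub, SI.pl_v_apply]
  exact ev_spec P hu

/-- the divisor `∑_{b ∈ T} P b` -/
noncomputable def sD {A B : Type*} (T : Finset B) (P : B → A) : A →₀ ℤ :=
  ∑ b ∈ T, Finsupp.single (P b) 1

theorem sD_nonneg {A B : Type*} (T : Finset B) (P : B → A) : 0 ≤ sD T P := by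
  classical
  unfold sD
  exact Finset.sum_nonneg fun b _ => Finsupp.single_nonneg.mpr zero_le_one

theorem sD_congr {A B : Type*} {T : Finset B} {P P' : B → A} (h : ∀ b ∈ T, P b = P' b) :
    sD T P = sD T P' := Finset.sum_congr rfl fun b hb => by rw [h b hb]

theorem sD_union {A B : Type*} [DecidableEq B] {T T' : Finset B} (h : Disjoint T T') (P : B → A) :
    sD (T ∪ T') P = sD T P + sD T' P := Finset.sum_union h

theorem sD_apply {A B : Type*} [DecidableEq A] [DecidableEq B] {T : Finset B} {P : B → A}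
    {f : A → B} (h : ∀ b ∈ T, f (P b) = b) (a : A) :
    sD T P a = if f a ∈ T ∧ a = P (f a) then 1 else 0 := by
  unfold sD
  rw [Finsupp.finsetSum_apply]
  split_ifs with h1
  · rw [Finset.sum_eq_single (f a)]
    · rw [Finsupp.single_apply, if_pos h1.2.symm]
    · intro b hb hne
      rw [Finsupp.single_apply, if_neg]
      intro h2; apply hne; rw [← h2, h b hb]
    · intro h2; exact absurd h1.1 h2
  · refine Finset.sum_eq_zero fun b hb => ?_
    rw [Finsupp.single_apply, if_neg]
    intro h2; apply h1; rw [← h2, h b hb]; exact ⟨hb, rfl⟩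

omit [IsAlgClosed k] [Algebra (RatFunc k) K] [IsScalarTower k (RatFunc k) K]
  [FiniteDimensional (RatFunc k) K] [Algebra.IsSeparable (RatFunc k) K] in
theorem sD_map {A : Type*} {T : Finset (Pl k K)} {P : Pl k K → A} {f : A → Pl k K}
    (h : ∀ b ∈ T, f (P b) = b) : (sD T P).mapDomain f = sumD T := by
  unfold sD sumD
  rw [Finsupp.mapDomain_finsetSum]
  exact Finset.sum_congr rfl fun b hb => by rw [Finsupp.mapDomain_single, h b hb]

omit [IsAlgClosed k] [Algebra (RatFunc k) K] [IsScalarTower k (RatFunc k) K]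
  [FiniteDimensional (RatFunc k) K] [Algebra.IsSeparable (RatFunc k) K] in
theorem D_sD {B : Type*} (e : SI k K k K) (T : Finset B) (P : B → Pl k K) :
    e.D (sD T P) = sD T fun b => e.pl (P b) := by
  unfold sD
  rw [map_sum]
  exact Finset.sum_congr rfl fun b _ => e.D_single _ _

omit [IsAlgClosed k] [Algebra (RatFunc k) K] [IsScalarTower k (RatFunc k) K]
  [FiniteDimensional (RatFunc k) K] [Algebra.IsSeparable (RatFunc k) K] in
theorem D_eq_mapDomain (e : SI k K k K) (E : Pl k K →₀ ℤ) : e.D E = E.mapDomain e.pl := by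
  unfold SI.D
  rw [Finsupp.domCongr_apply, Finsupp.equivMapDomain_eq_mapDomain]; rfl

theorem ell_eq_zero_iff {D : Pl k K →₀ ℤ} : ell D = 0 ↔ LD D = ⊥ := by
  haveI := LD_finite D
  exact Submodule.finrank_eq_zero

/-- generic points of an infinite set lower the dimension -/
theorem exists_drop_in {Bs : Set (Pl k K)} (hB : Bs.Infinite) (E : Pl k K →₀ ℤ)
    (S : Finset (Pl k K)) (n : ℕ) :
    ∃ T : Finset (Pl k K), (T : Set (Pl k K)) ⊆ Bs ∧ T.card = n ∧ Disjoint T S ∧
      ell (E - sumD T) ≤ ell E - n := by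
  classical
  induction n with
  | zero => exact ⟨∅, by simp, rfl, by simp, by simp [sumD]⟩
  | succ n ih =>
    obtain ⟨T, hTB, hT, hTS, hle⟩ := ih
    have h1 : ∀ b, E - sumD (insert b T) ≤ E - sumD T := by
      intro b c
      simp only [Finsupp.sub_apply, sumD_apply, Finset.mem_insert]
      split_ifs <;> first | omega | simp_all
    by_cases h0 : LD (E - sumD T) = ⊥
    · obtain ⟨b, hbB, hb⟩ := hB.exists_notMem_finset (S ∪ T)
      rw [Finset.mem_union, not_or] at hb
      refine ⟨insert b T, by rw [Finset.coe_insert]; exact Set.insert_subset hbB hTB,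
        by rw [Finset.card_insert_of_notMem hb.2, hT], ?_, ?_⟩
      · rw [Finset.disjoint_insert_left]; exact ⟨hb.1, hTS⟩
      · have h2 := Crest.Agent.R013.RR12_948.ell_mono (h1 b)
        have h3 : ell (E - sumD T) = 0 := ell_eq_zero_iff.mpr h0
        omega
    · obtain ⟨z, hz, hz0⟩ := Submodule.exists_mem_ne_zero_of_ne_bot h0
      obtain ⟨b, hbB, hb⟩ := hB.exists_notMem_finset
        (S ∪ T ∪ (E - sumD T + divf (k := k) z).support)
      rw [Finset.mem_union, Finset.mem_union, not_or, not_or] at hb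
      obtain ⟨⟨hbS, hbT⟩, hbz⟩ := hb
      refine ⟨insert b T, by rw [Finset.coe_insert]; exact Set.insert_subset hbB hTB,
        by rw [Finset.card_insert_of_notMem hbT, hT], ?_, ?_⟩
      · rw [Finset.disjoint_insert_left]; exact ⟨hbS, hTS⟩
      · have hlt : LD (E - sumD (insert b T)) < LD (E - sumD T) := by
          refine lt_of_le_of_ne (LD_mono (h1 b)) ?_
          intro heq
          rw [← heq, mem_LD_iff hz0] at hz
          have h2 := hz b
          rw [Finsupp.notMem_support_iff] at hbz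
          simp only [Finsupp.add_apply, Finsupp.sub_apply, sumD_apply, Finset.mem_insert, true_or,
            if_true, hbT, if_false, Finsupp.zero_apply] at h2 hbz
          omega
        haveI := LD_finite (E - sumD T)
        have h2 : ell (E - sumD (insert b T)) < ell (E - sumD T) :=
          Submodule.finrank_lt_finrank_of_lt hlt
        omega

theorem exists_nonspecial_in {Bs : Set (Pl k K)} (hB : Bs.Infinite) (S : Finset (Pl k K)) :
    ∃ T : Finset (Pl k K), (T : Set (Pl k K)) ⊆ Bs ∧ T.card = gen k K ∧ Disjoint T S ∧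
      ell (sumD T) ≤ 1 := by
  obtain ⟨T, hTB, hT, hTS, hle⟩ := exists_drop_in hB (canD k K) S (gen k K)
  refine ⟨T, hTB, hT, hTS, ?_⟩
  have h1 := riemann_roch (k := k) (K := K) hc_of_isAlgClosed (sumD T)
  rw [degD_sumD, hT] at h1
  have h2 : ell (canD k K) = gen k K := rfl
  omega

end val

variable {C : Type*} [Field C] [IsAlgClosed C] [CharZero C] {L : Type*} [Field L] [Algebra C L]
  [Algebra (RatFunc C) L] [IsScalarTower C (RatFunc C) L] [FiniteDimensional (RatFunc C) L]
  {k κ : Type*} [Field k] [IsAlgClosed k] [Field κ] [Algebra k κ]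
  [Algebra (RatFunc k) κ] [IsScalarTower k (RatFunc k) κ] [FiniteDimensional (RatFunc k) κ]
  [Algebra.IsSeparable (RatFunc k) κ]

/-- a local parameter of the disc of `Q`, centred at `Q` -/
structure Par (w : Valuation L ℝ≥0) (ρ : L → κ) (sp : Pl C L → Pl k κ) (Q : Pl C L) (t : L) :
    Prop where
  one : w t = 1
  reg : Reg sp (sp Q) t
  simple : divf (k := k) (ρ t) (sp Q) = 1
  zero : Q.v t < 1

/-- invariant integral functions without poles in the disc of `b` -/
structure Ob {G : Type*} (e : G → SI C L C L) (w : Valuation L ℝ≥0) (sp : Pl C L → Pl k κ)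
    (b : Pl k κ) (u : L) : Prop where
  le : w u ≤ 1
  reg : Reg sp b u
  fix : ∀ g, (e g).f u = u

theorem Ob.mul {G : Type*} {e : G → SI C L C L} {w : Valuation L ℝ≥0} {sp : Pl C L → Pl k κ}
    {b : Pl k κ} {u u' : L} (h : Ob e w sp b u) (h' : Ob e w sp b u') : Ob e w sp b (u * u') :=
  ⟨by rw [map_mul]; exact mul_le_one' h.le h'.le, h.reg.mul h'.reg,
    fun g => by rw [map_mul, h.fix, h'.fix]⟩

namespace Good

variable {vC : Valuation C ℝ≥0} {ρC : C → k} {w : Valuation L ℝ≥0} {ρ : L → κ}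
  {sp : Pl C L → Pl k κ} (h : Good vC ρC w ρ sp)

include h

theorem vC_s (e : SI C L C L) (hw : ∀ u, w (e.f u) = w u) (c : C) : vC (e.s c) = vC c := by
  rw [← h.rd.norm, ← e.comm, hw, h.rd.norm]

/-- the reduction of an isometric automorphism -/
theorem exists_bar (e : SI C L C L) (hw : ∀ u, w (e.f u) = w u) :
    ∃ eb : SI k κ k κ, (∀ u, w u ≤ 1 → ρ (e.f u) = eb.f (ρ u)) ∧
      (∀ c, vC c ≤ 1 → ρC (e.s c) = eb.s (ρC c)) ∧ ∀ P, sp (e.pl P) = eb.pl (sp P) := by
  obtain ⟨τ, hτ⟩ := exists_resEquiv h.rd.res e.f hw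
  obtain ⟨τ0, hτ0⟩ := exists_resEquiv h.rd.resC e.s (h.vC_s e hw)
  let eb : SI k κ k κ := ⟨τ0, τ, by
    intro y
    obtain ⟨c, hc, rfl⟩ := h.rd.resC.surj y
    rw [← h.rd.comp c hc, ← hτ _ (by rw [h.rd.norm]; exact hc), e.comm,
      h.rd.comp _ (by rw [h.vC_s e hw]; exact hc), hτ0 c hc]⟩
  refine ⟨eb, hτ, hτ0, fun P => ?_⟩
  obtain ⟨u, hu1, hu2, hu3⟩ := exists_fun h.rd P
  obtain ⟨b, hb⟩ := exists_pole hu3
  rw [sp_eq_of_pole h.spp hu1 hu2 hb]
  apply sp_eq_of_pole h.spp (u := e.f u) (P := e.pl P) ?_ (by rw [hw, hu2])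
  · rw [hτ u hu2.le]
    have := eb.pl_v_apply b (ρ u)
    show 1 < (eb.pl b).v (eb.f (ρ u))
    rw [this]; exact hb
  · intro Q hQ
    have h1 := hu1 (e.symm.pl Q) (by intro h2; apply hQ; rw [← h2, SI.pl_symm_pl])
    rw [← e.pl_v_apply, SI.pl_symm_pl] at h1
    exact h1

theorem sp_pl_of_fix (e : SI C L C L) (hw : ∀ u, w (e.f u) = w u) {Q P : Pl C L} (hQ : e.pl Q = Q)
    (hP : sp P = sp Q) : sp (e.pl P) = sp Q := by
  obtain ⟨eb, -, -, h3⟩ := h.exists_bar e hw
  rw [h3, hP, ← h3, hQ]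

/-- reduction of divisor classes -/
noncomputable def spPic : Pic C L →+ Pic k κ :=
  QuotientAddGroup.map (Prin C L) (Prin k κ) (Finsupp.mapDomain.addMonoidHom sp) (by
    rintro _ ⟨f, hf, rfl⟩
    obtain ⟨c, hc, -, hw⟩ := h.rd.normalise hf
    refine ⟨_, h.res_ne hw, ?_⟩
    rw [h.spp _ hw, divf_mul hf (by simpa using hc), divf_const (inv_ne_zero hc), add_zero]
    rfl)

theorem spPic_cls (D : Pl C L →₀ ℤ) : h.spPic (cls D) = cls (D.mapDomain sp) := rfl

/-- class form of `inj_div` -/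
theorem eq_zero_of_spPic {n : ℕ} (hn : (n : k) ≠ 0) {a : Pic C L} (ha : n • a = 0)
    (h0 : h.spPic a = 0) : a = 0 := by
  obtain ⟨D, rfl⟩ := cls_surjective a
  rw [← map_nsmul, cls_eq_zero_iff] at ha
  rw [h.spPic_cls, cls_eq_zero_iff] at h0
  obtain ⟨f, hf, hD⟩ := ha
  obtain ⟨z, hz, hz'⟩ := h0
  exact cls_eq_zero_iff.mpr (h.inj_div hn hf hD hz hz'.symm)

theorem spPic_pic (e : SI C L C L) {eb : SI k κ k κ} (h3 : ∀ P, sp (e.pl P) = eb.pl (sp P))
    (a : Pic C L) : h.spPic (e.pic a) = eb.pic (h.spPic a) := by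
  obtain ⟨D, rfl⟩ := cls_surjective a
  rw [SI.pic_cls, h.spPic_cls, h.spPic_cls, SI.pic_cls]
  congr 1
  rw [D_eq_mapDomain, D_eq_mapDomain, ← Finsupp.mapDomain_comp, ← Finsupp.mapDomain_comp]
  congr 1
  funext P
  exact h3 P

theorem ev_unit {D : Pl C L →₀ ℤ} {R : Pl C L} (hD : ∀ P, sp P = sp R → D P = 0)
    (h0 : ell (D.mapDomain sp - Finsupp.single (sp R) 1) = 0) {f : L} (hf : f ∈ LD D) :
    Reg sp (sp R) f ∧ vC (ev R f) = w f := by
  classical
  have hreg : ∀ f ∈ LD D, Reg sp (sp R) f := by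
    intro f hf P hP
    have := mem_LD.mp hf P
    rwa [hD P hP, exp_zero] at this
  refine ⟨hreg f hf, ?_⟩
  by_cases hf0 : f = 0
  · rw [hf0, ev_zero]; simp
  obtain ⟨c, hc0, hc, hw⟩ := h.rd.normalise hf0
  have hf' : f * algebraMap C L c⁻¹ ∈ LD D := by
    rw [mul_comm, ← Algebra.smul_def]; exact Submodule.smul_mem _ _ hf
  have h1 := h.res_ev hw.le (hreg _ hf')
  have h2 := h.ev_le_one hw.le (hreg _ hf')
  have h3 : ev (sp R) (ρ (f * algebraMap C L c⁻¹)) ≠ 0 := by
    intro h4
    rw [ev_eq_zero_iff _ (h.reg_res hw.le (hreg _ hf')), v_lt_one_iff (h.res_ne hw)] at h4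
    have h5 := (mem_LD_iff (h.res_ne hw)).mp (h.res_mem_LD hf' hw.le)
    have h6 : ρ (f * algebraMap C L c⁻¹) ∈ LD (D.mapDomain sp - Finsupp.single (sp R) 1) := by
      rw [mem_LD_iff (h.res_ne hw)]
      intro b
      have h7 := h5 b
      simp only [Finsupp.add_apply, Finsupp.sub_apply, Finsupp.single_apply,
        Finsupp.zero_apply] at h7 ⊢
      split_ifs with h8
      · subst h8
        have h9 := mapDomain_congr_fibre D 0 sp (b := sp R) hD
        rw [Finsupp.mapDomain_zero, Finsupp.zero_apply] at h9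
        omega
      · omega
    rw [ell_eq_zero_iff.mp h0, Submodule.mem_bot] at h6
    exact h.res_ne hw h6
  rw [← h1, h.rd.resC.ne_zero_iff h2, ev_mul R (hreg f hf R rfl) (v_const_le _ _), ev_const,
    map_mul, map_inv₀, mul_inv_eq_one₀ (by simpa using hc0)] at h3
  rw [h3, hc]

/-- a local parameter which is determined by finitely many places of `Z` -/
theorem exists_par_in {Z : Set (Pl C L)} (hZ : (sp '' Z).Infinite) (Q : Pl C L) :
    ∃ (F : Finset (Pl C L)) (t : L), (F : Set (Pl C L)) ⊆ Z ∧ Par w ρ sp Q t ∧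
      ∀ e : SI C L C L, (∀ P ∈ F, e.pl P = P) → e.pl Q = Q → e.f t = t := by
  classical
  set b := sp Q with hb
  have hex : ∀ c : Pl k κ, ∃ P : Pl C L, c ∈ sp '' Z → P ∈ Z ∧ sp P = c := by
    intro c
    by_cases hc : c ∈ sp '' Z
    · obtain ⟨P, hP, hP'⟩ := hc
      exact ⟨P, fun _ => ⟨hP, hP'⟩⟩
    · exact ⟨Q, fun h' => absurd h' hc⟩
  choose l hl using hex
  obtain ⟨T, hTB, hT, hTS, hle⟩ := exists_drop_in hZ (canD k κ + Finsupp.single b 2) {b}
    (gen k κ + 1)
  have hbT : b ∉ T := by simpa using hTS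
  have e1 := ell_eq_of_lt (k := k) (K := κ) hc_of_isAlgClosed (D := canD k κ + Finsupp.single b 2)
    (by rw [degD_add, degD_canD hc_of_isAlgClosed, degD_single, degP_eq_one]; push_cast; omega)
  rw [degD_add, degD_canD hc_of_isAlgClosed, degD_single, degP_eq_one] at e1
  have e2 : ell (canD k κ + Finsupp.single b 2 - sumD T) = 0 := by push_cast at e1; omega
  have e3 := riemann_roch (k := k) (K := κ) hc_of_isAlgClosed (sumD T - Finsupp.single b 2)
  rw [show canD k κ - (sumD T - Finsupp.single b 2) = canD k κ + Finsupp.single b 2 - sumD T by abel,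
    e2, degD_sub, degD_sumD, hT, degD_single, degP_eq_one] at e3
  have e4 := riemann_roch (k := k) (K := κ) hc_of_isAlgClosed (sumD T - Finsupp.single b 1)
  have e5 := Crest.Agent.R013.RR12_948.ell_mono (D := canD k κ - (sumD T - Finsupp.single b 1))
    (D' := canD k κ + Finsupp.single b 2 - sumD T) (by
      intro c
      simp only [Finsupp.add_apply, Finsupp.sub_apply, Finsupp.single_apply]
      split_ifs <;> omega)
  rw [degD_sub, degD_sumD, hT, degD_single, degP_eq_one] at e4
  obtain ⟨T', hT'B, hT', hT'S, hle'⟩ := exists_drop_in hZ (sumD T - Finsupp.single b 1)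
    (insert b T) 1
  obtain ⟨r, rfl⟩ := Finset.card_eq_one.mp hT'
  have hr : r ∈ sp '' Z := hT'B (by simp)
  have hrb : r ≠ b ∧ r ∉ T := by simpa using hT'S
  have hlT : ∀ c ∈ T, sp (l c) = c := fun c hc => (hl c (hTB hc)).2
  set D : Pl C L →₀ ℤ := sD T l - Finsupp.single Q 1 with hD
  have hmap : D.mapDomain sp = sumD T - Finsupp.single b 1 := by
    have := map_sub (Finsupp.mapDomain.addMonoidHom sp) (sD T l) (Finsupp.single Q 1)
    simp only [Finsupp.mapDomain.addMonoidHom_apply, Finsupp.mapDomain_single, sD_map hlT] at this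
    exact this
  have hDR : ∀ P, sp P = sp (l r) → D P = 0 := by
    intro P hP
    rw [(hl r hr).2] at hP
    rw [hD, Finsupp.sub_apply, sD_apply hlT, Finsupp.single_apply, hP, if_neg (fun h' => hrb.2 h'.1),
      if_neg (by rintro rfl; exact hrb.1 hP.symm), sub_zero]
  have hell : ell (D.mapDomain sp - Finsupp.single (sp (l r)) 1) = 0 := by
    rw [hmap, (hl r hr).2]
    have : sumD ({r} : Finset (Pl k κ)) = Finsupp.single r 1 := by simp [sumD]
    rw [this] at hle'
    push_cast at e4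
    omega
  obtain ⟨f, hf0, hf⟩ := exists_mem_LD (D := D) (by
    rw [← h.degD_map, hmap, degD_sub, degD_sumD, hT, degD_single, degP_eq_one, h.gen_eq]
    push_cast; omega)
  obtain ⟨hfr, hfv⟩ := h.ev_unit hDR hell hf
  have hc0 : ev (l r) f ≠ 0 := by
    intro h0; rw [h0, map_zero] at hfv; exact hf0 ((Valuation.zero_iff w).mp hfv.symm)
  set t := (ev (l r) f)⁻¹ • f with ht
  have htD : t ∈ LD D := Submodule.smul_mem _ _ hf
  have ht1 : ev (l r) t = 1 := by rw [ht, ev_smul _ _ (hfr _ rfl), inv_mul_cancel₀ hc0]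
  have hwt : w t = 1 := by rw [← (h.ev_unit hDR hell htD).2, ht1, map_one]
  have ht0 : t ≠ 0 := by rintro h0; rw [h0] at hwt; simp at hwt
  have hdt := (mem_LD_iff ht0).mp htD
  refine ⟨insert (l r) (T.image l), t, ?_, ⟨hwt, ?_, ?_, ?_⟩, ?_⟩
  · intro P hP
    simp only [Finset.coe_insert, Finset.coe_image, Set.mem_insert_iff, Set.mem_image,
      Finset.mem_coe] at hP
    rcases hP with rfl | ⟨c, hc, rfl⟩
    · exact (hl r hr).1
    · exact (hl c (hTB hc)).1
  · intro P hP
    rw [v_le_one_iff ht0]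
    have h1 := hdt P
    simp only [hD, Finsupp.add_apply, Finsupp.sub_apply, sD_apply hlT, Finsupp.single_apply,
      Finsupp.zero_apply, hP, ← hb, hbT, false_and, if_false] at h1
    split_ifs at h1 <;> omega
  · have h1 := (mem_LD_iff (h.res_ne hwt)).mp (h.res_mem_LD htD hwt.le)
    rw [hmap] at h1
    have h2 : ρ t ∉ LD (sumD T - Finsupp.single b 2) := by
      rw [ell_eq_zero_iff.mp (by push_cast at e3; omega), Submodule.mem_bot]
      exact h.res_ne hwt
    rw [mem_LD_iff (h.res_ne hwt)] at h2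
    by_contra hne
    rw [← hb] at hne
    apply h2
    intro c
    have h3 := h1 c
    simp only [Finsupp.add_apply, Finsupp.sub_apply, Finsupp.single_apply, Finsupp.zero_apply,
      sumD_apply] at h3 ⊢
    by_cases hc : b = c
    · subst hc
      simp only [hbT, if_false, if_true] at h3 ⊢
      omega
    · simp only [hc, if_false] at h3 ⊢
      omega
  · rw [v_lt_one_iff ht0]
    have h1 := hdt Q
    simp only [hD, Finsupp.add_apply, Finsupp.sub_apply, sD_apply hlT, Finsupp.single_apply,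
      Finsupp.zero_apply, ← hb, hbT, false_and, if_false, if_true] at h1
    omega
  · intro e he heQ
    have hDe : e.D D = D := by
      rw [hD, map_sub, D_sD, e.D_single, heQ]
      congr 1
      exact sD_congr fun c hc => he _ (Finset.mem_insert_of_mem (Finset.mem_image_of_mem l hc))
    have hR : e.pl (l r) = l r := he _ (Finset.mem_insert_self _ _)
    have h1 : e.f t ∈ LD D := by rw [← hDe]; exact e.mem_LD.mpr htD
    have h2 := (h.ev_unit hDR hell (Submodule.sub_mem _ h1 htD)).2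
    have h3 := ev_pl e (l r) ((h.ev_unit hDR hell htD).1 _ rfl)
    rw [hR, ht1, map_one] at h3
    rw [ev_sub _ ((h.ev_unit hDR hell h1).1 _ rfl) ((h.ev_unit hDR hell htD).1 _ rfl), h3, ht1,
      sub_self, map_zero] at h2
    exact sub_eq_zero.mp ((Valuation.zero_iff w).mp h2.symm)

/-- the parameter is injective on the disc -/
theorem par_inj {Q : Pl C L} {t : L} (ht : Par w ρ sp Q t) {P P' : Pl C L} (hP : sp P = sp Q)
    (hP' : sp P' = sp Q) (he : ev P t = ev P' t) : P = P' := by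
  obtain ⟨-, h1, h2⟩ := h.shift_param ht.one ht.reg ht.simple hP
  have hr := ht.reg.sub (Reg.const (ev P t))
  have h3 := h.divf_of_simple h1 hr (by rw [h2]; exact ht.simple) hP (ev_spec P (ht.reg P hP))
  by_contra hne
  have h4 := h3.2 P' hP' (Ne.symm hne)
  have h5 := ev_spec P' (ht.reg P' hP')
  rw [← he, v_lt_one_iff (by rintro h0; rw [h0] at h1; simp at h1)] at h5
  omega

section key

variable {G : Type*} {e : G → SI C L C L}

theorem expand {Q : Pl C L} {t : L} (ht : Par w ρ sp Q t) (hQ : ∀ g, (e g).pl Q = Q)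
    (htf : ∀ g, (e g).f t = t) {u : L} (hu : Ob e w sp (sp Q) u) :
    ev Q u ∈ Wf vC (fun g => (e g).s) ∧
      ∃ u', Ob e w sp (sp Q) u' ∧ u = algebraMap C L (ev Q u) + t * u' := by
  have ht0 : t ≠ 0 := by rintro h0; have := ht.one; rw [h0] at this; simp at this
  have hc : ev Q u ∈ Wf vC (fun g => (e g).s) := ⟨h.ev_le_one hu.le hu.reg, fun g => by
    have := ev_pl (e g) Q (hu.reg Q rfl)
    rw [hQ, hu.fix] at this
    exact this.symm⟩
  refine ⟨hc, (u - algebraMap C L (ev Q u)) / t, ⟨?_, ?_, ?_⟩, by field_simp; ring⟩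
  · rw [map_div₀, ht.one, div_one]
    exact (Valuation.map_sub _ _ _).trans (max_le hu.le (by rw [h.rd.norm]; exact hc.1))
  · intro P hP
    have d1 := h.divf_of_simple ht.one ht.reg ht.simple rfl ht.zero
    by_cases h0 : u - algebraMap C L (ev Q u) = 0
    · rw [h0]; simp
    rw [v_le_one_iff (div_ne_zero h0 ht0), divf_div h0 ht0, Finsupp.sub_apply]
    by_cases hPQ : P = Q
    · have h1 := (v_lt_one_iff h0 Q).mp (ev_spec Q (hu.reg Q rfl))
      rw [hPQ, d1.1]; omega
    · have h1 := (v_le_one_iff h0 P).mp ((hu.reg.sub (Reg.const _)) P hP)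
      rw [d1.2 P hP hPQ]; omega
  · intro g
    rw [map_div₀, map_sub, (e g).comm, hu.fix, htf, hc.2 g]

/-- **key lemma** -/
theorem key0 {X : Type*} [Fintype X] {π : G → X ≃ X}
    {B : Subalgebra (Wf vC fun g => (e g).s) (X → C)} (hB : B ≤ Eqv vC (fun g => (e g).s) π)
    (hs : Sep (B : Set (X → C))) {Q : Pl C L} {t : L} (ht : Par w ρ sp Q t)
    (hQ : ∀ g, (e g).pl Q = Q) (htf : ∀ g, (e g).f t = t) (P : X → Pl C L)
    (hP : ∀ x, sp (P x) = sp Q) (hPe : ∀ g x, P (π g x) = (e g).pl (P x))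
    {J : Type*} [Fintype J] (c : J → X → C) (hc : ∀ j, c j ∈ B) (u : J → L)
    (hu : ∀ j, Ob e w sp (sp Q) (u j)) (β : X → C) (hβ : β ∈ B)
    (h1 : ∀ x, ev (P x) t * (∑ j, c j x * ev (P x) (u j)) = β x)
    (h2 : ∀ x, vC (∑ j, c j x * ev (P x) (u j) - 1) < 1) {f : L} (hf : Ob e w sp (sp Q) f) :
    (fun x => ev (P x) f) ∈ B := by
  have hτ : ∀ x, vC (ev (P x) t) < 1 := fun x =>
    (h.shift_param ht.one ht.reg ht.simple (hP x)).1
  obtain ⟨θ, hθ, hle⟩ := exists_theta
    (fun x => max (vC (ev (P x) t)) (vC (∑ j, c j x * ev (P x) (u j) - 1)))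
    (fun x => max_lt (hτ x) (h2 x))
  have hev : ∀ f, Ob e w sp (sp Q) f → ∀ x, vC (ev (P x) f) ≤ 1 := fun f hf x =>
    h.ev_le_one hf.le (by rw [hP]; exact hf.reg)
  have hexp : ∀ f, Ob e w sp (sp Q) f → ∃ a ∈ Wf vC (fun g => (e g).s), ∃ f', Ob e w sp (sp Q) f' ∧
      ∀ x, ev (P x) f = a + ev (P x) t * ev (P x) f' := by
    intro f hf
    obtain ⟨ha, f', hf', he⟩ := h.expand ht hQ htf hf
    refine ⟨_, ha, f', hf', fun x => ?_⟩
    conv_lhs => rw [he]
    rw [ev_add _ (v_const_le _ _) ((ht.reg.mul hf'.reg) _ (hP x)), ev_const,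
      ev_mul _ (ht.reg _ (hP x)) (hf'.reg _ (hP x))]
  have hto : Ob e w sp (sp Q) t := ⟨ht.one.le, ht.reg, htf⟩
  have main : ∀ n : ℕ, ∀ f, Ob e w sp (sp Q) f →
      ∃ b ∈ B, ∀ x, vC (ev (P x) f - b x) ≤ θ ^ (n + 1) := by
    intro n
    induction n with
    | zero =>
      intro f hf
      obtain ⟨a, ha, f', hf', he⟩ := hexp f hf
      refine ⟨fun _ => a, const_mem B ha, fun x => ?_⟩
      rw [he, add_sub_cancel_left, map_mul, zero_add, pow_one]
      exact mul_le_of_le_of_le_one ((le_max_left _ _).trans (hle x)) (hev f' hf' x)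
    | succ n ih =>
      obtain ⟨bt, hbt, hbt'⟩ := ih t hto
      choose bu hbu hbu' using fun j => ih (u j) (hu j)
      -- better approximation of `t`
      have hstep : ∃ b ∈ B, ∀ x, vC (ev (P x) t - b x) ≤ θ ^ (n + 2) := by
        refine ⟨β - bt * (∑ j, c j * bu j - 1), B.sub_mem hβ (B.mul_mem hbt (B.sub_mem
          (B.sum_mem fun j _ => B.mul_mem (hc j) (hbu j)) B.one_mem)), fun x => ?_⟩
        set τ := ev (P x) t with hτdef
        set η := ∑ j, c j x * ev (P x) (u j) - 1 with hη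
        set y := ∑ j, c j x * bu j x - 1 with hy
        have hd : vC (η - y) ≤ θ ^ (n + 1) := by
          have : η - y = ∑ j, c j x * (ev (P x) (u j) - bu j x) := by
            rw [hη, hy, sub_sub_sub_cancel_right, ← Finset.sum_sub_distrib]
            exact Finset.sum_congr rfl fun j _ => by ring
          rw [this]
          refine Valuation.map_sum_le _ fun j _ => ?_
          rw [map_mul]
          exact mul_le_of_le_one_of_le ((hB (hc j)).1 x) (hbu' j x)
        have hid : τ - (β - bt * (∑ j, c j * bu j - 1)) x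
            = -(τ * (η - y)) - (τ - bt x) * η + (τ - bt x) * (η - y) := by
          simp only [Pi.sub_apply, Pi.mul_apply, Finset.sum_apply, Pi.one_apply]
          rw [← h1 x, ← hy, hη]; ring
        rw [hid]
        refine (Valuation.map_add _ _ _).trans (max_le ((Valuation.map_sub _ _ _).trans
          (max_le ?_ ?_)) ?_)
        · rw [Valuation.map_neg, map_mul, pow_succ' θ (n + 1)]
          exact mul_le_mul' ((le_max_left _ _).trans (hle x)) hd
        · rw [map_mul, pow_succ θ (n + 1)]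
          exact mul_le_mul' (hbt' x) ((le_max_right _ _).trans (hle x))
        · rw [map_mul, pow_succ θ (n + 1)]
          refine mul_le_mul' (hbt' x) (hd.trans ?_)
          rw [pow_succ]
          exact mul_le_of_le_one_left' (pow_le_one' hθ.le n)
      obtain ⟨b2, hb2, hb2'⟩ := hstep
      intro f hf
      obtain ⟨a, ha, f', hf', he⟩ := hexp f hf
      obtain ⟨b', hb', hb''⟩ := ih f' hf'
      refine ⟨(fun _ => a) + b2 * b', B.add_mem (const_mem B ha) (B.mul_mem hb2 hb'), fun x => ?_⟩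
      have hid : ev (P x) f - ((fun _ => a) + b2 * b' : X → C) x
          = ev (P x) t * (ev (P x) f' - b' x) + (ev (P x) t - b2 x) * b' x := by
        rw [he]; simp only [Pi.add_apply, Pi.mul_apply]; ring
      rw [hid]
      refine (Valuation.map_add _ _ _).trans (max_le ?_ ?_)
      · rw [map_mul, pow_succ' θ (n + 1)]
        exact mul_le_mul' ((le_max_left _ _).trans (hle x)) (hb'' x)
      · rw [map_mul]
        exact mul_le_of_le_of_le_one (hb2' x) ((hB hb').1 x)
  refine mem_of_approx hB hs (fun g x => ?_) hθ fun n => ?_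
  · have := ev_pl (e g) (P x) (hf.reg _ (hP x))
    rw [hf.fix, ← hPe] at this
    exact this
  · obtain ⟨b, hb, hb'⟩ := main n f hf
    refine ⟨b, hb, fun x => (hb' x).trans ?_⟩
    rw [pow_succ]
    exact mul_le_of_le_one_right' hθ.le

/-- if the coordinate is in `B` then all values are -/
theorem key1 {X : Type*} [Fintype X] {π : G → X ≃ X}
    {B : Subalgebra (Wf vC fun g => (e g).s) (X → C)} (hB : B ≤ Eqv vC (fun g => (e g).s) π)
    (hs : Sep (B : Set (X → C))) {Q : Pl C L} {t : L} (ht : Par w ρ sp Q t)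
    (hQ : ∀ g, (e g).pl Q = Q) (htf : ∀ g, (e g).f t = t) (P : X → Pl C L)
    (hP : ∀ x, sp (P x) = sp Q) (hPe : ∀ g x, P (π g x) = (e g).pl (P x))
    (hβ : (fun x => ev (P x) t) ∈ B) {f : L} (hf : Ob e w sp (sp Q) f) :
    (fun x => ev (P x) f) ∈ B :=
  h.key0 hB hs ht hQ htf P hP hPe (J := Unit) (fun _ => 1) (fun _ => B.one_mem) (fun _ => 1)
    (fun _ => ⟨by simp, fun _ _ => by simp, fun g => map_one _⟩) _ hβ
    (fun x => by simp [ev_one]) (fun x => by simp [ev_one]) hf

/-- the zero of a family of parameters with coefficients in `B` -/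
theorem key2 {X : Type*} [Fintype X] {π : G → X ≃ X}
    {B : Subalgebra (Wf vC fun g => (e g).s) (X → C)} (hB : B ≤ Eqv vC (fun g => (e g).s) π)
    (hs : Sep (B : Set (X → C))) {Q : Pl C L} {t : L} (ht : Par w ρ sp Q t)
    (hQ : ∀ g, (e g).pl Q = Q) (htf : ∀ g, (e g).f t = t) (P : X → Pl C L)
    (hP : ∀ x, sp (P x) = sp Q) (hPe : ∀ g x, P (π g x) = (e g).pl (P x))
    {J : Type*} [Fintype J] (c : J → X → C) (hc : ∀ j, c j ∈ B) (u : J → L)
    (hu : ∀ j, Ob e w sp (sp Q) (u j)) (h1 : ∀ x, (P x).v (∑ j, c j x • u j) < 1)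
    (h2 : ∀ x, ρ (∑ j, c j x • u j) = ρ t) {f : L} (hf : Ob e w sp (sp Q) f) :
    (fun x => ev (P x) f) ∈ B := by
  choose ha u' hu' he using fun j => h.expand ht hQ htf (hu j)
  have hwsum : ∀ (v : J → L), (∀ j, Ob e w sp (sp Q) (v j)) → ∀ x,
      w (∑ j, c j x • v j) ≤ 1 ∧ Reg sp (sp Q) (∑ j, c j x • v j) ∧
      ∀ R, sp R = sp Q → ev R (∑ j, c j x • v j) = ∑ j, c j x * ev R (v j) := by
    intro v hv x
    refine ⟨Valuation.map_sum_le _ fun j _ => ?_, Reg.sum _ _ fun j _ => (hv j).reg.smul _, ?_⟩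
    · rw [Algebra.smul_def, map_mul, h.rd.norm]
      exact mul_le_one' ((hB (hc j)).1 x) (hv j).le
    · intro R hR
      rw [ev_sum _ _ _ fun j _ => ((hv j).reg.smul _) R hR]
      exact Finset.sum_congr rfl fun j _ => ev_smul _ _ ((hv j).reg R hR)
  have hid : ∀ x, ∑ j, c j x • u j
      = algebraMap C L (∑ j, c j x * ev Q (u j)) + t * ∑ j, c j x • u' j := by
    intro x
    rw [map_sum, Finset.mul_sum, ← Finset.sum_add_distrib]
    refine Finset.sum_congr rfl fun j _ => ?_
    conv_lhs => rw [he j]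
    rw [map_mul, Algebra.smul_def, Algebra.smul_def]; ring
  refine h.key0 hB hs ht hQ htf P hP hPe c hc u' hu' (-∑ j, c j * fun _ => ev Q (u j))
    (B.neg_mem (B.sum_mem fun j _ => B.mul_mem (hc j) (const_mem B (ha j)))) ?_ ?_ hf
  · intro x
    have h3 := (ev_eq_zero_iff _ (h1 x).le).mpr (h1 x)
    rw [hid, ev_add _ (v_const_le _ _) ((ht.reg.mul (hwsum u' hu' x).2.1) _ (hP x)), ev_const,
      ev_mul _ (ht.reg _ (hP x)) ((hwsum u' hu' x).2.1 _ (hP x)),
      (hwsum u' hu' x).2.2 _ (hP x)] at h3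
    simp only [Pi.neg_apply, Finset.sum_apply, Pi.mul_apply]
    exact eq_neg_of_add_eq_zero_right h3
  · intro x
    obtain ⟨w1, r1, v1⟩ := hwsum u hu x
    obtain ⟨w2, r2, v2⟩ := hwsum u' hu' x
    have h3 := h.res_ev w1 r1
    have h4 : (sp Q).v (ρ t) < 1 := by rw [v_lt_one_iff (h.res_ne ht.one), ht.simple]; norm_num
    have h5 := h.ev_le_one w1 r1
    rw [h2 x, (ev_eq_zero_iff _ h4.le).mpr h4, v1 Q rfl] at h3
    rw [v1 Q rfl] at h5
    have h6 := h2 x
    rw [hid, h.rd.res.add _ _ (by rw [h.rd.norm]; exact h5)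
      (by rw [map_mul, ht.one, one_mul]; exact w2), h.rd.comp _ h5, h3, map_zero, zero_add,
      h.rd.res.mul _ _ ht.one.le w2] at h6
    have h7 : ρ (∑ j, c j x • u' j) = 1 := by
      apply mul_left_cancel₀ (h.res_ne ht.one); rw [h6, mul_one]
    have r2' : Reg sp (sp (P x)) (∑ j, c j x • u' j) := by rw [hP]; exact r2
    have h8 := h.res_ev w2 r2'
    have h9 := h.ev_le_one w2 r2'
    rw [h7, ev_one, ← h.rd.resC.one, h.rd.resC.eq_iff h9 (by simp), v2 _ (hP x)] at h8
    exact h8

end key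

end Good

end Crest.Agent.T15.Disc
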