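import Mathlib
import Crest.Agent.R013.WR4_777
import Crest.Agent.R013.Frob1_914
import Crest.Agent.R013.GR2_921

/-!
# Row 15, block F (helper31): the Weil pairing, definition and formal properties

`K / k` a function field (R013 words), `k` algebraically closed in `K`.
* `ev f E = ∏_P f(P) ^ E(P)`; `IsW n x y c`; `wp n x y : kˣ` the Weil pairing of two `n`-torsion
  classes; `wp_eq`, `wp_add_left`, `wp_add_right`, `wp_pow`, `wp_swap`, `wp_self` (odd `n`),
  `wp_mul_left`, `wp_mul_right`, `wp_nsmul` (change of level), `wp_SI` (equivariance).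
-/

set_option autoImplicit false
set_option linter.all false

namespace Crest.Agent.T15.Wp

open WithZero Module
open Crest.Agent.R013.RR7_948 Crest.Agent.R013.RR8_948 Crest.Agent.R013.RR9_948
open Crest.Agent.R013.RR11_948 Crest.Agent.R013.RR12_948
open Crest.Agent.R013.WR2_777 Crest.Agent.R013.WR4_777 Crest.Agent.R013.PicD_398
open Crest.Agent.R013.Frob1_914

section ev

variable {k : Type*} [Field k] {K : Type*} [Field K] [Algebra k K]

/-- `f(E) = ∏_P N(f(P)) ^ E(P)` -/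
noncomputable def ev (f : K) (E : Pl k K →₀ ℤ) : kˣ := pw (fun P => nrm P f) E

/-- disjoint supports -/
def Dj (D E : Pl k K →₀ ℤ) : Prop := ∀ P, D P = 0 ∨ E P = 0

theorem Dj.symm {D E : Pl k K →₀ ℤ} (h : Dj D E) : Dj E D := fun P => (h P).symm

theorem Dj.add_left {D D' E : Pl k K →₀ ℤ} (h : Dj D E) (h' : Dj D' E) : Dj (D + D') E := by
  intro P
  rcases h P with h1 | h1
  · rcases h' P with h2 | h2
    · left; simp [h1, h2]
    · right; exact h2
  · right; exact h1

theorem Dj.neg_left {D E : Pl k K →₀ ℤ} (h : Dj D E) : Dj (-D) E := by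
  intro P
  rcases h P with h1 | h1
  · left; simp [h1]
  · right; exact h1

theorem Dj.sub_left {D D' E : Pl k K →₀ ℤ} (h : Dj D E) (h' : Dj D' E) : Dj (D - D') E := by
  rw [sub_eq_add_neg]; exact h.add_left h'.neg_left

theorem Dj.nsmul_left {D E : Pl k K →₀ ℤ} (h : Dj D E) (n : ℕ) : Dj (n • D) E := by
  intro P
  rcases h P with h1 | h1
  · left; simp [h1]
  · right; exact h1

theorem Dj.of_nsmul_left {D E : Pl k K →₀ ℤ} {n : ℕ} (hn : n ≠ 0) (h : Dj (n • D) E) : Dj D E := by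
  intro P
  rcases h P with h1 | h1
  · left
    simpa [hn] using h1
  · right; exact h1

theorem ev_add (f : K) (D E : Pl k K →₀ ℤ) : ev f (D + E) = ev f D * ev f E := pw_add _ _ _

theorem ev_sub (f : K) (D E : Pl k K →₀ ℤ) : ev f (D - E) = ev f D / ev f E := pw_sub _ _ _

theorem ev_neg (f : K) (D : Pl k K →₀ ℤ) : ev f (-D) = (ev f D)⁻¹ := pw_neg _ _

theorem ev_nsmul (f : K) (n : ℕ) (D : Pl k K →₀ ℤ) : ev f (n • D) = ev f D ^ n := pw_nsmul _ _ _

@[simp] theorem ev_zero (f : K) : ev f (0 : Pl k K →₀ ℤ) = 1 := pw_zero _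

theorem ev_single (f : K) (P : Pl k K) (n : ℤ) : ev f (Finsupp.single P n) = nrm P f ^ n :=
  pw_single _ _ _

end ev

variable {k : Type*} [Field k] {K : Type*} [Field K] [Algebra k K] [Algebra (RatFunc k) K]
  [IsScalarTower k (RatFunc k) K] [FiniteDimensional (RatFunc k) K]
  [Algebra.IsSeparable (RatFunc k) K]

theorem v_one_of_dj {f : K} (hf : f ≠ 0) {E : Pl k K →₀ ℤ} (h : Dj (divf (k := k) f) E)
    {P : Pl k K} (hP : E P ≠ 0) : P.v f = 1 :=
  (v_eq_one_iff hf P).mpr ((h P).resolve_right hP)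

theorem ev_mul {f g : K} (hf : f ≠ 0) (hg : g ≠ 0) {E : Pl k K →₀ ℤ}
    (h1 : Dj (divf (k := k) f) E) (h2 : Dj (divf (k := k) g) E) :
    ev (f * g) E = ev f E * ev g E := by
  unfold ev
  rw [← pw_mul]
  exact pw_congr fun P hP => nrm_mul (v_one_of_dj hf h1 hP) (v_one_of_dj hg h2 hP)

theorem ev_pow {f : K} (hf : f ≠ 0) {E : Pl k K →₀ ℤ} (h1 : Dj (divf (k := k) f) E) (n : ℕ) :
    ev (f ^ n) E = ev f E ^ n := by
  induction n with
  | zero =>
    rw [pow_zero, pow_zero]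
    unfold ev
    have : pw (fun P : Pl k K => nrm P (1 : K)) E = pw (fun _ => (1 : kˣ)) E :=
      pw_congr fun P _ => by
        have := nrm_const P (1 : kˣ)
        simpa using this
    rw [this]
    simp [pw]
  | succ n ih =>
    rw [pow_succ, ev_mul (pow_ne_zero n hf) hf _ h1, ih, pow_succ]
    rw [divf_pow hf]
    exact h1.nsmul_left n

theorem pw_pow_degP (c : kˣ) (E : Pl k K →₀ ℤ) :
    pw (fun P : Pl k K => c ^ degP P) E = c ^ degD E := by
  induction E using Finsupp.induction_linear with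
  | zero => simp [degD_zero]
  | add D E h1 h2 => rw [pw_add, h1, h2, degD_add, zpow_add]
  | single P n => rw [pw_single, degD_single, ← zpow_natCast, ← zpow_mul, mul_comm]

theorem ev_const (c : kˣ) (E : Pl k K →₀ ℤ) : ev (algebraMap k K c) E = c ^ degD E := by
  unfold ev
  rw [← pw_pow_degP]
  exact pw_congr fun P _ => nrm_const P c

theorem divf_const (c : kˣ) : divf (k := k) (algebraMap k K (c : k)) = 0 := by
  ext P
  have h0 : algebraMap k K (c : k) ≠ 0 := by simp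
  exact (v_eq_one_iff h0 P).mp (P.const _ c.ne_zero)

theorem exists_const_of_divf (hc : algebraicClosure k K = ⊥) {u : K} (hu : u ≠ 0)
    (h : divf (k := k) u = 0) : ∃ c : kˣ, u = algebraMap k K c := by
  have h1 : u ∈ LD (0 : Pl k K →₀ ℤ) := by
    rw [mem_LD_iff hu, h]; simp
  rw [LD_zero hc, Submodule.mem_one] at h1
  obtain ⟨c, hc⟩ := h1
  have hc0 : c ≠ 0 := by
    rintro rfl
    exact hu (by rw [← hc, map_zero])
  exact ⟨Units.mk0 c hc0, hc.symm⟩

/-- `f(E)` only depends on the divisor of `f` if `deg E = 0` -/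
theorem ev_congr (hc : algebraicClosure k K = ⊥) {f g : K} (hf : f ≠ 0) (hg : g ≠ 0)
    (h : divf (k := k) f = divf (k := k) g) {E : Pl k K →₀ ℤ} (hE : degD E = 0)
    (h1 : Dj (divf (k := k) f) E) : ev f E = ev g E := by
  have h2 : divf (k := k) (g * f⁻¹) = 0 := by
    rw [divf_mul hg (inv_ne_zero hf), divf_inv hf, h, add_neg_cancel]
  obtain ⟨c, hc'⟩ := exists_const_of_divf hc (mul_ne_zero hg (inv_ne_zero hf)) h2
  have h3 : g = algebraMap k K c * f := by
    rw [← hc']; field_simp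
  have h0 : algebraMap k K (c : k) ≠ 0 := by simp
  rw [h3, ev_mul h0 hf _ h1, ev_const, hE, zpow_zero, one_mul]
  rw [divf_const]
  intro P; left; rfl

theorem ev_recip {f g : K} (hf : f ≠ 0) (hg : g ≠ 0)
    (h : Dj (divf (k := k) f) (divf (k := k) g)) :
    ev f (divf (k := k) g) = ev g (divf (k := k) f) := weil_reciprocity hf hg h

theorem degD_nsmul' (n : ℕ) (D : Pl k K →₀ ℤ) : degD (n • D) = n * degD D := by
  induction n with
  | zero => simp [degD_zero]
  | succ n ih => rw [succ_nsmul, degD_add, ih]; push_cast; ring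

theorem degD_eq_zero_of {n : ℕ} (hn : n ≠ 0) {f : K} (hf : f ≠ 0) {D : Pl k K →₀ ℤ}
    (h : divf (k := k) f = n • D) : degD D = 0 := by
  have h1 := degD_divf (k := k) hf
  rw [h, degD_nsmul'] at h1
  have : (n : ℤ) ≠ 0 := by exact_mod_cast hn
  exact (mul_eq_zero.mp h1).resolve_left this

/-- moving lemma -/
theorem exists_move (x : Pic k K) (S : Finset (Pl k K)) :
    ∃ D : Pl k K →₀ ℤ, cls D = x ∧ ∀ P ∈ S, D P = 0 := by
  obtain ⟨D, rfl⟩ := cls_surjective x
  obtain ⟨f, hf, h⟩ := exists_prescribed S (fun P => D P)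
  refine ⟨D + divf (k := k) f, by rw [map_add, cls_divf hf, add_zero], fun P hP => ?_⟩
  have h1 := h P hP
  rw [v_eq hf, exp_inj] at h1
  rw [Finsupp.add_apply]
  omega

theorem exists_fun {n : ℕ} {D : Pl k K →₀ ℤ} (h : n • cls D = (0 : Pic k K)) :
    ∃ f : K, f ≠ 0 ∧ divf (k := k) f = n • D := by
  rw [← map_nsmul, cls_eq_zero_iff] at h
  exact h

theorem nsmul_cls {n : ℕ} {f : K} (hf : f ≠ 0) {D : Pl k K →₀ ℤ} (h : divf (k := k) f = n • D) :
    n • cls D = (0 : Pic k K) := by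
  rw [← map_nsmul, ← h, cls_divf hf]

theorem exists_move' {n : ℕ} {x : Pic k K} (hx : n • x = 0) (S : Finset (Pl k K)) :
    ∃ (D : Pl k K →₀ ℤ) (f : K), f ≠ 0 ∧ cls D = x ∧ divf (k := k) f = n • D ∧
      ∀ P ∈ S, D P = 0 := by
  obtain ⟨D, rfl, h⟩ := exists_move x S
  obtain ⟨f, hf, hf'⟩ := exists_fun hx
  exact ⟨D, f, hf, rfl, hf', h⟩

theorem dj_of_supp {D E : Pl k K →₀ ℤ} {S : Finset (Pl k K)} (h : ∀ P ∈ S, D P = 0)
    (hS : E.support ⊆ S) : Dj D E := by
  intro P
  by_cases hP : E P = 0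
  · right; exact hP
  · left; exact h P (hS (Finsupp.mem_support_iff.mpr hP))

/-- `c` is a value of the Weil pairing -/
def IsW (n : ℕ) (x y : Pic k K) (c : kˣ) : Prop :=
  ∃ (D E : Pl k K →₀ ℤ) (f g : K), f ≠ 0 ∧ g ≠ 0 ∧ cls D = x ∧ cls E = y ∧
    divf (k := k) f = n • D ∧ divf (k := k) g = n • E ∧ Dj D E ∧ c = ev f E / ev g D

theorem move_left (hc : algebraicClosure k K = ⊥) {n : ℕ} (hn : n ≠ 0)
    {D D' E : Pl k K →₀ ℤ} {f f' g : K} (hf : f ≠ 0) (hf' : f' ≠ 0) (hg : g ≠ 0)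
    (hD : divf (k := k) f = n • D) (hD' : divf (k := k) f' = n • D')
    (hE : divf (k := k) g = n • E) (hcls : cls D = cls D') (h1 : Dj D E) (h2 : Dj D' E) :
    ev f E / ev g D = ev f' E / ev g D' := by
  obtain ⟨u, hu, hu'⟩ := cls_eq_iff.mp hcls.symm
  have hud : divf (k := k) u = D' - D := by rw [hu']; abel
  have h3 : Dj (divf (k := k) u) E := by rw [hud]; exact h2.sub_left h1
  have hE0 : degD E = 0 := degD_eq_zero_of hn hg hE
  have h4 : ev f' E = ev (f * u ^ n) E := by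
    refine ev_congr hc hf' (mul_ne_zero hf (pow_ne_zero n hu)) ?_ hE0 ?_
    · rw [divf_mul hf (pow_ne_zero n hu), divf_pow hu, hD, hD', hu', nsmul_add]
    · rw [hD']; exact h2.nsmul_left n
  have h5 : ev (f * u ^ n) E = ev f E * ev u E ^ n := by
    rw [ev_mul hf (pow_ne_zero n hu), ev_pow hu h3]
    · rw [hD]; exact h1.nsmul_left n
    · rw [divf_pow hu]; exact h3.nsmul_left n
  have h6 : ev g (divf (k := k) u) = ev u E ^ n := by
    rw [← ev_nsmul, ← hE]
    refine ev_recip hg hu ?_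
    rw [hE]
    exact (h3.symm.nsmul_left n)
  rw [h4, h5, hu', ev_add, h6, mul_div_mul_right_eq_div]

theorem IsW.unique (hc : algebraicClosure k K = ⊥) {n : ℕ} (hn : n ≠ 0) {x y : Pic k K}
    {c c' : kˣ} (h : IsW n x y c) (h' : IsW n x y c') : c = c' := by
  classical
  obtain ⟨D, E, f, g, hf, hg, hx, hy, hD, hE, hDE, rfl⟩ := h
  obtain ⟨D', E', f', g', hf', hg', hx', hy', hD', hE', hDE', rfl⟩ := h'
  have hnx : n • x = 0 := hx ▸ nsmul_cls hf hD
  obtain ⟨D2, f2, hf2, hx2, hD2, hS⟩ := exists_move' hnx (E.support ∪ E'.support)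
  have a1 : Dj D2 E := dj_of_supp hS Finset.subset_union_left
  have a2 : Dj D2 E' := dj_of_supp hS Finset.subset_union_right
  rw [move_left hc hn hf hf2 hg hD hD2 hE (hx.trans hx2.symm) hDE a1,
    move_left hc hn hf' hf2 hg' hD' hD2 hE' (hx'.trans hx2.symm) hDE' a2]
  have := move_left hc hn hg hg' hf2 hE hE' hD2 (hy.trans hy'.symm) a1.symm a2.symm
  rw [← inv_div, this, inv_div]

theorem exists_isW {n : ℕ} {x y : Pic k K} (hx : n • x = 0) (hy : n • y = 0) :
    ∃ c, IsW n x y c := by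
  obtain ⟨E, g, hg, hy', hE, -⟩ := exists_move' hy ∅
  obtain ⟨D, f, hf, hx', hD, hS⟩ := exists_move' hx E.support
  exact ⟨_, D, E, f, g, hf, hg, hx', hy', hD, hE, dj_of_supp hS subset_rfl, rfl⟩

open Classical in
/-- the Weil pairing (`1` if one of the classes is not killed by `n`) -/
noncomputable def wp (n : ℕ) (x y : Pic k K) : kˣ :=
  if h : ∃ c, IsW n x y c then h.choose else 1

theorem IsW.wp_eq (hc : algebraicClosure k K = ⊥) {n : ℕ} (hn : n ≠ 0) {x y : Pic k K} {c : kˣ}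
    (h : IsW n x y c) : wp n x y = c := by
  have h1 : ∃ c, IsW n x y c := ⟨c, h⟩
  unfold wp
  rw [dif_pos h1]
  exact h1.choose_spec.unique hc hn h

theorem wp_eq (hc : algebraicClosure k K = ⊥) {n : ℕ} (hn : n ≠ 0) {D E : Pl k K →₀ ℤ} {f g : K}
    (hf : f ≠ 0) (hg : g ≠ 0) (hD : divf (k := k) f = n • D) (hE : divf (k := k) g = n • E)
    (h : Dj D E) : wp n (cls D) (cls E) = ev f E / ev g D :=
  IsW.wp_eq hc hn ⟨D, E, f, g, hf, hg, rfl, rfl, hD, hE, h, rfl⟩

theorem wp_swap (hc : algebraicClosure k K = ⊥) {n : ℕ} (hn : n ≠ 0) {x y : Pic k K}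
    (hx : n • x = 0) (hy : n • y = 0) : wp n y x = (wp n x y)⁻¹ := by
  obtain ⟨c, D, E, f, g, hf, hg, rfl, rfl, hD, hE, hDE, rfl⟩ := exists_isW hx hy
  rw [wp_eq hc hn hf hg hD hE hDE, wp_eq hc hn hg hf hE hD hDE.symm, inv_div]

theorem wp_add_left (hc : algebraicClosure k K = ⊥) {n : ℕ} (hn : n ≠ 0) {x x' y : Pic k K}
    (hx : n • x = 0) (hx' : n • x' = 0) (hy : n • y = 0) :
    wp n (x + x') y = wp n x y * wp n x' y := by
  obtain ⟨E, g, hg, rfl, hE, -⟩ := exists_move' hy ∅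
  obtain ⟨D, f, hf, rfl, hD, hS⟩ := exists_move' hx E.support
  obtain ⟨D', f', hf', rfl, hD', hS'⟩ := exists_move' hx' E.support
  have a1 : Dj D E := dj_of_supp hS subset_rfl
  have a2 : Dj D' E := dj_of_supp hS' subset_rfl
  rw [← map_add, wp_eq hc hn hf hg hD hE a1, wp_eq hc hn hf' hg hD' hE a2,
    wp_eq hc hn (mul_ne_zero hf hf') hg (by rw [divf_mul hf hf', hD, hD', nsmul_add]) hE
      (a1.add_left a2), ev_mul hf hf' (hD ▸ a1.nsmul_left n) (hD' ▸ a2.nsmul_left n), ev_add,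
    mul_div_mul_comm]

theorem wp_add_right (hc : algebraicClosure k K = ⊥) {n : ℕ} (hn : n ≠ 0) {x y y' : Pic k K}
    (hx : n • x = 0) (hy : n • y = 0) (hy' : n • y' = 0) :
    wp n x (y + y') = wp n x y * wp n x y' := by
  rw [wp_swap hc hn (by rw [nsmul_add, hy, hy', add_zero]) hx, wp_add_left hc hn hy hy' hx,
    wp_swap hc hn hy hx, wp_swap hc hn hy' hx, mul_inv]

theorem wp_zero_left (hc : algebraicClosure k K = ⊥) {n : ℕ} (hn : n ≠ 0) {y : Pic k K}
    (hy : n • y = 0) : wp n 0 y = 1 := by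
  have := wp_add_left hc hn (x := 0) (x' := 0) (nsmul_zero n) (nsmul_zero n) hy
  rw [add_zero] at this
  exact mul_left_cancel (this.symm.trans (mul_one _).symm)

theorem wp_zero_right (hc : algebraicClosure k K = ⊥) {n : ℕ} (hn : n ≠ 0) {x : Pic k K}
    (hx : n • x = 0) : wp n x 0 = 1 := by
  rw [wp_swap hc hn (nsmul_zero n) hx, wp_zero_left hc hn hx, inv_one]

theorem nsmul_tors {A : Type*} [AddCommGroup A] {n : ℕ} {x : A} (hx : n • x = 0) (m : ℕ) :
    n • m • x = 0 := by rw [smul_comm, hx, nsmul_zero]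

theorem wp_nsmul_left (hc : algebraicClosure k K = ⊥) {n : ℕ} (hn : n ≠ 0) {x y : Pic k K}
    (hx : n • x = 0) (hy : n • y = 0) (m : ℕ) : wp n (m • x) y = wp n x y ^ m := by
  induction m with
  | zero => rw [zero_nsmul, pow_zero, wp_zero_left hc hn hy]
  | succ m ih => rw [succ_nsmul, wp_add_left hc hn (nsmul_tors hx m) hx hy, ih, pow_succ]

theorem wp_nsmul_right (hc : algebraicClosure k K = ⊥) {n : ℕ} (hn : n ≠ 0) {x y : Pic k K}
    (hx : n • x = 0) (hy : n • y = 0) (m : ℕ) : wp n x (m • y) = wp n x y ^ m := by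
  rw [wp_swap hc hn (nsmul_tors hy m) hx, wp_nsmul_left hc hn hy hx, wp_swap hc hn hy hx, inv_pow]

theorem wp_neg_left (hc : algebraicClosure k K = ⊥) {n : ℕ} (hn : n ≠ 0) {x y : Pic k K}
    (hx : n • x = 0) (hy : n • y = 0) : wp n (-x) y = (wp n x y)⁻¹ := by
  have := wp_add_left hc hn hx (x' := -x) (by rw [neg_nsmul, hx, neg_zero]) hy
  rw [add_neg_cancel, wp_zero_left hc hn hy] at this
  exact (inv_eq_of_mul_eq_one_right this.symm).symm

theorem wp_neg_right (hc : algebraicClosure k K = ⊥) {n : ℕ} (hn : n ≠ 0) {x y : Pic k K}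
    (hx : n • x = 0) (hy : n • y = 0) : wp n x (-y) = (wp n x y)⁻¹ := by
  have := wp_add_right hc hn hx hy (y' := -y) (by rw [neg_nsmul, hy, neg_zero])
  rw [add_neg_cancel, wp_zero_right hc hn hx] at this
  exact (inv_eq_of_mul_eq_one_right this.symm).symm

theorem wp_pow (hc : algebraicClosure k K = ⊥) {n : ℕ} (hn : n ≠ 0) {x y : Pic k K}
    (hx : n • x = 0) (hy : n • y = 0) : wp n x y ^ n = 1 := by
  rw [← wp_nsmul_left hc hn hx hy, hx, wp_zero_left hc hn hy]

theorem wp_self (hc : algebraicClosure k K = ⊥) {n : ℕ} (hn : Odd n) {x : Pic k K}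
    (hx : n • x = 0) : wp n x x = 1 := by
  have hn0 : n ≠ 0 := by rintro rfl; simp at hn
  have h1 := wp_swap hc hn0 hx hx
  have h2 : wp n x x ^ 2 = 1 := by
    rw [pow_two]
    nth_rewrite 1 [h1]
    exact inv_mul_cancel _
  have h3 := wp_pow hc hn0 hx hx
  obtain ⟨m, rfl⟩ := hn
  rwa [pow_succ, pow_mul, h2, one_pow, one_mul] at h3

/-- change of level -/
theorem wp_mul_right (hc : algebraicClosure k K = ⊥) {n m : ℕ} (hn : n ≠ 0) (hm : m ≠ 0)
    {x y : Pic k K} (hx : n • x = 0) (hy : (n * m) • y = 0) :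
    wp (n * m) x y = wp n x (m • y) := by
  obtain ⟨E, g, hg, rfl, hE, -⟩ := exists_move' hy ∅
  obtain ⟨D, f, hf, rfl, hD, hS⟩ := exists_move' hx E.support
  have a1 : Dj D E := dj_of_supp hS subset_rfl
  rw [← map_nsmul, wp_eq hc hn hf hg hD (E := m • E) (by rw [hE, mul_nsmul']) (a1.symm.nsmul_left m).symm,
    wp_eq hc (mul_ne_zero hn hm) (pow_ne_zero m hf) hg
      (by rw [divf_pow hf, hD, mul_nsmul]) hE a1, ev_pow hf (hD ▸ a1.nsmul_left n), ev_nsmul]

theorem wp_mul_pow (hc : algebraicClosure k K = ⊥) {n m : ℕ} (hn : n ≠ 0) (hm : m ≠ 0)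
    {x y : Pic k K} (hx : (n * m) • x = 0) (hy : (n * m) • y = 0) :
    wp (n * m) x y ^ m = wp n (m • x) (m • y) := by
  rw [← wp_nsmul_left hc (mul_ne_zero hn hm) hx hy, wp_mul_right hc hn hm _ hy]
  rw [← mul_nsmul', hx]

section SI

variable {k K k' K' : Type*} [Field k] [Field K] [Algebra k K] [Field k'] [Field K']
  [Algebra k' K'] [IsAlgClosed k] [IsAlgClosed k']
  [Algebra (RatFunc k) K] [IsScalarTower k (RatFunc k) K] [FiniteDimensional (RatFunc k) K]
  [Algebra.IsSeparable (RatFunc k) K]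
  [Algebra (RatFunc k') K'] [IsScalarTower k' (RatFunc k') K'] [FiniteDimensional (RatFunc k') K']
  [Algebra.IsSeparable (RatFunc k') K']

open Crest.Agent.R013.GR2_921 (hc_of_isAlgClosed exists_const degP_eq_one)

/-- over algebraically closed constants `nrm P f` is the value of `f` at `P` -/
theorem nrm_eq_of_lt {P : Pl k K} {f : K} {c : kˣ} (h : P.v (f - algebraMap k K c) < 1) :
    nrm P f = c := by
  rw [nrm_of_sub_lt h, degP_eq_one, pow_one]

theorem v_sub_nrm {P : Pl k K} {f : K} (hf : P.v f = 1) :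
    P.v (f - algebraMap k K (nrm P f : k)) < 1 := by
  obtain ⟨c, hc⟩ := exists_const P hf.le
  have hc0 : c ≠ 0 := by
    rintro rfl
    rw [map_zero, sub_zero, hf] at hc
    exact lt_irrefl _ hc
  rw [nrm_eq_of_lt (c := Units.mk0 c hc0) hc]
  exact hc

theorem nrm_SI (e : SI k K k' K') (P : Pl k K) (f : K) :
    nrm (e.pl P) (e.f f) = Units.map (e.s : k →* k') (nrm P f) := by
  by_cases hf : P.v f = 1
  · refine nrm_eq_of_lt ?_
    rw [Units.coe_map, SI.pl_v]
    have : e.f.symm (e.f f - algebraMap k' K' ((e.s : k →* k') (nrm P f : k)))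
        = f - algebraMap k K (nrm P f : k) := by
      rw [map_sub, RingEquiv.symm_apply_apply]
      congr 1
      rw [RingEquiv.symm_apply_eq, e.comm]
      rfl
    rw [this]
    exact v_sub_nrm hf
  · rw [nrm_of_ne hf, map_one, nrm_of_ne]
    rwa [SI.pl_v, RingEquiv.symm_apply_apply]

theorem ev_SI (e : SI k K k' K') (f : K) (E : Pl k K →₀ ℤ) :
    ev (e.f f) (e.D E) = Units.map (e.s : k →* k') (ev f E) := by
  induction E using Finsupp.induction_linear with
  | zero => simp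
  | add D E h1 h2 => rw [map_add, ev_add, ev_add, h1, h2, map_mul]
  | single P n => rw [SI.D_single, ev_single, ev_single, nrm_SI, map_zpow]

/-- **equivariance** -/
theorem wp_SI (e : SI k K k' K') {n : ℕ} (hn : n ≠ 0) {x y : Pic k K}
    (hx : n • x = 0) (hy : n • y = 0) :
    wp n (e.pic x) (e.pic y) = Units.map (e.s : k →* k') (wp n x y) := by
  obtain ⟨c, D, E, f, g, hf, hg, rfl, rfl, hD, hE, hDE, rfl⟩ := exists_isW hx hy
  rw [wp_eq hc_of_isAlgClosed hn hf hg hD hE hDE, SI.pic_cls, SI.pic_cls,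
    wp_eq hc_of_isAlgClosed hn (f := e.f f) (g := e.f g) (by simpa using hf) (by simpa using hg)
      (by rw [SI.divf_f e hf, hD, map_nsmul]) (by rw [SI.divf_f e hg, hE, map_nsmul])
      (fun P => by rw [SI.D_apply, SI.D_apply]; exact hDE _), ev_SI, ev_SI, map_div]

end SI

end Crest.Agent.T15.Wp
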