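import Mathlib
import Crest.Agent.T15.HopfB_71
import Crest.Agent.T15.FlR_23
import Crest.Agent.T15.Wp1_31
import Crest.Agent.R013.Car5_700

/-!
# Row 15, block Fl (helper71): torsion of a curve with good reduction is flat

`Act` : a group `G` acts on `L / C` by isometric semilinear automorphisms which preserve every residue
disc, with fixed places in infinitely many discs.
* `Good.wp_mem_RR` : `g ↦ e_n(g x, y)` lies in `RR vC G`;
* `Good.flat_of` : a finite equivariant subgroup of `Pic[n]` is flat;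
* `Good.act_of` : how to check `Act`.
-/

set_option autoImplicit false
set_option linter.all false

namespace Crest.Agent.T15.Disc

open Polynomial WithZero Module
open scoped NNReal
open Crest.Agent.R013.RR7_948 Crest.Agent.R013.RR8_948 Crest.Agent.R013.RR9_948
open Crest.Agent.R013.RR11_948 Crest.Agent.R013.RR12_948
open Crest.Agent.R013.GR2_921 Crest.Agent.R013.GR4_921
open Crest.Agent.R013.GR5_921 Crest.Agent.R013.GR6_921 Crest.Agent.R013.GR7_921
open Crest.Agent.R013.Frob1_914 Crest.Agent.R013.PicD_398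
open Crest.Agent.R013.RR14_948 (del)
open Crest.Agent.R013.WR2_777 (nrm)
open Crest.Agent.T15.FlR

section val

variable {k : Type*} [Field k] [IsAlgClosed k] {K : Type*} [Field K] [Algebra k K]
  [Algebra (RatFunc k) K] [IsScalarTower k (RatFunc k) K] [FiniteDimensional (RatFunc k) K]
  [Algebra.IsSeparable (RatFunc k) K]

/-- base point freeness -/
theorem exists_bpf {D : Pl k K →₀ ℤ} (hD : 2 * (gen k K : ℤ) ≤ degD D) (S : Finset (Pl k K)) :
    ∃ z : K, z ≠ 0 ∧ z ∈ LD D ∧ ∀ b ∈ S, (D + divf (k := k) z : Pl k K →₀ ℤ) b = 0 := by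
  classical
  obtain ⟨b0, -⟩ := exists_notMem (k := k) (K := K) ∅
  have hex : ∃ z : LD D, ∀ b : (insert b0 S : Finset (Pl k K)),
      (z : K) ∉ LD (D - Finsupp.single (b : Pl k K) 1) := by
    by_contra hcon
    push Not at hcon
    obtain ⟨b, hb⟩ := Subspace.exists_eq_top_of_iUnion_eq_univ (k := k) (E := LD D)
      (p := fun b : (insert b0 S : Finset (Pl k K)) =>
        (LD (D - Finsupp.single (b : Pl k K) 1)).comap (LD D).subtype) (by
      rw [Set.eq_univ_iff_forall]
      intro z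
      obtain ⟨b, hb⟩ := hcon z
      exact Set.mem_iUnion.mpr ⟨b, hb⟩)
    have hle : LD D ≤ LD (D - Finsupp.single (b : Pl k K) 1) := by
      intro z hz
      have : (⟨z, hz⟩ : LD D) ∈ (LD (D - Finsupp.single (b : Pl k K) 1)).comap (LD D).subtype := by
        have hb' : (LD (D - Finsupp.single (b : Pl k K) 1)).comap (LD D).subtype = ⊤ := hb
        rw [hb']; trivial
      exact this
    haveI := LD_finite (D - Finsupp.single (b : Pl k K) 1)
    have h1 : ell D ≤ ell (D - Finsupp.single (b : Pl k K) 1) := Submodule.finrank_mono hle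
    have e1 := ell_eq_of_lt (k := k) (K := K) hc_of_isAlgClosed (D := D) (by omega)
    have e2 := ell_eq_of_lt (k := k) (K := K) hc_of_isAlgClosed
      (D := D - Finsupp.single (b : Pl k K) 1)
      (by rw [degD_sub, degD_single, degP_eq_one]; push_cast; omega)
    rw [degD_sub, degD_single, degP_eq_one] at e2
    push_cast at e2
    omega
  obtain ⟨⟨z, hz⟩, hz2⟩ := hex
  have hz0 : z ≠ 0 := by
    rintro rfl
    exact hz2 ⟨b0, Finset.mem_insert_self _ _⟩ (zero_mem _)
  refine ⟨z, hz0, hz, fun b hb => ?_⟩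
  have h2 := hz2 ⟨b, Finset.mem_insert_of_mem hb⟩
  rw [mem_LD_iff hz0] at hz h2
  by_contra hne
  apply h2
  intro c
  have h4 := hz c
  simp only [Finsupp.add_apply, Finsupp.sub_apply, Finsupp.single_apply, Finsupp.zero_apply]
    at h4 hne ⊢
  split_ifs with h5
  · subst h5; omega
  · omega

theorem coe_nrm_eq {P : Pl k K} {f : K} (hf : P.v f = 1) : (nrm P f : k) = ev P f :=
  (ev_eq P (Wp.v_sub_nrm hf)).symm

theorem ev_div (P : Pl k K) {u v : K} (hu : P.v u ≤ 1) (hv : P.v v = 1) :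
    ev P (u / v) = ev P u / ev P v := by
  have hv0 : v ≠ 0 := by rintro rfl; simp at hv
  have h1 : P.v (u / v) ≤ 1 := by rw [map_div₀, hv, div_one]; exact hu
  have h2 : ev P v ≠ 0 := by
    rw [Ne, ev_eq_zero_iff P hv.le, hv]; exact lt_irrefl _
  rw [eq_div_iff h2, ← ev_mul P h1 hv.le, div_mul_cancel₀ _ hv0]

/-- a separating element has a simple `z - z(b)` at almost all places -/
theorem exists_simple {z : K} (hz : del k K z ≠ 0) :
    ∃ S : Finset (Pl k K), ∀ b, b ∉ S → b.v z ≤ 1 ∧ z - algebraMap k K (ev b z) ≠ 0 ∧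
      divf (k := k) (z - algebraMap k K (ev b z)) b = 1 := by
  classical
  have hz0 : z ≠ 0 := by rintro rfl; simp at hz
  refine ⟨(canD k K).support ∪ (divf (k := k) (del k K z)).support ∪ (divf (k := k) z).support,
    fun b hb => ?_⟩
  simp only [Finset.mem_union, Finsupp.mem_support_iff, not_or, not_not] at hb
  obtain ⟨⟨h1, h2⟩, h3⟩ := hb
  have h4 : b.v z ≤ 1 := ((v_eq_one_iff hz0 b).mpr h3).le
  have h5 : del k K (z - algebraMap k K (ev b z)) = del k K z := by
    rw [map_sub, Derivation.map_algebraMap, sub_zero]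
  have h6 : z - algebraMap k K (ev b z) ≠ 0 := by
    intro h0; rw [h0, map_zero] at h5; exact hz h5.symm
  refine ⟨h4, h6, ?_⟩
  have h7 := (v_lt_one_iff h6 b).mp (ev_spec b h4)
  have h8 := Crest.Agent.R013.Car5_700.v_del_le' b (z - algebraMap k K (ev b z))
  rw [h5, (v_eq_one_iff hz b).mpr h2, h1, v_eq h6, ← exp_add, ← exp_zero, exp_le_exp] at h8
  omega

end val

/-- unit valued elements of `RR` -/
def UR {Ω : Type*} [Field Ω] (w : Valuation Ω ℝ≥0) (G : Type*) [Group G] [MulSemiringAction G Ω]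
    (F : G → Ω) : Prop := F ∈ RR w G ∧ ∀ g, w (F g) = 1

namespace UR

variable {Ω : Type*} [Field Ω] {w : Valuation Ω ℝ≥0} {G : Type*} [Group G] [MulSemiringAction G Ω]

theorem one : UR w G (fun _ => 1) := ⟨(RR w G).one_mem, fun _ => map_one _⟩

theorem mul {F F' : G → Ω} (h : UR w G F) (h' : UR w G F') : UR w G (fun g => F g * F' g) :=
  ⟨mul_mem' h.1 h'.1, fun g => by rw [map_mul, h.2, h'.2, one_mul]⟩

theorem inv (horb : ∀ a : Ω, (Set.range fun g : G => g • a).Finite) {F : G → Ω} (h : UR w G F) :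
    UR w G (fun g => (F g)⁻¹) :=
  ⟨FlR.inv_mem h.1 (finite_range horb h.1) h.2, fun g => by rw [map_inv₀, h.2, inv_one]⟩

theorem div (horb : ∀ a : Ω, (Set.range fun g : G => g • a).Finite) {F F' : G → Ω} (h : UR w G F)
    (h' : UR w G F') : UR w G (fun g => F g / F' g) := by
  simpa only [div_eq_mul_inv] using h.mul (h'.inv horb)

theorem pow {F : G → Ω} (h : UR w G F) (n : ℕ) : UR w G (fun g => F g ^ n) :=
  ⟨pow_mem' h.1 n, fun g => by rw [map_pow, h.2, one_pow]⟩

theorem zpow (horb : ∀ a : Ω, (Set.range fun g : G => g • a).Finite) {F : G → Ω} (h : UR w G F)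
    (n : ℤ) : UR w G (fun g => F g ^ n) := by
  obtain ⟨m, rfl | rfl⟩ := Int.eq_nat_or_neg n
  · simpa only [zpow_natCast] using h.pow m
  · simpa only [zpow_neg, zpow_natCast] using (h.pow m).inv horb

theorem prod {ι : Type*} (s : Finset ι) {F : ι → G → Ω} (h : ∀ i ∈ s, UR w G (F i)) :
    UR w G (fun g => ∏ i ∈ s, F i g) :=
  ⟨prod_mem' s fun i hi => (h i hi).1, fun g => by
    rw [map_prod]; exact Finset.prod_eq_one fun i hi => (h i hi).2 g⟩

end UR

variable {C : Type*} [Field C] [IsAlgClosed C] [CharZero C] {L : Type*} [Field L] [Algebra C L]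
  [Algebra (RatFunc C) L] [IsScalarTower C (RatFunc C) L] [FiniteDimensional (RatFunc C) L]
  {k κ : Type*} [Field k] [IsAlgClosed k] [Field κ] [Algebra k κ]
  [Algebra (RatFunc k) κ] [IsScalarTower k (RatFunc k) κ] [FiniteDimensional (RatFunc k) κ]
  [Algebra.IsSeparable (RatFunc k) κ]

/-- an action by isometries preserving all residue discs, with many fixed places -/
structure Act {G : Type*} [Group G] [MulSemiringAction G C] (w : Valuation L ℝ≥0)
    (sp : Pl C L → Pl k κ) (e : G → SI C L C L) : Prop where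
  s : ∀ g c, (e g).s c = g • c
  iso : ∀ g u, w ((e g).f u) = w u
  disc : ∀ g P, sp ((e g).pl P) = sp P
  fix : (sp '' {P | ∀ g, (e g).pl P = P}).Infinite
  orb : ∀ a : C, (Set.range fun g : G => g • a).Finite

namespace Good

variable {vC : Valuation C ℝ≥0} {ρC : C → k} {w : Valuation L ℝ≥0} {ρ : L → κ}
  {sp : Pl C L → Pl k κ} (h : Good vC ρC w ρ sp)

include h

/-- moving away from finitely many discs -/
theorem exists_clear {D : Pl C L →₀ ℤ} (hD : 2 * (gen C L : ℤ) ≤ degD D) (S : Finset (Pl k κ)) :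
    ∃ v : L, w v = 1 ∧ v ∈ LD D ∧
      ∀ R, sp R ∈ S → (D + divf (k := C) v : Pl C L →₀ ℤ) R = 0 := by
  obtain ⟨z, hz0, hz, hS⟩ := exists_bpf (D := D.mapDomain sp)
    (by rw [h.degD_map, h.gen_eq]; exact hD) S
  obtain ⟨v, hv, hw, rfl⟩ := h.lift_LD (h.ell_eq_of_big (by omega)).le hz
  have hw1 : w v = 1 := (h.rd.res.ne_zero_iff hw).mp hz0
  have hv0 : v ≠ 0 := by rintro rfl; simp at hw1
  refine ⟨v, hw1, hv, fun R hR => ?_⟩
  refine fibre_zero ((mem_LD_iff hv0).mp hv) sp ?_ rfl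
  rw [Finsupp.mapDomain_add, ← h.spp v hw1]
  exact hS _ hR

theorem exists_move_disc (x : Pic C L) (S : Finset (Pl k κ)) :
    ∃ D : Pl C L →₀ ℤ, cls D = x ∧ ∀ R, sp R ∈ S → D R = 0 := by
  classical
  obtain ⟨D, rfl⟩ := cls_surjective x
  obtain ⟨b, hb⟩ := exists_notMem (k := k) (K := κ) S
  obtain ⟨B, rfl⟩ := h.sp_surj b
  obtain ⟨v, hw, -, hS⟩ := h.exists_clear
    (D := D + Finsupp.single B (2 * (gen C L : ℤ) - degD D))
    (by rw [degD_add, degD_single, degP_eq_one]; push_cast; omega) S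
  have hv0 : v ≠ 0 := by rintro rfl; simp at hw
  refine ⟨D + divf (k := C) v, by rw [map_add, cls_divf hv0, add_zero], fun R hR => ?_⟩
  have h1 := hS R hR
  have h2 : B ≠ R := by rintro rfl; exact hb hR
  simp only [Finsupp.add_apply, Finsupp.single_apply, if_neg h2] at h1 ⊢
  omega

/-- a function of norm one without zeros and poles in a disc has unit values there -/
theorem ev_eq_one {u : L} (hu : w u = 1) {Q : Pl C L}
    (hQ : ∀ R, sp R = sp Q → divf (k := C) u R = 0) : vC (ev Q u) = 1 := by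
  have hu0 : u ≠ 0 := by rintro rfl; simp at hu
  have hr : Reg sp (sp Q) u := fun R hR => ((v_eq_one_iff hu0 R).mpr (hQ R hR)).le
  rw [← h.rd.resC.ne_zero_iff (h.ev_le_one hu.le hr), h.res_ev hu.le hr, Ne,
    ev_eq_zero_iff _ (h.reg_res hu.le hr), v_lt_one_iff (h.res_ne hu), h.spp u hu,
    mapDomain_congr_fibre _ 0 sp hQ]
  simp

/-- the norm is attained on a set of representatives -/
theorem exists_norm {D : Pl C L →₀ ℤ} {T : Finset (Pl k κ)} (hD : ∀ P, sp P ∈ T → D P = 0)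
    (h0 : ell (D.mapDomain sp - sumD T) = 0) {l : Pl k κ → Pl C L} (hl : ∀ b ∈ T, sp (l b) = b)
    {f : L} (hf : f ∈ LD D) (hf0 : f ≠ 0) : ∃ b ∈ T, vC (ev (l b) f) = w f := by
  classical
  have hreg : ∀ f ∈ LD D, ∀ b ∈ T, Reg sp (sp (l b)) f := by
    intro f hf b hb P hP
    have := mem_LD.mp hf P
    rwa [hD P (by rw [hP, hl b hb]; exact hb), exp_zero] at this
  obtain ⟨c, hc0, hc, hw⟩ := h.rd.normalise hf0
  have hf' : f * algebraMap C L c⁻¹ ∈ LD D := by
    rw [mul_comm, ← Algebra.smul_def]; exact Submodule.smul_mem _ _ hf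
  have hex : ∃ b ∈ T, ev (sp (l b)) (ρ (f * algebraMap C L c⁻¹)) ≠ 0 := by
    by_contra hcon
    push Not at hcon
    have h5 := (mem_LD_iff (h.res_ne hw)).mp (h.res_mem_LD hf' hw.le)
    have h6 : ρ (f * algebraMap C L c⁻¹) ∈ LD (D.mapDomain sp - sumD T) := by
      rw [mem_LD_iff (h.res_ne hw)]
      intro b
      have h7 := h5 b
      simp only [Finsupp.add_apply, Finsupp.sub_apply, sumD_apply, Finsupp.zero_apply] at h7 ⊢
      split_ifs with h8
      · have h4 := hcon b h8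
        rw [ev_eq_zero_iff _ (h.reg_res hw.le (hreg _ hf' b h8)), v_lt_one_iff (h.res_ne hw),
          hl b h8] at h4
        have h9 := mapDomain_congr_fibre D 0 sp (b := b) (fun P hP => hD P (hP ▸ h8))
        rw [Finsupp.mapDomain_zero, Finsupp.zero_apply] at h9
        omega
      · omega
    rw [ell_eq_zero_iff.mp h0, Submodule.mem_bot] at h6
    exact h.res_ne hw h6
  obtain ⟨b, hb, h3⟩ := hex
  refine ⟨b, hb, ?_⟩
  have h1 := h.res_ev hw.le (hreg _ hf' b hb)
  have h2 := h.ev_le_one hw.le (hreg _ hf' b hb)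
  rw [← h1, h.rd.resC.ne_zero_iff h2, ev_mul _ (hreg f hf b hb _ rfl) (v_const_le _ _), ev_const,
    map_mul, map_inv₀, mul_inv_eq_one₀ (by simpa using hc0)] at h3
  rw [h3, hc]

variable {G : Type*} [Group G] [MulSemiringAction G C] {e : G → SI C L C L}

/-- expansion in an invariant integral basis -/
theorem exists_expand (hA : Act w sp e) {E : Pl C L →₀ ℤ} (hE : ∀ g, (e g).D E = E)
    (hbig : ell (E.mapDomain sp) ≤ ell E) {u : L} (hu : u ∈ LD E) (hw : w u ≤ 1) :
    ∃ (T : Finset (Pl k κ)) (a : T → C) (φ : T → L), (∀ b, vC (a b) ≤ 1) ∧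
      (∀ b, φ b ∈ LD E ∧ w (φ b) ≤ 1 ∧ ∀ g, (e g).f (φ b) = φ b) ∧ u = ∑ b, a b • φ b := by
  classical
  obtain ⟨T, hTB, hT, hTS, hle⟩ := exists_drop_in hA.fix (E.mapDomain sp) (E.support.image sp)
    (ell (E.mapDomain sp))
  have h0 : ell (E.mapDomain sp - sumD T) = 0 := by omega
  have hex : ∀ c : Pl k κ, ∃ P : Pl C L, c ∈ T → (∀ g, (e g).pl P = P) ∧ sp P = c := by
    intro c
    by_cases hc : c ∈ T
    · obtain ⟨P, hP, hP'⟩ := hTB hc
      exact ⟨P, fun _ => ⟨hP, hP'⟩⟩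
    · obtain ⟨P, -⟩ := h.sp_surj c
      exact ⟨P, fun h' => absurd h' hc⟩
  choose l hl using hex
  have hD : ∀ P, sp P ∈ T → E P = 0 := by
    intro P hP
    by_contra hne
    exact Finset.disjoint_left.mp hTS hP
      (Finset.mem_image_of_mem _ (Finsupp.mem_support_iff.mpr hne))
  have hreg : ∀ f ∈ LD E, ∀ b : T, Reg sp (sp (l b)) f := by
    intro f hf b P hP
    have := mem_LD.mp hf P
    rwa [hD P (by rw [hP, (hl b b.2).2]; exact b.2), exp_zero] at this
  let ε : LD E →ₗ[C] (T → C) :=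
    { toFun := fun f b => ev (l b) (f : L)
      map_add' := fun f f' => by
        funext b
        exact ev_add _ (hreg _ f.2 b _ rfl) (hreg _ f'.2 b _ rfl)
      map_smul' := fun c f => by
        funext b
        exact ev_smul _ c (hreg _ f.2 b _ rfl) }
  have hε : ∀ (f : LD E) (b : T), ε f b = ev (l b) (f : L) := fun _ _ => rfl
  have hnorm : ∀ f : LD E, f ≠ 0 → ∃ b : T, vC (ε f b) = w f := by
    intro f hf
    obtain ⟨b, hb, hb'⟩ := h.exists_norm hD h0 (fun b hb => (hl b hb).2) f.2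
      (fun h' => hf (Subtype.ext h'))
    exact ⟨⟨b, hb⟩, hb'⟩
  have hinj : Function.Injective ε := by
    rw [injective_iff_map_eq_zero]
    intro f hf
    by_contra hne
    obtain ⟨b, hb⟩ := hnorm f hne
    rw [hf, Pi.zero_apply, map_zero, eq_comm, Valuation.zero_iff] at hb
    exact hne (Subtype.ext hb)
  haveI := LD_finite E
  have hsurj : Function.Surjective ε := by
    rw [← LinearMap.injective_iff_surjective_of_finrank_eq_finrank]
    · exact hinj
    · rw [Module.finrank_fintype_fun_eq_card, Fintype.card_coe, hT]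
      exact le_antisymm (h.ell_le E) hbig
  choose φ hφ using fun b : T => hsurj (Pi.single b 1)
  refine ⟨T, ε ⟨u, hu⟩, fun b => φ b, fun b => ?_, fun b => ⟨(φ b).2, ?_, fun g => ?_⟩, ?_⟩
  · exact h.ev_le_one hw (hreg u hu b)
  · show w (φ b : L) ≤ 1
    by_cases hb : φ b = 0
    · rw [hb]; simp
    obtain ⟨c, hc⟩ := hnorm _ hb
    rw [← hc, hφ, Pi.single_apply]
    split_ifs <;> simp
  · have h1 : (e g).f (φ b) ∈ LD E := by
      have := (e g).mem_LD.mpr (φ b).2
      rwa [hE] at this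
    have h2 : (⟨_, h1⟩ : LD E) = φ b := by
      apply hinj
      funext c
      have h3 := ev_pl (e g) (l c) (hreg _ (φ b).2 c _ rfl)
      rw [(hl c c.2).1 g] at h3
      rw [hε, h3, ← hε, hφ, Pi.single_apply]
      split_ifs <;> simp
    exact congrArg Subtype.val h2
  · have h2 : (⟨u, hu⟩ : LD E) = ∑ b, ε ⟨u, hu⟩ b • φ b := by
      apply hinj
      rw [map_sum]
      simp only [map_smul, hφ]
      funext c
      rw [Finset.sum_apply, Finset.sum_eq_single c]
      · simp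
      · intro b _ hb
        simp [Pi.single_apply, Ne.symm hb]
      · simp
    have h3 := congrArg Subtype.val h2
    simpa using h3

theorem ev_mem_of_LD (hA : Act w sp e) {E : Pl C L →₀ ℤ} (hE : ∀ g, (e g).D E = E)
    (hbig : ell (E.mapDomain sp) ≤ ell E) {u : L} (hu : u ∈ LD E) (hw : w u ≤ 1) {Q : Pl C L}
    (hQ : ∀ R, sp R = sp Q → E R = 0) :
    (fun g => ev Q ((e g).f u)) ∈ RR vC G ∧ (fun g => ev ((e g).pl Q) u) ∈ RR vC G := by
  obtain ⟨T, a, φ, ha, hφ, rfl⟩ := h.exists_expand hA hE hbig hu hw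
  have hreg : ∀ b, Reg sp (sp Q) (φ b) := by
    intro b P hP
    have := mem_LD.mp (hφ b).1 P
    rwa [hQ P hP, exp_zero] at this
  have hev : ∀ b, vC (ev Q (φ b)) ≤ 1 := fun b => h.ev_le_one (hφ b).2.1 (hreg b)
  constructor
  · have := sum_mem' (w := vC) (G := G) Finset.univ
      (fun b _ => mul_mem' (smul_mem (ha b)) (const_mem (hev b)))
    convert this using 2 with g
    have h1 : (e g).f (∑ b, a b • φ b) = ∑ b, (g • a b) • φ b := by
      rw [map_sum]
      refine Finset.sum_congr rfl fun b _ => ?_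
      rw [Algebra.smul_def, map_mul, (e g).comm, (hφ b).2.2, hA.s, ← Algebra.smul_def]
    rw [h1, ev_sum _ _ _ fun b _ => ((hreg b).smul _) Q rfl]
    exact Finset.sum_congr rfl fun b _ => ev_smul _ _ (hreg b Q rfl)
  · have := sum_mem' (w := vC) (G := G) Finset.univ
      (fun b _ => mul_mem' (const_mem (ha b)) (smul_mem (hev b)))
    convert this using 2 with g
    rw [ev_sum _ _ _ fun b _ => ((hreg b).smul _) _ (hA.disc g Q)]
    refine Finset.sum_congr rfl fun b _ => ?_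
    rw [ev_smul _ _ (hreg b _ (hA.disc g Q)), ← hA.s, ← ev_pl (e g) Q (hreg b Q rfl), (hφ b).2.2]

omit h in
theorem divf_f_eq_zero (hA : Act w sp e) {u : L} (hu : u ≠ 0) {b : Pl k κ}
    (hb : ∀ R, sp R = b → divf (k := C) u R = 0) (g : G) {R : Pl C L} (hR : sp R = b) :
    divf (k := C) ((e g).f u) R = 0 := by
  rw [(e g).divf_f hu, SI.D_apply]
  apply hb
  rw [← hA.disc g, SI.pl_symm_pl, hR]

/-- values of a unit of the disc -/
theorem ev_UR (hA : Act w sp e) {f : L} (hf : w f = 1) {Q : Pl C L}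
    (hQ : ∀ R, sp R = sp Q → divf (k := C) f R = 0) :
    UR vC G (fun g => ev Q ((e g).f f)) ∧ UR vC G (fun g => ev ((e g).pl Q) f) := by
  classical
  have hf0 : f ≠ 0 := by rintro rfl; simp at hf
  obtain ⟨b, ⟨B, hB, rfl⟩, hb⟩ := hA.fix.exists_notMem_finset {sp Q}
  rw [Finset.mem_singleton] at hb
  set M : Pl C L →₀ ℤ := divf (k := C) f ⊓ 0 with hM
  have hM0 : M ≤ 0 := inf_le_right
  have hdeg : degD M ≤ 0 := by
    have := degD_mono hM0
    rwa [degD_zero] at this
  set E : Pl C L →₀ ℤ := Finsupp.single B (2 * (gen C L : ℤ) - degD M) with hEdef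
  have hEdeg : degD E = 2 * (gen C L : ℤ) - degD M := by
    rw [hEdef, degD_single, degP_eq_one]; simp
  have hE : ∀ g, (e g).D E = E := fun g => by rw [hEdef, SI.D_single, hB g]
  have hbig : ell (E.mapDomain sp) ≤ ell E := (h.ell_eq_of_big (by omega)).le
  have hEQ : ∀ R, sp R = sp Q → E R = 0 := by
    intro R hR
    rw [hEdef, Finsupp.single_apply, if_neg]
    rintro rfl; exact hb hR
  obtain ⟨v, hw, hv, hS⟩ := h.exists_clear (D := E + M) (by rw [degD_add]; omega) {sp Q}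
  have hv0 : v ≠ 0 := by rintro rfl; simp at hw
  have hvQ : ∀ R, sp R = sp Q → divf (k := C) v R = 0 := by
    intro R hR
    have h1 := hS R (Finset.mem_singleton.mpr hR)
    rw [Finsupp.add_apply, Finsupp.add_apply, hEQ R hR, hM, Finsupp.inf_apply, hQ R hR] at h1
    simpa using h1
  have hv1 : v ∈ LD E := LD_mono (by simpa using hM0) hv
  have hu1 : f * v ∈ LD E := by
    rw [mem_LD_iff hv0] at hv
    rw [mem_LD_iff (mul_ne_zero hf0 hv0), divf_mul hf0 hv0]
    intro R
    have h1 := hv R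
    have h2 : M R ≤ divf (k := C) f R := (inf_le_left : M ≤ divf (k := C) f) R
    simp only [Finsupp.add_apply, Finsupp.zero_apply] at h1 ⊢
    omega
  have hwu : w (f * v) = 1 := by rw [map_mul, hf, hw, one_mul]
  have huQ : ∀ R, sp R = sp Q → divf (k := C) (f * v) R = 0 := by
    intro R hR
    rw [divf_mul hf0 hv0, Finsupp.add_apply, hQ R hR, hvQ R hR, add_zero]
  have key : ∀ u : L, w u = 1 → u ∈ LD E → (∀ R, sp R = sp Q → divf (k := C) u R = 0) →
      UR vC G (fun g => ev Q ((e g).f u)) ∧ UR vC G (fun g => ev ((e g).pl Q) u) := by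
    intro u hu hu' huQ
    have hu0 : u ≠ 0 := by rintro rfl; simp at hu
    obtain ⟨h1, h2⟩ := h.ev_mem_of_LD hA hE hbig hu' hu.le hEQ
    refine ⟨⟨h1, fun g => ?_⟩, ⟨h2, fun g => ?_⟩⟩
    · exact h.ev_eq_one (by rw [hA.iso, hu]) fun R hR => divf_f_eq_zero hA hu0 huQ g hR
    · exact h.ev_eq_one hu fun R hR => huQ R (by rw [hR, hA.disc])
  obtain ⟨a1, a2⟩ := key _ hwu hu1 huQ
  obtain ⟨b1, b2⟩ := key _ hw hv1 hvQ
  have hfe : f = f * v / v := by field_simp
  have hone : ∀ u : L, u ≠ 0 → (∀ R, sp R = sp Q → divf (k := C) u R = 0) → ∀ g,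
      Q.v ((e g).f u) = 1 ∧ ((e g).pl Q).v u = 1 := by
    intro u hu0 huQ g
    exact ⟨(v_eq_one_iff (by simpa using hu0) Q).mpr (divf_f_eq_zero hA hu0 huQ g rfl),
      (v_eq_one_iff hu0 _).mpr (huQ _ (hA.disc g Q))⟩
  constructor
  · convert a1.div hA.orb b1 using 2 with g
    conv_lhs => rw [hfe]
    rw [map_div₀, ev_div _ (hone _ (mul_ne_zero hf0 hv0) huQ g).1.le (hone _ hv0 hvQ g).1]
  · convert a2.div hA.orb b2 using 2 with g
    conv_lhs => rw [hfe]
    rw [ev_div _ (hone _ (mul_ne_zero hf0 hv0) huQ g).2.le (hone _ hv0 hvQ g).2]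

theorem exists_fun_one {n : ℕ} {D : Pl C L →₀ ℤ} (hD : n • cls D = (0 : Pic C L)) :
    ∃ f : L, w f = 1 ∧ divf (k := C) f = n • D := by
  obtain ⟨f, hf0, hf⟩ := Wp.exists_fun hD
  obtain ⟨c, hc, -, hw⟩ := h.rd.normalise hf0
  refine ⟨_, hw, ?_⟩
  rw [divf_mul hf0 (by simpa using hc), divf_const (inv_ne_zero hc), add_zero, hf]

/-- **the Weil pairing is integral** -/
theorem wp_UR (hA : Act w sp e) {n : ℕ} (hn : n ≠ 0) {x y : Pic C L} (hx : n • x = 0)
    (hy : n • y = 0) : UR vC G (fun g => (Wp.wp n ((e g).pic x) y : C)) := by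
  classical
  obtain ⟨E, rfl⟩ := cls_surjective y
  obtain ⟨D, rfl, hS⟩ := h.exists_move_disc x (E.support.image sp)
  obtain ⟨f, hf, hfD⟩ := h.exists_fun_one hx
  obtain ⟨f', hf', hfE⟩ := h.exists_fun_one hy
  have hf0 : f ≠ 0 := by rintro rfl; simp at hf
  have hf0' : f' ≠ 0 := by rintro rfl; simp at hf'
  have hDE : ∀ R Q, sp R = sp Q → E Q ≠ 0 → D R = 0 := fun R Q hR hQ =>
    hS R (hR ▸ Finset.mem_image_of_mem _ (Finsupp.mem_support_iff.mpr hQ))
  have h1 : ∀ Q ∈ E.support, ∀ R, sp R = sp Q → divf (k := C) f R = 0 := by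
    intro Q hQ R hR
    rw [hfD, Finsupp.smul_apply, hDE R Q hR (Finsupp.mem_support_iff.mp hQ), smul_zero]
  have h2 : ∀ P ∈ D.support, ∀ R, sp R = sp P → divf (k := C) f' R = 0 := by
    intro P hP R hR
    have : E R = 0 := by
      by_contra hne
      exact Finsupp.mem_support_iff.mp hP (hDE P R hR.symm hne)
    rw [hfE, Finsupp.smul_apply, this, smul_zero]
  have a1 := UR.prod E.support fun Q hQ => ((h.ev_UR hA hf (h1 Q hQ)).1.zpow hA.orb (E Q))
  have a2 := UR.prod D.support fun P hP => ((h.ev_UR hA hf' (h2 P hP)).2.zpow hA.orb (D P))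
  convert a1.div hA.orb a2 using 2 with g
  rw [SI.pic_cls, Wp.wp_eq hc_of_isAlgClosed hn (f := (e g).f f) (g := f') (by simpa using hf0) hf0'
    (by rw [(e g).divf_f hf0, hfD, map_nsmul]) hfE (fun P => by
      by_cases hP : E P = 0
      · exact Or.inr hP
      · left
        rw [SI.D_apply]
        exact hDE _ P (by rw [← hA.disc g, SI.pl_symm_pl]) hP), Units.val_div_eq_div_val]
  congr 1
  · unfold Wp.ev Crest.Agent.R013.WR4_777.pw Finsupp.prod
    rw [Units.coe_prod]
    refine Finset.prod_congr rfl fun Q hQ => ?_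
    rw [Units.val_zpow_eq_zpow_val, coe_nrm_eq]
    exact (v_eq_one_iff (by simpa using hf0) Q).mpr (divf_f_eq_zero hA hf0 (h1 Q hQ) g rfl)
  · unfold Wp.ev Crest.Agent.R013.WR4_777.pw
    rw [D_eq_mapDomain, Finsupp.prod_mapDomain_index_inj (e g).pl_injective]
    unfold Finsupp.prod
    rw [Units.coe_prod]
    refine Finset.prod_congr rfl fun P hP => ?_
    rw [Units.val_zpow_eq_zpow_val, coe_nrm_eq]
    exact (v_eq_one_iff hf0' _).mpr (h2 P hP _ (hA.disc g P))

theorem wp_mem_RR (hA : Act w sp e) {n : ℕ} (hn : n ≠ 0) {x y : Pic C L} (hx : n • x = 0)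
    (hy : n • y = 0) : (fun g => (Wp.wp n ((e g).pic x) y : C)) ∈ RR vC G :=
  (h.wp_UR hA hn hx hy).1

/-- **finite equivariant subgroups of `Pic[n]` are flat** -/
theorem flat_of (hA : Act w sp e) {n : ℕ} (hn : n ≠ 0)
    (hnd : ∀ x : Pic C L, n • x = 0 → x ≠ 0 → ∃ y : Pic C L, n • y = 0 ∧ Wp.wp n x y ≠ 1)
    {V : Type*} [AddCommGroup V] [Finite V] (i : V →+ Pic C L) (hi : Function.Injective i)
    (hV : ∀ v, n • i v = 0) {r : G → V → V} (hr : ∀ g v, i (r g v) = (e g).pic (i v)) :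
    Flat vC G r := by
  refine flat_of_sep fun u hu => ?_
  obtain ⟨y, hy, hne⟩ := hnd (i u) (hV u) (fun h0 => hu (hi (by rw [h0, map_zero])))
  let χ : AddChar V C :=
    { toFun := fun v => (Wp.wp n (i v) y : C)
      map_zero_eq_one' := by rw [map_zero, Wp.wp_zero_left hc_of_isAlgClosed hn hy, Units.val_one]
      map_add_eq_mul' := fun a b => by
        rw [map_add, Wp.wp_add_left hc_of_isAlgClosed hn (hV a) (hV b) hy, Units.val_mul] }
  refine ⟨χ, fun h1 => hne (Units.ext h1), fun v => ?_⟩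
  have := h.wp_mem_RR hA hn (hV v) hy
  convert this using 2 with g
  show (Wp.wp n (i (r g v)) y : C) = _
  rw [hr]

omit [Group G] [MulSemiringAction G C] in
theorem disc_of (e : SI C L C L) (hw : ∀ u, w (e.f u) = w u) (hρ : ∀ u, w u ≤ 1 → ρ (e.f u) = ρ u)
    (P : Pl C L) : sp (e.pl P) = sp P := by
  obtain ⟨eb, h1, -, h3⟩ := h.exists_bar e hw
  have h4 : ∀ z, eb.f z = z := by
    intro z
    obtain ⟨u, hu, rfl⟩ := h.rd.res.surj z
    rw [← h1 u hu, hρ u hu]
  rw [h3]
  ext z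
  conv_lhs => rw [← h4 z]
  rw [SI.pl_v_apply]

omit [Group G] [MulSemiringAction G C] in
/-- almost all discs contain a fixed place -/
theorem exists_fix (hd : ∀ g P, sp ((e g).pl P) = sp P) {x : L} (hx : w x ≤ 1)
    (hxf : ∀ g, (e g).f x = x) (hsep : del k κ (ρ x) ≠ 0)
    (hres : ∀ c : k, ∃ a : C, vC a ≤ 1 ∧ ρC a = c ∧ ∀ g, (e g).s a = a) :
    ∃ S : Finset (Pl k κ), ∀ b, b ∉ S → ∃ P, sp P = b ∧ ∀ g, (e g).pl P = P := by
  classical
  obtain ⟨S, hS⟩ := exists_simple hsep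
  have hx0 : x ≠ 0 := by
    rintro rfl
    rw [h.rd.res.zero] at hsep
    simp at hsep
  refine ⟨S ∪ (divf (k := C) x).support.image sp, fun b hb => ?_⟩
  rw [Finset.mem_union, not_or] at hb
  obtain ⟨h1, h2, h3⟩ := hS b hb.1
  obtain ⟨a, ha, ha', haf⟩ := hres (ev b (ρ x))
  have hwa : w (algebraMap C L a) ≤ 1 := by rw [h.rd.norm]; exact ha
  have hρ : ρ (x - algebraMap C L a) = ρ x - algebraMap k κ (ev b (ρ x)) := by
    rw [h.rd.res.sub hx hwa, h.rd.comp a ha, ha']
  have hw1 : w (x - algebraMap C L a) = 1 := by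
    rw [← h.rd.res.ne_zero_iff ((Valuation.map_sub _ _ _).trans (max_le hx hwa)), hρ]
    exact h2
  have hr : Reg sp b (x - algebraMap C L a) := by
    refine Reg.sub (fun R hR => ?_) (Reg.const a)
    refine ((v_eq_one_iff hx0 R).mpr ?_).le
    by_contra hne
    exact hb.2 (hR ▸ Finset.mem_image_of_mem _ (Finsupp.mem_support_iff.mpr hne))
  obtain ⟨P, hP, hz⟩ := h.exists_zero hw1 (b := b) (by rw [hρ, h3]; norm_num)
  refine ⟨P, hP, fun g => ?_⟩
  by_contra hne
  have h4 := (h.divf_of_simple hw1 hr (by rw [hρ, h3]) hP hz).2 _ (by rw [hd g, hP]) hne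
  have h5 : ((e g).pl P).v (x - algebraMap C L a) < 1 := by
    have : (e g).f (x - algebraMap C L a) = x - algebraMap C L a := by
      rw [map_sub, hxf, (e g).comm, haf]
    rw [← this, SI.pl_v_apply]
    exact hz
  rw [v_lt_one_iff (by rintro h0; rw [h0] at hw1; simp at hw1)] at h5
  omega

/-- how to check `Act` -/
theorem act_of (hs : ∀ g c, (e g).s c = g • c) (hw : ∀ g u, w ((e g).f u) = w u)
    (hρ : ∀ g u, w u ≤ 1 → ρ ((e g).f u) = ρ u)
    (horb : ∀ a : C, (Set.range fun g : G => g • a).Finite) {x : L} (hx : w x ≤ 1)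
    (hxf : ∀ g, (e g).f x = x) (hsep : del k κ (ρ x) ≠ 0)
    (hres : ∀ c : C, vC c ≤ 1 → ∃ a : C, vC (c - a) < 1 ∧ ∀ g : G, g • a = a) : Act w sp e := by
  have hd : ∀ g P, sp ((e g).pl P) = sp P := fun g => h.disc_of (e g) (hw g) (hρ g)
  refine ⟨hs, hw, hd, ?_, horb⟩
  obtain ⟨S, hS⟩ := h.exists_fix hd hx hxf hsep (fun c => by
    obtain ⟨c, hc, rfl⟩ := h.rd.resC.surj c
    obtain ⟨a, ha, haf⟩ := hres c hc
    have h1 : vC a ≤ 1 := by
      have : a = c - (c - a) := by ring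
      rw [this]
      exact (Valuation.map_sub _ _ _).trans (max_le hc ha.le)
    exact ⟨a, h1, ((h.rd.resC.eq_iff hc h1).mpr ha).symm, fun g => by rw [hs, haf]⟩)
  intro hfin
  classical
  obtain ⟨b, hb⟩ := exists_notMem (k := k) (K := κ) (S ∪ hfin.toFinset)
  rw [Finset.mem_union, not_or] at hb
  obtain ⟨P, hP, hP'⟩ := hS b hb.1
  exact hb.2 (hfin.mem_toFinset.mpr ⟨P, hP', hP⟩)

omit h [IsAlgClosed C] [CharZero C] in
theorem orb_gal (F : Type*) [Field F] [Algebra F C] [Algebra.IsAlgebraic F C] (a : C) :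
    (Set.range fun g : C ≃ₐ[F] C => g • a).Finite := by
  refine ((minpoly F a).rootSet_finite C).subset ?_
  rintro _ ⟨g, rfl⟩
  rw [Polynomial.mem_rootSet]
  refine ⟨minpoly.ne_zero (Algebra.IsIntegral.isIntegral a), ?_⟩
  show aeval (g a) (minpoly F a) = 0
  rw [aeval_algHom_apply, minpoly.aeval, map_zero]

/-- `Act` for the Galois group over a field with full residue field -/
theorem act_gal {F : Type*} [Field F] [Algebra F C] [Algebra.IsAlgebraic F C]
    {e : (C ≃ₐ[F] C) → SI C L C L} (hs : ∀ g c, (e g).s c = g c)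
    (hw : ∀ g u, w ((e g).f u) = w u) (hρ : ∀ g u, w u ≤ 1 → ρ ((e g).f u) = ρ u) {x : L}
    (hx : w x ≤ 1) (hxf : ∀ g, (e g).f x = x) (hsep : del k κ (ρ x) ≠ 0)
    (hres : ∀ y : C, vC y ≤ 1 → ∃ a : F, vC (y - algebraMap F C a) < 1) : Act w sp e :=
  h.act_of hs hw hρ (orb_gal F) hx hxf hsep fun c hc =>
    (hres c hc).elim fun a ha => ⟨_, ha, fun g => g.commutes a⟩

end Good

end Crest.Agent.T15.Disc
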