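import Crest.Agent.T15.BetPc_91
import Crest.Agent.T15.CgJ_84
import Crest.Agent.T15.SrcK_71

/-!
# T15 / BetDvd (helper91): `Cg.DvdStmt` and the dictionary `Disc.KumR`
-/

set_option autoImplicit false

noncomputable section

namespace Crest.Agent.T15.Bet

open CongruenceSubgroup
open scoped MatrixGroups
open Crest.Agent.T15.Mf Crest.Agent.T15.Hk Crest.Agent.T15.Lv

theorem dvdStmt : Cg.DvdStmt := fun _ _ _ h4 hH _ _ _ _ hp hK P =>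
  IsK.dvd_divf isCong (GH_le_G4 h4 hH) hK hp P

lemma neg_one_notMem {Γ₀ : Subgroup SL(2, ℤ)} (h4 : Γ₀ ≤ Gamma1 4) : (-1 : SL(2, ℤ)) ∉ Γ₀ :=
  fun h => by
    have := ((Gamma1_mem _ _).1 (h4 h)).1
    revert this; decide

/-- **the Kummer dictionary on the function field**, for parabolic classes -/
theorem kumR {Γ₀ : Subgroup SL(2, ℤ)} (hΓ : IsCongruenceSubgroup Γ₀) [Γ₀.FiniteIndex]
    (h4 : Γ₀ ≤ Gamma1 4) {n : ℕ} [NeZero n] {C : Type*} [AddCommGroup C] [Finite C]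
    (hm : ∀ c : C, n • c = 0) {V : Type*} [AddCommGroup V] (i : V →+ HH (Γ₀.map Mf.sq) C)
    (hi : Function.Injective i) (hp : ∀ v, ParS Γ₀ (i v)) :
    Disc.KumR ℂ n fun (l : C →+ ZMod n) (v : V) (f : F Γ₀) =>
      IsK n (Γ₀.map Mf.sq) (f : FF) (l.comp (i v)) := by
  obtain ⟨M, hM, hle⟩ := id hΓ
  have h := rel hM hle (Or.inr (neg_one_notMem h4)) hm i hi
  have hF : ∀ {x : FF}, x ∈ Twi.Fx FF (Γ₀.map Mf.sq) → x ∈ F Γ₀ :=
    fun hx γ hγ => hx _ (Subgroup.mem_map_of_mem _ hγ)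
  refine ⟨fun hf h0 => hf.ne (by rw [h0]; rfl), fun hf P => hf.dvd_divf hΓ h4 ((hp _).comp _) P,
    fun l v => ?_, fun hf hg => h.sub hf hg, fun hf => ?_, fun hv => h.sep fun l => ?_⟩
  · obtain ⟨f, hf⟩ := h.ex l v
    exact ⟨⟨f, hf.mem_F⟩, hf⟩
  · obtain ⟨g, hg, e⟩ := h.uniq hf
    exact ⟨⟨g, hF hg⟩, Subtype.ext e⟩
  · obtain ⟨g, hg⟩ := hv l
    exact ⟨g, by rintro _ ⟨γ, hγ, rfl⟩; exact g.2 γ hγ, hg⟩

end Crest.Agent.T15.Bet
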