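import Mathlib

/-!
# Row 15, analytic Jacobian of `w² = F(x)`, any genus (helper14), part A

Implicit functions, local charts `Ch` at every affine point (Weierstrass points included), the algebraic
form of Abel's theorem (Lagrange identity) and its local converse.
-/

set_option autoImplicit false
set_option linter.unusedSectionVars false
set_option linter.unusedVariables false

open Polynomial Filter Topology Metric

noncomputable section

namespace Crest.Agent.T15.Ax

section Impl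

variable {E₁ E₂ G : Type*} [NormedAddCommGroup E₁] [NormedSpace ℂ E₁] [FiniteDimensional ℂ E₁]
  [NormedAddCommGroup E₂] [NormedSpace ℂ E₂] [FiniteDimensional ℂ E₂]
  [NormedAddCommGroup G] [NormedSpace ℂ G] [FiniteDimensional ℂ G]

/-- directional derivative -/
lemma hasDerivAt_line {E : Type*} [NormedAddCommGroup E] [NormedSpace ℂ E] {f : E → G} {u : E}
    (hf : DifferentiableAt ℂ f u) (v : E) :
    HasDerivAt (fun s : ℂ => f (u + s • v)) (fderiv ℂ f u v) 0 := by
  have h1 : HasDerivAt (fun s : ℂ => u + s • v) v 0 := by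
    simpa using ((hasDerivAt_id (0 : ℂ)).smul_const v).const_add u
  have h2 : HasFDerivAt f (fderiv ℂ f u) (u + (0 : ℂ) • v) := by simpa using hf.hasFDerivAt
  exact h2.comp_hasDerivAt (0 : ℂ) h1

/-- analytic implicit function theorem -/
lemma impl {f : E₁ × E₂ → G} {u : E₁ × E₂} (hf : AnalyticAt ℂ f u)
    (hdim : Module.finrank ℂ E₂ = Module.finrank ℂ G)
    (hinj : ∀ v : E₂, HasDerivAt (fun s : ℂ => f (u.1, u.2 + s • v)) 0 0 → v = 0) :
    ∃ ψ : E₁ → E₂, AnalyticAt ℂ ψ u.1 ∧ ψ u.1 = u.2 ∧ (∀ᶠ a in 𝓝 u.1, f (a, ψ a) = f u) ∧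
      ∀ᶠ v in 𝓝 u, f v = f u → ψ v.1 = v.2 := by
  have := FiniteDimensional.complete ℂ E₁
  have := FiniteDimensional.complete ℂ E₂
  have := FiniteDimensional.complete ℂ G
  have cdf : ContDiffAt ℂ ⊤ f u := hf.contDiffAt
  have hi : Function.Injective
      ((fderiv ℂ f u ∘L ContinuousLinearMap.inr ℂ E₁ E₂ : E₂ →L[ℂ] G) : E₂ →ₗ[ℂ] G) := by
    rw [injective_iff_map_eq_zero]
    intro v hv
    apply hinj
    have h := hasDerivAt_line hf.differentiableAt ((0 : E₁), v)
    have e : fderiv ℂ f u ((0 : E₁), v) = 0 := by simpa using hv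
    rw [e] at h
    convert h using 3 with s
    ext <;> simp
  have if₂ : (fderiv ℂ f u ∘L ContinuousLinearMap.inr ℂ E₁ E₂).IsInvertible :=
    ⟨(LinearMap.linearEquivOfInjective _ hi hdim).toContinuousLinearEquiv, by ext; rfl⟩
  have pn : (⊤ : WithTop ℕ∞) ≠ 0 := by simp
  refine ⟨cdf.implicitFunction pn if₂, (cdf.contDiffAt_implicitFunction pn if₂).analyticAt,
    cdf.implicitFunction_apply_self pn if₂, cdf.eventually_apply_implicitFunction pn if₂, ?_⟩
  filter_upwards [cdf.eventually_apply_eq_iff_implicitFunction pn if₂] with v hv h using hv.1 h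

/-- a function with zero directional derivatives near a point is locally constant -/
lemma ev_const {E : Type*} [NormedAddCommGroup E] [NormedSpace ℂ E] {f : E → G} {u : E}
    (hf : AnalyticAt ℂ f u)
    (h : ∀ᶠ a in 𝓝 u, ∀ v : E, HasDerivAt (fun s : ℂ => f (a + s • v)) 0 0) :
    ∀ᶠ a in 𝓝 u, f a = f u := by
  obtain ⟨r, hr, hb⟩ := Metric.eventually_nhds_iff_ball.1 (h.and hf.eventually_analyticAt)
  filter_upwards [ball_mem_nhds u hr] with a ha
  refine isOpen_ball.is_const_of_fderiv_eq_zero (𝕜 := ℂ) (convex_ball u r).isPreconnected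
    (fun y hy => (hb y hy).2.differentiableAt.differentiableWithinAt) (fun y hy => ?_) ha
    (mem_ball_self hr)
  ext v
  exact (hasDerivAt_line (hb y hy).2.differentiableAt v).unique ((hb y hy).1 v)

lemma hd_fst {G' : Type*} [NormedAddCommGroup G'] [NormedSpace ℂ G'] {f : ℂ → G × G'} {f' : G × G'}
    {s : ℂ} (h : HasDerivAt f f' s) : HasDerivAt (fun t => (f t).1) f'.1 s :=
  (ContinuousLinearMap.fst ℂ G G').hasFDerivAt.comp_hasDerivAt s h

lemma hd_snd {G' : Type*} [NormedAddCommGroup G'] [NormedSpace ℂ G'] {f : ℂ → G × G'} {f' : G × G'}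
    {s : ℂ} (h : HasDerivAt f f' s) : HasDerivAt (fun t => (f t).2) f'.2 s :=
  (ContinuousLinearMap.snd ℂ G G').hasFDerivAt.comp_hasDerivAt s h

end Impl

attribute [local fun_prop] analyticAt_fst analyticAt_snd

lemma hd_eval {𝕜 : Type*} [NontriviallyNormedField 𝕜] [NormedAlgebra 𝕜 ℂ] (F : ℂ[X]) {x : 𝕜 → ℂ}
    {x' : ℂ} {s : 𝕜} (h : HasDerivAt x x' s) :
    HasDerivAt (fun t => F.eval (x t)) (F.derivative.eval (x s) * x') s :=
  (F.hasDerivAt (x s)).comp s h

/-- local chart `τ ↦ (x τ, w τ)` of the curve `w² = F(x)` with `dx / w = η dτ` and the primitive `ab` of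
`(x^k dx / w)_k`. -/
structure Ch (F : ℂ[X]) (g : ℕ) where
  x : ℂ → ℂ
  w : ℂ → ℂ
  η : ℂ → ℂ
  ab : ℂ → Fin g → ℂ
  α : ℂ
  β : ℂ
  ab0 : ab 0 = 0
  anx : AnalyticAt ℂ x 0
  anw : AnalyticAt ℂ w 0
  anab : AnalyticAt ℂ ab 0
  ev : ∀ᶠ τ in 𝓝 (0 : ℂ), w τ ^ 2 = F.eval (x τ) ∧ HasDerivAt x (η τ * w τ) τ ∧
    HasDerivAt w (η τ * F.derivative.eval (x τ) / 2) τ ∧
    HasDerivAt ab (fun k => x τ ^ (k : ℕ) * η τ) τ ∧
    η τ * (α * w τ + β * F.derivative.eval (x τ) / 2) = 1 ∧
    α * (x τ - x 0) + β * (w τ - w 0) = τ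
  uniq : ∀ᶠ p in 𝓝 ((x 0, w 0) : ℂ × ℂ), p.2 ^ 2 = F.eval p.1 →
    (x (α * (p.1 - x 0) + β * (p.2 - w 0)), w (α * (p.1 - x 0) + β * (p.2 - w 0))) = p

namespace Ch

variable {F : ℂ[X]} {g : ℕ} (c : Ch F g)

/-- the point with parameter `τ` -/
def pt (τ : ℂ) : ℂ × ℂ := (c.x τ, c.w τ)

lemma on0 : c.w 0 ^ 2 = F.eval (c.x 0) := c.ev.self_of_nhds.1

lemma η0 : c.η 0 ≠ 0 := left_ne_zero_of_mul_eq_one c.ev.self_of_nhds.2.2.2.2.1

end Ch

lemma an_eval (F : ℂ[X]) (y : ℂ) : AnalyticAt ℂ (fun z => F.eval z) y :=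
  (Polynomial.differentiable F).analyticAt y

lemma not_both {F : ℂ[X]} (hF : Squarefree F) {b c : ℂ} (h : c ^ 2 = F.eval b) :
    c ≠ 0 ∨ F.derivative.eval b ≠ 0 := by
  by_contra hc
  push Not at hc
  have hs : F.Separable := PerfectField.separable_iff_squarefree.2 hF
  have h0 : F.eval b = 0 := by rw [← h, hc.1]; simp
  have := hs.eval₂_derivative_ne_zero (RingHom.id ℂ) (x := b) (by simpa using h0)
  exact this (by simpa using hc.2)

lemma exists_ch {F : ℂ[X]} (hF : Squarefree F) (g : ℕ) {P : ℂ × ℂ} (hP : P.2 ^ 2 = F.eval P.1) :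
    ∃ c : Ch F g, c.x 0 = P.1 ∧ c.w 0 = P.2 := by
  obtain ⟨b, c0⟩ := P
  simp only at hP
  obtain ⟨α, β, hαβ⟩ : ∃ α β : ℂ, α * c0 + β * F.derivative.eval b / 2 ≠ 0 := by
    rcases not_both hF hP with h | h
    · exact ⟨1, 0, by simpa using h⟩
    · exact ⟨0, 1, by simpa using h⟩
  set f : ℂ × (ℂ × ℂ) → ℂ × ℂ := fun v =>
    (v.2.2 ^ 2 - F.eval v.2.1, α * (v.2.1 - b) + β * (v.2.2 - c0) - v.1) with hf
  have hfa : AnalyticAt ℂ f (0, (b, c0)) := by
    have h1 : AnalyticAt ℂ (fun v : ℂ × (ℂ × ℂ) => F.eval v.2.1) (0, (b, c0)) :=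
      (an_eval F _).fun_comp (f := fun v : ℂ × (ℂ × ℂ) => v.2.1) (by fun_prop)
    refine AnalyticAt.prod ?_ (by fun_prop)
    exact AnalyticAt.sub (by fun_prop) h1
  have hf0 : f (0, (b, c0)) = 0 := by simp [hf, hP]
  obtain ⟨ψ, hψa, hψ0, hψe, hψu⟩ := impl hfa (by simp) (by
    rintro ⟨v1, v2⟩ hv
    have d1 : HasDerivAt (fun s : ℂ => b + s * v1) v1 0 := by
      simpa using ((hasDerivAt_id (0 : ℂ)).mul_const v1).const_add b
    have d2 : HasDerivAt (fun s : ℂ => c0 + s * v2) v2 0 := by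
      simpa using ((hasDerivAt_id (0 : ℂ)).mul_const v2).const_add c0
    have d3 : HasDerivAt (fun s : ℂ => F.eval (b + s * v1)) (F.derivative.eval b * v1) 0 := by
      exact (hd_eval F d1).congr_deriv (by simp)
    have e1 : HasDerivAt (fun s : ℂ => (c0 + s * v2) ^ 2 - F.eval (b + s * v1))
        (2 * c0 * v2 - F.derivative.eval b * v1) 0 := by
      exact ((d2.fun_pow 2).fun_sub d3).congr_deriv (by simp)
    have e2 : HasDerivAt (fun s : ℂ => α * (b + s * v1 - b) + β * (c0 + s * v2 - c0) - 0)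
        (α * v1 + β * v2) 0 :=
      (((d1.sub_const b).const_mul α).add ((d2.sub_const c0).const_mul β)).sub_const 0
    have h1 := e1.unique (hd_fst hv)
    have h2 := e2.unique (hd_snd hv)
    simp only [Prod.fst_zero, Prod.snd_zero] at h1 h2
    have k1 : v1 * (α * c0 + β * F.derivative.eval b / 2) = 0 := by
      linear_combination c0 * h2 - β / 2 * h1
    have k2 : v2 * (α * c0 + β * F.derivative.eval b / 2) = 0 := by
      linear_combination F.derivative.eval b / 2 * h2 + α / 2 * h1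
    ext
    · simpa using (mul_eq_zero.1 k1).resolve_right hαβ
    · simpa using (mul_eq_zero.1 k2).resolve_right hαβ)
  simp only at hψa hψ0 hψe
  set x : ℂ → ℂ := fun τ => (ψ τ).1 with hx
  set w : ℂ → ℂ := fun τ => (ψ τ).2 with hw
  have hx0 : x 0 = b := by simp [hx, hψ0]
  have hw0 : w 0 = c0 := by simp [hw, hψ0]
  have anx : AnalyticAt ℂ x 0 := analyticAt_fst.fun_comp hψa
  have anw : AnalyticAt ℂ w 0 := analyticAt_snd.fun_comp hψa
  set D : ℂ → ℂ := fun τ => α * w τ + β * F.derivative.eval (x τ) / 2 with hD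
  have anD : AnalyticAt ℂ D 0 := by
    have h1 : AnalyticAt ℂ (fun τ => F.derivative.eval (x τ)) 0 := (an_eval _ _).fun_comp anx
    exact (analyticAt_const.mul anw).add ((analyticAt_const.mul h1).div_const)
  have hD0 : D 0 ≠ 0 := by simpa [hD, hx0, hw0] using hαβ
  set η : ℂ → ℂ := fun τ => (D τ)⁻¹ with hη
  have anη : AnalyticAt ℂ η 0 := anD.inv hD0
  set φ : ℂ → Fin g → ℂ := fun τ k => x τ ^ (k : ℕ) * η τ with hφ
  have anφ : AnalyticAt ℂ φ 0 := by
    rw [analyticAt_pi_iff]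
    intro k
    exact (anx.pow _).mul anη
  obtain ⟨r, hr, hb⟩ := Metric.eventually_nhds_iff_ball.1 anφ.eventually_analyticAt
  obtain ⟨ab, hab0, hab⟩ := (DifferentiableOn.isExactOn_ball (f := φ) (c := 0) (r := r)
    (fun y hy => (hb y hy).differentiableAt.differentiableWithinAt)).with_val_at 0 0
  have anab : AnalyticAt ℂ ab 0 :=
    DifferentiableOn.analyticAt (s := ball 0 r)
      (fun y hy => (hab y hy).differentiableAt.differentiableWithinAt) (ball_mem_nhds 0 hr)
  have heq : ∀ᶠ τ in 𝓝 (0 : ℂ), w τ ^ 2 = F.eval (x τ) ∧ α * (x τ - b) + β * (w τ - c0) = τ := by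
    filter_upwards [hψe] with τ h
    rw [hf0] at h
    have h1 := congrArg Prod.fst h
    have h2 := congrArg Prod.snd h
    simp only [hf, Prod.fst_zero, Prod.snd_zero] at h1 h2
    exact ⟨sub_eq_zero.1 h1, sub_eq_zero.1 h2⟩
  refine ⟨⟨x, w, η, ab, α, β, hab0, anx, anw, anab, ?_, ?_⟩, hx0, hw0⟩
  · filter_upwards [heq.eventually_nhds, anx.eventually_analyticAt, anw.eventually_analyticAt,
      anD.continuousAt.eventually_ne hD0, ball_mem_nhds 0 hr] with τ h hxa hwa hDτ hτ
    have dx := hxa.differentiableAt.hasDerivAt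
    have dw := hwa.differentiableAt.hasDerivAt
    have e1 : HasDerivAt (fun s => w s ^ 2) (F.derivative.eval (x τ) * deriv x τ) τ :=
      ((F.hasDerivAt (x τ)).comp τ dx).congr_of_eventuallyEq (h.mono fun s hs => hs.1)
    have e2 : HasDerivAt (fun s => α * (x s - b) + β * (w s - c0)) 1 τ :=
      (hasDerivAt_id τ).congr_of_eventuallyEq (h.mono fun s hs => hs.2)
    have h1 := (dw.pow 2).unique e1
    have h2 := (((dx.sub_const b).const_mul α).add ((dw.sub_const c0).const_mul β)).unique e2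
    simp only [Nat.cast_ofNat, Nat.add_one_sub_one, pow_one] at h1
    have hηD : η τ * D τ = 1 := inv_mul_cancel₀ hDτ
    have k1 : deriv x τ = η τ * w τ := by
      have : deriv x τ * D τ = w τ := by
        simp only [hD]; linear_combination w τ * h2 - β / 2 * h1
      linear_combination η τ * this - deriv x τ * hηD
    have k2 : deriv w τ = η τ * F.derivative.eval (x τ) / 2 := by
      have : deriv w τ * D τ = F.derivative.eval (x τ) / 2 := by
        simp only [hD]; linear_combination F.derivative.eval (x τ) / 2 * h2 + α / 2 * h1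
      linear_combination η τ * this - deriv w τ * hηD
    refine ⟨h.self_of_nhds.1, k1 ▸ dx, k2 ▸ dw, hab τ hτ, hηD, ?_⟩
    rw [hx0, hw0]; exact h.self_of_nhds.2
  · rw [hx0, hw0]
    have hc : ContinuousAt (fun p : ℂ × ℂ => ((α * (p.1 - b) + β * (p.2 - c0), p) : ℂ × (ℂ × ℂ)))
        (b, c0) := by fun_prop
    have := hc.tendsto
    simp only [sub_self, mul_zero, add_zero] at this
    filter_upwards [this.eventually hψu] with p hp h
    exact hp (by rw [hf0]; simp [hf, h])

/-- `a² - b² F ≠ 0` -/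
lemma norm_ne_zero {F a b : ℂ[X]} (hF : Squarefree F) (hd : 0 < F.natDegree) (hb : b ≠ 0) :
    a ^ 2 - b ^ 2 * F ≠ 0 := by
  intro h
  have h1 : a ^ 2 = b ^ 2 * F := sub_eq_zero.1 h
  obtain ⟨q, rfl⟩ : b ∣ a := (IsIntegrallyClosed.pow_dvd_pow_iff (two_ne_zero)).1 ⟨F, h1⟩
  have h2 : F = q * q := by
    have : b ^ 2 * (q * q) = b ^ 2 * F := by rw [← h1]; ring
    exact (mul_left_cancel₀ (pow_ne_zero 2 hb) this).symm
  have hq : IsUnit q := hF q (by rw [h2])
  have : F.natDegree = 0 := natDegree_eq_zero_of_isUnit (h2 ▸ hq.mul hq)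
  omega

/-- derivative of a polynomial with `card ι` distinct roots and degree at most `card ι` -/
lemma deriv_at_root {ι : Type*} [Fintype ι] [DecidableEq ι] {x : ι → ℂ} (hx : Function.Injective x)
    {N : ℂ[X]} (hN : N ≠ 0) (hd : N.natDegree ≤ Fintype.card ι) (h0 : ∀ j, N.eval (x j) = 0) :
    ∃ c : ℂ, c ≠ 0 ∧ ∀ j, N.derivative.eval (x j) = c * ∏ i ∈ Finset.univ.erase j, (x j - x i) := by
  set c := N.coeff (Fintype.card ι) with hc
  set Q : ℂ[X] := ∏ i, (X - C (x i)) with hQ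
  have hQm : Q.Monic := monic_prod_of_monic _ _ fun i _ => monic_X_sub_C _
  have hQd : Q.natDegree = Fintype.card ι := by
    rw [hQ, natDegree_prod_of_monic _ _ fun i _ => monic_X_sub_C _]; simp
  have hE : N = C c * Q := by
    by_contra hne
    have hne' : N - C c * Q ≠ 0 := sub_ne_zero.2 hne
    apply hne'
    refine eq_zero_of_natDegree_lt_card_of_eval_eq_zero _ hx (fun j => ?_) ?_
    · have : Q.eval (x j) = 0 := by
        rw [hQ, eval_prod]; exact Finset.prod_eq_zero (Finset.mem_univ j) (by simp)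
      simp [h0 j, this]
    · have h1 : (N - C c * Q).natDegree ≤ Fintype.card ι :=
        (natDegree_sub_le _ _).trans (max_le hd ((natDegree_C_mul_le _ _).trans hQd.le))
      refine lt_of_le_of_ne h1 fun h2 => ?_
      have h3 : (N - C c * Q).coeff (Fintype.card ι) = 0 := by
        rw [coeff_sub, coeff_C_mul, ← hQd, hQm.coeff_natDegree, hQd, mul_one, hc, sub_self]
      exact hne' (by rw [← leadingCoeff_eq_zero, leadingCoeff, h2, h3])
  refine ⟨c, fun h => hN (by rw [hE, h]; simp), fun j => ?_⟩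
  have : Q = (X - C (x j)) * ∏ i ∈ Finset.univ.erase j, (X - C (x i)) :=
    (Finset.mul_prod_erase _ _ (Finset.mem_univ j)).symm
  rw [hE, this]
  simp [eval_prod]

/-- **Abel's theorem, algebraic form** -/
lemma abel_alg {F : ℂ[X]} {g s : ℕ} (hF : Squarefree F) (hd0 : 0 < F.natDegree)
    (hd : F.natDegree ≤ 2 * g + 2) {ι : Type*} [Fintype ι] [DecidableEq ι]
    (hc : Fintype.card ι = 2 * (g + 1 + s)) {x w u : ι → ℂ} (hx : Function.Injective x)
    {a b da db : ℂ[X]} (hb0 : b ≠ 0) (ha : a.natDegree ≤ g + 1 + s) (hb : b.natDegree ≤ s)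
    (hda : da.natDegree ≤ g + 1 + s) (hdb : db.natDegree ≤ s)
    (hw : ∀ j, w j ^ 2 = F.eval (x j)) (he : ∀ j, a.eval (x j) + b.eval (x j) * w j = 0)
    (hde : ∀ j, da.eval (x j) + db.eval (x j) * w j + (a.derivative.eval (x j) * w j +
      b.derivative.eval (x j) * w j ^ 2 + b.eval (x j) * F.derivative.eval (x j) / 2) * u j = 0)
    (k : ℕ) (hk : k < g) : ∑ j, x j ^ k * u j = 0 := by
  set N := a ^ 2 - b ^ 2 * F with hN
  have hNd : N.natDegree ≤ Fintype.card ι := by
    rw [hc]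
    refine (natDegree_sub_le _ _).trans (max_le ?_ ?_)
    · exact natDegree_pow_le.trans (by omega)
    · refine natDegree_mul_le.trans ?_
      have := natDegree_pow_le (p := b) (n := 2)
      omega
  have hN0 : ∀ j, N.eval (x j) = 0 := fun j => by
    simp only [hN, eval_sub, eval_mul, eval_pow]
    rw [← hw j]
    linear_combination (a.eval (x j) - b.eval (x j) * w j) * he j
  obtain ⟨c, hc0, hcj⟩ := deriv_at_root hx (norm_ne_zero hF hd0 hb0) hNd hN0
  set R := X ^ k * (b * da - a * db) with hR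
  have hRd : R.natDegree ≤ 2 * (g + 1 + s) - 2 := by
    refine natDegree_mul_le.trans ?_
    have h1 : (b * da - a * db).natDegree ≤ g + 1 + s + s :=
      (natDegree_sub_le _ _).trans (max_le (natDegree_mul_le.trans (by omega))
        (natDegree_mul_le.trans (by omega)))
    have h2 : ((X : ℂ[X]) ^ k).natDegree = k := natDegree_X_pow k
    omega
  have hL := Lagrange.coeff_eq_sum (s := Finset.univ) (v := x) hx.injOn (P := R) (by
    refine lt_of_le_of_lt degree_le_natDegree ?_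
    rw [Finset.card_univ, hc]
    exact_mod_cast (by omega : R.natDegree < 2 * (g + 1 + s)))
  rw [Finset.card_univ, hc, coeff_eq_zero_of_natDegree_lt (by omega)] at hL
  have key : ∀ j, x j ^ k * u j =
      2 / c * (R.eval (x j) / ∏ i ∈ Finset.univ.erase j, (x j - x i)) := fun j => by
    have hp : ∏ i ∈ Finset.univ.erase j, (x j - x i) ≠ 0 :=
      Finset.prod_ne_zero_iff.2 fun i hi => sub_ne_zero.2 fun h =>
        (Finset.ne_of_mem_erase hi) (hx h).symm
    have h1 := hcj j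
    simp only [derivative_sub, derivative_mul, derivative_pow, eval_sub, eval_add, eval_mul,
      eval_pow, eval_C, Nat.cast_ofNat, Nat.add_one_sub_one, pow_one] at h1
    rw [← hw j] at h1
    have h2 : c * (∏ i ∈ Finset.univ.erase j, (x j - x i)) * u j =
        2 * (b.eval (x j) * da.eval (x j) - a.eval (x j) * db.eval (x j)) := by
      rw [← h1]
      linear_combination (-2 * b.eval (x j)) * hde j +
        (2 * a.derivative.eval (x j) * u j + 2 * db.eval (x j)) * he j
    simp only [hR, eval_mul, eval_sub, eval_pow, eval_X]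
    field_simp
    linear_combination x j ^ k * h2
  rw [Finset.sum_congr rfl fun j _ => key j, ← Finset.mul_sum, ← hL, mul_zero]

/-- the hypotheses on the class map `cl` (class of an affine point) and `δ` (class of the divisor at infinity
of `x`) -/
structure Dat (F : ℂ[X]) (g : ℕ) {A : Type*} [AddCommGroup A] (cl : ℂ × ℂ → A) (δ : A) : Prop where
  sqf : Squarefree F
  lo : 2 * g + 1 ≤ F.natDegree
  hi : F.natDegree ≤ 2 * g + 2
  h1 : ∀ (s : ℕ) (ι : Type) [Fintype ι] (P : ι → ℂ × ℂ) (a b : ℂ[X]),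
    Fintype.card ι = 2 * (g + 1 + s) → Function.Injective (fun j => (P j).1) →
    (∀ j, (P j).2 ^ 2 = F.eval (P j).1) → b ≠ 0 → a.natDegree ≤ g + 1 + s → b.natDegree ≤ s →
    (∀ j, a.eval (P j).1 + b.eval (P j).1 * (P j).2 = 0) → ∑ j, cl (P j) = (g + 1 + s) • δ
  h2 : ∀ P Q : Fin g → ℂ × ℂ, (∀ j, (P j).2 ^ 2 = F.eval (P j).1) →
    (∀ j, (Q j).2 ^ 2 = F.eval (Q j).1) → Function.Injective (fun j => (P j).1) →
    Function.Injective (fun j => (Q j).1) → ∑ j, cl (P j) = ∑ j, cl (Q j) → ∀ i, ∃ j, P i = Q j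
  h3 : ∀ x w : ℂ, w ^ 2 = F.eval x → cl (x, w) + cl (x, -w) = δ
  h4 : ∀ (e₀ : ℂ) (T : Finset ℂ), F.eval e₀ = 0 → (∀ e ∈ T, F.eval e = 0) → e₀ ∉ T → T.Nonempty →
    T.card ≤ 2 * g → ∑ e ∈ T, (cl (e, 0) - cl (e₀, 0)) ≠ 0

/-- `ex` is an exponential map: along every chart the class moves by `ex` of the Abel integral -/
def IsExp (F : ℂ[X]) (g : ℕ) {A : Type*} [AddCommGroup A] (cl : ℂ × ℂ → A)
    (ex : (Fin g → ℂ) →+ A) : Prop :=
  ∀ c : Ch F g, ∀ᶠ τ in 𝓝 (0 : ℂ), cl (c.pt τ) = cl (c.pt 0) + ex (c.ab τ)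

end Crest.Agent.T15.Ax
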