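import Mathlib
import Crest.Agent.T15.Disc_71
import Crest.Agent.R013.Frob1_914

/-!
# Row 15, block F (helper90): hyperelliptic function fields `w ^ 2 = F(x)`, part 1

`Hyp F x w`; `el x w A B = A(x) + B(x) w`; the involution `iota`; places and points (`At`, `pt`);
orders of `x - a`, `w - b`.
-/

set_option autoImplicit false
set_option linter.all false

namespace Crest.Agent.T15.Hy

open Polynomial WithZero Module
open Crest.Agent.R013.RR7_948 Crest.Agent.R013.RR8_948 Crest.Agent.R013.RR9_948
open Crest.Agent.R013.RR11_948 Crest.Agent.R013.RR12_948 Crest.Agent.R013.PicD_398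
open Crest.Agent.R013.GR2_921 Crest.Agent.R013.Frob1_914 Crest.Agent.T15.Disc

section alg

variable {O L : Type*} [CommRing O] [CommRing L] [Algebra O L]

/-- `A(x) + B(x) w` -/
noncomputable def el (x w : L) (A B : O[X]) : L := aeval x A + aeval x B * w

theorem exists_div {A B : O[X]} {a b : O} (h : A.eval a + B.eval a * b = 0) :
    ∃ B', A + B * C b = (X - C a) * B' := by
  have : (X - C a) ∣ A + B * C b := by
    rw [dvd_iff_isRoot]; simp [IsRoot, h]
  exact this

theorem exists_G (F : O[X]) (a : O) :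
    ∃ G, F = (X - C a) * G + C (F.eval a) ∧ G.eval a = F.derivative.eval a := by
  have : (X - C a) ∣ F - C (F.eval a) := X_sub_C_dvd_sub_C_eval
  obtain ⟨G, hG⟩ := this
  have h1 : F = (X - C a) * G + C (F.eval a) := by rw [← hG]; ring
  refine ⟨G, h1, ?_⟩
  have h2 := congrArg (fun p => (derivative p).eval a) h1
  simp at h2
  exact h2.symm

/-- division by `x - a` -/
theorem div1 {F A B : O[X]} {a b : O} (hb : b ^ 2 = F.eval a) (h : A.eval a + B.eval a * b = 0) :
    ∃ A' B', A * C b + B * F = (X - C a) * A' ∧ A + B * C b = (X - C a) * B' := by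
  obtain ⟨B', hB'⟩ := exists_div h
  have : (X - C a) ∣ A * C b + B * F := by
    rw [dvd_iff_isRoot]
    simp only [IsRoot, eval_add, eval_mul, eval_C, ← hb]
    linear_combination b * h
  obtain ⟨A', hA'⟩ := this
  exact ⟨A', B', hA', hB'⟩

theorem el_div1 {F A B A' B' : O[X]} {a b : O} {x w : L} (hw : w ^ 2 = aeval x F)
    (h1 : A * C b + B * F = (X - C a) * A') (h2 : A + B * C b = (X - C a) * B') :
    el x w A B * el x w (C b) 1 = el x w (X - C a) 0 * el x w A' B' := by
  have e1 := congrArg (aeval x) h1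
  have e2 := congrArg (aeval x) h2
  simp only [map_add, map_mul, map_sub, aeval_X, aeval_C] at e1 e2
  simp only [el, map_sub, aeval_X, aeval_C, map_one, map_zero]
  linear_combination e1 + w * e2 + aeval x B * hw

theorem el_div2 {F G A B B' : O[X]} {a b : O} {x w : L} (hw : w ^ 2 = aeval x F)
    (hG : F = (X - C a) * G + C (b ^ 2)) (h2 : A + B * C b = (X - C a) * B') :
    el x w A B * el x w G 0 = el x w (-C b) 1 * el x w (C b * B' + B * G) B' := by
  have e1 := congrArg (aeval x) hG
  have e2 := congrArg (aeval x) h2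
  simp only [map_add, map_mul, map_sub, aeval_X, aeval_C, map_pow] at e1 e2
  simp only [el, map_add, map_mul, map_neg, aeval_C, map_one, map_zero]
  linear_combination aeval x G * e2 - aeval x B' * hw - aeval x B' * e1

theorem el_mul {F : O[X]} {x w : L} (hw : w ^ 2 = aeval x F) (A B A' B' : O[X]) :
    el x w A B * el x w A' B' = el x w (A * A' + B * B' * F) (A * B' + B * A') := by
  simp only [el, map_add, map_mul]
  linear_combination aeval x B * aeval x B' * hw

theorem el_add (x w : L) (A B A' B' : O[X]) :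
    el x w A B + el x w A' B' = el x w (A + A') (B + B') := by
  simp only [el, map_add]; ring

theorem el_sub (x w : L) (A B A' B' : O[X]) :
    el x w A B - el x w A' B' = el x w (A - A') (B - B') := by
  simp only [el, map_sub]; ring

theorem el_mul_aeval (x w : L) (A B c : O[X]) :
    el x w A B * aeval x c = el x w (A * c) (B * c) := by
  simp only [el, map_mul]; ring

theorem el_zero (x w : L) (A : O[X]) : el x w A 0 = aeval x A := by simp [el]

theorem el_norm {F : O[X]} {x w : L} (hw : w ^ 2 = aeval x F) (A B : O[X]) :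
    el x w A B * el x w A (-B) = aeval x (A ^ 2 - B ^ 2 * F) := by
  simp only [el, map_sub, map_mul, map_neg, map_pow]
  linear_combination -(aeval x B) ^ 2 * hw

end alg

variable {k K : Type*} [Field k] [Field K] [Algebra k K]

/-- `K = k(x, w)`, `w ^ 2 = F(x)` -/
structure Hyp (F : k[X]) (x w : K) : Prop where
  two : (2 : k) ≠ 0
  sep : F.Separable
  pos : 0 < F.natDegree
  tr : ∀ p : k[X], aeval x p = 0 → p = 0
  sq : w ^ 2 = aeval x F
  gen : ∀ f : K, ∃ A B c : k[X], c ≠ 0 ∧ f * aeval x c = el x w A B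

namespace Hyp

variable {F : k[X]} {x w : K} (h : Hyp F x w)
include h

theorem aeval_ne {p : k[X]} (hp : p ≠ 0) : aeval x p ≠ 0 := fun h0 => hp (h.tr p h0)

theorem F_ne : F ≠ 0 := by
  intro h0; have := h.pos; rw [h0] at this; simp at this

theorem indep {A B : k[X]} (h0 : el x w A B = 0) : A = 0 ∧ B = 0 := by
  have h1 : A ^ 2 - B ^ 2 * F = 0 := by
    apply h.tr
    rw [← el_norm h.sq, h0, zero_mul]
  by_cases hB : B = 0
  · subst hB
    exact ⟨by simpa using h1, rfl⟩
  · exfalso
    have h2 : B ^ 2 ∣ A ^ 2 := ⟨F, by linear_combination h1⟩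
    obtain ⟨D, rfl⟩ := (IsIntegrallyClosed.pow_dvd_pow_iff two_ne_zero).mp h2
    have h3 : F = D * D := by
      apply mul_left_cancel₀ (pow_ne_zero 2 hB)
      linear_combination -h1
    have h4 : IsUnit D := h.sep.squarefree D (by rw [h3])
    have h5 := h.pos
    rw [h3, natDegree_eq_zero_of_isUnit (h4.mul h4)] at h5
    exact lt_irrefl _ h5

theorem el_inj {A B A' B' : k[X]} (h0 : el x w A B = el x w A' B') : A = A' ∧ B = B' := by
  have := h.indep (A := A - A') (B := B - B') (by rw [← el_sub, h0, sub_self])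
  exact ⟨sub_eq_zero.mp this.1, sub_eq_zero.mp this.2⟩

theorem el_ne {A B : k[X]} (hAB : A ≠ 0 ∨ B ≠ 0) : el x w A B ≠ 0 := by
  intro h0
  obtain ⟨h1, h2⟩ := h.indep h0
  tauto

theorem x_sub_ne (a : k) : x - algebraMap k K a ≠ 0 := by
  have := h.aeval_ne (X_sub_C_ne_zero a)
  simpa using this

theorem x_ne : x ≠ 0 := by simpa using h.x_sub_ne 0

theorem w_ne : w ≠ 0 := by
  have := h.el_ne (A := 0) (B := 1) (Or.inr one_ne_zero)
  simpa [el] using this

/-- the conjugate -/
noncomputable def io (f : K) : K :=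
  el x w (h.gen f).choose (-(h.gen f).choose_spec.choose) /
    aeval x (h.gen f).choose_spec.choose_spec.choose

theorem io_spec {f : K} {A B c : k[X]} (hf : f * aeval x c = el x w A B) :
    h.io f * aeval x c = el x w A (-B) := by
  obtain ⟨hc, hs⟩ := (h.gen f).choose_spec.choose_spec.choose_spec
  unfold io
  set A' := (h.gen f).choose
  set B' := (h.gen f).choose_spec.choose
  set c' := (h.gen f).choose_spec.choose_spec.choose
  have h1 : el x w (A * c') (B * c') = el x w (A' * c) (B' * c) := by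
    rw [← el_mul_aeval, ← el_mul_aeval, ← hf, ← hs]; ring
  obtain ⟨h2, h3⟩ := h.el_inj h1
  rw [div_mul_eq_mul_div, div_eq_iff (h.aeval_ne hc), el_mul_aeval, el_mul_aeval, h2, neg_mul,
    neg_mul, h3]

theorem io_el (A B : k[X]) : h.io (el x w A B) = el x w A (-B) := by
  have := h.io_spec (f := el x w A B) (c := 1) (A := A) (B := B) (by simp)
  simpa using this

theorem io_add (f g : K) : h.io (f + g) = h.io f + h.io g := by
  obtain ⟨A, B, c, hc, hf⟩ := h.gen f
  obtain ⟨A', B', c', hc', hg⟩ := h.gen g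
  have h1 : (f + g) * aeval x (c * c') = el x w (A * c' + A' * c) (B * c' + B' * c) := by
    rw [← el_add, ← el_mul_aeval, ← el_mul_aeval, ← hf, ← hg, map_mul]; ring
  apply mul_right_cancel₀ (h.aeval_ne (mul_ne_zero hc hc'))
  rw [h.io_spec h1, neg_add, ← el_add, ← neg_mul, ← neg_mul, ← el_mul_aeval, ← el_mul_aeval,
    ← h.io_spec hf, ← h.io_spec hg, map_mul]
  ring

theorem io_mul (f g : K) : h.io (f * g) = h.io f * h.io g := by
  obtain ⟨A, B, c, hc, hf⟩ := h.gen f
  obtain ⟨A', B', c', hc', hg⟩ := h.gen g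
  have h1 : (f * g) * aeval x (c * c') = el x w (A * A' + B * B' * F) (A * B' + B * A') := by
    rw [← el_mul h.sq, ← hf, ← hg, map_mul]; ring
  apply mul_right_cancel₀ (h.aeval_ne (mul_ne_zero hc hc'))
  have h2 : h.io f * h.io g * aeval x (c * c') = (h.io f * aeval x c) * (h.io g * aeval x c') := by
    rw [map_mul]; ring
  rw [h.io_spec h1, h2, h.io_spec hf, h.io_spec hg, el_mul h.sq]
  congr 1 <;> ring

theorem io_io (f : K) : h.io (h.io f) = f := by
  obtain ⟨A, B, c, hc, hf⟩ := h.gen f
  apply mul_right_cancel₀ (h.aeval_ne hc)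
  rw [h.io_spec (h.io_spec hf), neg_neg, hf]

/-- the hyperelliptic involution -/
noncomputable def iota : K ≃ₐ[k] K where
  toFun := h.io
  invFun := h.io
  left_inv := h.io_io
  right_inv := h.io_io
  map_mul' := h.io_mul
  map_add' := h.io_add
  commutes' := fun c => by
    have := h.io_el (C c) 0
    simpa [el] using this

theorem iota_el (A B : k[X]) : h.iota (el x w A B) = el x w A (-B) := h.io_el A B

theorem iota_iota (f : K) : h.iota (h.iota f) = f := h.io_io f

theorem iota_x : h.iota x = x := by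
  have := h.iota_el X 0
  simpa [el] using this

theorem iota_w : h.iota w = -w := by
  have := h.iota_el 0 1
  simpa [el] using this

/-- the involution as a semilinear isomorphism -/
noncomputable def siota : SI k K k K where
  s := RingEquiv.refl k
  f := h.iota.toRingEquiv
  comm := fun c => h.iota.commutes c

theorem siota_v (P : Pl k K) (f : K) : (h.siota.pl P).v f = P.v (h.iota f) := rfl

end Hyp

/-! ### values -/

theorem v_aeval_le (P : Pl k K) (x : K) {A : k[X]} {n : ℕ} (hA : A.natDegree ≤ n) :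
    P.v (aeval x A) ≤ max 1 (P.v x) ^ n := by
  rw [aeval_eq_sum_range' (Nat.lt_succ_of_le hA)]
  apply Valuation.map_sum_le
  intro i hi
  rw [Algebra.smul_def, map_mul, map_pow]
  calc P.v (algebraMap k K (A.coeff i)) * P.v x ^ i ≤ 1 * max 1 (P.v x) ^ i :=
        mul_le_mul' (v_const_le P _) (pow_le_pow_left' (le_max_right _ _) i)
    _ ≤ max 1 (P.v x) ^ n := by
        rw [one_mul]
        exact pow_le_pow_right' (le_max_left _ _) (Nat.lt_succ_iff.mp (Finset.mem_range.mp hi))

theorem v_aeval_le_one (P : Pl k K) {x : K} (hx : P.v x ≤ 1) (A : k[X]) : P.v (aeval x A) ≤ 1 := by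
  have := v_aeval_le P x (le_refl A.natDegree)
  rwa [max_eq_left hx, one_pow] at this

theorem v_aeval_eq (P : Pl k K) {x : K} (hx : 1 < P.v x) {A : k[X]} (hA : A ≠ 0) :
    P.v (aeval x A) = P.v x ^ A.natDegree := by
  have h1 : P.v (aeval x (C A.leadingCoeff * X ^ A.natDegree)) = P.v x ^ A.natDegree := by
    rw [map_mul, aeval_C, map_pow, aeval_X, map_mul, map_pow,
      P.const _ (leadingCoeff_ne_zero.mpr hA), one_mul]
  conv_lhs => rw [← eraseLead_add_C_mul_X_pow A, map_add]
  rw [Valuation.map_add_eq_of_lt_right, h1]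
  rw [h1]
  rcases eraseLead_natDegree_lt_or_eraseLead_eq_zero A with h2 | h2
  · have h3 := v_aeval_le P x (le_refl A.eraseLead.natDegree)
    rw [max_eq_right hx.le] at h3
    exact lt_of_le_of_lt h3 (pow_lt_pow_right₀ hx h2)
  · rw [h2, map_zero, map_zero]
    exact pow_pos (lt_trans zero_lt_one hx) _

theorem v_aeval_sub (P : Pl k K) {x : K} {a : k} (hx : P.v (x - algebraMap k K a) < 1) (A : k[X]) :
    P.v (aeval x A - algebraMap k K (A.eval a)) < 1 := by
  obtain ⟨G, hG, -⟩ := exists_G A a
  have h1 : P.v x ≤ 1 := by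
    have : x = (x - algebraMap k K a) + algebraMap k K a := by ring
    rw [this]
    exact (Valuation.map_add _ _ _).trans (max_le hx.le (v_const_le P a))
  have h2 : aeval x A - algebraMap k K (A.eval a) = (x - algebraMap k K a) * aeval x G := by
    conv_lhs => rw [hG]
    simp
  rw [h2, map_mul]
  exact mul_lt_one_of_lt_of_le hx (v_aeval_le_one P h1 G)

theorem v_eq_one_of_sub (P : Pl k K) {f : K} {c : k} (h : P.v (f - algebraMap k K c) < 1)
    (hc : c ≠ 0) : P.v f = 1 := by
  have : f = algebraMap k K c + (f - algebraMap k K c) := by ring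
  rw [this, Valuation.map_add_eq_of_lt_left, P.const c hc]
  rwa [P.const c hc]

/-- the place `P` lies at the point `(a, b)` -/
def At (P : Pl k K) (x w : K) (a b : k) : Prop :=
  P.v (x - algebraMap k K a) < 1 ∧ P.v (w - algebraMap k K b) < 1

namespace At

variable {P : Pl k K} {x w : K} {a b : k} (h : At P x w a b)
include h

theorem x_le : P.v x ≤ 1 := by
  have : x = (x - algebraMap k K a) + algebraMap k K a := by ring
  rw [this]
  exact (Valuation.map_add _ _ _).trans (max_le h.1.le (v_const_le P a))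

theorem w_le : P.v w ≤ 1 := by
  have : w = (w - algebraMap k K b) + algebraMap k K b := by ring
  rw [this]
  exact (Valuation.map_add _ _ _).trans (max_le h.2.le (v_const_le P b))

theorem el_sub (A B : k[X]) :
    P.v (el x w A B - algebraMap k K (A.eval a + B.eval a * b)) < 1 := by
  have e : el x w A B - algebraMap k K (A.eval a + B.eval a * b) =
      (aeval x A - algebraMap k K (A.eval a)) + ((aeval x B - algebraMap k K (B.eval a)) * w +
        algebraMap k K (B.eval a) * (w - algebraMap k K b)) := by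
    simp only [el, map_add, map_mul]; ring
  rw [e]
  refine lt_of_le_of_lt (Valuation.map_add _ _ _) (max_lt (v_aeval_sub P h.1 A) ?_)
  refine lt_of_le_of_lt (Valuation.map_add _ _ _) (max_lt ?_ ?_)
  · rw [map_mul]; exact mul_lt_one_of_lt_of_le (v_aeval_sub P h.1 B) h.w_le
  · rw [map_mul, mul_comm]; exact mul_lt_one_of_lt_of_le h.2 (v_const_le P _)

theorem el_le (A B : k[X]) : P.v (el x w A B) ≤ 1 := by
  unfold el
  refine (Valuation.map_add _ _ _).trans (max_le (v_aeval_le_one P h.x_le A) ?_)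
  rw [map_mul]
  exact mul_le_one' (v_aeval_le_one P h.x_le B) h.w_le

theorem el_eq_one {A B : k[X]} (h0 : A.eval a + B.eval a * b ≠ 0) : P.v (el x w A B) = 1 :=
  v_eq_one_of_sub P (h.el_sub A B) h0

theorem el_lt_iff {A B : k[X]} : P.v (el x w A B) < 1 ↔ A.eval a + B.eval a * b = 0 := by
  constructor
  · intro h1
    by_contra h0
    rw [h.el_eq_one h0] at h1
    exact lt_irrefl _ h1
  · intro h0
    have := h.el_sub A B
    rwa [h0, map_zero, sub_zero] at this

theorem aeval_eq_one {A : k[X]} (h0 : A.eval a ≠ 0) : P.v (aeval x A) = 1 := by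
  rw [← el_zero x w]; exact h.el_eq_one (by simpa using h0)

theorem aeval_lt_iff {A : k[X]} : P.v (aeval x A) < 1 ↔ A.eval a = 0 := by
  rw [← el_zero x w, h.el_lt_iff]; simp

theorem eq {a' b' : k} (h' : At P x w a' b') : a = a' ∧ b = b' := by
  constructor
  · have := (h.aeval_lt_iff (A := X - C a')).mp (by simpa using h'.1)
    simpa [sub_eq_zero] using this
  · have := (h.el_lt_iff (A := -C b') (B := 1)).mp (by simpa [el, neg_add_eq_sub] using h'.2)
    simp at this
    linear_combination this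

theorem sq {F : k[X]} (hw : w ^ 2 = aeval x F) : b ^ 2 = F.eval a := by
  have h1 := (h.el_lt_iff (A := -C b) (B := 1)).mpr (by simp)
  have h2 := h.el_le (-C b) (-1)
  have h3 := (h.aeval_lt_iff (A := (-C b) ^ 2 - 1 ^ 2 * F)).mp (by
    rw [← el_norm hw, map_mul]; exact mul_lt_one_of_lt_of_le h1 h2)
  simp at h3
  linear_combination h3

theorem SI {k' K' : Type*} [Field k'] [Field K'] [Algebra k' K'] (e : SI k K k' K') :
    At (e.pl P) (e.f x) (e.f w) (e.s a) (e.s b) := by
  constructor
  · rw [← e.comm, ← map_sub, e.pl_v_apply]; exact h.1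
  · rw [← e.comm, ← map_sub, e.pl_v_apply]; exact h.2

theorem iota {F : k[X]} (hy : Hyp F x w) : At (hy.siota.pl P) x w a (-b) := by
  constructor
  · rw [hy.siota_v, map_sub, hy.iota_x, AlgEquiv.commutes]; exact h.1
  · rw [hy.siota_v, map_sub, hy.iota_w, AlgEquiv.commutes, map_neg, neg_sub_neg, ← neg_sub,
      Valuation.map_neg]
    exact h.2

end At

/-- `(T, U)`: `T` generates the ideal of the point `(a, b)` after inverting `U` -/
structure Par (x w : K) (a b : k) (T U : K) : Prop where
  ne : T ≠ 0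
  lt : ∀ P, At P x w a b → P.v T < 1
  one : ∀ P, At P x w a b → P.v U = 1
  div : ∀ A B : k[X], A.eval a + B.eval a * b = 0 →
    ∃ A' B' : k[X], el x w A B * U = T * el x w A' B'

variable [Algebra (RatFunc k) K] [IsScalarTower k (RatFunc k) K] [FiniteDimensional (RatFunc k) K]
  [Algebra.IsSeparable (RatFunc k) K]

namespace Hyp

variable {F : k[X]} {x w : K} (h : Hyp F x w)
include h

theorem par1 {a b : k} (hb : b ^ 2 = F.eval a) (h0 : b ≠ 0) :
    Par x w a b (x - algebraMap k K a) (el x w (C b) 1) where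
  ne := h.x_sub_ne a
  lt := fun P hP => hP.1
  one := fun P hP => hP.el_eq_one (by
    simp only [eval_C, eval_one, one_mul, ← two_mul]; exact mul_ne_zero h.two h0)
  div := fun A B hAB => by
    obtain ⟨A', B', h1, h2⟩ := div1 hb hAB
    refine ⟨A', B', ?_⟩
    rw [el_div1 h.sq h1 h2]
    simp [el]

theorem par2 {a b : k} {G : k[X]} (hG : F = (X - C a) * G + C (b ^ 2)) (h0 : G.eval a ≠ 0) :
    Par x w a b (w - algebraMap k K b) (aeval x G) where
  ne := by
    have := h.el_ne (A := -C b) (B := 1) (Or.inr one_ne_zero)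
    simpa [el, neg_add_eq_sub] using this
  lt := fun P hP => hP.2
  one := fun P hP => hP.aeval_eq_one h0
  div := fun A B hAB => by
    obtain ⟨B', h2⟩ := exists_div hAB
    refine ⟨C b * B' + B * G, B', ?_⟩
    have := el_div2 h.sq hG h2
    rw [el_zero] at this
    rw [this]
    simp [el, neg_add_eq_sub]

theorem deriv_ne {a : k} (ha : F.eval a = 0) : F.derivative.eval a ≠ 0 := by
  intro h0
  obtain ⟨p, q, hpq⟩ := h.sep
  have := congrArg (eval a) hpq
  simp [ha, h0] at this

theorem exists_par {a b : k} (hb : b ^ 2 = F.eval a) : ∃ T U, Par x w a b T U := by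
  by_cases h0 : b = 0
  · obtain ⟨G, hG, hG'⟩ := exists_G F a
    refine ⟨_, _, h.par2 (G := G) (by rw [hb]; exact hG) ?_⟩
    rw [hG']
    exact h.deriv_ne (by rw [← hb, h0]; simp)
  · exact ⟨_, _, h.par1 hb h0⟩

theorem par_el {a b : k} {T U : K} (hp : Par x w a b T U) {P : Pl k K} (hP : At P x w a b) (n : ℕ) :
    ∀ A B : k[X], el x w A B ≠ 0 → divf (k := k) (el x w A B) P < n →
      ∃ m : ℤ, ∀ P', At P' x w a b → divf (k := k) (el x w A B) P' = m * divf (k := k) T P' := by
  induction n with
  | zero =>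
    intro A B h0 hlt
    have := (v_le_one_iff h0 P).mp (hP.el_le A B)
    omega
  | succ n ih =>
    intro A B h0 hlt
    by_cases hv : A.eval a + B.eval a * b = 0
    · obtain ⟨A', B', he⟩ := hp.div A B hv
      have hU : U ≠ 0 := by
        intro hU; have := hp.one P hP; rw [hU, map_zero] at this; exact zero_ne_one this
      have h0' : el x w A' B' ≠ 0 := by
        intro h1; rw [h1, mul_zero] at he; exact mul_ne_zero h0 hU he
      have key : ∀ P', At P' x w a b → divf (k := k) (el x w A B) P' =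
          divf (k := k) T P' + divf (k := k) (el x w A' B') P' := by
        intro P' hP'
        have h1 := congrArg (fun f => divf (k := k) f P') he
        simp only [divf_mul h0 hU, divf_mul hp.ne h0', Finsupp.add_apply] at h1
        rw [(v_eq_one_iff hU P').mp (hp.one P' hP')] at h1
        omega
      have h2 := (v_lt_one_iff hp.ne P).mp (hp.lt P hP)
      have h3 := key P hP
      obtain ⟨m, hm⟩ := ih A' B' h0' (by push_cast at hlt; omega)
      exact ⟨m + 1, fun P' hP' => by rw [key P' hP', hm P' hP']; ring⟩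
    · exact ⟨0, fun P' hP' => by rw [(v_eq_one_iff h0 P').mp (hP'.el_eq_one hv)]; simp⟩

theorem par_all {a b : k} {T U : K} (hp : Par x w a b T U) {P : Pl k K} (hP : At P x w a b) {f : K}
    (hf : f ≠ 0) : ∃ m : ℤ, ∀ P', At P' x w a b → divf (k := k) f P' = m * divf (k := k) T P' := by
  obtain ⟨A, B, c, hc, he⟩ := h.gen f
  have hc' := h.aeval_ne hc
  have h0 : el x w A B ≠ 0 := by rw [← he]; exact mul_ne_zero hf hc'
  obtain ⟨m, hm⟩ := h.par_el hp hP ((divf (k := k) (el x w A B) P).toNat + 1) A B h0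
    (by push_cast; have := Int.self_le_toNat (divf (k := k) (el x w A B) P); omega)
  obtain ⟨m', hm'⟩ := h.par_el hp hP ((divf (k := k) (el x w c 0) P).toNat + 1) c 0
    (by rwa [el_zero])
    (by push_cast; have := Int.self_le_toNat (divf (k := k) (el x w c 0) P); omega)
  refine ⟨m - m', fun P' hP' => ?_⟩
  have h1 := congrArg (fun f => divf (k := k) f P') he
  simp only [divf_mul hf hc', Finsupp.add_apply] at h1
  have h2 := hm P' hP'
  have h3 := hm' P' hP'
  rw [el_zero] at h3
  linear_combination h1 + h2 - h3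

theorem par_ord {a b : k} {T U : K} (hp : Par x w a b T U) {P : Pl k K} (hP : At P x w a b) :
    divf (k := k) T P = 1 := by
  obtain ⟨t, ht0, ht⟩ := exists_v_eq P (-1)
  obtain ⟨m, hm⟩ := h.par_all hp hP ht0
  have h1 := hm P hP
  rw [v_eq ht0, exp_inj] at ht
  have h2 := (v_lt_one_iff hp.ne P).mp (hp.lt P hP)
  have h3 : divf (k := k) T P ∣ 1 := ⟨m, by linarith [mul_comm m (divf (k := k) T P)]⟩
  exact Int.eq_one_of_dvd_one h2.le h3

theorem at_unique {a b : k} {P P' : Pl k K} (hP : At P x w a b) (hP' : At P' x w a b) : P = P' := by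
  obtain ⟨T, U, hp⟩ := h.exists_par (hP.sq h.sq)
  ext f
  by_cases hf : f = 0
  · simp [hf]
  · obtain ⟨m, hm⟩ := h.par_all hp hP hf
    rw [v_eq hf, v_eq hf, hm P hP, hm P' hP', h.par_ord hp hP, h.par_ord hp hP']

theorem ord_x {a b : k} {P : Pl k K} (hP : At P x w a b) (h0 : b ≠ 0) :
    divf (k := k) (x - algebraMap k K a) P = 1 :=
  h.par_ord (h.par1 (hP.sq h.sq) h0) hP

theorem ord_w {a b : k} {P : Pl k K} (hP : At P x w a b) (h0 : F.derivative.eval a ≠ 0) :
    divf (k := k) (w - algebraMap k K b) P = 1 := by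
  obtain ⟨G, hG, hG'⟩ := exists_G F a
  exact h.par_ord (h.par2 (G := G) (by rw [hP.sq h.sq]; exact hG) (by rwa [hG'])) hP

theorem ord_x0 {a : k} {P : Pl k K} (hP : At P x w a 0) :
    divf (k := k) (x - algebraMap k K a) P = 2 := by
  have ha : F.eval a = 0 := by rw [← hP.sq h.sq]; simp
  have h1 := h.ord_w hP (h.deriv_ne ha)
  obtain ⟨G, hG, hG'⟩ := exists_G F a
  have hG0 : G.eval a ≠ 0 := by rw [hG']; exact h.deriv_ne ha
  have hG1 : aeval x G ≠ 0 := h.aeval_ne (by rintro rfl; simp at hG0)
  have h2 : w ^ 2 = (x - algebraMap k K a) * aeval x G := by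
    rw [h.sq]; conv_lhs => rw [hG]
    simp [ha]
  have h3 := congrArg (fun f => divf (k := k) f P) h2
  simp only [divf_pow h.w_ne, divf_mul (h.x_sub_ne a) hG1, Finsupp.add_apply, Finsupp.smul_apply]
    at h3
  rw [(v_eq_one_iff hG1 P).mp (hP.aeval_eq_one hG0)] at h3
  rw [map_zero, sub_zero] at h1
  rw [h1] at h3
  simpa using h3.symm

theorem w_le {P : Pl k K} (hP : P.v x ≤ 1) : P.v w ≤ 1 := by
  have h1 := v_aeval_le_one P hP F
  rw [← h.sq, map_pow] at h1
  exact (pow_le_one_iff (by norm_num)).mp h1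

variable [IsAlgClosed k]

theorem at_ev {P : Pl k K} (hP : P.v x ≤ 1) : At P x w (ev P x) (ev P w) :=
  ⟨ev_spec P hP, ev_spec P (h.w_le hP)⟩

omit h in
theorem exists_pole {f : K} (hf : ∀ c : k, f ≠ algebraMap k K c) : ∃ P : Pl k K, 1 < P.v f := by
  by_contra hcon
  push Not at hcon
  have : f ∈ LD (0 : Pl k K →₀ ℤ) := by
    rw [mem_LD]; intro P; simpa using hcon P
  rw [LD_zero hc_of_isAlgClosed, Submodule.mem_one] at this
  obtain ⟨c, hc⟩ := this
  exact hf c hc.symm

theorem exists_inf : ∃ P : Pl k K, 1 < P.v x :=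
  exists_pole fun c hc => h.x_sub_ne c (sub_eq_zero.mpr hc)

theorem exists_at {a b : k} (hb : b ^ 2 = F.eval a) : ∃ P : Pl k K, At P x w a b := by
  obtain ⟨P0, hP0⟩ := exists_pole (k := k) (f := x - algebraMap k K a) fun c hc =>
    h.x_sub_ne (a + c) (by rw [map_add]; linear_combination hc)
  obtain ⟨P, hP⟩ := exists_lt_of_exists_gt (h.x_sub_ne a) hP0
  have h1 : P.v x ≤ 1 := v_le_of_sub_lt P hP
  have h2 := h.at_ev h1
  rw [ev_eq P hP] at h2
  have h3 := h2.sq h.sq
  rcases sq_eq_sq_iff_eq_or_eq_neg.mp (h3.trans hb.symm) with h4 | h4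
  · exact ⟨P, h4 ▸ h2⟩
  · refine ⟨h.siota.pl P, ?_⟩
    have := h2.iota h
    rwa [h4, neg_neg] at this

end Hyp

instance : Nonempty (Pl k K) := ⟨(exists_notMem (k := k) (K := K) ∅).choose⟩

/-- the place at the point `(a, b)` -/
noncomputable def pt (x w : K) (a b : k) : Pl k K := Classical.epsilon fun P => At P x w a b

namespace Hyp

variable {F : k[X]} {x w : K} (h : Hyp F x w) [IsAlgClosed k]
include h

theorem at_pt {a b : k} (hb : b ^ 2 = F.eval a) : At (pt x w a b) x w a b :=
  Classical.epsilon_spec (h.exists_at hb)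

theorem pt_eq {a b : k} {P : Pl k K} (hP : At P x w a b) : pt x w a b = P :=
  h.at_unique (h.at_pt (hP.sq h.sq)) hP

theorem pt_eq_iff {a b a' b' : k} {P : Pl k K} (hP : At P x w a b) (hb : b' ^ 2 = F.eval a') :
    pt x w a' b' = P ↔ a' = a ∧ b' = b := by
  constructor
  · rintro rfl; exact (h.at_pt hb).eq hP
  · rintro ⟨rfl, rfl⟩; exact h.pt_eq hP

theorem pt_ne_of_lt {a b : k} {P : Pl k K} (hP : 1 < P.v x) (hb : b ^ 2 = F.eval a) :
    pt x w a b ≠ P := by
  rintro rfl
  exact absurd (h.at_pt hb).x_le (not_le.mpr hP)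

end Hyp

end Crest.Agent.T15.Hy
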