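import Mathlib
import Crest.Agent.T15.Hy_90

/-!
# Row 15, block F (helper90): hyperelliptic function fields `w ^ 2 = F(x)`, part 2

`Dinf x` (poles of `x`), `div_x`, `degD_Dinf`, integral closure `exists_el`, `L(m Dinf)`,
`gen_le`, `eq_of_cls` (distinct places are not equivalent), the place at infinity for odd degree,
change of chart, the field `Hf F`.
-/

set_option autoImplicit false
set_option linter.all false

namespace Crest.Agent.T15.Hy

open Polynomial WithZero Module
open Crest.Agent.R013.RR7_948 Crest.Agent.R013.RR8_948 Crest.Agent.R013.RR9_948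
open Crest.Agent.R013.RR11_948 Crest.Agent.R013.RR12_948 Crest.Agent.R013.PicD_398
open Crest.Agent.R013.GR2_921 Crest.Agent.R013.Frob1_914 Crest.Agent.T15.Disc

variable {k K : Type*} [Field k] [Field K] [Algebra k K]
variable [Algebra (RatFunc k) K] [IsScalarTower k (RatFunc k) K] [FiniteDimensional (RatFunc k) K]
  [Algebra.IsSeparable (RatFunc k) K]

variable (k) in
/-- the divisor of poles of `x` -/
noncomputable def Dinf (x : K) : Pl k K →₀ ℤ := (-divf (k := k) x) ⊔ 0

theorem Dinf_apply (x : K) (P : Pl k K) : Dinf k x P = max (-divf (k := k) x P) 0 := by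
  simp [Dinf, Finsupp.sup_apply]

theorem Dinf_nonneg (x : K) : 0 ≤ Dinf k x := le_sup_right

theorem Dinf_of_le {x : K} (hx : x ≠ 0) {P : Pl k K} (h : P.v x ≤ 1) : Dinf k x P = 0 := by
  rw [Dinf_apply]; have := (v_le_one_iff hx P).mp h; omega

theorem divf_neg_of_lt {x : K} (hx : x ≠ 0) {P : Pl k K} (h : 1 < P.v x) :
    divf (k := k) x P < 0 := by
  by_contra h1
  exact absurd ((v_le_one_iff hx P).mpr (not_lt.mp h1)) (not_le.mpr h)

theorem Dinf_of_lt {x : K} (hx : x ≠ 0) {P : Pl k K} (h : 1 < P.v x) :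
    Dinf k x P = -divf (k := k) x P := by
  rw [Dinf_apply]; have := divf_neg_of_lt hx h; omega

theorem exp_Dinf {x : K} (hx : x ≠ 0) (P : Pl k K) : exp (Dinf k x P) = max 1 (P.v x) := by
  rcases le_or_gt (P.v x) 1 with h | h
  · rw [Dinf_of_le hx h, max_eq_left h, exp_zero]
  · rw [Dinf_of_lt hx h, max_eq_right h.le, v_eq hx]

theorem exp_nsmul_Dinf {x : K} (hx : x ≠ 0) (m : ℕ) (P : Pl k K) :
    exp ((m • Dinf k x) P) = max 1 (P.v x) ^ m := by
  rw [Finsupp.smul_apply, exp_nsmul, exp_Dinf hx]

theorem divf_aeval_inf {x : K} (hx : x ≠ 0) {P : Pl k K} (h : 1 < P.v x) {A : k[X]} (hA : A ≠ 0)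
    (hA' : aeval x A ≠ 0) : divf (k := k) (aeval x A) P = A.natDegree * divf (k := k) x P := by
  have h1 := v_aeval_eq P h hA
  rw [v_eq hA', v_eq hx, ← exp_nsmul, exp_inj] at h1
  simp only [smul_neg, nsmul_eq_mul] at h1
  omega

namespace Hyp

variable {F : k[X]} {x w : K} (h : Hyp F x w)
include h

theorem two_ord_w {P : Pl k K} (hP : 1 < P.v x) :
    2 * divf (k := k) w P = F.natDegree * divf (k := k) x P := by
  rw [← divf_aeval_inf h.x_ne hP h.F_ne (h.aeval_ne h.F_ne), ← h.sq, divf_pow h.w_ne]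
  simp

variable [IsAlgClosed k]

theorem div_x {a b : k} (hb : b ^ 2 = F.eval a) :
    divf (k := k) (x - algebraMap k K a) =
      Finsupp.single (pt x w a b) 1 + Finsupp.single (pt x w a (-b)) 1 - Dinf k x := by
  classical
  have hb' : (-b) ^ 2 = F.eval a := by rw [neg_sq, hb]
  ext Q
  simp only [Finsupp.sub_apply, Finsupp.add_apply, Finsupp.single_apply]
  rcases le_or_gt (Q.v x) 1 with hQ | hQ
  · have hA := h.at_ev hQ
    rw [Dinf_of_le h.x_ne hQ]
    simp only [h.pt_eq_iff hA hb, h.pt_eq_iff hA hb']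
    by_cases ha : a = ev Q x
    · subst ha
      have h1 := hA.sq h.sq
      by_cases h0 : b = 0
      · subst h0
        have h2 : ev Q w = 0 := by
          rw [← hb] at h1; simpa using h1
        rw [h2] at hA ⊢
        rw [h.ord_x0 hA]; simp
      · have hne : b ≠ -b := by
          intro h3
          exact mul_ne_zero h.two h0 (by linear_combination h3)
        rcases sq_eq_sq_iff_eq_or_eq_neg.mp (h1.trans hb.symm) with h4 | h4
        · rw [h.ord_x hA (by rwa [h4]), h4]; simp [hne.symm]
        · rw [h.ord_x hA (by rw [h4]; simpa using h0), h4]; simp [hne]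
    · have := hA.aeval_eq_one (A := X - C a) (by simpa [sub_eq_zero] using Ne.symm ha)
      simp only [map_sub, aeval_X, aeval_C] at this
      rw [(v_eq_one_iff (h.x_sub_ne a) Q).mp this]
      simp [ha]
  · rw [if_neg (h.pt_ne_of_lt hQ hb), if_neg (h.pt_ne_of_lt hQ hb'), Dinf_of_lt h.x_ne hQ]
    have := divf_aeval_inf h.x_ne hQ (X_sub_C_ne_zero a) (h.aeval_ne (X_sub_C_ne_zero a))
    simpa using this

theorem degD_Dinf : degD (Dinf k x) = 2 := by
  obtain ⟨b, hb⟩ := IsAlgClosed.exists_pow_nat_eq (F.eval 0) two_pos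
  have h1 := degD_divf (k := k) (h.x_sub_ne 0)
  rw [h.div_x hb, degD_sub, degD_add, degD_single, degD_single, degP_eq_one, degP_eq_one] at h1
  push_cast at h1
  omega

theorem cls_pt_add {a b : k} (hb : b ^ 2 = F.eval a) :
    cls (Finsupp.single (pt x w a b) 1) + cls (Finsupp.single (pt x w a (-b)) 1) =
      cls (Dinf k x) := by
  have := cls_divf (k := k) (h.x_sub_ne a)
  rwa [h.div_x hb, map_sub, map_add, sub_eq_zero] at this

/-- a function without affine poles is `A(x) + B(x) w` -/
theorem exists_el {f : K} (hf : ∀ P : Pl k K, P.v x ≤ 1 → P.v f ≤ 1) :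
    ∃ A B : k[X], f = el x w A B := by
  obtain ⟨A, B, c, hc, he⟩ := h.gen f
  induction hn : c.natDegree generalizing A B c with
  | zero =>
    obtain ⟨s, rfl⟩ := natDegree_eq_zero.mp hn
    have hs : s ≠ 0 := by simpa using hc
    refine ⟨A * C s⁻¹, B * C s⁻¹, ?_⟩
    rw [← el_mul_aeval, ← he, mul_assoc, ← map_mul, ← C_mul, mul_inv_cancel₀ hs]; simp
  | succ n ih =>
    obtain ⟨t, ht⟩ := IsAlgClosed.exists_root c (by
      rw [degree_eq_natDegree hc, hn]; exact_mod_cast Nat.succ_ne_zero n)
    obtain ⟨s, hs⟩ := IsAlgClosed.exists_pow_nat_eq (F.eval t) two_pos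
    obtain ⟨c', rfl⟩ := dvd_iff_isRoot.mpr ht
    have hc' : c' ≠ 0 := right_ne_zero_of_mul hc
    have key : ∀ {s : k} {P : Pl k K}, At P x w t s →
        P.v (el x w A B) ≤ P.v (x - algebraMap k K t) := by
      intro s P hP
      rw [← he, map_mul, map_mul, map_mul]
      simp only [map_sub, aeval_X, aeval_C]
      calc _ ≤ 1 * (P.v (x - algebraMap k K t) * 1) :=
            mul_le_mul' (hf P hP.x_le) (mul_le_mul' le_rfl (v_aeval_le_one P hP.x_le c'))
        _ = _ := by simp
    have hP := h.at_pt hs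
    have hP' := h.at_pt (a := t) (b := -s) (by rw [neg_sq, hs])
    have h1 := hP.el_lt_iff.mp (lt_of_le_of_lt (key hP) hP.1)
    have h2 := hP'.el_lt_iff.mp (lt_of_le_of_lt (key hP') hP'.1)
    have hA : A.eval t = 0 := by
      apply mul_left_cancel₀ h.two; linear_combination h1 + h2
    obtain ⟨A', rfl⟩ := dvd_iff_isRoot.mpr (show A.IsRoot t from hA)
    have hB : B.eval t = 0 := by
      by_cases h0 : s = 0
      · subst h0
        by_contra hB
        have h3 := hP.aeval_eq_one hB
        have h4 : aeval x B * w = el x w ((X - C t) * A') B -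
            (x - algebraMap k K t) * aeval x A' := by simp [el]
        have h5 : (pt x w t 0).v (aeval x B * w) ≤ (pt x w t 0).v (x - algebraMap k K t) := by
          rw [h4]
          refine (Valuation.map_sub _ _ _).trans (max_le (key hP) ?_)
          rw [map_mul]
          exact mul_le_of_le_one_right' (v_aeval_le_one _ hP.x_le A')
        have h6 := h.ord_w hP (h.deriv_ne (by rw [← hs]; simp))
        rw [map_zero, sub_zero] at h6
        rw [map_mul, h3, one_mul, v_eq h.w_ne, v_eq (h.x_sub_ne t), h6, h.ord_x0 hP,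
          exp_le_exp] at h5
        omega
      · rw [hA, zero_add] at h1
        exact (mul_eq_zero.mp h1).resolve_right h0
    obtain ⟨B', rfl⟩ := dvd_iff_isRoot.mpr (show B.IsRoot t from hB)
    refine ih A' B' c' hc' ?_ ?_
    · apply mul_right_cancel₀ (h.aeval_ne (X_sub_C_ne_zero t))
      rw [el_mul_aeval, mul_comm A', mul_comm B', ← he, map_mul]; ring
    · rw [natDegree_mul (X_sub_C_ne_zero t) hc', natDegree_X_sub_C] at hn; omega

omit [IsAlgClosed k] in
theorem el_mem_LD {A B : k[X]} {m : ℕ} (hA : A.natDegree ≤ m)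
    (hB : B = 0 ∨ 2 * B.natDegree + F.natDegree ≤ 2 * m) : el x w A B ∈ LD (m • Dinf k x) := by
  rw [mem_LD]
  intro P
  rw [exp_nsmul_Dinf h.x_ne]
  refine (Valuation.map_add _ _ _).trans (max_le (v_aeval_le P x hA) ?_)
  rcases hB with rfl | hB
  · simp
  · have h1 : (aeval x B * w) ^ 2 = aeval x (B ^ 2 * F) := by rw [mul_pow, h.sq]; simp
    have h2 := v_aeval_le P x (A := B ^ 2 * F) (n := m * 2)
      (natDegree_mul_le.trans (by have := natDegree_pow_le (p := B) (n := 2); omega))
    rw [← h1, map_pow, pow_mul] at h2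
    exact (pow_le_pow_iff_left₀ zero_le' zero_le' two_ne_zero).mp h2

theorem of_mem_LD {f : K} {m : ℕ} (hf : f ∈ LD (m • Dinf k x)) :
    ∃ A B : k[X], f = el x w A B ∧ A.natDegree ≤ m ∧
      (B = 0 ∨ 2 * B.natDegree + F.natDegree ≤ 2 * m) := by
  rw [mem_LD] at hf
  simp only [exp_nsmul_Dinf h.x_ne] at hf
  obtain ⟨A, B, rfl⟩ := h.exists_el (f := f) fun P hP => by
    have := hf P; rwa [max_eq_left hP, one_pow] at this
  obtain ⟨P, hP⟩ := h.exists_inf
  have h1 := hf P
  have h2 := hf (h.siota.pl P)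
  rw [h.siota_v, h.siota_v, h.iota_x, h.iota_el] at h2
  rw [max_eq_right hP.le] at h1 h2
  have h3 : P.v (2 : K) = 1 := by
    have := P.const 2 h.two; rwa [map_ofNat] at this
  refine ⟨A, B, rfl, ?_, ?_⟩
  · by_cases hA : A = 0
    · simp [hA]
    · have e : 2 * aeval x A = el x w A B + el x w A (-B) := by simp [el]; ring
      have h4 : P.v (2 * aeval x A) ≤ P.v x ^ m := by
        rw [e]; exact (Valuation.map_add _ _ _).trans (max_le h1 h2)
      rw [map_mul, h3, one_mul, v_aeval_eq P hP hA] at h4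
      exact (pow_le_pow_iff_right₀ hP).mp h4
  · by_cases hB : B = 0
    · exact Or.inl hB
    · right
      have e : 2 * (aeval x B * w) = el x w A B - el x w A (-B) := by simp [el]; ring
      have h4 : P.v (2 * (aeval x B * w)) ≤ P.v x ^ m := by
        rw [e]; exact (Valuation.map_sub _ _ _).trans (max_le h1 h2)
      rw [map_mul, h3, one_mul] at h4
      have h5 := pow_le_pow_left' h4 2
      have h6 : (aeval x B * w) ^ 2 = aeval x (B ^ 2 * F) := by rw [mul_pow, h.sq]; simp
      have h7 : B ^ 2 * F ≠ 0 := mul_ne_zero (pow_ne_zero 2 hB) h.F_ne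
      rw [← map_pow, h6, v_aeval_eq P hP h7, ← pow_mul, natDegree_mul (pow_ne_zero 2 hB) h.F_ne,
        natDegree_pow] at h5
      have := (pow_le_pow_iff_right₀ hP).mp h5
      omega

theorem gen_le {g : ℕ} (hg : F.natDegree ≤ 2 * g + 2) : R013.RR11_948.gen k K ≤ g := by
  set m := R013.RR11_948.gen k K + g + 1 with hm
  haveI := LD_finite (m • Dinf k x)
  have hdeg : degD (m • Dinf k x) = 2 * m := by
    have : ∀ n : ℕ, degD (n • Dinf k x) = 2 * n := by
      intro n
      induction n with
      | zero => simp [degD_zero]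
      | succ n ih => rw [succ_nsmul, degD_add, ih, h.degD_Dinf]; push_cast; ring
    exact this m
  have h1 := ell_eq_of_lt (k := k) (K := K) hc_of_isAlgClosed (D := m • Dinf k x)
    (by rw [hdeg, hm]; push_cast; omega)
  let φ : (degreeLT k (m + 1) × degreeLT k (m - g)) →ₗ[k] LD (m • Dinf k x) :=
    { toFun := fun p => ⟨el x w p.1 p.2, h.el_mem_LD
        (by
          have := mem_degreeLT.mp p.1.2
          by_cases h0 : (p.1 : k[X]) = 0
          · simp [h0]
          · have := (natDegree_lt_iff_degree_lt h0).mpr this; omega)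
        (by
          have := mem_degreeLT.mp p.2.2
          by_cases h0 : (p.2 : k[X]) = 0
          · exact Or.inl h0
          · have := (natDegree_lt_iff_degree_lt h0).mpr this; right; omega)⟩
      map_add' := fun p q => by ext; simp [el_add]
      map_smul' := fun c p => by ext; simp [el, Algebra.smul_def]; ring }
  have hφ : Function.Injective φ := by
    rw [injective_iff_map_eq_zero]
    intro p hp
    have := h.indep (congrArg Subtype.val hp)
    exact Prod.ext (Subtype.ext this.1) (Subtype.ext this.2)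
  have h2 := LinearMap.finrank_le_finrank_of_injective hφ
  haveI : ∀ n, Module.Finite k (degreeLT k n) := fun n =>
    Module.Finite.equiv (degreeLTEquiv k n).symm
  rw [finrank_prod, (degreeLTEquiv k _).finrank_eq, (degreeLTEquiv k _).finrank_eq,
    finrank_fin_fun, finrank_fin_fun] at h2
  change _ ≤ ell (m • Dinf k x) at h2
  rw [hdeg] at h1
  omega

theorem eq_of_cls_aff (h3 : 3 ≤ F.natDegree) {p q : Pl k K} (hp : p.v x ≤ 1)
    (hc : cls (Finsupp.single p (1 : ℤ)) = cls (Finsupp.single q 1)) : p = q := by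
  classical
  have hA := h.at_ev hp
  set a := ev p x
  set b := ev p w
  have hb := hA.sq h.sq
  have hb' : (-b) ^ 2 = F.eval a := by rw [neg_sq, hb]
  have h0 : cls (Finsupp.single q (1 : ℤ) - Finsupp.single p 1) = 0 := by rw [map_sub, hc, sub_self]
  obtain ⟨f, hf, hd⟩ := cls_eq_zero_iff.mp h0
  have hx := h.x_sub_ne a
  have h1 : divf (k := k) (f * (x - algebraMap k K a)) =
      Finsupp.single q 1 + Finsupp.single (pt x w a (-b)) 1 - Dinf k x := by
    rw [divf_mul hf hx, hd, h.div_x hb, h.pt_eq hA]; abel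
  have h2 : f * (x - algebraMap k K a) ∈ LD (1 • Dinf k x) := by
    rw [mem_LD_iff (mul_ne_zero hf hx), h1, one_smul, add_sub_cancel]
    exact add_nonneg (Finsupp.single_nonneg.mpr zero_le_one) (Finsupp.single_nonneg.mpr zero_le_one)
  obtain ⟨A, B, he, hA1, hB⟩ := h.of_mem_LD h2
  have hB0 : B = 0 := by
    rcases hB with hB | hB
    · exact hB
    · omega
  subst hB0
  have hP' := h.at_pt hb'
  have h4 : (pt x w a (-b)).v (el x w A 0) < 1 := by
    rw [← he, v_lt_one_iff (mul_ne_zero hf hx), h1]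
    simp only [Finsupp.sub_apply, Finsupp.add_apply, Finsupp.single_eq_same,
      Dinf_of_le h.x_ne hP'.x_le, Finsupp.single_apply]
    split_ifs <;> omega
  rw [el_zero, hP'.aeval_lt_iff] at h4
  obtain ⟨A', rfl⟩ := dvd_iff_isRoot.mpr (show A.IsRoot a from h4)
  have hA' : A' ≠ 0 := by
    rintro rfl
    rw [mul_zero, el_zero, map_zero] at he
    exact mul_ne_zero hf hx he
  rw [natDegree_mul (X_sub_C_ne_zero a) hA', natDegree_X_sub_C] at hA1
  obtain ⟨s, rfl⟩ := natDegree_eq_zero.mp (show A'.natDegree = 0 by omega)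
  have h5 : f = algebraMap k K s := by
    apply mul_right_cancel₀ hx
    rw [he, el_zero]; simp [mul_comm]
  rw [h5, divf_const (by simpa using hA'), eq_comm, sub_eq_zero] at hd
  exact ((Finsupp.single_left_inj one_ne_zero).mp hd).symm

/-- distinct places are not linearly equivalent -/
theorem eq_of_cls (h3 : 3 ≤ F.natDegree) {p q : Pl k K}
    (hc : cls (Finsupp.single p (1 : ℤ)) = cls (Finsupp.single q 1)) : p = q := by
  classical
  rcases le_or_gt (p.v x) 1 with hp | hp
  · exact h.eq_of_cls_aff h3 hp hc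
  rcases le_or_gt (q.v x) 1 with hq | hq
  · exact (h.eq_of_cls_aff h3 hq hc.symm).symm
  by_contra hne
  have h0 : cls (Finsupp.single q (1 : ℤ) - Finsupp.single p 1) = 0 := by rw [map_sub, hc, sub_self]
  obtain ⟨f, hf, hd⟩ := cls_eq_zero_iff.mp h0
  have h2 : f ∈ LD (1 • Dinf k x) := by
    rw [mem_LD_iff hf, hd, one_smul]
    intro P
    have h1 := Dinf_nonneg (k := k) x P
    simp only [Finsupp.sub_apply, Finsupp.add_apply, Finsupp.single_apply, Finsupp.coe_zero,
      Pi.zero_apply] at h1 ⊢
    by_cases h4 : p = P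
    · subst h4
      have := divf_neg_of_lt h.x_ne hp
      rw [Dinf_of_lt h.x_ne hp]
      split_ifs <;> omega
    · split_ifs <;> omega
  obtain ⟨A, B, he, hA1, hB⟩ := h.of_mem_LD h2
  have hB0 : B = 0 := by
    rcases hB with hB | hB
    · exact hB
    · omega
  subst hB0
  rw [el_zero] at he
  have hA : A ≠ 0 := by rintro rfl; exact hf (by simpa using he)
  have h4 : q.v f < 1 := by
    rw [v_lt_one_iff hf, hd]
    simp [Finsupp.single_apply, hne]
  rw [he, v_aeval_eq q hq hA] at h4
  exact absurd h4 (not_lt.mpr (one_le_pow₀ hq.le))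

theorem inf_unique (hodd : Odd F.natDegree) {p q : Pl k K} (hp : 1 < p.v x) (hq : 1 < q.v x) :
    p = q := by
  classical
  have key : ∀ {p : Pl k K}, 1 < p.v x → 2 ≤ Dinf k x p := by
    intro p hp
    have h1 := h.two_ord_w hp
    have h2 := divf_neg_of_lt h.x_ne hp
    rw [Dinf_of_lt h.x_ne hp]
    obtain ⟨m, hm⟩ := hodd
    rw [hm] at h1
    push_cast at h1
    have : divf (k := k) x p = 2 * (divf (k := k) w p - m * divf (k := k) x p) := by linarith
    omega
  by_contra hne
  have h1 : 0 ≤ Dinf k x - Finsupp.single p 2 - Finsupp.single q 2 := by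
    intro P
    have h0 := Dinf_nonneg (k := k) x P
    simp only [Finsupp.sub_apply, Finsupp.single_apply, Finsupp.coe_zero, Pi.zero_apply] at h0 ⊢
    by_cases h4 : p = P
    · subst h4
      have := key hp
      rw [if_pos rfl, if_neg (Ne.symm hne)]; omega
    · by_cases h5 : q = P
      · subst h5
        have := key hq
        rw [if_neg h4, if_pos rfl]; omega
      · rw [if_neg h4, if_neg h5]; omega
  have h2 := degD_nonneg h1
  rw [degD_sub, degD_sub, h.degD_Dinf, degD_single, degD_single, degP_eq_one, degP_eq_one] at h2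
  omega

end Hyp

/-! ### change of chart -/

omit [Algebra (RatFunc k) K] [IsScalarTower k (RatFunc k) K] [FiniteDimensional (RatFunc k) K]
  [Algebra.IsSeparable (RatFunc k) K] in
theorem Hyp.chart {F F1 : k[X]} {x w x1 w1 : K} (h : Hyp F x w) {c p r : k} (hp : p ≠ 0) (hr : r ≠ 0)
    (hx : x = algebraMap k K c + algebraMap k K p * x1) (hw : w = algebraMap k K r * w1)
    (hF : F.comp (C c + C p * X) = C (r ^ 2) * F1) : Hyp F1 x1 w1 := by
  have hl : aeval x1 (C c + C p * X) = x := by rw [hx]; simp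
  have hr' : algebraMap k K r ≠ 0 := by simpa using hr
  have hp' : algebraMap k K p ≠ 0 := by simpa using hp
  have hdl : (C c + C p * X : k[X]).natDegree = 1 := by
    rw [add_comm, natDegree_add_C, natDegree_C_mul_X _ hp]
  refine ⟨h.two, ?_, ?_, ?_, ?_, ?_⟩
  · obtain ⟨a, b, hab⟩ := h.sep
    have h1 := congrArg (fun q => q.comp (C c + C p * X)) hab
    have h2 := congrArg derivative hF
    simp only [add_comp, mul_comp, one_comp, hF] at h1
    simp only [derivative_comp, derivative_add, derivative_C, derivative_mul, derivative_X, zero_mul,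
      zero_add, mul_one] at h2
    refine ⟨a.comp (C c + C p * X) * C (r ^ 2), b.comp (C c + C p * X) * C p⁻¹ * C (r ^ 2), ?_⟩
    have h3 : (C p⁻¹ * C p : k[X]) = 1 := by rw [← C_mul, inv_mul_cancel₀ hp, C_1]
    linear_combination h1 - b.comp (C c + C p * X) * C p⁻¹ * h2 +
      b.comp (C c + C p * X) * (derivative F).comp (C c + C p * X) * h3
  · have h1 := congrArg natDegree hF
    rw [natDegree_comp, hdl, mul_one, natDegree_C_mul (pow_ne_zero 2 hr)] at h1
    rw [← h1]; exact h.pos
  · intro q hq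
    have h1 : aeval x (C (-c / p) + C p⁻¹ * X) = x1 := by
      rw [hx]; simp only [map_add, map_mul, aeval_C, aeval_X, map_div₀, map_neg, map_inv₀]
      field_simp; ring
    have h2 := h.tr (q.comp (C (-c / p) + C p⁻¹ * X)) (by rw [aeval_comp, h1, hq])
    rcases comp_eq_zero_iff.mp h2 with h3 | ⟨-, h3⟩
    · exact h3
    · have h4 := congrArg natDegree h3
      rw [add_comm, natDegree_add_C, natDegree_C_mul_X _ (inv_ne_zero hp), natDegree_C] at h4
      exact absurd h4 one_ne_zero
  · apply mul_left_cancel₀ (pow_ne_zero 2 hr')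
    have h1 := congrArg (aeval x1) hF
    rw [aeval_comp, hl, ← h.sq, hw, map_mul, aeval_C, map_pow] at h1
    rw [← h1]; ring
  · intro f
    obtain ⟨A, B, d, hd, he⟩ := h.gen f
    refine ⟨A.comp (C c + C p * X), B.comp (C c + C p * X) * C r, d.comp (C c + C p * X), ?_, ?_⟩
    · intro h0
      rcases comp_eq_zero_iff.mp h0 with h3 | ⟨-, h3⟩
      · exact hd h3
      · have h4 := congrArg natDegree h3
        rw [hdl, natDegree_C] at h4
        exact absurd h4 one_ne_zero
    · rw [aeval_comp, hl, he]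
      simp only [el, aeval_comp, hl, map_mul, aeval_C]
      rw [hw]; ring

/-! ### the field `k(X)[W] / (W ^ 2 - F)` -/

/-- the conditions on `F` -/
class HF (F : k[X]) : Prop where
  two : (2 : k) ≠ 0
  sep : F.Separable
  pos : 0 < F.natDegree

/-- `W ^ 2 - F` -/
noncomputable abbrev qp (F : k[X]) : (RatFunc k)[X] := X ^ 2 - C (algebraMap k[X] (RatFunc k) F)

instance qp_irr (F : k[X]) [hF : HF F] : Fact (Irreducible (qp F)) := ⟨by
  apply X_pow_sub_C_irreducible_of_prime Nat.prime_two
  intro b hb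
  have hd : b.denom ≠ 0 := b.denom_ne_zero
  have hd' : algebraMap k[X] (RatFunc k) b.denom ≠ 0 := RatFunc.algebraMap_ne_zero hd
  have h1 : b.num ^ 2 = b.denom ^ 2 * F := by
    apply RatFunc.algebraMap_injective
    have ha : b * algebraMap k[X] (RatFunc k) b.denom = algebraMap k[X] (RatFunc k) b.num := by
      conv_lhs => enter [1]; rw [← b.num_div_denom]
      exact div_mul_cancel₀ _ hd'
    rw [map_mul, ← hb, map_pow, map_pow, ← ha]
    ring
  have h2 : b.denom ^ 2 ∣ b.num ^ 2 := ⟨F, h1⟩
  obtain ⟨D, hD⟩ := (IsIntegrallyClosed.pow_dvd_pow_iff two_ne_zero).mp h2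
  have h3 : F = D * D := by
    apply mul_left_cancel₀ (pow_ne_zero 2 hd)
    rw [← h1, hD]; ring
  have h4 : IsUnit D := hF.sep.squarefree D (by rw [h3])
  have h5 := hF.pos
  rw [h3, natDegree_eq_zero_of_isUnit (h4.mul h4)] at h5
  exact lt_irrefl _ h5⟩

/-- the function field of `W ^ 2 = F(X)` -/
abbrev Hf (F : k[X]) := AdjoinRoot (qp F)

theorem qp_monic (F : k[X]) : (qp F).Monic := monic_X_pow_sub_C _ two_ne_zero

instance (F : k[X]) : FiniteDimensional (RatFunc k) (Hf F) := (qp_monic F).finite_adjoinRoot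

/-- the coordinate `x` -/
noncomputable def Hf.x (F : k[X]) : Hf F := algebraMap (RatFunc k) (Hf F) RatFunc.X

/-- the coordinate `w` -/
noncomputable def Hf.w (F : k[X]) : Hf F := AdjoinRoot.root (qp F)

theorem Hf.aeval_x (F p : k[X]) :
    aeval (Hf.x F) p = algebraMap (RatFunc k) (Hf F) (algebraMap k[X] (RatFunc k) p) := by
  unfold Hf.x
  rw [aeval_algebraMap_apply, RatFunc.aeval_X_left_eq_algebraMap]

theorem Hf.sq (F : k[X]) : Hf.w F ^ 2 = aeval (Hf.x F) F := by
  have := AdjoinRoot.eval₂_root (qp F)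
  rw [Hf.aeval_x]
  simp only [eval₂_sub, eval₂_X_pow, eval₂_C] at this
  exact sub_eq_zero.mp this

theorem Hf.exists_eq (F : k[X]) (f : Hf F) : ∃ a b : RatFunc k,
    f = algebraMap (RatFunc k) (Hf F) a + algebraMap (RatFunc k) (Hf F) b * Hf.w F := by
  obtain ⟨p, rfl⟩ := AdjoinRoot.mk_surjective f
  have h1 : (p %ₘ qp F).natDegree ≤ 1 := by
    have h2 : (qp F).natDegree = 2 := natDegree_X_pow_sub_C
    have := natDegree_modByMonic_lt p (qp_monic F) (by
      intro h3; rw [h3] at h2; simp at h2)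
    omega
  refine ⟨(p %ₘ qp F).coeff 0, (p %ₘ qp F).coeff 1, ?_⟩
  have h3 : AdjoinRoot.mk (qp F) p = AdjoinRoot.mk (qp F) (p %ₘ qp F) := by
    conv_lhs => rw [← modByMonic_add_div p (qp F)]
    simp
  rw [h3]
  conv_lhs => rw [eq_X_add_C_of_natDegree_le_one h1]
  simp [Hf.w, add_comm]

theorem Hf.hyp (F : k[X]) [hF : HF F] : Hyp F (Hf.x F) (Hf.w F) where
  two := hF.two
  sep := hF.sep
  pos := hF.pos
  tr := fun p hp => by
    rw [Hf.aeval_x] at hp
    simpa using hp
  sq := Hf.sq F
  gen := fun f => by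
    obtain ⟨a, b, rfl⟩ := Hf.exists_eq F f
    refine ⟨a.num * b.denom, b.num * a.denom, a.denom * b.denom,
      mul_ne_zero a.denom_ne_zero b.denom_ne_zero, ?_⟩
    have ha : a * algebraMap k[X] (RatFunc k) a.denom = algebraMap k[X] (RatFunc k) a.num := by
      conv_lhs => enter [1]; rw [← a.num_div_denom]
      exact div_mul_cancel₀ _ (RatFunc.algebraMap_ne_zero a.denom_ne_zero)
    have hb : b * algebraMap k[X] (RatFunc k) b.denom = algebraMap k[X] (RatFunc k) b.num := by
      conv_lhs => enter [1]; rw [← b.num_div_denom]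
      exact div_mul_cancel₀ _ (RatFunc.algebraMap_ne_zero b.denom_ne_zero)
    simp only [el, Hf.aeval_x, map_mul, ← ha, ← hb]
    ring

instance (F : k[X]) [hF : HF F] : Algebra.IsSeparable (RatFunc k) (Hf F) := by
  have hw : IsSeparable (RatFunc k) (Hf.w F) := by
    have h1 : (qp F).Separable := by
      apply separable_X_pow_sub_C
      · have : ((2 : ℕ) : RatFunc k) = algebraMap k (RatFunc k) 2 := by simp [map_ofNat]
        rw [this]
        simpa using hF.two
      · exact RatFunc.algebraMap_ne_zero (Hf.hyp F).F_ne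
    refine h1.of_dvd (minpoly.dvd _ _ ?_)
    exact AdjoinRoot.aeval_eq _ |>.trans AdjoinRoot.mk_self
  refine ⟨fun f => ?_⟩
  obtain ⟨a, b, rfl⟩ := Hf.exists_eq F f
  exact Field.isSeparable_add (isSeparable_algebraMap a)
    (Field.isSeparable_mul (isSeparable_algebraMap b) hw)

end Crest.Agent.T15.Hy
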