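import Mathlib
import Crest.Agent.T15.HyB_90
import Crest.Agent.R013.RR29_948
import Crest.Agent.R013.CE7_280

/-!
# Row 15, block Ht (helper54): Honda at naive-good primes, words and leaves

* `Un v0 p σ` : an absolutely unramified valued field with a Frobenius;
* `PI`, `fr`, `th` : power series words;
* `Vs` : the valued set-up `(Ω, v, ρ, d, Σ, L0, em)`, leaf `VsStmt`;
* `lam` : the logarithmic derivative of a divisor, leaves `AbelStmt`, `LinStmt`, `RegStmt`;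
* `Sol` : the formal solution, leaf `BadStmt`.
-/

set_option autoImplicit false
set_option linter.all false

noncomputable section

namespace Crest.Agent.T15.Hon

open scoped NNReal PowerSeries
open Crest.Agent.R013.RR7_948 Crest.Agent.R013.RR8_948 Crest.Agent.R013.RR9_948
open Crest.Agent.R013.RR11_948 Crest.Agent.R013.RR12_948 Crest.Agent.R013.PicD_398
open Crest.Agent.R013.RR13_948 Crest.Agent.R013.RR18_948 Crest.Agent.R013.RR19_948
open Crest.Agent.R013.RR20_948 Crest.Agent.R013.RR21_948 Crest.Agent.R013.RR22_948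
open Crest.Agent.R013.RR14_948
open Crest.Agent.R013.GR4_921 Crest.Agent.R013.Frob1_914 Crest.Agent.T15.Disc
open Crest.Agent.R013.CE3_280 Crest.Agent.R013.CE5_280

section series

variable {K0 : Type*} [Field K0]

/-- an absolutely unramified valued field with a Frobenius `σ` -/
structure Un (v0 : Valuation K0 ℝ≥0) (p : ℕ) (σ : K0 →+* K0) : Prop where
  prime : p.Prime
  lt : v0 p < 1
  disc : ∀ a, v0 a < 1 → v0 a ≤ v0 p
  iso : ∀ a, v0 (σ a) = v0 a
  frob : ∀ a, v0 a ≤ 1 → v0 (σ a - a ^ p) < 1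

/-- all coefficients have norm at most `c` -/
def PI (v0 : Valuation K0 ℝ≥0) (c : ℝ≥0) (f : K0⟦X⟧) : Prop :=
  ∀ n, v0 (PowerSeries.coeff n f) ≤ c

/-- `f ↦ f^σ(X^q)` -/
def fr (σ : K0 →+* K0) (q : ℕ) (hq : q ≠ 0) : K0⟦X⟧ →+* K0⟦X⟧ :=
  (PowerSeries.expand q hq).toRingHom.comp (PowerSeries.map σ)

/-- `X d/dX` -/
def th (f : K0⟦X⟧) : K0⟦X⟧ := PowerSeries.X * PowerSeries.derivative K0 f

/-- integral and algebraic series -/
def AI (v0 : Valuation K0 ℝ≥0) (f : K0⟦X⟧) : Prop :=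
  PI v0 1 f ∧ IsAlgebraic (Polynomial K0) f

end series

/-- The valued set-up.  `Ω` is an algebraic closure of `C(t)`, `v` extends the `p`-adic Gauss norm of
the field `L0` of algebraic elements of `Frac W⟦t⟧`, `d = t d/dt`, `S` lifts the Frobenius. -/
structure Vs (C : Type) [Field C] (K0 : Subfield C) (v0 : Valuation K0 ℝ≥0) (p : ℕ) (hp : p ≠ 0)
    (σ : K0 →+* K0) where
  Ω : Type
  [fΩ : Field Ω]
  [acΩ : IsAlgClosed Ω]
  [czΩ : CharZero Ω]
  [alΩ : Algebra C Ω]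
  k : Type
  [fk : Field k]
  [ack : IsAlgClosed k]
  k' : Type
  [fk' : Field k']
  [ack' : IsAlgClosed k']
  [alk : Algebra k k']
  v : Valuation Ω ℝ≥0
  ρ : Ω → k'
  ρC : C → k
  res : IsRes v ρ
  resC : IsRes (v.comap (algebraMap C Ω)) ρC
  comp : ∀ c : C, v (algebraMap C Ω c) ≤ 1 → ρ (algebraMap C Ω c) = algebraMap k k' (ρC c)
  v_K0 : ∀ a : K0, v (algebraMap C Ω a) = v0 a
  /-- the embedding of the integral algebraic series -/
  em : K0⟦X⟧ → Ω
  em_add : ∀ f g, AI v0 f → AI v0 g → em (f + g) = em f + em g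
  em_mul : ∀ f g, AI v0 f → AI v0 g → em (f * g) = em f * em g
  em_C : ∀ a : K0, v0 a ≤ 1 → em (PowerSeries.C a) = algebraMap C Ω a
  v_em : ∀ f c, AI v0 f → PI v0 c f → v (em f) ≤ c
  le_v_em : ∀ f n, AI v0 f → v0 (PowerSeries.coeff n f) ≤ v (em f)
  tr : Transcendental k (ρ (em PowerSeries.X))
  alg : ∀ a : Ω, IsAlgebraic (IntermediateField.adjoin C {em PowerSeries.X}) a
  /-- the derivation -/
  d : Derivation C Ω Ω
  d_em : ∀ f, AI v0 f → d (em f) = em (th f)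
  /-- the Frobenius lift -/
  S : Ω ≃+* Ω
  s : C ≃+* C
  S_C : ∀ c : C, S (algebraMap C Ω c) = algebraMap C Ω (s c)
  s_K0 : ∀ a : K0, s a = σ a
  S_em : ∀ f, AI v0 f → S (em f) = em (fr σ p hp f)
  S_iso : ∀ a, v (S a) = v a
  S_res : ∀ a, v a ≤ 1 → v (S a - a ^ p) < 1
  d_S : ∀ a, d (S a) = p * S (d a)
  /-- the unramified field -/
  L0 : Subfield Ω
  em_mem : ∀ f, AI v0 f → em f ∈ L0
  K0_mem : ∀ a : K0, algebraMap C Ω a ∈ L0
  fixed : ∀ a : Ω, (∀ g : Ω ≃+* Ω, (∀ y ∈ L0, g y = y) → g a = a) → a ∈ L0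
  disc : ∀ y ∈ L0, v y < 1 → v y ≤ v0 p
  v_d : ∀ y ∈ L0, v (d y) ≤ v y
  coef : ∀ f, AI v0 f → (∀ N : ℕ, ∃ H ∈ L0, v H ≤ v0 p ∧ v (em f - d H) ≤ v0 p ^ N) →
    ∀ n, v0 (PowerSeries.coeff n f) ≤ v0 p * v0 n

attribute [instance] Vs.fΩ Vs.acΩ Vs.czΩ Vs.alΩ Vs.fk Vs.ack Vs.fk' Vs.ack' Vs.alk

/-- leaf SET -/
def VsStmt : Prop :=
  ∀ (C : Type) [Field C] [IsAlgClosed C] [CharZero C] [Algebra.IsAlgebraic ℚ C] (K0 : Subfield C)
    (v0 : Valuation K0 ℝ≥0) (p : ℕ) (hp : p ≠ 0) (σ : K0 →+* K0), Un v0 p σ →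
    Nonempty (Vs C K0 v0 p hp σ)

section lam

variable {Ω L : Type*} [Field Ω] [IsAlgClosed Ω] [Field L] [Algebra Ω L]
  [Algebra (RatFunc Ω) L] [IsScalarTower Ω (RatFunc Ω) L] [FiniteDimensional (RatFunc Ω) L]
  [Algebra.IsSeparable (RatFunc Ω) L]

/-- the differential `h dy` evaluated on a divisor along `d` -/
def lam (d : Ω → Ω) (h y : L) : (Pl Ω L →₀ ℤ) →+ Ω :=
  Finsupp.liftAddHom fun P => zmultiplesHom Ω (ev P h * d (ev P y))

theorem lam_single (d : Ω → Ω) (h y : L) (P : Pl Ω L) (n : ℤ) :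
    lam d h y (Finsupp.single P n) = n * (ev P h * d (ev P y)) := by
  simp [lam]

end lam

/-- leaf ABEL: `lam` of a regular differential kills principal divisors and constant divisors -/
def AbelStmt : Prop :=
  ∀ (C K Ω L : Type) [Field C] [IsAlgClosed C] [CharZero C] [Field K] [Algebra C K]
    [Algebra (RatFunc C) K] [IsScalarTower C (RatFunc C) K] [FiniteDimensional (RatFunc C) K]
    [Algebra.IsSeparable (RatFunc C) K] [Field Ω] [Algebra C Ω] [IsAlgClosed Ω]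
    [Field L] [Algebra Ω L] [Algebra C L] [IsScalarTower C Ω L]
    [Algebra (RatFunc Ω) L] [IsScalarTower Ω (RatFunc Ω) L] [FiniteDimensional (RatFunc Ω) L]
    [Algebra.IsSeparable (RatFunc Ω) L] (ι : K →ₐ[C] L) (hι : IsCE Ω ι),
    xK Ω L = ι (xK C K) → ∀ (d : Derivation C Ω Ω) (h y : K),
    (∀ D, lam d (ι h) (ι y) (base hι D) = 0) ∧
    (h * del C K y ∈ LD (canD C K) → ∀ f : L, f ≠ 0 → lam d (ι h) (ι y) (divf f) = 0)

/-- leaf LIN: `lam` is linear in the differential -/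
def LinStmt : Prop :=
  ∀ (C K Ω L : Type) [Field C] [IsAlgClosed C] [CharZero C] [Field K] [Algebra C K]
    [Algebra (RatFunc C) K] [IsScalarTower C (RatFunc C) K] [FiniteDimensional (RatFunc C) K]
    [Algebra.IsSeparable (RatFunc C) K] [Field Ω] [Algebra C Ω] [IsAlgClosed Ω]
    [Field L] [Algebra Ω L] [Algebra C L] [IsScalarTower C Ω L]
    [Algebra (RatFunc Ω) L] [IsScalarTower Ω (RatFunc Ω) L] [FiniteDimensional (RatFunc Ω) L]
    [Algebra.IsSeparable (RatFunc Ω) L] (ι : K →ₐ[C] L), IsCE Ω ι →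
    ∀ (d : Derivation C Ω Ω) (I : Type) (s : Finset I) (c : I → C) (h y : I → K),
    ∑ i ∈ s, c i • (h i * del C K (y i)) = 0 →
    ∀ D, ∑ i ∈ s, algebraMap C Ω (c i) * lam d (ι (h i)) (ι (y i)) D = 0

/-- leaf REG: the standard differentials of `w ^ 2 = F(x)` are regular -/
def RegStmt : Prop :=
  ∀ (C K : Type) [Field C] [IsAlgClosed C] [CharZero C] [Field K] [Algebra C K]
    [Algebra (RatFunc C) K] [IsScalarTower C (RatFunc C) K] [FiniteDimensional (RatFunc C) K]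
    [Algebra.IsSeparable (RatFunc C) K] (F : Polynomial C) (x w : K), Hy.Hyp F x w →
    ∀ m : ℕ, 2 * m + 3 ≤ F.natDegree → x ^ m / w * del C K x ∈ LD (canD C K)

section sol

variable {K0 : Type*} [Field K0] {g : ℕ}

/-- the formal solution (37's words): `g` arcs on `w ^ 2 = F(x)` through the points `(a i, b i)`
whose Abel sums have derivative `Φ'` -/
structure Sol (F : Polynomial K0) (a b : Fin g → K0) (Φ : Fin g → K0⟦X⟧)
    (x w η : Fin g → K0⟦X⟧) : Prop where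
  sq : ∀ i, w i ^ 2 = Polynomial.aeval (x i) F
  x0 : ∀ i, PowerSeries.constantCoeff (x i) = a i
  w0 : ∀ i, PowerSeries.constantCoeff (w i) = b i
  dx : ∀ i, PowerSeries.derivative K0 (x i) = η i * w i
  sum : ∀ m : Fin g, ∑ i, x i ^ (m : ℕ) * η i = PowerSeries.derivative K0 (Φ m)

end sol

/-- leaf BAD: one multiplier `M` serves every place where `Φ` is integral -/
def BadStmt : Prop :=
  ∀ (K0 : Type) [Field K0] [CharZero K0] [Algebra.IsAlgebraic ℚ K0] (g : ℕ) (F : Polynomial K0)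
    (a b : Fin g → K0), Function.Injective a → (∀ i, b i ≠ 0) → ∀ N : ℕ, N ≠ 0 →
    ∃ M : ℕ, M ≠ 0 ∧ ∀ (v0 : Valuation K0 ℝ≥0), v0 N < 1 →
      ∀ (Φ x w η : Fin g → K0⟦X⟧), (∀ m, PI v0 (v0 M) (Φ m)) → Sol F a b Φ x w η →
        ∀ i n, 0 < n → v0 (PowerSeries.coeff n (x i)) ≤ 1 ∧ v0 (PowerSeries.coeff n (w i)) ≤ 1

end Crest.Agent.T15.Hon
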