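import Mathlib

/-!
# Row 15, block F (helper29): the normal form of the curve `Y`, pure algebra

`Par` parameters, `Eqs` the two equations of 50's model, `z`, `w`, and the identities.
-/

set_option autoImplicit false
set_option linter.all false

namespace Crest.Agent.T15.Mo

open Polynomial

/-- the parameters of the normal form -/
structure Par (C : Type*) [Field C] where
  p1 : C
  p2 : C
  p3 : C
  t : C
  al : C
  be : C
  sum : p1 + p2 + p3 = 0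
  h1 : p1 ≠ 0
  h2 : p2 ≠ 0
  h3 : p3 ≠ 0
  k1 : p2 - p3 ≠ 0
  k2 : p3 - p1 ≠ 0
  k3 : p1 - p2 ≠ 0
  ht : t ≠ 0
  hal : al ^ 2 = -p2 ^ 3 * (p3 - p1)
  hbe : be ^ 2 = p3 ^ 3 * (p1 - p2)

/-- `c X (X² - a₁) (X² - a₂) (X² - a₃)` -/
noncomputable def Fm {C : Type*} [Field C] (c a1 a2 a3 : C) : C[X] :=
  Polynomial.C c * X * (X ^ 2 - Polynomial.C a1) * (X ^ 2 - Polynomial.C a2) *
    (X ^ 2 - Polynomial.C a3)

namespace Par

variable {C : Type*} [Field C] (P : Par C)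

def d1 : C := P.p2 - P.p3
def d2 : C := P.p3 - P.p1
def d3 : C := P.p1 - P.p2
def a1 : C := -P.p1 / P.d1
def a2 : C := -P.d1 / P.p1
def a3 : C := (P.al + P.be) ^ 2 / (P.p1 ^ 3 * P.d1)
def b : C := (P.al * P.p3 + P.be * P.p2) / (P.al * P.p3 - P.be * P.p2)
def c : C := P.t * P.p1 * (P.d3 * P.p2 / P.al + P.d2 * P.p3 / P.be) / 2
/-- the septic -/
noncomputable def F : C[X] := Fm P.c P.a1 P.a2 P.a3

theorem p3_eq : P.p3 = -P.p1 - P.p2 := by linear_combination P.sum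
theorem d1_ne : P.d1 ≠ 0 := P.k1
theorem d2_ne : P.d2 ≠ 0 := P.k2
theorem d3_ne : P.d3 ≠ 0 := P.k3
theorem al_sq : P.al ^ 2 = -P.p2 ^ 3 * P.d2 := P.hal
theorem be_sq : P.be ^ 2 = P.p3 ^ 3 * P.d3 := P.hbe

theorem al_ne : P.al ≠ 0 := by
  intro h
  have := P.al_sq
  rw [h] at this
  exact mul_ne_zero (neg_ne_zero.mpr (pow_ne_zero 3 P.h2)) P.d2_ne (by rw [← this]; ring)

theorem be_ne : P.be ≠ 0 := by
  intro h
  have := P.be_sq
  rw [h] at this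
  exact mul_ne_zero (pow_ne_zero 3 P.h3) P.d3_ne (by rw [← this]; ring)

theorem sq_sub : (P.al + P.be) * (P.al - P.be) = P.p1 ^ 3 * P.d1 := by
  have h1 := P.hal; have h2 := P.hbe
  unfold d1; rw [P.p3_eq] at *
  linear_combination h1 - h2

theorem sq_sub2 : (P.al * P.p3 + P.be * P.p2) * (P.al * P.p3 - P.be * P.p2) =
    P.p2 ^ 2 * P.p3 ^ 2 * (P.p1 * P.d1) := by
  have h1 := P.hal; have h2 := P.hbe
  unfold d1; rw [P.p3_eq] at *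
  linear_combination (-P.p1 - P.p2) ^ 2 * h1 - P.p2 ^ 2 * h2

theorem sq_sub3 : (P.be * P.d3 * P.p2 + P.al * P.d2 * P.p3) * (P.be * P.d3 * P.p2 - P.al * P.d2 * P.p3) =
    -(P.p2 ^ 2 * P.p3 ^ 2 * (P.p1 * P.d1 ^ 3)) := by
  have h1 := P.hal; have h2 := P.hbe
  unfold d1 d2 d3; rw [P.p3_eq] at *
  linear_combination (P.p1 - P.p2) ^ 2 * P.p2 ^ 2 * h2 -
    (-P.p1 - P.p2 - P.p1) ^ 2 * (-P.p1 - P.p2) ^ 2 * h1

theorem add_ne : P.al + P.be ≠ 0 := left_ne_zero_of_mul (by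
  rw [P.sq_sub]; exact mul_ne_zero (pow_ne_zero 3 P.h1) P.d1_ne)
theorem sub_ne : P.al - P.be ≠ 0 := right_ne_zero_of_mul (by
  rw [P.sq_sub]; exact mul_ne_zero (pow_ne_zero 3 P.h1) P.d1_ne)
theorem add_ne2 : P.al * P.p3 + P.be * P.p2 ≠ 0 := left_ne_zero_of_mul (by
  rw [P.sq_sub2]
  exact mul_ne_zero (mul_ne_zero (pow_ne_zero 2 P.h2) (pow_ne_zero 2 P.h3)) (mul_ne_zero P.h1 P.d1_ne))
theorem sub_ne2 : P.al * P.p3 - P.be * P.p2 ≠ 0 := right_ne_zero_of_mul (by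
  rw [P.sq_sub2]
  exact mul_ne_zero (mul_ne_zero (pow_ne_zero 2 P.h2) (pow_ne_zero 2 P.h3)) (mul_ne_zero P.h1 P.d1_ne))
theorem add_ne3 : P.be * P.d3 * P.p2 + P.al * P.d2 * P.p3 ≠ 0 := left_ne_zero_of_mul (by
  rw [P.sq_sub3]
  exact neg_ne_zero.mpr (mul_ne_zero (mul_ne_zero (pow_ne_zero 2 P.h2) (pow_ne_zero 2 P.h3))
    (mul_ne_zero P.h1 (pow_ne_zero 3 P.d1_ne))))

theorem a3_eq : P.a3 = (P.al + P.be) / (P.al - P.be) := by
  unfold a3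
  rw [← P.sq_sub]
  have := P.add_ne; have := P.sub_ne
  field_simp

theorem a1_ne : P.a1 ≠ 0 := div_ne_zero (neg_ne_zero.mpr P.h1) P.d1_ne
theorem a2_ne : P.a2 ≠ 0 := div_ne_zero (neg_ne_zero.mpr P.d1_ne) P.h1
theorem a3_ne : P.a3 ≠ 0 := by rw [P.a3_eq]; exact div_ne_zero P.add_ne P.sub_ne
theorem b_ne : P.b ≠ 0 := div_ne_zero P.add_ne2 P.sub_ne2
theorem a1_mul_a2 : P.a1 * P.a2 = 1 := by
  unfold a1 a2
  have := P.h1; have := P.d1_ne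
  field_simp

theorem c_eq : P.c = P.t * P.p1 * (P.be * P.d3 * P.p2 + P.al * P.d2 * P.p3) / (2 * P.al * P.be) := by
  unfold c
  have := P.al_ne; have := P.be_ne
  by_cases h2 : (2 : C) = 0
  · simp [h2]
  field_simp

theorem a1_sub_a2 : (P.a1 - P.a2) * (P.p1 * P.d1) = -(4 * P.p2 * P.p3) := by
  unfold a1 a2
  have := P.h1; have := P.d1_ne
  field_simp
  unfold d1; rw [P.p3_eq]; ring

/-- `a₃ - a₁ = 2 (al p₂ - be p₃)/((al - be) d₁)`-type formulas -/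
theorem a3_sub_a1 : (P.a3 - P.a1) * ((P.al - P.be) * P.d1) = -(2 * (P.al * P.p3 - P.be * P.p2)) := by
  rw [P.a3_eq]; unfold a1
  have := P.sub_ne; have := P.d1_ne
  field_simp
  unfold d1; rw [P.p3_eq]; ring

theorem a3_sub_a2 : (P.a3 - P.a2) * ((P.al - P.be) * P.p1) = -(2 * (P.al * P.p3 + P.be * P.p2)) := by
  rw [P.a3_eq]; unfold a2
  have := P.sub_ne; have := P.h1
  field_simp
  unfold d1; rw [P.p3_eq]; ring

section char

variable [NeZero (2 : C)]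

theorem c_ne : P.c ≠ 0 := by
  rw [P.c_eq]
  exact div_ne_zero (mul_ne_zero (mul_ne_zero P.ht P.h1) P.add_ne3)
    (mul_ne_zero (mul_ne_zero two_ne_zero P.al_ne) P.be_ne)

theorem a1_ne_a2 : P.a1 ≠ P.a2 := by
  intro h
  have := P.a1_sub_a2
  rw [h, sub_self, zero_mul] at this
  have h4 : (4 : C) ≠ 0 := by
    have : (4 : C) = 2 * 2 := by norm_num
    rw [this]; exact mul_ne_zero two_ne_zero two_ne_zero
  exact mul_ne_zero (mul_ne_zero h4 P.h2) P.h3 (neg_eq_zero.mp this.symm)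

theorem a3_ne_a1 : P.a3 ≠ P.a1 := by
  intro h
  have := P.a3_sub_a1
  rw [h, sub_self, zero_mul] at this
  exact mul_ne_zero two_ne_zero P.sub_ne2 (neg_eq_zero.mp this.symm)

theorem a3_ne_a2 : P.a3 ≠ P.a2 := by
  intro h
  have := P.a3_sub_a2
  rw [h, sub_self, zero_mul] at this
  exact mul_ne_zero two_ne_zero P.add_ne2 (neg_eq_zero.mp this.symm)

end char

/-- transport of the parameters -/
def map {Y : Type*} [Field Y] (f : C →+* Y) : Par Y where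
  p1 := f P.p1
  p2 := f P.p2
  p3 := f P.p3
  t := f P.t
  al := f P.al
  be := f P.be
  sum := by rw [← map_add, ← map_add, P.sum, map_zero]
  h1 := (map_ne_zero f).mpr P.h1
  h2 := (map_ne_zero f).mpr P.h2
  h3 := (map_ne_zero f).mpr P.h3
  k1 := by rw [← map_sub]; exact (map_ne_zero f).mpr P.k1
  k2 := by rw [← map_sub]; exact (map_ne_zero f).mpr P.k2
  k3 := by rw [← map_sub]; exact (map_ne_zero f).mpr P.k3
  ht := (map_ne_zero f).mpr P.ht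
  hal := by have := congrArg f P.hal; simpa using this
  hbe := by have := congrArg f P.hbe; simpa using this

section map

variable {Y : Type*} [Field Y] (f : C →+* Y)

@[simp] theorem map_p1 : (P.map f).p1 = f P.p1 := rfl
@[simp] theorem map_p2 : (P.map f).p2 = f P.p2 := rfl
@[simp] theorem map_p3 : (P.map f).p3 = f P.p3 := rfl
@[simp] theorem map_t : (P.map f).t = f P.t := rfl
@[simp] theorem map_al : (P.map f).al = f P.al := rfl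
@[simp] theorem map_be : (P.map f).be = f P.be := rfl
@[simp] theorem map_d1 : (P.map f).d1 = f P.d1 := by simp [d1]
@[simp] theorem map_d2 : (P.map f).d2 = f P.d2 := by simp [d2]
@[simp] theorem map_d3 : (P.map f).d3 = f P.d3 := by simp [d3]
@[simp] theorem map_a1 : (P.map f).a1 = f P.a1 := by simp [a1]
@[simp] theorem map_a2 : (P.map f).a2 = f P.a2 := by simp [a2]
@[simp] theorem map_a3 : (P.map f).a3 = f P.a3 := by simp [a3]
@[simp] theorem map_b : (P.map f).b = f P.b := by simp [b]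
@[simp] theorem map_c : (P.map f).c = f P.c := by simp [c, map_ofNat]
theorem map_F : (P.map f).F = P.F.map f := by simp [F, Fm, Polynomial.map_mul]

end map

/-- change of the signs of `al`, `be` -/
def sg (e1 e2 : C) (h1 : e1 ^ 2 = 1) (h2 : e2 ^ 2 = 1) : Par C :=
  { P with
    al := e1 * P.al
    be := e2 * P.be
    hal := by rw [mul_pow, h1, one_mul, P.hal]
    hbe := by rw [mul_pow, h2, one_mul, P.hbe] }

/-! ### functions on the curve -/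

def V (A B2 : C) : C := (A ^ 2 + B2) / (2 * P.t * P.d3)
def R (A B2 : C) : C := (A ^ 2 - B2) / (2 * P.t * P.d2)
def Xc (A B2 : C) : C :=
  P.p1 * P.p2 * (4 * P.p3 ^ 2 - P.p1 * P.p2) + (P.p1 * P.d1) * (P.p2 * P.d2) * P.V A B2 ^ 2
def V' (A B2 u : C) : C := P.V A B2 / (u + P.p1 * P.p2)
def R' (A B2 u : C) : C := P.R A B2 / (u + P.p1 * P.p3)
def z (A B2 u : C) : C := P.al * P.V' A B2 u + P.be * P.R' A B2 u
def w (A B2 u : C) : C :=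
  A * P.z A B2 u * (P.z A B2 u ^ 2 - P.a1) * (P.z A B2 u ^ 2 - P.a2) / (P.z A B2 u ^ 2 - P.b)
/-- `N (Z) = (p₁ Z + d₁) (d₁ Z + p₁)` -/
def N (Z : C) : C := (P.p1 * Z + P.d1) * (P.d1 * Z + P.p1)

theorem N_eq (Z : C) : P.N Z = P.p1 * P.d1 * ((Z - P.a1) * (Z - P.a2)) := by
  unfold N a1 a2
  have := P.h1; have := P.d1_ne
  field_simp
  ring

/-- the cubic in `Z` -/
theorem cubic (Z : C) :
    P.be * P.d3 * (8 * P.p2 ^ 2 * P.p3 ^ 2 * Z + P.p1 * P.p2 * P.N Z) * (Z + 1) +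
      P.al * P.d2 * (8 * P.p2 ^ 2 * P.p3 ^ 2 * Z + P.p1 * P.p3 * P.N Z) * (Z - 1) =
    P.p1 ^ 2 * P.d1 * (P.be * P.d3 * P.p2 + P.al * P.d2 * P.p3) * (Z - P.a3) * (Z - P.b) ^ 2 := by
  have e1 : Z - P.a3 = ((P.al - P.be) * Z - (P.al + P.be)) / (P.al - P.be) := by
    rw [P.a3_eq]; have := P.sub_ne; field_simp
  have e2 : Z - P.b = ((P.al * P.p3 - P.be * P.p2) * Z - (P.al * P.p3 + P.be * P.p2)) /
      (P.al * P.p3 - P.be * P.p2) := by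
    unfold b; have := P.sub_ne2; field_simp
  rw [e1, e2, div_pow, mul_div_assoc', mul_div_assoc', div_mul_eq_mul_div, div_div,
    eq_div_iff (mul_ne_zero P.sub_ne (pow_ne_zero 2 P.sub_ne2))]
  have hal := P.hal; have hbe := P.hbe
  unfold N d1 d2 d3
  rw [P.p3_eq] at *
  generalize P.p1 = p1 at *
  generalize P.p2 = p2 at *
  generalize P.al = al at *
  generalize P.be = be at *
  linear_combination ((16)*p1^8*p2^3*Z^2 + (-16)*p1^8*p2^3*Z + (96)*p1^7*p2^4*Z^2 + (-96)*p1^7*p2^4*Z + (8)*p1^7*al^2*Z^2 + (-8)*p1^7*al^2*Z + (-4)*p1^7*al*be*Z^2 + (4)*p1^7*al*be + (212)*p1^6*p2^5*Z^2 + (-212)*p1^6*p2^5*Z + (44)*p1^6*p2*al^2*Z^2 + (-44)*p1^6*p2*al^2*Z + (-8)*p1^6*p2*al*be*Z^2 + (16)*p1^6*p2*al*be + (-4)*p1^6*p2*be^2*Z^2 + (-4)*p1^6*p2*be^2*Z + (180)*p1^5*p2^6*Z^2 + (-180)*p1^5*p2^6*Z + (84)*p1^5*p2^2*al^2*Z^2 + (-84)*p1^5*p2^2*al^2*Z + (24)*p1^5*p2^2*al*be*Z^2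 + (16)*p1^5*p2^2*al*be + (-12)*p1^5*p2^2*be^2*Z^2 + (-12)*p1^5*p2^2*be^2*Z + (-48)*p1^4*p2^7*Z^2 + (48)*p1^4*p2^7*Z + (48)*p1^4*p2^3*al^2*Z^2 + (-48)*p1^4*p2^3*al^2*Z + (72)*p1^4*p2^3*al*be*Z^2 + (-8)*p1^4*p2^3*al*be + (16)*p1^4*p2^3*be^2*Z^2 + (-16)*p1^4*p2^3*be^2*Z + (-216)*p1^3*p2^8*Z^2 + (216)*p1^3*p2^8*Z + (-48)*p1^3*p2^4*al^2*Z^2 + (48)*p1^3*p2^4*al^2*Z + (36)*p1^3*p2^4*al*be*Z^2 + (-20)*p1^3*p2^4*al*be + (88)*p1^3*p2^4*be^2*Z^2 + (-40)*p1^3*p2^4*be^2*Z + (-172)*p1^2*p2^9*Z^2 + (172)*p1^2*p2^9*Z + (-84)*p1^2*p2^5*al^2*Z^2 + (84)*p1^2*p2^5*al^2*Z + (-48)*p1^2*p2^5*al*be*Z^2 + (-8)*p1^2*p2^5*al*be + (96)*p1^2*p2^5*be^2*Z^2 + (-72)*p1^2*p2^5*be^2*Z + (-60)*p1*p2^10*Z^2 + (60)*p1*p2^10*Z + (-44)*p1*p2^6*al^2*Z^2 + (44)*p1*p2^6*al^2*Z + (-56)*p1*p2^6*al*be*Z^2 + (32)*p1*p2^6*be^2*Z^2 + (-56)*p1*p2^6*be^2*Z + (-8)*p2^11*Z^2 + (8)*p2^11*Z + (-8)*p2^7*al^2*Z^2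 + (8)*p2^7*al^2*Z + (-16)*p2^7*al*be*Z^2 + (-16)*p2^7*be^2*Z) * hal + ((32)*p1^5*p2^6*Z^2 + (-32)*p1^5*p2^6*Z + (144)*p1^4*p2^7*Z^2 + (-144)*p1^4*p2^7*Z + (-8)*p1^4*p2^3*al*be*Z^2 + (8)*p1^4*p2^3*al*be + (232)*p1^3*p2^8*Z^2 + (-232)*p1^3*p2^8*Z + (-4)*p1^3*p2^4*al*be*Z^2 + (20)*p1^3*p2^4*al*be + (-8)*p1^3*p2^4*be^2*Z^2 + (-8)*p1^3*p2^4*be^2*Z + (172)*p1^2*p2^9*Z^2 + (-172)*p1^2*p2^9*Z + (48)*p1^2*p2^5*al*be*Z^2 + (8)*p1^2*p2^5*al*be + (-12)*p1^2*p2^5*be^2*Z^2 + (-12)*p1^2*p2^5*be^2*Z + (60)*p1*p2^10*Z^2 + (-60)*p1*p2^10*Z + (56)*p1*p2^6*al*be*Z^2 + (12)*p1*p2^6*be^2*Z^2 + (12)*p1*p2^6*be^2*Z + (8)*p2^11*Z^2 + (-8)*p2^11*Z + (16)*p2^7*al*be*Z^2 + (8)*p2^7*be^2*Z^2 + (8)*p2^7*be^2*Z) * hbe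

end Par

/-- the equations of 50's model: `A`, `B2 = B²`, `u` -/
structure Eqs {Y : Type*} [Field Y] (P : Par Y) (A B2 u : Y) : Prop where
  two : (2 : Y) ≠ 0
  k0 : P.p1 * P.d1 ^ 3 * (A ^ 2 + B2) ^ 2 + 4 * (P.p3 * P.d3 ^ 3) * A ^ 2 * B2 =
    4 * (P.t * P.d1 * P.d2 * P.d3) ^ 2
  cub : u ^ 3 + 2 * (P.p1 * P.p2 + P.p1 * P.p3 + P.p2 * P.p3) * u ^ 2 - P.Xc A B2 * u -
    2 * (P.p1 * P.p2 * P.p3) ^ 2 = 0
  n3 : u + P.p1 * P.p2 ≠ 0
  n2 : u + P.p1 * P.p3 ≠ 0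

namespace Eqs

variable {Y : Type*} [Field Y] {P : Par Y} {A B2 u : Y} (h : Eqs P A B2 u)
include h

theorem u_ne : u ≠ 0 := by
  intro h0
  have := h.cub
  rw [h0] at this
  exact mul_ne_zero h.two (pow_ne_zero 2 (mul_ne_zero (mul_ne_zero P.h1 P.h2) P.h3))
    (by linear_combination -this)

theorem add_eq : A ^ 2 + B2 = 2 * P.t * P.d3 * P.V A B2 := by
  unfold Par.V
  have := h.two; have := P.ht; have := P.d3_ne
  field_simp

theorem sub_eq : A ^ 2 - B2 = 2 * P.t * P.d2 * P.R A B2 := by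
  unfold Par.R
  have := h.two; have := P.ht; have := P.d2_ne
  field_simp

theorem A_sq : A ^ 2 = P.t * (P.d3 * P.V A B2 + P.d2 * P.R A B2) := by
  apply mul_left_cancel₀ h.two
  linear_combination h.add_eq + h.sub_eq

theorem B_eq : B2 = P.t * (P.d3 * P.V A B2 - P.d2 * P.R A B2) := by
  apply mul_left_cancel₀ h.two
  linear_combination h.add_eq - h.sub_eq

/-- `m₂ V² + m₃ R² = - d₁²` -/
theorem conic0 : P.p2 * P.d2 * P.V A B2 ^ 2 + P.p3 * P.d3 * P.R A B2 ^ 2 = -P.d1 ^ 2 := by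
  have h0 := h.k0
  have e : 4 * A ^ 2 * B2 = (A ^ 2 + B2) ^ 2 - (A ^ 2 - B2) ^ 2 := by ring
  rw [h.add_eq, h.sub_eq] at e
  rw [h.add_eq] at h0
  have h4 : (4 : Y) ≠ 0 := by
    have : (4 : Y) = 2 * 2 := by norm_num
    rw [this]; exact mul_ne_zero h.two h.two
  apply mul_left_cancel₀ (mul_ne_zero h4 (pow_ne_zero 2 (mul_ne_zero (mul_ne_zero P.ht P.d2_ne) P.d3_ne)))
  generalize P.V A B2 = V at *
  generalize P.R A B2 = R at *
  unfold Par.d1 Par.d2 Par.d3 at *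
  rw [P.p3_eq] at *
  linear_combination -h0 + ((-P.p1 - P.p2) * (P.p1 - P.p2) ^ 3) * e

theorem V_eq : P.V A B2 = (u + P.p1 * P.p2) * P.V' A B2 u := by
  unfold Par.V'; have := h.n3; field_simp

theorem R_eq : P.R A B2 = (u + P.p1 * P.p3) * P.R' A B2 u := by
  unfold Par.R'; have := h.n2; field_simp

theorem V'_sq : (P.p1 * P.d1) * (P.p2 * P.d2) * u * P.V' A B2 u ^ 2 = u - 2 * P.p3 ^ 2 := by
  have h0 := h.cub
  unfold Par.Xc at h0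
  rw [h.V_eq] at h0
  apply mul_left_cancel₀ (pow_ne_zero 2 h.n3)
  generalize P.V' A B2 u = V at *
  rw [P.p3_eq] at *
  linear_combination -h0

theorem R'_sq : (P.p1 * P.d1) * (P.p3 * P.d3) * u * P.R' A B2 u ^ 2 = 2 * P.p2 ^ 2 - u := by
  have h0 := h.cub
  have h1 := h.conic0
  unfold Par.Xc at h0
  rw [h.R_eq] at h1
  apply mul_left_cancel₀ (pow_ne_zero 2 h.n2)
  generalize P.R' A B2 u = R at *
  generalize P.V A B2 = V at *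
  unfold Par.d1 Par.d2 Par.d3 at *
  rw [P.p3_eq] at *
  linear_combination h0 + P.p1 * (P.p2 - (-P.p1 - P.p2)) * u * h1

theorem conic : P.z A B2 u * (P.al * P.V' A B2 u - P.be * P.R' A B2 u) = 1 := by
  have h1 := h.V'_sq; have h2 := h.R'_sq
  have h3 := P.al_sq; have h4 := P.be_sq
  unfold Par.z
  apply mul_left_cancel₀ (mul_ne_zero (mul_ne_zero P.h1 P.d1_ne) h.u_ne)
  generalize P.R' A B2 u = R at *
  generalize P.V' A B2 u = V at *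
  have h5 : P.p1 * P.d1 = P.p3 ^ 2 - P.p2 ^ 2 := by unfold Par.d1; rw [P.p3_eq]; ring
  linear_combination P.p1 * P.d1 * u * V ^ 2 * h3 - P.p1 * P.d1 * u * R ^ 2 * h4 -
    P.p2 ^ 2 * h1 - P.p3 ^ 2 * h2 - u * h5

theorem z_ne : P.z A B2 u ≠ 0 := left_ne_zero_of_mul (by rw [h.conic]; exact one_ne_zero)

theorem z_inv : (P.z A B2 u)⁻¹ = P.al * P.V' A B2 u - P.be * P.R' A B2 u :=
  inv_eq_of_mul_eq_one_right h.conic

theorem V'_z : 2 * P.al * P.V' A B2 u * P.z A B2 u = P.z A B2 u ^ 2 + 1 := by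
  have h1 := h.conic
  have h2 : P.z A B2 u = P.al * P.V' A B2 u + P.be * P.R' A B2 u := rfl
  linear_combination h1 - P.z A B2 u * h2

theorem R'_z : 2 * P.be * P.R' A B2 u * P.z A B2 u = P.z A B2 u ^ 2 - 1 := by
  have h1 := h.conic
  have h2 : P.z A B2 u = P.al * P.V' A B2 u + P.be * P.R' A B2 u := rfl
  linear_combination -h1 - P.z A B2 u * h2

theorem u_N : u * P.N (P.z A B2 u ^ 2) = 8 * P.p2 ^ 2 * P.p3 ^ 2 * P.z A B2 u ^ 2 := by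
  have h1 := h.V'_sq; have h2 := h.V'_z; have h3 := P.al_sq
  generalize P.V' A B2 u = V at *
  generalize P.z A B2 u = z at *
  have h4 : (z ^ 2 + 1) ^ 2 = 4 * (-P.p2 ^ 3 * P.d2) * V ^ 2 * z ^ 2 := by
    rw [← h2, ← h3]; ring
  unfold Par.N
  unfold Par.d1 Par.d2 at *
  rw [P.p3_eq] at *
  linear_combination P.p1 * (P.p2 - (-P.p1 - P.p2)) * u * h4 - 4 * P.p2 ^ 2 * z ^ 2 * h1

theorem N_ne : P.N (P.z A B2 u ^ 2) ≠ 0 := by
  intro h0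
  have := h.u_N
  rw [h0, mul_zero] at this
  have h8 : (8 : Y) ≠ 0 := by
    have : (8 : Y) = 2 * 2 * 2 := by norm_num
    rw [this]; exact mul_ne_zero (mul_ne_zero h.two h.two) h.two
  exact mul_ne_zero (mul_ne_zero (mul_ne_zero h8 (pow_ne_zero 2 P.h2)) (pow_ne_zero 2 P.h3))
    (pow_ne_zero 2 h.z_ne) this.symm

theorem a1_ne : P.z A B2 u ^ 2 - P.a1 ≠ 0 := by
  have := h.N_ne
  rw [P.N_eq] at this
  exact left_ne_zero_of_mul (right_ne_zero_of_mul this)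

theorem a2_ne : P.z A B2 u ^ 2 - P.a2 ≠ 0 := by
  have := h.N_ne
  rw [P.N_eq] at this
  exact right_ne_zero_of_mul (right_ne_zero_of_mul this)

theorem u_eq : u = 8 * P.p2 ^ 2 * P.p3 ^ 2 * P.z A B2 u ^ 2 / P.N (P.z A B2 u ^ 2) := by
  rw [eq_div_iff h.N_ne]; exact h.u_N

theorem V'_eq : P.V' A B2 u = (P.z A B2 u ^ 2 + 1) / (2 * P.al * P.z A B2 u) := by
  rw [eq_div_iff (mul_ne_zero (mul_ne_zero h.two P.al_ne) h.z_ne)]
  linear_combination h.V'_z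

theorem R'_eq : P.R' A B2 u = (P.z A B2 u ^ 2 - 1) / (2 * P.be * P.z A B2 u) := by
  rw [eq_div_iff (mul_ne_zero (mul_ne_zero h.two P.be_ne) h.z_ne)]
  linear_combination h.R'_z

/-- `A² z (Z - a₁) (Z - a₂) = c (Z - a₃) (Z - b)²` -/
theorem A_z : A ^ 2 * (P.z A B2 u * (P.z A B2 u ^ 2 - P.a1) * (P.z A B2 u ^ 2 - P.a2)) =
    P.c * (P.z A B2 u ^ 2 - P.a3) * (P.z A B2 u ^ 2 - P.b) ^ 2 := by
  have h1 := h.A_sq
  rw [h.V_eq, h.R_eq] at h1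
  have h2 := h.V'_z; have h3 := h.R'_z; have h4 := h.u_N
  have h5 := P.cubic (P.z A B2 u ^ 2)
  have h6 := P.N_eq (P.z A B2 u ^ 2)
  rw [P.c_eq, div_mul_eq_mul_div, div_mul_eq_mul_div,
    eq_div_iff (mul_ne_zero (mul_ne_zero h.two P.al_ne) P.be_ne)]
  apply mul_left_cancel₀ (mul_ne_zero P.h1 P.d1_ne)
  generalize P.V' A B2 u = V at *
  generalize P.R' A B2 u = R at *
  generalize P.z A B2 u = z at *
  generalize P.N (z ^ 2) = N at *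
  linear_combination P.t * h5 - A ^ 2 * z * 2 * P.al * P.be * h6 + 2 * P.al * P.be * z * N * h1 +
    P.t * P.be * P.d3 * (u + P.p1 * P.p2) * N * h2 + P.t * P.al * P.d2 * (u + P.p1 * P.p3) * N * h3 +
    P.t * (P.be * P.d3 * (z ^ 2 + 1) + P.al * P.d2 * (z ^ 2 - 1)) * h4

theorem w_sq (hb : P.z A B2 u ^ 2 - P.b ≠ 0) : P.w A B2 u ^ 2 =
    P.c * P.z A B2 u * (P.z A B2 u ^ 2 - P.a1) * (P.z A B2 u ^ 2 - P.a2) *
      (P.z A B2 u ^ 2 - P.a3) := by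
  have h1 := h.A_z
  unfold Par.w
  rw [div_pow, div_eq_iff (pow_ne_zero 2 hb)]
  generalize P.z A B2 u = z at *
  linear_combination z * (z ^ 2 - P.a1) * (z ^ 2 - P.a2) * h1

theorem A_eq (hb : P.z A B2 u ^ 2 - P.b ≠ 0) : A = P.w A B2 u * (P.z A B2 u ^ 2 - P.b) /
    (P.z A B2 u * (P.z A B2 u ^ 2 - P.a1) * (P.z A B2 u ^ 2 - P.a2)) := by
  have := h.z_ne; have := h.a1_ne; have := h.a2_ne
  unfold Par.w
  field_simp

end Eqs

end Crest.Agent.T15.Mo
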