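import Mathlib

/-!
# Row 15, block Ht: Mumford pairs and Cantor's algorithm (helper4)
-/

set_option autoImplicit false

open Polynomial

noncomputable section

namespace Crest.Agent.T15.Mum

section Cantor

variable {k : Type*} [Field k]

/-- reduced Mumford pair -/
structure Red (F : k[X]) (g : ℕ) (u v : k[X]) : Prop where
  monic : u.Monic
  deg : u.natDegree ≤ g
  lt : v.degree < u.degree
  dvd : u ∣ F - v ^ 2

lemma natDegree_sub_sq {F : k[X]} {g : ℕ} (hF : F.natDegree = 2 * g + 1) (v : k[X]) :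
    (F - v ^ 2).natDegree = max (2 * g + 1) (2 * v.natDegree) := by
  have h : (v ^ 2).natDegree = 2 * v.natDegree := natDegree_pow v 2
  rcases lt_or_gt_of_ne (show 2 * g + 1 ≠ 2 * v.natDegree by omega) with h1 | h1
  · rw [natDegree_sub_eq_right_of_natDegree_lt (by omega), h, max_eq_right h1.le]
  · rw [natDegree_sub_eq_left_of_natDegree_lt (by omega), hF, max_eq_left h1.le]

lemma sub_sq_ne_zero {F : k[X]} {g : ℕ} (hF : F.natDegree = 2 * g + 1) (v : k[X]) :
    F - v ^ 2 ≠ 0 := by
  intro h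
  have := natDegree_sub_sq hF v
  rw [h, natDegree_zero] at this
  omega

/-- closure rules -/
structure Rules (F : k[X]) (Pr : k[X] → k[X] → Multiset (k × k) → Prop) : Prop where
  r0 : Pr 1 0 0
  r1 : ∀ u v v' D, u.Monic → u ∣ v' - v → Pr u v D → Pr u v' D
  r2 : ∀ u v D x, u.Monic → Pr u v D → Pr ((X - C x) * u) v ((x, v.eval x) ::ₘ D)
  r3 : ∀ u v D x w, u.Monic → w ^ 2 = F.eval x → v.eval x = -w → Pr ((X - C x) * u) v D →
    Pr u v ((x, w) ::ₘ D)
  r4 : ∀ u u' v c D, u.Monic → u'.Monic → c ≠ 0 → u * u' = C c * (F - v ^ 2) → Pr u v D →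
    Pr u' (-v) D

variable {F : k[X]} {g : ℕ} {Pr : k[X] → k[X] → Multiset (k × k) → Prop}

lemma Rules.reduce (h : Rules F Pr) (hF : F.natDegree = 2 * g + 1) (D : Multiset (k × k)) :
    ∀ (n : ℕ) (u v : k[X]), u.natDegree = n → u.Monic → u ∣ F - v ^ 2 → Pr u v D →
      ∃ u v, Red F g u v ∧ Pr u v D := by
  intro n
  induction n using Nat.strong_induction_on with
  | _ n ih =>
    intro u v hn hu hd hP
    have h1 : u ∣ v %ₘ u - v := by
      rw [modByMonic_eq_sub_mul_div]; simp
    have hP' := h.r1 u v _ D hu h1 hP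
    have hlt := degree_modByMonic_lt v hu
    set v' := v %ₘ u with hv'
    have hd' : u ∣ F - v' ^ 2 := by
      have : F - v' ^ 2 = (F - v ^ 2) - (v' - v) * (v' + v) := by ring
      rw [this]
      exact dvd_sub hd (h1.mul_right _)
    by_cases hg : u.natDegree ≤ g
    · exact ⟨u, v', ⟨hu, hg, hlt, hd'⟩, hP'⟩
    · obtain ⟨t, ht⟩ := hd'
      have ht0 : t ≠ 0 := by
        rintro rfl
        exact sub_sq_ne_zero hF v' (by simpa using ht)
      have hm : (t * C (leadingCoeff t)⁻¹).Monic := monic_mul_leadingCoeff_inv ht0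
      have hc : (leadingCoeff t)⁻¹ ≠ 0 := inv_ne_zero (leadingCoeff_ne_zero.2 ht0)
      have he : u * (t * C (leadingCoeff t)⁻¹) = C (leadingCoeff t)⁻¹ * (F - v' ^ 2) := by
        rw [ht]; ring
      have hdeg : (t * C (leadingCoeff t)⁻¹).natDegree < n := by
        have e1 := congrArg natDegree he
        rw [hu.natDegree_mul hm, natDegree_C_mul hc, natDegree_sub_sq hF] at e1
        have e2 : v'.natDegree < u.natDegree := by
          by_cases h0 : v' = 0
          · rw [h0, natDegree_zero]; omega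
          · exact natDegree_lt_natDegree h0 hlt
        omega
      refine ih _ hdeg _ (-v') rfl hm ?_ (h.r4 u _ v' _ D hu hm hc he hP')
      refine ⟨C (leadingCoeff t) * u, ?_⟩
      rw [neg_sq, ht]
      have : C (leadingCoeff t)⁻¹ * C (leadingCoeff t) = (1 : k[X]) := by
        rw [← C_mul, inv_mul_cancel₀ (leadingCoeff_ne_zero.2 ht0), C_1]
      linear_combination (-t * u) * this

lemma Rules.add (h : Rules F Pr) {u v : k[X]} {D : Multiset (k × k)} (hu : u.Monic)
    (hd : u ∣ F - v ^ 2) (hP : Pr u v D) {x w : k} (hw : w ^ 2 = F.eval x) :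
    ∃ u v, u.Monic ∧ u ∣ F - v ^ 2 ∧ Pr u v ((x, w) ::ₘ D) := by
  obtain ⟨t, ht⟩ := hd
  have hev : F.eval x - v.eval x ^ 2 = u.eval x * t.eval x := by
    simpa using congrArg (eval x) ht
  have key : ∀ c : k, v.eval x + c * u.eval x = w →
      t.eval x - 2 * c * v.eval x - c ^ 2 * u.eval x = 0 →
      ∃ u v, u.Monic ∧ u ∣ F - v ^ 2 ∧ Pr u v ((x, w) ::ₘ D) := by
    intro c h1 h2
    have hP' := h.r2 u (v + C c * u) D x hu (h.r1 u v _ D hu (by simp) hP)
    refine ⟨(X - C x) * u, v + C c * u, (monic_X_sub_C x).mul hu, ?_, by simpa [h1] using hP'⟩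
    have h3 : X - C x ∣ t - 2 * C c * v - C c ^ 2 * u := dvd_iff_isRoot.2 (by simpa using h2)
    have : F - (v + C c * u) ^ 2 = (t - 2 * C c * v - C c ^ 2 * u) * u := by
      linear_combination ht
    rw [this]
    exact mul_dvd_mul_right h3 u
  by_cases h0 : u.eval x = 0
  · by_cases h1 : v.eval x = -w
    · obtain ⟨u', rfl⟩ := dvd_iff_isRoot.2 h0
      have hu' : u'.Monic := (monic_X_sub_C x).of_mul_monic_left hu
      exact ⟨u', v, hu', ⟨(X - C x) * t, by rw [ht]; ring⟩, h.r3 u' v D x w hu' hw h1 hP⟩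
    · have h2 : v.eval x = w := by
        have : (v.eval x - w) * (v.eval x + w) = 0 := by
          rw [h0] at hev; linear_combination -hev - hw
        rcases mul_eq_zero.1 this with h | h
        · exact sub_eq_zero.1 h
        · exact absurd (eq_neg_of_add_eq_zero_left h) h1
      have h3 : 2 * w ≠ 0 := fun h => h1 (by rw [h2]; linear_combination h)
      refine key (t.eval x / (2 * w)) (by rw [h0, h2]; ring) ?_
      rw [h0, h2]
      have := div_mul_cancel₀ (t.eval x) h3
      linear_combination -this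
  · refine key ((w - v.eval x) / u.eval x) (by field_simp; ring) ?_
    refine mul_left_cancel₀ h0 ?_
    field_simp
    linear_combination -hev - hw

/-- **Cantor's algorithm** -/
theorem Rules.cantor (h : Rules F Pr) (hF : F.natDegree = 2 * g + 1) (D : Multiset (k × k))
    (hD : ∀ p ∈ D, p.2 ^ 2 = F.eval p.1) : ∃ u v, Red F g u v ∧ Pr u v D := by
  induction D using Multiset.induction_on with
  | empty => exact ⟨1, 0, ⟨monic_one, by simp, by simp, one_dvd _⟩, h.r0⟩
  | cons p D ih =>
    obtain ⟨u, v, hr, hP⟩ := ih fun q hq => hD q (Multiset.mem_cons_of_mem hq)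
    obtain ⟨u', v', h1, h2, h3⟩ := h.add hr.monic hr.dvd hP (hD p (Multiset.mem_cons_self _ _))
    exact h.reduce hF _ _ u' v' rfl h1 h2 h3

end Cantor

section Cls

variable {k : Type*} [Field k] {A : Type*} [AddCommGroup A]

/-- the points of a Mumford pair -/
def pts (u v : k[X]) : Multiset (k × k) := u.roots.map fun a => (a, v.eval a)

/-- the class of a Mumford pair -/
def Phi (cl : k × k → A) (u v : k[X]) : A := ((pts u v).map cl).sum

/-- the involution -/
def conj (p : k × k) : k × k := (p.1, -p.2)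

/-- what is used about the group of classes; `cl P` is the class of `P - ∞` -/
structure Cls (F : k[X]) (g : ℕ) (cl : k × k → A) : Prop where
  deg : F.natDegree = 2 * g + 1
  sep : F.Separable
  two : (2 : k) ≠ 0
  a1 : ∀ v, Phi cl (F - v ^ 2) v = 0
  a2 : ∀ x w, w ^ 2 = F.eval x → cl (x, w) + cl (x, -w) = 0
  a3 : ∀ D : Multiset (k × k), (∀ p ∈ D, p.2 ^ 2 = F.eval p.1) → D.card ≤ 2 * g →
    (D.map cl).sum = 0 → ∃ E : Multiset (k × k), D = E + E.map conj

variable {F : k[X]} {g : ℕ} {cl : k × k → A}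

lemma pts_congr {u v v' : k[X]} (h : u ∣ v' - v) : pts u v' = pts u v := by
  refine Multiset.map_congr rfl fun a ha => ?_
  have := eval_eq_zero_of_dvd_of_eval_eq_zero h (isRoot_of_mem_roots ha)
  rw [eval_sub, sub_eq_zero] at this
  rw [this]

lemma pts_mul {u u' : k[X]} (h : u * u' ≠ 0) (v : k[X]) : pts (u * u') v = pts u v + pts u' v := by
  rw [pts, roots_mul h, Multiset.map_add]; rfl

lemma pts_on {u v : k[X]} (h : u ∣ F - v ^ 2) : ∀ p ∈ pts u v, p.2 ^ 2 = F.eval p.1 := by
  intro p hp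
  obtain ⟨a, ha, rfl⟩ := Multiset.mem_map.1 hp
  have := eval_eq_zero_of_dvd_of_eval_eq_zero h (isRoot_of_mem_roots ha)
  simp only [eval_sub, eval_pow] at this
  exact (sub_eq_zero.1 this).symm

lemma pts_neg (u v : k[X]) : pts u (-v) = (pts u v).map conj := by
  simp [pts, conj]

lemma Phi_congr {u v v' : k[X]} (h : u ∣ v' - v) : Phi cl u v' = Phi cl u v := by
  rw [Phi, pts_congr h, Phi]

lemma Phi_mul {u u' : k[X]} (h : u * u' ≠ 0) (v : k[X]) :
    Phi cl (u * u') v = Phi cl u v + Phi cl u' v := by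
  rw [Phi, pts_mul h, Multiset.map_add, Multiset.sum_add]; rfl

lemma Phi_lin (x : k) (v : k[X]) : Phi cl (X - C x) v = cl (x, v.eval x) := by
  simp [Phi, pts]

lemma Phi_C (c : k) (v : k[X]) : Phi cl (C c) v = 0 := by
  simp [Phi, pts]

lemma Cls.sum_conj (h : Cls F g cl) {D : Multiset (k × k)} (hD : ∀ p ∈ D, p.2 ^ 2 = F.eval p.1) :
    ((D.map conj).map cl).sum = -(D.map cl).sum := by
  rw [eq_neg_iff_add_eq_zero, Multiset.map_map, ← Multiset.sum_map_add]
  refine Multiset.sum_eq_zero fun a ha => ?_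
  obtain ⟨p, hp, rfl⟩ := Multiset.mem_map.1 ha
  rw [add_comm]
  exact h.a2 p.1 p.2 (hD p hp)

lemma Cls.Phi_flip (h : Cls F g cl) {u u' v : k[X]} {c : k} (hc : c ≠ 0)
    (he : u * u' = C c * (F - v ^ 2)) : Phi cl u' (-v) = Phi cl u v := by
  have h0 : C c * (F - v ^ 2) ≠ 0 := mul_ne_zero (C_ne_zero.2 hc) (sub_sq_ne_zero h.deg v)
  have h1 : Phi cl u v + Phi cl u' v = 0 := by
    rw [← Phi_mul (he ▸ h0), he, Phi_mul h0, Phi_C, h.a1, add_zero]
  have h2 : u' ∣ F - v ^ 2 := by
    refine ⟨C c⁻¹ * u, ?_⟩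
    have : C c⁻¹ * C c = (1 : k[X]) := by rw [← C_mul, inv_mul_cancel₀ hc, C_1]
    linear_combination (-C c⁻¹) * he - (F - v ^ 2) * this
  rw [Phi, pts_neg, h.sum_conj (pts_on h2)]
  exact (eq_neg_of_add_eq_zero_left h1).symm

lemma Cls.rules (h : Cls F g cl) : Rules F fun u v D => Phi cl u v = (D.map cl).sum where
  r0 := by simpa using Phi_C (cl := cl) 1 0
  r1 u v v' D _ hd hP := by rw [Phi_congr hd, hP]
  r2 u v D x hu hP := by
    rw [Phi_mul ((monic_X_sub_C x).mul hu).ne_zero, Phi_lin, hP]; simp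
  r3 u v D x w hu hw hv hP := by
    rw [Phi_mul ((monic_X_sub_C x).mul hu).ne_zero, Phi_lin, hv] at hP
    rw [Multiset.map_cons, Multiset.sum_cons, ← hP, ← add_assoc, h.a2 x w hw, zero_add]
  r4 u u' v c D _ _ hc he hP := by rw [h.Phi_flip hc he, hP]

/-- a point and its conjugate in a Mumford pair: Weierstrass point of multiplicity one -/
lemma Cls.count_le (h : Cls F g cl) [DecidableEq k] {u v : k[X]} (hu : u ≠ 0) (hd : u ∣ F - v ^ 2)
    {p : k × k} (hp : p.2 = 0) : (pts u v).count p ≤ 1 := by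
  by_contra hc
  have hm : p ∈ pts u v := Multiset.one_le_count_iff_mem.1 (by omega)
  obtain ⟨a, ha, rfl⟩ := Multiset.mem_map.1 hm
  have hi : Function.Injective fun a : k => (a, v.eval a) := fun a b h => congrArg Prod.fst h
  rw [pts, Multiset.count_map_eq_count' _ _ hi, count_roots] at hc
  have h1 : (X - C a) ^ 2 ∣ u := (le_rootMultiplicity_iff hu).1 (by omega)
  have h2 : (X - C a) ^ 2 ∣ v ^ 2 := pow_dvd_pow_of_dvd (dvd_iff_isRoot.2 hp) 2
  have h3 : (X - C a) * (X - C a) ∣ F := by
    have := dvd_add (h1.trans hd) h2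
    rwa [sub_add_cancel, sq] at this
  exact not_isUnit_X_sub_C a (h.sep.squarefree _ h3)

lemma Cls.count_conj (h : Cls F g cl) [DecidableEq k] {u v : k[X]} {p : k × k} (hp : p.2 ≠ 0)
    (h1 : p ∈ pts u v) : conj p ∉ pts u v := by
  intro h2
  obtain ⟨a, -, rfl⟩ := Multiset.mem_map.1 h1
  obtain ⟨b, -, hb⟩ := Multiset.mem_map.1 h2
  simp only [conj, Prod.mk.injEq] at hb
  obtain ⟨rfl, hb⟩ := hb
  exact mul_ne_zero h.two hp (by linear_combination hb)

lemma conj_conj (p : k × k) : conj (conj p) = p := by simp [conj]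

lemma count_map_conj [DecidableEq k] (D : Multiset (k × k)) (p : k × k) :
    (D.map conj).count p = D.count (conj p) := by
  have hi : Function.Injective (conj : k × k → k × k) := Function.LeftInverse.injective conj_conj
  conv_lhs => rw [← conj_conj p]
  exact Multiset.count_map_eq_count' _ _ hi _

lemma card_pts_le (u v : k[X]) : (pts u v).card ≤ u.natDegree := by
  rw [pts, Multiset.card_map]; exact card_roots' u

lemma Cls.pts_eq (h : Cls F g cl) {u v u' v' : k[X]} (r : Red F g u v) (r' : Red F g u' v')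
    (e : Phi cl u v = Phi cl u' v') : pts u v = pts u' v' := by
  classical
  obtain ⟨E, hE⟩ := h.a3 (pts u v + (pts u' v').map conj) (by
    intro p hp
    rcases Multiset.mem_add.1 hp with hp | hp
    · exact pts_on r.dvd p hp
    · obtain ⟨q, hq, rfl⟩ := Multiset.mem_map.1 hp
      simpa [conj] using pts_on r'.dvd q hq) (by
    have := (card_pts_le u v).trans r.deg
    have := (card_pts_le u' v').trans r'.deg
    rw [Multiset.card_add, Multiset.card_map]
    omega) (by
    rw [Multiset.map_add, Multiset.sum_add, h.sum_conj (pts_on r'.dvd)]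
    exact add_neg_eq_zero.2 e)
  ext p
  have e1 := congrArg (Multiset.count p) hE
  have e2 := congrArg (Multiset.count (conj p)) hE
  simp only [Multiset.count_add, count_map_conj, conj_conj] at e1 e2
  by_cases hp : p.2 = 0
  · have e3 : conj p = p := by rw [conj, hp, neg_zero, ← hp]
    rw [e3] at e1
    have := h.count_le r.monic.ne_zero r.dvd hp
    have := h.count_le r'.monic.ne_zero r'.dvd hp
    omega
  · have c1 : (pts u v).count p = 0 ∨ (pts u v).count (conj p) = 0 := by
      simp only [Multiset.count_eq_zero]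
      by_cases h1 : p ∈ pts u v
      · exact Or.inr (h.count_conj hp h1)
      · exact Or.inl h1
    have c2 : (pts u' v').count p = 0 ∨ (pts u' v').count (conj p) = 0 := by
      simp only [Multiset.count_eq_zero]
      by_cases h1 : p ∈ pts u' v'
      · exact Or.inr (h.count_conj hp h1)
      · exact Or.inl h1
    omega

/-- **uniqueness of the reduced pair** -/
theorem Cls.unique [IsAlgClosed k] (h : Cls F g cl) {u v u' v' : k[X]} (r : Red F g u v)
    (r' : Red F g u' v') (e : Phi cl u v = Phi cl u' v') : u = u' ∧ v = v' := by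
  classical
  have hp := h.pts_eq r r' e
  have h1 : u.roots = u'.roots := by
    have := congrArg (Multiset.map Prod.fst) hp
    simpa [pts] using this
  have h2 : u = u' := by
    rw [(IsAlgClosed.splits u).eq_prod_roots_of_monic r.monic,
      (IsAlgClosed.splits u').eq_prod_roots_of_monic r'.monic, h1]
  subst h2
  refine ⟨rfl, ?_⟩
  by_contra hne
  have hne' : v - v' ≠ 0 := sub_ne_zero.2 hne
  have h3 : ∀ a ∈ u.roots, v'.eval a = v.eval a := by
    intro a ha
    have : (a, v.eval a) ∈ pts u v' := hp ▸ Multiset.mem_map_of_mem _ ha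
    obtain ⟨b, -, hb⟩ := Multiset.mem_map.1 this
    simp only [Prod.mk.injEq] at hb
    obtain ⟨rfl, hb⟩ := hb
    exact hb
  have h4 : u ∣ (v - v') * (v + v') := by
    have := dvd_sub r'.dvd r.dvd
    rwa [show F - v' ^ 2 - (F - v ^ 2) = (v - v') * (v + v') by ring] at this
  have h5 : u ∣ v - v' := by
    refine (IsAlgClosed.splits u).dvd_of_roots_le_roots r.monic.ne_zero ?_
    rw [Multiset.le_iff_count]
    intro a
    by_cases ha : a ∈ u.roots
    · rw [count_roots, count_roots, le_rootMultiplicity_iff hne']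
      have hr : X - C a ∣ v - v' := dvd_iff_isRoot.2 (by simp [h3 a ha])
      by_cases h0 : v.eval a = 0
      · have hi : Function.Injective fun a : k => (a, v.eval a) :=
          fun a b h => congrArg Prod.fst h
        have := h.count_le r.monic.ne_zero r.dvd (p := (a, v.eval a)) h0
        rw [pts, Multiset.count_map_eq_count' _ _ hi, count_roots] at this
        exact (pow_dvd_pow _ this).trans (by simpa using hr)
      · have hc : IsCoprime (X - C a) (v + v') := by
          refine (irreducible_X_sub_C a).coprime_iff_not_dvd.2 fun hd => ?_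
          have := dvd_iff_isRoot.1 hd
          simp only [IsRoot.def, eval_add, h3 a ha] at this
          exact mul_ne_zero h.two h0 (by linear_combination this)
        exact hc.pow_left.dvd_of_dvd_mul_right ((pow_rootMultiplicity_dvd u a).trans h4)
    · simp [Multiset.count_eq_zero.2 ha]
  exact hne' (eq_zero_of_dvd_of_degree_lt h5 ((degree_sub_le _ _).trans_lt (max_lt r.lt r'.lt)))

open Classical in
/-- the reduced pair of a class -/
def mum (F : k[X]) (g : ℕ) (cl : k × k → A) (a : A) : k[X] × k[X] :=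
  if h : ∃ p : k[X] × k[X], Red F g p.1 p.2 ∧ Phi cl p.1 p.2 = a then h.choose else (0, 0)

theorem Cls.mum_eq [IsAlgClosed k] (h : Cls F g cl) {u v : k[X]} (r : Red F g u v) {a : A}
    (e : Phi cl u v = a) : mum F g cl a = (u, v) := by
  have hex : ∃ p : k[X] × k[X], Red F g p.1 p.2 ∧ Phi cl p.1 p.2 = a := ⟨(u, v), r, e⟩
  rw [mum, dif_pos hex]
  obtain ⟨h1, h2⟩ := h.unique hex.choose_spec.1 r (hex.choose_spec.2.trans e.symm)
  exact Prod.ext h1 h2

/-- sums of points -/
def IsSum (F : k[X]) (cl : k × k → A) (a : A) : Prop :=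
  ∃ D : Multiset (k × k), (∀ p ∈ D, p.2 ^ 2 = F.eval p.1) ∧ (D.map cl).sum = a

theorem Cls.mum_spec [IsAlgClosed k] (h : Cls F g cl) {a : A} (ha : IsSum F cl a) :
    Red F g (mum F g cl a).1 (mum F g cl a).2 ∧ Phi cl (mum F g cl a).1 (mum F g cl a).2 = a := by
  obtain ⟨D, hD, rfl⟩ := ha
  obtain ⟨u, v, r, e⟩ := h.rules.cantor h.deg D hD
  rw [h.mum_eq r e]
  exact ⟨r, e⟩

theorem Cls.mum_inj [IsAlgClosed k] (h : Cls F g cl) {a b : A} (ha : IsSum F cl a)
    (hb : IsSum F cl b) (e : mum F g cl a = mum F g cl b) : a = b := by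
  rw [← (h.mum_spec ha).2, ← (h.mum_spec hb).2, e]

lemma IsSum.add {a b : A} (ha : IsSum F cl a) (hb : IsSum F cl b) : IsSum F cl (a + b) := by
  obtain ⟨D, hD, rfl⟩ := ha
  obtain ⟨E, hE, rfl⟩ := hb
  refine ⟨D + E, fun p hp => ?_, by simp⟩
  rcases Multiset.mem_add.1 hp with hp | hp
  exacts [hD p hp, hE p hp]

lemma IsSum.neg (h : Cls F g cl) {a : A} (ha : IsSum F cl a) : IsSum F cl (-a) := by
  obtain ⟨D, hD, rfl⟩ := ha
  refine ⟨D.map conj, fun p hp => ?_, h.sum_conj hD⟩
  obtain ⟨q, hq, rfl⟩ := Multiset.mem_map.1 hp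
  simpa [conj] using hD q hq

lemma IsSum.zero : IsSum F cl 0 := ⟨0, by simp, by simp⟩

lemma IsSum.nsmul {a : A} (ha : IsSum F cl a) (n : ℕ) : IsSum F cl (n • a) := by
  induction n with
  | zero => simpa using IsSum.zero
  | succ n ih => rw [succ_nsmul]; exact ih.add ha

lemma IsSum.sum {ι : Type*} [Fintype ι] {P : ι → k × k} (hP : ∀ i, (P i).2 ^ 2 = F.eval (P i).1) :
    IsSum F cl (∑ i, cl (P i)) := by
  refine ⟨Finset.univ.val.map P, fun p hp => ?_, by rw [Multiset.map_map]; rfl⟩
  obtain ⟨i, -, rfl⟩ := Multiset.mem_map.1 hp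
  exact hP i

/-- `g` points with distinct abscissae -/
theorem Cls.mum_sum [IsAlgClosed k] [DecidableEq k] (h : Cls F g cl) {ι : Type*} [Fintype ι]
    [DecidableEq ι] (hc : Fintype.card ι ≤ g) {x w : ι → k} (hx : Function.Injective x)
    (hw : ∀ i, w i ^ 2 = F.eval (x i)) :
    mum F g cl (∑ i, cl (x i, w i)) =
      (∏ i, (X - C (x i)), Lagrange.interpolate Finset.univ x w) := by
  have hm : (∏ i, (X - C (x i))).Monic := monic_prod_of_monic _ _ fun i _ => monic_X_sub_C _
  have hd : (∏ i, (X - C (x i))).natDegree = Fintype.card ι := by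
    rw [natDegree_prod_of_monic _ _ fun i _ => monic_X_sub_C _]; simp
  have hv : ∀ i, (Lagrange.interpolate Finset.univ x w).eval (x i) = w i := fun i =>
    Lagrange.eval_interpolate_at_node w hx.injOn (Finset.mem_univ i)
  refine h.mum_eq ⟨hm, hd ▸ hc, ?_, ?_⟩ ?_
  · rw [degree_eq_natDegree hm.ne_zero, hd]
    exact Lagrange.degree_interpolate_lt w hx.injOn
  · refine Finset.prod_dvd_of_coprime (fun i _ j _ hij => pairwise_coprime_X_sub_C hx hij) ?_
    intro i _
    exact dvd_iff_isRoot.2 (by rw [IsRoot.def, eval_sub, eval_pow, hv, hw, sub_self])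
  · have : (∏ i, (X - C (x i))).roots = Finset.univ.val.map x := by
      rw [← roots_multiset_prod_X_sub_C (Finset.univ.val.map x), Multiset.map_map]; rfl
    rw [Phi, pts, this, Multiset.map_map, Multiset.map_map]
    simp only [Function.comp_apply, hv]
    rfl

end Cls

end Crest.Agent.T15.Mum
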