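import Crest.Agent.T15.Sc3M_89

/-!
# Row 15, block Ht: the scalar bound for the family (words of helper50 / helper29 / helper70)

`p1 + p2 + p3 = 0`, `d1 = p2 - p3`, `d2 = p3 - p1`, `d3 = p1 - p2`, `p1 p2 p3 d1 d2 d3 = D t^2`,
`al^2 = -p2^3 d2`, `be^2 = p3^3 d3`, `om1 = kap z dz / w`, `kap = -4 (al p3 - be p2)`.
-/

set_option autoImplicit false

namespace Crest.Agent.T15.Sc3

open Polynomial

section alg

variable {K : Type*} [Field K] [CharZero K]

/-- the constants of the normal form -/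
structure Nf (p1 p2 p3 D t al be c a1 a2 a3 : K) : Prop where
  sum : p1 + p2 + p3 = 0
  prod : p1 * p2 * p3 * (p2 - p3) * (p3 - p1) * (p1 - p2) = D * t ^ 2
  ne : D * t ^ 2 ≠ 0
  hal : al ^ 2 = -(p2 ^ 3 * (p3 - p1))
  hbe : be ^ 2 = p3 ^ 3 * (p1 - p2)
  hc : c = t * p1 * ((p1 - p2) * p2 / al + (p3 - p1) * p3 / be) / 2
  h1 : a1 = -p1 / (p2 - p3)
  h2 : a2 = -(p2 - p3) / p1
  h3 : a3 = (al + be) ^ 2 / (p1 ^ 3 * (p2 - p3))

/-- `kap = -4 (al p3 - be p2)` -/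
def kap (p2 p3 al be : K) : K := -4 * (al * p3 - be * p2)

variable {p1 p2 p3 D t al be c a1 a2 a3 : K}

theorem Nf.T_eq (h : Nf p1 p2 p3 D t al be c a1 a2 a3) :
    T1 c a1 a2 a3 = -(kap p2 p3 al be ^ 4 / (64 * D * (p2 * p3) ^ 2)) ∧
    T2 c a1 a2 a3 = kap p2 p3 al be ^ 4 / (64 * D * (p1 ^ 2 * (p2 * p3))) := by
  obtain ⟨hs, hp, hn, hal, hbe, hc, h1, h2, h3⟩ := h
  have hn' := hp ▸ hn
  have n1 : p1 ≠ 0 := fun h => hn' (by simp [h])
  have n2 : p2 ≠ 0 := fun h => hn' (by simp [h])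
  have n3 : p3 ≠ 0 := fun h => hn' (by simp [h])
  have m1 : p2 - p3 ≠ 0 := fun h => hn' (by simp [h])
  have m2 : p3 - p1 ≠ 0 := fun h => hn' (by simp [h])
  have m3 : p1 - p2 ≠ 0 := fun h => hn' (by simp [h])
  have nD : D ≠ 0 := left_ne_zero_of_mul hn
  have nt : t ≠ 0 := fun h => hn (by simp [h])
  have na : al ≠ 0 := fun h => by
    have : p2 ^ 3 * (p3 - p1) = 0 := by rw [h] at hal; linear_combination hal
    exact mul_ne_zero (pow_ne_zero 3 n2) m2 this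
  have nb : be ≠ 0 := fun h => by
    have : p3 ^ 3 * (p1 - p2) = 0 := by rw [h] at hbe; linear_combination -hbe
    exact mul_ne_zero (pow_ne_zero 3 n3) m3 this
  have e1 : p1 = -p2 - p3 := by linear_combination hs
  set E := 2 * (al * be) + p2 * p3 * (p1 ^ 2 + 2 * (p2 * p3)) with hE
  have I1 : (be * (p1 - p2) * p2 + al * (p3 - p1) * p3) * (al + be) = p1 * (p2 - p3) * E := by
    rw [hE]; rw [e1] at hal hbe ⊢
    linear_combination (p3 - (-p2 - p3)) * p3 * hal + (-p2 - p3 - p2) * p2 * hbe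
  have I2 : kap p2 p3 al be ^ 2 = -16 * (p2 * p3) * E := by
    rw [hE, kap]; rw [e1] at hal hbe ⊢
    linear_combination 16 * p3 ^ 2 * hal + 16 * p2 ^ 2 * hbe
  have I3 : (al * be) ^ 2 = -(p2 ^ 3 * p3 ^ 3 * ((p3 - p1) * (p1 - p2))) := by
    rw [mul_pow, hal, hbe]; ring
  have I4 : (al + be) * (al - be) = p1 ^ 3 * (p2 - p3) := by
    rw [e1] at hal hbe ⊢
    linear_combination hal - hbe
  have nab : al + be ≠ 0 := fun h => by
    rw [h, zero_mul] at I4; exact mul_ne_zero (pow_ne_zero 3 n1) m1 I4.symm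
  have I5 : kap p2 p3 al be ^ 4 = 256 * (p2 * p3) ^ 2 * E ^ 2 := by
    calc _ = (kap p2 p3 al be ^ 2) ^ 2 := by ring
      _ = _ := by rw [I2]; ring
  have hD : D = p1 * p2 * p3 * (p2 - p3) * (p3 - p1) * (p1 - p2) / t ^ 2 := by
    rw [hp]; field_simp
  have c1 : c * (al + be) = t * p1 * (p1 * (p2 - p3) * E) / (2 * (al * be)) := by
    rw [← I1, hc]; field_simp
  have c2 : c ^ 2 * (al + be) ^ 2 = -(t ^ 2 * p1 ^ 4 * (p2 - p3) ^ 2 * E ^ 2 /
      (4 * (p2 ^ 3 * p3 ^ 3 * ((p3 - p1) * (p1 - p2))))) := by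
    rw [← mul_pow, c1, div_pow, mul_pow 2, I3]; field_simp; ring
  have d12 : a1 - a2 = -4 * (p2 * p3) / (p1 * (p2 - p3)) := by
    rw [h1, h2]; field_simp; rw [e1]; ring
  have d3 : (a1 - a3) * (a2 - a3) =
      4 * (p2 * p3) ^ 2 * (al + be) ^ 2 / (p1 ^ 6 * (p2 - p3) ^ 2) := by
    have x1 : a1 - a3 = (al + be) * (2 * p3 * al - 2 * p2 * be) / (p1 ^ 3 * (p2 - p3) ^ 2) := by
      rw [h1, h3]; field_simp
      linear_combination p1 * I4 + (al + be) * (be - al) * hs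
    have x2 : a2 - a3 = (al + be) * (2 * p3 * al + 2 * p2 * be) / (p1 ^ 4 * (p2 - p3)) := by
      rw [h2, h3]; field_simp
      linear_combination (p2 - p3) * I4 - (al + be) * (al + be) * hs
    have x3 : (2 * p3 * al - 2 * p2 * be) * (2 * p3 * al + 2 * p2 * be) =
        4 * (p2 * p3) ^ 2 * (p1 * (p2 - p3)) := by
      rw [e1] at hal hbe ⊢
      linear_combination 4 * p3 ^ 2 * hal - 4 * p2 ^ 2 * hbe
    rw [x1, x2, div_mul_div_comm, mul_mul_mul_comm, x3]; field_simp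
  constructor
  · have : T1 c a1 a2 a3 = c ^ 2 * (al + be) ^ 2 * (a1 - a2) ^ 2 / (p1 ^ 3 * (p2 - p3)) := by
      rw [T1, h3]; ring
    rw [this, c2, d12, I5, hD]; field_simp; ring
  · have : T2 c a1 a2 a3 = c ^ 2 * (al + be) ^ 2 * (a1 - a2) *
        (4 * (p2 * p3) ^ 2 / (p1 ^ 6 * (p2 - p3) ^ 2)) := by
      rw [T2, mul_assoc (a1 - a2), d3]; ring
    rw [this, c2, d12, I5, hD]; field_simp; ring

end alg

section int

variable {K Γ : Type*} [Field K] [LinearOrderedCommGroupWithZero Γ] (w : Valuation K Γ)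

theorem w_int_le (n : ℤ) : w (n : K) ≤ 1 := by
  obtain ⟨m, rfl | rfl⟩ := n.eq_nat_or_neg
  · simpa using w_nat_le w m
  · simpa using w_nat_le w m

theorem w_eq_one_or {a b : ℤ} (h : IsCoprime a b) : w (a : K) = 1 ∨ w (b : K) = 1 := by
  by_contra hn
  obtain ⟨ha, hb⟩ := not_or.1 hn
  obtain ⟨x, y, e⟩ := h
  have h1 : w ((x : K) * a) < 1 := by
    rw [map_mul]
    exact (mul_le_of_le_one_left' (w_int_le w x)).trans_lt ((w_int_le w a).lt_of_ne ha)
  have h2 : w ((y : K) * b) < 1 := by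
    rw [map_mul]
    exact (mul_le_of_le_one_left' (w_int_le w y)).trans_lt ((w_int_le w b).lt_of_ne hb)
  have := (w.map_add _ _).trans_lt (max_lt h1 h2)
  have e' : (x : K) * a + (y : K) * b = 1 := by exact_mod_cast congrArg (Int.cast : ℤ → K) e
  rw [e', map_one] at this
  exact lt_irrefl _ this

variable [CharZero K]

/-- the two bounds `T1`, `T2` combine for coprime integers -/
theorem Nf.comb {p1 p2 p3 : ℤ} {D t al be c a1 a2 a3 g : K}
    (h : Nf (p1 : K) p2 p3 D t al be c a1 a2 a3) (hcop : IsCoprime p1 (p2 * p3))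
    (h1 : w ((1944 * g) ^ 4 * T1 c a1 a2 a3) ≤ 1) (h2 : w ((1944 * g) ^ 4 * T2 c a1 a2 a3) ≤ 1) :
    w ((1944 * (kap (p2 : K) p3 al be * g)) ^ 4 / (64 * D * ((p1 : K) * p2 * p3) ^ 2)) ≤ 1 := by
  obtain ⟨e1, e2⟩ := h.T_eq
  rw [e1] at h1
  rw [e2] at h2
  rcases w_eq_one_or w hcop with u | u
  · have : (1944 * (kap (p2 : K) p3 al be * g)) ^ 4 / (64 * D * ((p1 : K) * p2 * p3) ^ 2) =
        -((1944 * g) ^ 4 * -(kap (p2 : K) p3 al be ^ 4 / (64 * D * ((p2 : K) * p3) ^ 2))) *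
          ((p1 : K) ^ 2)⁻¹ := by ring
    rw [this, map_mul, map_inv₀, map_pow, u, Valuation.map_neg]
    simpa using h1
  · have : (1944 * (kap (p2 : K) p3 al be * g)) ^ 4 / (64 * D * ((p1 : K) * p2 * p3) ^ 2) =
        (1944 * g) ^ 4 * (kap (p2 : K) p3 al be ^ 4 / (64 * D * ((p1 : K) ^ 2 * (p2 * p3)))) *
          ((p2 * p3 : ℤ) : K)⁻¹ := by push_cast; ring
    rw [this, map_mul, map_inv₀, u]
    simpa using h2

/-- a rational number which is integral for one valuation over each prime is an integer -/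
theorem den_eq_one (x : ℚ)
    (h : ∀ l : ℕ, l.Prime → ∃ w : Valuation K Γ, w (l : K) < 1 ∧ w (x : K) ≤ 1) : x.den = 1 := by
  by_contra hn
  obtain ⟨l, hl, hd⟩ := Nat.exists_prime_and_dvd hn
  obtain ⟨w, h1, h2⟩ := h l hl
  have hc : IsCoprime (l : ℤ) x.num := by
    rw [Int.isCoprime_iff_gcd_eq_one]
    exact (Nat.Coprime.coprime_dvd_right hd x.reduced).symm
  rcases w_eq_one_or w hc with u | u
  · rw [Int.cast_natCast] at u; exact h1.ne u
  · obtain ⟨m, hm⟩ := hd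
    have e : (x.num : K) = (l : K) * ((m : K) * (x : K)) := by
      have : (x.num : ℚ) = l * (m * x) := by
        rw [← mul_assoc, ← Nat.cast_mul, ← hm]; exact (Rat.den_mul_eq_num x).symm
      exact_mod_cast congrArg (Rat.cast : ℚ → K) this
    rw [e, map_mul] at u
    have : w (l : K) * w ((m : K) * (x : K)) < 1 :=
      (mul_le_of_le_one_right' (w_ofNat_mul_le w m _ h2)).trans_lt h1
    exact this.ne u

/-- **last step.** `a`, `b` are the first `q`-coefficients of `phi^* om1` and `(j phi)^* om1`,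
`3 a^2 - b^2 = det (v', J v')`. -/
theorem fin_bound {a b N : ℚ} (hN : N ≠ 0) (hab : 3 * a ^ 2 - b ^ 2 ≠ 0)
    (h : ∀ l : ℕ, l.Prime → ∃ w : Valuation K Γ, w (l : K) < 1 ∧
      w ((1944 * (a : K)) ^ 4 / (N : K)) ≤ 1 ∧ w ((1944 * (b : K)) ^ 4 / (N : K)) ≤ 1) :
    |N| ≤ 1944 ^ 4 * (3 * a ^ 2 - b ^ 2) ^ 2 := by
  set Y : ℚ := 1944 ^ 4 * (3 * a ^ 2 - b ^ 2) ^ 2 / N with hY
  have hd : Y.den = 1 := by
    refine den_eq_one (K := K) (Γ := Γ) Y fun l hl => ?_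
    obtain ⟨w, h1, h2, h3⟩ := h l hl
    refine ⟨w, h1, ?_⟩
    have h4 : w ((1944 * (a : K)) ^ 2 * (1944 * (b : K)) ^ 2 / (N : K)) ≤ 1 := by
      have := mul_le_one' h2 h3
      rw [← map_mul] at this
      refine (pow_le_one_iff_of_nonneg zero_le two_ne_zero).1 ?_
      rw [← map_pow]
      convert this using 2; ring
    have : (Y : K) = (9 : ℕ) * ((1944 * (a : K)) ^ 4 / (N : K)) -
        (6 : ℕ) * ((1944 * (a : K)) ^ 2 * (1944 * (b : K)) ^ 2 / (N : K)) +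
          (1944 * (b : K)) ^ 4 / (N : K) := by rw [hY]; push_cast; ring
    rw [this]
    exact w_add_le w (w_sub_le w (w_ofNat_mul_le w _ _ h2) (w_ofNat_mul_le w _ _ h4)) h3
  have hY0 : Y ≠ 0 := div_ne_zero (mul_ne_zero (by norm_num) (pow_ne_zero 2 hab)) hN
  have h1 : (1 : ℚ) ≤ |Y| := by
    rw [← Rat.coe_int_num_of_den_eq_one hd]
    exact_mod_cast Int.one_le_abs (Rat.num_ne_zero.2 hY0)
  rw [hY, abs_div, one_le_div (abs_pos.2 hN)] at h1
  exact h1.trans (le_of_eq (abs_of_nonneg (by positivity)))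

end int

section fam

variable {C K Γ : Type*} [CommRing C] [Field K] [CharZero K] [Algebra C K]
  [LinearOrderedCommGroupWithZero Γ]

/-- **scalar bound for the family, Mumford form** -/
theorem scal_fam (w : Valuation K Γ) (D : Derivation C K K) (H : ∀ h, w (D h) ≤ w h)
    {p1 p2 p3 : ℤ} {D0 t al be c a1 a2 a3 u0 u1 u2 g0 g1 g2 : K}
    (h : Nf (p1 : K) p2 p3 D0 t al be c a1 a2 a3) (hcop : IsCoprime p1 (p2 * p3))
    {U V : K[X]} (hU : U = X ^ 3 + Polynomial.C u2 * X ^ 2 + Polynomial.C u1 * X + Polynomial.C u0)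
    (hsep : U.Separable) (hUV : IsCoprime U V)
    (hF : U ∣ Polynomial.C c * X * (X ^ 2 - Polynomial.C a1) * (X ^ 2 - Polynomial.C a2) *
      (X ^ 2 - Polynomial.C a3) - V ^ 2)
    (hode : U ∣ Polynomial.C (D u2) * X ^ 2 + Polynomial.C (D u1) * X + Polynomial.C (D u0) +
      V * (Polynomial.C g0 * X ^ 2 + Polynomial.C (g1 + u2 * g0) * X +
        Polynomial.C (g2 + u2 * g1 + u1 * g0))) (d3 : D a3 = 0) :
    w ((1944 * (kap (p2 : K) p3 al be * g1)) ^ 4 / (64 * D0 * ((p1 : K) * p2 * p3) ^ 2)) ≤ 1 := by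
  have d1 : D a1 = 0 := by
    rw [h.h1]; simp [div_eq_mul_inv, Derivation.leibniz, Derivation.leibniz_inv]
  have d2 : D a2 = 0 := by
    rw [h.h2]; simp [div_eq_mul_inv, Derivation.leibniz, Derivation.leibniz_inv]
  obtain ⟨r1, r2⟩ := scal_mum w D H d1 d2 d3 hU hsep hUV hF hode
  exact h.comb w hcop r1 r2

end fam

end Crest.Agent.T15.Sc3
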