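import Crest.Agent.T15.EscA_99

/-!
# Row 15, block Ht (helper98): the periods of a form are controlled by those of its depletion

`undep`: if the periods of the depleted family lie in a saturated subgroup `W`, so do the periods of
the family itself (one Atkin-Lehner matrix per prime).
-/

set_option autoImplicit false
set_option maxHeartbeats 400000

noncomputable section

namespace Crest.Agent.T15.Und

open UpperHalfPlane hiding I
open Complex hiding Gamma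
open ModularForm CongruenceSubgroup Matrix Crest.Agent.T15.Esc
open scoped MatrixGroups Manifold Real

/-- `z ↦ l z` -/
def sc (l : ℕ) (z : ℍ) : ℍ :=
  if h : 0 < l then ⟨l * z, by simpa using mul_pos (Nat.cast_pos.2 h) z.im_pos⟩ else z

lemma coe_sc {l : ℕ} (h : 0 < l) (z : ℍ) : ((sc l z : ℍ) : ℂ) = l * z := by
  rw [sc, dif_pos h]

lemma coe_sl (γ : SL(2, ℤ)) (z : ℍ) : ((γ • z : ℍ) : ℂ) =
    ((γ 0 0 : ℂ) * z + (γ 0 1 : ℂ)) / ((γ 1 0 : ℂ) * z + (γ 1 1 : ℂ)) := by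
  rw [coe_specialLinearGroup_apply]; simp

lemma sc_rel {u v v' : ℕ} (hu : 0 < u) (hv : 0 < v) (hv' : 0 < v') (γ γ' : SL(2, ℤ)) (t : ℤ)
    (ht : t ≠ 0) (h1 : u * γ 0 0 * v = t * γ' 0 0 * v') (h2 : u * γ 0 1 = t * γ' 0 1)
    (h3 : γ 1 0 * v = t * γ' 1 0 * v') (h4 : γ 1 1 = t * γ' 1 1) (z : ℍ) :
    sc u (γ • sc v z) = γ' • sc v' z := by
  ext1
  have ht' : (t : ℂ) ≠ 0 := by exact_mod_cast ht
  have k1 : (u : ℂ) * γ 0 0 * v = t * γ' 0 0 * v' := by exact_mod_cast h1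
  have k2 : (u : ℂ) * γ 0 1 = t * γ' 0 1 := by exact_mod_cast h2
  have k3 : (γ 1 0 : ℂ) * v = t * γ' 1 0 * v' := by exact_mod_cast h3
  have k4 : (γ 1 1 : ℂ) = t * γ' 1 1 := by exact_mod_cast h4
  rw [coe_sc hu, coe_sl, coe_sl, coe_sc hv, coe_sc hv', ← mul_div_assoc,
    ← mul_div_mul_left ((γ' 0 0 : ℂ) * (v' * z) + γ' 0 1) _ ht']
  congr 1
  · linear_combination (z : ℂ) * k1 + k2
  · linear_combination (z : ℂ) * k3 + k4

lemma sc_one (z : ℍ) : sc 1 z = z := by ext1; rw [coe_sc one_pos]; simp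

lemma sc_sc {u v : ℕ} (hu : 0 < u) (hv : 0 < v) (z : ℍ) : sc u (sc v z) = sc (u * v) z := by
  ext1; rw [coe_sc hu, coe_sc hv, coe_sc (Nat.mul_pos hu hv)]; push_cast; ring

/-- conjugation by `diag(l,1)` -/
lemma exists_conj {l : ℕ} (hl : 0 < l) (γ : SL(2, ℤ)) (c : ℤ) (hc : γ 1 0 = l * c) :
    ∃ γ' : SL(2, ℤ), γ' 0 0 = γ 0 0 ∧ γ' 0 1 = l * γ 0 1 ∧ γ' 1 0 = c ∧ γ' 1 1 = γ 1 1 ∧
      ∀ z, sc l (γ • z) = γ' • sc l z := by
  have hd : γ 0 0 * γ 1 1 - γ 0 1 * γ 1 0 = 1 := by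
    have := γ.det_coe; rwa [det_fin_two] at this
  refine ⟨⟨!![γ 0 0, l * γ 0 1; c, γ 1 1], by
    rw [det_fin_two_of]; rw [hc] at hd; linear_combination hd⟩, rfl, rfl, rfl, rfl, fun z => ?_⟩
  conv_lhs => rw [← sc_one z]
  refine sc_rel hl one_pos hl _ _ 1 one_ne_zero ?_ ?_ ?_ ?_ z <;> simp [hc] <;> ring

lemma dvd_of_G0 {N : ℕ} {γ : SL(2, ℤ)} : γ ∈ Gamma0 N ↔ (N : ℤ) ∣ γ 1 0 := by
  rw [Gamma0_mem, ZMod.intCast_zmod_eq_zero_iff_dvd]

section core
variable {V : Type*} [AddCommGroup V]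

/-- quasi-invariance under `Γ₀(N)` -/
def QI (N : ℕ) (P : ℍ → V) : Prop := ∀ γ ∈ Gamma0 N, ∃ c, ∀ z, P (γ • z) = c + P z

/-- invariance modulo `W` under some principal congruence subgroup -/
def Nul (W : AddSubgroup V) (P : ℍ → V) : Prop :=
  ∃ M : ℕ, 0 < M ∧ ∀ γ ∈ Gamma M, ∀ z, P (γ • z) - P z ∈ W

/-- saturated subgroups -/
def Sat (W : AddSubgroup V) : Prop := ∀ k : ℤ, k ≠ 0 → ∀ x, k • x ∈ W → x ∈ W

variable {W : AddSubgroup V} {P Q : ℍ → V}

lemma gamma_mono {M N : ℕ} (h : M ∣ N) : Gamma N ≤ Gamma M := fun γ hγ => by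
  rw [Gamma_mem] at hγ ⊢
  have k : ∀ x : ℤ, ZMod.castHom h (ZMod M) (x : ZMod N) = (x : ZMod M) := fun x => map_intCast _ x
  obtain ⟨h1, h2, h3, h4⟩ := hγ
  refine ⟨?_, ?_, ?_, ?_⟩
  · rw [← k, h1, map_one]
  · rw [← k, h2, map_zero]
  · rw [← k, h3, map_zero]
  · rw [← k, h4, map_one]

lemma Nul.add (hP : Nul W P) (hQ : Nul W Q) : Nul W (fun z => P z + Q z) := by
  obtain ⟨M, hM, h⟩ := hP
  obtain ⟨N, hN, h'⟩ := hQ
  refine ⟨M * N, Nat.mul_pos hM hN, fun γ hγ z => ?_⟩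
  have := W.add_mem (h γ (gamma_mono (dvd_mul_right M N) hγ) z)
    (h' γ (gamma_mono (dvd_mul_left N M) hγ) z)
  simp only []
  rw [add_sub_add_comm]
  exact this

lemma Nul.map (hP : Nul W P) (b : V →+ V) (hb : ∀ x ∈ W, b x ∈ W) : Nul W (fun z => b (P z)) := by
  obtain ⟨M, hM, h⟩ := hP
  exact ⟨M, hM, fun γ hγ z => by rw [← map_sub]; exact hb _ (h γ hγ z)⟩

lemma Nul.zsmul (hP : Nul W P) (k : ℤ) : Nul W (fun z => k • P z) := by
  obtain ⟨M, hM, h⟩ := hP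
  exact ⟨M, hM, fun γ hγ z => by rw [← smul_sub]; exact W.zsmul_mem (h γ hγ z) k⟩

lemma Nul.of_zsmul (hW : Sat W) {k : ℤ} (hk : k ≠ 0) (hP : Nul W (fun z => k • P z)) :
    Nul W P := by
  obtain ⟨M, hM, h⟩ := hP
  exact ⟨M, hM, fun γ hγ z => hW k hk _ (by rw [smul_sub]; exact h γ hγ z)⟩

lemma Nul.congr (hP : Nul W P) (c : V) (h : ∀ z, Q z = c + P z) : Nul W Q := by
  obtain ⟨M, hM, h'⟩ := hP
  exact ⟨M, hM, fun γ hγ z => by rw [h, h, add_sub_add_left_eq_sub]; exact h' γ hγ z⟩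

lemma Nul.sl (hP : Nul W P) (s : SL(2, ℤ)) : Nul W (fun z => P (s • z)) := by
  obtain ⟨M, hM, h⟩ := hP
  refine ⟨M, hM, fun γ hγ z => ?_⟩
  have := h _ ((Gamma_normal M).conj_mem γ hγ s) (s • z)
  rwa [← mul_smul, inv_mul_cancel_right, mul_smul] at this

lemma Nul.sc (hP : Nul W P) {l : ℕ} (hl : 0 < l) : Nul W (fun z => P (sc l z)) := by
  obtain ⟨M, hM, h⟩ := hP
  refine ⟨l * M, Nat.mul_pos hl hM, fun γ hγ z => ?_⟩
  have h1 := Gamma_mem.1 (gamma_mono (dvd_mul_left M l) hγ)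
  obtain ⟨c, hc⟩ := (ZMod.intCast_zmod_eq_zero_iff_dvd _ _).1 (Gamma_mem.1 hγ).2.2.1
  obtain ⟨γ', a1, a2, a3, a4, a5⟩ := exists_conj hl γ (M * c) (by rw [hc]; push_cast; ring)
  simp only [a5]
  refine h γ' (Gamma_mem.2 ⟨by rw [a1]; exact h1.1, ?_, ?_, by rw [a4]; exact h1.2.2.2⟩) _
  · rw [a2]; push_cast; rw [h1.2.1, mul_zero]
  · rw [a3]; simp

lemma QI.sc {N : ℕ} (hP : QI N P) {l : ℕ} (hl : 0 < l) : QI (l * N) (fun z => P (sc l z)) := by
  intro γ hγ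
  obtain ⟨c, hc⟩ := dvd_of_G0.1 hγ
  obtain ⟨γ', -, -, a3, -, a5⟩ := exists_conj hl γ (N * c) (by rw [hc]; push_cast; ring)
  obtain ⟨e, he⟩ := hP γ' (dvd_of_G0.2 (a3 ▸ dvd_mul_right _ _))
  exact ⟨e, fun z => by simp only [a5, he]⟩

lemma QI.mono {N N' : ℕ} (hP : QI N P) (h : N ∣ N') : QI N' P := fun γ hγ =>
  hP γ (dvd_of_G0.2 ((Int.natCast_dvd_natCast.2 h).trans (dvd_of_G0.1 hγ)))

/-- a character with values in a torsion free group vanishes if it does on a finite index subgroup -/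
lemma QI.mem (hW : Sat W) {N : ℕ} (hP : QI N P) (Γ : Subgroup SL(2, ℤ)) [Γ.FiniteIndex] (w : ℍ)
    (h : ∀ γ ∈ Γ, γ ∈ Gamma0 N → P (γ • w) - P w ∈ W) {γ : SL(2, ℤ)} (hγ : γ ∈ Gamma0 N) (z : ℍ) :
    P (γ • z) - P z ∈ W := by
  obtain ⟨c, hc⟩ := hP γ hγ
  obtain ⟨k, hk, -, hm⟩ := Subgroup.exists_pow_mem_of_index_ne_zero
    (Subgroup.FiniteIndex.index_ne_zero (H := Γ)) γ
  have h1 : ∀ n : ℕ, P (γ ^ n • w) = (n : ℤ) • c + P w := fun n => by
    induction n with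
    | zero => simp
    | succ n ih => rw [pow_succ', mul_smul, hc, ih]; push_cast; rw [add_smul, one_smul]; abel
  have h2 := h _ hm (pow_mem hγ k)
  rw [h1, add_sub_cancel_right] at h2
  rw [hc, add_sub_cancel_right]
  exact hW k (by exact_mod_cast hk.ne') c h2

/-- **the step**: undoing the depletion at `l` -/
lemma step (hW : Sat W) {N l : ℕ} (hl : l.Prime) (hlN : ¬ l ∣ N) (b : V →+ V) (β : ℤ)
    (hb : ∀ x, b (b x) = β • x) (hβ : β ≠ (l + 1) ^ 2) (hbW : ∀ x ∈ W, b x ∈ W) (hP : QI N P)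
    (h : Nul W (fun z => (l : ℤ) • P z - b (P (sc l z)) + P (sc (l * l) z))) : Nul W P := by
  have hl0 := hl.pos
  have hll := Nat.mul_pos hl0 hl0
  have hco : IsCoprime ((l : ℤ) * l) (N : ℤ) := by
    have := Nat.isCoprime_iff_coprime.2 ((Nat.Prime.coprime_iff_not_dvd hl).2 hlN)
    exact this.mul_left this
  obtain ⟨w, y, hwy⟩ := hco
  let g0 : SL(2, ℤ) := ⟨!![1, -y; N, l * l * w], by rw [det_fin_two_of]; linear_combination hwy⟩
  let g1 : SL(2, ℤ) := ⟨!![l, -y; N, l * w], by rw [det_fin_two_of]; linear_combination hwy⟩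
  let g2 : SL(2, ℤ) := ⟨!![l * l, -y; N, w], by rw [det_fin_two_of]; linear_combination hwy⟩
  have hl' : (l : ℤ) ≠ 0 := by exact_mod_cast hl0.ne'
  obtain ⟨c0, h0⟩ := hP g0 (dvd_of_G0.2 dvd_rfl)
  obtain ⟨c1, h1⟩ := hP g1 (dvd_of_G0.2 dvd_rfl)
  obtain ⟨c2, h2⟩ := hP g2 (dvd_of_G0.2 dvd_rfl)
  have r1 : ∀ z, sc l (g0 • sc (l * l) z) = g1 • sc l z :=
    sc_rel hl0 hll hl0 g0 g1 l hl' (by simp [g0, g1]; ring) (by simp [g0, g1])
      (by simp [g0, g1]; ring) (by simp [g0, g1]; ring)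
  have r2 : ∀ z, sc (l * l) (g0 • sc (l * l) z) = g2 • z := fun z => by
    conv_rhs => rw [← sc_one z]
    exact sc_rel hll hll one_pos g0 g2 (l * l) (mul_ne_zero hl' hl') (by simp [g0, g2])
      (by simp [g0, g2]) (by simp [g0, g2]; ring) (by simp [g0, g2]) z
  have k1 : Nul W (fun z => (l : ℤ) • P (sc (l * l) z) - b (P (sc l z)) + P z) :=
    ((h.sl g0).sc hll).congr (-((l : ℤ) • c0 - b c1 + c2)) fun z => by
      simp only [r1, r2, h0, h1, h2, map_add, smul_add]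
      abel
  have hl1 : (l : ℤ) - 1 ≠ 0 := by have := hl.two_le; omega
  have k2 : Nul W (fun z => P z - P (sc (l * l) z)) :=
    Nul.of_zsmul hW hl1 ((h.add (k1.zsmul (-1))).congr 0 fun z => by module)
  have k3 : Nul W (fun z => ((l : ℤ) + 1) • P z - b (P (sc l z))) :=
    (h.add k2).congr 0 fun z => by module
  have k4 : Nul W (fun z => ((l : ℤ) + 1) • P (sc l z) - b (P z)) :=
    ((k3.sc hl0).add ((k2.map b hbW).zsmul (-1))).congr 0 fun z => by
      simp only [sc_sc hl0 hl0, map_sub]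
      module
  refine Nul.of_zsmul hW (sub_ne_zero.2 hβ.symm)
    (((k3.zsmul (l + 1)).add (k4.map b hbW)).congr 0 fun z => ?_)
  simp only [map_sub, map_zsmul, hb]
  module

end core

/-- `f = ∑ c n q^n` -/
def QS (c : ℕ → ℂ) (f : ℍ → ℂ) : Prop :=
  ∀ z : ℍ, HasSum (fun n : ℕ => c n * Complex.exp (2 * Real.pi * Complex.I * n * z)) (f z)

lemma QS.unique {c : ℕ → ℂ} {f g : ℍ → ℂ} (h : QS c f) (h' : QS c g) : f = g :=
  funext fun z => (h z).unique (h' z)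

lemma QS.sc {c : ℕ → ℂ} {f : ℍ → ℂ} (h : QS c f) {l : ℕ} (hl : 0 < l) :
    QS (fun m => if l ∣ m then c (m / l) else 0) (fun z => f (sc l z)) := fun z => by
  refine (Function.Injective.hasSum_iff (g := fun n => l * n)
    (fun a b e => Nat.eq_of_mul_eq_mul_left hl e) fun m hm => ?_).1 ?_
  · simp only []
    rw [if_neg, zero_mul]
    rintro ⟨k, rfl⟩
    exact hm ⟨k, rfl⟩
  · convert h (Und.sc l z) using 2 with n
    simp only [Function.comp, dvd_mul_right, if_true, Nat.mul_div_cancel_left _ hl, coe_sc hl]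
    congr 2
    push_cast
    ring

lemma isPrim_sc {F f : ℍ → ℂ} (h : IsPrim F f) {l : ℕ} (hl : 0 < l) :
    IsPrim (fun z => F (sc l z)) (fun z => l * f (sc l z)) := fun z => by
  have h1 := h (sc l z)
  rw [coe_sc hl] at h1
  have h2 := h1.comp (z : ℂ) ((hasDerivAt_id (z : ℂ)).const_mul (l : ℂ))
  rw [mul_one, mul_comm] at h2
  refine h2.congr_of_eventuallyEq ?_
  filter_upwards [isOpen_upperHalfPlaneSet.mem_nhds z.im_pos] with w hw
  have e : ofComplex ((l : ℂ) * w) = sc l (ofComplex w) := by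
    rw [← ofComplex_apply (sc l (ofComplex w)), coe_sc hl, ofComplex_apply_of_im_pos hw]
  simp only [Function.comp, id, e]

variable {ι : Type*} [Fintype ι] [DecidableEq ι]

lemma undep_aux {W : AddSubgroup (ι → ℂ)} (hW : Sat W) (b : ℕ → Matrix ι ι ℂ) (β : ℕ → ℤ)
    (h H : ι → ℍ → ℂ) (hH : ∀ i, IsPrim (H i) (h i)) (Γ : Subgroup SL(2, ℤ)) [Γ.FiniteIndex]
    (w : ℍ) (hper : ∀ γ ∈ Γ, (fun i => H i (γ • w) - H i w) ∈ W) (S : Finset ℕ) :
    ∀ (L : ℕ) (g G : ι → ℍ → ℂ) (c : ℕ → ι → ℂ), (∀ l ∈ S, l.Prime ∧ ¬ l ∣ L) →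
    (∀ l ∈ S, b l * b l = (β l : ℂ) • 1 ∧ β l ≠ (l + 1) ^ 2 ∧ ∀ x ∈ W, b l *ᵥ x ∈ W) →
    (∀ i, IsPrim (G i) (g i)) → QI L (fun z i => G i z) → (∀ i, QS (fun n => c n i) (g i)) →
    (∀ l ∈ S, ∀ n, c (l * n) + (if l ∣ n then (l : ℂ) • c (n / l) else 0) = b l *ᵥ c n) →
    (∀ i, QS (fun n => if ∀ l ∈ S, ¬ l ∣ n then c n i else 0) (h i)) →
    ∀ γ ∈ Gamma0 L, ∀ z, (fun i => G i (γ • z)) - (fun i => G i z) ∈ W := by
  induction S using Finset.induction_on with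
  | empty =>
    intro L g G c _ _ hG hQ hc _ hh γ hγ z
    have e : ∀ i, g i = h i := fun i => (hc i).unique (by simpa using hh i)
    refine hQ.mem hW Γ w (fun δ hδ _ => ?_) hγ z
    convert hper δ hδ using 1
    funext i
    have := (hG i).sub_eq (e i ▸ hH i) (δ • w) w
    simp only [Pi.sub_apply]
    linear_combination this
  | insert l S hlS ih =>
    intro L g G c hS hb hG hQ hc hrec hh γ hγ z
    obtain ⟨hl, hlL⟩ := hS l (Finset.mem_insert_self _ _)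
    obtain ⟨b1, b2, b3⟩ := hb l (Finset.mem_insert_self _ _)
    have hl0 := hl.pos
    have hll := Nat.mul_pos hl0 hl0
    have hlc : (l : ℂ) ≠ 0 := by exact_mod_cast hl0.ne'
    have hL : 0 < L := Nat.pos_of_ne_zero fun h0 => hlL (h0 ▸ dvd_zero l)
    have hne : ∀ p ∈ S, p.Prime ∧ ¬ p ∣ l := fun p hp => by
      have h1 := (hS p (Finset.mem_insert_of_mem hp)).1
      refine ⟨h1, fun h2 => hlS ?_⟩
      rwa [← (Nat.prime_dvd_prime_iff_eq h1 hl).1 h2]
    have key := ih (l * l * L)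
      (fun i z => g i z - ∑ j, b l i j * g j (sc l z) + l * g i (sc (l * l) z))
      (fun i z => G i z - (l : ℂ)⁻¹ * ∑ j, b l i j * G j (sc l z) +
        (l : ℂ)⁻¹ * G i (sc (l * l) z))
      (fun n => if l ∣ n then 0 else c n) (fun p hp => by
        obtain ⟨h1, h2⟩ := hne p hp
        refine ⟨h1, fun h3 => ?_⟩
        rcases (Nat.Prime.dvd_mul h1).1 h3 with h4 | h4
        · exact h2 (((Nat.Prime.dvd_mul h1).1 h4).elim id id)
        · exact (hS p (Finset.mem_insert_of_mem hp)).2 h4)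
      (fun p hp => hb p (Finset.mem_insert_of_mem hp)) (fun i z => by
        have h1 := (HasDerivAt.sum (u := Finset.univ) fun j _ =>
          ((isPrim_sc (hG j) hl0) z).const_mul (b l i j)).const_mul (l : ℂ)⁻¹
        have h2 := ((isPrim_sc (hG i) hll) z).const_mul (l : ℂ)⁻¹
        refine ((((hG i z).sub h1).add h2).congr_deriv ?_).congr_of_eventuallyEq
          (Filter.Eventually.of_forall fun w => by simp)
        have e : (l : ℂ)⁻¹ * ∑ j, b l i j * (l * g j (sc l z)) = ∑ j, b l i j * g j (sc l z) := by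
          rw [Finset.mul_sum]
          exact Finset.sum_congr rfl fun j _ => by field_simp
        rw [e]
        push_cast; field_simp) (fun δ hδ => by
        obtain ⟨e0, h0⟩ := hQ.mono (dvd_mul_left L (l * l)) δ hδ
        obtain ⟨e1, h1⟩ := (hQ.sc hl0).mono (show l * L ∣ l * l * L from ⟨l, by ring⟩) δ hδ
        obtain ⟨e2, h2⟩ := hQ.sc hll δ hδ
        refine ⟨fun i => e0 i - (l : ℂ)⁻¹ * ∑ j, b l i j * e1 j + (l : ℂ)⁻¹ * e2 i,
          fun z => funext fun i => ?_⟩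
        have k0 := fun i => congrFun (h0 z) i
        have k1 := fun i => congrFun (h1 z) i
        have k2 := fun i => congrFun (h2 z) i
        simp only [Pi.add_apply] at k0 k1 k2 ⊢
        simp only [k0, k1, k2, mul_add, Finset.sum_add_distrib]
        ring) (fun i z => by
        have h1 := hasSum_sum (s := Finset.univ) fun j _ =>
          (((hc j).sc hl0) z).mul_left (b l i j)
        have h2 := (((hc i).sc hll) z).mul_left (l : ℂ)
        refine (((hc i z).sub h1).add h2).congr_fun fun n => ?_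
        simp only [← mul_assoc, ← Finset.sum_mul, ← sub_mul, ← add_mul]
        congr 1
        by_cases hn : l ∣ n
        · obtain ⟨m, rfl⟩ := hn
          have h3 := congrFun (hrec l (Finset.mem_insert_self _ _) m) i
          simp only [dvd_mul_right, if_true, Nat.mul_div_cancel_left _ hl0,
            Nat.mul_dvd_mul_iff_left hl0, Nat.mul_div_mul_left _ _ hl0, Pi.zero_apply]
          simp only [Pi.add_apply, mulVec, dotProduct] at h3
          rw [← h3]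
          split_ifs <;> simp
        · have h3 : ¬ l * l ∣ n := fun h4 => hn ((dvd_mul_right l l).trans h4)
          simp [hn, h3]) (fun p hp n => by
        obtain ⟨h1, h2⟩ := hne p hp
        have hco : l.Coprime p := ((Nat.Prime.coprime_iff_not_dvd h1).2 h2).symm
        by_cases hn : l ∣ n
        · rw [if_pos hn, if_pos (hn.mul_left p), mulVec_zero, zero_add]
          split_ifs with h3 h4
          · simp
          · obtain ⟨m, rfl⟩ := h3
            rw [Nat.mul_div_cancel_left _ h1.pos] at h4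
            exact absurd (hco.dvd_of_dvd_mul_left hn) h4
          · rfl
        · rw [if_neg hn, if_neg fun h3 => hn (hco.dvd_of_dvd_mul_left h3),
            ← hrec p (Finset.mem_insert_of_mem hp) n]
          congr 1
          split_ifs with h3 h4
          · exact absurd (h4.trans (Nat.div_dvd_of_dvd h3)) hn
          · rfl
          · rfl) (fun i => by
        convert hh i using 2 with n
        by_cases hn : l ∣ n <;> simp [hn])
    have hN0 : Nul W (fun z i => G i z - (l : ℂ)⁻¹ * ∑ j, b l i j * G j (sc l z) +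
        (l : ℂ)⁻¹ * G i (sc (l * l) z)) := ⟨l * l * L, Nat.mul_pos hll hL, fun δ hδ z =>
      key δ (Gamma0_mem.2 (Gamma_mem.1 hδ).2.2.1) z⟩
    have hN : Nul W (fun z i => G i z) := step hW hl hlL (mulVecLin (b l)).toAddMonoidHom (β l)
      (fun x => by
        change b l *ᵥ (b l *ᵥ x) = _
        rw [mulVec_mulVec, b1, smul_mulVec, one_mulVec, Int.cast_smul_eq_zsmul]) b2 b3 hQ
      ((hN0.zsmul l).congr 0 fun z => by
        funext i
        simp [mulVec, dotProduct]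
        field_simp)
    obtain ⟨M, hM, hM'⟩ := hN
    haveI : NeZero M := ⟨hM.ne'⟩
    exact hQ.mem hW (Gamma M) z (fun δ hδ _ => hM' δ hδ z) hγ z

lemma per_eq (f : ℍ → ℂ) (γ : SL(2, ℤ)) :
    per f γ = prim f (γ • UpperHalfPlane.I) - prim f UpperHalfPlane.I := rfl

/-- **(U2)** periods of the undepleted family -/
theorem undep {W : AddSubgroup (ι → ℂ)} (hW : Sat W) {L : ℕ} {S : Finset ℕ}
    (hS : ∀ l ∈ S, l.Prime ∧ ¬ l ∣ L) (b : ℕ → Matrix ι ι ℂ) (β : ℕ → ℤ)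
    (hb : ∀ l ∈ S, b l * b l = (β l : ℂ) • 1 ∧ β l ≠ (l + 1) ^ 2 ∧ ∀ x ∈ W, b l *ᵥ x ∈ W)
    {g h : ι → ℍ → ℂ} {c : ℕ → ι → ℂ} (hg : ∀ i, MDiff (g i))
    (hg' : ∀ i, ∀ γ ∈ Gamma0 L, g i ∣[(2 : ℤ)] γ = g i) (hc : ∀ i, QS (fun n => c n i) (g i))
    (hrec : ∀ l ∈ S, ∀ n, c (l * n) + (if l ∣ n then (l : ℂ) • c (n / l) else 0) = b l *ᵥ c n)
    (hh : ∀ i, MDiff (h i))
    (hh' : ∀ i, QS (fun n => if ∀ l ∈ S, ¬ l ∣ n then c n i else 0) (h i))
    (Γ : Subgroup SL(2, ℤ)) [Γ.FiniteIndex] (hper : ∀ γ ∈ Γ, (fun i => per (h i) γ) ∈ W) :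
    ∀ γ ∈ Gamma0 L, (fun i => per (g i) γ) ∈ W := fun γ hγ =>
  undep_aux hW b β h (fun i => prim (h i)) (fun i => isPrim_prim (hh i)) Γ UpperHalfPlane.I hper
    S L g (fun i => prim (g i)) c hS hb (fun i => isPrim_prim (hg i))
    (fun δ hδ => ⟨fun i => per (g i) δ, fun z => funext fun i =>
      per_SL (isPrim_prim (hg i)) (hg' i δ hδ) z⟩) hc hrec hh' γ hγ UpperHalfPlane.I

end Crest.Agent.T15.Und
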