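import Crest.Agent.T15.TopH_88
import Crest.Agent.T15.Ar_22
import Crest.Agent.T15.MoA_29
import Crest.Agent.T15.HonDef_54
import Crest.Agent.T15.Wp2_31
import Crest.Agent.T15.Sc3F_89
import Crest.Agent.T15.UndA_98
import Crest.Agent.T15.AxA_14
import Crest.Agent.T15.MumA_4
import Crest.Agent.T15.HabC_58

/-!
# Row 15, block Ht (helper95): words, the link `Lk`, the leaves

* `Mdl P` : the curves `Y ⊆ K` of the family, the correspondence `j`;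
* `Lk del` : what block F delivers;
* arithmetic side (over `Om`): `GalStmt MoStmt MatStmt EbStmt IntStmt RatStmt SmStmt HondaStmt`;
* complex side: `Jc`, `EndStmt IrrStmt JcStmt DepStmt BrStmt PerStmt StabStmt ScalStmt ValStmt
  CovStmt ArchStmt`;
* `HtGlue`.
-/

set_option autoImplicit false
set_option linter.all false

noncomputable section

namespace Crest.Agent.T15.Ht

open Polynomial Matrix CongruenceSubgroup
open scoped NNReal MatrixGroups UpperHalfPlane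
open Crest.Agent.R013.PicD_398 Crest.Agent.R013.Frob1_914
open Crest.Agent.T15.C (Om Gam)
open Crest.Agent.T15.Top (Plc IsFr Mod)
open Crest.Agent.T15.Mo (Par Eqs)
open Crest.Agent.T15.Esc (CS per)
open Crest.Agent.T15.Und (QS)
open Crest.Agent.T15.Ar (Cert)

/-! ## formulas -/

section formulas

variable {R : Type*} [Field R]

/-- the parameters are the given integers -/
structure Is (P : Par R) (p1 p2 p3 t : ℤ) : Prop where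
  h1 : P.p1 = p1
  h2 : P.p2 = p2
  h3 : P.p3 = p3
  ht : P.t = t

/-- the second root `x u` of the cubic -/
def xu (P : Par R) (A B u : R) : R :=
  (-2 * (P.p1 * P.p2 + P.p1 * P.p3 + P.p2 * P.p3) - u +
    (P.p1 * P.d1) * (P.p2 * P.d2) * (P.p3 * P.d3) * u * P.V' A (B ^ 2) u * P.R' A (B ^ 2) u *
      (A * B / (P.t * P.d1) / (u + P.p2 * P.p3))) / 2

/-- the matrix of `j` : `j^* (z^k dz/w) = ∑ m, Mx k m * z^m dz/w` -/
def Mx (P : Par R) : Matrix (Fin 3) (Fin 3) R :=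
  !![0, P.al / (P.p1 * P.p2) + P.be / (P.p1 * P.p3), 0;
    P.al / (2 * P.p2 ^ 2) + P.be / (2 * P.p3 ^ 2), 0, P.al / (2 * P.p2 ^ 2) - P.be / (2 * P.p3 ^ 2);
    0, P.al / (P.p1 * P.p2) - P.be / (P.p1 * P.p3), 0]

/-- the rational tangent vector dual to `kap z dz/w` -/
def v1 (P : Par R) : Fin 3 → R := ![0, (Sc3.kap P.p2 P.p3 P.al P.be)⁻¹, 0]

/-- its image under `j` -/
def v3 (P : Par R) : Fin 3 → R := Mx P *ᵥ v1 P

/-- the plane `ker (j² - 3)` -/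
def emb (P : Par R) : (Fin 2 → R) →+ (Fin 3 → R) where
  toFun x := x 0 • v1 P + x 1 • v3 P
  map_zero' := by simp
  map_add' x y := by simp only [Pi.add_apply, add_smul]; abel

/-- `j` on the plane -/
def J2 : (Fin 2 → ℂ) →ₗ[ℚ] (Fin 2 → ℂ) where
  toFun x := ![3 * x 1, x 0]
  map_add' x y := by ext i; fin_cases i <;> simp [mul_add]
  map_smul' c x := by ext i; fin_cases i <;> simp

/-- exponent of `√3` in the `n`-th coefficient -/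
def ep (n : ℕ) : ℕ := if n % 4 = 3 then 1 else 0

/-- depletion at `B` -/
def dep (B : ℕ) (g : ℕ → ℤ) (n : ℕ) : ℤ := if n.Coprime B then g n else 0

/-- the part `n ≡ i mod 4` -/
def pc (i : ℕ) (g : ℕ → ℤ) (n : ℕ) : ℤ := if n % 4 = i then g n else 0

/-- the coefficient vector `g n • j^(ep n) v1` -/
def cv (P : Par R) (g : ℕ → ℤ) (n : ℕ) : Fin 3 → R := emb P ![(pc 1 g n : R), (pc 3 g n : R)]

end formulas

/-! ## the model -/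

/-- the curves `Y ⊆ K` -/
structure Mdl {C : Type} [Field C] (P : Par C) where
  Y : Type
  K : Type
  [fY : Field Y]
  [fK : Field K]
  [aY : Algebra C Y]
  [aK : Algebra C K]
  [aYK : Algebra Y K]
  [tw : IsScalarTower C Y K]
  [dYK : FiniteDimensional Y K]
  [sYK : Algebra.IsSeparable Y K]
  [rY : Algebra (RatFunc C) Y]
  [tY : IsScalarTower C (RatFunc C) Y]
  [dY : FiniteDimensional (RatFunc C) Y]
  [sY : Algebra.IsSeparable (RatFunc C) Y]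
  [rK : Algebra (RatFunc C) K]
  [tK : IsScalarTower C (RatFunc C) K]
  [dK : FiniteDimensional (RatFunc C) K]
  [sK : Algebra.IsSeparable (RatFunc C) K]
  A : Y
  B2 : Y
  u : Y
  B : K
  eqs : Eqs (P.map (algebraMap C Y)) A B2 u
  tr : Transcendental C u
  gen : IntermediateField.adjoin C {A, B2, u} = ⊤
  hB : B ^ 2 = algebraMap Y K B2
  genK : IntermediateField.adjoin Y {B} = ⊤
  nB : B ∉ Set.range (algebraMap Y K)
  r : K ≃ₐ[C] K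
  rA : r (algebraMap Y K A) = -B
  rB : r B = algebraMap Y K A
  ru : r (algebraMap Y K u) =
    xu (P.map (algebraMap C K)) (algebraMap Y K A) B (algebraMap Y K u)

attribute [instance] Mdl.fY Mdl.fK Mdl.aY Mdl.aK Mdl.aYK Mdl.tw Mdl.dYK Mdl.sYK Mdl.rY Mdl.tY Mdl.dY
  Mdl.sY Mdl.rK Mdl.tK Mdl.dK Mdl.sK

namespace Mdl

variable {C : Type} [Field C] [IsAlgClosed C] {P : Par C} (M : Mdl P)

/-- `r` as a semilinear isomorphism -/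
def rS : SI C M.K C M.K := ⟨RingEquiv.refl C, M.r.toRingEquiv, fun c => M.r.commutes c⟩

/-- the correspondence `j` -/
def j : Pic C M.Y →+ Pic C M.Y :=
  (Wp.pushP M.Y).comp (M.rS.pic.toAddMonoidHom.comp (Wp.conP M.K))

/-- the hyperelliptic coordinates -/
def z : M.Y := (P.map (algebraMap C M.Y)).z M.A M.B2 M.u
def w : M.Y := (P.map (algebraMap C M.Y)).w M.A M.B2 M.u

/-- `e` respects the `ℚ`-structure -/
def Fx (e : SI C M.Y C M.Y) : Prop :=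
  e.f M.A = M.A ∧ e.f M.B2 = M.B2 ∧ e.f M.u = M.u ∧ e.s P.p1 = P.p1 ∧ e.s P.p2 = P.p2 ∧ e.s P.t = P.t

/-- `e² - τ j^ε e + l` kills the `A`-part of the `3^m`-torsion -/
def Rel (e : SI C M.Y C M.Y) (l : ℕ) (τ : ℕ → ℤ) : Prop :=
  ∀ (m : ℕ) (x : Pic C M.Y), 3 ^ m • x = 0 →
    M.j (M.j (e.pic (e.pic x) - τ m • (M.j^[ep l] (e.pic x)) + l • x)) = 0

/-- `e² - τ e + l` kills the `E`-part of the `3^m`-torsion -/
def RelE (e : SI C M.Y C M.Y) (l : ℕ) (τ : ℕ → ℤ) : Prop :=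
  ∀ (m : ℕ) (x : Pic C M.Y), 3 ^ m • x = 0 →
    M.j (M.j (e.pic (e.pic x) - τ m • e.pic x + l • x)) =
      3 • (e.pic (e.pic x) - τ m • e.pic x + l • x)

/-- the matrix of `j` on the differentials -/
def IsMat (N : Matrix (Fin 3) (Fin 3) C) : Prop :=
  ∀ (D : Derivation C M.K M.K) (k : Fin 3),
    M.r (algebraMap M.Y M.K M.z) ^ (k : ℕ) * D (M.r (algebraMap M.Y M.K M.z)) /
        M.r (algebraMap M.Y M.K M.w) +
      M.r.symm (algebraMap M.Y M.K M.z) ^ (k : ℕ) * D (M.r.symm (algebraMap M.Y M.K M.z)) /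
        M.r.symm (algebraMap M.Y M.K M.w) =
    ∑ m : Fin 3, algebraMap C M.K (N k m) * (algebraMap M.Y M.K M.z ^ (m : ℕ) *
      D (algebraMap M.Y M.K M.z) / algebraMap M.Y M.K M.w)

end Mdl

/-- `e` is a Frobenius at `Q` -/
def Fr {P : Par Om} (M : Mdl P) (Q : Plc) (e : SI Om M.Y Om M.Y) : Prop :=
  M.Fx e ∧ ∃ σ : Gam, IsFr Q σ ∧ ∀ c, e.s c = σ c

/-- the `3`-adic integer with approximations `τ` is sent to `a / s` -/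
def Lim (τ : ℕ → ℤ) (a s : ℂ) : Prop :=
  ∀ u v : ℤ, (∀ m : ℕ, (3 : ℤ) ^ m ∣ u - τ m * v) ↔ (v : ℂ) * a = u * s

/-- **the link** -/
def Lk (del : ℚ) : Top.LkT := fun y N a =>
  ∃ (m p1 p2 p3 t D : ℤ) (P : Par Om) (M : Mdl P) (s3 : ℂ), Cert del m p1 p2 p3 t D ∧
    y = (-p1 : ℚ) / p2 ∧ Is P p1 p2 p3 t ∧ s3 ^ 2 = 3 ∧
    ∀ (Q : Plc) (e : SI Om M.Y Om M.Y), ¬ Q.rchar ∣ 3 * N → Fr M Q e →
      ∃ τ : ℕ → ℤ, M.Rel e Q.rchar τ ∧ Lim τ (a Q.rchar) (s3 ^ ep Q.rchar)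

/-! ## the model: leaves -/

/-- leaf EX: models exist -/
def ExStmt : Prop :=
  ∀ (C : Type) [Field C] [IsAlgClosed C] [CharZero C] (P : Par C), Nonempty (Mdl P)

/-- leaf GAL: the Galois action, commuting with `j` -/
def GalStmt : Prop :=
  ∀ (C : Type) [Field C] [IsAlgClosed C] [CharZero C] (P : Par C) (M : Mdl P),
    (∀ s : C ≃+* C, s P.p1 = P.p1 → s P.p2 = P.p2 → s P.t = P.t → ∃ e, M.Fx e ∧ e.s = s) ∧
    (∀ e e', M.Fx e → M.Fx e' → e.s = e'.s → e = e') ∧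
    ∀ e, M.Fx e → ∀ x, e.pic (M.j x) = M.j (e.pic x)

/-- leaf MO: the normal form and the automorphism `y` -/
def MoStmt : Prop :=
  ∀ (C : Type) [Field C] [IsAlgClosed C] [CharZero C] (P : Par C) (M : Mdl P),
    Hy.Hyp P.F M.z M.w ∧ P.F.natDegree = 7 ∧
    ∀ i : C, i ^ 2 = -1 → ∃ y : M.Y ≃ₐ[C] M.Y, y M.z = -M.z ∧ y M.w = algebraMap C M.Y i * M.w

/-- leaf MAT -/
def MatStmt : Prop :=
  ∀ (C : Type) [Field C] [IsAlgClosed C] [CharZero C] (P : Par C) (M : Mdl P), M.IsMat (Mx P)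

/-- leaf E-BLOCK -/
def EbStmt : Prop :=
  ∀ (P : Par Om) (M : Mdl P) (Q : Plc) (e : SI Om M.Y Om M.Y), Q.rchar ≠ 3 → Fr M Q e →
    ∃ τ : ℕ → ℤ, M.RelE e Q.rchar τ

/-! ## arithmetic side -/

/-- leaf INT -/
def IntStmt : Prop :=
  ∀ (N : ℕ) (a : ℕ → ℂ) (l : ℕ), 0 < N → Mod N a → l.Prime → ¬ l ∣ 3 * N → IsIntegral ℤ (a l)

/-- leaf RAT: rationality at the naive-good primes -/
def RatStmt : Prop :=
  ∀ (p1 p2 p3 t : ℤ) (P : Par Om) (M : Mdl P), Is P p1 p2 p3 t → ∃ B : ℕ, 0 < B ∧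
    ∀ (l : ℕ) (a s3 : ℂ), l.Prime → ¬ l ∣ B → s3 ^ 2 = 3 → IsIntegral ℤ a →
      (∀ (Q : Plc) (e : SI Om M.Y Om M.Y), Q.rchar = l → Fr M Q e →
        ∃ τ : ℕ → ℤ, M.Rel e l τ ∧ Lim τ a (s3 ^ ep l)) →
      ∃ n : ℤ, a = n * s3 ^ ep l ∧
        ∀ (Q : Plc) (e : SI Om M.Y Om M.Y), Q.rchar = l → Fr M Q e → M.Rel e l fun _ => n

/-- Hecke recursion for `g n √3^(ep n)` -/
structure Hk (L : ℕ) (g : ℕ → ℤ) : Prop where
  pos : 0 < L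
  dvd : 16 ∣ L
  one : g 1 = 1
  sup : ∀ n, ¬ n.Coprime L → g n = 0
  hrec : ∀ l : ℕ, l.Prime → ¬ l ∣ L → ∀ n : ℕ,
    g (l * n) + (if l ∣ n then (l : ℤ) * g (n / l) else 0) = 3 ^ (ep l * ep n) * g l * g n

/-- the two parts of `∑ g n q^n` are cusp forms of level `L` -/
structure Pair (L : ℕ) (g : ℕ → ℤ) (f : Fin 2 → ℍ → ℂ) : Prop where
  cs : ∀ i, f i ∈ CS (Gamma0 L) 2
  q1 : QS (fun n => (pc 1 g n : ℂ)) (f 0)
  q3 : QS (fun n => (pc 3 g n : ℂ)) (f 1)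

/-- leaf RATSM: rationality at all primes, the pair of cusp forms -/
def SmStmt : Prop :=
  ∃ (C : ℝ) (k : ℕ), ∀ (N B : ℕ) (a : ℕ → ℂ) (s3 : ℂ), 0 < N → 0 < B → s3 ^ 2 = 3 →
    (∀ s : ℂ ≃+* ℂ, Mod N fun l => s (a l)) →
    (∀ l : ℕ, l.Prime → ¬ l ∣ B → ∃ n : ℤ, a l = n * s3 ^ ep l) →
    ∃ (L : ℕ) (g : ℕ → ℤ) (f : Fin 2 → ℍ → ℂ), (L : ℝ) ≤ C * (N : ℝ) ^ k ∧ Hk L g ∧ Pair L g f ∧
      ∀ l : ℕ, l.Prime → ¬ l ∣ 3 * N * L → a l = g l * s3 ^ ep l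

/-- every formal solution is integral -/
def Integ (F : Om[X]) (a b : Fin 3 → Om) (c : ℕ → Fin 3 → Om) : Prop :=
  ∀ x w η : Fin 3 → PowerSeries Om,
    Hon.Sol F a b (fun k => PowerSeries.mk fun n => c n k / n) x w η → ∀ i n, 0 < n →
      IsIntegral ℤ (PowerSeries.coeff n (x i)) ∧ IsIntegral ℤ (PowerSeries.coeff n (w i))

/-- a base divisor -/
structure Base {k : Type*} [Field k] (F : k[X]) (a b : Fin 3 → k) : Prop where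
  inj : Function.Injective a
  ne : ∀ i, b i ≠ 0
  on : ∀ i, b i ^ 2 = F.eval (a i)

/-- leaf HONDA -/
def HondaStmt : Prop :=
  ∀ (p1 p2 p3 t : ℤ) (P : Par Om) (M : Mdl P) (L B0 : ℕ) (g : ℕ → ℤ) (a b : Fin 3 → Om),
    Is P p1 p2 p3 t → Hk L g → 0 < B0 → Base P.F a b →
    (∀ (Q : Plc) (e : SI Om M.Y Om M.Y), ¬ Q.rchar ∣ B0 → Fr M Q e →
      M.Rel e Q.rchar fun _ => g Q.rchar) →
    ∃ B m : ℕ, 0 < B ∧ 0 < m ∧ Integ P.F a b fun n => (m : Om) • cv P (dep B g) n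

/-! ## complex side -/

/-- the automorphisms of `ℂ` which fix the normal form -/
def Gs (P : Par ℂ) : Subgroup (RingAut ℂ) where
  carrier := {s | s P.p1 = P.p1 ∧ s P.p2 = P.p2 ∧ s P.t = P.t ∧ s P.al = P.al ∧ s P.be = P.be}
  one_mem' := ⟨rfl, rfl, rfl, rfl, rfl⟩
  mul_mem' {s s'} h h' := by
    obtain ⟨a, b, c, d, e⟩ := h
    obtain ⟨a', b', c', d', e'⟩ := h'
    refine ⟨?_, ?_, ?_, ?_, ?_⟩ <;> show s (s' _) = _ <;> simp [*]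
  inv_mem' {s} h := by
    obtain ⟨a, b, c, d, e⟩ := h
    refine ⟨?_, ?_, ?_, ?_, ?_⟩ <;> show s.symm _ = _ <;> rw [RingEquiv.symm_apply_eq] <;> simp [*]

/-- the analytic Jacobian of `w² = F`, genus three, `cl P = [P - ∞]` -/
structure Lt (F : ℂ[X]) {A : Type} [AddCommGroup A] (cl : ℂ × ℂ → A)
    (ex : (Fin 3 → ℂ) →+ A) : Prop where
  cls : Mum.Cls F 3 cl
  dat : Ax.Dat F 3 cl 0
  exp : Ax.IsExp F 3 cl ex

/-- the relations of the quaternion group on the torsion -/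
def Irr (G A : Type) [Group G] [AddCommGroup A] [DistribMulAction G A] : Prop :=
  ∀ l e : ℕ, l.Prime → ∃ σ τ : G, ∀ x : A, l ^ e • x = 0 →
    σ • σ • x = -x ∧ τ • σ • x = -(σ • τ • x)

/-- the Jacobian with `j`, `y` and the Galois action -/
structure Jc (P : Par ℂ) where
  A : Type
  [grp : AddCommGroup A]
  [act : DistribMulAction (Gs P) A]
  cl : ℂ × ℂ → A
  ex : (Fin 3 → ℂ) →+ A
  j : A →+ A
  y : A →+ A
  lt : Lt P.F cl ex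
  act_cl : ∀ (s : Gs P) (a b : ℂ), b ^ 2 = P.F.eval a → s • cl (a, b) = cl (s.1 a, s.1 b)
  act_j : ∀ (s : Gs P) (x : A), s • j x = j (s • x)
  j_ex : ∀ v, j (ex v) = ex (Mx P *ᵥ v)
  y_cl : ∀ a b : ℂ, b ^ 2 = P.F.eval a → y (cl (a, b)) = cl (-a, Complex.I * b)

attribute [instance] Jc.grp Jc.act

/-- leaf END -/
def EndStmt : Prop :=
  ∀ (P : Par ℂ) (M : Mdl P) (N : Matrix (Fin 3) (Fin 3) ℂ) (cl : ℂ × ℂ → Pic ℂ M.Y)
    (ex : (Fin 3 → ℂ) →+ Pic ℂ M.Y), Hy.Hyp P.F M.z M.w → M.IsMat N →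
    (∀ a b, cl (a, b) = cls (Finsupp.single (Hy.pt M.z M.w a b) 1)) → Ax.IsExp P.F 3 cl ex →
    ∀ v, M.j (ex v) = ex (N *ᵥ v)

/-- leaf IRR (inertia and Frobenius at `7` and at `19`) -/
def IrrStmt : Prop :=
  ∀ (del : ℚ) (m p1 p2 p3 t D : ℤ) (P : Par ℂ) (Y : Type) [Field Y] [Algebra ℂ Y]
    [Algebra (RatFunc ℂ) Y] [IsScalarTower ℂ (RatFunc ℂ) Y] [FiniteDimensional (RatFunc ℂ) Y]
    [Algebra.IsSeparable (RatFunc ℂ) Y] (z w : Y), Cert del m p1 p2 p3 t D → Is P p1 p2 p3 t →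
    Hy.Hyp P.F z w → ∀ l n : ℕ, l.Prime → ∃ e e' : SI ℂ Y ℂ Y, e.s ∈ Gs P ∧ e'.s ∈ Gs P ∧
      e.f z = z ∧ e.f w = w ∧ e'.f z = z ∧ e'.f w = w ∧ ∀ x : Pic ℂ Y, l ^ n • x = 0 →
        e.pic (e.pic x) = -x ∧ e'.pic (e.pic x) = -e.pic (e'.pic x)

/-- the package -/
def JcStmt : Prop :=
  ∀ (del : ℚ) (m p1 p2 p3 t D : ℤ) (P : Par ℂ), Cert del m p1 p2 p3 t D → Is P p1 p2 p3 t →
    ∃ J : Jc P, Irr (Gs P) J.A

/-- glue JC -/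
def JcGlue : Prop := ExStmt → GalStmt → MoStmt → MatStmt → EndStmt → IrrStmt → JcStmt

/-- the period vector -/
def pv {ι : Type} (h : ι → ℍ → ℂ) (γ : SL(2, ℤ)) : ι → ℂ :=
  fun k => 2 * Real.pi * Complex.I * per (h k) γ

/-- the period module -/
def I0 (L : ℕ) (f : Fin 2 → ℍ → ℂ) : Submodule ℤ (Fin 2 → ℂ) :=
  Submodule.span ℤ (pv f '' (Gamma0 L : Set SL(2, ℤ)))

/-- cusp forms with given coefficients -/
def Cf (L : ℕ) (c : ℕ → Fin 3 → ℂ) (h : Fin 3 → ℍ → ℂ) : Prop :=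
  ∀ k, h k ∈ CS (Gamma0 L) 2 ∧ QS (fun n => c n k) (h k)

/-- leaf DEP -/
def DepStmt : Prop :=
  ∀ (L B : ℕ) (g : ℕ → ℤ) (f : Fin 2 → ℍ → ℂ), 0 < L → 0 < B → Pair L g f →
    ∃ (L' : ℕ) (f' : Fin 2 → ℍ → ℂ), 0 < L' ∧ Pair L' (dep B g) f'

/-- leaf BR: integral formal solutions have torsion periods -/
def BrStmt : Prop :=
  ∀ (ι : Om →+* ℂ) (F : Om[X]) (A : Type) [AddCommGroup A] (cl : ℂ × ℂ → A)
    (ex : (Fin 3 → ℂ) →+ A) (L : ℕ) (c : ℕ → Fin 3 → Om) (a b : Fin 3 → Om)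
    (K0 : IntermediateField ℚ Om) (h : Fin 3 → ℍ → ℂ), Lt (F.map ι) cl ex → 0 < L →
    FiniteDimensional ℚ K0 → (∀ n k, c n k ∈ K0) → Base F a b → Integ F a b c →
    (∀ σ : Om →+* ℂ, ∃ h', Cf L (fun n k => σ (c n k)) h') → Cf L (fun n k => ι (c n k)) h →
    ∀ γ ∈ Gamma0 L, ∃ m : ℕ, 0 < m ∧ m • ex (pv h γ) = 0

/-- leaf PER: removing the depletion, commensurability -/
def PerStmt : Prop :=
  ∀ (L L' B : ℕ) (g : ℕ → ℤ) (f f' : Fin 2 → ℍ → ℂ) (Λ : Submodule ℤ (Fin 2 → ℂ))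
    [Module.Finite ℤ Λ], Hk L g → Pair L g f → 0 < B → 0 < L' → Pair L' (dep B g) f' →
    Module.finrank ℤ Λ = 4 → (∀ x ∈ Λ, J2 x ∈ Λ) →
    (∀ γ ∈ Gamma0 L', ∃ m : ℕ, 0 < m ∧ m • pv f' γ ∈ Λ) →
    ∃ k : ℕ, 0 < k ∧ (∀ v ∈ I0 L f, (k : ℚ) • v ∈ Λ) ∧
      ∀ x ∈ Λ, ∃ v ∈ I0 L f, ∃ w ∈ I0 L f, (k : ℚ) • x = v + J2 w

/-- leaf STAB -/
def StabStmt : Prop :=
  ∀ (F : ℂ[X]) (A : Type) [AddCommGroup A] (cl : ℂ × ℂ → A) (ex : (Fin 3 → ℂ) →+ A)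
    (s : ℂ ≃+* ℂ) (T : A →+ A) (L : ℕ) (c : ℕ → Fin 3 → ℂ) (h : Fin 3 → ℍ → ℂ), Lt F cl ex →
    F.map (s : ℂ →+* ℂ) = F → (∀ a b, b ^ 2 = F.eval a → T (cl (a, b)) = cl (s a, s b)) → 0 < L →
    Cf L c h → (∀ n k, s (c n k) = c n k) →
    (∀ γ ∈ Gamma0 L, ∃ m : ℕ, 0 < m ∧ m • ex (pv h γ) = 0) →
    ∀ γ ∈ Gamma0 L, ∃ γ' ∈ Gamma0 L, T (ex (pv h γ)) = ex (pv h γ')

/-- leaf SCAL: the finite places -/
def ScalStmt : Prop :=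
  ∀ (c0 a1 a2 a3 : ℂ) (A : Type) [AddCommGroup A] (cl : ℂ × ℂ → A) (ex : (Fin 3 → ℂ) →+ A)
    (L : ℕ) (c : ℕ → Fin 3 → ℂ) (h : Fin 3 → ℍ → ℂ), Lt (Mo.Fm c0 a1 a2 a3) cl ex → 3 ≤ L →
    Cf L c h → (∃ S : Submodule ℤ ℂ, S.FG ∧ ∀ n, c n 1 ∈ S) →
    (∀ γ ∈ Gamma0 L, ex (pv h γ) = 0) → ∀ (v : Valuation ℂ ℝ≥0) (n : ℕ),
      v ((1944 * (L * c n 1)) ^ 4 * Sc3.T1 c0 a1 a2 a3) ≤ 1 ∧
      v ((1944 * (L * c n 1)) ^ 4 * Sc3.T2 c0 a1 a2 a3) ≤ 1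

/-- leaf VAL -/
def ValStmt : Prop := ∀ l : ℕ, l.Prime → ∃ v : Valuation ℂ ℝ≥0, v l < 1

/-- real determinant -/
def rdet (x : Fin 2 ⊕ Fin 2 → Fin 2 → ℂ) : ℝ := (Matrix.of fun k => Hab.ri (x k)).det

/-- the period lattice of the `A`-part -/
def Jc.Lam {P : Par ℂ} (J : Jc P) : Submodule ℤ (Fin 2 → ℂ) :=
  AddSubgroup.toIntSubmodule (J.ex.comp (emb P)).ker

/-- leaf COV -/
def CovStmt (del : ℚ) : Prop :=
  ∃ C0 : ℝ, ∀ (m p1 p2 p3 t D : ℤ) (P : Par ℂ) (J : Jc P), Cert del m p1 p2 p3 t D →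
    Is P p1 p2 p3 t → Module.Finite ℤ J.Lam ∧ Module.finrank ℤ J.Lam = 4 ∧
      ∃ x : Fin 2 ⊕ Fin 2 → Fin 2 → ℂ, (∀ i, x i ∈ J.Lam) ∧ rdet x ≠ 0 ∧
        |rdet x| ≤ C0 * |(D : ℝ)| * (p2 : ℝ) ^ 4

/-- leaf ARCH -/
def ArchStmt : Prop :=
  ∃ (C : ℝ) (k : ℕ), ∀ (L : ℕ) (g : ℕ → ℤ) (f : Fin 2 → ℍ → ℂ) (a b : ℚ)
    (x : Fin 2 ⊕ Fin 2 → Fin 2 → ℂ), Hk L g → Pair L g f →
    (∀ i, ∃ v ∈ I0 L f, ∃ w ∈ I0 L f, (64 : ℚ) • x i = a • (v + J2 w) + b • J2 (v + J2 w)) →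
    rdet x ≠ 0 → a ^ 2 - 3 * b ^ 2 ≠ 0 ∧
      ((a ^ 2 - 3 * b ^ 2 : ℚ) : ℝ) ^ 2 ≤ Real.exp (C * (L : ℝ) ^ k) * |rdet x|

/-- FINAL ASSEMBLY -/
def HtGlue : Prop :=
  ∀ del : ℚ, GalStmt → IntStmt → RatStmt → SmStmt → HondaStmt → JcStmt → DepStmt → BrStmt →
    PerStmt → StabStmt → ScalStmt → ValStmt → CovStmt del → ArchStmt → Top.HtStmt (Lk del)

end Crest.Agent.T15.Ht
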