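import Crest.Agent.T15.BrF_37
import Crest.Agent.T15.HtDef_95

/-!
# Row 15, block Ht: the leaf `BrStmt`
-/

set_option autoImplicit false

namespace Crest.Agent.T15.Br

open CongruenceSubgroup

/-- **leaf BR** -/
theorem brStmt : Ht.BrStmt := by
  intro ι F A _ cl ex L c a b K0 h lt hL hK hc base hI hσ hι γ hγ
  have : NeZero L := ⟨hL.ne'⟩
  have : Algebra.IsAlgebraic ℚ (AlgebraicClosure ℚ) := AlgebraicClosure.isAlgebraic ℚ
  exact periods_alg ι lt.cls lt.exp K0 hc base.inj base.ne base.on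
    (fun x w η hs i n hn => (hI x w η hs i n hn).1) (by rw [Gamma0_mem]; simp [ModularGroup.T])
    (fun σ k => (hσ σ).elim fun h' e => ⟨h' k, e k⟩) (fun k => (hι k).1) (fun k => (hι k).2) hγ

end Crest.Agent.T15.Br
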