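import Crest.Agent.T15.MDef_7

/-!
# Row 15, block C (helper28): the field `ℚ(i)`, `qiStmt : QiStmt`, and the dictionary between
Gaussian primes, primes of `Ki j`, places and the subgroup of `Gam` fixing `i`
-/

set_option autoImplicit false

noncomputable section

namespace Crest.Agent.T15.Qi

open NumberField IsDedekindDomain Crest.Agent.R018.Placesx484 Crest.Agent.T15.Art
  Crest.Agent.T15.Ex Crest.Agent.T15.C

variable (j : Zi →+* 𝓞 Om)

theorem ii_sq : ii * ii = -1 := by decide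

theorem zi_eq (x : Zi) : x = (x.re : Zi) + (x.im : Zi) * ii := by
  ext <;> simp [ii]

theorem dl_mul : dl j * dl j = -1 := by
  have h : j ii * j ii = -1 := by rw [← map_mul, ii_sq, map_neg, map_one]
  exact_mod_cast congrArg (fun x : 𝓞 Om => (x : Om)) h

theorem dl_sq : dl j ^ 2 = -1 := by rw [sq, dl_mul]

theorem j_eq (x : Zi) : ((j x : 𝓞 Om) : Om) = x.re + x.im * dl j := by
  conv_lhs => rw [zi_eq x]
  simp

theorem j_star (x : Zi) : ((j (star x) : 𝓞 Om) : Om) = x.re - x.im * dl j := by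
  rw [j_eq]; simp [sub_eq_add_neg]

theorem j_injective : Function.Injective j := by
  rw [injective_iff_map_eq_zero]
  intro x hx
  have h := congrArg j (Zsqrtd.norm_eq_mul_conj x)
  rw [map_mul, hx, zero_mul, map_intCast] at h
  exact GaussianInt.norm_eq_zero.1 (by exact_mod_cast h)

theorem apply_dl (g : Gam) : g (dl j) = dl j ∨ g (dl j) = -dl j := by
  have : g (dl j) * g (dl j) = dl j * dl j := by rw [← map_mul, dl_mul]; simp
  exact mul_self_eq_mul_self_iff.1 this

theorem dl_ne_neg : dl j ≠ -dl j := by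
  intro h
  have h0 : dl j = 0 := by linear_combination h / 2
  have := dl_mul j
  rw [h0] at this; norm_num at this

theorem smul_j {g : Gam} (h : g (dl j) = dl j) (x : Zi) : g • j x = j x := by
  apply RingOfIntegers.coe_injective
  show g ((j x : 𝓞 Om) : Om) = ((j x : 𝓞 Om) : Om)
  rw [j_eq]; simp [h]

theorem smul_j' {g : Gam} (h : g (dl j) = -dl j) (x : Zi) : g • j x = j (star x) := by
  apply RingOfIntegers.coe_injective
  show g ((j x : 𝓞 Om) : Om) = ((j (star x) : 𝓞 Om) : Om)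
  rw [j_star, j_eq]; simp [h, sub_eq_add_neg]

theorem dl_mem : dl j ∈ Ki j := IntermediateField.mem_adjoin_simple_self ℚ _

theorem j_mem (x : Zi) : ((j x : 𝓞 Om) : Om) ∈ Ki j := by
  rw [j_eq]
  exact add_mem (intCast_mem _ _) (mul_mem (intCast_mem _ _) (dl_mem j))

theorem mem_Ki {z : Om} : z ∈ Ki j ↔ ∃ a b : ℚ, z = a + b * dl j := by
  constructor
  · intro hz
    induction hz using IntermediateField.adjoin_induction with
    | mem x hx => exact ⟨0, 1, by simpa using hx⟩
    | algebraMap x => exact ⟨x, 0, by simp⟩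
    | add x y _ _ hx hy =>
      obtain ⟨a, b, rfl⟩ := hx
      obtain ⟨c, d, rfl⟩ := hy
      exact ⟨a + c, b + d, by push_cast; ring⟩
    | inv x _ hx =>
      obtain ⟨a, b, rfl⟩ := hx
      by_cases h0 : (a : Om) + b * dl j = 0
      · exact ⟨0, 0, by simp [h0]⟩
      have h1 : (a : Om) - b * dl j ≠ 0 := by
        intro h
        have h2 : (a : Om) ^ 2 + b ^ 2 = 0 := by
          linear_combination (a + b * dl j) * h + (b : Om) ^ 2 * dl_mul j
        have h3 : a ^ 2 + b ^ 2 = 0 := by exact_mod_cast h2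
        have ha : a = 0 := by nlinarith [sq_nonneg a, sq_nonneg b]
        have hb : b = 0 := by nlinarith [sq_nonneg a, sq_nonneg b]
        exact h0 (by simp [ha, hb])
      have h2 : (a : Om) ^ 2 + b ^ 2 = (a + b * dl j) * (a - b * dl j) := by
        linear_combination (b : Om) ^ 2 * dl_mul j
      refine ⟨a / (a ^ 2 + b ^ 2), -b / (a ^ 2 + b ^ 2), ?_⟩
      push_cast
      rw [h2]; field_simp; ring
    | mul x y _ _ hx hy =>
      obtain ⟨a, b, rfl⟩ := hx
      obtain ⟨c, d, rfl⟩ := hy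
      exact ⟨a * c - b * d, a * d + b * c, by
        push_cast; linear_combination (b * d : Om) * dl_mul j⟩
  · rintro ⟨a, b, rfl⟩
    exact add_mem (SubfieldClass.ratCast_mem _ _)
      (mul_mem (SubfieldClass.ratCast_mem _ _) (dl_mem j))

instance finKi : FiniteDimensional ℚ (Ki j) :=
  IntermediateField.adjoin.finiteDimensional (Algebra.IsIntegral.isIntegral _)

instance nfKi : NumberField (Ki j) := NumberField.of_module_finite ℚ _

instance tcKi : IsTotallyComplex (Ki j) where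
  isComplex v := by
    rw [← InfinitePlace.not_isReal_iff_isComplex]
    intro hv
    have h : (⟨dl j, dl_mem j⟩ : Ki j) * ⟨dl j, dl_mem j⟩ = -1 := Subtype.ext (dl_mul j)
    have := congrArg (InfinitePlace.embedding_of_isReal hv) h
    rw [map_mul, map_neg, map_one] at this
    nlinarith [mul_self_nonneg (InfinitePlace.embedding_of_isReal hv ⟨dl j, dl_mem j⟩)]

/-- `ℤ[i] → ℚ(i)` -/
def jK : Zi →+* Ki j := ((algebraMap (𝓞 Om) Om).comp j).codRestrict (Ki j) (j_mem j)

@[simp] theorem coe_jK (x : Zi) : (jK j x : Om) = ((j x : 𝓞 Om) : Om) := rfl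

theorem jK_injective : Function.Injective (jK j) := fun _ _ h =>
  j_injective j (RingOfIntegers.coe_injective (congrArg (fun z : Ki j => (z : Om)) h))

theorem jK_ne {x : Zi} (hx : x ≠ 0) : jK j x ≠ 0 := (map_ne_zero_iff _ (jK_injective j)).2 hx

theorem exists_jK_div (z : Ki j) : ∃ (x : Zi) (n : ℕ), n ≠ 0 ∧ z = jK j x / n := by
  obtain ⟨a, b, h⟩ := (mem_Ki j).1 z.2
  refine ⟨⟨a.num * b.den, b.num * a.den⟩, a.den * b.den, mul_ne_zero a.den_nz b.den_nz,
    Subtype.ext ?_⟩
  have ha : (a.den : Om) ≠ 0 := by exact_mod_cast a.den_nz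
  have hb : (b.den : Om) ≠ 0 := by exact_mod_cast b.den_nz
  push_cast
  rw [coe_jK, j_eq, h, Rat.cast_def a, Rat.cast_def b]
  push_cast
  field_simp

theorem isIntegral_jK (x : Zi) : IsIntegral ℤ (jK j x) :=
  (isIntegral_algHom_iff (Ki j).val.toRingHom.toIntAlgHom Subtype.val_injective).1
    (RingOfIntegers.isIntegral_coe (j x))

/-- `ℤ[i] → 𝓞 ℚ(i)` -/
def jO : Zi →+* 𝓞 (Ki j) := (jK j).codRestrict (integralClosure ℤ (Ki j)) (isIntegral_jK j)

theorem jO_bijective : Function.Bijective (jO j) := by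
  refine ⟨fun _ _ h => jK_injective j (congrArg Subtype.val h), fun z => ?_⟩
  let _ : Algebra Zi (Ki j) := (jK j).toAlgebra
  have : FaithfulSMul Zi (Ki j) := (faithfulSMul_iff_algebraMap_injective _ _).2 (jK_injective j)
  have : IsFractionRing Zi (Ki j) := IsFractionRing.of_field _ _ fun z => by
    obtain ⟨x, n, -, h⟩ := exists_jK_div j z
    exact ⟨x, n, by rw [h, map_natCast]; rfl⟩
  obtain ⟨x, hx⟩ := (IsIntegrallyClosed.isIntegral_iff (R := Zi) (K := Ki j) (x := (z : Ki j))).1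
    (RingOfIntegers.isIntegral_coe z).tower_top
  exact ⟨x, RingOfIntegers.coe_injective hx⟩

/-- `ℤ[i] ≃ 𝓞 ℚ(i)` -/
def eO : Zi ≃+* 𝓞 (Ki j) := RingEquiv.ofBijective (jO j) (jO_bijective j)

@[simp] theorem coe_eO (x : Zi) : (eO j x : Ki j) = jK j x := rfl

theorem algebraMap_eO (x : Zi) : algebraMap (𝓞 (Ki j)) (𝓞 Om) (eO j x) = j x :=
  RingOfIntegers.coe_injective rfl

theorem algebraMap_jK (x : Zi) : algebraMap (Ki j) Om (jK j x) = ((j x : 𝓞 Om) : Om) := rfl

/-- **leaf QI** -/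
theorem qiStmt : QiStmt := fun j => ⟨inferInstance, inferInstance, eO j, algebraMap_eO j⟩

instance pidKi : IsPrincipalIdealRing (𝓞 (Ki j)) :=
  IsPrincipalIdealRing.of_surjective (eO j).toRingHom (eO j).surjective

/-! ### the Galois group of `ℚ(i)` -/

/-- the Galois group of `Om / ℚ(i)` -/
abbrev GK : Type := Om ≃ₐ[Ki j] Om

/-- `Gal(Om/ℚ(i)) → Gam` -/
def dn : GK j →* Gam where
  toFun t := t.restrictScalars ℚ
  map_one' := rfl
  map_mul' _ _ := rfl

@[simp] theorem dn_apply (t : GK j) (x : Om) : dn j t x = t x := rfl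

theorem dn_smul (t : GK j) (x : 𝓞 Om) : dn j t • x = t • x := rfl

theorem dn_smul_place (t : GK j) (P : Place Om) : dn j t • P = t • P := by
  ext x
  rw [Place.mem_smul_ideal, Place.mem_smul_ideal, ← map_inv, dn_smul]

theorem dn_dl (t : GK j) : dn j t (dl j) = dl j := t.commutes ⟨dl j, dl_mem j⟩

theorem dn_injective : Function.Injective (dn j) := fun _ _ h =>
  AlgEquiv.ext fun x => by rw [← dn_apply, h, dn_apply]

/-- an automorphism fixing `i` as an automorphism over `ℚ(i)` -/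
def up (s : Gam) (h : s (dl j) = dl j) : GK j :=
  { s with
    commutes' := fun z => by
      obtain ⟨a, b, e⟩ := (mem_Ki j).1 z.2
      show s (z : Om) = z
      rw [e]; simp [h] }

@[simp] theorem up_apply (s : Gam) (h : s (dl j) = dl j) (x : Om) : up j s h x = s x := rfl

@[simp] theorem dn_up (s : Gam) (h : s (dl j) = dl j) : dn j (up j s h) = s := rfl

theorem up_dn (t : GK j) (h : dn j t (dl j) = dl j) : up j (dn j t) h = t := rfl

theorem up_mul (s t : Gam) (hs : s (dl j) = dl j) (ht : t (dl j) = dl j)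
    (h : (s * t) (dl j) = dl j) : up j (s * t) h = up j s hs * up j t ht := rfl

theorem up_one (h : (1 : Gam) (dl j) = dl j) : up j 1 h = 1 := rfl

theorem exists_dn {s : Gam} (h : s (dl j) = dl j) : ∃ t, dn j t = s := ⟨up j s h, rfl⟩

theorem mem_range_dn {s : Gam} : s ∈ (dn j).range ↔ s (dl j) = dl j :=
  ⟨by rintro ⟨t, rfl⟩; exact dn_dl j t, exists_dn j⟩

theorem dn_mem_In {P : Place Om} {t : GK j} : dn j t ∈ In P ↔ t ∈ P.ideal.inertia (GK j) :=
  Iff.rfl

theorem isOpen_iff {K : Type} [Field K] [Algebra K Om] [IsGalois K Om]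
    (U : Subgroup (Om ≃ₐ[K] Om)) : IsOpen (U : Set (Om ≃ₐ[K] Om)) ↔
      ∃ s : Finset Om, ∀ g : Om ≃ₐ[K] Om, (∀ x ∈ s, g x = x) → g ∈ U := by
  constructor
  · intro h
    obtain ⟨L, hL, h2⟩ := (krullTopology_mem_nhds_one_iff K Om _).1 (h.mem_nhds U.one_mem)
    obtain ⟨s, hs⟩ : L.FG := by
      have := IntermediateField.fg_of_fg_toSubalgebra L
        (Subalgebra.fg_of_fg_toSubmodule ((Submodule.fg_top _).1
          (Module.finite_def.1 (show Module.Finite K L.toSubalgebra.toSubmodule from hL))))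
      exact this
    refine ⟨s, fun g hg => h2 ?_⟩
    rw [← hs]
    show g ∈ IntermediateField.fixingSubgroup _
    rw [IntermediateField.mem_fixingSubgroup_iff]
    intro x hx
    have : IntermediateField.adjoin K (s : Set Om) ≤
        IntermediateField.fixedField (Subgroup.zpowers g) :=
      IntermediateField.adjoin_le_iff.2 fun y hy => by
        rintro ⟨_, n, rfl⟩
        exact MulAction.fixedBy_subset_fixedBy_zpow Om g n (hg y hy)
    exact this hx ⟨g, Subgroup.mem_zpowers g⟩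
  · rintro ⟨s, hs⟩
    have : FiniteDimensional K (IntermediateField.adjoin K (s : Set Om)) :=
      IntermediateField.finiteDimensional_adjoin fun x _ => Algebra.IsIntegral.isIntegral x
    refine Subgroup.isOpen_mono (H₁ := (IntermediateField.adjoin K (s : Set Om)).fixingSubgroup)
      (fun g hg => hs g fun x hx => ?_) (IntermediateField.fixingSubgroup_isOpen _)
    exact (IntermediateField.mem_fixingSubgroup_iff _ _).1 hg x
      (IntermediateField.subset_adjoin K _ hx)

theorem isOpen_comap {U : Subgroup Gam} (h : IsOpen (U : Set Gam)) :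
    IsOpen (U.comap (dn j) : Set (GK j)) := by
  obtain ⟨s, hs⟩ := (isOpen_iff U).1 h
  exact (isOpen_iff _).2 ⟨s, fun g hg => hs _ hg⟩

theorem isOpen_map {U : Subgroup (GK j)} (h : IsOpen (U : Set (GK j))) :
    IsOpen (U.map (dn j) : Set Gam) := by
  classical
  obtain ⟨s, hs⟩ := (isOpen_iff U).1 h
  refine (isOpen_iff _).2 ⟨insert (dl j) s, fun g hg => ?_⟩
  exact ⟨up j g (hg _ (Finset.mem_insert_self _ _)),
    hs _ fun x hx => hg x (Finset.mem_insert_of_mem hx), rfl⟩

theorem isOpen_ker_comp {M : Type*} [Monoid M] {f : Gam →* M} (h : IsOpen (f.ker : Set Gam)) :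
    IsOpen ((f.comp (dn j)).ker : Set (GK j)) := isOpen_comap j h

theorem isOpen_range : IsOpen ((dn j).range : Set Gam) := by
  rw [MonoidHom.range_eq_map]; exact isOpen_map j isOpen_univ

/-! ### primes -/

/-- the prime of `ℚ(i)` generated by a Gaussian prime -/
def prx (x : Zi) (hx : Prime x) : Pr (Ki j) :=
  have h : Prime (eO j x) := (MulEquiv.prime_iff (eO j)).2 hx
  ⟨Ideal.span {eO j x}, (Ideal.span_singleton_prime h.ne_zero).2 h, by simpa using hx.ne_zero⟩

theorem prx_asIdeal (x : Zi) (hx : Prime x) : (prx j x hx).asIdeal = Ideal.span {eO j x} := rfl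

theorem mem_prx {x : Zi} (hx : Prime x) (y : Zi) : eO j y ∈ (prx j x hx).asIdeal ↔ x ∣ y := by
  rw [prx_asIdeal, Ideal.mem_span_singleton, map_dvd_iff]

theorem exists_prx (w : Pr (Ki j)) : ∃ (x : Zi) (hx : Prime x), prx j x hx = w := by
  obtain ⟨a, ha⟩ := (IsPrincipalIdealRing.principal w.asIdeal).principal
  obtain ⟨x, rfl⟩ := (eO j).surjective a
  have ha' : w.asIdeal = Ideal.span {eO j x} := ha
  have h0 : eO j x ≠ 0 := fun h => w.ne_bot (by rw [ha', h]; simp)
  have hp : Prime (eO j x) := (Ideal.span_singleton_prime h0).1 (ha' ▸ w.isPrime)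
  exact ⟨x, (MulEquiv.prime_iff (eO j)).1 hp, HeightOneSpectrum.ext ha'.symm⟩

theorem prx_eq_iff {x y : Zi} (hx : Prime x) (hy : Prime y) :
    prx j x hx = prx j y hy ↔ Associated x y := by
  rw [HeightOneSpectrum.ext_iff, prx_asIdeal, prx_asIdeal, Ideal.span_singleton_eq_span_singleton]
  exact ⟨fun h => by simpa using h.map (eO j).symm, fun h => h.map (eO j)⟩

theorem mem_pr (P : Place Om) (y : Zi) : eO j y ∈ (pr (Ki j) P).asIdeal ↔ j y ∈ P.ideal := by
  rw [← algebraMap_eO]; rfl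

theorem pr_eq_prx {P : Place Om} {x : Zi} (hx : Prime x) :
    pr (Ki j) P = prx j x hx ↔ j x ∈ P.ideal := by
  rw [← mem_pr]
  constructor
  · intro h; rw [h, mem_prx]
  · intro h
    refine (HeightOneSpectrum.ext ((prx j x hx).isMaximal.eq_of_le (pr (Ki j) P).isPrime.ne_top
      ?_)).symm
    rwa [prx_asIdeal, Ideal.span_singleton_le_iff_mem]

theorem exists_prime_mem (P : Place Om) : ∃ x : Zi, Prime x ∧ j x ∈ P.ideal := by
  obtain ⟨x, hx, h⟩ := exists_prx j (pr (Ki j) P)
  exact ⟨x, hx, (pr_eq_prx j hx).1 h.symm⟩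

theorem exists_place {x : Zi} (hx : Prime x) : ∃ P : Place Om, j x ∈ P.ideal := by
  obtain ⟨P, hP⟩ := exists_pr (E := Om) (prx j x hx)
  exact ⟨P, (pr_eq_prx j hx).1 hP⟩

theorem mem_iff_dvd {P : Place Om} {x : Zi} (hx : Prime x) (h : j x ∈ P.ideal) (y : Zi) :
    j y ∈ P.ideal ↔ x ∣ y := by
  rw [← mem_pr, (pr_eq_prx j hx).2 h, mem_prx]

theorem rchar_dvd_iff {P : Place Om} {x : Zi} (hx : Prime x) (h : j x ∈ P.ideal) (n : ℕ) :
    P.rchar ∣ n ↔ x ∣ n := by
  rw [← mem_iff_dvd j hx h, map_natCast, P.natCast_mem_iff]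

theorem natCast_mem_pr (P : Place Om) (n : ℕ) :
    (n : 𝓞 (Ki j)) ∈ (pr (Ki j) P).asIdeal ↔ P.rchar ∣ n := by
  rw [← map_natCast (eO j), mem_pr, map_natCast, P.natCast_mem_iff]

theorem rchar_dvd_norm {P : Place Om} {x : Zi} (h : j x ∈ P.ideal) : P.rchar ∣ x.norm.natAbs := by
  rw [← P.natCast_mem_iff, ← Int.cast_natCast, Int.natAbs_of_nonneg (GaussianInt.norm_nonneg x), ← map_intCast j,
    Zsqrtd.norm_eq_mul_conj, map_mul]
  exact P.ideal.mul_mem_right _ h

/-- the norm of `ℤ[i]` over `ℤ` -/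
theorem algebraNorm_eq (x : Zi) : Algebra.norm ℤ x = x.norm := by
  let b : Module.Basis (Fin 2) ℤ Zi := Module.Basis.ofEquivFun
    { toFun := fun z => ![z.re, z.im]
      invFun := fun v => ⟨v 0, v 1⟩
      map_add' := fun a b => by ext i; fin_cases i <;> simp
      map_smul' := fun a b => by ext i; fin_cases i <;> simp
      left_inv := fun z => by simp
      right_inv := fun v => by ext i; fin_cases i <;> simp }
  rw [Algebra.norm_eq_matrix_det b, Matrix.det_fin_two]
  simp [Algebra.leftMulMatrix_eq_repr_mul, b, Zsqrtd.norm_def, Module.Basis.ofEquivFun]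

theorem absNorm_span (x : Zi) : Ideal.absNorm (Ideal.span {eO j x}) = x.norm.natAbs := by
  rw [Ideal.absNorm_span_singleton, ← algebraNorm_eq]
  exact congrArg _ (Algebra.norm_eq_of_algEquiv (eO j).toIntAlgEquiv x)

theorem absNorm_prx {x : Zi} (hx : Prime x) :
    Ideal.absNorm (prx j x hx).asIdeal = x.norm.natAbs := absNorm_span j x

theorem qv_eq_norm {P : Place Om} {x : Zi} (hx : Prime x) (h : j x ∈ P.ideal) :
    P.qv (Ki j) = x.norm.natAbs := by
  rw [qv_eq, (pr_eq_prx j hx).2 h, absNorm_prx]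

theorem isF_iff {P : Place Om} {x : Zi} (hx : Prime x) (h : j x ∈ P.ideal) (t : GK j) :
    IsF P t ↔ IsFr P x.norm.natAbs (dn j t) := by
  rw [IsF, qv_eq_norm j hx h]; rfl

/-- `Av` gives the values at Frobenius elements -/
theorem av_apply {A : Type*} [Group A] {T : Finset (Pr (Ki j))} {f : Pr (Ki j) → A}
    {ξ : GK j →* A} (h : Av T f ξ) {P : Place Om} {x : Zi} (hx : Prime x) (hP : j x ∈ P.ideal)
    (hT : prx j x hx ∉ T) {s : Gam} (hs : s (dl j) = dl j) (hF : IsFr P x.norm.natAbs s) :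
    ξ (up j s hs) = f (prx j x hx) := by
  rw [← (pr_eq_prx j hx).2 hP] at hT ⊢
  exact h P hT _ ((isF_iff j hx hP _).2 hF)

/-- the primes above `M` -/
theorem exists_above {M : ℕ} (hM : M ≠ 0) : ∃ T : Finset (Pr (Ki j)),
    (∀ w, w ∈ T ↔ (M : 𝓞 (Ki j)) ∈ w.asIdeal) ∧ (∀ P : Place Om, pr (Ki j) P ∈ T ↔ P.rchar ∣ M) ∧
      ∀ (x : Zi) (hx : Prime x), prx j x hx ∈ T ↔ x ∣ M := by
  have hf : {w : Pr (Ki j) | w.asIdeal ∣ Ideal.span {(M : 𝓞 (Ki j))}}.Finite :=
    Ideal.finite_factors (by simpa using hM)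
  have h1 : ∀ w, w ∈ hf.toFinset ↔ (M : 𝓞 (Ki j)) ∈ w.asIdeal := fun w => by
    rw [Set.Finite.mem_toFinset, Set.mem_ofPred_eq, Ideal.dvd_span_singleton]
  exact ⟨_, h1, fun P => by rw [h1, natCast_mem_pr],
    fun x hx => by rw [h1, ← map_natCast (eO j), mem_prx]⟩

/-! ### the homomorphism `ev f` on Gaussian integers -/

/-- a non-zero Gaussian integer as a unit of `ℚ(i)` -/
def uz (x : Zi) (hx : x ≠ 0) : (Ki j)ˣ := Units.mk0 (jK j x) (jK_ne j hx)

@[simp] theorem coe_uz (x : Zi) (hx : x ≠ 0) : (uz j x hx : Ki j) = jK j x := rfl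

theorem uz_mul {x y : Zi} (hx : x ≠ 0) (hy : y ≠ 0) (h : x * y ≠ 0) :
    uz j (x * y) h = uz j x hx * uz j y hy := Units.ext (map_mul (jK j) x y)

theorem uz_one (h : (1 : Zi) ≠ 0) : uz j 1 h = 1 := Units.ext (map_one (jK j))

section ev

variable {A : Type*} [CommGroup A] (f : Pr (Ki j) → A)

theorem ev_uz (x : Zi) (hx : x ≠ 0) : ev f (uz j x hx) = evI f (Ideal.span {eO j x}) :=
  ev_int f _ _ rfl

theorem ev_prime {x : Zi} (hx : Prime x) : ev f (uz j x hx.ne_zero) = f (prx j x hx) := by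
  rw [ev_uz]; exact evI_prime f (prx j x hx)

theorem ev_unit {x : Zi} (hx : IsUnit x) : ev f (uz j x hx.ne_zero) = 1 := by
  rw [ev_uz, Ideal.span_singleton_eq_top.2 (hx.map (eO j)), evI_top]

open Classical in
/-- `x ↦ ∏ f w ^ ord_w x` on Gaussian integers (`1` at `0`) -/
def evZ (x : Zi) : A := if hx : x = 0 then 1 else ev f (uz j x hx)

theorem evZ_eq {x : Zi} (hx : x ≠ 0) : evZ j f x = ev f (uz j x hx) := dif_neg hx

theorem evZ_mul {x y : Zi} (hx : x ≠ 0) (hy : y ≠ 0) :
    evZ j f (x * y) = evZ j f x * evZ j f y := by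
  rw [evZ_eq j f hx, evZ_eq j f hy, evZ_eq j f (mul_ne_zero hx hy), uz_mul j hx hy, map_mul]

theorem evZ_prime {x : Zi} (hx : Prime x) : evZ j f x = f (prx j x hx) := by
  rw [evZ_eq j f hx.ne_zero, ev_prime]

theorem evZ_unit {x : Zi} (hx : IsUnit x) : evZ j f x = 1 := by
  rw [evZ_eq j f hx.ne_zero, ev_unit j f hx]

theorem evZ_one : evZ j f 1 = 1 := evZ_unit j f isUnit_one

/-- a multiplicative function on Gaussian integers is `evZ` of its values at the primes -/
theorem evZ_ext {B : Type*} [CommMonoid B] (l : A →* B) (F : Zi → B) (Q : Zi → Prop)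
    (hQ : ∀ x y, Q (x * y) → Q x ∧ Q y) (hu : ∀ x, IsUnit x → F x = 1)
    (hm : ∀ x y, F (x * y) = F x * F y)
    (hp : ∀ (x : Zi) (hx : Prime x), Q x → l (f (prx j x hx)) = F x) {x : Zi} (hx : x ≠ 0)
    (h : Q x) : l (evZ j f x) = F x := by
  induction x using UniqueFactorizationMonoid.induction_on_prime with
  | h₁ => exact absurd rfl hx
  | h₂ x hx' => rw [evZ_unit j f hx', map_one, hu x hx']
  | h₃ a p ha hp' ih =>
    rw [evZ_mul j f hp'.ne_zero ha, map_mul, evZ_prime j f hp', hp p hp' (hQ _ _ h).1,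
      ih ha (hQ _ _ h).2, hm]

end ev

/-! ### valuations -/

theorem val_jK_le_one (w : Pr (Ki j)) (y : Zi) : w.valuation (Ki j) (jK j y) ≤ 1 :=
  w.valuation_le_one (eO j y)

theorem val_lt_one_iff {x : Zi} (hx : Prime x) (y : Zi) :
    (prx j x hx).valuation (Ki j) (jK j y) < 1 ↔ x ∣ y := by
  rw [← mem_prx j hx]
  exact (prx j x hx).valuation_lt_one_iff_mem (eO j y)

theorem val_eq_one_iff {x : Zi} (hx : Prime x) (y : Zi) :
    (prx j x hx).valuation (Ki j) (jK j y) = 1 ↔ ¬ x ∣ y := by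
  rw [← val_lt_one_iff j hx, not_lt]
  exact ⟨fun h => h.ge, fun h => le_antisymm (val_jK_le_one j _ y) h⟩

theorem val_self {x : Zi} (hx : Prime x) :
    (prx j x hx).valuation (Ki j) (jK j x) = WithZero.exp (-1 : ℤ) := by
  have := (prx j x hx).intValuation_singleton (r := eO j x) (by simpa using hx.ne_zero) rfl
  rw [← this]
  exact HeightOneSpectrum.valuation_of_algebraMap _ (eO j x)

theorem val_le_iff {x : Zi} (hx : Prime x) (y : Zi) (n : ℕ) :
    (prx j x hx).valuation (Ki j) (jK j y) ≤ WithZero.exp (-(n : ℤ)) ↔ x ^ n ∣ y := by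
  have h : (prx j x hx).valuation (Ki j) (jK j y) = (prx j x hx).intValuation (eO j y) :=
    HeightOneSpectrum.valuation_of_algebraMap _ (eO j y)
  rw [h, HeightOneSpectrum.intValuation_le_pow_iff_mem, prx_asIdeal, Ideal.span_singleton_pow,
    Ideal.mem_span_singleton, ← map_pow, map_dvd_iff]

theorem val_le_of_dvd (w : Pr (Ki j)) {y z : Zi} (h : y ∣ z) :
    w.valuation (Ki j) (jK j z) ≤ w.valuation (Ki j) (jK j y) := by
  obtain ⟨c, rfl⟩ := h
  rw [map_mul, map_mul]
  exact mul_le_of_le_one_right' (val_jK_le_one j w c)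

/-- `x ≡ y` modulo `c d` with `d ∈ w`, `y ∉ w`: then `x / y` is closer to `1` than `c` to `0` -/
theorem val_div_sub_one_lt {p : Zi} (hp : Prime p) {x y c : Zi} (hc : c ≠ 0) (hy : ¬ p ∣ y)
    (h : c * p ∣ x - y) : (prx j p hp).valuation (Ki j) (jK j x / jK j y - 1) <
      (prx j p hp).valuation (Ki j) (jK j c) := by
  have hy0 : y ≠ 0 := by rintro rfl; exact hy (dvd_zero _)
  rw [div_sub_one (jK_ne j hy0), ← map_sub, map_div₀, (val_eq_one_iff j hp y).2 hy, div_one]
  refine (val_le_of_dvd j _ h).trans_lt ?_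
  rw [map_mul, map_mul]
  exact mul_lt_of_lt_one_right (zero_lt_iff.2 ((Valuation.ne_zero_iff _).2 (jK_ne j hc)))
    ((val_lt_one_iff j hp p).2 dvd_rfl)

end Crest.Agent.T15.Qi
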