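import Crest.Agent.T15.CDef_7

/-!
# Row 15, block C: assembly of `TWStmt`
-/

set_option autoImplicit false

noncomputable section

open NumberField Module

namespace Crest.Agent.T15.TwAsm

open Crest.Agent.R018.Placesx484 Crest.Agent.T15.C Crest.Agent.T15.Ps Crest.Agent.T15.Cheb

theorem exists_place_rchar {l : ℕ} (hl : l.Prime) : ∃ P : Place Om, P.rchar = l := by
  have hp : Prime ((l : ℕ) : 𝓞 ℚ) := by
    have := (MulEquiv.prime_iff Rat.ringOfIntegersEquiv.symm).2 (Nat.prime_iff_prime_int.1 hl)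
    rwa [map_natCast] at this
  obtain ⟨P, hP⟩ := Place.exists_res_eq (E := Om) ℚ
    (⟨Ideal.span {((l : ℕ) : 𝓞 ℚ)}, (Ideal.span_singleton_prime hp.ne_zero).2 hp,
      by simpa using hp.ne_zero⟩ : Place ℚ)
  refine ⟨P, ?_⟩
  rw [← Place.rchar_res ℚ P, hP]
  exact Place.rchar_eq_of_mem _ hl (Ideal.mem_span_singleton_self _)

theorem conj_mem_In {P : Place Om} {g u : Gam} (hu : u ∈ In (g • P)) : g⁻¹ * u * g ∈ In P := by
  intro x
  have h := hu (g • x)
  change _ ∈ (g • P).ideal at h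
  rw [Place.mem_smul_ideal, smul_sub, inv_smul_smul] at h
  rw [mul_smul, mul_smul]
  exact h

theorem conj_mem_De {P : Place Om} {g u : Gam} (hu : u ∈ De (g • P)) : g⁻¹ * u * g ∈ De P := by
  change (g⁻¹ * u * g) • P = P
  rw [mul_smul, mul_smul, show u • g • P = g • P from hu, inv_smul_smul]

theorem IsFr.conj {P : Place Om} {q : ℕ} {g s : Gam} (hs : IsFr (g • P) q s) :
    IsFr P q (g⁻¹ * s * g) := by
  have := frob_conj hs g⁻¹
  rwa [inv_inv, inv_smul_smul] at this

theorem IsFr.inv_mul {P : Place Om} {q : ℕ} {s t : Gam} (hs : IsFr P q s) (ht : IsFr P q t) :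
    s * t⁻¹ ∈ In P := by
  intro x
  have h := P.ideal.sub_mem (hs (t⁻¹ • x)) (ht (t⁻¹ • x))
  rw [sub_sub_sub_cancel_right, smul_inv_smul, ← mul_smul] at h
  exact h

variable {k : Type} [Field k] {ρ : Gam →* M2 k}

theorem in_le_ker {P P' : Place Om} (h : In P ≤ ρ.ker) (e : P.rchar = P'.rchar) :
    In P' ≤ ρ.ker := by
  obtain ⟨g, rfl⟩ := exists_smul_eq e
  intro u hu
  have := (MonoidHom.normal_ker ρ).conj_mem _ (h (conj_mem_In hu)) g
  simpa [mul_assoc] using this

theorem fr_conj {P P' : Place Om} (h : In P ≤ ρ.ker) (e : P.rchar = P'.rchar) {q : ℕ} {s s' : Gam}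
    (hs : IsFr P q s) (hs' : IsFr P' q s') : ∃ g : Gam, ρ s' = ρ g * ρ s * ρ g⁻¹ := by
  obtain ⟨g, rfl⟩ := exists_smul_eq e
  have h1 : ρ (g⁻¹ * s' * g * s⁻¹) = 1 := h (IsFr.inv_mul (IsFr.conj hs') hs)
  refine ⟨g, ?_⟩
  have : s' = g * ((g⁻¹ * s' * g * s⁻¹) * s) * g⁻¹ := by group
  rw [this, map_mul, map_mul, map_mul _ _ s, h1, one_mul]

theorem trace_det_fr {P P' : Place Om} (h : In P ≤ ρ.ker) (e : P.rchar = P'.rchar) {q : ℕ}
    {s s' : Gam} (hs : IsFr P q s) (hs' : IsFr P' q s') :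
    (ρ s').trace = (ρ s).trace ∧ (ρ s').det = (ρ s).det := by
  obtain ⟨g, hg⟩ := fr_conj h e hs hs'
  rw [hg]
  constructor
  · rw [Matrix.trace_mul_cycle, ← map_mul, inv_mul_cancel, map_one, one_mul]
  · rw [Matrix.det_mul, Matrix.det_mul, mul_right_comm, ← Matrix.det_mul, ← map_mul,
      mul_inv_cancel, map_one, Matrix.det_one, one_mul]

theorem triv_De {c : Gam → M2 k} (hc : Cls ρ c) {P P' : Place Om} (h : Triv ρ c (De P))
    (e : P.rchar = P'.rchar) : Triv ρ c (De P') := by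
  obtain ⟨g, rfl⟩ := exists_smul_eq e
  intro u hu h1
  have h2 : ρ (g⁻¹ * u * g) = 1 := by
    rw [map_mul, map_mul, h1, mul_one, ← map_mul, inv_mul_cancel, map_one]
  have h3 := hc.conj g _ h2
  rw [h _ (conj_mem_De hu) h2, mul_zero, zero_mul] at h3
  simpa [mul_assoc] using h3

/-- **assembly of the Taylor–Wiles output** -/
theorem twStmt_of (hE : EqStmt) (hS : SelStmt) (hU : UnrStmt) (hZ : ZeroStmt) : TWStmt := by
  classical
  intro k _ _ _ ρ hρ
  obtain ⟨M, hM, h3M, hZ⟩ := hZ k ρ hρ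
  have hex : ∀ l : ℕ, ∃ P : Place Om, l.Prime → P.rchar = l := fun l => by
    by_cases hl : l.Prime
    · exact (exists_place_rchar hl).imp fun _ h _ => h
    · exact (exists_place_rchar Nat.prime_three).imp fun _ _ h => absurd h hl
  choose P₀ hP₀ using hex
  obtain ⟨hfin, hE⟩ := hE k ρ hρ M P₀ hM fun l hl => hP₀ l (Nat.prime_of_mem_primeFactors hl)
  refine ⟨finrank k (YS ρ M), fun n B => ?_⟩
  obtain ⟨Q, P, s, hcard, hQ, hI⟩ := hS k ρ hρ M hM hfin n (max B M)
  refine ⟨Q, hcard, fun q hq => ?_, fun V _ _ c P₃ hP₃ hc hinj hunr h3 => ?_⟩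
  · obtain ⟨h, hB, hn⟩ := hQ q hq
    refine ⟨h.prime, (le_max_left _ _).trans_lt hB, hn, fun P' hP' => ?_⟩
    have e : (P q).rchar = P'.rchar := h.rchar.trans hP'.symm
    refine ⟨in_le_ker h.unr e, fun s' hs' => ?_⟩
    obtain ⟨h1, h2⟩ := trace_det_fr h.unr e h.fr hs'
    rw [h1, h2]
    exact h.disc
  · choose f hf using hU k ρ hρ.opn
    have hMQ : ∀ q ∈ Q, M < q := fun q hq => (le_max_right _ _).trans_lt (hQ q hq).2.1
    have hT : ∀ (l : (M.primeFactors.erase 3 : Finset ℕ)) v, Triv ρ (c v) (In (P₀ l)) := by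
      intro l v
      obtain ⟨h1, h2⟩ := Finset.mem_erase.mp l.2
      have h4 := hP₀ l (Nat.prime_of_mem_primeFactors h2)
      refine hunr v _ (h4.trans_ne h1) fun h => ?_
      rw [h4] at h
      exact absurd (Nat.le_of_mem_primeFactors h2) (not_le.mpr (hMQ _ h))
    let Φ : V →ₗ[k] ∀ l : (M.primeFactors.erase 3 : Finset ℕ), Winv ρ (De (P₀ l)) :=
      { toFun := fun v l => ⟨c v (f (P₀ l)), (hf _ _ (hc v) (hT l v)).1⟩
        map_add' := fun v w => funext fun l => Subtype.ext (by simp)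
        map_smul' := fun a v => funext fun l => Subtype.ext (by simp) }
    have hΦ : Function.Injective Φ := by
      rw [injective_iff_map_eq_zero]
      intro v hv
      have hD : ∀ P' : Place Om, P'.rchar ∣ M → Triv ρ (c v) (De P') := by
        intro P' hP'
        by_cases e : P'.rchar = 3
        · exact triv_De (hc v) (h3 v) (hP₃.trans e.symm)
        · let l : (M.primeFactors.erase 3 : Finset ℕ) := ⟨P'.rchar, Finset.mem_erase.mpr
            ⟨e, Nat.mem_primeFactors.mpr ⟨P'.rchar_prime, hP', hM⟩⟩⟩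
          exact triv_De (hc v) ((hf _ _ (hc v) (hT l v)).2
            (congrArg Subtype.val (congrFun hv l))) (hP₀ _ P'.rchar_prime)
      refine hinj v (hZ Q P s (fun q hq => ⟨(hQ q hq).1, hMQ q hq⟩) hI _ (hc v) hD
        fun P' hP' => ?_)
      by_cases e : P'.rchar = 3
      · exact fun u hu => hD P' (e ▸ h3M) u (P'.inertia_le_stabilizer hu)
      · exact hunr v P' e hP'
    refine ⟨Module.Finite.of_injective Φ hΦ, le_trans ?_ hE⟩
    have h1 := LinearMap.finrank_le_finrank_of_injective hΦ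
    rw [finrank_pi_fintype, Finset.sum_coe_sort (M.primeFactors.erase 3)
      fun l => finrank k (Winv ρ (De (P₀ l)))] at h1
    have h2 := Finset.sum_le_sum_of_subset (f := fun l => finrank k (Winv ρ (De (P₀ l))))
      (Finset.erase_subset 3 M.primeFactors)
    omega

end Crest.Agent.T15.TwAsm
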