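import Crest.Agent.T15.TwA_6
import Crest.Agent.T15.ChebG_25

/-!
# Row 15, block C: one Taylor–Wiles prime with a prescribed power residue character (helper6)
-/

set_option autoImplicit false

noncomputable section

namespace Crest.Agent.T15.Tw

open NumberField Crest.Agent.R018.Placesx484

variable {E : Type} [Field E] [CharZero E] [IsGalois ℚ E] {p : ℕ} [hp : Fact p.Prime] {ζ : E}

/-- a normal subgroup of index prime to `p` moves the primitive `p²`-th roots of unity -/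
theorem exists_move (N : Subgroup (E ≃ₐ[ℚ] E)) [N.Normal] (hi : ¬ p ∣ N.index) {η : E}
    (hη : IsPrimitiveRoot η (p ^ 2)) : ∃ γ ∈ N, γ η ≠ η := by
  have h0 : 0 < p ^ 2 := pow_pos hp.out.pos 2
  have h1 : IsPrimitiveRoot (η ^ (1 + p)) (p ^ 2) := hη.pow_of_coprime _ (by simp)
  obtain ⟨g, hg⟩ := (Normal.minpoly_eq_iff_mem_orbit (F := ℚ) E).1
    ((Polynomial.cyclotomic_eq_minpoly_rat h1 h0).symm.trans (Polynomial.cyclotomic_eq_minpoly_rat hη h0))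
  refine ⟨g ^ N.index, N.pow_index_mem g, fun e => hi ?_⟩
  have h2 : ∀ m : ℕ, (1 + p) ^ m ≡ 1 + m * p [MOD p ^ 2] := fun m => by
    induction m with
    | zero => simp [Nat.ModEq]
    | succ m ih =>
      rw [pow_succ]
      refine (ih.mul_right _).trans ?_
      rw [show (1 + m * p) * (1 + p) = 1 + (m + 1) * p + p ^ 2 * m by ring]
      exact Nat.modEq_iff_dvd.2 ⟨-m, by push_cast; ring⟩
  rw [pow_root (show g η = η ^ (1 + p) from hg)] at e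
  have h3 := (h2 N.index).symm.trans ((pow_eq_iff hη h0.ne').1 (e.trans (pow_one η).symm))
  have h4 := Nat.modEq_zero_iff_dvd.1 (Nat.ModEq.add_left_cancel' 1 (b := 0) h3)
  exact Nat.dvd_of_mul_dvd_mul_right hp.out.pos (by rwa [← sq])

omit [IsGalois ℚ E] in
/-- a Frobenius element raises roots of unity to the power `q` -/
theorem frob_root (P : Place E) {φ : E ≃ₐ[ℚ] E} (h : ∀ x : 𝓞 E, φ • x - x ^ P.rchar ∈ P.ideal)
    {m : ℕ} (hm : ¬ P.rchar ∣ m) {ξ : E} (hξ : ξ ^ m = 1) : φ ξ = ξ ^ P.rchar := by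
  have m0 : m ≠ 0 := by rintro rfl; exact hm (dvd_zero _)
  let z : 𝓞 E := ⟨ξ, IsIntegral.of_pow (Nat.pos_of_ne_zero m0) (hξ ▸ isIntegral_one)⟩
  have hz : z ^ m = 1 := by apply RingOfIntegers.ext; push_cast; exact hξ
  have h4 : φ • z = z ^ P.rchar := T27.root_eq_of_sub_mem_79 P.ideal (q := m) (a := 1)
    (by rw [← smul_pow', hz, smul_one]) (by rw [pow_right_comm, hz, one_pow])
    (by rwa [P.natCast_mem_iff]) P.one_notMem (h z)
  exact congrArg (fun w : 𝓞 E => (w : E)) h4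

/-- **one Taylor–Wiles prime** -/
theorem exists_place [IsAlgClosed E] (h2 : p ≠ 2) (hζ : IsPrimitiveRoot ζ p)
    (N : Subgroup (E ≃ₐ[ℚ] E)) [N.Normal] (ho : IsOpen (N : Set (E ≃ₐ[ℚ] E))) (hi : ¬ p ∣ N.index)
    (hN : ∀ h ∈ N, h ζ = ζ) (A : Subgroup Eˣ) [Group.FG A] (hA : ∀ a ∈ A, ∀ h ∈ N, h (a : E) = a)
    (hst : ∀ (g : E ≃ₐ[ℚ] E), ∀ a ∈ A, g • a ∈ A)
    (l : Additive A →+ ZMod p) (hl : ∀ (a : A) (j : ℕ) (c : E), (∀ h ∈ N, h c = c) →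
      ((a : Eˣ) : E) = ζ ^ j * c ^ p → l (.ofMul a) = 0)
    {s : E ≃ₐ[ℚ] E} (hs : s ζ = ζ) {f : ℕ} (hf : ¬ p ∣ f) (hsf : s ^ f ∈ N)
    (hsl : ∀ a : A, l (.ofMul ⟨s • a, hst s a a.2⟩) = l (.ofMul a)) (n B : ℕ) :
    ∃ (P : Place E) (φ : E ≃ₐ[ℚ] E), B < P.rchar ∧ p ^ n ∣ P.rchar - 1 ∧ φ • P = P ∧
      (∀ x : 𝓞 E, φ • x - x ^ P.rchar ∈ P.ideal) ∧ P.ideal.inertia (E ≃ₐ[ℚ] E) ≤ N ∧
      s⁻¹ * φ ∈ N ∧
      ∀ (a : A) (b : E), b ^ p = (a : Eˣ) → (φ ^ f) b = ζ ^ (l (.ofMul a)).val * b := by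
  have p0 : p ^ (n + 2) ≠ 0 := pow_ne_zero _ hp.out.ne_zero
  have : NeZero (p ^ (n + 2)) := ⟨p0⟩
  obtain ⟨ξ, hξ⟩ := HasEnoughRootsOfUnity.exists_primitiveRoot E (p ^ (n + 2))
  have rt : ∀ a : Eˣ, ∃ b : E, b ^ p = a := fun a => IsAlgClosed.exists_pow_nat_eq _ hp.out.pos
  obtain ⟨τ, t1, t2, t3⟩ := exists_tau h2 hζ hξ hN
    (exists_move N hi (hξ.pow (Nat.pos_of_ne_zero p0) (pow_add p n 2))) A hA (fun a _ => rt a) l hl
    hs hf hsf fun a => ⟨_, rfl, hsl a⟩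
  have st : ∀ (g : E ≃ₐ[ℚ] E) (a : A) (b : E), b ^ p = (a : Eˣ) →
      g b ^ p = ((⟨g • a, hst g a a.2⟩ : A) : Eˣ) := fun g a b hb => by rw [← map_pow, hb]; rfl
  let V : Subgroup (E ≃ₐ[ℚ] E) :=
    { carrier := {h | h ∈ N ∧ h ξ = ξ ∧ ∀ (a : A) (b : E), b ^ p = (a : Eˣ) → h b = b}
      one_mem' := ⟨one_mem _, rfl, fun _ _ _ => rfl⟩
      mul_mem' := by
        rintro g h ⟨g1, g2, g3⟩ ⟨h1, h2, h3⟩
        exact ⟨mul_mem g1 h1, by rw [AlgEquiv.mul_apply, h2, g2],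
          fun a b hb => by rw [AlgEquiv.mul_apply, h3 a b hb, g3 a b hb]⟩
      inv_mem' := by
        rintro g ⟨g1, g2, g3⟩
        exact ⟨inv_mem g1, g.symm_apply_eq.2 g2.symm, fun a b hb => g.symm_apply_eq.2 (g3 a b hb).symm⟩ }
  have : V.Normal := ⟨by
    rintro h ⟨h1, h2, h3⟩ g
    refine ⟨‹N.Normal›.conj_mem h h1 g, ?_, fun a b hb => ?_⟩
    · obtain ⟨j, -, hj⟩ := hξ.eq_pow_of_pow_eq_one (ξ := g⁻¹ ξ)
        (by rw [← map_pow, hξ.pow_eq_one, map_one])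
      rw [AlgEquiv.mul_apply, AlgEquiv.mul_apply, ← hj, map_pow h, h2, hj]
      exact g.apply_symm_apply ξ
    · rw [AlgEquiv.mul_apply, AlgEquiv.mul_apply, h3 _ _ (st g⁻¹ a b hb)]
      exact g.apply_symm_apply b⟩
  have hV : IsOpen (V : Set (E ≃ₐ[ℚ] E)) := by
    obtain ⟨S, hS, hfin⟩ := Group.fg_iff.1 (inferInstance : Group.FG A)
    choose r hr using rt
    refine V.isOpen_of_mem_nhds (g := 1) (mem_nhds_iff.2 ⟨N ∩ (MulAction.stabilizer (E ≃ₐ[ℚ] E) ξ ∩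
      ⋂ a ∈ S, MulAction.stabilizer (E ≃ₐ[ℚ] E) (r a)), ?_, ho.inter
      ((stabilizer_isOpen_of_isIntegral ξ).inter
        (hfin.isOpen_biInter fun a _ => stabilizer_isOpen_of_isIntegral _)), by simp⟩)
    rintro h ⟨h1, h2, h3⟩
    have key : ∀ a : A, ∃ b : E, b ^ p = (a : Eˣ) ∧ h b = b := fun a => by
      induction (show a ∈ Subgroup.closure S from hS ▸ trivial) using Subgroup.closure_induction with
      | mem a ha => exact ⟨r a, hr a, Set.mem_iInter₂.1 h3 a ha⟩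
      | one => exact ⟨1, by simp, map_one h⟩
      | mul a a' _ _ i1 i2 =>
        obtain ⟨b, b1, b2⟩ := i1
        obtain ⟨c, c1, c2⟩ := i2
        exact ⟨b * c, by simp [mul_pow, b1, c1], by rw [map_mul, b2, c2]⟩
      | inv a _ i1 =>
        obtain ⟨b, b1, b2⟩ := i1
        exact ⟨b⁻¹, by simp [b1], by rw [map_inv₀, b2]⟩
    refine ⟨h1, h2, fun a b hb => ?_⟩
    obtain ⟨c, c1, c2⟩ := key a
    obtain ⟨i, rfl⟩ := exists_pw hζ (u := c) (u' := b) (fun e => (a : Eˣ).ne_zero (by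
      rw [← c1, e, zero_pow hp.out.ne_zero])) (hb.trans c1.symm)
    rw [map_mul, map_pow, hN h h1, c2]
  obtain ⟨P, φ, h1, h3, h4, h5, v1, v2, v3⟩ := Cheb.cheb_inf V hV τ (max B p)
  have eτ : ∀ u, (τ⁻¹ * φ) u = u → φ u = τ u := fun u e => τ.symm_apply_eq.1 e
  refine ⟨P, φ, (le_max_left _ _).trans_lt h1, ?_, h3, h4, fun g hg => (h5 hg).1, ?_, fun a b hb => ?_⟩
  · have e := frob_root P h4 (m := p ^ (n + 2)) (fun e => ((le_max_right _ _).trans_lt h1).ne'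
      ((Nat.prime_dvd_prime_iff_eq P.rchar_prime hp.out).1 (P.rchar_prime.dvd_of_dvd_pow e)))
      hξ.pow_eq_one
    rw [eτ ξ v2, t2] at e
    exact (pow_dvd_pow p (Nat.le_add_right n 2)).trans ((Nat.modEq_iff_dvd' P.rchar_prime.pos).1
      ((pow_eq_iff hξ p0).1 ((pow_one ξ).trans e)))
  · have := mul_mem (‹N.Normal›.conj_mem' _ t1 s) v1
    simpa [mul_assoc] using this
  · rw [← t3 a b hb]
    clear hf hsf t3
    induction f generalizing a b with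
    | zero => rfl
    | succ f ih =>
      rw [pow_succ, pow_succ, AlgEquiv.mul_apply, AlgEquiv.mul_apply, ih _ _ (st φ a b hb),
        eτ b (v3 a b hb)]

end Crest.Agent.T15.Tw
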