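import Crest.Agent.T15.TDef_10
import Crest.Agent.T15.Rg_28

/-!
# Row 15, block T (helper10): the character `δ`
-/

set_option autoImplicit false

noncomputable section

namespace Crest.Agent.T15.TD

open Crest.Agent.T15.Hk
open Crest.Agent.T15.C (Gam Om In)

theorem exists_cy (N : ℕ) [NeZero N] : ∃ c : Gam →* (ZMod N)ˣ,
    (∀ (g : Gam) (ζ : Om), ζ ^ N = 1 → g ζ = ζ ^ (c g : ZMod N).val) ∧
    ∀ (g : Gam) (u : (ZMod N)ˣ) (ζ : Om), IsPrimitiveRoot ζ N → g ζ = ζ ^ (u : ZMod N).val →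
      c g = u := by
  obtain ⟨μ, hμ⟩ := Rg.exists_root N (NeZero.ne N)
  have h1 : ∀ (g : Gam) (ζ : Om), ζ ^ N = 1 → g ζ = ζ ^ (hμ.autToPow ℚ g : ZMod N).val :=
    fun g ζ hζ => by
      obtain ⟨a, -, rfl⟩ := hμ.eq_pow_of_pow_eq_one hζ
      rw [map_pow, ← hμ.autToPow_spec ℚ g, pow_right_comm]
  exact ⟨hμ.autToPow ℚ, h1, fun g u ζ hζ e => Units.ext (ZMod.val_injective N
    (hζ.pow_inj (ZMod.val_lt _) (ZMod.val_lt _) ((h1 g ζ hζ.pow_eq_one).symm.trans e)))⟩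

lemma pow_val {N : ℕ} [NeZero N] {ζ : Om} (hζ : ζ ^ N = 1) (a : ℕ) :
    ζ ^ (a : ZMod N).val = ζ ^ a := by rw [ZMod.val_natCast, ← pow_eq_pow_mod a hζ]

theorem cyStmt : CyStmt := fun L r m q h => by
  have := h.neZero
  obtain ⟨c, h1, h2⟩ := exists_cy (LQ L q)
  obtain ⟨ζ, hζ⟩ := Rg.exists_root (LQ L q) (NeZero.ne _)
  refine ⟨(chi L q m).comp c, fun g u ξ hξ e => congrArg (chi L q m) (h2 g u ξ hξ e),
    (Qi.isOpen_iff _).2 ⟨{ζ}, fun g hg => ?_⟩, fun P hP g hg => funext fun i => ?_,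
    fun P s u hs hu => congrArg (chi L q m) (h2 s u ζ hζ ?_)⟩
  · rw [MonoidHom.mem_ker, MonoidHom.comp_apply, h2 g 1 ζ hζ, map_one]
    rw [hg ζ (Finset.mem_singleton_self _), Units.val_one, ← Nat.cast_one, pow_val hζ.pow_eq_one,
      pow_one]
  · obtain ⟨ξ, hξ⟩ := Rg.exists_root (q i) (h.prime i).ne_zero
    have e := h1 g ξ ((hξ.pow_eq_one_iff_dvd _).2 (q_dvd_LQ L q i))
    rw [Rg.inertia_root hg (fun hd => hP i
      ((Nat.prime_dvd_prime_iff_eq P.rchar_prime (h.prime i)).1 hd)) hξ.pow_eq_one] at e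
    have e' := (Tw.pow_eq_iff hξ (h.prime i).ne_zero).1 ((pow_one ξ).trans e)
    have e'' : ZMod.unitsMap (q_dvd_LQ L q i) (c g) = 1 := Units.ext (by
      rw [ZMod.unitsMap_val, ← ZMod.natCast_val, ← (ZMod.natCast_eq_natCast_iff _ _ _).2 e',
        Nat.cast_one, Units.val_one])
    rw [MonoidHom.comp_apply, chi_apply, e'', map_one]; rfl
  · rw [hu, pow_val hζ.pow_eq_one]
    exact Tw.frob_root P hs ((Nat.Prime.coprime_iff_not_dvd P.rchar_prime).1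
      ((ZMod.isUnit_iff_coprime _ _).1 (hu ▸ u.isUnit))) hζ.pow_eq_one

end Crest.Agent.T15.TD

end
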