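import Crest.Agent.T15.EscA_99

/-!
# Row 15 (helper96): twists of cusp forms and weak multiplicity one

* `Qx f a` (`q`-expansion), `Cf N a` (`a` is the expansion of a weight two cusp form on `Γ₀(N)`);
* `Cf.twist`: multiply the coefficients by a function on `ZMod m` invariant under squares of units;
* `Cf.eq_zero_of_prime`, `Cf.eq_zero`: a form supported on multiples of primes not dividing the
  level vanishes.
-/

set_option autoImplicit false

noncomputable section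

namespace Crest.Agent.T15.Sm

open UpperHalfPlane hiding I
open Complex ModularForm Filter Function Set Matrix.SpecialLinearGroup CongruenceSubgroup
open Crest.Agent.T15.Esc
open scoped MatrixGroups Manifold Topology Real

/-- `a` is the `q`-expansion of `f` -/
def Qx (f : ℍ → ℂ) (a : ℕ → ℂ) : Prop :=
  ∀ z : ℍ, HasSum (fun n : ℕ => a n * Complex.exp (2 * Real.pi * Complex.I * n * z)) (f z)

/-- `a` is the `q`-expansion of a cusp form of weight two on `Γ₀(N)` -/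
def Cf (N : ℕ) (a : ℕ → ℂ) : Prop := ∃ f ∈ CS (Gamma0 N) 2, Qx f a

variable {f g : ℍ → ℂ} {a b : ℕ → ℂ} {N : ℕ}

lemma hasSum_congr {u v : ℕ → ℂ} {s : ℂ} (h : HasSum u s) (e : ∀ n, v n = u n) :
    HasSum v s := (funext e : v = u) ▸ h

lemma Qx.add (h : Qx f a) (h' : Qx g b) : Qx (f + g) (a + b) := fun z => by
  simpa [add_mul] using (h z).add (h' z)

lemma Qx.smul (c : ℂ) (h : Qx f a) : Qx (c • f) (c • a) := fun z => by
  simpa [mul_assoc] using (h z).mul_left c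

lemma Qx.sub (h : Qx f a) (h' : Qx g b) : Qx (f - g) (a - b) := fun z => by
  simpa [sub_mul] using (h z).sub (h' z)

lemma qx_zero : Qx 0 0 := fun z => by simp

lemma Qx.qParam (h : Qx f a) (z : ℍ) :
    HasSum (fun m => a m • Periodic.qParam 1 (z : ℂ) ^ m) (f z) := by
  convert h z using 2 with m
  rw [smul_eq_mul, Periodic.qParam, ← Complex.exp_nat_mul]
  congr 2
  push_cast
  ring

lemma Qx.eq_zero (h : Qx 0 a) : a = 0 := by
  have han : AnalyticAt ℂ (cuspFunction 1 (0 : ℍ → ℂ)) 0 :=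
    analyticAt_cuspFunction_zero one_pos (fun _ => rfl) mdifferentiable_const
      zero_form_isBoundedAtImInfty
  have h1 := (hasFPowerSeriesOnBall_cuspFunction one_pos han h.qParam).hasFPowerSeriesAt
  have h2 := (hasFPowerSeriesOnBall_cuspFunction one_pos han qx_zero.qParam).hasFPowerSeriesAt
  funext m
  have := congr_arg (FormalMultilinearSeries.coeff · m) (h1.eq_formalMultilinearSeries h2)
  simp only [FormalMultilinearSeries.coeff_ofScalars] at this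
  exact this

lemma Qx.unique (h : Qx f a) (h' : Qx f b) : a = b := by
  have := h.sub h'
  rw [sub_self] at this
  exact sub_eq_zero.1 this.eq_zero

lemma Qx.fun_unique (h : Qx f a) (h' : Qx g a) : f = g := funext fun z => (h z).unique (h' z)

lemma Cf.add (h : Cf N a) (h' : Cf N b) : Cf N (a + b) := by
  obtain ⟨f, hf, hq⟩ := h
  obtain ⟨g, hg, hq'⟩ := h'
  exact ⟨f + g, add_mem hf hg, hq.add hq'⟩

lemma Cf.sub (h : Cf N a) (h' : Cf N b) : Cf N (a - b) := by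
  obtain ⟨f, hf, hq⟩ := h
  obtain ⟨g, hg, hq'⟩ := h'
  exact ⟨f - g, sub_mem hf hg, hq.sub hq'⟩

lemma Cf.smul (c : ℂ) (h : Cf N a) : Cf N (c • a) := by
  obtain ⟨f, hf, hq⟩ := h
  exact ⟨c • f, Submodule.smul_mem _ c hf, hq.smul c⟩

lemma Gamma0_le {N M : ℕ} (h : N ∣ M) : Gamma0 M ≤ Gamma0 N := fun γ hγ => by
  rw [Gamma0_mem, ZMod.intCast_zmod_eq_zero_iff_dvd] at hγ ⊢
  exact (Int.natCast_dvd_natCast.2 h).trans hγ

lemma Cf.mono {M : ℕ} (h : Cf N a) (hM : N ∣ M) : Cf M a := by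
  obtain ⟨f, hf, hq⟩ := h
  exact ⟨f, CS_anti (Gamma0_le hM) hf, hq⟩

/-! ### Mathlib's cusp forms -/

lemma mem_CS {Γ : Subgroup SL(2, ℤ)} [Γ.FiniteIndex] {k : ℤ}
    (F : CuspForm (Γ : Subgroup (GL (Fin 2) ℝ)) k) : (F : ℍ → ℂ) ∈ CS Γ k := by
  refine ⟨F.holo', fun γ hγ => F.slash_action_eq' _ ⟨γ, hγ, rfl⟩, fun s => ?_⟩
  have hc : IsCusp (mapGL ℝ s • OnePoint.infty) (Γ : Subgroup (GL (Fin 2) ℝ)) := by
    rw [Subgroup.IsArithmetic.isCusp_iff_isCusp_SL2Z]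
    exact isCusp_SL2Z_iff'.2 ⟨s, rfl⟩
  exact F.zero_at_cusps' hc _ rfl

/-- an element of `CS` as a cusp form of Mathlib -/
def toCusp {Γ : Subgroup SL(2, ℤ)} [Γ.FiniteIndex] {k : ℤ} (hf : f ∈ CS Γ k) :
    CuspForm (Γ : Subgroup (GL (Fin 2) ℝ)) k where
  toFun := f
  slash_action_eq' := by
    rintro _ ⟨g, hg, rfl⟩
    exact hf.2.1 g hg
  holo' := hf.1
  zero_at_cusps' hc := by
    rw [Subgroup.IsArithmetic.isCusp_iff_isCusp_SL2Z] at hc
    rw [OnePoint.isZeroAt_iff_forall_SL2Z hc]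
    exact fun γ _ => hf.2.2 γ

lemma cf_iff (hN : N ≠ 0) : Cf N a ↔ ∃ F : CuspForm (Gamma0 N) 2, ∀ z : ℍ,
    HasSum (fun n : ℕ => a n * Complex.exp (2 * Real.pi * Complex.I * n * z)) (F z) := by
  have : NeZero N := ⟨hN⟩
  exact ⟨fun ⟨_, hf, hq⟩ => ⟨toCusp hf, hq⟩, fun ⟨F, hq⟩ => ⟨F, mem_CS F, hq⟩⟩

/-! ### rational upper triangular matrices -/

/-- the matrix `(x y; 0 d)` -/
def ut (x y d : ℚ) (hx : 0 < x) (hd : 0 < d) : GL (Fin 2) ℝ :=
  Matrix.GeneralLinearGroup.mkOfDetNeZero !![(x : ℝ), y; 0, d]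
    (by simp [Matrix.det_fin_two, hx.ne', hd.ne'])

section ut

variable {x y d : ℚ} (hx : 0 < x) (hd : 0 < d)

lemma ut_val : (ut x y d hx hd).val = !![(x : ℝ), y; 0, d] := rfl

lemma ut_det : (ut x y d hx hd).det.val = x * d := by
  rw [Matrix.GeneralLinearGroup.val_det_apply, ut_val]
  simp [Matrix.det_fin_two]

lemma ut_det_pos : 0 < (ut x y d hx hd).det.val := by
  rw [ut_det]; positivity

lemma coe_ut_smul (z : ℍ) : ((ut x y d hx hd • z : ℍ) : ℂ) = (x * z + y) / d := by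
  rw [coe_smul_of_det_pos (ut_det_pos hx hd)]
  simp [num, denom, ut_val]

lemma slash_ut (f : ℍ → ℂ) (z : ℍ) :
    (f ∣[(2 : ℤ)] ut x y d hx hd) z = x / d * f (ut x y d hx hd • z) := by
  have hσ (w) : σ (ut x y d hx hd) w = w := by
    rw [σ, if_pos (ut_det_pos hx hd)]
    rfl
  have hd' : (d : ℂ) ≠ 0 := by exact_mod_cast hd.ne'
  rw [slash_apply, hσ, ut_det, abs_of_pos (by positivity)]
  have : denom (ut x y d hx hd) z = d := by simp [denom, ut_val]
  rw [this]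
  push_cast
  field_simp

lemma zero_slash_ut {k : ℤ} (hf : ∀ s : SL(2, ℤ), IsZeroAtImInfty (f ∣[k] s)) (s : SL(2, ℤ)) :
    IsZeroAtImInfty ((f ∣[k] ut x y d hx hd) ∣[k] s) := by
  have hc : IsCusp (ut x y d hx hd • mapGL ℝ s • OnePoint.infty) 𝒮ℒ := by
    obtain ⟨c, hc⟩ := isCusp_SL2Z_iff.1 (isCusp_SL2Z_iff'.2 ⟨s, rfl⟩)
    rw [← hc, isCusp_SL2Z_iff]
    cases c with
    | infty =>
      exact ⟨OnePoint.infty, by
        rw [OnePoint.map_infty]
        exact (OnePoint.smul_infty_eq_self_iff.2 (by simp [ut_val])).symm⟩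
    | coe c =>
      refine ⟨(((x * c + y) / d : ℚ) : OnePoint ℚ), ?_⟩
      rw [OnePoint.map_some, OnePoint.map_some, OnePoint.smul_some_eq_ite, if_neg]
      · simp [ut_val]
      · simp [ut_val, hd.ne']
  have h1 := (OnePoint.isZeroAt_iff_forall_SL2Z (f := f) (k := k) hc).2 fun γ _ => hf γ
  rw [OnePoint.IsZeroAt.smul_iff] at h1
  exact h1 _ rfl

end ut

/-! ### translations -/

/-- `z ↦ f (z + y)` -/
def tr (f : ℍ → ℂ) (y : ℚ) : ℍ → ℂ := f ∣[(2 : ℤ)] ut 1 y 1 one_pos one_pos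

lemma Qx.tr (h : Qx f a) (y : ℚ) :
    Qx (tr f y) fun n => Complex.exp (2 * Real.pi * Complex.I * n * y) * a n := fun z => by
  have := h (ut 1 y 1 one_pos one_pos • z)
  rw [coe_ut_smul] at this
  rw [Sm.tr, slash_ut]
  convert this using 1
  · funext n
    beta_reduce
    rw [mul_comm _ (a n), mul_assoc (a n), ← Complex.exp_add]
    congr 2
    push_cast
    ring
  · simp

lemma SL_val (γ : SL(2, ℤ)) (i j : Fin 2) : (γ : GL (Fin 2) ℝ).val i j = (γ i j : ℝ) := rfl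

lemma tr_slash (hf : ∀ γ ∈ Gamma0 N, f ∣[(2 : ℤ)] γ = f) {m : ℕ} (hm : m ≠ 0) {γ : SL(2, ℤ)}
    (hγ : γ ∈ Gamma0 (N * m ^ 2)) (j : ℤ) :
    tr f (j / m) ∣[(2 : ℤ)] γ = tr f ((j * γ 1 1 ^ 2 : ℤ) / m) := by
  rw [Gamma0_mem, ZMod.intCast_zmod_eq_zero_iff_dvd] at hγ
  obtain ⟨c, hc⟩ := hγ
  push_cast at hc
  have hdet := γ.det_coe
  rw [Matrix.det_fin_two, hc] at hdet
  have hm' : (m : ℝ) ≠ 0 := by exact_mod_cast hm
  let γ' : SL(2, ℤ) := ⟨!![γ 0 0 + j * N * m * c,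
      γ 0 1 - j * γ 1 1 * γ 0 1 * N * m * c - j ^ 2 * γ 1 1 ^ 2 * N * c;
      N * m ^ 2 * c, γ 1 1 - j * γ 1 1 ^ 2 * N * m * c], by
    rw [Matrix.det_fin_two_of]
    linear_combination (1 - j * γ 1 1 * N * m * c) * hdet⟩
  have h1 : γ' ∈ Gamma0 N := by
    rw [Gamma0_mem, ZMod.intCast_zmod_eq_zero_iff_dvd]
    exact ⟨m ^ 2 * c, by simp [γ', mul_assoc]⟩
  have hdetR : (γ 0 0 : ℝ) * γ 1 1 - γ 0 1 * (N * m ^ 2 * c) = 1 := by exact_mod_cast hdet
  have hcR : (γ 1 0 : ℝ) = N * m ^ 2 * c := by exact_mod_cast hc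
  have e : ut 1 (j / m) 1 one_pos one_pos * (γ : GL (Fin 2) ℝ) =
      (γ' : GL (Fin 2) ℝ) * ut 1 ((j * γ 1 1 ^ 2 : ℤ) / m) 1 one_pos one_pos := by
    ext i k
    simp only [Units.val_mul, Matrix.mul_apply, Fin.sum_univ_two, SL_val, ut_val]
    fin_cases i <;> fin_cases k <;> simp [γ', hcR] <;> field_simp
    · linear_combination (-(j : ℝ) * γ 1 1) * hdetR
    · ring
  rw [tr, tr, SL_slash, ← SlashAction.slash_mul, e, SlashAction.slash_mul, ← SL_slash, hf γ' h1]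

theorem Cf.twist (h : Cf N a) {m : ℕ} (hm : m ≠ 0) (χ : ZMod m → ℂ)
    (hχ : ∀ (u : (ZMod m)ˣ) (n : ZMod m), χ ((u : ZMod m) ^ 2 * n) = χ n) :
    Cf (N * m ^ 2) fun n => χ n * a n := by
  have : NeZero m := ⟨hm⟩
  obtain ⟨f, hf, hq⟩ := h
  have hmC : (m : ℂ) ≠ 0 := by exact_mod_cast hm
  have hq1 (j : ℤ) : Qx (tr f (j / m))
      fun n : ℕ => ZMod.stdAddChar ((j : ZMod m) * (n : ZMod m)) * a n := by
    convert hq.tr (j / m) using 3 with n
    rw [show (j : ZMod m) * n = ((j * n : ℤ) : ZMod m) by push_cast; ring, ZMod.stdAddChar_coe]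
    congr 1
    push_cast
    ring
  let G : ZMod m → ℍ → ℂ := fun j => tr f ((j.val : ℤ) / m)
  have hG (j : ℤ) : G j = tr f (j / m) := by
    refine (hq1 _).fun_unique ?_
    convert hq1 j using 4
    simp
  have hGq (j : ZMod m) : Qx (G j) fun n : ℕ => ZMod.stdAddChar (j * (n : ZMod m)) * a n := by
    convert hq1 (j.val : ℤ) using 4
    simp
  refine ⟨(m : ℂ)⁻¹ • ∑ j, ZMod.dft χ j • G j, Submodule.smul_mem _ _ ⟨?_, fun γ hγ => ?_,
    fun s => ?_⟩, fun z => ?_⟩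
  · exact (Submodule.sum_mem (MS ⊥ 2) fun j _ => Submodule.smul_mem _ _
      ⟨hf.1.slash _ _, fun γ hγ => by rw [Subgroup.mem_bot.1 hγ]; simp,
        fun s => (zero_slash_ut one_pos one_pos hf.2.2 s).isBoundedAtImInfty⟩).1
  · have hu : IsUnit ((γ 1 1 : ℤ) : ZMod m) := by
      have h0 : ((γ 1 0 : ℤ) : ZMod m) = 0 := by
        rw [Gamma0_mem, ZMod.intCast_zmod_eq_zero_iff_dvd] at hγ
        rw [ZMod.intCast_zmod_eq_zero_iff_dvd]
        exact Dvd.dvd.trans ⟨N * m, by push_cast; ring⟩ hγ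
      have hdet := congr_arg (Int.cast : ℤ → ZMod m) γ.det_coe
      rw [Matrix.det_fin_two] at hdet
      push_cast at hdet
      rw [h0, mul_zero, sub_zero] at hdet
      exact IsUnit.of_mul_eq_one_right _ hdet
    obtain ⟨u, hu⟩ := hu
    have hs (j : ZMod m) : G j ∣[(2 : ℤ)] γ = G ((u ^ 2 : (ZMod m)ˣ) * j) := by
      rw [show G j = tr f ((j.val : ℤ) / m) from rfl, tr_slash hf.2.1 hm hγ, ← hG]
      congr 1
      simp [hu, mul_comm]
    have hψ (j : ZMod m) : ZMod.dft χ ((u ^ 2 : (ZMod m)ˣ) * j) = ZMod.dft χ j := by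
      have := ZMod.dft_comp_unitMul χ (u ^ 2) ((u ^ 2 : (ZMod m)ˣ) * j)
      rw [Units.inv_mul_cancel_left] at this
      rw [← this, show (fun n => χ ((u ^ 2 : (ZMod m)ˣ) * n)) = χ from funext fun n => by simp [hχ]]
    rw [SlashAction.sum_slash]
    simp_rw [SL_smul_slash, hs]
    rw [← Equiv.sum_comp (u ^ 2).mulLeft fun j => ZMod.dft χ j • G j]
    exact Finset.sum_congr rfl fun j _ => by rw [Units.mulLeft_apply, hψ]
  · exact (Submodule.sum_mem (CS ⊥ 2) fun j _ => Submodule.smul_mem _ _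
      ⟨hf.1.slash _ _, fun γ hγ => by rw [Subgroup.mem_bot.1 hγ]; simp,
        fun s => zero_slash_ut one_pos one_pos hf.2.2 s⟩).2.2 s
  · have := (hasSum_sum fun j (_ : j ∈ Finset.univ) => (hGq j z).mul_left (ZMod.dft χ j)).mul_left
      (m : ℂ)⁻¹
    have e1 : ((m : ℂ)⁻¹ • ∑ j, ZMod.dft χ j • G j) z = (m : ℂ)⁻¹ * ∑ i, ZMod.dft χ i * G i z := by
      simp
    rw [e1]
    refine hasSum_congr this fun n => ?_
    have h2 := ZMod.invDFT_apply (ZMod.dft χ) (n : ZMod m)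
    rw [LinearEquiv.symm_apply_apply] at h2
    beta_reduce
    rw [h2]
    simp only [smul_eq_mul, Finset.mul_sum, Finset.sum_mul]
    exact Finset.sum_congr rfl fun j _ => by ring

open Classical in
/-- depletion -/
theorem Cf.deplete (h : Cf N a) {m : ℕ} (hm : m ≠ 0) :
    Cf (N * m ^ 2) fun n => if n.Coprime m then a n else 0 := by
  convert h.twist hm (fun n => if IsUnit n then 1 else 0) fun u n => by
    simp [← Units.val_pow_eq_pow_val] using 2 with n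
  simp [ZMod.isUnit_iff_coprime]

/-! ### the operator `U` -/

lemma Qx.U (h : Qx f a) {d : ℕ} [NeZero d] :
    Qx (∑ j : ZMod d, f ∣[(2 : ℤ)] ut 1 (j.val : ℤ) d one_pos (Nat.cast_pos.2 (NeZero.pos d)))
      fun n => a (d * n) := fun z => by
  have hd : (d : ℂ) ≠ 0 := NeZero.ne _
  have h1 := hasSum_sum fun (j : ZMod d) (_ : j ∈ Finset.univ) =>
    (h (ut 1 (j.val : ℤ) d one_pos (Nat.cast_pos.2 (NeZero.pos d)) • z)).mul_left (d : ℂ)⁻¹
  have e1 : (∑ j : ZMod d, f ∣[(2 : ℤ)] ut 1 (j.val : ℤ) d one_pos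
      (Nat.cast_pos.2 (NeZero.pos d))) z = ∑ j : ZMod d, (d : ℂ)⁻¹ *
        f (ut 1 (j.val : ℤ) d one_pos (Nat.cast_pos.2 (NeZero.pos d)) • z) := by
    rw [Finset.sum_apply]
    exact Finset.sum_congr rfl fun j _ => by rw [slash_ut]; simp
  have e2 (n : ℕ) : ∑ j : ZMod d, (d : ℂ)⁻¹ * (a n * Complex.exp (2 * Real.pi * Complex.I * n *
      ((ut 1 (j.val : ℤ) d one_pos (Nat.cast_pos.2 (NeZero.pos d)) • z : ℍ) : ℂ))) =
      if d ∣ n then a n * Complex.exp (2 * Real.pi * Complex.I * n * z / d) else 0 := by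
    have h2 := AddChar.sum_mulShift (n : ZMod d) (ZMod.isPrimitive_stdAddChar d)
    simp only [ZMod.natCast_eq_zero_iff, ZMod.card] at h2
    trans (d : ℂ)⁻¹ * (a n * Complex.exp (2 * Real.pi * Complex.I * n * z / d)) *
      ∑ j : ZMod d, ZMod.stdAddChar (j * (n : ZMod d))
    · rw [Finset.mul_sum]
      refine Finset.sum_congr rfl fun j _ => ?_
      rw [coe_ut_smul, show j * (n : ZMod d) = ((j.val * n : ℤ) : ZMod d) by simp,
        ZMod.stdAddChar_coe, mul_assoc _ (_ * _), mul_assoc (a n), ← Complex.exp_add]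
      congr 3
      push_cast
      ring
    · rw [h2]
      split_ifs
      · field_simp
      · simp
  rw [e1]
  have h3 := hasSum_congr h1 fun n => (e2 n).symm
  rw [← (mul_right_injective₀ (NeZero.ne d)).hasSum_iff] at h3
  · refine hasSum_congr h3 fun n => ?_
    simp only [comp_apply, dvd_mul_right, if_true]
    congr 2
    push_cast
    field_simp
  · intro n hn
    rw [if_neg]
    rintro ⟨c, rfl⟩
    exact hn ⟨c, rfl⟩

lemma U_slash (hf : ∀ γ ∈ Gamma0 N, f ∣[(2 : ℤ)] γ = f) {d : ℕ} (hd : (0 : ℚ) < d) (hN : d ∣ N)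
    {γ : SL(2, ℤ)} (hγ : γ ∈ Gamma0 N) {j j' : ℤ}
    (hj : (j' : ZMod d) = γ 1 1 * (γ 0 1 + j * γ 1 1)) :
    (f ∣[(2 : ℤ)] ut 1 j d one_pos hd) ∣[(2 : ℤ)] γ = f ∣[(2 : ℤ)] ut 1 j' d one_pos hd := by
  rw [Gamma0_mem, ZMod.intCast_zmod_eq_zero_iff_dvd] at hγ
  have hdet := γ.det_coe
  rw [Matrix.det_fin_two] at hdet
  obtain ⟨w, hw⟩ : (d : ℤ) ∣ γ 0 1 + j * γ 1 1 - j' * (γ 0 0 + j * γ 1 0) := by
    have h0 : ((γ 1 0 : ℤ) : ZMod d) = 0 :=
      (ZMod.intCast_zmod_eq_zero_iff_dvd _ _).2 ((Int.natCast_dvd_natCast.2 hN).trans hγ)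
    have h1 := congr_arg (Int.cast : ℤ → ZMod d) hdet
    rw [← ZMod.intCast_zmod_eq_zero_iff_dvd]
    push_cast at h1 ⊢
    rw [h0] at h1
    rw [hj, h0]
    linear_combination (-((γ 0 1 : ℤ) + j * (γ 1 1 : ℤ) : ZMod d)) * h1
  let γ' : SL(2, ℤ) := ⟨!![γ 0 0 + j * γ 1 0, w; d * γ 1 0, γ 1 1 - j' * γ 1 0], by
    rw [Matrix.det_fin_two_of]
    linear_combination hdet + γ 1 0 * hw⟩
  have h1 : γ' ∈ Gamma0 N := by
    rw [Gamma0_mem, ZMod.intCast_zmod_eq_zero_iff_dvd]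
    exact hγ.mul_left d
  have hwR : (γ 0 1 : ℝ) + j * γ 1 1 - j' * (γ 0 0 + j * γ 1 0) = d * w := by exact_mod_cast hw
  have e : ut 1 j d one_pos hd * (γ : GL (Fin 2) ℝ) =
      (γ' : GL (Fin 2) ℝ) * ut 1 j' d one_pos hd := by
    ext i k
    simp only [Units.val_mul, Matrix.mul_apply, Fin.sum_univ_two, SL_val, ut_val]
    fin_cases i <;> fin_cases k <;> simp [γ']
    · linear_combination hwR
    · ring
  rw [SL_slash, ← SlashAction.slash_mul, e, SlashAction.slash_mul, ← SL_slash, hf γ' h1]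

theorem Cf.U (h : Cf N a) {d : ℕ} (hd : d ≠ 0) (hN : d ∣ N) : Cf N fun n => a (d * n) := by
  have : NeZero d := ⟨hd⟩
  obtain ⟨f, hf, hq⟩ := h
  refine ⟨_, ⟨?_, fun γ hγ => ?_, fun s => ?_⟩, hq.U⟩
  · exact (Submodule.sum_mem (CS ⊥ 2) fun j _ =>
      ⟨hf.1.slash _ _, fun γ hγ => by rw [Subgroup.mem_bot.1 hγ]; simp,
        fun s => zero_slash_ut one_pos _ hf.2.2 s⟩).1
  · have hu : IsUnit ((γ 1 1 : ℤ) : ZMod d) := by
      have h0 : ((γ 1 0 : ℤ) : ZMod d) = 0 := by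
        rw [Gamma0_mem, ZMod.intCast_zmod_eq_zero_iff_dvd] at hγ
        rw [ZMod.intCast_zmod_eq_zero_iff_dvd]
        exact (Int.natCast_dvd_natCast.2 hN).trans hγ
      have hdet := congr_arg (Int.cast : ℤ → ZMod d) γ.det_coe
      rw [Matrix.det_fin_two] at hdet
      push_cast at hdet
      rw [h0, mul_zero, sub_zero] at hdet
      exact IsUnit.of_mul_eq_one_right _ hdet
    obtain ⟨u, hu⟩ := hu
    let e : ZMod d ≃ ZMod d :=
      u.mulRight.trans ((Equiv.addLeft ((γ 0 1 : ℤ) : ZMod d)).trans u.mulLeft)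
    rw [SlashAction.sum_slash]
    refine Eq.trans ?_ (Equiv.sum_comp e _)
    exact Finset.sum_congr rfl fun j _ => U_slash hf.2.1 _ hN hγ (by simp [e, hu])
  · exact (Submodule.sum_mem (CS ⊥ 2) fun j _ =>
      ⟨hf.1.slash _ _, fun γ hγ => by rw [Subgroup.mem_bot.1 hγ]; simp,
        fun s => zero_slash_ut one_pos _ hf.2.2 s⟩).2.2 s

/-- `U_d` for `d` a product of primes dividing the level -/
theorem Cf.U' {d : ℕ} (hd : d ≠ 0) (hN : ∀ p : ℕ, p.Prime → p ∣ d → p ∣ N) (h : Cf N a) :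
    Cf N fun n => a (d * n) := by
  induction d using induction_on_primes generalizing a with
  | zero => exact absurd rfl hd
  | one => simpa using h
  | prime_mul p d hp ih =>
    simpa only [mul_assoc] using ih (right_ne_zero_of_mul hd)
      (fun q hq h' => hN q hq (h'.mul_left p))
      (h.U hp.ne_zero (hN p hp (dvd_mul_right p d)))

/-! ### weak multiplicity one -/

lemma Qx.V (h : Qx f a) {d : ℕ} (hd : 0 < d) :
    Qx (f ∣[(2 : ℤ)] ut d 0 1 (Nat.cast_pos.2 hd) one_pos)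
      fun n => if d ∣ n then d * a (n / d) else 0 := fun z => by
  have h1 := (h (ut d 0 1 (Nat.cast_pos.2 hd) one_pos • z)).mul_left (d : ℂ)
  rw [coe_ut_smul] at h1
  rw [slash_ut, ← (mul_right_injective₀ hd.ne').hasSum_iff]
  · have e1 : ((d : ℚ) : ℂ) / ((1 : ℚ) : ℂ) = d := by simp
    rw [e1]
    refine hasSum_congr h1 fun n => ?_
    simp only [comp_apply, dvd_mul_right, if_true, Nat.mul_div_cancel_left n hd, mul_assoc]
    congr 3
    push_cast
    ring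
  · intro n hn
    beta_reduce
    rw [if_neg, zero_mul]
    rintro ⟨c, rfl⟩
    exact hn ⟨c, rfl⟩

theorem Cf.eq_zero_of_dvd (h : Cf N a) {p : ℕ} (hp : 1 < p) (hc : p.Coprime N)
    (h0 : ∀ n, ¬ p ∣ n → a n = 0) : a = 0 := by
  obtain ⟨f, hf, hq⟩ := h
  have hpC : (p : ℂ) ≠ 0 := by exact_mod_cast (zero_lt_one.trans hp).ne'
  have ht (k : ℤ) : tr f (k / p) = f := by
    refine (hq.tr _).fun_unique ?_
    convert hq using 2 with n
    by_cases hn : p ∣ n
    · obtain ⟨c, rfl⟩ := hn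
      rw [show 2 * Real.pi * Complex.I * ((p * c : ℕ) : ℂ) * ((k / p : ℚ) : ℂ) =
        ((c * k : ℤ) : ℂ) * (2 * Real.pi * Complex.I) by push_cast; field_simp,
        Complex.exp_int_mul_two_pi_mul_I, one_mul]
    · rw [h0 n hn, mul_zero]
  have hp0 : (0 : ℚ) < p := by positivity
  have hpR : (p : ℝ) ≠ 0 := by positivity
  obtain ⟨x, k, hxk⟩ := Nat.isCoprime_iff_coprime.2 hc
  let γ : SL(2, ℤ) := ⟨!![x, -k; N, p], by rw [Matrix.det_fin_two_of]; linear_combination hxk⟩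
  let L : SL(2, ℤ) := ⟨!![1, 0; -(p * N), 1], by rw [Matrix.det_fin_two_of]; ring⟩
  have hγ : γ ∈ Gamma0 N := by rw [Gamma0_mem]; simp [γ]
  have hL : L ∈ Gamma0 N := by rw [Gamma0_mem]; simp [L]
  have hR : (x : ℝ) * p + k * N = 1 := by exact_mod_cast hxk
  have e : (L : GL (Fin 2) ℝ) * ut 1 (k / p) 1 one_pos one_pos * (γ : GL (Fin 2) ℝ) =
      ut p⁻¹ 0 p (inv_pos.2 hp0) hp0 := by
    ext i j
    simp only [Units.val_mul, Matrix.mul_apply, Fin.sum_univ_two, SL_val, ut_val]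
    fin_cases i <;> fin_cases j <;> simp [γ, L] <;> field_simp
    · linear_combination hR
    · ring
    · linear_combination (-(N : ℝ)) * hR
    · ring
  have h1 : f ∣[(2 : ℤ)] ut p⁻¹ 0 p (inv_pos.2 hp0) hp0 = f := by
    rw [← e, SlashAction.slash_mul, SlashAction.slash_mul, ← SL_slash, ← SL_slash, hf.2.1 L hL]
    exact (congr_arg (· ∣[(2 : ℤ)] γ) (ht k)).trans (hf.2.1 γ hγ)
  have hp2 : 0 < p ^ 2 := by positivity
  have h2 : f ∣[(2 : ℤ)] ut (p ^ 2 : ℕ) 0 1 (Nat.cast_pos.2 hp2) one_pos = f := by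
    funext z
    rw [slash_ut, ← congr_fun h1 (_ • z), slash_ut,
      show ut p⁻¹ 0 p (inv_pos.2 hp0) hp0 • ut (p ^ 2 : ℕ) 0 1 (Nat.cast_pos.2 hp2) one_pos • z = z
        from UpperHalfPlane.ext (by rw [coe_ut_smul, coe_ut_smul]; push_cast; field_simp; ring)]
    push_cast
    field_simp
  have h3 := hq.V hp2
  rw [h2] at h3
  have h4 := hq.unique h3
  funext n
  induction n using Nat.strong_induction_on with
  | _ n ih =>
    have h5 := congr_fun h4 n
    beta_reduce at h5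
    split_ifs at h5 with h6
    · rcases Nat.eq_zero_or_pos n with rfl | hn
      · rw [Nat.zero_div] at h5
        have h7 : ((p ^ 2 : ℕ) : ℂ) - 1 ≠ 0 := by
          rw [sub_ne_zero]
          exact_mod_cast (Nat.one_lt_pow two_ne_zero hp).ne'
        exact (mul_eq_zero.1 (show (((p ^ 2 : ℕ) : ℂ) - 1) * a 0 = 0 by
          linear_combination -h5)).resolve_left h7
      · rw [h5, ih _ (Nat.div_lt_self hn (Nat.one_lt_pow two_ne_zero hp))]
        simp
    · exact h5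

/-- **weak multiplicity one** -/
theorem Cf.eq_zero (P : Finset ℕ) (hP : ∀ p ∈ P, p.Prime ∧ ¬ p ∣ N) (h : Cf N a)
    (h0 : ∀ n, (∀ p ∈ P, ¬ p ∣ n) → a n = 0) : a = 0 := by
  induction P using Finset.induction_on with
  | empty => exact funext fun n => h0 n (by simp)
  | insert p P hp ih =>
    have hP' : ∀ q ∈ P, q.Prime ∧ ¬ q ∣ N := fun q hq => hP q (Finset.mem_insert_of_mem hq)
    obtain ⟨hpp, hpN⟩ := hP p (Finset.mem_insert_self _ _)
    have hco (n : ℕ) : n.Coprime (∏ q ∈ P, q) ↔ ∀ q ∈ P, ¬ q ∣ n := by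
      rw [Nat.coprime_prod_right_iff]
      exact forall₂_congr fun q hq => by rw [Nat.coprime_comm, (hP' q hq).1.coprime_iff_not_dvd]
    have h1 := (h.deplete (m := ∏ q ∈ P, q)
      (Finset.prod_ne_zero_iff.2 fun q hq => (hP' q hq).1.ne_zero)).eq_zero_of_dvd hpp.one_lt
      (Nat.Coprime.mul_right (hpp.coprime_iff_not_dvd.2 hpN) (Nat.Coprime.pow_right _
        ((hco p).2 fun q hq hd => hp (((Nat.prime_dvd_prime_iff_eq (hP' q hq).1 hpp).1 hd) ▸ hq))))
      fun n hn => by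
        split_ifs with h2
        · exact h0 n (Finset.forall_mem_insert _ _ _ |>.2 ⟨hn, (hco n).1 h2⟩)
        · rfl
    refine ih hP' fun n hn => ?_
    have := congr_fun h1 n
    simp only [if_pos ((hco n).2 hn)] at this
    exact this

end Crest.Agent.T15.Sm
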