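import Crest.Agent.T15.HtDef_95
import Crest.Agent.T15.SmA_96

/-!
# Row 15, block Ht (helper98): the leaf `DepStmt`
-/

set_option autoImplicit false
set_option maxHeartbeats 400000

noncomputable section

namespace Crest.Agent.T15.Ht

lemma dep_pc (B i : ℕ) (g : ℕ → ℤ) :
    (fun n : ℕ => if n.Coprime B then (pc i g n : ℂ) else 0) = fun n => (pc i (dep B g) n : ℂ) := by
  funext n
  unfold pc dep
  split_ifs <;> simp

/-- **leaf DEP** -/
theorem depStmt : DepStmt := by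
  intro L B g f hL hB hf
  obtain ⟨f1, h1, q1⟩ := Sm.Cf.deplete (N := L) ⟨f 0, hf.cs 0, hf.q1⟩ hB.ne'
  obtain ⟨f3, h3, q3⟩ := Sm.Cf.deplete (N := L) ⟨f 1, hf.cs 1, hf.q3⟩ hB.ne'
  refine ⟨L * B ^ 2, ![f1, f3], by positivity, fun i => ?_, ?_, ?_⟩
  · fin_cases i
    · exact h1
    · exact h3
  · rw [← dep_pc]; exact q1
  · rw [← dep_pc]; exact q3

end Crest.Agent.T15.Ht
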