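import Mathlib
import Crest.Agent.T15.FaDef_51
import Crest.Agent.R013.CE5_280

/-!
# Row 15 (helper49): homomorphisms out of a hyperelliptic function field, constant extensions

`exists_hom`, `hom_ext`, `exists_SI`, `exists_Fx`, `hyp_of_isCE`, `con_iff`, `conC_iff`, `fx_iff`.
-/

set_option autoImplicit false
set_option linter.all false

namespace Crest.Agent.T15.Fa

open Polynomial WithZero Module
open scoped TensorProduct
open Crest.Agent.R013.RR7_948 Crest.Agent.R013.RR8_948 Crest.Agent.R013.RR9_948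
open Crest.Agent.R013.RR11_948 Crest.Agent.R013.RR12_948 Crest.Agent.R013.PicD_398
open Crest.Agent.R013.Frob1_914
open Crest.Agent.T15.Hy
open Crest.Agent.R013.CE3_280 (IsCE mu mu_tmul conP plQ conP_Over plQ_At conP_injective)
open Crest.Agent.R013.CE5_280 (base)

section hom

variable {k K k' K' : Type*} [Field k] [Field K] [Algebra k K] [Field k'] [Field K'] [Algebra k' K']
  {F : k[X]} {x w : K}

theorem hom_aeval (φ : K →+* K') (s : k →+* k')
    (hφ : ∀ c, φ (algebraMap k K c) = algebraMap k' K' (s c)) (x : K) (p : k[X]) :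
    φ (aeval x p) = aeval (φ x) (p.map s) := by
  induction p using Polynomial.induction_on' with
  | add p q hp hq => rw [map_add, map_add, Polynomial.map_add, map_add, hp, hq]
  | monomial n a =>
    rw [aeval_monomial, map_mul, map_pow, hφ, Polynomial.map_monomial, aeval_monomial]

theorem hom_el (φ : K →+* K') (s : k →+* k')
    (hφ : ∀ c, φ (algebraMap k K c) = algebraMap k' K' (s c)) (x w : K) (A B : k[X]) :
    φ (el x w A B) = el (φ x) (φ w) (A.map s) (B.map s) := by
  simp only [el, map_add, map_mul, hom_aeval φ s hφ]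

/-- the image of `f` -/
noncomputable def hmF (h : Hyp F x w) (s : k →+* k') (x' w' : K') (f : K) : K' :=
  el x' w' ((h.gen f).choose.map s) ((h.gen f).choose_spec.choose.map s) /
    aeval x' ((h.gen f).choose_spec.choose_spec.choose.map s)

theorem hmF_spec (h : Hyp F x w) (s : k →+* k') {x' w' : K'}
    (ht : ∀ p : k[X], aeval x' (p.map s) = 0 → p = 0) {f : K} {A B c : k[X]}
    (hf : f * aeval x c = el x w A B) :
    hmF h s x' w' f * aeval x' (c.map s) = el x' w' (A.map s) (B.map s) := by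
  obtain ⟨hc, hs⟩ := (h.gen f).choose_spec.choose_spec.choose_spec
  unfold hmF
  set A' := (h.gen f).choose
  set B' := (h.gen f).choose_spec.choose
  set c' := (h.gen f).choose_spec.choose_spec.choose
  have h1 : el x w (A * c') (B * c') = el x w (A' * c) (B' * c) := by
    rw [← el_mul_aeval, ← el_mul_aeval, ← hf, ← hs]; ring
  obtain ⟨h2, h3⟩ := h.el_inj h1
  rw [div_mul_eq_mul_div, div_eq_iff (fun h0 => hc (ht _ h0)), el_mul_aeval, el_mul_aeval,
    ← Polynomial.map_mul, ← Polynomial.map_mul, ← Polynomial.map_mul, ← Polynomial.map_mul, h2, h3]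

/-- a point `(x', w')` of the curve with `x'` transcendental gives a homomorphism -/
theorem exists_hom (h : Hyp F x w) (s : k →+* k') {x' w' : K'}
    (ht : ∀ p : k[X], aeval x' (p.map s) = 0 → p = 0) (hw : w' ^ 2 = aeval x' (F.map s)) :
    ∃ φ : K →+* K', (∀ c, φ (algebraMap k K c) = algebraMap k' K' (s c)) ∧ φ x = x' ∧ φ w = w' := by
  have hel : ∀ A B : k[X], hmF h s x' w' (el x w A B) = el x' w' (A.map s) (B.map s) := by
    intro A B
    have := hmF_spec h s (w' := w') ht (f := el x w A B) (c := 1) (A := A) (B := B) (by simp)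
    simpa using this
  have hne : ∀ {c : k[X]}, c ≠ 0 → aeval x' (c.map s) ≠ 0 := fun hc h0 => hc (ht _ h0)
  refine ⟨{ toFun := hmF h s x' w', map_one' := ?_, map_mul' := ?_, map_zero' := ?_,
            map_add' := ?_ }, ?_, ?_, ?_⟩
  · have := hel 1 0
    simpa [el] using this
  · intro f g
    obtain ⟨A, B, c, hc, hf⟩ := h.gen f
    obtain ⟨A', B', c', hc', hg⟩ := h.gen g
    have h1 : (f * g) * aeval x (c * c') = el x w (A * A' + B * B' * F) (A * B' + B * A') := by
      rw [← el_mul h.sq, ← hf, ← hg, map_mul]; ring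
    apply mul_right_cancel₀ (hne (mul_ne_zero hc hc'))
    have h2 : hmF h s x' w' f * hmF h s x' w' g * aeval x' ((c * c').map s) =
        (hmF h s x' w' f * aeval x' (c.map s)) * (hmF h s x' w' g * aeval x' (c'.map s)) := by
      rw [Polynomial.map_mul, map_mul]; ring
    rw [hmF_spec h s ht h1, h2, hmF_spec h s ht hf, hmF_spec h s ht hg, el_mul hw]
    simp only [Polynomial.map_add, Polynomial.map_mul]
  · have := hel 0 0
    simpa [el] using this
  · intro f g
    obtain ⟨A, B, c, hc, hf⟩ := h.gen f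
    obtain ⟨A', B', c', hc', hg⟩ := h.gen g
    have h1 : (f + g) * aeval x (c * c') = el x w (A * c' + A' * c) (B * c' + B' * c) := by
      rw [← el_add, ← el_mul_aeval, ← el_mul_aeval, ← hf, ← hg, map_mul]; ring
    apply mul_right_cancel₀ (hne (mul_ne_zero hc hc'))
    rw [hmF_spec h s ht h1]
    simp only [Polynomial.map_add, Polynomial.map_mul]
    rw [← el_add, ← el_mul_aeval, ← el_mul_aeval, ← hmF_spec h s ht hf, ← hmF_spec h s ht hg,
      map_mul]
    ring
  · intro c
    have := hel (C c) 0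
    simpa [el] using this
  · have := hel X 0
    simpa [el] using this
  · have := hel 0 1
    simpa [el] using this

/-- homomorphisms are determined by the constants, `x` and `w` -/
theorem hom_ext {R : Type*} [Field R] (h : Hyp F x w) {φ ψ : K →+* R}
    (hc : ∀ c, φ (algebraMap k K c) = ψ (algebraMap k K c)) (hx : φ x = ψ x) (hw : φ w = ψ w) :
    φ = ψ := by
  have ha : ∀ p : k[X], φ (aeval x p) = ψ (aeval x p) := by
    intro p
    induction p using Polynomial.induction_on' with
    | add p q hp hq => rw [map_add, map_add, map_add, hp, hq]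
    | monomial n a => rw [aeval_monomial, map_mul, map_mul, map_pow, map_pow, hc, hx]
  ext f
  obtain ⟨A, B, c, hc0, hf⟩ := h.gen f
  have h1 := congrArg φ hf
  have h2 := congrArg ψ hf
  simp only [el, map_add, map_mul, ha, hw] at h1 h2
  exact mul_right_cancel₀ ((map_ne_zero ψ).mpr (h.aeval_ne hc0)) (h1.trans h2.symm)

/-- semilinear isomorphism of two models -/
theorem exists_SI {F' : k'[X]} {x' w' : K'} (h : Hyp F x w) (h' : Hyp F' x' w') (s : k ≃+* k')
    (hF : F.map (s : k →+* k') = F') :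
    ∃ e : SI k K k' K', e.s = s ∧ e.f x = x' ∧ e.f w = w' := by
  obtain ⟨φ, h1, h2, h3⟩ := exists_hom h (s : k →+* k') (x' := x') (w' := w')
    (fun p hp => (Polynomial.map_eq_zero_iff (s : k →+* k').injective).mp (h'.tr _ hp))
    (by rw [hF]; exact h'.sq)
  have hsurj : Function.Surjective φ := by
    intro g
    obtain ⟨A, B, c, hc, hg⟩ := h'.gen g
    obtain ⟨A0, rfl⟩ := Polynomial.map_surjective (s : k →+* k') s.surjective A
    obtain ⟨B0, rfl⟩ := Polynomial.map_surjective (s : k →+* k') s.surjective B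
    obtain ⟨c0, rfl⟩ := Polynomial.map_surjective (s : k →+* k') s.surjective c
    refine ⟨el x w A0 B0 / aeval x c0, ?_⟩
    rw [map_div₀, hom_el φ _ h1, hom_aeval φ _ h1, h2, h3, div_eq_iff (h'.aeval_ne hc), hg]
  exact ⟨⟨s, RingEquiv.ofBijective φ ⟨φ.injective, hsurj⟩, h1⟩, rfl, h2, h3⟩

theorem SI_ext (h : Hyp F x w) {e e' : SI k K k' K'} (hs : ∀ c, e.s c = e'.s c)
    (hx : e.f x = e'.f x) (hw : e.f w = e'.f w) (f : K) : e.f f = e'.f f := by
  have := hom_ext h (φ := (e.f : K →+* K')) (ψ := (e'.f : K →+* K'))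
    (fun c => by show e.f _ = e'.f _; rw [e.comm, e'.comm, hs]) hx hw
  exact DFunLike.congr_fun this f

theorem norm_eq_zero (hs : F.Separable) (hp : 0 < F.natDegree) {A B : k[X]}
    (h1 : A ^ 2 - B ^ 2 * F = 0) : A = 0 ∧ B = 0 := by
  by_cases hB : B = 0
  · subst hB
    exact ⟨by simpa using h1, rfl⟩
  · exfalso
    have h2 : B ^ 2 ∣ A ^ 2 := ⟨F, by linear_combination h1⟩
    obtain ⟨D, rfl⟩ := (IsIntegrallyClosed.pow_dvd_pow_iff two_ne_zero).mp h2
    have h3 : F = D * D := by
      apply mul_left_cancel₀ (pow_ne_zero 2 hB)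
      linear_combination -h1
    have h4 : IsUnit D := hs.squarefree D (by rw [h3])
    rw [h3, natDegree_eq_zero_of_isUnit (h4.mul h4)] at hp
    exact lt_irrefl _ hp

theorem li_pow_iff (x : K) :
    LinearIndependent k (fun n : ℕ => x ^ n) ↔ ∀ p : k[X], aeval x p = 0 → p = 0 := by
  classical
  rw [linearIndependent_iff']
  constructor
  · intro h p hp
    rw [aeval_eq_sum_range] at hp
    ext i
    by_cases hi : i ≤ p.natDegree
    · exact h _ _ hp i (Finset.mem_range.mpr (Nat.lt_succ_of_le hi))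
    · rw [coeff_eq_zero_of_natDegree_lt (not_le.mp hi), coeff_zero]
  · intro h s g hg i hi
    have h1 := h (∑ j ∈ s, monomial j (g j)) (by
      rw [map_sum, ← hg]
      exact Finset.sum_congr rfl fun j _ => by rw [aeval_monomial, Algebra.smul_def])
    have h2 := congrArg (fun p => coeff p i) h1
    simpa [finset_sum_coeff, coeff_monomial, hi] using h2

end hom

section fx

variable {k Om L : Type*} [Field k] [Field Om] [Field L] [Algebra k Om] [Algebra Om L]
  {F : k[X]} {x w : L}

/-- every automorphism of `Om / k` extends to `L` and fixes `x`, `w` -/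
theorem exists_SI_fix (h : Hyp (F.map (algebraMap k Om)) x w) (s : Om ≃+* Om)
    (hs : ∀ c : k, s (algebraMap k Om c) = algebraMap k Om c) :
    ∃ e : SI Om L Om L, e.s = s ∧ e.f x = x ∧ e.f w = w :=
  exists_SI h h s (by
    rw [Polynomial.map_map]
    congr 1
    ext c
    exact hs c)

theorem exists_Fx (h : Hyp (F.map (algebraMap k Om)) x w) {S : Finset Om} {s : Om ≃+* Om}
    (hs : Gs k S s) : ∃ e : SI Om L Om L, e.s = s ∧ Fx k S x w e := by
  obtain ⟨e, h1, h2, h3⟩ := exists_SI_fix h s hs.1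
  exact ⟨e, h1, h2, h3, h1 ▸ hs⟩

end fx

section ce

variable {k K Om L : Type*} [Field k] [Field K] [Algebra k K] [Field Om] [Algebra k Om]
  [Field L] [Algebra Om L] [Algebra k L] [IsScalarTower k Om L] {ι : K →ₐ[k] L}
  {F : k[X]} {x0 w0 : K}

theorem iota_c (ι : K →ₐ[k] L) (c : k) :
    (ι : K →+* L) (algebraMap k K c) = algebraMap Om L (algebraMap k Om c) := by
  rw [← IsScalarTower.algebraMap_apply]; exact ι.commutes c

theorem iota_aeval (ι : K →ₐ[k] L) (x : K) (p : k[X]) :
    ι (aeval x p) = aeval (ι x) (p.map (algebraMap k Om)) :=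
  hom_aeval (ι : K →+* L) (algebraMap k Om) (iota_c ι) x p

theorem iota_el (ι : K →ₐ[k] L) (x w : K) (A B : k[X]) :
    ι (el x w A B) = el (ι x) (ι w) (A.map (algebraMap k Om)) (B.map (algebraMap k Om)) :=
  hom_el (ι : K →+* L) (algebraMap k Om) (iota_c ι) x w A B

theorem tr_of_isCE (hι : IsCE Om ι) {x : K} (hx : ∀ p : k[X], aeval x p = 0 → p = 0) :
    ∀ p : Om[X], aeval (ι x) p = 0 → p = 0 := by
  rw [← li_pow_iff] at hx ⊢
  have h1 := (Module.Flat.linearIndependent_one_tmul (S := Om) hx).map'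
    (mu (Ω := Om) ι).toLinearMap (LinearMap.ker_eq_bot.mpr hι.inj)
  have h2 : (fun n : ℕ => ι x ^ n) =
      (mu (Ω := Om) ι).toLinearMap ∘ fun n : ℕ => (1 : Om) ⊗ₜ[k] (x ^ n) := by
    ext n
    simp
  rw [h2]
  exact h1

theorem hyp_of_isCE (h : Hyp F x0 w0) (hι : IsCE Om ι) :
    Hyp (F.map (algebraMap k Om)) (ι x0) (ι w0) := by
  have hsq : ι w0 ^ 2 = aeval (ι x0) (F.map (algebraMap k Om)) := by
    rw [← map_pow, h.sq, iota_aeval (Om := Om)]
  have hsep : (F.map (algebraMap k Om)).Separable := h.sep.map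
  have hpos : 0 < (F.map (algebraMap k Om)).natDegree := by rw [natDegree_map]; exact h.pos
  have htr := tr_of_isCE hι h.tr
  refine ⟨?_, hsep, hpos, htr, hsq, ?_⟩
  · have := (map_ne_zero (algebraMap k Om)).mpr h.two
    rwa [map_ofNat] at this
  · have key : ∀ t : Om ⊗[k] K, ∃ A B c : Om[X], c ≠ 0 ∧
        mu ι t * aeval (ι x0) c = el (ι x0) (ι w0) A B := by
      intro t
      induction t with
      | zero => exact ⟨0, 0, 1, one_ne_zero, by simp [el]⟩
      | add t t' ht ht' =>
        obtain ⟨A, B, c, hc, hf⟩ := ht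
        obtain ⟨A', B', c', hc', hg⟩ := ht'
        refine ⟨A * c' + A' * c, B * c' + B' * c, c * c', mul_ne_zero hc hc', ?_⟩
        rw [← el_add, ← el_mul_aeval, ← el_mul_aeval, ← hf, ← hg, map_mul, map_add]; ring
      | tmul a f =>
        obtain ⟨A, B, c, hc, hf⟩ := h.gen f
        refine ⟨A.map (algebraMap k Om) * C a, B.map (algebraMap k Om) * C a,
          c.map (algebraMap k Om), Polynomial.map_ne_zero hc, ?_⟩
        rw [← el_mul_aeval, ← iota_el, ← hf, map_mul, iota_aeval (Om := Om), mu_tmul, aeval_C]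
        ring
    intro f
    obtain ⟨a, b, hb, hab⟩ := hι.frac f
    obtain ⟨A, B, c, hc, ha'⟩ := key a
    obtain ⟨A', B', c', hc', hb'⟩ := key b
    have hN : A' ^ 2 - B' ^ 2 * F.map (algebraMap k Om) ≠ 0 := by
      intro h0
      obtain ⟨rfl, rfl⟩ := norm_eq_zero hsep hpos h0
      rw [el_zero, map_zero] at hb'
      exact mul_ne_zero (hι.ne_zero hb) (fun h1 => hc' (htr _ h1)) hb'
    refine ⟨(A * A' + B * (-B') * F.map (algebraMap k Om)) * c', (A * (-B') + B * A') * c',
      c * (A' ^ 2 - B' ^ 2 * F.map (algebraMap k Om)), mul_ne_zero hc hN, ?_⟩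
    rw [map_mul, ← el_norm hsq]
    have : f * (aeval (ι x0) c * (el (ι x0) (ι w0) A' B' * el (ι x0) (ι w0) A' (-B'))) =
        el (ι x0) (ι w0) A B * el (ι x0) (ι w0) A' (-B') * aeval (ι x0) c' := by
      rw [← ha', ← hab]
      conv_lhs => rw [← hb']
      ring
    rw [this, el_mul hsq, el_mul_aeval]

theorem fx_iff (h : Hyp F x0 w0) (S : Finset Om) (e : SI Om L Om L) :
    Fx k S (ι x0) (ι w0) e ↔ (∀ f, e.f (ι f) = ι f) ∧ Gs k S e.s := by
  constructor
  · rintro ⟨h1, h2, h3⟩
    refine ⟨fun f => ?_, h3⟩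
    have := hom_ext h (φ := (e.f : L →+* L).comp (ι : K →+* L)) (ψ := (ι : K →+* L))
      (fun c => by
        rw [RingHom.comp_apply, iota_c (Om := Om)]
        show e.f _ = _
        rw [e.comm, h3.1]) h1 h2
    exact DFunLike.congr_fun this f
  · rintro ⟨h1, h2⟩
    exact ⟨h1 _, h1 _, h2⟩

variable [IsAlgClosed k] [IsAlgClosed Om]
  [Algebra (RatFunc k) K] [IsScalarTower k (RatFunc k) K] [FiniteDimensional (RatFunc k) K]
  [Algebra.IsSeparable (RatFunc k) K]
  [Algebra (RatFunc Om) L] [IsScalarTower Om (RatFunc Om) L] [FiniteDimensional (RatFunc Om) L]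
  [Algebra.IsSeparable (RatFunc Om) L]

theorem conP_v (hι : IsCE Om ι) (P : Pl k K) (f : K) : (conP hι P).v (ι f) = P.v f :=
  (conP_Over hι P).v_iota hι f

theorem iota_sub (ι : K →ₐ[k] L) (f : K) (a : k) :
    ι f - algebraMap Om L (algebraMap k Om a) = ι (f - algebraMap k K a) := by
  rw [map_sub, ← iota_c ι]; rfl

theorem at_conP (hι : IsCE Om ι) {P : Pl k K} {a b : k} :
    At (conP hι P) (ι x0) (ι w0) (algebraMap k Om a) (algebraMap k Om b) ↔ At P x0 w0 a b := by
  unfold At
  rw [iota_sub, iota_sub, conP_v, conP_v]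

theorem con_iff (h : Hyp F x0 w0) (hι : IsCE Om ι) (P : Pl Om L) :
    Con k (ι x0) (ι w0) P ↔ ∃ P0, P = conP hι P0 := by
  constructor
  · intro hP
    rcases Crest.Agent.R013.CE3_280.cases hι P with h1 | ⟨Q, rfl⟩
    · exact h1
    · exfalso
      rcases hP with hP | ⟨a, b, hP⟩
      · rw [(plQ_At hι Q).iota_eq_one h.x_ne] at hP
        exact lt_irrefl _ hP
      · have h1 := hP.1
        rw [iota_sub, (plQ_At hι Q).iota_eq_one (h.x_sub_ne a)] at h1
        exact lt_irrefl _ h1
  · rintro ⟨P0, rfl⟩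
    by_cases hx : P0.v x0 ≤ 1
    · exact Or.inr ⟨_, _, (at_conP hι).mpr (h.at_ev hx)⟩
    · exact Or.inl (by rw [conP_v]; exact not_le.mp hx)

theorem conC_iff (h : Hyp F x0 w0) (hι : IsCE Om ι) (c : Pic Om L) :
    ConC k (ι x0) (ι w0) c ↔ ∃ D0 : Pl k K →₀ ℤ, c = cls (base hι D0) := by
  constructor
  · rintro ⟨D, rfl, hD⟩
    refine ⟨D.comapDomain (conP hι) (conP_injective hι).injOn, ?_⟩
    congr 1
    refine (Finsupp.mapDomain_comapDomain _ (conP_injective hι) D ?_).symm
    intro P hP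
    obtain ⟨P0, h0⟩ := (con_iff h hι P).mp (hD P (Finsupp.mem_support_iff.mp hP))
    exact ⟨P0, h0.symm⟩
  · rintro ⟨D0, rfl⟩
    refine ⟨base hι D0, rfl, fun P hP => (con_iff h hι P).mpr ?_⟩
    by_contra hn
    apply hP
    apply Finsupp.mapDomain_of_notMem_range
    rintro ⟨P0, h0⟩
    exact hn ⟨P0, h0.symm⟩

theorem mem_Gam_iff (h : Hyp F x0 w0) (S : Finset Om) (c : Pic Om L) :
    c ∈ Gam k S (ι x0) (ι w0) ↔
      ∀ e : SI Om L Om L, (∀ f, e.f (ι f) = ι f) → Gs k S e.s → e.pic c = c := by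
  rw [mem_Gam]
  exact ⟨fun H e h1 h2 => H e ((fx_iff h S e).mpr ⟨h1, h2⟩),
    fun H e he => H e ((fx_iff h S e).mp he).1 ((fx_iff h S e).mp he).2⟩

end ce

end Crest.Agent.T15.Fa
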