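import Mathlib
import Crest.Agent.T15.MoA_29
import Crest.Agent.T15.HyB_90

/-!
# Row 15, block F (helper29): the normal form of the curve `Y`

`IsY P A B2 u` ⇒ `Hy.Hyp P.F z w`; the action of semilinear automorphisms on `z`, `w`.
-/

set_option autoImplicit false
set_option linter.all false

namespace Crest.Agent.T15.Mo

open Polynomial
open Crest.Agent.T15.Hy Crest.Agent.R013.Frob1_914

section Fm

variable {C : Type*} [Field C]

theorem aeval_Fm {Y : Type*} [CommRing Y] [Algebra C Y] (c a1 a2 a3 : C) (z : Y) :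
    aeval z (Fm c a1 a2 a3) = algebraMap C Y c * z * (z ^ 2 - algebraMap C Y a1) *
      (z ^ 2 - algebraMap C Y a2) * (z ^ 2 - algebraMap C Y a3) := by
  simp [Fm]

theorem eval_Fm (c a1 a2 a3 z : C) :
    (Fm c a1 a2 a3).eval z = c * z * (z ^ 2 - a1) * (z ^ 2 - a2) * (z ^ 2 - a3) := by
  simp [Fm]

theorem natDegree_Fm {c : C} (hc : c ≠ 0) (a1 a2 a3 : C) : (Fm c a1 a2 a3).natDegree = 7 := by
  have h : ∀ a : C, (X ^ 2 - Polynomial.C a : C[X]) ≠ 0 := fun a => X_pow_sub_C_ne_zero two_pos a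
  have h0 : (Polynomial.C c * X : C[X]) ≠ 0 := mul_ne_zero (C_ne_zero.mpr hc) X_ne_zero
  unfold Fm
  rw [natDegree_mul (mul_ne_zero (mul_ne_zero h0 (h _)) (h _)) (h _),
    natDegree_mul (mul_ne_zero h0 (h _)) (h _), natDegree_mul h0 (h _), natDegree_C_mul_X c hc]
  simp only [natDegree_X_pow_sub_C]

theorem cop_sq {a b : C} (h : a ≠ b) :
    IsCoprime (X ^ 2 - Polynomial.C a : C[X]) (X ^ 2 - Polynomial.C b) := by
  have h1 : b - a ≠ 0 := sub_ne_zero.mpr h.symm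
  refine ⟨Polynomial.C (b - a)⁻¹, -Polynomial.C (b - a)⁻¹, ?_⟩
  have : Polynomial.C (b - a)⁻¹ * Polynomial.C (b - a) = 1 := by
    rw [← C_mul, inv_mul_cancel₀ h1, C_1]
  rw [C_sub] at this
  linear_combination this

theorem cop_X {c a : C} (hc : c ≠ 0) (h : a ≠ 0) :
    IsCoprime (Polynomial.C c * X : C[X]) (X ^ 2 - Polynomial.C a) := by
  refine ⟨Polynomial.C (c * a)⁻¹ * X, -Polynomial.C a⁻¹, ?_⟩
  have h1 : Polynomial.C (c * a)⁻¹ * Polynomial.C c = Polynomial.C a⁻¹ := by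
    rw [← C_mul]; congr 1; field_simp
  have h2 : Polynomial.C a⁻¹ * Polynomial.C a = 1 := by rw [← C_mul, inv_mul_cancel₀ h, C_1]
  linear_combination X ^ 2 * h1 + h2

theorem sep_Fm (h2 : (2 : C) ≠ 0) {c a1 a2 a3 : C} (hc : c ≠ 0) (h1 : a1 ≠ 0) (h2' : a2 ≠ 0)
    (h3 : a3 ≠ 0) (h12 : a1 ≠ a2) (h13 : a1 ≠ a3) (h23 : a2 ≠ a3) : (Fm c a1 a2 a3).Separable := by
  have s : ∀ a : C, a ≠ 0 → (X ^ 2 - Polynomial.C a : C[X]).Separable := fun a ha =>
    separable_X_pow_sub_C a (by exact_mod_cast h2) ha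
  have s0 : (Polynomial.C c * X : C[X]).Separable := by
    refine ⟨0, Polynomial.C c⁻¹, ?_⟩
    simp [← C_mul, inv_mul_cancel₀ hc]
  unfold Fm
  refine ((s0.mul (s _ h1) (cop_X hc h1)).mul (s _ h2') ?_).mul (s _ h3) ?_
  · exact (cop_X hc h2').mul_left (cop_sq h12)
  · exact ((cop_X hc h3).mul_left (cop_sq h13)).mul_left (cop_sq h23)

end Fm

section adj

variable {C Y : Type*} [Field C] [Field Y] [Algebra C Y]

theorem norm_ne {F A B : C[X]} (hs : F.Separable) (hp : 0 < F.natDegree) (hAB : A ≠ 0 ∨ B ≠ 0) :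
    A ^ 2 - B ^ 2 * F ≠ 0 := by
  intro h1
  by_cases hB : B = 0
  · subst hB
    rcases hAB with h | h
    · exact h (by simpa using h1)
    · exact h rfl
  · have h2 : B ^ 2 ∣ A ^ 2 := ⟨F, by linear_combination h1⟩
    obtain ⟨D, rfl⟩ := (IsIntegrallyClosed.pow_dvd_pow_iff two_ne_zero).mp h2
    have h3 : F = D * D := by
      apply mul_left_cancel₀ (pow_ne_zero 2 hB)
      linear_combination -h1
    have h4 : IsUnit D := hs.squarefree D (by rw [h3])
    rw [h3, natDegree_eq_zero_of_isUnit (h4.mul h4)] at hp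
    exact lt_irrefl _ hp

/-- `Hyp` from a generation statement -/
theorem hyp_of_adjoin {F : C[X]} {x w : Y} (h2 : (2 : C) ≠ 0) (hs : F.Separable)
    (hp : 0 < F.natDegree) (htr : Transcendental C x) (hsq : w ^ 2 = aeval x F)
    (hg : IntermediateField.adjoin C {x, w} = ⊤) : Hyp F x w := by
  have tr : ∀ p : C[X], aeval x p = 0 → p = 0 := fun p hp' => by
    by_contra h0
    exact htr ⟨p, h0, hp'⟩
  refine ⟨h2, hs, hp, tr, hsq, fun f => ?_⟩
  have hf : f ∈ IntermediateField.adjoin C {x, w} := by rw [hg]; trivial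
  induction hf using IntermediateField.adjoin_induction with
  | mem y hy =>
    rcases hy with rfl | rfl
    · exact ⟨X, 0, 1, one_ne_zero, by simp [el]⟩
    · exact ⟨0, 1, 1, one_ne_zero, by simp [el]⟩
  | algebraMap c => exact ⟨Polynomial.C c, 0, 1, one_ne_zero, by simp [el]⟩
  | add f g _ _ hf hg =>
    obtain ⟨A, B, c, hc, hf⟩ := hf
    obtain ⟨A', B', c', hc', hg⟩ := hg
    refine ⟨A * c' + A' * c, B * c' + B' * c, c * c', mul_ne_zero hc hc', ?_⟩
    rw [← el_add, ← el_mul_aeval, ← el_mul_aeval, ← hf, ← hg, map_mul]; ring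
  | inv f _ hf =>
    obtain ⟨A, B, c, hc, hf⟩ := hf
    by_cases h0 : f = 0
    · exact ⟨0, 0, 1, one_ne_zero, by simp [el, h0]⟩
    have hc' : aeval x c ≠ 0 := fun h => hc (tr c h)
    have hAB : A ≠ 0 ∨ B ≠ 0 := by
      by_contra hcon
      push Not at hcon
      rw [hcon.1, hcon.2] at hf
      exact mul_ne_zero h0 hc' (by simpa [el] using hf)
    refine ⟨A * c, -B * c, A ^ 2 - B ^ 2 * F, norm_ne hs hp hAB, ?_⟩
    rw [← el_norm hsq, ← hf, ← el_mul_aeval]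
    field_simp
  | mul f g _ _ hf hg =>
    obtain ⟨A, B, c, hc, hf⟩ := hf
    obtain ⟨A', B', c', hc', hg⟩ := hg
    refine ⟨A * A' + B * B' * F, A * B' + B * A', c * c', mul_ne_zero hc hc', ?_⟩
    rw [← el_mul hsq, ← hf, ← hg, map_mul]; ring

end adj

variable {C Y : Type*} [Field C] [Field Y] [Algebra C Y]

/-- the parameters inside `Y` -/
abbrev Par.up (P : Par C) (Y : Type*) [Field Y] [Algebra C Y] : Par Y := P.map (algebraMap C Y)

/-- `Y = C(A, B2, u)` is the function field of 50's curve -/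
structure IsY (P : Par C) (A B2 u : Y) : Prop where
  two : (2 : C) ≠ 0
  k0 : (P.up Y).p1 * (P.up Y).d1 ^ 3 * (A ^ 2 + B2) ^ 2 +
    4 * ((P.up Y).p3 * (P.up Y).d3 ^ 3) * A ^ 2 * B2 =
    4 * ((P.up Y).t * (P.up Y).d1 * (P.up Y).d2 * (P.up Y).d3) ^ 2
  cub : u ^ 3 + 2 * ((P.up Y).p1 * (P.up Y).p2 + (P.up Y).p1 * (P.up Y).p3 +
    (P.up Y).p2 * (P.up Y).p3) * u ^ 2 - (P.up Y).Xc A B2 * u -
    2 * ((P.up Y).p1 * (P.up Y).p2 * (P.up Y).p3) ^ 2 = 0
  tr : Transcendental C u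
  gen : IntermediateField.adjoin C {A, B2, u} = ⊤

theorem add_const_ne {u : Y} (h : Transcendental C u) (c : C) : u + algebraMap C Y c ≠ 0 := by
  intro h0
  exact h (by rw [eq_neg_of_add_eq_zero_left h0, ← map_neg]; exact isAlgebraic_algebraMap _)

theorem Par.sep_F (P : Par C) (h2 : (2 : C) ≠ 0) : P.F.Separable := by
  haveI : NeZero (2 : C) := ⟨h2⟩
  exact sep_Fm h2 P.c_ne P.a1_ne P.a2_ne P.a3_ne P.a1_ne_a2 P.a3_ne_a1.symm P.a3_ne_a2.symm

theorem Par.natDegree_F (P : Par C) (h2 : (2 : C) ≠ 0) : P.F.natDegree = 7 := by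
  haveI : NeZero (2 : C) := ⟨h2⟩
  exact natDegree_Fm P.c_ne _ _ _

/-- the coordinate `z` of `Y` -/
def Par.zY (P : Par C) (A B2 u : Y) : Y := (P.up Y).z A B2 u
/-- the coordinate `w` of `Y` -/
def Par.wY (P : Par C) (A B2 u : Y) : Y := (P.up Y).w A B2 u

namespace IsY

variable {P : Par C} {A B2 u : Y} (h : IsY P A B2 u)
include h

theorem eqs : Eqs (P.up Y) A B2 u where
  two := by
    have := (map_ne_zero (algebraMap C Y)).mpr h.two
    rwa [map_ofNat] at this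
  k0 := h.k0
  cub := h.cub
  n3 := by simpa using add_const_ne h.tr (P.p1 * P.p2)
  n2 := by simpa using add_const_ne h.tr (P.p1 * P.p3)

omit h in
theorem mem_of {S : IntermediateField C Y} {P : Par C} {A B2 u : Y} (h : Eqs (P.up Y) A B2 u)
    (hz : P.zY A B2 u ∈ S) : u ∈ S ∧ B2 ∈ S := by
  have c : ∀ a : C, algebraMap C Y a ∈ S := S.algebraMap_mem
  have hz' : (P.up Y).z A B2 u ∈ S := hz
  have hu : u ∈ S := by
    rw [h.u_eq]
    simp only [Par.N, Par.map_p1, Par.map_p2, Par.map_p3, Par.map_d1]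
    refine div_mem (mul_mem (mul_mem (mul_mem (ofNat_mem _ 8) (pow_mem (c _) _)) (pow_mem (c _) _))
      (pow_mem hz' _)) (mul_mem (add_mem (mul_mem (c _) (pow_mem hz' _)) (c _))
        (add_mem (mul_mem (c _) (pow_mem hz' _)) (c _)))
  refine ⟨hu, ?_⟩
  have hV : (P.up Y).V' A B2 u ∈ S := by
    rw [h.V'_eq]
    exact div_mem (add_mem (pow_mem hz' _) (one_mem _))
      (mul_mem (mul_mem (ofNat_mem _ 2) (c _)) hz')
  have hR : (P.up Y).R' A B2 u ∈ S := by
    rw [h.R'_eq]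
    exact div_mem (sub_mem (pow_mem hz' _) (one_mem _))
      (mul_mem (mul_mem (ofNat_mem _ 2) (c _)) hz')
  have e := h.B_eq
  rw [h.V_eq, h.R_eq] at e
  rw [e]
  simp only [Par.map_p1, Par.map_p2, Par.map_p3, Par.map_d2, Par.map_d3, Par.map_t]
  exact mul_mem (c _) (sub_mem (mul_mem (c _) (mul_mem (add_mem hu (mul_mem (c _) (c _))) hV))
    (mul_mem (c _) (mul_mem (add_mem hu (mul_mem (c _) (c _))) hR)))

theorem tr_z : Transcendental C (P.zY A B2 u) := by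
  intro ha
  have h1 : P.zY A B2 u ∈ algebraicClosure C Y := mem_algebraicClosure_iff.mpr ha
  exact h.tr (mem_algebraicClosure_iff.mp (mem_of h.eqs h1).1)

theorem sq_sub_ne (a : C) : P.zY A B2 u ^ 2 - algebraMap C Y a ≠ 0 := by
  intro h0
  exact h.tr_z ⟨X ^ 2 - Polynomial.C a, X_pow_sub_C_ne_zero two_pos a, by simpa using h0⟩

theorem b_ne : (P.up Y).z A B2 u ^ 2 - (P.up Y).b ≠ 0 := by
  simpa [Par.zY] using h.sq_sub_ne P.b

theorem z_ne : P.zY A B2 u ≠ 0 := h.eqs.z_ne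

theorem w_sq : P.wY A B2 u ^ 2 = aeval (P.zY A B2 u) P.F := by
  have := h.eqs.w_sq h.b_ne
  rw [Par.F, aeval_Fm]
  simpa [Par.zY, Par.wY] using this

theorem w_def : P.wY A B2 u = A * P.zY A B2 u * (P.zY A B2 u ^ 2 - algebraMap C Y P.a1) *
    (P.zY A B2 u ^ 2 - algebraMap C Y P.a2) / (P.zY A B2 u ^ 2 - algebraMap C Y P.b) := by
  simp [Par.wY, Par.zY, Par.w]

theorem A_eq : A = P.wY A B2 u * (P.zY A B2 u ^ 2 - algebraMap C Y P.b) /
    (P.zY A B2 u * (P.zY A B2 u ^ 2 - algebraMap C Y P.a1) *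
      (P.zY A B2 u ^ 2 - algebraMap C Y P.a2)) := by
  simpa [Par.zY, Par.wY] using h.eqs.A_eq h.b_ne

theorem adjoin_zw : IntermediateField.adjoin C {P.zY A B2 u, P.wY A B2 u} = ⊤ := by
  set S := IntermediateField.adjoin C {P.zY A B2 u, P.wY A B2 u}
  have hz : P.zY A B2 u ∈ S := IntermediateField.subset_adjoin _ _ (by simp)
  have hw : P.wY A B2 u ∈ S := IntermediateField.subset_adjoin _ _ (by simp)
  have c : ∀ a : C, algebraMap C Y a ∈ S := S.algebraMap_mem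
  obtain ⟨hu, hB⟩ := mem_of h.eqs hz
  have hA : A ∈ S := by
    rw [h.A_eq]
    exact div_mem (mul_mem hw (sub_mem (pow_mem hz _) (c _)))
      (mul_mem (mul_mem hz (sub_mem (pow_mem hz _) (c _))) (sub_mem (pow_mem hz _) (c _)))
  rw [eq_top_iff, ← h.gen, IntermediateField.adjoin_le_iff]
  intro y hy
  rcases hy with rfl | rfl | rfl
  exacts [hA, hB, hu]

/-- **the normal form** -/
theorem hyp : Hyp P.F (P.zY A B2 u) (P.wY A B2 u) :=
  hyp_of_adjoin h.two (P.sep_F h.two) (by rw [P.natDegree_F h.two]; norm_num) h.tr_z h.w_sq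
    h.adjoin_zw

end IsY

/-! ### action of ring homomorphisms -/

section act

variable {Y' : Type*} [Field Y'] (f : Y →+* Y') (Q : Par Y) (A B2 u : Y)

theorem map_V : f (Q.V A B2) = (Q.map f).V (f A) (f B2) := by simp [Par.V, map_ofNat]
theorem map_R : f (Q.R A B2) = (Q.map f).R (f A) (f B2) := by simp [Par.R, map_ofNat]
theorem map_V' : f (Q.V' A B2 u) = (Q.map f).V' (f A) (f B2) (f u) := by simp [Par.V', map_V]
theorem map_R' : f (Q.R' A B2 u) = (Q.map f).R' (f A) (f B2) (f u) := by simp [Par.R', map_R]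
theorem map_z : f (Q.z A B2 u) = (Q.map f).z (f A) (f B2) (f u) := by simp [Par.z, map_V', map_R']
theorem map_w : f (Q.w A B2 u) = (Q.map f).w (f A) (f B2) (f u) := by simp [Par.w, map_z]

end act

/-- `s` fixes `p₁, p₂, p₃, t` -/
structure Par.Fix (P : Par C) (s : C → C) : Prop where
  p1 : s P.p1 = P.p1
  p2 : s P.p2 = P.p2
  p3 : s P.p3 = P.p3
  t : s P.t = P.t

/-- `f` is `s`-semilinear, multiplies `A` by `lam`, `B2` by `lam²`, fixes `u` and the `p_i`, `t` -/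
structure Act (P : Par C) (A B2 u : Y) (s : C →+* C) (f : Y →+* Y) (lam : C) : Prop where
  comm : ∀ c, f (algebraMap C Y c) = algebraMap C Y (s c)
  fix : P.Fix s
  hA : f A = algebraMap C Y lam * A
  hB : f B2 = algebraMap C Y lam ^ 2 * B2
  hu : f u = u

namespace Par.Fix

variable {P : Par C} {s : C →+* C} (h : P.Fix s)
include h

theorem d1 : s P.d1 = P.d1 := by rw [Par.d1, map_sub, h.p2, h.p3]
theorem d2 : s P.d2 = P.d2 := by rw [Par.d2, map_sub, h.p3, h.p1]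
theorem d3 : s P.d3 = P.d3 := by rw [Par.d3, map_sub, h.p1, h.p2]
theorem a1 : s P.a1 = P.a1 := by rw [Par.a1, map_div₀, map_neg, h.p1, h.d1]
theorem a2 : s P.a2 = P.a2 := by rw [Par.a2, map_div₀, map_neg, h.p1, h.d1]

theorem al : s P.al = P.al ∨ s P.al = -P.al := by
  apply sq_eq_sq_iff_eq_or_eq_neg.mp
  rw [← map_pow, P.al_sq, map_mul, map_neg, map_pow, h.p2, h.d2]

theorem be : s P.be = P.be ∨ s P.be = -P.be := by
  apply sq_eq_sq_iff_eq_or_eq_neg.mp
  rw [← map_pow, P.be_sq, map_mul, map_pow, h.p3, h.d3]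

theorem b_pp (h1 : s P.al = P.al) (h2 : s P.be = P.be) : s P.b = P.b := by
  simp only [Par.b, map_div₀, map_add, map_sub, map_mul, h1, h2, h.p2, h.p3]

theorem b_mm (h1 : s P.al = -P.al) (h2 : s P.be = -P.be) : s P.b = P.b := by
  simp only [Par.b, map_div₀, map_add, map_sub, map_mul, h1, h2, h.p2, h.p3]
  have := P.sub_ne2
  rw [div_eq_div_iff (by intro h0; apply this; linear_combination -h0) this]; ring

theorem b_pm (h1 : s P.al = P.al) (h2 : s P.be = -P.be) : s P.b = P.b⁻¹ := by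
  simp only [Par.b, map_div₀, map_add, map_sub, map_mul, h1, h2, h.p2, h.p3, inv_div]
  congr 1 <;> ring

theorem b_mp (h1 : s P.al = -P.al) (h2 : s P.be = P.be) : s P.b = P.b⁻¹ := by
  simp only [Par.b, map_div₀, map_add, map_sub, map_mul, h1, h2, h.p2, h.p3, inv_div]
  have := P.add_ne2
  rw [div_eq_div_iff (by intro h0; apply this; linear_combination -h0) this]; ring

theorem a3_pp (h1 : s P.al = P.al) (h2 : s P.be = P.be) : s P.a3 = P.a3 := by
  simp only [Par.a3, map_div₀, map_add, map_pow, map_mul, h1, h2, h.p1, h.d1]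

theorem c_pp (h1 : s P.al = P.al) (h2 : s P.be = P.be) : s P.c = P.c := by
  simp only [Par.c, map_div₀, map_add, map_mul, h1, h2, h.p1, h.p2, h.p3, h.d2, h.d3, h.t, map_ofNat]

theorem F_pp (h1 : s P.al = P.al) (h2 : s P.be = P.be) : P.F.map s = P.F := by
  rw [← P.map_F, Par.F, Par.F, Par.map_c, Par.map_a1, Par.map_a2, Par.map_a3, h.c_pp h1 h2, h.a1,
    h.a2, h.a3_pp h1 h2]

end Par.Fix

namespace Act

variable {P : Par C} {A B2 u : Y} {s : C →+* C} {f : Y →+* Y} {lam : C}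
  (h : Act P A B2 u s f lam)
include h

theorem V' : f ((P.up Y).V' A B2 u) = algebraMap C Y lam ^ 2 * (P.up Y).V' A B2 u := by
  simp only [Par.V', Par.V, map_div₀, map_add, map_mul, map_pow, map_ofNat, h.hA, h.hB, h.hu,
    Par.map_p1, Par.map_p2, Par.map_t, Par.map_d3, h.comm, h.fix.p1, h.fix.p2, h.fix.t, h.fix.d3]
  ring

theorem R' : f ((P.up Y).R' A B2 u) = algebraMap C Y lam ^ 2 * (P.up Y).R' A B2 u := by
  simp only [Par.R', Par.R, map_div₀, map_add, map_sub, map_mul, map_pow, map_ofNat, h.hA, h.hB,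
    h.hu, Par.map_p1, Par.map_p3, Par.map_t, Par.map_d2, h.comm, h.fix.p1, h.fix.p3, h.fix.t,
    h.fix.d2]
  ring

theorem z : f (P.zY A B2 u) = algebraMap C Y lam ^ 2 * (algebraMap C Y (s P.al) *
    (P.up Y).V' A B2 u + algebraMap C Y (s P.be) * (P.up Y).R' A B2 u) := by
  simp only [Par.zY, Par.z, map_add, map_mul, h.V', h.R', Par.map_al, Par.map_be, h.comm]
  ring

theorem w (hY : IsY P A B2 u) : f (P.wY A B2 u) = algebraMap C Y lam * A * f (P.zY A B2 u) *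
    (f (P.zY A B2 u) ^ 2 - algebraMap C Y P.a1) * (f (P.zY A B2 u) ^ 2 - algebraMap C Y P.a2) /
      (f (P.zY A B2 u) ^ 2 - algebraMap C Y (s P.b)) := by
  conv_lhs => rw [hY.w_def]
  simp only [map_div₀, map_mul, map_sub, map_pow, h.hA, h.comm, h.fix.a1, h.fix.a2]

theorem z_pp (h1 : s P.al = P.al) (h2 : s P.be = P.be) :
    f (P.zY A B2 u) = algebraMap C Y lam ^ 2 * P.zY A B2 u := by
  rw [h.z, h1, h2]; rfl

theorem z_mm (h1 : s P.al = -P.al) (h2 : s P.be = -P.be) :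
    f (P.zY A B2 u) = -(algebraMap C Y lam ^ 2 * P.zY A B2 u) := by
  rw [h.z, h1, h2]; simp only [Par.zY, Par.z, map_neg, Par.map_al, Par.map_be]; ring

theorem z_pm (hY : IsY P A B2 u) (h1 : s P.al = P.al) (h2 : s P.be = -P.be) :
    f (P.zY A B2 u) = algebraMap C Y lam ^ 2 * (P.zY A B2 u)⁻¹ := by
  rw [h.z, h1, h2, Par.zY, hY.eqs.z_inv]; simp only [map_neg, Par.map_al, Par.map_be]; ring

theorem z_mp (hY : IsY P A B2 u) (h1 : s P.al = -P.al) (h2 : s P.be = P.be) :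
    f (P.zY A B2 u) = -(algebraMap C Y lam ^ 2 * (P.zY A B2 u)⁻¹) := by
  rw [h.z, h1, h2, Par.zY, hY.eqs.z_inv]; simp only [map_neg, Par.map_al, Par.map_be]; ring

theorem w_of (hY : IsY P A B2 u) {e : Y} (he : e ^ 2 = 1) (hz : f (P.zY A B2 u) = e * P.zY A B2 u)
    (hb : s P.b = P.b) : f (P.wY A B2 u) = algebraMap C Y lam * e * P.wY A B2 u := by
  rw [h.w hY, hz, hb, mul_pow, he, one_mul]
  conv_rhs => rw [hY.w_def]
  ring

theorem w_of_inv (hY : IsY P A B2 u) {e : Y} (he : e ^ 2 = 1)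
    (hz : f (P.zY A B2 u) = e * (P.zY A B2 u)⁻¹) (hb : s P.b = P.b⁻¹) :
    f (P.wY A B2 u) = -(algebraMap C Y lam * e * algebraMap C Y P.b * P.wY A B2 u /
      P.zY A B2 u ^ 4) := by
  rw [h.w hY, hz, hb, mul_pow, he, one_mul]
  conv_rhs => rw [hY.w_def]
  have h1 := hY.z_ne
  have h2 := hY.sq_sub_ne P.b
  have h3 : algebraMap C Y P.b ≠ 0 := (_root_.map_ne_zero _).mpr P.b_ne
  have h4 : algebraMap C Y P.a1 * algebraMap C Y P.a2 = 1 := by rw [← map_mul, P.a1_mul_a2, map_one]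
  rw [map_inv₀]
  generalize P.zY A B2 u = z at *
  generalize algebraMap C Y P.b = b at *
  generalize algebraMap C Y P.a1 = a1 at *
  generalize algebraMap C Y P.a2 = a2 at *
  have h5 : z⁻¹ ^ 2 - b⁻¹ = -(z ^ 2 - b) / (z ^ 2 * b) := by field_simp; ring
  have h6 : (z⁻¹ ^ 2 - a1) * (z⁻¹ ^ 2 - a2) = (z ^ 2 - a1) * (z ^ 2 - a2) / z ^ 4 := by
    field_simp
    linear_combination (z ^ 4 - 1) * h4
  rw [h5, mul_assoc _ (z⁻¹ ^ 2 - a1), h6]
  field_simp

end Act

/-! ### the four Galois cases and `y` -/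

namespace IsY

variable {P : Par C} {A B2 u : Y} (h : IsY P A B2 u) {s : C →+* C} {f : Y →+* Y}
include h

theorem act_pp (a : Act P A B2 u s f 1) (h1 : s P.al = P.al) (h2 : s P.be = P.be) :
    f (P.zY A B2 u) = P.zY A B2 u ∧ f (P.wY A B2 u) = P.wY A B2 u := by
  have hz : f (P.zY A B2 u) = 1 * P.zY A B2 u := by simpa using a.z_pp h1 h2
  exact ⟨by simpa using hz, by simpa using a.w_of h (one_pow 2) hz (a.fix.b_pp h1 h2)⟩

theorem act_mm (a : Act P A B2 u s f 1) (h1 : s P.al = -P.al) (h2 : s P.be = -P.be) :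
    f (P.zY A B2 u) = -P.zY A B2 u ∧ f (P.wY A B2 u) = -P.wY A B2 u := by
  have hz : f (P.zY A B2 u) = -1 * P.zY A B2 u := by simpa using a.z_mm h1 h2
  exact ⟨by simpa using hz, by simpa using a.w_of h neg_one_sq hz (a.fix.b_mm h1 h2)⟩

theorem act_pm (a : Act P A B2 u s f 1) (h1 : s P.al = P.al) (h2 : s P.be = -P.be) :
    f (P.zY A B2 u) = (P.zY A B2 u)⁻¹ ∧
      f (P.wY A B2 u) = -(algebraMap C Y P.b * P.wY A B2 u / P.zY A B2 u ^ 4) := by
  have hz : f (P.zY A B2 u) = 1 * (P.zY A B2 u)⁻¹ := by simpa using a.z_pm h h1 h2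
  exact ⟨by simpa using hz, by simpa using a.w_of_inv h (one_pow 2) hz (a.fix.b_pm h1 h2)⟩

theorem act_mp (a : Act P A B2 u s f 1) (h1 : s P.al = -P.al) (h2 : s P.be = P.be) :
    f (P.zY A B2 u) = -(P.zY A B2 u)⁻¹ ∧
      f (P.wY A B2 u) = algebraMap C Y P.b * P.wY A B2 u / P.zY A B2 u ^ 4 := by
  have hz : f (P.zY A B2 u) = -1 * (P.zY A B2 u)⁻¹ := by simpa using a.z_mp h h1 h2
  refine ⟨by simpa using hz, ?_⟩
  rw [a.w_of_inv h neg_one_sq hz (a.fix.b_mp h1 h2), map_one]; ring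

/-- `y : A ↦ i A, B2 ↦ -B2, u ↦ u` acts by `z ↦ -z`, `w ↦ -i w` -/
theorem act_y {i : C} (hi : i ^ 2 = -1) (a : Act P A B2 u s f i) (h1 : s P.al = P.al)
    (h2 : s P.be = P.be) :
    f (P.zY A B2 u) = -P.zY A B2 u ∧ f (P.wY A B2 u) = -(algebraMap C Y i * P.wY A B2 u) := by
  have hi' : algebraMap C Y i ^ 2 = -1 := by rw [← map_pow, hi, map_neg, map_one]
  have hz : f (P.zY A B2 u) = -1 * P.zY A B2 u := by rw [a.z_pp h1 h2, hi']
  refine ⟨by simpa using hz, ?_⟩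
  rw [a.w_of h neg_one_sq hz (a.fix.b_pp h1 h2)]; ring

/-- `A ↦ -A` is the hyperelliptic involution -/
theorem act_neg (a : Act P A B2 u s f (-1)) (h1 : s P.al = P.al) (h2 : s P.be = P.be) :
    f (P.zY A B2 u) = P.zY A B2 u ∧ f (P.wY A B2 u) = -P.wY A B2 u := by
  have hz : f (P.zY A B2 u) = 1 * P.zY A B2 u := by simpa using a.z_pp h1 h2
  exact ⟨by simpa using hz, by simpa using a.w_of h (one_pow 2) hz (a.fix.b_pp h1 h2)⟩

/-- the action of an `SI` fixing `A`, `B2`, `u` -/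
theorem act_SI (e : SI C Y C Y) (hf : P.Fix e.s) (hA : e.f A = A) (hB : e.f B2 = B2)
    (hu : e.f u = u) : Act P A B2 u (e.s : C →+* C) (e.f : Y →+* Y) 1 :=
  ⟨e.comm, hf, by simpa using hA, by simpa using hB, hu⟩

end IsY

end Crest.Agent.T15.Mo
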