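import Mathlib
import Crest.Agent.R013.TP2_928

/-!
# Row 15, block F (helper31): algebra of Tate modules

* `Lf p A` : every `p`-power torsion element lifts to the Tate module;
* `card_tors` : `#A[p ^ n] = p ^ (n * rank T)`; `finrank_of_card`; `card_tors_lat` (`V / Λ`);
* `exists_leftInv`, `perfect`, `surjective_of_adj` : perfect forms over `ℤ_[p]`;
* `finrank_ker_sq` : `j ^ 3 = c j` gives `rank ker (j ^ 2 - c) + rank ker j = rank T`.
-/

set_option autoImplicit false
set_option linter.all false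

namespace Crest.Agent.T15.Rk

open Module PadicInt Crest.Agent.R013.TP_928

theorem card_range {R M A S : Type*} [CommRing R] [Nontrivial R] [AddCommGroup M] [Module R M]
    [Module.Free R M] [Module.Finite R M] [AddCommGroup A] [CommRing S] (π : R →+* S)
    (hπ : Function.Surjective π) (c : R) (hk : ∀ a, π a = 0 ↔ c ∣ a) (ψ : M →+ A)
    (hψ : ∀ u, ψ u = 0 ↔ ∃ v, u = c • v) : Nat.card ψ.range = Nat.card S ^ finrank R M := by
  let b := Module.finBasis R M
  let φ : M →+ (Fin (finrank R M) → S) :=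
    { toFun := fun u i => π (b.repr u i)
      map_zero' := by ext i; simp
      map_add' := fun u v => by ext i; simp }
  have hφ : Function.Surjective φ := by
    intro s
    choose a ha using fun i => hπ (s i)
    refine ⟨b.equivFun.symm a, funext fun i => ?_⟩
    show π (b.repr (b.equivFun.symm a) i) = s i
    rw [← b.equivFun_apply, LinearEquiv.apply_symm_apply, ha]
  have hker : ψ.ker = φ.ker := by
    ext u
    rw [AddMonoidHom.mem_ker, AddMonoidHom.mem_ker, hψ]
    constructor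
    · rintro ⟨v, rfl⟩
      ext i
      show π (b.repr (c • v) i) = 0
      rw [hk]
      simp
    · intro h
      have h1 : ∀ i, c ∣ b.repr u i := fun i => (hk _).mp (congrFun h i)
      choose a ha using h1
      refine ⟨b.equivFun.symm a, b.equivFun.injective (funext fun i => ?_)⟩
      rw [map_smul, LinearEquiv.apply_symm_apply, b.equivFun_apply, ha]
      rfl
  rw [← Nat.card_congr (QuotientAddGroup.quotientKerEquivRange ψ).toEquiv, hker,
    Nat.card_congr (QuotientAddGroup.quotientKerEquivOfSurjective φ hφ).toEquiv, Nat.card_fun]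
  simp

/-- torsion of `V / Λ` -/
theorem card_tors_lat {V A : Type*} [AddCommGroup V] [Module ℚ V] [AddCommGroup A] (ex : V →+ A)
    (Λ : Submodule ℤ V) [Module.Finite ℤ Λ] (hk : ∀ v, ex v = 0 ↔ v ∈ Λ) {n : ℕ} (hn : n ≠ 0)
    (hs : ∀ x : A, n • x = 0 → ∃ v, ex v = x) :
    Nat.card {x : A // n • x = 0} = n ^ finrank ℤ Λ := by
  haveI : IsAddTorsionFree V := .of_module_rat V
  haveI : NeZero n := ⟨hn⟩
  have hq : (n : ℚ) ≠ 0 := by exact_mod_cast hn
  have h1 : ∀ v : V, n • (n : ℚ)⁻¹ • v = v := fun v => by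
    rw [← Nat.cast_smul_eq_nsmul ℚ, smul_smul, mul_inv_cancel₀ hq, one_smul]
  have h2 : ∀ v : V, (n : ℚ)⁻¹ • n • v = v := fun v => by rw [smul_comm, h1]
  let ψ : Λ →+ A :=
    { toFun := fun l => ex ((n : ℚ)⁻¹ • (l : V))
      map_zero' := by simp
      map_add' := fun u v => by simp }
  have h3 := card_range (Int.castRingHom (ZMod n)) (ZMod.intCast_surjective) (n : ℤ)
    (fun a => by simpa using ZMod.intCast_zmod_eq_zero_iff_dvd a n) ψ (fun u => by
      show ex _ = 0 ↔ _
      rw [hk]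
      constructor
      · intro h
        exact ⟨⟨_, h⟩, Subtype.ext (by simp [h1])⟩
      · rintro ⟨v, rfl⟩
        simp [h2])
  rw [Nat.card_zmod] at h3
  rw [← h3]
  refine Nat.card_congr (Equiv.subtypeEquivRight fun x => ?_)
  constructor
  · intro hx
    obtain ⟨v, rfl⟩ := hs x hx
    rw [← map_nsmul, hk] at hx
    exact ⟨⟨_, hx⟩, by show ex _ = _; rw [h2]⟩
  · rintro ⟨l, rfl⟩
    show n • ex _ = 0
    rw [← map_nsmul, h1, hk]
    exact l.2

variable {p : ℕ} [hp : Fact p.Prime]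

section tate

variable {A : Type*} [AddCommGroup A]

variable (p A) in
/-- every `p`-power torsion element lifts to the Tate module -/
def Lf : Prop := ∀ (n : ℕ) (x : A), (p ^ n) • x = 0 → ∃ u : Tate p A, u n = x

variable (p A) in
/-- the `n`-th component -/
def pr (n : ℕ) : Tate p A →+ A where
  toFun u := u n
  map_zero' := rfl
  map_add' _ _ := rfl

@[simp] theorem pr_apply (n : ℕ) (u : Tate p A) : pr p A n u = u n := rfl

theorem apply_eq_zero_iff (u : Tate p A) (n : ℕ) :
    u n = 0 ↔ ∃ v, u = (p : ℤ_[p]) ^ n • v := by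
  constructor
  · intro h
    refine ⟨Tate.mk (fun m => u (m + n)) (by simpa using h) (fun m => by
      rw [add_right_comm]; exact u.apply_succ _), Tate.ext fun m => ?_⟩
    rw [Tate.pow_smul_eq, Tate.nsmul_apply, Tate.mk_apply, u.pow_smul_apply_add]
  · rintro ⟨v, rfl⟩
    rw [Tate.pow_smul_eq, Tate.nsmul_apply, v.pow_smul_apply]

theorem apply_one_eq_zero_iff (u : Tate p A) : u 1 = 0 ↔ ∃ v, u = (p : ℤ_[p]) • v := by
  rw [apply_eq_zero_iff, pow_one]

theorem card_tors [Module.Finite ℤ_[p] (Tate p A)] (hl : Lf p A) (n : ℕ) :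
    Nat.card {x : A // (p ^ n) • x = 0} = p ^ (n * finrank ℤ_[p] (Tate p A)) := by
  haveI : NeZero (p ^ n) := ⟨pow_ne_zero _ hp.out.ne_zero⟩
  have h := card_range (toZModPow (p := p) n) (ZMod.ringHom_surjective _) ((p : ℤ_[p]) ^ n)
    (fun a => by rw [← RingHom.mem_ker, ker_toZModPow, Ideal.mem_span_singleton]) (pr p A n)
    (fun u => apply_eq_zero_iff u n)
  rw [Nat.card_zmod, ← pow_mul] at h
  rw [← h]
  refine Nat.card_congr (Equiv.subtypeEquivRight fun x => ⟨fun hx => hl n x hx, ?_⟩)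
  rintro ⟨u, rfl⟩
  exact u.pow_smul_apply n

theorem finite_of_card {r : ℕ} (h : Nat.card {x : A // p • x = 0} = p ^ r) :
    Module.Finite ℤ_[p] (Tate p A) :=
  Tate.finite (Nat.finite_of_card_ne_zero (h ▸ pow_ne_zero _ hp.out.ne_zero))

theorem finrank_of_card (hl : Lf p A) {r : ℕ} (h : Nat.card {x : A // p • x = 0} = p ^ r) :
    finrank ℤ_[p] (Tate p A) = r := by
  haveI := finite_of_card h
  have h1 := card_tors hl 1
  rw [pow_one, h, one_mul] at h1
  exact (Nat.pow_right_injective hp.out.two_le h1).symm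

theorem map_comp {B C : Type*} [AddCommGroup B] [AddCommGroup C] (f : A →+ B) (g : B →+ C)
    (u : Tate p A) : Tate.map g (Tate.map f u) = Tate.map (g.comp f) u := rfl

theorem map_injective {B : Type*} [AddCommGroup B] {f : A →+ B}
    (h : ∀ x, p • x = 0 → f x = 0 → x = 0) : Function.Injective (Tate.map (p := p) f) := by
  rw [injective_iff_map_eq_zero]
  intro u hu
  ext n
  induction n with
  | zero => simp
  | succ n ih =>
    refine h _ (by rw [u.apply_succ]; exact ih) ?_
    exact congrArg (fun v : Tate p B => v (n + 1)) hu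

/-- a homomorphism which is bijective on the `p`-power torsion -/
theorem map_bijective {B : Type*} [AddCommGroup B] {f : A →+ B}
    (h : ∀ x, p • x = 0 → f x = 0 → x = 0)
    (hs : ∀ (n : ℕ) (y : B), (p ^ n) • y = 0 → ∃ x, (p ^ n) • x = 0 ∧ f x = y) :
    Function.Bijective (Tate.map (p := p) f) := by
  refine ⟨map_injective h, fun v => ?_⟩
  have hi : ∀ (n : ℕ) (x : A), (p ^ n) • x = 0 → f x = 0 → x = 0 := by
    intro n
    induction n with
    | zero => intro x hx _; simpa using hx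
    | succ n ih =>
      intro x hx h0
      refine h x (ih _ ?_ (by rw [map_nsmul, h0, nsmul_zero])) h0
      rw [← mul_nsmul', ← pow_succ, hx]
  choose x hx hx' using fun n => hs n (v n) (v.pow_smul_apply n)
  refine ⟨Tate.mk x (by simpa using hx 0) fun n => ?_, Tate.ext fun n => hx' n⟩
  rw [← sub_eq_zero]
  refine hi n _ ?_ (by rw [map_sub, map_nsmul, hx', hx', v.apply_succ, sub_self])
  rw [nsmul_sub, hx, ← mul_nsmul', ← pow_succ, hx, sub_self]

end tate

section perfect

variable {M N : Type*} [AddCommGroup M] [Module ℤ_[p] M] [Module.Finite ℤ_[p] M]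
  [Module.IsTorsionFree ℤ_[p] M] [AddCommGroup N] [Module ℤ_[p] N] [Module.Finite ℤ_[p] N]
  [Module.IsTorsionFree ℤ_[p] N]

theorem p_ne : (p : ℤ_[p]) ≠ 0 := by exact_mod_cast hp.out.ne_zero

omit [Module.IsTorsionFree ℤ_[p] M] in
theorem eq_zero_of_div {x : M} (h : ∀ n : ℕ, ∃ y, x = (p : ℤ_[p]) ^ n • y) : x = 0 := by
  have h1 := Ideal.iInf_pow_smul_eq_bot_of_isLocalRing (M := M)
    (IsLocalRing.maximalIdeal ℤ_[p]) (IsLocalRing.maximalIdeal.isMaximal _).ne_top
  rw [← Submodule.mem_bot ℤ_[p], ← h1, Submodule.mem_iInf]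
  intro n
  obtain ⟨y, rfl⟩ := h n
  refine Submodule.smul_mem_smul (Ideal.pow_mem_pow ?_ n) Submodule.mem_top
  rw [maximalIdeal_eq_span_p]
  exact Ideal.mem_span_singleton_self _

omit [Module.IsTorsionFree ℤ_[p] M] in
/-- injective modulo `p` implies split injective -/
theorem exists_leftInv (f : M →ₗ[ℤ_[p]] N)
    (h : ∀ x y, f x = (p : ℤ_[p]) • y → ∃ x', x = (p : ℤ_[p]) • x') :
    ∃ g : N →ₗ[ℤ_[p]] M, g ∘ₗ f = LinearMap.id := by
  have h1 : ∀ (n : ℕ) (x : M) (y : N), f x = (p : ℤ_[p]) ^ n • y →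
      ∃ x', x = (p : ℤ_[p]) ^ n • x' ∧ f x' = y := by
    intro n
    induction n with
    | zero => intro x y hx; exact ⟨x, by simp, by simpa using hx⟩
    | succ n ih =>
      intro x y hx
      rw [pow_succ, mul_smul] at hx
      obtain ⟨x', rfl, h2⟩ := ih x _ hx
      obtain ⟨x'', rfl⟩ := h x' y h2
      refine ⟨x'', by rw [pow_succ, mul_smul], ?_⟩
      rw [map_smul] at h2
      exact smul_right_injective N p_ne h2
  have hi : Function.Injective f := by
    rw [injective_iff_map_eq_zero]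
    intro x hx
    refine eq_zero_of_div (p := p) fun n => ?_
    obtain ⟨x', h2, -⟩ := h1 n x 0 (by rw [hx, smul_zero])
    exact ⟨x', h2⟩
  haveI : Module.IsTorsionFree ℤ_[p] (N ⧸ LinearMap.range f) := by
    rw [Module.isTorsionFree_iff_smul_eq_zero]
    intro a u hu
    by_cases ha : a = 0
    · exact Or.inl ha
    right
    obtain ⟨y, rfl⟩ := Submodule.mkQ_surjective _ u
    rw [← map_smul, Submodule.mkQ_apply, Submodule.Quotient.mk_eq_zero] at hu
    obtain ⟨x, hx⟩ := hu
    rw [PadicInt.unitCoeff_spec ha, mul_comm, mul_smul] at hx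
    obtain ⟨x', -, h2⟩ := h1 _ x _ hx
    rw [Submodule.mkQ_apply, Submodule.Quotient.mk_eq_zero]
    refine ⟨((PadicInt.unitCoeff ha)⁻¹ : ℤ_[p]ˣ) • x', ?_⟩
    rw [Units.smul_def, map_smul, h2, smul_smul, Units.inv_mul, one_smul]
  obtain ⟨s, hs⟩ := Module.projective_lifting_property (LinearMap.range f).mkQ LinearMap.id
    (Submodule.mkQ_surjective _)
  have h2 : ∃ l, (LinearMap.range f).mkQ ∘ₗ l = LinearMap.id := ⟨s, hs⟩
  exact (((LinearMap.exact_map_mkQ_range f).split_tfae hi (Submodule.mkQ_surjective _)).out 0 1).mp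
    h2

/-- a form which is non-degenerate modulo `p` is perfect -/
theorem perfect (B : M →ₗ[ℤ_[p]] M →ₗ[ℤ_[p]] ℤ_[p])
    (h : ∀ x, (∀ y, (p : ℤ_[p]) ∣ B x y) → ∃ x', x = (p : ℤ_[p]) • x') :
    Function.Bijective B := by
  obtain ⟨g, hg⟩ := exists_leftInv (N := Module.Dual ℤ_[p] M) B fun x φ hx =>
    h x fun y => ⟨φ y, by rw [hx]; rfl⟩
  have h1 : ∀ x, g (B x) = x := fun x => LinearMap.congr_fun hg x
  have hs : Function.Surjective g := fun x => ⟨_, h1 x⟩
  let e : Module.Dual ℤ_[p] M ≃ₗ[ℤ_[p]] M := (Module.finBasis ℤ_[p] M).toDualEquiv.symm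
  have hi : Function.Injective g := OrzechProperty.injective_of_surjective_of_injective
    e.toLinearMap g e.injective hs
  exact ⟨Function.LeftInverse.injective h1, fun φ => ⟨g φ, hi (h1 _)⟩⟩

/-- the adjoint of a map which is injective modulo `p` is surjective -/
theorem surjective_of_adj (B : M →ₗ[ℤ_[p]] M →ₗ[ℤ_[p]] ℤ_[p]) (B' : N →ₗ[ℤ_[p]] N →ₗ[ℤ_[p]] ℤ_[p])
    (hB : ∀ x, (∀ y, B x y = 0) → x = 0)
    (hB' : ∀ x, (∀ y, (p : ℤ_[p]) ∣ B' x y) → ∃ x', x = (p : ℤ_[p]) • x')
    (c : M →ₗ[ℤ_[p]] N) (q : N →ₗ[ℤ_[p]] M) (hadj : ∀ x y, B' x (c y) = B (q x) y)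
    (hc : ∀ x y, c x = (p : ℤ_[p]) • y → ∃ x', x = (p : ℤ_[p]) • x') : Function.Surjective q := by
  obtain ⟨g, hg⟩ := exists_leftInv c hc
  intro e
  obtain ⟨y, hy⟩ := (perfect B' hB').2 (B e ∘ₗ g)
  refine ⟨y, sub_eq_zero.mp (hB _ fun x => ?_)⟩
  have h1 : g (c x) = x := LinearMap.congr_fun hg x
  rw [map_sub, LinearMap.sub_apply, ← hadj, hy, LinearMap.comp_apply, h1, sub_self]

end perfect

theorem finrank_ker_sq {R M : Type*} [CommRing R] [IsDomain R] [AddCommGroup M] [Module R M]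
    [Module.Finite R M] [IsNoetherianRing R] [Module.IsTorsionFree R M] (j : M →ₗ[R] M) {c : R}
    (hc : c ≠ 0) (h : ∀ x, j (j (j x)) = c • j x) :
    finrank R (LinearMap.ker (j ∘ₗ j - c • LinearMap.id)) + finrank R (LinearMap.ker j) =
      finrank R M := by
  have h1 := Submodule.finrank_quotient_add_finrank (LinearMap.ker j)
  rw [(LinearMap.quotKerEquivRange j).finrank_eq] at h1
  rw [← h1]
  congr 1
  apply le_antisymm
  · let φ : LinearMap.ker (j ∘ₗ j - c • LinearMap.id) →ₗ[R] LinearMap.range j :=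
      j.rangeRestrict ∘ₗ Submodule.subtype _
    refine LinearMap.finrank_le_finrank_of_injective (f := φ) ?_
    rw [injective_iff_map_eq_zero]
    rintro ⟨x, hx⟩ h0
    have h2 : j x = 0 := congrArg Subtype.val h0
    have h3 : j (j x) - c • x = 0 := hx
    rw [h2, map_zero, zero_sub, neg_eq_zero, smul_eq_zero] at h3
    exact Subtype.ext (h3.resolve_left hc)
  · refine Submodule.finrank_mono ?_
    rintro _ ⟨x, rfl⟩
    show j (j (j x)) - c • j x = 0
    rw [h, sub_self]

end Crest.Agent.T15.Rk
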