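import Mathlib
import Crest.Agent.T15.Wp3_31
import Crest.Agent.R013.TP2_928

/-!
# Row 15, block F (helper31): the Weil pairing on the Tate module

`k` algebraically closed, `p` a prime invertible in `k`, `T = Tate p (Pic k K)`.
* `zt p k n` : a compatible system of primitive `p ^ n`-th roots of unity;
* `tf p : T →ₗ T →ₗ ℤ_[p]`, `tf_spec`, `tf_swap`, `tf_self`, `tf_SI` (cyclotomic character),
  `tf_con_left`, `tf_con_right`, `eq_zero_of_tf`, `exists_smul_of_tf` (perfect modulo `p`).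
-/

set_option autoImplicit false
set_option linter.all false

namespace Crest.Agent.T15.Wp

open WithZero Module PadicInt
open Crest.Agent.R013.RR7_948 Crest.Agent.R013.RR8_948 Crest.Agent.R013.RR9_948
open Crest.Agent.R013.PicD_398 Crest.Agent.R013.Frob1_914 Crest.Agent.R013.TP_928
open Crest.Agent.R013.GR2_921 (hc_of_isAlgClosed)

universe u

section zeta

variable (p : ℕ) [hp : Fact p.Prime] (k : Type*) [Field k] [IsAlgClosed k] [NeZero (p : k)]

theorem exists_zt : ∃ ζ : ℕ → kˣ, (∀ n, orderOf (ζ n) = p ^ n) ∧ ∀ n, ζ (n + 1) ^ p = ζ n := by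
  obtain ⟨z, hz⟩ := HasEnoughRootsOfUnity.exists_primitiveRoot k p
  have hz0 : z ≠ 0 := hz.ne_zero hp.out.ne_zero
  have hdiv : ∀ x : Additive kˣ, ∃ y, p • y = x := by
    intro x
    obtain ⟨y, hy⟩ := IsAlgClosed.exists_pow_nat_eq ((Additive.toMul x : kˣ) : k) hp.out.pos
    have hy0 : y ≠ 0 := by
      rintro rfl
      rw [zero_pow hp.out.ne_zero] at hy
      exact (Additive.toMul x).ne_zero hy.symm
    exact ⟨Additive.ofMul (Units.mk0 y hy0), Additive.toMul.injective (Units.ext (by simpa using hy))⟩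
  obtain ⟨u, hu⟩ := Tate.exists_lift hdiv (n := 1) (Additive.ofMul (Units.mk0 z hz0))
    (Additive.toMul.injective (Units.ext (by simpa using hz.pow_eq_one)))
  refine ⟨fun n => Additive.toMul (u n), fun n => ?_, fun n => ?_⟩
  · cases n with
    | zero => simp
    | succ n =>
      refine orderOf_eq_prime_pow ?_ ?_
      · have h1 := u.pow_smul_apply_add 1 n
        rw [add_comm 1 n, hu] at h1
        intro h2
        have h3 : (p ^ n) • u (n + 1) = 0 := Additive.toMul.injective (by simpa using h2)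
        rw [h3] at h1
        have h4 : (1 : k) = z := congrArg (fun t : Additive kˣ => ((Additive.toMul t : kˣ) : k)) h1
        exact hz.ne_one hp.out.one_lt h4.symm
      · have h1 := u.pow_smul_apply (n + 1)
        simpa using congrArg Additive.toMul h1
  · simpa using congrArg Additive.toMul (u.apply_succ n)

/-- a compatible system of primitive roots of unity -/
noncomputable def zt : ℕ → kˣ := (exists_zt p k).choose

theorem orderOf_zt (n : ℕ) : orderOf (zt p k n) = p ^ n := (exists_zt p k).choose_spec.1 n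

theorem zt_succ (n : ℕ) : zt p k (n + 1) ^ p = zt p k n := (exists_zt p k).choose_spec.2 n

theorem zt_prim (n : ℕ) : IsPrimitiveRoot (zt p k n) (p ^ n) :=
  orderOf_zt p k n ▸ IsPrimitiveRoot.orderOf _

theorem zt_pow (n : ℕ) : zt p k n ^ p ^ n = 1 := (zt_prim p k n).pow_eq_one

variable {p k}

theorem zt_pow_eq_iff {n a b : ℕ} :
    zt p k n ^ a = zt p k n ^ b ↔ (a : ZMod (p ^ n)) = b := by
  rw [pow_eq_pow_iff_modEq, orderOf_zt, ZMod.natCast_eq_natCast_iff]

theorem zt_pow_rp {n m : ℕ} {a : ℤ_[p]} (h : toZModPow n a = m) :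
    zt p k n ^ rp a n = zt p k n ^ m := by
  rw [zt_pow_eq_iff, natCast_rp, h]

theorem ext_of_zt {a b : ℤ_[p]} (h : ∀ n, zt p k n ^ rp a n = zt p k n ^ rp b n) : a = b :=
  ext_of_toZModPow.mp fun n => by
    rw [← natCast_rp, ← natCast_rp]
    exact zt_pow_eq_iff.mp (h n)

theorem exists_log (u : ℕ → kˣ) (h0 : ∀ n, u n ^ p ^ n = 1) (h : ∀ n, u (n + 1) ^ p = u n) :
    ∃ a : ℤ_[p], ∀ n, zt p k n ^ rp a n = u n := by
  have h1 : ∀ n, ∃ a : ℕ, zt p k n ^ a = u n := fun n => by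
    haveI : NeZero (p ^ n) := ⟨pow_ne_zero _ hp.out.ne_zero⟩
    obtain ⟨a, -, ha⟩ := (zt_prim p k n).eq_pow_of_mem_rootsOfUnity (ξ := u n) (h0 n)
    exact ⟨a, ha⟩
  choose a ha using h1
  have h2 : ∀ i, (p : ℤ) ^ i ∣ ((a (i + 1) : ℤ)) - a i := fun i => by
    have h3 : zt p k i ^ a i = zt p k i ^ a (i + 1) := by
      rw [ha, ← h, ← ha, ← zt_succ p k i, ← pow_mul, ← pow_mul, mul_comm]
    rw [zt_pow_eq_iff, ZMod.natCast_eq_natCast_iff] at h3
    exact_mod_cast h3.dvd
  refine ⟨ofIntSeq _ (isCauSeq_padicNorm_of_pow_dvd_sub (fun i => (a i : ℤ)) p h2), fun n => ?_⟩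
  rw [← ha n]
  refine zt_pow_rp ?_
  rw [toZModPow_ofIntSeq_of_pow_dvd_sub (fun i => (a i : ℤ)) p h2 n, Int.cast_natCast]

theorem zt_rp_add (a b : ℤ_[p]) (n : ℕ) :
    zt p k n ^ rp (a + b) n = zt p k n ^ rp a n * zt p k n ^ rp b n := by
  rw [← pow_add]
  exact zt_pow_rp (by simp [natCast_rp])

theorem zt_rp_mul (a b : ℤ_[p]) (n : ℕ) :
    zt p k n ^ rp (a * b) n = (zt p k n ^ rp b n) ^ rp a n := by
  rw [← pow_mul, mul_comm (rp b n)]
  exact zt_pow_rp (by simp [natCast_rp])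

theorem zt_rp_eq_one_iff (a : ℤ_[p]) (n : ℕ) :
    zt p k n ^ rp a n = 1 ↔ (p : ℤ_[p]) ^ n ∣ a := by
  rw [← pow_zero (zt p k n), zt_pow_eq_iff, natCast_rp, Nat.cast_zero, ← RingHom.mem_ker,
    ker_toZModPow, Ideal.mem_span_singleton]

variable (p) in
/-- the cyclotomic character, as a `p`-adic integer -/
noncomputable def cyc (s : k ≃+* k) : ℤ_[p] := (cyclotomicCharacter k p s).val

theorem cyc_spec (s : k ≃+* k) {n : ℕ} {t : k} (ht : t ^ p ^ n = 1) : s t = t ^ rp (cyc p s) n :=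
  cyclotomicCharacter.spec p s t ht

theorem cyc_refl : cyc p (RingEquiv.refl k) = 1 :=
  congrArg Units.val (map_one (cyclotomicCharacter k p))

theorem isUnit_cyc (s : k ≃+* k) : IsUnit (cyc p s) := Units.isUnit _

/-- the shape of `Top.DetCyc` -/
theorem cyc_sub_mem (s : k ≃+* k) {n a : ℕ} {ζ : k} (h : IsPrimitiveRoot ζ (p ^ n))
    (ha : s ζ = ζ ^ a) : cyc p s - a ∈ Ideal.span {(p : ℤ_[p]) ^ n} := by
  rw [cyc_spec s h.pow_eq_one] at ha
  have h0 : ζ ≠ 0 := h.ne_zero (pow_ne_zero _ hp.out.ne_zero)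
  have h1 : Units.mk0 ζ h0 ^ rp (cyc p s) n = Units.mk0 ζ h0 ^ a := Units.ext (by simpa using ha)
  have h2 : orderOf (Units.mk0 ζ h0) = p ^ n := by
    rw [← orderOf_units, Units.val_mk0, ← h.eq_orderOf]
  rw [pow_eq_pow_iff_modEq, h2, ← ZMod.natCast_eq_natCast_iff, natCast_rp] at h1
  rw [← ker_toZModPow, RingHom.mem_ker, map_sub, h1, map_natCast, sub_self]

end zeta

variable {p : ℕ} [hp : Fact p.Prime] {k : Type*} [Field k] [IsAlgClosed k] [NeZero (p : k)]

section form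

variable {K : Type*} [Field K] [Algebra k K]
  [Algebra (RatFunc k) K] [IsScalarTower k (RatFunc k) K] [FiniteDimensional (RatFunc k) K]
  [Algebra.IsSeparable (RatFunc k) K]

theorem ppow_ne (n : ℕ) : p ^ n ≠ 0 := pow_ne_zero _ hp.out.ne_zero

theorem exists_te (x y : Tate p (Pic k K)) :
    ∃ a : ℤ_[p], ∀ n, zt p k n ^ rp a n = wp (p ^ n) (x n) (y n) :=
  exists_log _ (fun n => wp_pow hc_of_isAlgClosed (ppow_ne n) (x.pow_smul_apply n)
    (y.pow_smul_apply n)) fun n => by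
      have h1 := x.pow_smul_apply (n + 1)
      have h2 := y.pow_smul_apply (n + 1)
      rw [pow_succ] at h1 h2 ⊢
      rw [wp_mul_pow hc_of_isAlgClosed (ppow_ne n) hp.out.ne_zero h1 h2, x.apply_succ, y.apply_succ]

/-- the pairing as a function -/
noncomputable def te (x y : Tate p (Pic k K)) : ℤ_[p] := (exists_te x y).choose

theorem te_spec (x y : Tate p (Pic k K)) (n : ℕ) :
    zt p k n ^ rp (te x y) n = wp (p ^ n) (x n) (y n) := (exists_te x y).choose_spec n

variable (p) in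
/-- **the Weil form on the Tate module** -/
noncomputable def tf : Tate p (Pic k K) →ₗ[ℤ_[p]] Tate p (Pic k K) →ₗ[ℤ_[p]] ℤ_[p] :=
  LinearMap.mk₂ ℤ_[p] te
    (fun x x' y => ext_of_zt (k := k) fun n => by
      rw [zt_rp_add, te_spec, te_spec, te_spec, Tate.add_apply, wp_add_left hc_of_isAlgClosed
        (ppow_ne n) (x.pow_smul_apply n) (x'.pow_smul_apply n) (y.pow_smul_apply n)])
    (fun a x y => ext_of_zt (k := k) fun n => by
      rw [smul_eq_mul, zt_rp_mul, te_spec, te_spec, Tate.smul_apply, wp_nsmul_left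
        hc_of_isAlgClosed (ppow_ne n) (x.pow_smul_apply n) (y.pow_smul_apply n)])
    (fun x y y' => ext_of_zt (k := k) fun n => by
      rw [zt_rp_add, te_spec, te_spec, te_spec, Tate.add_apply, wp_add_right hc_of_isAlgClosed
        (ppow_ne n) (x.pow_smul_apply n) (y.pow_smul_apply n) (y'.pow_smul_apply n)])
    (fun a x y => ext_of_zt (k := k) fun n => by
      rw [smul_eq_mul, zt_rp_mul, te_spec, te_spec, Tate.smul_apply, wp_nsmul_right
        hc_of_isAlgClosed (ppow_ne n) (x.pow_smul_apply n) (y.pow_smul_apply n)])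

theorem tf_spec (x y : Tate p (Pic k K)) (n : ℕ) :
    zt p k n ^ rp (tf p x y) n = wp (p ^ n) (x n) (y n) := te_spec x y n

theorem pow_dvd_tf_iff (x y : Tate p (Pic k K)) (n : ℕ) :
    (p : ℤ_[p]) ^ n ∣ tf p x y ↔ wp (p ^ n) (x n) (y n) = 1 := by
  rw [← tf_spec, zt_rp_eq_one_iff]

theorem tf_swap (x y : Tate p (Pic k K)) : tf p y x = -tf p x y := by
  rw [eq_neg_iff_add_eq_zero]
  refine ext_of_zt (k := k) fun n => ?_
  rw [zt_rp_add, tf_spec, tf_spec, wp_swap hc_of_isAlgClosed (ppow_ne n) (x.pow_smul_apply n)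
    (y.pow_smul_apply n), inv_mul_cancel, eq_comm, zt_rp_eq_one_iff]
  exact dvd_zero _

theorem tf_self (x : Tate p (Pic k K)) : tf p x x = 0 := by
  have h := tf_swap x x
  rw [eq_neg_iff_add_eq_zero, ← two_mul] at h
  exact (mul_eq_zero.mp h).resolve_left two_ne_zero

/-- **equivariance** -/
theorem tf_SI {K' : Type*} [Field K'] [Algebra k K']
    [Algebra (RatFunc k) K'] [IsScalarTower k (RatFunc k) K'] [FiniteDimensional (RatFunc k) K']
    [Algebra.IsSeparable (RatFunc k) K'] (e : SI k K k K') (x y : Tate p (Pic k K)) :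
    tf p (Tate.map (e.pic : Pic k K →+ Pic k K') x) (Tate.map (e.pic : Pic k K →+ Pic k K') y) =
      cyc p e.s * tf p x y := by
  refine ext_of_zt (k := k) fun n => ?_
  rw [zt_rp_mul, tf_spec, tf_spec]
  have h := wp_SI e (ppow_ne n) (x.pow_smul_apply n) (y.pow_smul_apply n)
  refine h.trans (Units.ext ?_)
  have h1 := congrArg Units.val (wp_pow hc_of_isAlgClosed (ppow_ne n) (x.pow_smul_apply n)
    (y.pow_smul_apply n))
  rw [Units.val_pow_eq_pow_val, Units.val_one] at h1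
  rw [Units.val_pow_eq_pow_val, ← cyc_spec e.s h1]
  rfl

variable {L : Type*} [Field L] [Algebra k L] [Algebra K L] [IsScalarTower k K L]
  [FiniteDimensional K L] [Algebra.IsSeparable K L]
  [Algebra (RatFunc k) L] [IsScalarTower k (RatFunc k) L] [FiniteDimensional (RatFunc k) L]
  [Algebra.IsSeparable (RatFunc k) L]

theorem tf_con_left (x : Tate p (Pic k K)) (y : Tate p (Pic k L)) :
    tf p (Tate.map (conP L) x) y = tf p x (Tate.map (pushP K) y) := by
  refine ext_of_zt (k := k) fun n => ?_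
  rw [tf_spec, tf_spec]
  exact wp_con_left (ppow_ne n) (x.pow_smul_apply n) (y.pow_smul_apply n)

theorem tf_con_right (x : Tate p (Pic k L)) (y : Tate p (Pic k K)) :
    tf p x (Tate.map (conP L) y) = tf p (Tate.map (pushP K) x) y := by
  rw [tf_swap, tf_con_left, ← tf_swap]

end form

section nondeg

variable {K : Type u} [Field K] [Algebra k K]
  [Algebra (RatFunc k) K] [IsScalarTower k (RatFunc k) K] [FiniteDimensional (RatFunc k) K]
  [Algebra.IsSeparable (RatFunc k) K]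

omit [IsAlgClosed k] [NeZero (p : k)] in
theorem degPic_eq_zero {n : ℕ} (hn : n ≠ 0) {x : Pic k K} (hx : n • x = 0) : degPic x = 0 := by
  have := congrArg degPic hx
  rw [map_nsmul, map_zero] at this
  simpa [hn] using this

omit [IsAlgClosed k] [NeZero (p : k)] in
theorem DivH.pic0 {n : ℕ} (hn : n ≠ 0) (h : DivH.{u} k n) (x : Pic0 k K) :
    ∃ y : Pic0 k K, n • y = x := by
  obtain ⟨x, hx⟩ := x
  obtain ⟨D, rfl⟩ := cls_surjective x
  obtain ⟨y, hy⟩ := h K D hx
  refine ⟨⟨y, ?_⟩, Subtype.ext hy⟩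
  have := congrArg degPic hy
  rw [map_nsmul, mem_Pic0.mp hx] at this
  rw [mem_Pic0]
  simpa [hn] using this

omit [IsAlgClosed k] [NeZero (p : k)] in
theorem DivH.pow (h : DivH.{u} k p) (n : ℕ) : DivH.{u} k (p ^ n) := by
  intro L _ _ _ _ _ _ E hE
  have : ∃ y : Pic0 k L, (p ^ n) • y = ⟨cls E, hE⟩ := by
    induction n with
    | zero => exact ⟨_, one_nsmul _⟩
    | succ n ih =>
      obtain ⟨y, hy⟩ := ih
      obtain ⟨z, hz⟩ := h.pic0 hp.out.ne_zero y
      exact ⟨z, by rw [pow_succ, mul_nsmul', hz, hy]⟩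
  obtain ⟨y, hy⟩ := this
  exact ⟨y, congrArg Subtype.val hy⟩

omit [IsAlgClosed k] [NeZero (p : k)] in
/-- torsion classes lift to the Tate module -/
theorem exists_tate' (h : DivH.{u} k p) {n : ℕ} {y : Pic k K} (hy : (p ^ n) • y = 0) :
    ∃ u : Tate p (Pic k K), u n = y := by
  obtain ⟨u, hu⟩ := Tate.exists_lift (p := p) (h.pic0 (K := K) hp.out.ne_zero) (n := n)
    ⟨y, degPic_eq_zero (ppow_ne n) hy⟩ (Subtype.ext hy)
  exact ⟨Tate.map (Pic0 k K).subtype u, by rw [Tate.map_apply, hu]; rfl⟩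

theorem apply_eq_zero_of_tf' (h : DivH.{u} k p) {x : Tate p (Pic k K)} {n : ℕ}
    (hx : ∀ y, (p : ℤ_[p]) ^ n ∣ tf p x y) : x n = 0 := by
  refine eq_zero_of_wp' (n := p ^ n) (by rw [Nat.cast_pow]; exact pow_ne_zero _ (NeZero.ne _))
    (h.pow n) (x.pow_smul_apply n) fun y hy => ?_
  obtain ⟨u, rfl⟩ := exists_tate' h hy
  exact (pow_dvd_tf_iff x u n).mp (hx u)

theorem eq_zero_of_tf' (h : DivH.{u} k p) {x : Tate p (Pic k K)} (hx : ∀ y, tf p x y = 0) :
    x = 0 :=
  Tate.ext fun n => apply_eq_zero_of_tf' h fun y => by rw [hx]; exact dvd_zero _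

theorem exists_smul_of_tf' (h : DivH.{u} k p) {x : Tate p (Pic k K)}
    (hx : ∀ y, (p : ℤ_[p]) ∣ tf p x y) : ∃ x', x = (p : ℤ_[p]) • x' := by
  have h1 : x 1 = 0 := apply_eq_zero_of_tf' h fun y => by rw [pow_one]; exact hx y
  exact ⟨x.shift h1, by rw [Nat.cast_smul_eq_nsmul, Tate.smul_shift]⟩

end nondeg

section charZero

variable {p : ℕ} [hp : Fact p.Prime] {k : Type*} [Field k] [IsAlgClosed k] [CharZero k]
  {K : Type*} [Field K] [Algebra k K]
  [Algebra (RatFunc k) K] [IsScalarTower k (RatFunc k) K] [FiniteDimensional (RatFunc k) K]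
  [Algebra.IsSeparable (RatFunc k) K]

instance neZero_prime : NeZero (p : k) := ⟨by exact_mod_cast hp.out.ne_zero⟩

theorem exists_tate {n : ℕ} {y : Pic k K} (hy : (p ^ n) • y = 0) :
    ∃ u : Tate p (Pic k K), u n = y := exists_tate' (divH k hp.out.ne_zero) hy

theorem apply_eq_zero_of_tf {x : Tate p (Pic k K)} {n : ℕ}
    (hx : ∀ y, (p : ℤ_[p]) ^ n ∣ tf p x y) : x n = 0 :=
  apply_eq_zero_of_tf' (divH k hp.out.ne_zero) hx

/-- **non-degeneracy** -/
theorem eq_zero_of_tf {x : Tate p (Pic k K)} (hx : ∀ y, tf p x y = 0) : x = 0 :=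
  eq_zero_of_tf' (divH k hp.out.ne_zero) hx

/-- **non-degeneracy modulo `p`** -/
theorem exists_smul_of_tf {x : Tate p (Pic k K)} (hx : ∀ y, (p : ℤ_[p]) ∣ tf p x y) :
    ∃ x', x = (p : ℤ_[p]) • x' := exists_smul_of_tf' (divH k hp.out.ne_zero) hx

end charZero

end Crest.Agent.T15.Wp
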