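import Mathlib
import Crest.Agent.T15.Wp4_31
import Crest.Agent.T15.Rk0_31

/-!
# Row 15, block F (helper31): norm and conorm, functoriality and Galois covers

* `conP_SI`, `pushP_SI` : equivariance for compatible semilinear isomorphisms;
* `conP_conP`, `pushP_pushP` : towers;
* `conP_pushP` : `con (push y) = ∑ σ y` for `L / K` Galois; invariants, injectivity;
* the same on Tate modules.
-/

set_option autoImplicit false
set_option linter.all false

namespace Crest.Agent.T15.Rk

open WithZero Module
open Crest.Agent.R013.RR7_948 Crest.Agent.R013.RR8_948 Crest.Agent.R013.RR9_948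
open Crest.Agent.R013.RR11_948 Crest.Agent.R013.RR12_948 Crest.Agent.R013.RR13_948
open Crest.Agent.R013.RR18_948 Crest.Agent.R013.RR19_948
open Crest.Agent.R013.PicD_398 Crest.Agent.R013.Frob1_914 Crest.Agent.R013.TP_928
open Crest.Agent.T15.Wp

section SI

variable {k : Type*} [Field k] [IsAlgClosed k] {K : Type*} [Field K] [Algebra k K]
  [Algebra (RatFunc k) K] [IsScalarTower k (RatFunc k) K] [FiniteDimensional (RatFunc k) K]
  [Algebra.IsSeparable (RatFunc k) K]
  {L : Type*} [Field L] [Algebra k L] [Algebra K L] [IsScalarTower k K L]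
  [FiniteDimensional K L] [Algebra.IsSeparable K L]
  {k' : Type*} [Field k'] [IsAlgClosed k'] {K' : Type*} [Field K'] [Algebra k' K']
  [Algebra (RatFunc k') K'] [IsScalarTower k' (RatFunc k') K'] [FiniteDimensional (RatFunc k') K']
  [Algebra.IsSeparable (RatFunc k') K']
  {L' : Type*} [Field L'] [Algebra k' L'] [Algebra K' L'] [IsScalarTower k' K' L']
  [FiniteDimensional K' L'] [Algebra.IsSeparable K' L']
  {e : SI k K k' K'} {e' : SI k L k' L'}

theorem symm_compat (h : ∀ f, e'.f (algebraMap K L f) = algebraMap K' L' (e.f f)) (f : K') :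
    e'.f.symm (algebraMap K' L' f) = algebraMap K L (e.f.symm f) := by
  rw [RingEquiv.symm_apply_eq, h, RingEquiv.apply_symm_apply]

theorem under_SI (h : ∀ f, e'.f (algebraMap K L f) = algebraMap K' L' (e.f f)) (Q : Pl k L) :
    under K' (e'.pl Q) = e.pl (under K Q) := by
  rw [under_eq_iff_le]
  intro f hf
  rw [SI.pl_v] at hf ⊢
  rw [symm_compat h, ← under_le_one_iff]
  exact hf

theorem eR_SI (h : ∀ f, e'.f (algebraMap K L f) = algebraMap K' L' (e.f f)) (Q : Pl k L) :
    eR K' (e'.pl Q) = eR K Q := by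
  obtain ⟨t, -, ht⟩ := exists_v_eq (under K Q) 1
  have h1 := v_algebraMap_exp Q ht
  have h2 := v_algebraMap_exp (K := K') (e'.pl Q) (f := e.f t) (n := 1) (by
    rw [under_SI h, SI.pl_v, RingEquiv.symm_apply_apply, ht])
  rw [SI.pl_v, symm_compat h, RingEquiv.symm_apply_apply, h1, exp_inj] at h2
  omega

theorem push_SI (h : ∀ f, e'.f (algebraMap K L f) = algebraMap K' L' (e.f f))
    (E : Pl k L →₀ ℤ) : push K' (e'.D E) = e.D (push K E) := by
  induction E using Finsupp.induction_linear with
  | zero => simp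
  | add D E h1 h2 => simp only [map_add, h1, h2]
  | single P n => rw [SI.D_single, push_single, push_single, SI.D_single, under_SI h]

theorem con_SI (h : ∀ f, e'.f (algebraMap K L f) = algebraMap K' L' (e.f f))
    (D : Pl k K →₀ ℤ) : con L' (e.D D) = e'.D (con L D) := by
  ext Q
  obtain ⟨Q, rfl⟩ := e'.plEquiv.surjective Q
  have h1 : e'.symm.pl (e'.pl Q) = Q := e'.plEquiv.symm_apply_apply Q
  have h2 : e.symm.pl (e.pl (under K Q)) = under K Q := e.plEquiv.symm_apply_apply _
  rw [SI.plEquiv_apply, SI.D_apply, h1, con_apply, con_apply, eR_SI h, under_SI h, SI.D_apply, h2]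

variable [Algebra (RatFunc k) L] [IsScalarTower k (RatFunc k) L] [FiniteDimensional (RatFunc k) L]
  [Algebra.IsSeparable (RatFunc k) L]
  [Algebra (RatFunc k') L'] [IsScalarTower k' (RatFunc k') L'] [FiniteDimensional (RatFunc k') L']
  [Algebra.IsSeparable (RatFunc k') L']

theorem pushP_SI (h : ∀ f, e'.f (algebraMap K L f) = algebraMap K' L' (e.f f)) (y : Pic k L) :
    pushP K' (e'.pic y) = e.pic (pushP K y) := by
  obtain ⟨E, rfl⟩ := cls_surjective y
  rw [SI.pic_cls, pushP_cls, pushP_cls, SI.pic_cls, push_SI h]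

theorem conP_SI (h : ∀ f, e'.f (algebraMap K L f) = algebraMap K' L' (e.f f)) (x : Pic k K) :
    conP L' (e.pic x) = e'.pic (conP L x) := by
  obtain ⟨D, rfl⟩ := cls_surjective x
  rw [SI.pic_cls, conP_cls, conP_cls, SI.pic_cls, con_SI h]

end SI

variable {k : Type*} [Field k] [IsAlgClosed k] {K : Type*} [Field K] [Algebra k K]
  [Algebra (RatFunc k) K] [IsScalarTower k (RatFunc k) K] [FiniteDimensional (RatFunc k) K]
  [Algebra.IsSeparable (RatFunc k) K]
  {L : Type*} [Field L] [Algebra k L] [Algebra K L] [IsScalarTower k K L]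
  [FiniteDimensional K L] [Algebra.IsSeparable K L]
  [Algebra (RatFunc k) L] [IsScalarTower k (RatFunc k) L] [FiniteDimensional (RatFunc k) L]
  [Algebra.IsSeparable (RatFunc k) L]

omit [IsAlgClosed k] in
theorem pic_ext {e e' : SI k K k K} (h : ∀ f, e.f f = e'.f f) (x : Pic k K) :
    e.pic x = e'.pic x := by
  obtain ⟨D, rfl⟩ := cls_surjective x
  have h1 : e.f = e'.f := RingEquiv.ext h
  have h2 : ∀ P, e.pl P = e'.pl P := fun P => pl_eq_of_le fun f hf => by
    rw [SI.pl_v] at hf ⊢
    rwa [← h1]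
  rw [SI.pic_cls, SI.pic_cls]
  congr 1
  induction D using Finsupp.induction_linear with
  | zero => simp
  | add D E h1 h2 => simp only [map_add, h1, h2]
  | single P n => rw [SI.D_single, SI.D_single, h2]

omit [IsAlgClosed k] in
theorem D_refl (D : Pl k K →₀ ℤ) : (SI.refl k K).D D = D := by
  ext P
  rw [SI.D_apply]
  rfl

omit [IsAlgClosed k] in
theorem pic_refl (x : Pic k K) : (SI.refl k K).pic x = x := by
  obtain ⟨D, rfl⟩ := cls_surjective x
  rw [SI.pic_cls, D_refl]

omit [IsAlgClosed k] in
theorem pic_of_id {e : SI k K k K} (h : ∀ f, e.f f = f) (x : Pic k K) : e.pic x = x :=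
  (pic_ext (e' := SI.refl k K) h x).trans (pic_refl x)

omit [IsAlgClosed k] in
theorem pic_comp {e e₁ e₂ : SI k K k K} (h : ∀ f, e.f f = e₁.f (e₂.f f)) (x : Pic k K) :
    e.pic x = e₁.pic (e₂.pic x) :=
  (pic_ext (e' := e₂.trans e₁) h x).trans (SI.pic_trans _ _ x)

theorem siOf_one (y : Pic k L) : (siOf k (1 : L ≃ₐ[K] L)).pic y = y := pic_of_id (fun _ => rfl) y

theorem siOf_mul (σ τ : L ≃ₐ[K] L) (y : Pic k L) :
    (siOf k (σ * τ)).pic y = (siOf k σ).pic ((siOf k τ).pic y) := pic_comp (fun _ => rfl) y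

theorem pushP_siOf (σ : L ≃ₐ[K] L) (y : Pic k L) : pushP K ((siOf k σ).pic y) = pushP K y := by
  rw [pushP_SI (e := SI.refl k K) (fun f => σ.commutes f), pic_refl]

theorem siOf_conP (σ : L ≃ₐ[K] L) (x : Pic k K) : (siOf k σ).pic (conP L x) = conP L x := by
  rw [← conP_SI (e := SI.refl k K) (fun f => σ.commutes f), pic_refl]

theorem degPic_pushP (y : Pic k L) : degPic (pushP K y) = degPic y := by
  obtain ⟨E, rfl⟩ := cls_surjective y
  rw [pushP_cls, degPic_cls, degPic_cls, degD_push]

theorem degPic_conP (x : Pic k K) : degPic (conP L x) = finrank K L * degPic x := by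
  rw [← degPic_pushP (K := K), pushP_conP, map_nsmul, nsmul_eq_mul]

section tower

variable {M : Type*} [Field M] [Algebra k M] [Algebra K M] [Algebra L M] [IsScalarTower k K M]
  [IsScalarTower k L M] [IsScalarTower K L M] [FiniteDimensional K M] [Algebra.IsSeparable K M]
  [FiniteDimensional L M] [Algebra.IsSeparable L M]

theorem under_under (Q : Pl k M) : under K (under L Q) = under K Q := by
  rw [under_eq_iff_le]
  intro f hf
  rw [under_le_one_iff] at hf ⊢
  rwa [← IsScalarTower.algebraMap_apply]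

theorem eR_mul (Q : Pl k M) : eR K Q = eR L Q * eR K (under L Q) := by
  obtain ⟨t, -, ht⟩ := exists_v_eq (under K Q) 1
  have h1 := v_algebraMap_exp Q ht
  have h2 := v_algebraMap_exp (under L Q) ((under_under (K := K) (L := L) Q).symm ▸ ht)
  have h3 := v_algebraMap_exp Q h2
  rw [← IsScalarTower.algebraMap_apply, h1, exp_inj, mul_one, mul_one] at h3
  exact_mod_cast h3

theorem push_push (E : Pl k M →₀ ℤ) : push K (push L E) = push K E := by
  induction E using Finsupp.induction_linear with
  | zero => simp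
  | add D E h1 h2 => simp only [map_add, h1, h2]
  | single P n => rw [push_single, push_single, push_single, under_under]

theorem con_con (D : Pl k K →₀ ℤ) : con M (con L D) = con M D := by
  ext Q
  rw [con_apply, con_apply, con_apply, under_under, eR_mul (K := K) (L := L) Q]
  push_cast
  ring

variable [Algebra (RatFunc k) M] [IsScalarTower k (RatFunc k) M] [FiniteDimensional (RatFunc k) M]
  [Algebra.IsSeparable (RatFunc k) M]

theorem pushP_pushP (y : Pic k M) : pushP K (pushP L y) = pushP K y := by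
  obtain ⟨E, rfl⟩ := cls_surjective y
  rw [pushP_cls, pushP_cls, pushP_cls, push_push]

theorem conP_conP (x : Pic k K) : conP M (conP L x) = conP M x := by
  obtain ⟨D, rfl⟩ := cls_surjective x
  rw [conP_cls, conP_cls, conP_cls, con_con]

end tower

omit [IsAlgClosed k] in
theorem divf_prod {ι : Type*} (s : Finset ι) {f : ι → K} (hf : ∀ i, f i ≠ 0) :
    divf (k := k) (∏ i ∈ s, f i) = ∑ i ∈ s, divf (k := k) (f i) := by
  classical
  induction s using Finset.induction_on with
  | empty =>
    have := divf_const (k := k) (K := K) 1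
    simpa using this
  | insert i s hi ih =>
    rw [Finset.prod_insert hi, Finset.sum_insert hi,
      divf_mul (hf i) (Finset.prod_ne_zero_iff.mpr fun j _ => hf j), ih]

theorem eq_zero_of_conP {n : ℕ} (hn : n.Coprime (finrank K L)) {x : Pic k K} (hx : n • x = 0)
    (h : conP L x = 0) : x = 0 := by
  have h1 : finrank K L • x = 0 := by rw [← pushP_conP, h, map_zero]
  have h2 := Nat.dvd_gcd (addOrderOf_dvd_of_nsmul_eq_zero hx) (addOrderOf_dvd_of_nsmul_eq_zero h1)
  rw [hn, Nat.dvd_one] at h2
  exact AddMonoid.addOrderOf_eq_one_iff.mp h2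

section galois

variable [IsGalois K L]

theorem con_push (E : Pl k L →₀ ℤ) : con L (push K E) = ∑ σ : L ≃ₐ[K] L, (siOf k σ).D E := by
  ext Q
  obtain ⟨f, hf, h⟩ := exists_prescribed (above L (under K Q)) (fun Q' => -E Q')
  have h1 : ∀ Q' ∈ above L (under K Q), divf (k := k) f Q' = E Q' := fun Q' hQ' => by
    have h2 := h Q' hQ'
    rw [v_eq hf, exp_inj] at h2
    omega
  have h2 : con L (push K (divf (k := k) f)) = ∑ σ : L ≃ₐ[K] L, (siOf k σ).D (divf f) := by
    rw [push_divf hf, con_divf' (Algebra.norm_ne_zero_iff.mpr hf),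
      Algebra.norm_eq_prod_automorphisms, divf_prod _ (fun σ => by simpa using hf)]
    exact Finset.sum_congr rfl fun σ _ => SI.divf_f (siOf k σ) hf
  have h3 := DFunLike.congr_fun h2 Q
  rw [con_apply, push_apply, Finset.sum_congr rfl h1, Finsupp.finset_sum_apply] at h3
  rw [con_apply, push_apply, h3, Finsupp.finset_sum_apply]
  refine Finset.sum_congr rfl fun σ _ => ?_
  rw [SI.D_apply, SI.D_apply]
  exact h1 _ (mem_above.mpr (under_siOf σ.symm Q))

/-- **`con ∘ push` is the sum over the Galois group** -/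
theorem conP_pushP (y : Pic k L) : conP L (pushP K y) = ∑ σ : L ≃ₐ[K] L, (siOf k σ).pic y := by
  obtain ⟨E, rfl⟩ := cls_surjective y
  rw [pushP_cls, conP_cls, con_push, map_sum]
  rfl

theorem conP_pushP_of_inv {y : Pic k L} (h : ∀ σ : L ≃ₐ[K] L, (siOf k σ).pic y = y) :
    conP L (pushP K y) = finrank K L • y := by
  rw [conP_pushP, Finset.sum_congr rfl fun σ _ => h σ, Finset.sum_const, Finset.card_univ,
    ← Nat.card_eq_fintype_card, IsGalois.card_aut_eq_finrank]

theorem exists_conP {n : ℕ} (hn : n.Coprime (finrank K L)) {y : Pic k L} (hy : n • y = 0)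
    (h : ∀ σ : L ≃ₐ[K] L, (siOf k σ).pic y = y) : ∃ x : Pic k K, n • x = 0 ∧ conP L x = y := by
  obtain ⟨a, ha⟩ : ∃ a : ℕ, a • finrank K L • y = y :=
    exists_nsmul_eq_self_of_coprime (hn.symm.coprime_dvd_right (addOrderOf_dvd_of_nsmul_eq_zero hy))
  refine ⟨a • pushP K y, ?_, by rw [map_nsmul, conP_pushP_of_inv h, ha]⟩
  rw [smul_comm, ← map_nsmul, hy, map_zero, nsmul_zero]

/-- quadratic extensions -/
theorem conP_pushP_two (h2 : finrank K L = 2) {g : L ≃ₐ[K] L} (hg : g ≠ 1) (y : Pic k L) :
    conP L (pushP K y) = y + (siOf k g).pic y := by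
  classical
  have h : (Finset.univ : Finset (L ≃ₐ[K] L)) = {1, g} := by
    refine (Finset.eq_of_subset_of_card_le (Finset.subset_univ _) ?_).symm
    rw [Finset.card_pair hg.symm, Finset.card_univ, ← Nat.card_eq_fintype_card,
      IsGalois.card_aut_eq_finrank, h2]
  rw [conP_pushP, h, Finset.sum_pair hg.symm, siOf_one]

end galois

section tate

variable {p : ℕ} [hp : Fact p.Prime]

theorem map_push_con (u : Tate p (Pic k K)) :
    Tate.map (pushP K) (Tate.map (conP L) u) = finrank K L • u := by
  ext n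
  rw [Tate.map_apply, Tate.map_apply, pushP_conP, Tate.nsmul_apply]

theorem map_con_injective : Function.Injective (Tate.map (p := p) (conP (k := k) (K := K) L)) := by
  rw [injective_iff_map_eq_zero]
  intro u hu
  have h := map_push_con (L := L) u
  rw [hu, map_zero, ← Nat.cast_smul_eq_nsmul ℤ_[p], eq_comm, smul_eq_zero] at h
  exact h.resolve_left (by exact_mod_cast finrank_pos.ne')

/-- if `con ∘ push` is a non-zero scalar on the Tate module, the rank does not grow -/
theorem finrank_le_of_con_push [Module.Finite ℤ_[p] (Tate p (Pic k K))] {c : ℤ_[p]} (hc : c ≠ 0)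
    (h : ∀ u : Tate p (Pic k L), Tate.map (conP L) (Tate.map (pushP K) u) = c • u) :
    finrank ℤ_[p] (Tate p (Pic k L)) ≤ finrank ℤ_[p] (Tate p (Pic k K)) := by
  refine LinearMap.finrank_le_finrank_of_injective (f := Tate.map (pushP K)) ?_
  rw [injective_iff_map_eq_zero]
  intro u hu
  have h1 := h u
  rw [hu, map_zero, eq_comm, smul_eq_zero] at h1
  exact h1.resolve_left hc

end tate

theorem lf_pic [CharZero k] (p : ℕ) [Fact p.Prime] : Lf p (Pic k K) := fun _ _ hx => exists_tate hx

end Crest.Agent.T15.Rk
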