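import Mathlib
import Crest.Agent.T15.HtDef_95
import Crest.Agent.T15.GalA_31

/-!
# Row 15 (helper31): the leaves `GalStmt` and `MoStmt`
-/

set_option autoImplicit false
set_option linter.all false

namespace Crest.Agent.T15.Ht

open Crest.Agent.R013.PicD_398 Crest.Agent.R013.Frob1_914
open Crest.Agent.T15.Mo Crest.Agent.T15.GalA

theorem xu_fix {R : Type*} [Field R] (f : R →+* R) {P : Par R} (h1 : f P.p1 = P.p1)
    (h2 : f P.p2 = P.p2) (ht : f P.t = P.t) {A B u : R} (hA : f A = A) (hB : f B = B)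
    (hu : f u = u) : f (xu P A B u) = xu P A B u := by
  have h3 : f P.p3 = P.p3 := by rw [P.p3_eq, map_sub, map_neg, h1, h2]
  simp [xu, Par.V', Par.R', Par.V, Par.R, Par.d1, Par.d2, Par.d3, map_ofNat, h1, h2, h3, ht, hA,
    hB, hu]

namespace Mdl

variable {C : Type} [Field C] [IsAlgClosed C] {P : Par C} (M : Mdl P)

theorem isY31 : IsY P M.A M.B2 M.u := by
  refine ⟨fun h => M.eqs.two ?_, M.eqs.k0, M.eqs.cub, M.tr, M.gen⟩
  rw [← map_ofNat (algebraMap C M.Y) 2, h, map_zero]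

theorem hyp31 : Hy.Hyp P.F M.z M.w := M.isY31.hyp

/-- homomorphisms out of `K` -/
theorem homK_ext {R : Type*} [DivisionRing R] {φ ψ : M.K →+* R}
    (hc : ∀ c, φ (algebraMap C M.K c) = ψ (algebraMap C M.K c))
    (hA : φ (algebraMap M.Y M.K M.A) = ψ (algebraMap M.Y M.K M.A)) (hB : φ M.B = ψ M.B)
    (hu : φ (algebraMap M.Y M.K M.u) = ψ (algebraMap M.Y M.K M.u)) : φ = ψ := by
  have h1 : φ.comp (algebraMap M.Y M.K) = ψ.comp (algebraMap M.Y M.K) := by
    refine hom_ext_adjoin M.gen (fun c => ?_) ?_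
    · rw [RingHom.comp_apply, RingHom.comp_apply, ← IsScalarTower.algebraMap_apply, hc]
    · rintro x (rfl | rfl | rfl)
      · exact hA
      · rw [RingHom.comp_apply, RingHom.comp_apply, ← M.hB, map_pow, map_pow, hB]
      · exact hu
  exact hom_ext_adjoin M.genK (fun y => RingHom.congr_fun h1 y) (by rintro _ rfl; exact hB)

/-- the Galois action extends to `K` and commutes with `r` -/
theorem exists_ext31 {e : SI C M.Y C M.Y} (he : M.Fx e) :
    ∃ e' : SI C M.K C M.K, e'.s = e.s ∧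
      (∀ y, e'.f (algebraMap M.Y M.K y) = algebraMap M.Y M.K (e.f y)) ∧ e'.f M.B = M.B ∧
      ∀ x, e'.f (M.r x) = M.r (e'.f x) := by
  obtain ⟨hA, hB2, hu, h1, h2, ht⟩ := he
  obtain ⟨e', hs, hY, hB⟩ := exists_SI_ext M.hB M.genK M.nB M.hB M.genK M.nB e hB2
  have hA' : e'.f (algebraMap M.Y M.K M.A) = algebraMap M.Y M.K M.A := by rw [hY, hA]
  have hu' : e'.f (algebraMap M.Y M.K M.u) = algebraMap M.Y M.K M.u := by rw [hY, hu]
  refine ⟨e', hs, hY, hB, fun x => ?_⟩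
  have h : (e'.f : M.K →+* M.K).comp (M.r : M.K →+* M.K) =
      (M.r : M.K →+* M.K).comp (e'.f : M.K →+* M.K) := by
    refine M.homK_ext (fun c => ?_) ?_ ?_ ?_
    · show e'.f (M.r _) = M.r (e'.f _)
      rw [M.r.commutes, e'.comm, M.r.commutes]
    · show e'.f (M.r _) = M.r (e'.f _)
      rw [hA', M.rA, map_neg, hB]
    · show e'.f (M.r _) = M.r (e'.f _)
      rw [hB, M.rB, hA']
    · show e'.f (M.r _) = M.r (e'.f _)
      rw [hu', M.ru]
      refine xu_fix (e'.f : M.K →+* M.K) ?_ ?_ ?_ hA' hB hu'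
      · exact (e'.comm _).trans (by rw [hs, h1]; rfl)
      · exact (e'.comm _).trans (by rw [hs, h2]; rfl)
      · exact (e'.comm _).trans (by rw [hs, ht]; rfl)
  exact RingHom.congr_fun h x

theorem pic_j {e : SI C M.Y C M.Y} (he : M.Fx e) (x : Pic C M.Y) :
    e.pic (M.j x) = M.j (e.pic x) := by
  obtain ⟨e', -, hY, -, hr⟩ := M.exists_ext31 he
  show e.pic (Wp.pushP M.Y (M.rS.pic (Wp.conP M.K x))) =
    Wp.pushP M.Y (M.rS.pic (Wp.conP M.K (e.pic x)))
  rw [← Rk.pushP_SI hY, Rk.conP_SI hY, ← SI.pic_trans, ← SI.pic_trans]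
  congr 1
  exact Rk.pic_ext (fun f => hr f) _

end Mdl

theorem galStmt : GalStmt := by
  intro C _ _ _ P M
  refine ⟨fun s h1 h2 ht => ?_, fun e e' he he' hs => ?_, fun e he x => M.pic_j he x⟩
  · obtain ⟨e, hs, hA, hB, hu⟩ := exists_fx M.isY31 s h1 h2 ht
    exact ⟨e, ⟨hA, hB, hu, by rw [hs, h1], by rw [hs, h2], by rw [hs, ht]⟩, hs⟩
  · have h : (e.f : M.Y →+* M.Y) = (e'.f : M.Y →+* M.Y) := by
      refine hom_ext_adjoin M.gen (fun c => (e.comm c).trans (hs ▸ (e'.comm c).symm)) ?_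
      rintro x (rfl | rfl | rfl)
      · exact he.1.trans he'.1.symm
      · exact he.2.1.trans he'.2.1.symm
      · exact he.2.2.1.trans he'.2.2.1.symm
    exact SI_eq hs fun x => RingHom.congr_fun h x

theorem moStmt : MoStmt := by
  intro C _ _ _ P M
  exact ⟨M.hyp31, P.natDegree_F two_ne_zero, fun i hi => exists_y M.hyp31 hi⟩

end Crest.Agent.T15.Ht
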