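import Crest.Agent.T15.RhoC_86

/-!
# Row 15, block F (helper86): the QM part `ker (j² - 3)` of a module with `j³ = 3 j`
-/

set_option autoImplicit false

noncomputable section

namespace Crest.Agent.T15.Rho

variable {G : Type*} [Group G]

/-- a nonzero QM module of rank `< 8` has rank `4` -/
theorem QM.finrank_eq {α : ℤ_[3]} [Fact (r3 α = 2)] {T : Type*} [AddCommGroup T] [Module ℤ_[3] T]
    [Module.Free ℤ_[3] T] [Module.Finite ℤ_[3] T] (Q : QM α G T)
    (h8 : Module.finrank ℤ_[3] T < 8) : Module.finrank ℤ_[3] T = 4 := by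
  obtain ⟨t, ht⟩ : ∃ t : T, t ≠ 0 := by
    by_contra h
    push Not at h
    exact Q.ne (LinearMap.ext fun u => by rw [h u, map_zero, map_zero])
  have hn : ∀ (h : H α) (u : T), Q.ι (star h) (Q.ι h u) = nr h • u := fun h u => by
    rw [← Module.End.mul_apply, ← map_mul, star_mul_self, map_smul, map_one]; rfl
  have hinj : Function.Injective (Q.orb t) := by
    rw [injective_iff_map_eq_zero]
    intro h hh
    have := hn h t
    rw [← Q.orb_apply t h, hh, map_zero] at this
    exact eq_zero_of_nr ((smul_eq_zero.1 this.symm).resolve_right ht)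
  have h4 : Module.finrank ℤ_[3] (H α) = 4 := QuaternionAlgebra.finrank_eq_four _ _ _
  have htor : ∀ u : T, ∃ a : ℤ_[3], a ≠ 0 ∧ a • u ∈ LinearMap.range (Q.orb t) := fun u => by
    by_contra hc
    push Not at hc
    have : Function.Injective ((Q.orb t).coprod (Q.orb u)) := by
      rw [injective_iff_map_eq_zero]
      rintro ⟨h, h'⟩ hh
      rw [LinearMap.coprod_apply, Q.orb_apply u] at hh
      have h0 : h' = 0 := eq_zero_of_nr (by
        by_contra h1
        refine hc _ h1 ⟨-(star h' * h), ?_⟩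
        rw [← hn, eq_neg_of_add_eq_zero_right hh, map_neg, map_neg, QM.orb_apply, QM.orb_apply,
          map_mul]; rfl)
      rw [h0, map_zero, LinearMap.zero_apply, add_zero] at hh
      exact Prod.ext (hinj (hh.trans (map_zero _).symm)) h0
    have := LinearMap.finrank_le_finrank_of_injective this
    rw [Module.finrank_prod, h4] at this
    omega
  have h0 : Module.finrank ℤ_[3] (T ⧸ LinearMap.range (Q.orb t)) = 0 := by
    rw [Module.finrank_eq_zero_iff]
    intro x
    obtain ⟨u, rfl⟩ := Submodule.Quotient.mk_surjective _ x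
    obtain ⟨a, ha, hu⟩ := htor u
    exact ⟨a, ha, by rw [← Submodule.Quotient.mk_smul, Submodule.Quotient.mk_eq_zero]; exact hu⟩
  rw [← Submodule.finrank_quotient_add_finrank (LinearMap.range (Q.orb t)), h0, zero_add,
    LinearMap.finrank_range_of_inj hinj, h4]

variable (G) (W : Type*) [AddCommGroup W] [Module ℤ_[3] W]

/-- the full Tate module with `y² = -1`, `j³ = 3 j` -/
structure WQ where
  act : G →* Module.End ℤ_[3] W
  y : Module.End ℤ_[3] W
  j : Module.End ℤ_[3] W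
  yy : ∀ u, y (y u) = -u
  jjj : ∀ u, j (j (j u)) = (3 : ℤ_[3]) • j u
  jy : ∀ u, j (y u) = -y (j u)
  j0 : j ≠ 0
  χ : G →* ℤˣ
  ay : ∀ σ u, act σ (y u) = χ σ • y (act σ u)
  aj : ∀ σ u, act σ (j u) = j (act σ u)
  cyc : G →* ℤ_[3]ˣ
  e : W →ₗ[ℤ_[3]] W →ₗ[ℤ_[3]] ℤ_[3]
  alt : ∀ u, e u u = 0
  nd : ∀ u, (∀ v, e u v = 0) → u = 0
  he : ∀ σ u v, e (act σ u) (act σ v) = cyc σ * e u v
  ey : ∀ u v, e (y u) (y v) = e u v
  ej : ∀ u v, e (j u) v = e u (j v)

variable {G W}

namespace WQ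

variable (R : WQ G W)

/-- the QM part -/
def T : Submodule ℤ_[3] W := LinearMap.ker (R.j * R.j - 3)

lemma mem_T {u : W} : u ∈ R.T ↔ R.j (R.j u) = (3 : ℤ_[3]) • u := by
  rw [T, LinearMap.mem_ker, LinearMap.sub_apply, sub_eq_zero, Module.End.mul_apply,
    Module.End.ofNat_apply, ← Nat.cast_smul_eq_nsmul ℤ_[3]]; rfl

lemma j_mem (u : W) : R.j u ∈ R.T := R.mem_T.2 (R.jjj u)

lemma act_mem (σ : G) (u : W) (h : u ∈ R.T) : R.act σ u ∈ R.T := by
  rw [mem_T] at h ⊢; rw [← R.aj, ← R.aj, h, map_smul]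

lemma y_mem (u : W) (h : u ∈ R.T) : R.y u ∈ R.T := by
  rw [mem_T] at h ⊢; rw [R.jy, map_neg, R.jy, neg_neg, h, map_smul]

variable [Module.IsTorsionFree ℤ_[3] W]

lemma mem_of_smul {a : ℤ_[3]} (ha : a ≠ 0) {u : W} (h : a • u ∈ R.T) : u ∈ R.T := by
  rw [mem_T] at h ⊢
  rw [map_smul, map_smul, smul_comm] at h
  exact smul_right_injective W ha h

/-- the QM structure on `ker (j² - 3)` -/
def qm : QM (-1) G R.T where
  act :=
    { toFun σ := (R.act σ).restrict (R.act_mem σ)
      map_one' := by ext u; simp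
      map_mul' σ τ := by ext u; simp }
  j2 := R.y.restrict R.y_mem
  j3 := R.j.restrict fun u _ => R.j_mem u
  h2 u := Subtype.ext (by simp [R.yy])
  h3 u := Subtype.ext (by simpa using R.mem_T.1 u.2)
  h23 u := Subtype.ext (by simp [R.jy])
  χa := R.χ
  χb := 1
  c2 σ u := Subtype.ext (by simp [R.ay, Units.smul_def])
  c3 σ u := Subtype.ext (by simp [R.aj])
  cyc := R.cyc
  e := R.e.compl₁₂ R.T.subtype R.T.subtype
  alt u := R.alt u
  ne h := by
    refine R.j0 (LinearMap.ext fun u => ?_)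
    have h1 : R.j (R.j u) = 0 := R.nd _ fun v => by
      rw [R.ej]
      exact LinearMap.congr_fun₂ h ⟨_, R.j_mem u⟩ ⟨_, R.j_mem v⟩
    have h2 := R.jjj u
    rw [h1, map_zero] at h2
    exact (smul_eq_zero.1 h2.symm).resolve_left three_ne
  he σ u v := R.he σ u v
  η := -1
  ad2 u v := by
    have := R.ey u (R.y v)
    rw [R.yy, map_neg] at this
    simpa [neg_eq_iff_eq_neg] using this
  ad3 u v := R.ej u v

@[simp] lemma qm_act (σ : G) (u : R.T) : (R.qm.act σ u : W) = R.act σ u := rfl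
@[simp] lemma qm_j2 (u : R.T) : (R.qm.j2 u : W) = R.y u := rfl
@[simp] lemma qm_j3 (u : R.T) : (R.qm.j3 u : W) = R.j u := rfl
lemma qm_χb (σ : G) : R.qm.χb σ = 1 := rfl

theorem exists_fr [Module.Finite ℤ_[3] W] (h8 : Module.finrank ℤ_[3] W < 8) : Nonempty (Fr R.qm) := by
  obtain ⟨F, -⟩ := Rho.exists_fr R.qm R.qm_χb
    (R.qm.finrank_eq ((Submodule.finrank_le _).trans_lt h8))
  exact ⟨F⟩

/-- the quadratic relation on `j W` -/
theorem quad (F : Fr R.qm) (σ : G) (u : W) :
    R.j (R.act σ (R.act σ u) + (R.cyc σ : ℤ_[3]) • u -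
      F.cc σ • (if R.χ σ = 1 then R.act σ u else R.j (R.act σ u))) = 0 := by
  have := congrArg Subtype.val (F.quad0 R.qm_χb σ ⟨_, R.j_mem u⟩)
  rw [map_sub, sub_eq_zero, map_add, map_smul, map_smul, ← R.aj σ (R.act σ u), ← R.aj σ u]
  by_cases h : R.χ σ = 1
  · rw [if_pos (show R.qm.χa σ = 1 from h)] at this
    rw [if_pos h, ← R.aj σ u]; exact this
  · rw [if_neg (show ¬ R.qm.χa σ = 1 from h)] at this
    rw [if_neg h]; exact this

end WQ

end Crest.Agent.T15.Rho
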