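import Crest.Agent.T15.HtDef_95
import Crest.Agent.T15.RhoD_86
import Crest.Agent.R013.TP1_928

/-!
# Row 15, block F (helper67): the leaves of the assembly, on the words of `HtDef_95`
-/

set_option autoImplicit false

noncomputable section

namespace Crest.Agent.T15.FA

open Crest.Agent.R013.PicD_398 Crest.Agent.R013.Frob1_914 Crest.Agent.R013.TP_928
open Crest.Agent.T15.C (Om Gam In)
open Crest.Agent.T15.Top (Plc Lc)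
open Crest.Agent.T15.Mo (Par)
open Crest.Agent.T15.Ar (Cert)
open Crest.Agent.T15.Ht (Mdl Is)

/-- `e` is the action of `σ` on the `ℚ`-model -/
def Ov {P : Par Om} (M : Mdl P) (σ : Gam) (e : SI Om M.Y Om M.Y) : Prop :=
  M.Fx e ∧ ∀ c, e.s c = σ c

/-- leaf TA: the Tate module -/
def TaStmt : Prop :=
  ∀ (P : Par Om) (M : Mdl P), Module.Finite ℤ_[3] (Tate 3 (Pic Om M.Y)) ∧
    Module.finrank ℤ_[3] (Tate 3 (Pic Om M.Y)) = 6 ∧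
    (∀ n : ℕ, Finite {x : Pic Om M.Y // 3 ^ n • x = 0}) ∧
    ∀ (n : ℕ) (x : Pic Om M.Y), 3 ^ n • x = 0 → ∃ u : Tate 3 (Pic Om M.Y), u n = x

/-- leaf WQ: `y`, `j`, the Weil pairing -/
def WqStmt : Prop :=
  ∀ (P : Par Om) (M : Mdl P) (E : Gam → SI Om M.Y Om M.Y) (i : Om), (∀ σ, Ov M σ (E σ)) →
    i ^ 2 = -1 → ∃ R : Rho.WQ Gam (Tate 3 (Pic Om M.Y)),
      (∀ σ, R.act σ = Tate.map (E σ).pic.toAddMonoidHom) ∧ R.j = Tate.map M.j ∧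
      (∀ σ, R.χ σ = 1 ↔ σ i = i) ∧
      ∀ (σ : Gam) (n a : ℕ) (ζ : Om), IsPrimitiveRoot ζ (3 ^ n) → σ ζ = ζ ^ a →
        (3 : ℤ_[3]) ^ n ∣ (R.cyc σ : ℤ_[3]) - a

/-- leaf OP: a divisor class has an open stabiliser -/
def OpStmt : Prop :=
  ∀ (P : Par Om) (M : Mdl P) (x : Pic Om M.Y), ∃ U : Subgroup Gam, IsOpen (U : Set Gam) ∧
    ∀ σ ∈ U, ∀ e, Ov M σ e → e.pic x = x

/-- leaf UNR: inertia outside `3 D` -/
def UnrStmt : Prop :=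
  ∀ (del : ℚ) (m p1 p2 p3 t D : ℤ) (P : Par Om) (M : Mdl P) (Q : Plc), Cert del m p1 p2 p3 t D →
    Is P p1 p2 p3 t → ¬ Q.rchar ∣ 3 * D.natAbs → ∀ σ ∈ In Q, ∀ e, Ov M σ e →
      ∀ (n : ℕ) (x : Pic Om M.Y), ¬ Q.rchar ∣ n → n • x = 0 → e.pic x = x

/-- leaf RAM: inertia at the odd primes of `D` -/
def RamStmt : Prop :=
  ∀ (del : ℚ) (m p1 p2 p3 t D : ℤ) (P : Par Om) (M : Mdl P) (Q : Plc), Cert del m p1 p2 p3 t D →
    Is P p1 p2 p3 t → Q.rchar ∣ D.natAbs → Q.rchar ≠ 2 → ∀ lam : Om, lam ^ 4 = Q.rchar →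
      ∀ σ ∈ In Q, ∀ e, Ov M σ e → ∀ (n : ℕ) (x : Pic Om M.Y), ¬ Q.rchar ∣ n → n • x = 0 →
        (σ lam = lam → e.pic x = x) ∧ (σ lam = -lam → e.pic x = -x)

/-- leaf FLAT -/
def FlatStmt (X : Lc) : Prop :=
  ∀ (del : ℚ) (m p1 p2 p3 t D : ℤ) (P : Par Om) (M : Mdl P) (E : Gam → SI Om M.Y Om M.Y),
    Cert del m p1 p2 p3 t D → Is P p1 p2 p3 t → (∀ σ, Ov M σ (E σ)) →
    ∀ (n : ℕ) (V : Type) [AddCommGroup V] [Finite V] (i : V →+ Pic Om M.Y) (α : Gam → V → V),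
      n ≠ 0 → Function.Injective i → (∀ u, n • i u = 0) → (∀ g u, i (α g u) = (E g).pic (i u)) →
      X.Fl α

end Crest.Agent.T15.FA
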