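import Crest.Agent.T15.KfA_83

/-!
# Row 15, block F (helper16): the cyclic cubic, quadratic extensions, the relations for `r`
-/

set_option autoImplicit false
set_option linter.all false

noncomputable section

namespace Crest.Agent.T15.Jm

open Polynomial
open Crest.Agent.T15.Kf

section cubic

variable {L : Type*} [Field L] (P : Par L)

/-- `m₁ m₂ m₃ V R S` -/
def Dl (A B : L) : L := P.m1 * P.m2 * P.m3 * P.V A (B ^ 2) * P.R A (B ^ 2) * P.S A B

/-- the denominator -/
def dn (v : L) : L := (v + P.p1 * P.p2) * (v + P.p1 * P.p3) * (v + P.p2 * P.p3)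

theorem dn_eq (v : L) : dn P v = v ^ 3 + P.q * v ^ 2 + P.pi := by
  simp only [dn, Par.q, Par.pi, P.p3_eq]; ring

theorem nx_eq (A B v : L) : P.nx A B v = (-2 * P.q - v + Dl P A B * v / dn P v) / 2 := by
  simp only [Par.nx, Dl, dn, div_eq_mul_inv, mul_inv]; ring

theorem Dl_rot (A B : L) : Dl P (-B) A = Dl P A B := by
  simp only [Dl, Par.V, Par.R, Par.S]; ring

theorem Dl_neg (A B : L) : Dl P A (-B) = -Dl P A B := by
  simp only [Dl, Par.V, Par.R, Par.S]; ring

theorem Dl_i {i : L} (hi : i ^ 2 = -1) (A B : L) : Dl P (i * A) (i * B) = -Dl P A B := by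
  have h : i * A * (i * B) = -(A * B) := by linear_combination A * B * hi
  simp only [Dl, Par.V, Par.R, Par.S, mul_pow, hi, h]; ring

theorem nx_rot (A B v : L) : P.nx (-B) A v = P.nx A B v := by rw [nx_eq, nx_eq, Dl_rot]

theorem nx_i {i : L} (hi : i ^ 2 = -1) (A B v : L) : P.nx (i * A) (i * B) v = P.nx A (-B) v := by
  rw [nx_eq, nx_eq, Dl_i P hi, Dl_neg]

theorem nx_sum (A B v : L) : v + P.nx A B v + P.nx A (-B) v = -2 * P.q := by
  have := P.two
  rw [nx_eq, nx_eq, Dl_neg]; field_simp; ring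

theorem nx_sub (A B : L) {v : L} (h : dn P v ≠ 0) :
    (P.nx A B v - P.nx A (-B) v) * dn P v = Dl P A B * v := by
  have := P.two
  rw [nx_eq, nx_eq, Dl_neg]; field_simp; ring

variable {P} {A B u : L}

theorem Dl_sq (h1 : P.E1 A (B ^ 2)) (h2 : P.E2 A (B ^ 2) u) :
    Dl P A B ^ 2 * u ^ 3 =
      (u - 2 * P.p3 ^ 2) * (2 * P.p2 ^ 2 - u) * (2 * P.p1 ^ 2 - u) * dn P u ^ 2 := by
  have a := Par.V_sq h2
  have b := Par.R_sq h1 h2
  have c := Par.S_sq h1 h2
  have : Dl P A B ^ 2 * u ^ 3 = (P.m1 * P.m2 * P.V A (B ^ 2) ^ 2 * u) *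
      (P.m1 * P.m3 * P.R A (B ^ 2) ^ 2 * u) * (P.m2 * P.m3 * P.S A B ^ 2 * u) := by
    unfold Dl; ring
  rw [this, a, b, c, dn]; ring

theorem nx_prod (h1 : P.E1 A (B ^ 2)) (h2 : P.E2 A (B ^ 2) u) (h : dn P u ≠ 0) :
    u * P.nx A B u * P.nx A (-B) u = 2 * P.pi := by
  have a := nx_sum P A B u
  have b := nx_sub P A B h
  have c := Dl_sq h1 h2
  set x := P.nx A B u
  set y := P.nx A (-B) u
  have d : (x - y) ^ 2 * u = (u - 2 * P.p3 ^ 2) * (2 * P.p2 ^ 2 - u) * (2 * P.p1 ^ 2 - u) := by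
    apply mul_right_cancel₀ (pow_ne_zero 2 h)
    rw [← c]
    linear_combination u * ((x - y) * dn P u + Dl P A B * u) * b
  have e : (2 * P.q + u) ^ 2 * u - (u - 2 * P.p3 ^ 2) * (2 * P.p2 ^ 2 - u) * (2 * P.p1 ^ 2 - u) =
      8 * P.pi := by
    simp only [Par.q, Par.pi, P.p3_eq]; ring
  apply mul_left_cancel₀ (mul_ne_zero P.two P.two)
  linear_combination e - d + u * (x + y - 2 * P.q - u) * a

theorem dn_root (h1 : P.E1 A (B ^ 2)) (h2 : P.E2 A (B ^ 2) u) (h : dn P u ≠ 0) (v : L) :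
    2 * dn P v = v ^ 2 * (2 * v - (u + P.nx A B u + P.nx A (-B) u)) +
      u * P.nx A B u * P.nx A (-B) u := by
  rw [nx_sum, nx_prod h1 h2 h, dn_eq]; ring

theorem nx_ne (h1 : P.E1 A (B ^ 2)) (h2 : P.E2 A (B ^ 2) u) (h : dn P u ≠ 0) :
    P.nx A B u ≠ u := fun h0 => by
  have := dn_root h1 h2 h u
  rw [h0] at this
  exact mul_ne_zero P.two h (by rw [this]; ring)

/-- **the cubic is cyclic** -/
theorem nx_nx (h1 : P.E1 A (B ^ 2)) (h2 : P.E2 A (B ^ 2) u) (h : dn P u ≠ 0)
    (h' : dn P (P.nx A B u) ≠ 0) : P.nx A B (P.nx A B u) = P.nx A (-B) u := by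
  have a := nx_sum P A B u
  have b := nx_sub P A B h
  have c := dn_root h1 h2 h u
  have d := dn_root h1 h2 h (P.nx A B u)
  have a' := nx_sum P A B (P.nx A B u)
  have b' := nx_sub P A B h'
  have hu := Par.u_ne h2
  set x := P.nx A B u
  set y := P.nx A (-B) u
  have e : 2 * Dl P A B = (x - y) * (u - x) * (u - y) := by
    apply mul_right_cancel₀ hu
    linear_combination -2 * b + (x - y) * c
  have f : P.nx A B x - P.nx A (-B) x = y - u := by
    apply mul_right_cancel₀ h'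
    apply mul_left_cancel₀ P.two
    linear_combination 2 * b' + x * e - (y - u) * d
  apply mul_left_cancel₀ P.two
  linear_combination f + a' - a

end cubic

section quad

variable {Y K : Type*} [Field Y] [Field K] [Algebra Y K] {B : K} {B2 : Y}

theorem minpoly_B (hB : B ^ 2 = algebraMap Y K B2) (nB : B ∉ Set.range (algebraMap Y K)) :
    minpoly Y B = X ^ 2 - C B2 := by
  have hi : IsIntegral Y B := ⟨X ^ 2 - C B2, monic_X_pow_sub_C _ two_ne_zero, by
    simp [eval₂_sub, hB]⟩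
  have h1 : minpoly Y B ∣ X ^ 2 - C B2 := minpoly.dvd _ _ (by simp [hB])
  refine eq_of_monic_of_dvd_of_natDegree_le (minpoly.monic hi)
    (monic_X_pow_sub_C _ two_ne_zero) h1 ?_ |>.symm
  rw [natDegree_X_pow_sub_C]
  exact (minpoly.two_le_natDegree_iff hi).2 nB

theorem finrank_two (hB : B ^ 2 = algebraMap Y K B2) (gK : IntermediateField.adjoin Y {B} = ⊤)
    (nB : B ∉ Set.range (algebraMap Y K)) : Module.finrank Y K = 2 := by
  have hi : IsIntegral Y B := ⟨X ^ 2 - C B2, monic_X_pow_sub_C _ two_ne_zero, by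
    simp [eval₂_sub, hB]⟩
  rw [← IntermediateField.finrank_top', ← gK, IntermediateField.adjoin.finrank hi, minpoly_B hB nB,
    natDegree_X_pow_sub_C]

/-- ring homomorphisms out of `K = Y(B)` -/
theorem exists_ext (hB : B ^ 2 = algebraMap Y K B2) (gK : IntermediateField.adjoin Y {B} = ⊤)
    (nB : B ∉ Set.range (algebraMap Y K)) {L : Type*} [Field L] (φ : Y →+* L) {b : L}
    (hb : b ^ 2 = φ B2) : ∃ ψ : K →+* L, (∀ f, ψ (algebraMap Y K f) = φ f) ∧ ψ B = b := by
  have hi : IsIntegral Y B := ⟨X ^ 2 - C B2, monic_X_pow_sub_C _ two_ne_zero, by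
    simp [eval₂_sub, hB]⟩
  letI : Algebra Y L := φ.toAlgebra
  let pb : PowerBasis Y K := (IntermediateField.adjoin.powerBasis hi).map
    ((IntermediateField.equivOfEq gK).trans IntermediateField.topEquiv)
  have hg : pb.gen = B := rfl
  have h0 : aeval b (minpoly Y pb.gen) = 0 := by
    rw [hg, minpoly_B hB nB, map_sub, map_pow, aeval_X, aeval_C, hb]; exact sub_self _
  exact ⟨(pb.lift b h0 : K →ₐ[Y] L), fun f => (pb.lift b h0).commutes f,
    hg ▸ pb.lift_gen b h0⟩

theorem ext_of_adjoin {C F L : Type*} [Field C] [Field F] [Field L] [Algebra C F] {S : Set F}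
    (hS : IntermediateField.adjoin C S = ⊤) {φ ψ : F →+* L}
    (hc : ∀ c, φ (algebraMap C F c) = ψ (algebraMap C F c)) (h : ∀ x ∈ S, φ x = ψ x) (f : F) :
    φ f = ψ f := by
  have hf : f ∈ IntermediateField.adjoin C S := hS ▸ IntermediateField.mem_top
  induction hf using IntermediateField.adjoin_induction with
  | mem x hx => exact h x hx
  | algebraMap c => exact hc c
  | add x y _ _ h1 h2 => rw [map_add, map_add, h1, h2]
  | inv x _ h1 => rw [map_inv₀, map_inv₀, h1]
  | mul x y _ _ h1 h2 => rw [map_mul, map_mul, h1, h2]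

/-- extension of automorphisms of `Y` to `K = Y(B)` -/
theorem exists_equiv (hB : B ^ 2 = algebraMap Y K B2) (gK : IntermediateField.adjoin Y {B} = ⊤)
    (nB : B ∉ Set.range (algebraMap Y K)) (φ : Y ≃+* Y) {c : Y} (hc : c ≠ 0)
    (hb : φ B2 = c ^ 2 * B2) : ∃ ψ : K ≃+* K, (∀ f, ψ (algebraMap Y K f) = algebraMap Y K (φ f)) ∧
      ψ B = algebraMap Y K c * B := by
  obtain ⟨ψ, h1, h2⟩ := exists_ext hB gK nB ((algebraMap Y K).comp φ.toRingHom)
    (b := algebraMap Y K c * B) (by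
      show _ = algebraMap Y K (φ B2)
      rw [hb, map_mul, map_pow, mul_pow, hB])
  refine ⟨RingEquiv.ofBijective ψ ⟨ψ.injective, fun f => ?_⟩, h1, h2⟩
  have hf : f ∈ IntermediateField.adjoin Y {B} := gK ▸ IntermediateField.mem_top
  have ha : ∀ c : Y, algebraMap Y K c ∈ ψ.fieldRange := fun c =>
    ⟨algebraMap Y K (φ.symm c), by rw [h1]; simp⟩
  show f ∈ ψ.fieldRange
  induction hf using IntermediateField.adjoin_induction with
  | mem x hx =>
    rw [Set.mem_singleton_iff] at hx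
    have : x = (algebraMap Y K c)⁻¹ * ψ B := by
      rw [hx, h2, inv_mul_cancel_left₀ ((_root_.map_ne_zero _).2 hc)]
    rw [this]
    exact mul_mem (inv_mem (ha c)) ⟨B, rfl⟩
  | algebraMap c => exact ha c
  | add x y _ _ h1 h2 => exact add_mem h1 h2
  | inv x _ h1 => exact inv_mem h1
  | mul x y _ _ h1 h2 => exact mul_mem h1 h2

end quad

/-! ## the model -/

variable {C Y K : Type*} [Field C] [Field Y] [Field K] [Algebra C Y] [Algebra C K] [Algebra Y K]
  [IsScalarTower C Y K]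

/-- the data of `Ht.Mdl` in the words of `Kf` -/
structure Md (P : Par C) (A B2 u : Y) (B : K) (r : K ≃ₐ[C] K) : Prop where
  isY : IsY P A B2 u
  hB : B ^ 2 = algebraMap Y K B2
  gK : IntermediateField.adjoin Y {B} = ⊤
  nB : B ∉ Set.range (algebraMap Y K)
  rA : r (algebraMap Y K A) = -B
  rB : r B = algebraMap Y K A
  ru : r (algebraMap Y K u) = xu P (algebraMap Y K A) B (algebraMap Y K u)

namespace Md

variable {P : Par C} {A B2 u : Y} {B : K} {r : K ≃ₐ[C] K} (H : Md P A B2 u B r)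
include H

theorem mapK : (P.map (algebraMap C Y)).map (algebraMap Y K) = P.map (algebraMap C K) := by
  rw [Par.map_map, ← IsScalarTower.algebraMap_eq]

theorem e1 : (P.map (algebraMap C K)).E1 (algebraMap Y K A) (B ^ 2) := by
  rw [H.hB, ← H.mapK, Par.map_E1]; exact H.isY.eq1

theorem e2 : (P.map (algebraMap C K)).E2 (algebraMap Y K A) (B ^ 2) (algebraMap Y K u) := by
  rw [H.hB, ← H.mapK, Par.map_E2]; exact H.isY.eq2

theorem add_ne (c : C) : algebraMap Y K u + algebraMap C K c ≠ 0 := fun h0 => by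
  rw [IsScalarTower.algebraMap_apply C Y K, ← map_add, _root_.map_eq_zero] at h0
  exact H.isY.tr (by
    rw [eq_neg_of_add_eq_zero_left h0, ← map_neg]; exact isAlgebraic_algebraMap _)

theorem dn_ne : dn (P.map (algebraMap C K)) (algebraMap Y K u) ≠ 0 := by
  simp only [dn, Par.map_p1, Par.map_p2, Par.map_p3, ← map_mul]
  exact mul_ne_zero (mul_ne_zero (H.add_ne _) (H.add_ne _)) (H.add_ne _)

omit H in
/-- a homomorphism that fixes the parameters acts on `xu` through the arguments -/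
theorem map_xu (ψ : K →+* K) (h1 : ψ (algebraMap C K P.p1) = algebraMap C K P.p1)
    (h2 : ψ (algebraMap C K P.p2) = algebraMap C K P.p2)
    (ht : ψ (algebraMap C K P.t) = algebraMap C K P.t) (a b v : K) :
    ψ (xu P a b v) = xu P (ψ a) (ψ b) (ψ v) := by
  have : (P.map (algebraMap C K)).map ψ = P.map (algebraMap C K) :=
    Par.ext' h1 h2 (by
      simp only [Par.map_p3, P.p3_eq, map_sub, map_neg, h1, h2]) ht
  rw [xu, Par.map_nx, this]

omit H in
theorem r_xu (ψ : K ≃ₐ[C] K) (a b v : K) : ψ (xu P a b v) = xu P (ψ a) (ψ b) (ψ v) :=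
  map_xu (ψ : K →+* K) (ψ.commutes _) (ψ.commutes _) (ψ.commutes _) a b v

theorem rru : r (r (algebraMap Y K u)) = xu P (algebraMap Y K A) (-B) (algebraMap Y K u) := by
  have h : dn (P.map (algebraMap C K)) (xu P (algebraMap Y K A) B (algebraMap Y K u)) ≠ 0 := by
    have := (_root_.map_ne_zero (r : K →+* K)).2 H.dn_ne
    rw [← H.ru]
    simpa [dn] using this
  conv_lhs => rw [H.ru, r_xu, H.rA, H.rB, H.ru]
  rw [xu, nx_rot]
  exact nx_nx H.e1 H.e2 H.dn_ne h

theorem rrru : r (r (r (algebraMap Y K u))) = algebraMap Y K u := by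
  have a : algebraMap Y K u + r (algebraMap Y K u) + r (r (algebraMap Y K u)) =
      algebraMap C K (-2 * P.q) := by
    rw [H.rru, H.ru, nx_sum]; simp [map_ofNat]
  have b := congrArg r a
  rw [map_add, map_add, r.commutes] at b
  linear_combination b - a

theorem ru_ne : r (algebraMap Y K u) ≠ algebraMap Y K u := by
  rw [H.ru]; exact nx_ne H.e1 H.e2 H.dn_ne

theorem rrA : r (r (algebraMap Y K A)) = -algebraMap Y K A := by rw [H.rA, map_neg, H.rB]

theorem rrB : r (r B) = -B := by rw [H.rB, H.rA]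

theorem two : Module.finrank Y K = 2 := finrank_two H.hB H.gK H.nB

theorem extY {L : Type*} [Field L] {φ ψ : Y →+* L}
    (hc : ∀ c, φ (algebraMap C Y c) = ψ (algebraMap C Y c)) (hA : φ A = ψ A) (hB : φ B2 = ψ B2)
    (hu : φ u = ψ u) (f : Y) : φ f = ψ f :=
  ext_of_adjoin H.isY.gen hc (by rintro x (rfl | rfl | rfl) <;> assumption) f

theorem extK {L : Type*} [Field L] {φ ψ : K →+* L}
    (hc : ∀ c, φ (algebraMap C K c) = ψ (algebraMap C K c))
    (hA : φ (algebraMap Y K A) = ψ (algebraMap Y K A)) (hB : φ B = ψ B)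
    (hu : φ (algebraMap Y K u) = ψ (algebraMap Y K u)) (f : K) : φ f = ψ f :=
  ext_of_adjoin H.gK (H.extY (φ := φ.comp (algebraMap Y K)) (ψ := ψ.comp (algebraMap Y K))
    (fun c => by
      simpa only [RingHom.comp_apply, ← IsScalarTower.algebraMap_apply] using hc c) hA
    (by simp only [RingHom.comp_apply, ← H.hB, map_pow, hB]) hu)
    (by rintro x rfl; exact hB) f

theorem B_ne : B ≠ 0 := fun h => H.nB ⟨0, by rw [h, map_zero]⟩

theorem exists_g : ∃ g : K ≃ₐ[Y] K, g B = -B ∧ g ≠ 1 := by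
  obtain ⟨ψ, h1, h2⟩ := exists_equiv H.hB H.gK H.nB (RingEquiv.refl Y) (c := -1)
    (neg_ne_zero.2 one_ne_zero) (by simp)
  have h3 : ψ B = -B := by simpa using h2
  refine ⟨AlgEquiv.ofRingEquiv (f := ψ) h1, h3, fun h => ?_⟩
  have h4 : ψ B = B := congrArg (fun s : K ≃ₐ[Y] K => s B) h
  refine mul_ne_zero (P.map (algebraMap C K)).two H.B_ne ?_
  linear_combination h3 - h4

theorem gal [FiniteDimensional Y K] : IsGalois Y K := by
  classical
  obtain ⟨g, -, hg⟩ := H.exists_g
  refine IsGalois.of_card_aut_eq_finrank Y K (le_antisymm ?_ ?_)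
  · rw [Nat.card_eq_fintype_card]; exact AlgEquiv.card_le
  · rw [H.two]
    haveI : Nontrivial (K ≃ₐ[Y] K) := ⟨g, 1, hg⟩
    exact Finite.one_lt_card

theorem grg {g : K ≃ₐ[Y] K} (hg : g B = -B) (f : K) : r (g (r (g f))) = f := by
  have gc : ∀ c, g (algebraMap C K c) = algebraMap C K c := fun c => by
    rw [IsScalarTower.algebraMap_apply C Y K, g.commutes]
  refine H.extK (φ := (r : K →+* K).comp ((g : K →+* K).comp ((r : K →+* K).comp (g : K →+* K))))
    (ψ := RingHom.id K) (fun c => ?_) ?_ ?_ ?_ f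
  · show r (g (r (g _))) = _
    rw [gc, r.commutes, gc, r.commutes]; rfl
  · show r (g (r (g _))) = _
    rw [g.commutes, H.rA, map_neg, hg, neg_neg, H.rB]; rfl
  · show r (g (r (g _))) = _
    rw [hg, map_neg, H.rB, map_neg, g.commutes, map_neg, H.rA, neg_neg]; rfl
  · show r (g (r (g _))) = _
    rw [g.commutes, H.ru]
    have := map_xu (P := P) (g : K →+* K) (gc _) (gc _) (gc _) (algebraMap Y K A) B
      (algebraMap Y K u)
    simp only [RingHom.coe_coe] at this
    rw [this, g.commutes, g.commutes, hg, ← H.rru, H.rrru]; rfl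

theorem r12 (f : K) : r (r (r (r (r (r (r (r (r (r (r (r f))))))))))) = f := by
  refine H.extK (φ := ((r ^ 12 : K ≃ₐ[C] K) : K →+* K)) (ψ := RingHom.id K)
    (fun c => (r ^ 12).commutes c) ?_ ?_ ?_ f
  · show r (r (r (r (r (r (r (r (r (r (r (r _))))))))))) = _
    simp only [H.rrA, map_neg, neg_neg]; rfl
  · show r (r (r (r (r (r (r (r (r (r (r (r _))))))))))) = _
    simp only [H.rrB, map_neg, neg_neg]; rfl
  · show r (r (r (r (r (r (r (r (r (r (r (r _))))))))))) = _
    simp only [H.rrru]; rfl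

theorem r4_ne : ∃ f, r (r (r (r f))) ≠ f :=
  ⟨algebraMap Y K u, by rw [H.rrru]; exact H.ru_ne⟩

theorem r4_fix {f : Y} (hf : f ∈ IntermediateField.adjoin C {A, B2}) :
    r (r (r (r (algebraMap Y K f)))) = algebraMap Y K f := by
  induction hf using IntermediateField.adjoin_induction with
  | mem x hx =>
    rcases hx with rfl | rfl
    · simp only [H.rrA, map_neg, neg_neg]
    · simp only [← H.hB, map_pow, H.rrB, map_neg, neg_neg]
  | algebraMap c => simp only [← IsScalarTower.algebraMap_apply, r.commutes]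
  | add x y _ _ h1 h2 => simp only [map_add, h1, h2]
  | inv x _ h1 => simp only [map_inv₀, h1]
  | mul x y _ _ h1 h2 => simp only [map_mul, h1, h2]

/-- `r⁶` induces the involution `A ↦ -A` of `Y` -/
theorem r6 {ι : Y →+* Y} (hc : ∀ c, ι (algebraMap C Y c) = algebraMap C Y c) (hA : ι A = -A)
    (hB : ι B2 = B2) (hu : ι u = u) (f : Y) :
    r (r (r (r (r (r (algebraMap Y K f)))))) = algebraMap Y K (ι f) := by
  refine H.extY (φ := ((r ^ 6 : K ≃ₐ[C] K) : K →+* K).comp (algebraMap Y K))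
    (ψ := (algebraMap Y K).comp ι) (fun c => ?_) ?_ ?_ ?_ f
  · show r (r (r (r (r (r (algebraMap Y K _)))))) = algebraMap Y K (ι _)
    simp only [hc, ← IsScalarTower.algebraMap_apply, r.commutes]
  · show r (r (r (r (r (r (algebraMap Y K _)))))) = algebraMap Y K (ι _)
    simp only [hA, H.rrA, map_neg, neg_neg]
  · show r (r (r (r (r (r (algebraMap Y K _)))))) = algebraMap Y K (ι _)
    simp only [hB, ← H.hB, map_pow, H.rrB, map_neg, neg_neg, neg_sq]
  · show r (r (r (r (r (r (algebraMap Y K _)))))) = algebraMap Y K (ι _)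
    simp only [hu, H.rrru]

/-- an automorphism of `Y` that fixes `A, B2, u` and the parameters extends to `K` and commutes
with `r` -/
theorem ext_fix (e : Y ≃+* Y) (s : C → C) (hc : ∀ c, e (algebraMap C Y c) = algebraMap C Y (s c))
    (h1 : s P.p1 = P.p1) (h2 : s P.p2 = P.p2) (ht : s P.t = P.t) (hA : e A = A) (hB : e B2 = B2)
    (hu : e u = u) : ∃ ψ : K ≃+* K, (∀ f, ψ (algebraMap Y K f) = algebraMap Y K (e f)) ∧
      ψ B = B ∧ ∀ f, ψ (r f) = r (ψ f) := by
  obtain ⟨ψ, a, b⟩ := exists_equiv H.hB H.gK H.nB e (c := 1) one_ne_zero (by simp [hB])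
  rw [map_one, one_mul] at b
  have c : ∀ c, ψ (algebraMap C K c) = algebraMap C K (s c) := fun c => by
    rw [IsScalarTower.algebraMap_apply C Y K, a, hc, ← IsScalarTower.algebraMap_apply]
  refine ⟨ψ, a, b, H.extK (φ := (ψ : K →+* K).comp (r : K →+* K))
    (ψ := (r : K →+* K).comp (ψ : K →+* K)) (fun x => ?_) ?_ ?_ ?_⟩
  · show ψ (r _) = r (ψ _)
    rw [r.commutes, c, r.commutes]
  · show ψ (r _) = r (ψ _)
    rw [a, hA, H.rA, map_neg, b]
  · show ψ (r _) = r (ψ _)
    rw [b, H.rB, a, hA]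
  · show ψ (r _) = r (ψ _)
    have := map_xu (P := P) (ψ : K →+* K) ((c _).trans (by rw [h1])) ((c _).trans (by rw [h2]))
      ((c _).trans (by rw [ht])) (algebraMap Y K A) B (algebraMap Y K u)
    simp only [RingHom.coe_coe] at this
    rw [a, hu, H.ru, this, a, a, hA, hu, b]

/-- `y` extends to `K`, `y r = r⁵ y` -/
theorem ext_y (y : Y ≃+* Y) (hc : ∀ c, y (algebraMap C Y c) = algebraMap C Y c) {i : C}
    (hi : i ^ 2 = -1) (hA : y A = algebraMap C Y i * A) (hB : y B2 = -B2) (hu : y u = u) :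
    ∃ ψ : K ≃+* K, (∀ f, ψ (algebraMap Y K f) = algebraMap Y K (y f)) ∧
      ψ B = algebraMap C K i * B ∧ ∀ f, ψ (r f) = r (r (r (r (r (ψ f))))) := by
  have hY : algebraMap C Y i ^ 2 = -1 := by rw [← map_pow, hi, map_neg, map_one]
  have hK : algebraMap C K i ^ 2 = -1 := by rw [← map_pow, hi, map_neg, map_one]
  obtain ⟨ψ, a, b⟩ := exists_equiv H.hB H.gK H.nB y (c := algebraMap C Y i)
    (fun h => by rw [h] at hY; simp at hY) (by rw [hB, hY]; ring)
  rw [← IsScalarTower.algebraMap_apply] at b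
  have c : ∀ c, ψ (algebraMap C K c) = algebraMap C K c := fun c => by
    rw [IsScalarTower.algebraMap_apply C Y K, a, hc]
  have a' : ψ (algebraMap Y K A) = algebraMap C K i * algebraMap Y K A := by
    rw [a, hA, map_mul, ← IsScalarTower.algebraMap_apply]
  refine ⟨ψ, a, b, H.extK (φ := (ψ : K →+* K).comp (r : K →+* K))
    (ψ := (r : K →+* K).comp ((r : K →+* K).comp ((r : K →+* K).comp ((r : K →+* K).comp
      ((r : K →+* K).comp (ψ : K →+* K)))))) (fun x => ?_) ?_ ?_ ?_⟩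
  · show ψ (r _) = r (r (r (r (r (ψ _)))))
    simp only [c, r.commutes]
  · show ψ (r _) = r (r (r (r (r (ψ _)))))
    rw [a', H.rA, map_neg, b]
    simp only [map_mul, r.commutes, H.rA, H.rB, map_neg, neg_neg, mul_neg]
  · show ψ (r _) = r (r (r (r (r (ψ _)))))
    rw [b, H.rB, a']
    simp only [map_mul, r.commutes, H.rA, H.rB, map_neg, neg_neg, mul_neg]
  · show ψ (r _) = r (r (r (r (r (ψ _)))))
    have := map_xu (P := P) (ψ : K →+* K) (c _) (c _) (c _) (algebraMap Y K A) B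
      (algebraMap Y K u)
    simp only [RingHom.coe_coe] at this
    rw [a, hu, H.rrru, H.rru, H.ru, this, a', a, hu, b]
    exact nx_i _ hK _ _ _

end Md

end Crest.Agent.T15.Jm
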