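import Mathlib

/-!
# Row 15, block F (helper83): the fields `Y ⊆ K` of the automorphism family, part A

Parameters `Par`, the equations `E1`, `E2`, the concrete tower `F1 ⊆ F2 ⊆ YY ⊆ KK` over
`RatFunc C` (`X = u`).
-/

set_option autoImplicit false
set_option linter.all false

namespace Crest.Agent.T15.Kf

open Polynomial

/-- parameters of the family -/
structure Par (C : Type*) [Field C] where
  p1 : C
  p2 : C
  p3 : C
  t : C
  sum : p1 + p2 + p3 = 0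
  two : (2 : C) ≠ 0
  h1 : p1 ≠ 0
  h2 : p2 ≠ 0
  h3 : p3 ≠ 0
  e1 : p2 - p3 ≠ 0
  e2 : p3 - p1 ≠ 0
  e3 : p1 - p2 ≠ 0
  ht : t ≠ 0

namespace Par

variable {C : Type*} [Field C] (P : Par C)

def d1 : C := P.p2 - P.p3
def d2 : C := P.p3 - P.p1
def d3 : C := P.p1 - P.p2
def m1 : C := P.p1 * P.d1
def m2 : C := P.p2 * P.d2
def m3 : C := P.p3 * P.d3
def n1 : C := P.p1 * P.d1 ^ 3
def n2 : C := P.p2 * P.d2 ^ 3
def n3 : C := P.p3 * P.d3 ^ 3
def q : C := P.p1 * P.p2 + P.p1 * P.p3 + P.p2 * P.p3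
def pi : C := (P.p1 * P.p2 * P.p3) ^ 2
def V (A B2 : C) : C := (A ^ 2 + B2) / (2 * P.t * P.d3)
def R (A B2 : C) : C := (A ^ 2 - B2) / (2 * P.t * P.d2)
def S (A B : C) : C := A * B / (P.t * P.d1)
def X (A B2 : C) : C := P.p1 * P.p2 * (4 * P.p3 ^ 2 - P.p1 * P.p2) + P.m1 * P.m2 * P.V A B2 ^ 2
/-- the plane quartic -/
def E1 (A B2 : C) : Prop :=
  P.n1 * (A ^ 2 + B2) ^ 2 + 4 * P.n3 * A ^ 2 * B2 = 4 * (P.t * P.d1 * P.d2 * P.d3) ^ 2
/-- the cubic -/
def E2 (A B2 u : C) : Prop := u ^ 3 + 2 * P.q * u ^ 2 - P.X A B2 * u - 2 * P.pi = 0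
/-- the second root of the cubic -/
def nx (A B u : C) : C :=
  (-2 * P.q - u + P.m1 * P.m2 * P.m3 * u * (P.V A (B ^ 2) / (u + P.p1 * P.p2)) *
    (P.R A (B ^ 2) / (u + P.p1 * P.p3)) * (P.S A B / (u + P.p2 * P.p3))) / 2

theorem d1_ne : P.d1 ≠ 0 := P.e1
theorem d2_ne : P.d2 ≠ 0 := P.e2
theorem d3_ne : P.d3 ≠ 0 := P.e3
theorem m1_ne : P.m1 ≠ 0 := mul_ne_zero P.h1 P.e1
theorem m2_ne : P.m2 ≠ 0 := mul_ne_zero P.h2 P.e2
theorem m3_ne : P.m3 ≠ 0 := mul_ne_zero P.h3 P.e3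
theorem n1_ne : P.n1 ≠ 0 := mul_ne_zero P.h1 (pow_ne_zero _ P.e1)
theorem n2_ne : P.n2 ≠ 0 := mul_ne_zero P.h2 (pow_ne_zero _ P.e2)
theorem n3_ne : P.n3 ≠ 0 := mul_ne_zero P.h3 (pow_ne_zero _ P.e3)
theorem pi_ne : P.pi ≠ 0 := pow_ne_zero _ (mul_ne_zero (mul_ne_zero P.h1 P.h2) P.h3)
theorem p3_eq : P.p3 = -P.p1 - P.p2 := by linear_combination P.sum
theorem n_sum : P.n1 + P.n2 + P.n3 = 0 := by
  simp only [n1, n2, n3, d1, d2, d3, P.p3_eq]; ring

@[ext] theorem ext' {P Q : Par C} (a : P.p1 = Q.p1) (b : P.p2 = Q.p2) (c : P.p3 = Q.p3)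
    (d : P.t = Q.t) : P = Q := by
  cases P; cases Q; simp_all

variable {K : Type*} [Field K] {K' : Type*} [Field K']

/-- image of the parameters -/
def map (s : C →+* K) : Par K where
  p1 := s P.p1
  p2 := s P.p2
  p3 := s P.p3
  t := s P.t
  sum := by rw [← map_add, ← map_add, P.sum, map_zero]
  two := by rw [← map_ofNat s 2]; exact (map_ne_zero s).mpr P.two
  h1 := (map_ne_zero s).mpr P.h1
  h2 := (map_ne_zero s).mpr P.h2
  h3 := (map_ne_zero s).mpr P.h3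
  e1 := by rw [← map_sub]; exact (map_ne_zero s).mpr P.e1
  e2 := by rw [← map_sub]; exact (map_ne_zero s).mpr P.e2
  e3 := by rw [← map_sub]; exact (map_ne_zero s).mpr P.e3
  ht := (map_ne_zero s).mpr P.ht

variable (s : C →+* K)

@[simp] theorem map_p1 : (P.map s).p1 = s P.p1 := rfl
@[simp] theorem map_p2 : (P.map s).p2 = s P.p2 := rfl
@[simp] theorem map_p3 : (P.map s).p3 = s P.p3 := rfl
@[simp] theorem map_t : (P.map s).t = s P.t := rfl
@[simp] theorem map_d1 : (P.map s).d1 = s P.d1 := by simp [d1]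
@[simp] theorem map_d2 : (P.map s).d2 = s P.d2 := by simp [d2]
@[simp] theorem map_d3 : (P.map s).d3 = s P.d3 := by simp [d3]
@[simp] theorem map_m1 : (P.map s).m1 = s P.m1 := by simp [m1]
@[simp] theorem map_m2 : (P.map s).m2 = s P.m2 := by simp [m2]
@[simp] theorem map_m3 : (P.map s).m3 = s P.m3 := by simp [m3]
@[simp] theorem map_n1 : (P.map s).n1 = s P.n1 := by simp [n1]
@[simp] theorem map_n2 : (P.map s).n2 = s P.n2 := by simp [n2]
@[simp] theorem map_n3 : (P.map s).n3 = s P.n3 := by simp [n3]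
@[simp] theorem map_q : (P.map s).q = s P.q := by simp [q]
@[simp] theorem map_pi : (P.map s).pi = s P.pi := by simp [pi]
theorem map_map (φ : K →+* K') : (P.map s).map φ = P.map (φ.comp s) := rfl
theorem map_id : P.map (RingHom.id C) = P := rfl

theorem map_V (A B2 : C) : s (P.V A B2) = (P.map s).V (s A) (s B2) := by
  simp [V, map_ofNat]
theorem map_R (A B2 : C) : s (P.R A B2) = (P.map s).R (s A) (s B2) := by
  simp [R, map_ofNat]
theorem map_S (A B : C) : s (P.S A B) = (P.map s).S (s A) (s B) := by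
  simp [S]
theorem map_X (A B2 : C) : s (P.X A B2) = (P.map s).X (s A) (s B2) := by
  simp [X, map_V, map_ofNat]
theorem map_nx (A B u : C) : s (P.nx A B u) = (P.map s).nx (s A) (s B) (s u) := by
  simp [nx, map_V, map_R, map_S, map_ofNat]
theorem map_E1 {A B2 : C} : (P.map s).E1 (s A) (s B2) ↔ P.E1 A B2 := by
  unfold E1
  rw [← s.injective.eq_iff]
  simp [map_ofNat]
theorem map_E2 {A B2 u : C} : (P.map s).E2 (s A) (s B2) (s u) ↔ P.E2 A B2 u := by
  unfold E2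
  rw [← s.injective.eq_iff, ← map_X]
  simp [map_ofNat]

theorem A_sq (A B2 : C) : A ^ 2 = P.t * (P.d3 * P.V A B2 + P.d2 * P.R A B2) := by
  have := P.two; have := P.ht; have := P.d2_ne; have := P.d3_ne
  unfold V R; field_simp; ring

theorem B_sq (A B2 : C) : B2 = P.t * (P.d3 * P.V A B2 - P.d2 * P.R A B2) := by
  have := P.two; have := P.ht; have := P.d2_ne; have := P.d3_ne
  unfold V R; field_simp; ring

theorem V_of {A B2 v r : C} (h1 : A ^ 2 = P.t * (P.d3 * v + P.d2 * r))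
    (h2 : B2 = P.t * (P.d3 * v - P.d2 * r)) : P.V A B2 = v := by
  have := P.two; have := P.ht; have := P.d2_ne; have := P.d3_ne
  unfold V; rw [h1, h2]; field_simp; ring

theorem R_of {A B2 v r : C} (h1 : A ^ 2 = P.t * (P.d3 * v + P.d2 * r))
    (h2 : B2 = P.t * (P.d3 * v - P.d2 * r)) : P.R A B2 = r := by
  have := P.two; have := P.ht; have := P.d2_ne; have := P.d3_ne
  unfold R; rw [h1, h2]; field_simp; ring

theorem E1_iff (A B2 : C) :
    P.E1 A B2 ↔ P.m2 * P.V A B2 ^ 2 + P.m3 * P.R A B2 ^ 2 + P.d1 ^ 2 = 0 := by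
  have hA := P.A_sq A B2
  have hB := P.B_sq A B2
  have hn := P.n_sum
  have h4 : (4 : C) * (P.t * P.d2 * P.d3) ^ 2 ≠ 0 := by
    have : (4 : C) = 2 * 2 := by norm_num
    rw [this]
    exact mul_ne_zero (mul_ne_zero P.two P.two)
      (pow_ne_zero _ (mul_ne_zero (mul_ne_zero P.ht P.e2) P.e3))
  set v := P.V A B2
  set r := P.R A B2
  have key : P.n1 * (A ^ 2 + B2) ^ 2 + 4 * P.n3 * A ^ 2 * B2 - 4 * (P.t * P.d1 * P.d2 * P.d3) ^ 2
      = -(4 * (P.t * P.d2 * P.d3) ^ 2) * (P.m2 * v ^ 2 + P.m3 * r ^ 2 + P.d1 ^ 2) := by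
    have e1 : P.n1 = -P.n2 - P.n3 := by linear_combination hn
    have e2 : 4 * P.n3 * A ^ 2 * B2 = 4 * P.n3 * (A ^ 2 * B2) := by ring
    rw [e2, hA]
    conv_lhs => rw [hB]
    rw [e1]
    simp only [n2, n3, m2, m3]
    ring
  unfold E1
  rw [← sub_eq_zero, key, mul_eq_zero, neg_eq_zero, or_iff_right h4]

theorem E2_iff (A B2 u : C) : P.E2 A B2 u ↔
    P.m1 * P.m2 * P.V A B2 ^ 2 * u = (u - 2 * P.p3 ^ 2) * (u + P.p1 * P.p2) ^ 2 := by
  unfold E2 X
  set v := P.V A B2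
  have key : u ^ 3 + 2 * P.q * u ^ 2 -
      (P.p1 * P.p2 * (4 * P.p3 ^ 2 - P.p1 * P.p2) + P.m1 * P.m2 * v ^ 2) * u - 2 * P.pi
      = (u - 2 * P.p3 ^ 2) * (u + P.p1 * P.p2) ^ 2 - P.m1 * P.m2 * v ^ 2 * u := by
    simp only [q, pi, P.p3_eq]; ring
  rw [key, sub_eq_zero, eq_comm]

theorem idR (u : C) : (u - 2 * P.p3 ^ 2) * (u + P.p1 * P.p2) ^ 2 +
    (2 * P.p2 ^ 2 - u) * (u + P.p1 * P.p3) ^ 2 + P.m1 * P.d1 ^ 2 * u = 0 := by
  simp only [m1, d1, P.p3_eq]; ring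

theorem idS (u : C) : P.m3 * P.d3 ^ 2 * ((u - 2 * P.p3 ^ 2) * (u + P.p1 * P.p2) ^ 2) -
    P.m2 * P.d2 ^ 2 * ((2 * P.p2 ^ 2 - u) * (u + P.p1 * P.p3) ^ 2) =
    P.m1 * P.d1 ^ 2 * ((2 * P.p1 ^ 2 - u) * (u + P.p2 * P.p3) ^ 2) := by
  simp only [m1, m2, m3, d1, d2, d3, P.p3_eq]; ring

variable {P}

theorem V_sq {A B2 u : C} (h2 : P.E2 A B2 u) :
    P.m1 * P.m2 * P.V A B2 ^ 2 * u = (u - 2 * P.p3 ^ 2) * (u + P.p1 * P.p2) ^ 2 :=
  (P.E2_iff A B2 u).mp h2

theorem R_sq {A B2 u : C} (h1 : P.E1 A B2) (h2 : P.E2 A B2 u) :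
    P.m1 * P.m3 * P.R A B2 ^ 2 * u = (2 * P.p2 ^ 2 - u) * (u + P.p1 * P.p3) ^ 2 := by
  have a := (P.E1_iff A B2).mp h1
  have b := V_sq h2
  linear_combination P.m1 * u * a - b - P.idR u

theorem AB_sq {A B2 u : C} (h1 : P.E1 A B2) (h2 : P.E2 A B2 u) :
    P.m2 * P.m3 * (A ^ 2 * B2) * u =
      (P.t * P.d1) ^ 2 * ((2 * P.p1 ^ 2 - u) * (u + P.p2 * P.p3) ^ 2) := by
  have b := V_sq h2
  have c := R_sq h1 h2
  have hAB : A ^ 2 * B2 = P.t ^ 2 * (P.d3 ^ 2 * P.V A B2 ^ 2 - P.d2 ^ 2 * P.R A B2 ^ 2) := by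
    have hA := P.A_sq A B2
    have hB := P.B_sq A B2
    set v := P.V A B2
    set r := P.R A B2
    rw [hA]
    conv_lhs => rw [hB]
    ring
  apply mul_left_cancel₀ P.m1_ne
  rw [hAB]
  linear_combination P.t ^ 2 * P.m3 * P.d3 ^ 2 * b - P.t ^ 2 * P.m2 * P.d2 ^ 2 * c
    + P.t ^ 2 * P.idS u

theorem S_sq {A B u : C} (h1 : P.E1 A (B ^ 2)) (h2 : P.E2 A (B ^ 2) u) :
    P.m2 * P.m3 * P.S A B ^ 2 * u = (2 * P.p1 ^ 2 - u) * (u + P.p2 * P.p3) ^ 2 := by
  have a := AB_sq h1 h2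
  have h0 : P.t * P.d1 ≠ 0 := mul_ne_zero P.ht P.e1
  apply mul_left_cancel₀ (pow_ne_zero 2 h0)
  rw [← a]
  have := P.ht; have := P.d1_ne
  unfold S
  field_simp

theorem u_ne {A B2 u : C} (h2 : P.E2 A B2 u) : u ≠ 0 := by
  rintro rfl
  unfold E2 at h2
  apply mul_ne_zero P.two P.pi_ne
  linear_combination -h2

end Par

/-- `Y = C(A, B2, u)` -/
structure IsY {C : Type*} [Field C] (P : Par C) {Y : Type*} [Field Y] [Algebra C Y]
    (A B2 u : Y) : Prop where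
  eq1 : (P.map (algebraMap C Y)).E1 A B2
  eq2 : (P.map (algebraMap C Y)).E2 A B2 u
  tr : Transcendental C u
  gen : IntermediateField.adjoin C {A, B2, u} = ⊤

/-- `K = C(A, B, u)` -/
structure IsK {C : Type*} [Field C] (P : Par C) {K : Type*} [Field K] [Algebra C K]
    (A B u : K) : Prop where
  eq1 : (P.map (algebraMap C K)).E1 A (B ^ 2)
  eq2 : (P.map (algebraMap C K)).E2 A (B ^ 2) u
  tr : Transcendental C u
  gen : IntermediateField.adjoin C {A, B, u} = ⊤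

/-- the second root `x u` of the cubic in a `C`-algebra -/
abbrev xu {C : Type*} [Field C] (P : Par C) {K : Type*} [Field K] [Algebra C K] (A B u : K) : K :=
  (P.map (algebraMap C K)).nx A B u

/-! ### squares -/

section sq

variable {C : Type*} [Field C]

theorem nsq_rat {f : RatFunc C} {e : C} {g h : C[X]} (hg : g.eval e ≠ 0) (hh : h.eval e ≠ 0)
    (hf : f * algebraMap C[X] (RatFunc C) h = algebraMap C[X] (RatFunc C) ((X - Polynomial.C e) * g)) :
    ¬ IsSquare f := by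
  classical
  rintro ⟨b, rfl⟩
  have hd : b.denom ≠ 0 := b.denom_ne_zero
  have hd' : algebraMap C[X] (RatFunc C) b.denom ≠ 0 := RatFunc.algebraMap_ne_zero hd
  have ha : b * algebraMap C[X] (RatFunc C) b.denom = algebraMap C[X] (RatFunc C) b.num := by
    conv_lhs => enter [1]; rw [← b.num_div_denom]
    exact div_mul_cancel₀ _ hd'
  have h1 : b.num * b.num * h = b.denom * b.denom * ((X - Polynomial.C e) * g) := by
    apply RatFunc.algebraMap_injective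
    rw [map_mul, map_mul, map_mul, map_mul, ← hf, ← ha]
    ring
  have g0 : g ≠ 0 := by rintro rfl; simp at hg
  have h0 : h ≠ 0 := by rintro rfl; simp at hh
  have x0 : (X - Polynomial.C e : C[X]) ≠ 0 := X_sub_C_ne_zero e
  have r0 : b.denom * b.denom * ((X - Polynomial.C e) * g) ≠ 0 :=
    mul_ne_zero (mul_ne_zero hd hd) (mul_ne_zero x0 g0)
  have l0 : b.num * b.num * h ≠ 0 := by rw [h1]; exact r0
  have n0 : b.num * b.num ≠ 0 := left_ne_zero_of_mul l0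
  have h2 := congrArg (rootMultiplicity e) h1
  rw [rootMultiplicity_mul l0, rootMultiplicity_mul n0, rootMultiplicity_mul r0,
    rootMultiplicity_mul (mul_ne_zero hd hd), rootMultiplicity_mul (mul_ne_zero x0 g0),
    rootMultiplicity_X_sub_C_self, rootMultiplicity_eq_zero hg, rootMultiplicity_eq_zero hh] at h2
  omega

variable {F : Type*} [Field F]

theorem fact_of_nsq {a : F} (h : ¬ IsSquare a) : Fact (∀ r : F, r ^ 2 ≠ a + 0 * r) :=
  ⟨fun r hr => h ⟨r, by rw [← sq, hr]; ring⟩⟩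

theorem nsq_QA (two : (2 : F) ≠ 0) {a c : F} (h1 : ¬ IsSquare c) (h2 : ¬ IsSquare (c * a)) :
    ¬ IsSquare (algebraMap F (QuadraticAlgebra F a 0) c) := by
  rintro ⟨z, hz⟩
  have e1 := congrArg QuadraticAlgebra.re hz
  have e2 := congrArg QuadraticAlgebra.im hz
  simp only [QuadraticAlgebra.algebraMap_re, QuadraticAlgebra.algebraMap_im,
    QuadraticAlgebra.re_mul, QuadraticAlgebra.im_mul] at e1 e2
  have e3 : 2 * (z.re * z.im) = 0 := by linear_combination -e2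
  rcases mul_eq_zero.mp ((mul_eq_zero.mp e3).resolve_left two) with h | h
  · exact h2 ⟨a * z.im, by rw [e1, h]; ring⟩
  · exact h1 ⟨z.re, by rw [e1, h]; ring⟩

theorem nsq_norm {a : F} {z : QuadraticAlgebra F a 0}
    (h : ¬ IsSquare (z.re ^ 2 - a * z.im ^ 2)) : ¬ IsSquare z := by
  rintro ⟨w, rfl⟩
  refine h ⟨w.re ^ 2 - a * w.im ^ 2, ?_⟩
  simp only [QuadraticAlgebra.re_mul, QuadraticAlgebra.im_mul]
  ring

theorem nsq_mul_sq {c e : F} (he : e ≠ 0) (h : ¬ IsSquare c) : ¬ IsSquare (e ^ 2 * c) := by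
  rintro ⟨b, hb⟩
  exact h ⟨b / e, by field_simp; linear_combination hb⟩

/-- semilinear lift out of a quadratic algebra -/
def qlift {K : Type*} [Field K] {a : F} (φ : F →+* K) (w : K) (hw : w ^ 2 = φ a) :
    QuadraticAlgebra F a 0 →+* K where
  toFun z := φ z.re + φ z.im * w
  map_one' := by simp [QuadraticAlgebra.re_one, QuadraticAlgebra.im_one]
  map_mul' z z' := by
    simp only [QuadraticAlgebra.re_mul, QuadraticAlgebra.im_mul, map_add, map_mul, map_zero, ← hw]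
    ring
  map_zero' := by simp
  map_add' z z' := by
    simp only [QuadraticAlgebra.re_add, QuadraticAlgebra.im_add, map_add]
    ring

theorem qlift_apply {K : Type*} [Field K] {a : F} (φ : F →+* K) (w : K) (hw : w ^ 2 = φ a)
    (z : QuadraticAlgebra F a 0) : qlift φ w hw z = φ z.re + φ z.im * w := rfl

theorem qlift_alg {K : Type*} [Field K] {a : F} (φ : F →+* K) (w : K) (hw : w ^ 2 = φ a)
    (c : F) : qlift φ w hw (algebraMap F _ c) = φ c := by
  simp [qlift_apply]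

theorem qlift_om {K : Type*} [Field K] {a : F} (φ : F →+* K) (w : K) (hw : w ^ 2 = φ a) :
    qlift φ w hw QuadraticAlgebra.omega = w := by
  simp [qlift_apply]

theorem om_sq (a : F) : (QuadraticAlgebra.omega : QuadraticAlgebra F a 0) ^ 2 =
    algebraMap F _ a := by
  ext <;> simp [sq]

theorem qa_eq {a : F} (z : QuadraticAlgebra F a 0) :
    z = algebraMap F _ z.re + algebraMap F _ z.im * QuadraticAlgebra.omega := by
  ext <;> simp

end sq

end Crest.Agent.T15.Kf
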