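import Mathlib
import Crest.Agent.T15.KfA_83

/-!
# Row 15, block F (helper23): the subfield `Ei = C(A, B2)` of `Y`

`finrank Ei Y = 3`, `A` is transcendental, `W ^ 2 = a (A ^ 4 - b)`.
-/

set_option autoImplicit false
set_option linter.all false

namespace Crest.Agent.T15.KfJ

open Polynomial Module IntermediateField
open Crest.Agent.T15.Kf

variable {C Y : Type*} [Field C] [Field Y] [Algebra C Y]

theorem no_root {X0 : Y} (hX : Transcendental C X0) {α β : C} (hβ : β ≠ 0) {r : Y}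
    (hr : r ∈ adjoin C {X0}) :
    r ^ 3 + algebraMap C Y α * r ^ 2 - X0 * r - algebraMap C Y β ≠ 0 := by
  intro h
  obtain ⟨a, b, rfl⟩ := (mem_adjoin_simple_iff C r).mp hr
  have inj : Function.Injective (aeval X0 : C[X] →ₐ[C] Y) := transcendental_iff_injective.mp hX
  by_cases hb : b = 0
  · subst hb
    simp at h
    exact hβ h
  have hb' : aeval X0 b ≠ 0 := fun h0 => hb (inj (by rw [h0, map_zero]))
  have h1 : a ^ 3 + Polynomial.C α * a ^ 2 * b - X * a * b ^ 2 - Polynomial.C β * b ^ 3 = 0 := by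
    apply inj
    simp only [map_sub, map_add, map_mul, map_pow, aeval_C, aeval_X, map_zero]
    field_simp at h
    linear_combination h
  -- integrality
  have h2 : IsIntegral C[X] (algebraMap C[X] (RatFunc C) a / algebraMap C[X] (RatFunc C) b) := by
    refine ⟨X ^ 3 + (Polynomial.C (Polynomial.C α) * X ^ 2 - Polynomial.C X * X -
      Polynomial.C (Polynomial.C β)), ?_, ?_⟩
    · apply Monic.add_of_left (monic_X_pow 3)
      rw [degree_X_pow]
      compute_degree!
    · have hb2 : algebraMap C[X] (RatFunc C) b ≠ 0 := RatFunc.algebraMap_ne_zero hb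
      have h3 := congrArg (algebraMap C[X] (RatFunc C)) h1
      simp only [map_sub, map_add, map_mul, map_pow, map_zero] at h3
      simp only [eval₂_add, eval₂_sub, eval₂_mul, eval₂_X_pow, eval₂_C, eval₂_X, eval₂_pow]
      field_simp
      linear_combination h3
  obtain ⟨p, hp⟩ := IsIntegrallyClosed.isIntegral_iff.mp h2
  have hb2 : algebraMap C[X] (RatFunc C) b ≠ 0 := RatFunc.algebraMap_ne_zero hb
  have h4 : a = p * b := by
    apply IsFractionRing.injective C[X] (RatFunc C)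
    rw [map_mul, hp]; field_simp
  subst h4
  have h5 : p * (p ^ 2 + Polynomial.C α * p - X) = Polynomial.C β := by
    apply mul_left_cancel₀ (pow_ne_zero 3 hb)
    linear_combination h1
  have h6 : IsUnit (p * (p ^ 2 + Polynomial.C α * p - X)) := by
    rw [h5]; exact isUnit_C.mpr (Ne.isUnit hβ)
  obtain ⟨c, -, rfl⟩ := isUnit_iff.mp (isUnit_of_mul_isUnit_left h6)
  have h7 := natDegree_eq_zero_of_isUnit (isUnit_of_mul_isUnit_right h6)
  have h8 : (Polynomial.C c ^ 2 + Polynomial.C α * Polynomial.C c - X : C[X]) =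
      -(X - Polynomial.C (c ^ 2 + α * c)) := by
    simp only [map_add, map_mul, map_pow]; ring
  rw [h8, natDegree_neg, natDegree_X_sub_C] at h7
  exact one_ne_zero h7

/-- the cubic over a subfield -/
noncomputable def cub (S : IntermediateField C Y) (α β : C) (X0 : S) : S[X] :=
  X ^ 3 + (Polynomial.C (algebraMap C S α) * X ^ 2 - Polynomial.C X0 * X -
    Polynomial.C (algebraMap C S β))

theorem cub_monic (S : IntermediateField C Y) (α β : C) (X0 : S) : (cub S α β X0).Monic := by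
  apply Monic.add_of_left (monic_X_pow 3)
  rw [degree_X_pow]
  compute_degree!

theorem cub_natDegree (S : IntermediateField C Y) (α β : C) (X0 : S) :
    (cub S α β X0).natDegree = 3 := by
  unfold cub
  compute_degree!

theorem aeval_cub (S : IntermediateField C Y) (α β : C) (X0 : S) (r : Y) :
    aeval r (cub S α β X0) =
      r ^ 3 + algebraMap C Y α * r ^ 2 - (X0 : Y) * r - algebraMap C Y β := by
  simp only [cub, map_add, map_sub, map_mul, map_pow, aeval_X, aeval_C]
  rw [← IsScalarTower.algebraMap_apply, ← IsScalarTower.algebraMap_apply]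
  show _ + (_ - (X0 : Y) * r - _) = _
  ring

theorem three_dvd {X0 u : Y} (hX : Transcendental C X0) {α β : C} (hβ : β ≠ 0)
    (h : u ^ 3 + algebraMap C Y α * u ^ 2 - X0 * u - algebraMap C Y β = 0) :
    3 ∣ finrank (adjoin C {X0}) Y := by
  obtain ⟨p, hp⟩ : ∃ p, p = cub (adjoin C {X0}) α β ⟨X0, mem_adjoin_simple_self C X0⟩ := ⟨_, rfl⟩
  have hm : p.Monic := hp ▸ cub_monic _ _ _ _
  have hd : p.natDegree = 3 := hp ▸ cub_natDegree _ _ _ _
  have h0 : aeval u p = 0 := by rw [hp, aeval_cub]; exact h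
  have hi : Irreducible p := by
    rw [hm.irreducible_iff_roots_eq_zero_of_degree_le_three (by omega) hd.le]
    apply Multiset.eq_zero_of_forall_notMem
    intro r hr
    have h1 : p.eval r = 0 := (mem_roots hm.ne_zero).mp hr
    have h2 : aeval (algebraMap _ Y r) p = 0 := by
      rw [aeval_algebraMap_apply, coe_aeval_eq_eval, h1, map_zero]
    rw [hp, aeval_cub] at h2
    exact no_root hX hβ r.2 h2
  have h3 := minpoly.eq_of_irreducible_of_monic hi h0 hm
  rw [← hd, h3]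
  exact minpoly.degree_dvd ⟨p, hm, h0⟩

theorem rel_quad {S T : IntermediateField C Y} (h : S ≤ T) {s : Y} (hs : s ∈ T) (h2 : s ^ 2 ∈ S)
    (hT : T ≤ adjoin C (insert s (S : Set Y))) : relfinrank S T ∣ 2 := by
  have e : extendScalars h = adjoin S {s} := by
    apply le_antisymm
    · intro y hy
      have h1 := hT hy
      have h3 : adjoin C (insert s (S : Set Y)) ≤ (adjoin S {s}).restrictScalars C := by
        rw [adjoin_le_iff]
        rintro z (rfl | hz)
        · exact mem_adjoin_simple_self S z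
        · exact (adjoin S {s}).algebraMap_mem ⟨z, hz⟩
      exact h3 h1
    · rw [adjoin_simple_le_iff]; exact hs
  have hm : (X ^ 2 - Polynomial.C (⟨s ^ 2, h2⟩ : S)).Monic := monic_X_pow_sub_C _ two_ne_zero
  have h0 : aeval s (X ^ 2 - Polynomial.C (⟨s ^ 2, h2⟩ : S)) = 0 := by
    simp only [map_sub, map_pow, aeval_X, aeval_C]
    exact sub_self _
  have hi : IsIntegral S s := ⟨_, hm, h0⟩
  rw [relfinrank_eq_finrank_of_le h, e, adjoin.finrank hi]
  have h4 := natDegree_le_natDegree (minpoly.min S s hm h0)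
  rw [natDegree_X_pow_sub_C] at h4
  have h5 := minpoly.natDegree_pos hi
  interval_cases (minpoly S s).natDegree <;> norm_num

theorem tr_of_cubic {X0 u : Y} (hu : Transcendental C u) {α β : C}
    (h : u ^ 3 + algebraMap C Y α * u ^ 2 - X0 * u - algebraMap C Y β = 0) :
    Transcendental C X0 := by
  intro ha
  have h1 : X0 ∈ algebraicClosure C Y := mem_algebraicClosure_iff.mpr ha
  have h2 : IsIntegral (algebraicClosure C Y) u :=
    ⟨cub _ α β ⟨X0, h1⟩, cub_monic _ _ _ _, by rw [← aeval_def, aeval_cub]; exact h⟩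
  exact hu (isIntegral_trans u h2).isAlgebraic

variable (C) in
/-- the subfield `C(A, B2)` -/
abbrev Ei (A B2 : Y) : IntermediateField C Y := adjoin C {A, B2}

theorem A_mem (A B2 : Y) : A ∈ Ei C A B2 := subset_adjoin _ _ (by simp)
theorem B_mem (A B2 : Y) : B2 ∈ Ei C A B2 := subset_adjoin _ _ (by simp)

/-- the second coordinate of `Ei` -/
def W (P : Par C) (A B2 : Y) : Y :=
  algebraMap C Y P.n1 * B2 + algebraMap C Y (P.n1 + 2 * P.n3) * A ^ 2

/-- the quartic of `Ei` -/
noncomputable def G (P : Par C) : C[X] :=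
  Polynomial.C (-(4 * P.n2 * P.n3)) *
    (X ^ 4 - Polynomial.C (P.n1 * (P.t * P.d1 * P.d2 * P.d3) ^ 2 / (P.n2 * P.n3)))

theorem four_ne (P : Par C) : (4 : C) ≠ 0 := by
  have : (4 : C) = 2 * 2 := by norm_num
  rw [this]; exact mul_ne_zero P.two P.two

theorem lc_ne (P : Par C) : -(4 * P.n2 * P.n3) ≠ 0 :=
  neg_ne_zero.mpr (mul_ne_zero (mul_ne_zero (four_ne P) P.n2_ne) P.n3_ne)

theorem natDegree_G (P : Par C) : (G P).natDegree = 4 := by
  rw [G, natDegree_C_mul (lc_ne P), natDegree_X_pow_sub_C]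

theorem sep_G (P : Par C) : (G P).Separable := by
  have h1 : (X ^ 4 - Polynomial.C (P.n1 * (P.t * P.d1 * P.d2 * P.d3) ^ 2 / (P.n2 * P.n3)) :
      C[X]).Separable :=
    separable_X_pow_sub_C _ (by exact_mod_cast four_ne P)
      (div_ne_zero (mul_ne_zero P.n1_ne (pow_ne_zero _ (mul_ne_zero (mul_ne_zero
        (mul_ne_zero P.ht P.d1_ne) P.d2_ne) P.d3_ne))) (mul_ne_zero P.n2_ne P.n3_ne))
  exact (Associated.separable ((associated_unit_mul_left _ _
    (isUnit_C.mpr (lc_ne P).isUnit)).symm) h1)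

theorem W_mem (P : Par C) (A B2 : Y) : W P A B2 ∈ Ei C A B2 :=
  add_mem (mul_mem (_root_.algebraMap_mem _ _) (B_mem A B2))
    (mul_mem (_root_.algebraMap_mem _ _) (pow_mem (A_mem A B2) 2))

theorem B_eq (P : Par C) (A B2 : Y) :
    B2 = (W P A B2 - algebraMap C Y (P.n1 + 2 * P.n3) * A ^ 2) / algebraMap C Y P.n1 := by
  have : algebraMap C Y P.n1 ≠ 0 := (_root_.map_ne_zero _).mpr P.n1_ne
  unfold W; field_simp; ring

theorem adjoin_AW (P : Par C) (A B2 : Y) : adjoin C {A, W P A B2} = Ei C A B2 := by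
  apply le_antisymm
  · rw [adjoin_le_iff]
    rintro z (rfl | rfl)
    · exact A_mem _ _
    · exact W_mem _ _ _
  · have hA : A ∈ adjoin C {A, W P A B2} := subset_adjoin _ _ (by simp)
    have hW : W P A B2 ∈ adjoin C {A, W P A B2} := subset_adjoin _ _ (by simp)
    rw [adjoin_le_iff]
    rintro z (rfl | rfl)
    · exact hA
    · have := div_mem (sub_mem hW (mul_mem (_root_.algebraMap_mem _ (P.n1 + 2 * P.n3)) (pow_mem hA 2)))
        (_root_.algebraMap_mem _ P.n1)
      rwa [← B_eq] at this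

theorem W_sq {P : Par C} {A B2 : Y} (h : (P.map (algebraMap C Y)).E1 A B2) :
    W P A B2 ^ 2 = aeval A (G P) := by
  have h2 : algebraMap C Y P.n2 ≠ 0 := (_root_.map_ne_zero _).mpr P.n2_ne
  have h3 : algebraMap C Y P.n3 ≠ 0 := (_root_.map_ne_zero _).mpr P.n3_ne
  have h4 := congrArg (algebraMap C Y) P.n_sum
  unfold Par.E1 at h
  simp only [Par.map_n1, Par.map_n3, Par.map_t, Par.map_d1, Par.map_d2, Par.map_d3] at h
  simp only [map_add, map_zero] at h4
  simp only [W, G, map_mul, map_sub, map_pow, aeval_C, aeval_X, map_neg, map_add, map_ofNat,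
    map_div₀]
  generalize algebraMap C Y P.n1 = n1 at *
  generalize algebraMap C Y P.n2 = n2 at *
  generalize algebraMap C Y P.n3 = n3 at *
  field_simp
  linear_combination n1 * h + 4 * n3 * A ^ 4 * h4

theorem cubic_eq {P : Par C} {A B2 u : Y} (h : (P.map (algebraMap C Y)).E2 A B2 u) :
    u ^ 3 + algebraMap C Y (2 * P.q) * u ^ 2 - (P.map (algebraMap C Y)).X A B2 * u -
      algebraMap C Y (2 * P.pi) = 0 := by
  unfold Par.E2 at h
  simpa [map_ofNat] using h

theorem V_mem (P : Par C) {A B2 : Y} {S : IntermediateField C Y} (hA : A ^ 2 ∈ S) (hB : B2 ∈ S) :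
    (P.map (algebraMap C Y)).V A B2 ∈ S := by
  simp only [Par.V, Par.map_t, Par.map_d3]
  exact div_mem (add_mem hA hB)
    (mul_mem (mul_mem (ofNat_mem _ 2) (_root_.algebraMap_mem _ _)) (_root_.algebraMap_mem _ _))

theorem R_mem (P : Par C) {A B2 : Y} {S : IntermediateField C Y} (hA : A ^ 2 ∈ S) (hB : B2 ∈ S) :
    (P.map (algebraMap C Y)).R A B2 ∈ S := by
  simp only [Par.R, Par.map_t, Par.map_d2]
  exact div_mem (sub_mem hA hB)
    (mul_mem (mul_mem (ofNat_mem _ 2) (_root_.algebraMap_mem _ _)) (_root_.algebraMap_mem _ _))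

theorem X_mem (P : Par C) {A B2 : Y} {S : IntermediateField C Y}
    (hV : (P.map (algebraMap C Y)).V A B2 ∈ S) : (P.map (algebraMap C Y)).X A B2 ∈ S := by
  have c : ∀ a : C, algebraMap C Y a ∈ S := S.algebraMap_mem
  simp only [Par.X, Par.map_p1, Par.map_p2, Par.map_p3, Par.map_m1, Par.map_m2]
  exact add_mem (mul_mem (mul_mem (c _) (c _)) (sub_mem (mul_mem (ofNat_mem _ 4)
    (pow_mem (c _) 2)) (mul_mem (c _) (c _)))) (mul_mem (mul_mem (c _) (c _)) (pow_mem hV 2))

section IsY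

variable {P : Par C} {A B2 u : Y} (h : IsY P A B2 u)
include h

theorem tr_X : Transcendental C ((P.map (algebraMap C Y)).X A B2) :=
  tr_of_cubic h.tr (cubic_eq h.eq2)

theorem tr_A : Transcendental C A := by
  intro ha
  have hA : A ∈ algebraicClosure C Y := mem_algebraicClosure_iff.mpr ha
  have hW : W P A B2 ∈ algebraicClosure C Y := by
    rw [mem_algebraicClosure_iff]
    apply IsAlgebraic.of_pow two_pos
    rw [W_sq h.eq1]
    rw [← mem_algebraicClosure_iff, G]
    simp only [map_mul, map_sub, map_pow, aeval_C, aeval_X]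
    exact mul_mem (_root_.algebraMap_mem _ _) (sub_mem (pow_mem hA 4) (_root_.algebraMap_mem _ _))
  have hB : B2 ∈ algebraicClosure C Y := by
    rw [B_eq P A B2]
    exact div_mem (sub_mem hW (mul_mem (_root_.algebraMap_mem _ _) (pow_mem hA 2))) (_root_.algebraMap_mem _ _)
  exact tr_X h (mem_algebraicClosure_iff.mp (X_mem P (V_mem P (pow_mem hA 2) hB)))

theorem adjoin_u : adjoin (Ei C A B2) {u} = ⊤ := by
  apply restrictScalars_injective C
  rw [restrictScalars_top, eq_top_iff, ← h.gen, adjoin_le_iff]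
  rintro z (rfl | rfl | rfl)
  · exact (adjoin (Ei C z B2) {u}).algebraMap_mem ⟨z, A_mem _ _⟩
  · exact (adjoin (Ei C A z) {u}).algebraMap_mem ⟨z, B_mem _ _⟩
  · exact mem_adjoin_simple_self (Ei C A B2) z

theorem finrank_le : 0 < finrank (Ei C A B2) Y ∧ finrank (Ei C A B2) Y ≤ 3 := by
  have hX : (P.map (algebraMap C Y)).X A B2 ∈ Ei C A B2 :=
    X_mem P (V_mem P (pow_mem (A_mem _ _) 2) (B_mem _ _))
  have hm := cub_monic (Ei C A B2) (2 * P.q) (2 * P.pi) ⟨_, hX⟩
  have h0 : aeval u (cub (Ei C A B2) (2 * P.q) (2 * P.pi) ⟨_, hX⟩) = 0 := by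
    rw [aeval_cub]; exact cubic_eq h.eq2
  have hi : IsIntegral (Ei C A B2) u := ⟨_, hm, h0⟩
  rw [← finrank_top', ← adjoin_u h, adjoin.finrank hi]
  refine ⟨minpoly.natDegree_pos hi, ?_⟩
  have h4 := natDegree_le_natDegree (minpoly.min _ u hm h0)
  rwa [cub_natDegree] at h4

theorem finite_Ei : FiniteDimensional (Ei C A B2) Y := Module.finite_of_finrank_pos (finrank_le h).1

/-- `[Y : C(A, B2)] = 3` -/
theorem finrank_Ei : finrank (Ei C A B2) Y = 3 := by
  obtain ⟨Q, hQ⟩ : ∃ Q, Q = P.map (algebraMap C Y) := ⟨_, rfl⟩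
  have h3 := three_dvd (tr_X h) (mul_ne_zero P.two P.pi_ne) (cubic_eq h.eq2)
  have hV : Q.V A B2 ∈ Ei C A B2 := hQ ▸ V_mem P (pow_mem (A_mem _ _) 2) (B_mem _ _)
  have hR : Q.R A B2 ∈ Ei C A B2 := hQ ▸ R_mem P (pow_mem (A_mem _ _) 2) (B_mem _ _)
  rw [← hQ] at h3
  have m1 : Q.V A B2 ∈ adjoin C {Q.V A B2} := mem_adjoin_simple_self C _
  have m2 : Q.V A B2 ∈ adjoin C {Q.V A B2, Q.R A B2} := subset_adjoin _ _ (by simp)
  have m3 : Q.R A B2 ∈ adjoin C {Q.V A B2, Q.R A B2} := subset_adjoin _ _ (by simp)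
  have l1 : adjoin C {Q.X A B2} ≤ adjoin C {Q.V A B2} := by
    rw [adjoin_simple_le_iff, hQ]; exact X_mem P (hQ ▸ m1)
  have l2 : adjoin C {Q.V A B2} ≤ adjoin C {Q.V A B2, Q.R A B2} := by
    rw [adjoin_simple_le_iff]; exact m2
  have l3 : adjoin C {Q.V A B2, Q.R A B2} ≤ Ei C A B2 := by
    rw [adjoin_le_iff]
    rintro z (rfl | rfl)
    · exact hV
    · exact hR
  have cc : ∀ (S : IntermediateField C Y), Q.p1 ∈ S ∧ Q.p2 ∈ S ∧ Q.p3 ∈ S ∧ Q.t ∈ S ∧ Q.d1 ∈ S ∧
      Q.d2 ∈ S ∧ Q.d3 ∈ S ∧ Q.m1 ∈ S ∧ Q.m2 ∈ S ∧ Q.m3 ∈ S := fun S => by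
    subst hQ
    simp only [Par.map_p1, Par.map_p2, Par.map_p3, Par.map_t, Par.map_d1, Par.map_d2, Par.map_d3,
      Par.map_m1, Par.map_m2, Par.map_m3]
    simp only [S.algebraMap_mem, and_self]
  have q1 : relfinrank (adjoin C {Q.X A B2}) (adjoin C {Q.V A B2}) ∣ 2 := by
    refine rel_quad l1 m1 ?_ (adjoin.mono _ _ _ (by simp))
    obtain ⟨c1, c2, c3, -, -, -, -, c4, c5, -⟩ := cc (adjoin C {Q.X A B2})
    have e : Q.V A B2 ^ 2 = (Q.X A B2 - Q.p1 * Q.p2 * (4 * Q.p3 ^ 2 - Q.p1 * Q.p2)) /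
        (Q.m1 * Q.m2) := by
      have := Q.m1_ne; have := Q.m2_ne
      unfold Par.X; field_simp; ring
    rw [e]
    exact div_mem (sub_mem (mem_adjoin_simple_self C _) (mul_mem (mul_mem c1 c2)
      (sub_mem (mul_mem (ofNat_mem _ 4) (pow_mem c3 2)) (mul_mem c1 c2)))) (mul_mem c4 c5)
  have q2 : relfinrank (adjoin C {Q.V A B2}) (adjoin C {Q.V A B2, Q.R A B2}) ∣ 2 := by
    refine rel_quad l2 m3 ?_ (adjoin.mono _ _ _ ?_)
    · obtain ⟨-, -, -, -, c1, -, -, -, c2, c3⟩ := cc (adjoin C {Q.V A B2})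
      have e : Q.R A B2 ^ 2 = -(Q.m2 * Q.V A B2 ^ 2 + Q.d1 ^ 2) / Q.m3 := by
        have h1 := (Q.E1_iff A B2).mp (hQ ▸ h.eq1)
        have := Q.m3_ne
        field_simp; linear_combination h1
      rw [e]
      exact div_mem (neg_mem (add_mem (mul_mem c2 (pow_mem m1 2)) (pow_mem c1 2))) c3
    · rintro z (rfl | rfl)
      · exact Or.inr m1
      · exact Or.inl rfl
  have q3 : relfinrank (adjoin C {Q.V A B2, Q.R A B2}) (Ei C A B2) ∣ 2 := by
    obtain ⟨-, -, -, c1, -, c2, c3, -⟩ := cc (adjoin C {Q.V A B2, Q.R A B2})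
    refine rel_quad l3 (A_mem _ _) ?_ (adjoin.mono _ _ _ ?_)
    · rw [Q.A_sq A B2]
      exact mul_mem c1 (add_mem (mul_mem c3 m2) (mul_mem c2 m3))
    · rintro z (rfl | rfl)
      · exact Or.inl rfl
      · refine Or.inr ?_
        have := mul_mem c1 (sub_mem (mul_mem c3 m2) (mul_mem c2 m3))
        rwa [← Q.B_sq A z] at this
  rw [← relfinrank_mul_finrank_top (l1.trans (l2.trans l3)),
    ← relfinrank_mul_relfinrank l1 (l2.trans l3), ← relfinrank_mul_relfinrank l2 l3] at h3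
  have h8 := mul_dvd_mul q1 (mul_dvd_mul q2 q3)
  have h9 : Nat.Coprime 3 _ := Nat.Coprime.coprime_dvd_right h8 (by norm_num)
  have h10 := h9.dvd_of_dvd_mul_left h3
  have := finrank_le h
  omega

end IsY

end Crest.Agent.T15.KfJ
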