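import Mathlib
import Crest.Agent.T15.MoB_29
import Crest.Agent.T15.KfA_83

/-!
# Row 15, block F (helper29): the normal form in 83's words (`Kf.Par`, `Kf.IsY`)
-/

set_option autoImplicit false
set_option linter.all false

namespace Crest.Agent.T15.Mo

open Polynomial
open Crest.Agent.T15.Hy Crest.Agent.R013.Frob1_914

variable {C Y : Type*} [Field C] [Field Y] [Algebra C Y]

/-- `al`, `be` are square roots of `-p₂³ d₂`, `p₃³ d₃` -/
structure Rt (P : Kf.Par C) (al be : C) : Prop where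
  hal : al ^ 2 = -P.p2 ^ 3 * P.d2
  hbe : be ^ 2 = P.p3 ^ 3 * P.d3

theorem exists_rt [IsAlgClosed C] (P : Kf.Par C) : ∃ al be, Rt P al be := by
  obtain ⟨al, hal⟩ := IsAlgClosed.exists_pow_nat_eq (-P.p2 ^ 3 * P.d2) two_pos
  obtain ⟨be, hbe⟩ := IsAlgClosed.exists_pow_nat_eq (P.p3 ^ 3 * P.d3) two_pos
  exact ⟨al, be, hal, hbe⟩

/-- the parameters of the normal form -/
def Rt.par {P : Kf.Par C} {al be : C} (h : Rt P al be) : Par C where
  p1 := P.p1
  p2 := P.p2
  p3 := P.p3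
  t := P.t
  al := al
  be := be
  sum := P.sum
  h1 := P.h1
  h2 := P.h2
  h3 := P.h3
  k1 := P.e1
  k2 := P.e2
  k3 := P.e3
  ht := P.ht
  hal := h.hal
  hbe := h.hbe

namespace Rt

variable {P : Kf.Par C} {al be : C} (h : Rt P al be)

@[simp] theorem par_p1 : h.par.p1 = P.p1 := rfl
@[simp] theorem par_p2 : h.par.p2 = P.p2 := rfl
@[simp] theorem par_p3 : h.par.p3 = P.p3 := rfl
@[simp] theorem par_t : h.par.t = P.t := rfl
@[simp] theorem par_al : h.par.al = al := rfl
@[simp] theorem par_be : h.par.be = be := rfl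
@[simp] theorem par_d1 : h.par.d1 = P.d1 := rfl
@[simp] theorem par_d2 : h.par.d2 = P.d2 := rfl
@[simp] theorem par_d3 : h.par.d3 = P.d3 := rfl

theorem isY {A B2 u : Y} (hY : Kf.IsY P A B2 u) : IsY h.par A B2 u where
  two := P.two
  k0 := hY.eq1
  cub := hY.eq2
  tr := hY.tr
  gen := hY.gen

/-- **the normal form** of `Kf.IsY` -/
theorem hyp {A B2 u : Y} (hY : Kf.IsY P A B2 u) :
    Hyp h.par.F (h.par.zY A B2 u) (h.par.wY A B2 u) := (h.isY hY).hyp

end Rt

end Crest.Agent.T15.Mo
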