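import Crest.Agent.T15.AxC_14

/-!
# Row 15, analytic Jacobian of `w² = F(x)`, any genus (helper14), part D

Integrals from a branch point, the range of the exponential map, the period lattice.
-/

set_option autoImplicit false
set_option linter.unusedSectionVars false
set_option linter.unusedVariables false

open Polynomial Filter Topology Metric

noncomputable section

namespace Crest.Agent.T15.Ax

variable {F : ℂ[X]} {g : ℕ} {A : Type*} [AddCommGroup A] {cl : ℂ × ℂ → A} {δ : A}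
  {ex : (Fin g → ℂ) →+ A}

lemma IsExp.sub_const (he : IsExp F g cl ex) (a : A) : IsExp F g (fun P => cl P - a) ex := fun c =>
  (he c).mono fun τ h => by simp only [h]; abel

/-- local inverse of the Abel map at a divisor of `g` points with distinct `x` -/
theorem IsExp.locinv (he : IsExp F g cl ex) (c : Fin g → Ch F g)
    (hx : Function.Injective fun j => (c j).x 0) :
    ∃ x w : Fin g → (Fin g → ℂ) → ℂ, (∀ j, AnalyticAt ℂ (x j) 0) ∧ (∀ j, AnalyticAt ℂ (w j) 0) ∧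
      (∀ j, x j 0 = (c j).x 0) ∧ (∀ j, w j 0 = (c j).w 0) ∧
      (∀ j, ∀ᶠ z in 𝓝 (0 : Fin g → ℂ), w j z ^ 2 = F.eval (x j z)) ∧
      ∀ᶠ z in 𝓝 (0 : Fin g → ℂ), ∑ j, cl (x j z, w j z) = ∑ j, cl (x j 0, w j 0) + ex z := by
  obtain ⟨ψ, h1, h2, h3, -⟩ := vinv c hx
  have ht : Tendsto ψ (𝓝 0) (𝓝 0) := by simpa [h2] using h1.continuousAt.tendsto
  have ha : ∀ j, AnalyticAt ℂ (fun z => ψ z j) 0 := fun j => analyticAt_pi_iff.1 h1 j
  refine ⟨fun j z => (c j).x (ψ z j), fun j z => (c j).w (ψ z j), fun j => ?_, fun j => ?_,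
    fun j => by simp [h2], fun j => by simp [h2], fun j => ?_, ?_⟩
  · exact AnalyticAt.comp_of_eq (c j).anx (ha j) (by simp [h2])
  · exact AnalyticAt.comp_of_eq (c j).anw (ha j) (by simp [h2])
  · exact ((tendsto_pi_nhds.1 ht j).eventually (c j).ev).mono fun z h => h.1
  · filter_upwards [h3, ht.eventually (he.sum c)] with z k1 k2
    rw [k1] at k2
    simpa [h2, Ch.pt] using k2

/-- the integral along the segment from a branch point `e` to `x₀` -/
theorem IsExp.seg (hF : Squarefree F) (he : IsExp F g cl ex) {e x₀ w₀ : ℂ} {G : ℂ[X]}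
    (hG : F = (X - C e) * G) (hw : w₀ ^ 2 = F.eval x₀) (hx : x₀ ≠ e)
    (hs : ∀ s ∈ Set.Icc (0 : ℝ) 1, G.eval (e + (x₀ - e) * s) ≠ 0) :
    ∃ v : Fin g → ℂ, cl (x₀, w₀) = cl (e, 0) + ex v ∧ ∀ R μ : ℝ, 1 ≤ R → 0 < μ →
      (∀ s ∈ Set.Icc (0 : ℝ) 1, ‖e + (x₀ - e) * s‖ ≤ R ∧ μ ≤ ‖G.eval (e + (x₀ - e) * s)‖) →
      μ * ‖v‖ ^ 2 ≤ 16 * R ^ (2 * g) * ‖x₀ - e‖ := by
  set d := x₀ - e with hd
  have hd0 : d ≠ 0 := sub_ne_zero.2 hx
  set sn : ℝ → ℂ := fun θ => (Real.sin θ : ℂ) with hsn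
  set cs : ℝ → ℂ := fun θ => (Real.cos θ : ℂ) with hcs
  have dsn : ∀ θ, HasDerivAt sn (cs θ) θ := fun θ => (Real.hasDerivAt_sin θ).ofReal_comp
  have csn : Continuous sn := by rw [hsn]; fun_prop
  have ccs : Continuous cs := by rw [hcs]; fun_prop
  set x : ℝ → ℂ := fun θ => e + d * sn θ ^ 2 with hxd
  have cx : Continuous x := by rw [hxd]; fun_prop
  have hxm : ∀ θ, ∃ s ∈ Set.Icc (0 : ℝ) 1, x θ = e + d * s := fun θ =>
    ⟨Real.sin θ ^ 2, ⟨sq_nonneg _, Real.sin_sq_le_one θ⟩, by simp [hxd, hsn]⟩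
  have hG0 : ∀ θ, G.eval (x θ) ≠ 0 := fun θ => by
    obtain ⟨s, h1, h2⟩ := hxm θ
    rw [h2]; exact hs s h1
  have dx : ∀ θ, HasDerivAt x (d * (2 * sn θ * cs θ)) θ := fun θ => by
    exact ((((dsn θ).pow 2).const_mul d).const_add e).congr_deriv (by simp)
  have dG : ∀ θ, HasDerivAt (fun t => G.eval (x t))
      (G.derivative.eval (x θ) * (d * (2 * sn θ * cs θ))) θ := fun θ =>
    (G.hasDerivAt (x θ)).comp θ (dx θ)
  have cG : ∀ p : ℂ[X], Continuous fun t => p.eval (x t) := fun p => p.continuous.comp cx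
  set φ : ℝ → ℂ := fun θ => G.derivative.eval (x θ) * (d * (sn θ * cs θ)) / G.eval (x θ) with hφ
  have cφ : Continuous φ := ((cG _).mul (by fun_prop)).div (cG _) hG0
  set ρ : ℝ → ℂ := fun θ => w₀ * Complex.exp (∫ t in (Real.pi / 2)..θ, φ t) with hρ
  have dρ : ∀ θ, HasDerivAt ρ (ρ θ * φ θ) θ := fun θ => by
    have := ((cφ.integral_hasStrictDerivAt (Real.pi / 2) θ).hasDerivAt.cexp).const_mul w₀
    simpa only [hρ, mul_assoc] using this
  have cρ : Continuous ρ := continuous_iff_continuousAt.2 fun θ => (dρ θ).continuousAt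
  have xp : x (Real.pi / 2) = x₀ := by simp [hxd, hsn, hd]
  have ρp : ρ (Real.pi / 2) = w₀ := by simp [hρ]
  have hρ2 : ∀ θ, ρ θ ^ 2 = d * G.eval (x θ) := fun θ => by
    have h1 : ∀ t, HasDerivAt (fun t => ρ t ^ 2 / G.eval (x t)) 0 t := fun t => by
      refine (((dρ t).pow 2).div (dG t) (hG0 t)).congr_deriv ?_
      have := hG0 t
      simp only [hφ, Pi.pow_apply]
      field_simp
      ring
    have h2 := is_const_of_deriv_eq_zero (fun t => (h1 t).differentiableAt) (fun t => (h1 t).deriv) θ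
      (Real.pi / 2)
    have h3 := hG0 (Real.pi / 2)
    rw [ρp, xp, hw, hG] at h2
    rw [xp] at h3
    simp only [eval_mul, eval_sub, eval_X, eval_C] at h2
    rw [mul_div_cancel_right₀ _ h3, div_eq_iff (hG0 θ)] at h2
    exact h2
  have hρ0 : ∀ θ, ρ θ ≠ 0 := fun θ h => by
    have := hρ2 θ
    rw [h] at this
    exact mul_ne_zero hd0 (hG0 θ) (by simpa using this.symm)
  set m : ℝ → ℂ := fun θ => 2 * d * cs θ / ρ θ with hm
  have cm : Continuous m := (by fun_prop : Continuous fun θ => 2 * d * cs θ).div cρ hρ0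
  set z : ℝ → Fin g → ℂ := fun θ k => ∫ t in (0 : ℝ)..θ, x t ^ (k : ℕ) * m t with hz
  have hp : ∀ θ, PathAt F x (fun t => sn t * ρ t) m z θ := fun θ => by
    have h1 := hρ2 θ
    have h2 := hρ0 θ
    have h3 := hG0 θ
    refine ⟨?_, (dx θ).congr_deriv ?_, ((dsn θ).mul (dρ θ)).congr_deriv ?_, fun k => ?_⟩
    · rw [mul_pow, h1, hG]
      simp only [eval_mul, eval_sub, eval_X, eval_C, hxd]
      ring
    · simp only [hm]; field_simp
    · rw [hG]
      simp only [derivative_mul, derivative_sub, derivative_X, derivative_C, eval_add, eval_mul, eval_sub,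
        eval_X, eval_C, eval_one, sub_zero, hm, hφ]
      have h4 : x θ - e = d * sn θ ^ 2 := by simp [hxd]
      rw [h4]
      field_simp
      linear_combination (cs θ * G.eval (x θ) + sn θ ^ 2 * G.derivative.eval (x θ) * d * cs θ) * h1
    · exact (((cx.pow _).mul cm).integral_hasStrictDerivAt 0 θ).hasDerivAt
  have key := he.path hF (S := Set.univ) isPreconnected_univ
    (fun s _ => Eventually.of_forall hp) (Set.mem_univ (Real.pi / 2)) (Set.mem_univ 0)
  have z0 : z 0 = 0 := by ext k; simp [hz]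
  have x0 : x 0 = e := by simp [hxd, hsn]
  refine ⟨z (Real.pi / 2), by simpa [xp, ρp, z0, hsn, x0] using key, fun R μ hR hμ hb => ?_⟩
  set b := √(‖d‖ / μ) with hbd
  have hdn : 0 < ‖d‖ := norm_pos_iff.2 hd0
  have hb2 : b ^ 2 = ‖d‖ / μ := Real.sq_sqrt (by positivity)
  have hb0 : 0 ≤ b := Real.sqrt_nonneg _
  have hmb : ∀ θ, ‖m θ‖ ≤ 2 * b := fun θ => by
    obtain ⟨s, h1, h2⟩ := hxm θ
    have h3 : μ ≤ ‖G.eval (x θ)‖ := by rw [h2]; exact (hb s h1).2
    have h4 : ‖ρ θ‖ ^ 2 = ‖d‖ * ‖G.eval (x θ)‖ := by rw [← norm_pow, hρ2, norm_mul]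
    have h5 : 0 < ‖ρ θ‖ := norm_pos_iff.2 (hρ0 θ)
    have h6 : ‖cs θ‖ ≤ 1 := by
      simpa only [hcs, Complex.norm_real, Real.norm_eq_abs] using Real.abs_cos_le_one θ
    have h7 : ‖d‖ / ‖ρ θ‖ ≤ b := by
      refine Real.le_sqrt_of_sq_le ?_
      rw [div_pow, h4, div_le_div_iff₀ (by positivity [hμ.trans_le h3]) hμ]
      nlinarith [mul_le_mul_of_nonneg_left h3 (sq_nonneg ‖d‖)]
    calc ‖m θ‖ = 2 * (‖d‖ / ‖ρ θ‖) * ‖cs θ‖ := by simp only [hm, norm_div, norm_mul]; simp; ring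
      _ ≤ 2 * b * 1 := by gcongr
      _ = 2 * b := mul_one _
  have hv : ‖z (Real.pi / 2)‖ ≤ 4 * R ^ g * b := by
    refine (pi_norm_le_iff_of_nonneg (by positivity)).2 fun k => ?_
    have h1 := intervalIntegral.norm_integral_le_of_norm_le_const (a := 0) (b := Real.pi / 2)
      (f := fun t => x t ^ (k : ℕ) * m t) (C := R ^ g * (2 * b)) fun t _ => by
        obtain ⟨s, h1, h2⟩ := hxm t
        have h3 : ‖x t‖ ≤ R := by rw [h2]; exact (hb s h1).1
        rw [norm_mul, norm_pow]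
        exact mul_le_mul ((pow_le_pow_left₀ (norm_nonneg _) h3 _).trans
          (pow_le_pow_right₀ hR k.2.le)) (hmb t) (norm_nonneg _) (by positivity)
    refine h1.trans ?_
    rw [sub_zero, abs_of_pos (by positivity [Real.pi_pos])]
    have := Real.pi_le_four
    have h2 : 0 ≤ R ^ g * b := by positivity
    nlinarith
  calc μ * ‖z (Real.pi / 2)‖ ^ 2 ≤ μ * (4 * R ^ g * b) ^ 2 := by gcongr
    _ = 16 * R ^ (2 * g) * ‖d‖ := by rw [mul_pow, hb2]; field_simp; ring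

section Roots

variable {ι : Type*} [Fintype ι] [DecidableEq ι]

/-- the polynomial with leading coefficient `c` and roots `r i` -/
def pr (c : ℂ) (r : ι → ℂ) : ℂ[X] := C c * ∏ i, (X - C (r i))

lemma pr_eq (c : ℂ) (r : ι → ℂ) (i : ι) :
    pr c r = (X - C (r i)) * (C c * ∏ j ∈ Finset.univ.erase i, (X - C (r j))) := by
  rw [pr, ← Finset.mul_prod_erase _ _ (Finset.mem_univ i)]; ring

lemma pr_root (c : ℂ) (r : ι → ℂ) (i : ι) : (pr c r).eval (r i) = 0 := by rw [pr_eq c r i]; simp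

lemma pr_deg {c : ℂ} (hc : c ≠ 0) (r : ι → ℂ) : (pr c r).natDegree = Fintype.card ι := by
  rw [pr, natDegree_C_mul hc, natDegree_prod_of_monic _ _ fun i _ => monic_X_sub_C _]; simp

lemma exists_pr (hF : Squarefree F) : ∃ (c : ℂ) (r : Fin F.natDegree → ℂ), c ≠ 0 ∧
    Function.Injective r ∧ F = pr c r := by
  classical
  have h0 := hF.ne_zero
  have hs := IsAlgClosed.splits F
  have hn : F.roots.Nodup := nodup_roots (PerfectField.separable_iff_squarefree.2 hF)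
  have hc : F.roots.toFinset.card = F.natDegree := by
    rw [Multiset.toFinset_card_of_nodup hn, hs.natDegree_eq_card_roots]
  let e := (Finset.equivFinOfCardEq hc).symm
  refine ⟨F.leadingCoeff, fun i => e i, leadingCoeff_ne_zero.2 h0,
    fun i j h => e.injective (Subtype.ext h), ?_⟩
  rw [pr, Equiv.prod_comp e fun y => X - C (y : ℂ), Finset.prod_coe_sort _ fun y : ℂ => X - C y]
  conv_lhs => rw [hs.eq_prod_roots]
  rw [Finset.prod_eq_multiset_prod, Multiset.toFinset_val, hn.dedup]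

/-- quantitative general position: a base point `x₀` that sees every root -/
def Sep (r : ι → ℂ) (B : ℝ) : Prop :=
  1 ≤ B ∧ ∃ x₀ : ℂ, ‖x₀‖ ≤ B ∧ ∀ i, x₀ ≠ r i ∧ ‖r i‖ ≤ B ∧
    ∀ j, j ≠ i → ∀ s ∈ Set.Icc (0 : ℝ) 1, B⁻¹ ≤ ‖r i + (x₀ - r i) * s - r j‖

lemma Sep.mono {r : ι → ℂ} {B B' : ℝ} (h : Sep r B) (hB : B ≤ B') : Sep r B' := by
  obtain ⟨h1, x₀, h2, h3⟩ := h
  exact ⟨h1.trans hB, x₀, h2.trans hB, fun i => ⟨(h3 i).1, (h3 i).2.1.trans hB, fun j hj s hs =>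
    (inv_anti₀ (by linarith) hB).trans ((h3 i).2.2 j hj s hs)⟩⟩

lemma exists_gen {r : ι → ℂ} (hr : Function.Injective r) : ∃ x₀ : ℂ, (∀ i, x₀ ≠ r i) ∧
    ∀ i j, j ≠ i → ((x₀ - r i) * starRingEnd ℂ (r j - r i)).im ≠ 0 := by
  set p : ι × ι → ℝ[X] := fun q => C (r q.2 - r q.1).re * X ^ 2 - C (r q.2 - r q.1).im * X -
    C (r q.1 * starRingEnd ℂ (r q.2 - r q.1)).im with hp
  have hp0 : ∀ q : ι × ι, q.2 ≠ q.1 → p q ≠ 0 := fun q hq h => by
    have h2 := congrArg (coeff · 2) h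
    have h1 := congrArg (coeff · 1) h
    simp only [hp, coeff_sub, coeff_C_mul, coeff_X_pow, coeff_X, coeff_C, coeff_zero] at h1 h2
    exact hq (hr (sub_eq_zero.1 (Complex.ext (by simpa using h2) (by simpa [sub_eq_zero, eq_comm] using h1))))
  have hfin : ((⋃ q : ι × ι, {t | q.2 ≠ q.1 ∧ (p q).IsRoot t}) ∪ Set.range fun i => (r i).re).Finite := by
    refine (Set.finite_iUnion fun q => ?_).union (Set.finite_range _)
    by_cases hq : q.2 = q.1
    · simp [hq]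
    · exact (finite_setOfPred_isRoot (hp0 q hq)).subset fun t ht => ht.2
  obtain ⟨t, ht⟩ := hfin.exists_notMem
  simp only [Set.mem_union, Set.mem_iUnion, Set.mem_range, not_or, not_exists] at ht
  refine ⟨⟨t, t ^ 2⟩, fun i h => ht.2 i (by rw [← h]), fun i j hj h => ht.1 (i, j) ⟨hj, ?_⟩⟩
  simp only [hp, IsRoot, eval_sub, eval_mul, eval_C, eval_pow, eval_X]
  simp at h ⊢
  linear_combination h

lemma exists_sep {r₀ : ι → ℂ} (hr : Function.Injective r₀) : ∃ B, ∀ᶠ r in 𝓝 r₀, Sep r B := by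
  obtain ⟨x₀, h1, h2⟩ := exists_gen hr
  set D : (ι → ℂ) → ι → ι → ℝ := fun r i j => |((x₀ - r i) * starRingEnd ℂ (r j - r i)).im| / ‖x₀ - r i‖
    with hD
  have hB : ∀ᶠ B : ℝ in atTop, 1 ≤ B ∧ ‖x₀‖ ≤ B ∧ (∀ i, ‖r₀ i‖ < B) ∧ ∀ i j, j ≠ i → B⁻¹ < D r₀ i j := by
    refine (eventually_ge_atTop _).and ((eventually_ge_atTop _).and
      ((eventually_all.2 fun i => eventually_gt_atTop _).and
        (eventually_all.2 fun i => eventually_all.2 fun j => ?_)))
    by_cases hj : j = i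
    · simp [hj]
    · have : 0 < D r₀ i j := div_pos (abs_pos.2 (h2 i j hj)) (norm_pos_iff.2 (sub_ne_zero.2 (h1 i)))
      exact (tendsto_inv_atTop_zero.eventually_lt_const this).mono fun B h _ => h
  obtain ⟨B, b1, b2, b3, b4⟩ := hB.exists
  have e1 : ∀ᶠ r in 𝓝 r₀, ∀ i, x₀ ≠ r i := eventually_all.2 fun i =>
    ((continuous_apply i).continuousAt.eventually_ne (h1 i).symm).mono fun r h => h.symm
  have e2 : ∀ᶠ r in 𝓝 r₀, ∀ i, ‖r i‖ < B := eventually_all.2 fun i =>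
    (continuous_apply i).norm.continuousAt.eventually_lt_const (b3 i)
  have e3 : ∀ᶠ r in 𝓝 r₀, ∀ i j, j ≠ i → B⁻¹ < D r i j :=
    eventually_all.2 fun i => eventually_all.2 fun j => by
      by_cases hj : j = i
      · simp [hj]
      · have : ContinuousAt (fun r => D r i j) r₀ := by
          refine ContinuousAt.div (Continuous.continuousAt ?_)
            (continuous_const.sub (continuous_apply i)).norm.continuousAt
            (norm_ne_zero_iff.2 (sub_ne_zero.2 (h1 i)))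
          exact (Complex.continuous_im.comp ((continuous_const.sub (continuous_apply i)).mul
            (Complex.continuous_conj.comp ((continuous_apply j).sub (continuous_apply i))))).abs
        exact (this.eventually_const_lt (b4 i j hj)).mono fun r h _ => h
  refine ⟨B, ?_⟩
  filter_upwards [e1, e2, e3] with r k1 k2 k3
  refine ⟨b1, x₀, b2, fun i => ⟨k1 i, (k2 i).le, fun j hj s _ => (k3 i j hj).le.trans ?_⟩⟩
  rw [hD, div_le_iff₀ (norm_pos_iff.2 (sub_ne_zero.2 (k1 i)))]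
  have : ((x₀ - r i) * starRingEnd ℂ (r j - r i)).im =
      -((x₀ - r i) * starRingEnd ℂ (r i + (x₀ - r i) * s - r j)).im := by simp; ring
  rw [this, abs_neg, mul_comm ‖_‖]
  exact (Complex.abs_im_le_norm _).trans (by rw [norm_mul, Complex.norm_conj])

lemma exists_sep_cpt {K : Set (ι → ℂ)} (hK : IsCompact K) (hr : ∀ r ∈ K, Function.Injective r) :
    ∃ B, ∀ r ∈ K, Sep r B := by
  refine hK.induction_on (p := fun S => ∃ B, ∀ r ∈ S, Sep r B) ⟨0, by simp⟩
    (fun s t hst ⟨B, h⟩ => ⟨B, fun r hr => h r (hst hr)⟩) ?_ fun r₀ h₀ => ?_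
  · rintro s t ⟨B, h⟩ ⟨B', h'⟩
    exact ⟨max B B', fun r hr => hr.elim (fun k => (h r k).mono (le_max_left _ _))
      fun k => (h' r k).mono (le_max_right _ _)⟩
  · obtain ⟨B, h⟩ := exists_sep (hr r₀ h₀)
    exact ⟨_, mem_nhdsWithin_of_mem_nhds h, B, fun r hr => hr⟩

/-- bounded and separated roots are uniformly in general position -/
lemma exists_sep_of (ι : Type*) [Fintype ι] [DecidableEq ι] (R : ℝ) {ε : ℝ} (hε : 0 < ε) :
    ∃ B, ∀ r : ι → ℂ, (∀ i, ‖r i‖ ≤ R) → (∀ i j, i ≠ j → ε ≤ ‖r i - r j‖) → Sep r B := by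
  have hc : IsClosed {r : ι → ℂ | ∀ i j, i ≠ j → ε ≤ ‖r i - r j‖} := by
    simp only [Set.ofPred_forall]
    exact isClosed_iInter fun i => isClosed_iInter fun j => isClosed_iInter fun _ =>
      isClosed_le continuous_const (by fun_prop)
  obtain ⟨B, h⟩ := exists_sep_cpt ((isCompact_closedBall (0 : ι → ℂ) |R|).inter_right hc)
    fun r hr i j hij => by_contra fun hne => by
      have := hr.2 i j hne
      rw [hij, sub_self, norm_zero] at this
      linarith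
  exact ⟨B, fun r h1 h2 => h r ⟨mem_closedBall_zero_iff.2 ((pi_norm_le_iff_of_nonneg (abs_nonneg _)).2
    fun i => (h1 i).trans (le_abs_self _)), h2⟩⟩

/-- half periods from a common base point, with a bound -/
theorem IsExp.half {c : ℂ} {r : ι → ℂ} {B : ℝ} (hF : Squarefree (pr c r)) (he : IsExp (pr c r) g cl ex)
    (hs : Sep r B) : ∃ (P : ℂ × ℂ) (v : ι → Fin g → ℂ), P.2 ^ 2 = (pr c r).eval P.1 ∧ ∀ i,
      cl P = cl (r i, 0) + ex (v i) ∧ ‖c‖ * ‖v i‖ ^ 2 ≤ 32 * B ^ (2 * g + Fintype.card ι + 1) := by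
  obtain ⟨h1, x₀, h2, h3⟩ := hs
  have hc : c ≠ 0 := fun h => hF.ne_zero (by simp [pr, h])
  obtain ⟨w₀, hw⟩ := exists_sq ((pr c r).eval x₀)
  have hB : 0 < B := by linarith
  have hlow : ∀ i, ∀ s ∈ Set.Icc (0 : ℝ) 1, ‖c‖ * B⁻¹ ^ Fintype.card ι ≤
      ‖(C c * ∏ j ∈ Finset.univ.erase i, (X - C (r j))).eval (r i + (x₀ - r i) * s)‖ := fun i s hs => by
    simp only [eval_mul, eval_C, eval_prod, eval_sub, eval_X, norm_mul, norm_prod]
    refine mul_le_mul_of_nonneg_left ?_ (norm_nonneg _)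
    calc B⁻¹ ^ Fintype.card ι ≤ B⁻¹ ^ (Finset.univ.erase i).card :=
          pow_le_pow_of_le_one (by positivity) (inv_le_one_of_one_le₀ h1) (Finset.card_le_univ _)
      _ = ∏ j ∈ Finset.univ.erase i, B⁻¹ := by simp
      _ ≤ _ := Finset.prod_le_prod (fun _ _ => by positivity) fun j hj =>
          (h3 i).2.2 j (Finset.ne_of_mem_erase hj) s hs
  have hμ : 0 < ‖c‖ * B⁻¹ ^ Fintype.card ι := by positivity [norm_pos_iff.2 hc]
  choose v k1 k2 using fun i => he.seg hF (pr_eq c r i) hw (h3 i).1 fun s hs =>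
    norm_pos_iff.1 (hμ.trans_le (hlow i s hs))
  refine ⟨(x₀, w₀), v, hw, fun i => ⟨k1 i, ?_⟩⟩
  have k3 := k2 i B _ h1 hμ fun s hs => ⟨by
    have : r i + (x₀ - r i) * s = ((1 - s : ℝ) : ℂ) * r i + (s : ℂ) * x₀ := by push_cast; ring
    rw [this]
    refine (norm_add_le _ _).trans ?_
    rw [norm_mul, norm_mul, Complex.norm_real, Complex.norm_real, Real.norm_of_nonneg hs.1,
      Real.norm_of_nonneg (sub_nonneg.2 hs.2)]
    nlinarith [hs.1, hs.2, (h3 i).2.1], hlow i s hs⟩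
  have k4 : ‖x₀ - r i‖ ≤ 2 * B := (norm_sub_le _ _).trans (by linarith [(h3 i).2.1])
  calc ‖c‖ * ‖v i‖ ^ 2 = (‖c‖ * B⁻¹ ^ Fintype.card ι * ‖v i‖ ^ 2) * B ^ Fintype.card ι := by
        rw [inv_pow]; field_simp
    _ ≤ 16 * B ^ (2 * g) * (2 * B) * B ^ Fintype.card ι := by
        refine mul_le_mul_of_nonneg_right (k3.trans ?_) (by positivity)
        gcongr
    _ = _ := by ring

lemma Sep.inj {r : ι → ℂ} {B : ℝ} (h : Sep r B) : Function.Injective r := fun i j hij =>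
  by_contra fun hne => by
    obtain ⟨h1, x₀, -, h3⟩ := h
    have := (h3 j).2.2 i hne 0 (by simp)
    rw [hij] at this
    have h4 : 0 < B⁻¹ := by positivity
    simp at this
    linarith

end Roots

/-- the period lattice -/
def lam (ex : (Fin g → ℂ) →+ A) : Submodule ℤ (Fin g → ℂ) := LinearMap.ker ex.toIntLinearMap

@[simp] lemma mem_lam {z : Fin g → ℂ} : z ∈ lam ex ↔ ex z = 0 := Iff.rfl

theorem Dat.discrete (h : Dat F g cl δ) (he : IsExp F g cl ex) : DiscreteTopology (lam ex) := by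
  refine discreteTopology_of_isOpen_singleton_zero (isOpen_iff_mem_nhds.2 ?_)
  rintro _ rfl
  filter_upwards [(continuous_subtype_val.tendsto (0 : lam ex)).eventually (he.disc h)] with z hz
  exact Subtype.ext (hz z.2)

lemma finrank_V (g : ℕ) : Module.finrank ℝ (Fin g → ℂ) = 2 * g := by
  simp [Module.finrank_pi_fintype, mul_comm]

/-- **periods**: `2g` independent periods with a bound that depends only on the position of the roots -/
theorem Dat.periods {ι : Type*} [Fintype ι] [DecidableEq ι] {c : ℂ} {r : ι → ℂ} {B : ℝ}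
    (h : Dat (pr c r) g cl δ) (he : IsExp (pr c r) g cl ex) (hs : Sep r B) :
    ∃ v : Fin (2 * g) → Fin g → ℂ, (∀ i, ex (v i) = 0) ∧ LinearIndependent ℤ v ∧
      Submodule.span ℝ (Set.range v) = ⊤ ∧ ∀ i, ‖c‖ * ‖v i‖ ^ 2 ≤ 512 * B ^ (4 * g + 3) := by
  classical
  have hc : c ≠ 0 := fun k => h.sqf.ne_zero (by simp [pr, k])
  have hlo := h.lo
  have hhi := h.hi
  rw [pr_deg hc] at hlo hhi
  obtain ⟨e⟩ : Nonempty (Option (Fin (2 * g)) ↪ ι) := Function.Embedding.nonempty_of_card_le (by simpa)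
  obtain ⟨P, hv, -, hP⟩ := he.half h.sqf hs
  set u : Fin (2 * g) → Fin g → ℂ := fun i => hv (e none) - hv (e (some i)) with hu
  set a : ℂ → A := fun y => cl (y, 0) - cl (r (e none), 0) with ha
  have hua : ∀ i, ex (u i) = a (r (e (some i))) := fun i => by
    have := (hP (e none)).1.symm.trans (hP (e (some i))).1
    rw [hu, ha, map_sub, sub_eq_sub_iff_add_eq_add, add_comm, this]
  have h2 : ∀ i, cl (r i, 0) + cl (r i, 0) = δ := fun i => by
    simpa using h.h3 (r i) 0 (by simp [pr_root])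
  have ha2 : ∀ i, (2 : ℤ) • a (r i) = 0 := fun i => by
    rw [ha, smul_sub, two_smul, two_smul, h2, h2, sub_self]
  have hinj : Function.Injective fun i => r (e (some i)) := fun i j k => by
    simpa using e.injective (hs.inj k)
  have hpar : ∀ n : Fin (2 * g) → ℤ, ∑ i, n i • u i = 0 → ∀ i, 2 ∣ n i := fun n hn i => by
    by_contra hi
    refine h.h4 (r (e none)) ((Finset.univ.filter fun j => ¬ 2 ∣ n j).image fun j => r (e (some j)))
      (pr_root _ _ _) (fun y hy => ?_) (fun hy => ?_) ⟨_, Finset.mem_image_of_mem _ (a := i) (by simpa using hi)⟩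
      (Finset.card_image_le.trans ((Finset.card_le_univ _).trans (by simp))) ?_
    · obtain ⟨j, -, rfl⟩ := Finset.mem_image.1 hy; exact pr_root _ _ _
    · obtain ⟨j, -, k⟩ := Finset.mem_image.1 hy
      simpa using e.injective (hs.inj k)
    · have hn' := congrArg ex hn
      rw [map_sum, map_zero] at hn'
      rw [Finset.sum_image fun i _ j _ k => hinj k, Finset.sum_filter]
      refine Eq.trans (Finset.sum_congr rfl fun j _ => ?_) hn'
      rw [map_zsmul, hua]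
      rcases Int.even_or_odd' (n j) with ⟨k, hk | hk⟩
      · rw [if_neg (by simp [hk]), hk, mul_comm (2 : ℤ), mul_smul, ha2, smul_zero]
      · rw [if_pos (by omega), hk, add_smul, mul_comm (2 : ℤ), mul_smul, ha2, smul_zero, zero_add,
          one_smul]
  have hdes : ∀ (k : ℕ) (n : Fin (2 * g) → ℤ), ∑ i, n i • u i = 0 → ∀ i, 2 ^ k ∣ n i := by
    intro k
    induction k with
    | zero => simp
    | succ k ih =>
      intro n hn i
      choose m hm using hpar n hn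
      have : ∑ i, m i • u i = 0 := by
        refine (smul_eq_zero_iff_right (two_ne_zero (α := ℤ))).1 ?_
        rw [← hn, Finset.smul_sum]
        exact Finset.sum_congr rfl fun j _ => by rw [hm, mul_smul]
      rw [hm, pow_succ']
      exact mul_dvd_mul_left 2 (ih m this i)
  have hli : LinearIndependent ℤ fun i => (2 : ℤ) • u i := by
    refine Fintype.linearIndependent_iff.2 fun n hn i => ?_
    obtain ⟨k, hk⟩ := pow_unbounded_of_one_lt |n i| (one_lt_two (α := ℤ))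
    refine Int.eq_zero_of_abs_lt_dvd (hdes k n ?_ i) hk
    refine (smul_eq_zero_iff_right (two_ne_zero (α := ℤ))).1 ?_
    rw [← hn, Finset.smul_sum]
    exact Finset.sum_congr rfl fun j _ => smul_comm _ _ _
  have h0 : ∀ i, ex ((2 : ℤ) • u i) = 0 := fun i => by rw [map_zsmul, hua, ha2]
  refine ⟨fun i => (2 : ℤ) • u i, h0, hli, ?_, fun i => ?_⟩
  · have := h.discrete he
    have hle : Submodule.span ℤ (Set.range fun i => (2 : ℤ) • u i) ≤ lam ex :=
      Submodule.span_le.2 (by rintro _ ⟨i, rfl⟩; exact h0 i)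
    have hd : DiscreteTopology (Submodule.span ℤ (Set.range fun i => (2 : ℤ) • u i)) :=
      DiscreteTopology.of_subset this hle
    refine Submodule.eq_top_of_finrank_eq ?_
    have k := Real.finrank_eq_int_finrank_of_discrete hd
    rw [Set.finrank, Set.finrank, finrank_span_eq_card hli] at k
    rw [k, finrank_V, Fintype.card_fin]
  · have k1 : ∀ j, ‖c‖ * ‖hv j‖ ^ 2 ≤ 32 * B ^ (4 * g + 3) := fun j => (hP j).2.trans
      (mul_le_mul_of_nonneg_left (pow_le_pow_right₀ hs.1 (by omega)) (by norm_num))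
    have k2 : ‖(2 : ℤ) • u i‖ ≤ 2 * (‖hv (e none)‖ + ‖hv (e (some i))‖) := by
      rw [two_smul]
      have := norm_sub_le (hv (e none)) (hv (e (some i)))
      exact (norm_add_le _ _).trans (by simp only [hu]; linarith)
    have k3 : ‖(2 : ℤ) • u i‖ ^ 2 ≤ 8 * (‖hv (e none)‖ ^ 2 + ‖hv (e (some i))‖ ^ 2) :=
      (pow_le_pow_left₀ (norm_nonneg _) k2 2).trans
        (by nlinarith [sq_nonneg (‖hv (e none)‖ - ‖hv (e (some i))‖)])
    nlinarith [k1 (e none), k1 (e (some i)), mul_le_mul_of_nonneg_left k3 (norm_nonneg c)]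

theorem Dat.span_top (h : Dat F g cl δ) (he : IsExp F g cl ex) :
    Submodule.span ℝ (lam ex : Set (Fin g → ℂ)) = ⊤ := by
  obtain ⟨c, r, -, hr, hF⟩ := exists_pr h.sqf
  obtain ⟨B, hB⟩ := exists_sep hr
  obtain ⟨v, h1, -, h2, -⟩ := (hF ▸ h).periods (hF ▸ he) hB.self_of_nhds
  exact top_le_iff.1 (h2 ▸ Submodule.span_mono (by rintro _ ⟨i, rfl⟩; exact h1 i))

theorem Dat.zlat (h : Dat F g cl δ) (he : IsExp F g cl ex) :
    haveI := h.discrete he; IsZLattice ℝ (lam ex) :=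
  haveI := h.discrete he; ⟨h.span_top he⟩

/-- **the kernel is a lattice** -/
theorem Dat.lattice (h : Dat F g cl δ) (he : IsExp F g cl ex) :
    Module.Finite ℤ (lam ex) ∧ Module.Free ℤ (lam ex) ∧ Module.finrank ℤ (lam ex) = 2 * g := by
  have := h.discrete he
  have := h.zlat he
  exact ⟨ZLattice.module_finite ℝ _, ZLattice.module_free ℝ _, by rw [ZLattice.rank ℝ, finrank_V]⟩

/-- **Jacobi inversion**: differences of points are in the range -/
theorem Dat.mem_range (h : Dat F g cl δ) (he : IsExp F g cl ex) {P Q : ℂ × ℂ}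
    (hP : P.2 ^ 2 = F.eval P.1) (hQ : Q.2 ^ 2 = F.eval Q.1) : cl P - cl Q ∈ ex.range := by
  classical
  obtain ⟨c, r, hc, hr, hF⟩ := exists_pr h.sqf
  obtain ⟨B, hB⟩ := exists_sep hr
  obtain ⟨P₀, v, -, hv⟩ := (hF ▸ he).half (hF ▸ h.sqf) hB.self_of_nhds
  have key : ∀ P : ℂ × ℂ, P.2 ^ 2 = F.eval P.1 → cl P - cl P₀ ∈ ex.range := by
    rintro ⟨x, w⟩ hP
    have : Nonempty (Fin F.natDegree) := ⟨⟨0, h.pos⟩⟩
    obtain ⟨i, hi⟩ := Finite.exists_min fun i => ‖x - r i‖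
    by_cases hx : x = r i
    · have hw : w = 0 := by
        rw [hF, hx] at hP
        simpa [pr_root] using hP
      exact ⟨-v i, by rw [hx, hw, (hv i).1, map_neg]; abel⟩
    · obtain ⟨z, hz, -⟩ := he.seg h.sqf (hF.trans (pr_eq c r i)) hP hx fun s hs k => by
        simp only [eval_mul, eval_C, eval_prod, eval_sub, eval_X, mul_eq_zero, hc, false_or,
          Finset.prod_eq_zero_iff, sub_eq_zero] at k
        obtain ⟨j, hj, k⟩ := k
        have k1 := hi j
        have k2 : x - r j = ((1 - s : ℝ) : ℂ) * (x - r i) := by rw [← k]; push_cast; ring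
        rw [k2, norm_mul, Complex.norm_real, Real.norm_of_nonneg (sub_nonneg.2 hs.2)] at k1
        have k3 : 0 < ‖x - r i‖ := norm_pos_iff.2 (sub_ne_zero.2 hx)
        have k4 : s = 0 := le_antisymm (by nlinarith) hs.1
        exact Finset.ne_of_mem_erase hj (hr (by simpa [k4] using k.symm))
      exact ⟨z - v i, by rw [hz, (hv i).1, map_sub]; abel⟩
  simpa using sub_mem (key P hP) (key Q hQ)

/-- **uniform period bound** for `w² = c x (x² - a₁) (x² - a₂) (x² - a₃)` -/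
theorem periods7 (R : ℝ) {ε : ℝ} (hε : 0 < ε) : ∃ B : ℝ, ∀ (c a₁ a₂ a₃ : ℂ), ‖a₁‖ ≤ R → ‖a₂‖ ≤ R →
    ‖a₃‖ ≤ R → ε ≤ ‖a₁‖ → ε ≤ ‖a₂‖ → ε ≤ ‖a₃‖ → ε ≤ ‖a₁ - a₂‖ → ε ≤ ‖a₁ - a₃‖ → ε ≤ ‖a₂ - a₃‖ →
    ∀ {A : Type*} [AddCommGroup A] {cl : ℂ × ℂ → A} {δ : A} {ex : (Fin 3 → ℂ) →+ A},
      Dat (C c * X * (X ^ 2 - C a₁) * (X ^ 2 - C a₂) * (X ^ 2 - C a₃)) 3 cl δ →
      IsExp (C c * X * (X ^ 2 - C a₁) * (X ^ 2 - C a₂) * (X ^ 2 - C a₃)) 3 cl ex →
      ∃ v : Fin 6 → Fin 3 → ℂ, (∀ i, ex (v i) = 0) ∧ Submodule.span ℝ (Set.range v) = ⊤ ∧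
        ∀ i, ‖c‖ * ‖v i‖ ^ 2 ≤ B := by
  set S := |R| + 1 with hS
  have hS0 : 0 < S := by positivity
  obtain ⟨B, hB⟩ := exists_sep_of (Fin 7) S (ε := ε / (2 * S)) (by positivity)
  refine ⟨512 * B ^ (4 * 3 + 3), fun c a₁ a₂ a₃ h1 h2 h3 k1 k2 k3 l1 l2 l3 A _ cl δ ex h he => ?_⟩
  obtain ⟨s₁, rfl⟩ := exists_sq a₁
  obtain ⟨s₂, rfl⟩ := exists_sq a₂
  obtain ⟨s₃, rfl⟩ := exists_sq a₃
  have hF : C c * X * (X ^ 2 - C (s₁ ^ 2)) * (X ^ 2 - C (s₂ ^ 2)) * (X ^ 2 - C (s₃ ^ 2)) =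
      pr c ![0, s₁, -s₁, s₂, -s₂, s₃, -s₃] := by
    simp [pr, Fin.prod_univ_succ]; ring
  rw [hF] at h he
  have up : ∀ s : ℂ, ‖s ^ 2‖ ≤ R → ‖s‖ ≤ S := fun s hs => by
    rw [norm_pow] at hs
    nlinarith [le_abs_self R, sq_nonneg (‖s‖ - 1), norm_nonneg s]
  have u1 := up _ h1
  have u2 := up _ h2
  have u3 := up _ h3
  have lo : ∀ s t : ℂ, ‖s‖ ≤ S → ‖t‖ ≤ S → ε ≤ ‖s ^ 2 - t ^ 2‖ → ε / (2 * S) ≤ ‖s - t‖ :=
    fun s t hs ht h => by
      rw [div_le_iff₀ (by positivity)]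
      rw [sq_sub_sq, norm_mul, mul_comm] at h
      exact h.trans (mul_le_mul_of_nonneg_left ((norm_add_le _ _).trans (by linarith)) (norm_nonneg _))
  have lo' : ∀ s : ℂ, ‖s‖ ≤ S → ε ≤ ‖s ^ 2‖ → ε / (2 * S) ≤ ‖s - -s‖ := fun s hs h => by
    have := lo s 0 hs (by simpa using hS0.le) (by simpa using h)
    rw [sub_neg_eq_add, ← two_mul, norm_mul, Complex.norm_two]
    rw [sub_zero] at this
    linarith [norm_nonneg s]
  have hr : ∀ i, ‖(![0, s₁, -s₁, s₂, -s₂, s₃, -s₃] : Fin 7 → ℂ) i‖ ≤ S := fun i => by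
    fin_cases i <;> simp [hS0.le, u1, u2, u3]
  have l1' := norm_sub_rev (s₁ ^ 2) _ ▸ l1
  have l2' := norm_sub_rev (s₁ ^ 2) _ ▸ l2
  have l3' := norm_sub_rev (s₂ ^ 2) _ ▸ l3
  obtain ⟨v, p1, -, p2, p3⟩ := h.periods he (hB _ hr fun i j hij => by
    by_cases hq : ε ≤ ‖(![0, s₁, -s₁, s₂, -s₂, s₃, -s₃] : Fin 7 → ℂ) i ^ 2 -
        (![0, s₁, -s₁, s₂, -s₂, s₃, -s₃] : Fin 7 → ℂ) j ^ 2‖
    · exact lo _ _ (hr i) (hr j) hq
    · have m1 := lo' _ u1 k1
      have m2 := lo' _ u2 k2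
      have m3 := lo' _ u3 k3
      have m1' := norm_sub_rev s₁ _ ▸ m1
      have m2' := norm_sub_rev s₂ _ ▸ m2
      have m3' := norm_sub_rev s₃ _ ▸ m3
      rw [norm_pow] at k1 k2 k3
      fin_cases i <;> fin_cases j <;>
        first | exact absurd rfl hij | assumption | exact absurd (by simpa) hq)
  exact ⟨v, p1, p2, p3⟩

end Crest.Agent.T15.Ax
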