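import Mathlib
import Crest.Agent.T15.HyB_90
import Crest.Agent.T15.AxA_14

/-!
# Row 15 (helper55): bridge from the function field `Hyp F x w` to the class map of affine points

`cl x w P` class of the affine point `P`, `dl x` class of the poles of `x`; `dat : Ax.Dat F g cl dl`;
the odd model: `inf x`, `cl0 x w P = [P - ∞]`, (A1) `A1`, (A2) `A2`, (A3) `A3`; generation of `Pic0`.
-/

set_option autoImplicit false
set_option linter.all false

namespace Crest.Agent.T15.Aj

open Polynomial WithZero Module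
open Crest.Agent.R013.RR7_948 Crest.Agent.R013.RR8_948 Crest.Agent.R013.RR9_948
open Crest.Agent.R013.RR11_948 Crest.Agent.R013.RR12_948 Crest.Agent.R013.PicD_398
open Crest.Agent.R013.GR2_921 Crest.Agent.R013.Frob1_914 Crest.Agent.T15.Disc Crest.Agent.T15.Hy

variable {k K : Type*} [Field k] [Field K] [Algebra k K]
variable [Algebra (RatFunc k) K] [IsScalarTower k (RatFunc k) K] [FiniteDimensional (RatFunc k) K]
  [Algebra.IsSeparable (RatFunc k) K]

/-- the divisor of an affine point -/
noncomputable def sp (x w : K) (P : k × k) : Pl k K →₀ ℤ := Finsupp.single (pt x w P.1 P.2) 1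

/-- the divisor of a multiset of affine points -/
noncomputable def dv (x w : K) (D : Multiset (k × k)) : Pl k K →₀ ℤ := (D.map (sp x w)).sum

/-- the class of an affine point -/
noncomputable def cl (x w : K) (P : k × k) : Pic k K := cls (sp x w P)

variable (k) in
/-- the class of the poles of `x` -/
noncomputable def dl (x : K) : Pic k K := cls (Dinf k x)

variable (k) in
/-- a place at infinity -/
noncomputable def inf (x : K) : Pl k K := Classical.epsilon fun P => 1 < P.v x

/-- the class `[P - ∞]` -/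
noncomputable def cl0 (x w : K) (P : k × k) : Pic k K :=
  cl x w P - cls (Finsupp.single (inf k x) 1)

/-- conjugate point -/
def cj (P : k × k) : k × k := (P.1, -P.2)

theorem cj_cj (P : k × k) : cj (cj P) = P := by simp [cj]

theorem cj_inj : Function.Injective (cj (k := k)) := Function.LeftInverse.injective cj_cj

theorem dv_zero (x w : K) : dv x w (0 : Multiset (k × k)) = 0 := by simp [dv]

theorem dv_cons (x w : K) (P : k × k) (D : Multiset (k × k)) :
    dv x w (P ::ₘ D) = sp x w P + dv x w D := by simp [dv]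

theorem dv_add (x w : K) (D E : Multiset (k × k)) : dv x w (D + E) = dv x w D + dv x w E := by
  simp [dv]

theorem cls_dv (x w : K) (D : Multiset (k × k)) : cls (dv x w D) = (D.map (cl x w)).sum := by
  induction D using Multiset.induction_on with
  | empty => simp [dv_zero]
  | cons P D ih => rw [dv_cons, map_add, ih]; simp [cl]

theorem dv_nonneg (x w : K) (D : Multiset (k × k)) : 0 ≤ dv x w D := by
  induction D using Multiset.induction_on with
  | empty => simp [dv_zero]
  | cons P D ih => rw [dv_cons]; exact add_nonneg (Finsupp.single_nonneg.mpr zero_le_one) ih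

theorem sum_cl0 (x w : K) (D : Multiset (k × k)) :
    (D.map (cl0 x w)).sum = cls (dv x w D - Finsupp.single (inf k x) (D.card : ℤ)) := by
  induction D using Multiset.induction_on with
  | empty => simp [dv_zero]
  | cons P D ih =>
    rw [Multiset.map_cons, Multiset.sum_cons, ih, dv_cons, Multiset.card_cons, cl0, cl, ← map_sub,
      ← map_add]
    congr 1
    push_cast
    rw [Finsupp.single_add]; abel

theorem degD_nsmul (n : ℕ) (D : Pl k K →₀ ℤ) : degD (n • D) = n * degD D := by
  induction n with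
  | zero => simp [degD_zero]
  | succ n ih => rw [succ_nsmul, degD_add, ih]; push_cast; ring

variable [IsAlgClosed k]

theorem degD_dv (x w : K) (D : Multiset (k × k)) : degD (dv x w D) = D.card := by
  induction D using Multiset.induction_on with
  | empty => simp [dv_zero, degD_zero]
  | cons P D ih => rw [dv_cons, degD_add, ih, sp, degD_single, degP_eq_one]; simp [add_comm]

theorem degPic_cl (x w : K) (P : k × k) : degPic (cl x w P) = 1 := by
  rw [cl, degPic_cls, sp, degD_single, degP_eq_one]; simp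

theorem cl0_mem (x w : K) (P : k × k) : cl0 x w P ∈ Pic0 k K := by
  rw [mem_Pic0, cl0, map_sub, degPic_cl, degPic_cls, degD_single, degP_eq_one]; simp

theorem cl_sub_mem (x w : K) (P Q : k × k) : cl x w P - cl x w Q ∈ Pic0 k K := by
  rw [mem_Pic0, map_sub, degPic_cl, degPic_cl, sub_self]

/-- the points of `D` lie on the curve -/
def On (F : k[X]) (D : Multiset (k × k)) : Prop := ∀ P ∈ D, P.2 ^ 2 = F.eval P.1

section

variable {F : k[X]} {x w : K} (h : Hyp F x w)
include h

theorem dv_pt [DecidableEq k] {D : Multiset (k × k)} (hD : On F D) {P : k × k}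
    (hP : P.2 ^ 2 = F.eval P.1) : dv x w D (pt x w P.1 P.2) = D.count P := by
  classical
  induction D using Multiset.induction_on with
  | empty => simp [dv_zero]
  | cons Q D ih =>
    rw [dv_cons, Finsupp.add_apply, ih fun R hR => hD R (Multiset.mem_cons_of_mem hR), sp,
      Finsupp.single_apply, Multiset.count_cons]
    simp only [h.pt_eq_iff (h.at_pt hP) (hD Q (Multiset.mem_cons_self _ _))]
    by_cases hQ : P = Q
    · subst hQ; simp [add_comm]
    · rw [if_neg hQ, if_neg fun h1 => hQ (Prod.ext h1.1 h1.2).symm]; simp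

theorem dv_inf {D : Multiset (k × k)} (hD : On F D) {Q : Pl k K} (hQ : 1 < Q.v x) :
    dv x w D Q = 0 := by
  classical
  induction D using Multiset.induction_on with
  | empty => simp [dv_zero]
  | cons R D ih =>
    rw [dv_cons, Finsupp.add_apply, ih fun R hR => hD R (Multiset.mem_cons_of_mem hR), sp,
      Finsupp.single_apply, if_neg (h.pt_ne_of_lt hQ (hD R (Multiset.mem_cons_self _ _)))]
    simp

/-- order of a polynomial in `x` at an affine place -/
theorem ord_aeval [DecidableEq k] {A : k[X]} (hA : A ≠ 0) {P : Pl k K} {a b : k}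
    (hP : At P x w a b) :
    divf (k := k) (aeval x A) P = rootMultiplicity a A * (if b = 0 then 2 else 1) := by
  obtain ⟨A', hA', hd⟩ := exists_eq_pow_rootMultiplicity_mul_and_not_dvd A hA a
  have h0 : A'.eval a ≠ 0 := fun h0 => hd (dvd_iff_isRoot.mpr h0)
  have h1 : aeval x A' ≠ 0 := h.aeval_ne (by rintro rfl; simp at h0)
  generalize rootMultiplicity a A = r at hA' ⊢
  rw [hA', map_mul, map_pow, map_sub, aeval_X, aeval_C,
    divf_mul (pow_ne_zero _ (h.x_sub_ne a)) h1, divf_pow (h.x_sub_ne a), Finsupp.add_apply,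
    Finsupp.smul_apply, (v_eq_one_iff h1 P).mp (hP.aeval_eq_one h0)]
  split_ifs with hb
  · subst hb; rw [h.ord_x0 hP]; simp
  · rw [h.ord_x hP hb]; simp

/-- a divisor `dv D - E`, `E ≤ m Dinf`, of class zero is the divisor of some `A + B w` -/
theorem exists_el_of_cls {D : Multiset (k × k)} {E : Pl k K →₀ ℤ} {m : ℕ}
    (hE : E ≤ m • Dinf k x) (hc : cls (dv x w D) = cls E) :
    ∃ A B : k[X], el x w A B ≠ 0 ∧ divf (k := k) (el x w A B) = dv x w D - E ∧ A.natDegree ≤ m ∧
      (B = 0 ∨ 2 * B.natDegree + F.natDegree ≤ 2 * m) := by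
  obtain ⟨f, hf, hd⟩ := cls_eq_zero_iff.mp (show cls (dv x w D - E) = 0 by
    rw [map_sub, hc, sub_self])
  have h2 : f ∈ LD (m • Dinf k x) := by
    rw [mem_LD_iff hf, hd, ← add_sub_assoc, add_sub_right_comm]
    exact add_nonneg (sub_nonneg.mpr hE) (dv_nonneg x w D)
  obtain ⟨A, B, rfl, hA, hB⟩ := h.of_mem_LD h2
  exact ⟨A, B, hf, hd, hA, hB⟩

/-- small divisors of class at infinity are symmetric, with even multiplicity at Weierstrass points -/
theorem count_of_cls [DecidableEq k] {D : Multiset (k × k)} (hD : On F D) {E : Pl k K →₀ ℤ} {m : ℕ}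
    (hm : 2 * m < F.natDegree) (hE : E ≤ m • Dinf k x) (hE0 : ∀ Q : Pl k K, Q.v x ≤ 1 → E Q = 0)
    (hc : cls (dv x w D) = cls E) :
    ∃ A : k[X], ∀ P : k × k, P.2 ^ 2 = F.eval P.1 →
      D.count P = rootMultiplicity P.1 A * (if P.2 = 0 then 2 else 1) := by
  obtain ⟨A, B, h0, hd, -, hB⟩ := exists_el_of_cls h hE hc
  have hB0 : B = 0 := by
    rcases hB with hB | hB
    · exact hB
    · omega
  subst hB0
  rw [el_zero] at h0 hd
  refine ⟨A, fun P hP => ?_⟩
  have h1 := ord_aeval h (A := A) (by rintro rfl; simp at h0) (h.at_pt hP)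
  rw [hd, Finsupp.sub_apply, hE0 _ (h.at_pt hP).x_le, dv_pt h hD hP, sub_zero] at h1
  split_ifs at h1 ⊢ <;> exact_mod_cast h1

theorem nsmul_Dinf_aff (m : ℕ) (Q : Pl k K) (hQ : Q.v x ≤ 1) : (m • Dinf k x) Q = 0 := by
  rw [Finsupp.smul_apply, Dinf_of_le h.x_ne hQ, smul_zero]

theorem cl_add_cj {P : k × k} (hP : P.2 ^ 2 = F.eval P.1) : cl x w P + cl x w (cj P) = dl k x :=
  h.cls_pt_add hP

/-- the zeros of `a + b w` -/
theorem sum_cl_of_el {D : Multiset (k × k)} (hD : On F D) (hn : D.Nodup) {m : ℕ}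
    (hc : D.card = 2 * m) {a b : k[X]} (h0 : a ≠ 0 ∨ b ≠ 0) (ha : a.natDegree ≤ m)
    (hb : b = 0 ∨ 2 * b.natDegree + F.natDegree ≤ 2 * m)
    (hz : ∀ P ∈ D, a.eval P.1 + b.eval P.1 * P.2 = 0) : (D.map (cl x w)).sum = m • dl k x := by
  classical
  have hf := h.el_ne h0
  have h1 := (mem_LD_iff hf).mp (h.el_mem_LD ha hb)
  have h2 : 0 ≤ m • Dinf k x + divf (el x w a b) - dv x w D := by
    intro Q
    have h3 := h1 Q
    simp only [Finsupp.coe_zero, Pi.zero_apply, Finsupp.sub_apply] at h3 ⊢
    rcases le_or_gt (Q.v x) 1 with hQ | hQ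
    · have hA := h.at_ev hQ
      have h4 := dv_pt h hD (P := (ev Q x, ev Q w)) (hA.sq h.sq)
      rw [h.pt_eq hA] at h4
      rw [h4]
      by_cases h5 : (ev Q x, ev Q w) ∈ D
      · have h6 := (v_lt_one_iff hf Q).mp (hA.el_lt_iff.mpr (hz _ h5))
        rw [Multiset.count_eq_one_of_mem hn h5, Finsupp.add_apply, nsmul_Dinf_aff h m Q hQ]
        push_cast; omega
      · rw [Multiset.count_eq_zero_of_notMem h5]; simpa using h3
    · rw [dv_inf h hD hQ]; simpa using h3
  have h3 := eq_zero_of_nonneg h2 (by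
    rw [degD_sub, degD_add, degD_divf hf, degD_nsmul, h.degD_Dinf, degD_dv, hc]; push_cast; ring)
  rw [← cls_dv, ← sub_eq_zero.mp h3, map_add, cls_divf hf, add_zero, map_nsmul, dl]

/-- (H5) converse -/
theorem el_of_sum_cl {D : Multiset (k × k)} (hD : On F D) {m : ℕ}
    (hc : (D.map (cl x w)).sum = m • dl k x) :
    ∃ a b : k[X], (a ≠ 0 ∨ b ≠ 0) ∧ a.natDegree ≤ m ∧
      (b = 0 ∨ 2 * b.natDegree + F.natDegree ≤ 2 * m) ∧
      ∀ P ∈ D, a.eval P.1 + b.eval P.1 * P.2 = 0 := by
  classical
  obtain ⟨A, B, h0, hd, hA, hB⟩ := exists_el_of_cls h (D := D) (E := m • Dinf k x) le_rfl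
    (by rw [cls_dv, hc, map_nsmul, dl])
  refine ⟨A, B, ?_, hA, hB, fun P hP => ?_⟩
  · by_contra h1
    push Not at h1
    rw [h1.1, h1.2] at h0; simp [el] at h0
  · have hA := h.at_pt (hD P hP)
    rw [← hA.el_lt_iff, v_lt_one_iff h0, hd, Finsupp.sub_apply, nsmul_Dinf_aff h m _ hA.x_le,
      dv_pt h hD (hD P hP), sub_zero]
    exact_mod_cast Multiset.count_pos.mpr hP

/-- every divisor supported at affine places comes from points -/
theorem exists_dv (E : Pl k K →₀ ℤ) (hE : 0 ≤ E) :
    ∃ D : Multiset (k × k), On F D ∧ ∀ Q : Pl k K, Q.v x ≤ 1 → E Q = dv x w D Q := by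
  classical
  refine ⟨∑ Q ∈ E.support.filter (fun Q => Q.v x ≤ 1), Multiset.replicate (E Q).toNat (ev Q x, ev Q w),
    ?_, ?_⟩
  · intro P hP
    obtain ⟨Q, hQ, hP⟩ := Multiset.mem_sum.mp hP
    rw [Multiset.eq_of_mem_replicate hP]
    exact (h.at_ev (Finset.mem_filter.mp hQ).2).sq h.sq
  · intro Q hQ
    have hA := h.at_ev hQ
    have hOn : On F (∑ Q ∈ E.support.filter (fun Q => Q.v x ≤ 1),
        Multiset.replicate (E Q).toNat (ev Q x, ev Q w)) := by
      intro P hP
      obtain ⟨Q, hQ, hP⟩ := Multiset.mem_sum.mp hP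
      rw [Multiset.eq_of_mem_replicate hP]
      exact (h.at_ev (Finset.mem_filter.mp hQ).2).sq h.sq
    have h4 := dv_pt h hOn (P := (ev Q x, ev Q w)) (hA.sq h.sq)
    rw [h.pt_eq hA] at h4
    rw [h4, Multiset.count_sum', Finset.sum_eq_single Q]
    · rw [Multiset.count_replicate_self]
      exact (Int.toNat_of_nonneg (hE Q)).symm
    · intro R hR hRQ
      rw [Multiset.count_replicate, if_neg]
      intro h5
      have hR' := h.at_ev (Finset.mem_filter.mp hR).2
      obtain ⟨h6, h7⟩ := Prod.mk.inj h5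
      rw [h6, h7] at hR'
      exact hRQ (h.at_unique hR' hA)
    · intro h5
      have : E Q = 0 := by
        by_contra h6
        exact h5 (Finset.mem_filter.mpr ⟨Finsupp.mem_support_iff.mpr h6, hQ⟩)
      simp [this]

theorem eq_dv {E : Pl k K →₀ ℤ} (hE : 0 ≤ E) (h0 : ∀ Q : Pl k K, 1 < Q.v x → E Q = 0) :
    ∃ D : Multiset (k × k), On F D ∧ E = dv x w D := by
  obtain ⟨D, hD, he⟩ := exists_dv h E hE
  refine ⟨D, hD, Finsupp.ext fun Q => ?_⟩
  rcases le_or_gt (Q.v x) 1 with hQ | hQ
  · exact he Q hQ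
  · rw [h0 Q hQ, dv_inf h hD hQ]

/-- every class is a difference of two sums of affine points -/
theorem exists_sub (z : Pic k K) : ∃ D D' : Multiset (k × k), On F D ∧ On F D' ∧
    z = (D.map (cl x w)).sum - (D'.map (cl x w)).sum := by
  classical
  obtain ⟨E, rfl⟩ := cls_surjective z
  obtain ⟨f, hf, hv⟩ := exists_prescribed (Dinf k x).support (fun Q => E Q)
  have h0 : ∀ Q : Pl k K, 1 < Q.v x → (E + divf (k := k) f) Q = 0 := by
    intro Q hQ
    have h1 := hv Q (by
      rw [Finsupp.mem_support_iff, Dinf_of_lt h.x_ne hQ]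
      have := divf_neg_of_lt h.x_ne hQ; omega)
    rw [v_eq hf, exp_inj] at h1
    rw [Finsupp.add_apply]; omega
  obtain ⟨D, hD, he⟩ := eq_dv h (E := (E + divf (k := k) f) ⊔ 0) le_sup_right fun Q hQ => by
    rw [Finsupp.sup_apply, h0 Q hQ]; simp
  obtain ⟨D', hD', he'⟩ := eq_dv h (E := (-(E + divf (k := k) f)) ⊔ 0) le_sup_right fun Q hQ => by
    rw [Finsupp.sup_apply, Finsupp.neg_apply, h0 Q hQ]; simp
  refine ⟨D, D', hD, hD', ?_⟩
  rw [← cls_dv, ← cls_dv, ← he, ← he', ← map_sub]
  have : (E + divf (k := k) f) ⊔ 0 - (-(E + divf (k := k) f)) ⊔ 0 = E + divf f := by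
    ext Q
    simp only [Finsupp.sub_apply, Finsupp.sup_apply, Finsupp.neg_apply, Finsupp.coe_zero,
      Pi.zero_apply]
    omega
  rw [this, map_add, cls_divf hf, add_zero]

/-- `Pic0` is generated by the differences of affine points -/
theorem Pic0_le (H : AddSubgroup (Pic k K)) {P₀ : k × k}
    (hH : ∀ P : k × k, P.2 ^ 2 = F.eval P.1 → cl x w P - cl x w P₀ ∈ H) : Pic0 k K ≤ H := by
  intro z hz
  obtain ⟨D, D', hD, hD', rfl⟩ := exists_sub h z
  have key : ∀ D : Multiset (k × k), On F D →
      (D.map (cl x w)).sum - D.card • cl x w P₀ ∈ H := by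
    intro D hD
    induction D using Multiset.induction_on with
    | empty => simp
    | cons P D ih =>
      have := H.add_mem (hH P (hD P (Multiset.mem_cons_self _ _)))
        (ih fun R hR => hD R (Multiset.mem_cons_of_mem hR))
      convert this using 1
      rw [Multiset.map_cons, Multiset.sum_cons, Multiset.card_cons, succ_nsmul]; abel
  rw [mem_Pic0, ← cls_dv, ← cls_dv, map_sub, degPic_cls, degPic_cls, degD_dv, degD_dv,
    sub_eq_zero, Nat.cast_inj] at hz
  have := H.sub_mem (key D hD) (key D' hD')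
  rwa [hz, sub_sub_sub_cancel_right] at this

/-! ### the odd model -/

theorem inf_spec : 1 < (inf k x).v x := Classical.epsilon_spec h.exists_inf

theorem eq_inf (ho : Odd F.natDegree) {Q : Pl k K} (hQ : 1 < Q.v x) : Q = inf k x :=
  h.inf_unique ho hQ (inf_spec h)

theorem eq_single (ho : Odd F.natDegree) {E : Pl k K →₀ ℤ} (hE : ∀ Q : Pl k K, Q.v x ≤ 1 → E Q = 0) :
    E = Finsupp.single (inf k x) (degD E) := by
  have h1 : E = Finsupp.single (inf k x) (E (inf k x)) := by
    ext Q
    rcases le_or_gt (Q.v x) 1 with hQ | hQ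
    · rw [hE Q hQ, Finsupp.single_eq_of_ne]
      rintro rfl
      exact absurd (inf_spec h) (not_lt.mpr hQ)
    · rw [eq_inf h ho hQ, Finsupp.single_eq_same]
  conv_rhs => rw [h1, degD_single, degP_eq_one]
  simpa using h1

theorem Dinf_eq (ho : Odd F.natDegree) : Dinf k x = Finsupp.single (inf k x) 2 := by
  rw [eq_single h ho (E := Dinf k x) fun Q hQ => Dinf_of_le h.x_ne hQ, h.degD_Dinf]

/-- (A2) -/
theorem A2 (ho : Odd F.natDegree) {a b : k} (hb : b ^ 2 = F.eval a) :
    cl0 x w (a, b) + cl0 x w (a, -b) = 0 := by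
  have h1 := cl_add_cj h (P := (a, b)) hb
  rw [dl, Dinf_eq h ho, show (2 : ℤ) = 1 + 1 from rfl, Finsupp.single_add, map_add] at h1
  unfold cl0
  rw [sub_add_sub_comm, sub_eq_zero]
  exact h1

theorem sum_cl0_eq_zero (ho : Odd F.natDegree) {D : Multiset (k × k)} {f : K} (hf : f ≠ 0)
    (hd : ∀ Q : Pl k K, Q.v x ≤ 1 → divf (k := k) f Q = dv x w D Q) :
    (D.map (cl0 x w)).sum = 0 := by
  have h1 := eq_single h ho (E := dv x w D - divf f) fun Q hQ => by
    rw [Finsupp.sub_apply, hd Q hQ, sub_self]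
  rw [degD_sub, degD_divf hf, degD_dv, sub_zero] at h1
  rw [sum_cl0, ← h1, sub_sub_cancel, cls_divf hf]

theorem ord_iota {A B : k[X]} (h0 : A ≠ 0 ∨ B ≠ 0) {P : Pl k K} {a : k} (hP : At P x w a 0) :
    divf (k := k) (el x w A (-B)) P = divf (k := k) (el x w A B) P := by
  have h1 : h.siota.pl P = P := h.at_unique (by simpa using hP.iota h) hP
  have h2 := h.siota_v P (el x w A B)
  rw [h1, h.iota_el, v_eq (h.el_ne h0), v_eq (h.el_ne (by simpa using h0)), exp_inj] at h2
  omega

/-- (A1) -/
theorem A1 (ho : Odd F.natDegree) (v : k[X]) :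
    ((F - v ^ 2).roots.map fun a => cl0 x w (a, v.eval a)).sum = 0 := by
  classical
  have h0 : (-v) ≠ 0 ∨ (1 : k[X]) ≠ 0 := Or.inr one_ne_zero
  have h0' : (-v) ≠ 0 ∨ (-1 : k[X]) ≠ 0 := Or.inr (neg_ne_zero.mpr one_ne_zero)
  have hf := h.el_ne h0
  have hf' := h.el_ne h0'
  have hn := el_norm h.sq (-v) 1
  have hu : (-v) ^ 2 - 1 ^ 2 * F = -(F - v ^ 2) := by ring
  rw [hu] at hn
  have hu0 : -(F - v ^ 2) ≠ 0 := by
    intro h1; rw [h1, map_zero] at hn; exact mul_ne_zero hf hf' hn
  have hu1 : F - v ^ 2 ≠ 0 := neg_ne_zero.mp hu0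
  have hOn : On F ((F - v ^ 2).roots.map fun a => (a, v.eval a)) := by
    intro P hP
    obtain ⟨a, ha, rfl⟩ := Multiset.mem_map.mp hP
    have := (mem_roots hu1).mp ha
    simp only [IsRoot, eval_sub, eval_pow] at this ⊢
    linear_combination -this
  have := sum_cl0_eq_zero h ho (D := (F - v ^ 2).roots.map fun a => (a, v.eval a)) hf fun Q hQ => by
    have hA := h.at_ev hQ
    have h4 := dv_pt h hOn (P := (ev Q x, ev Q w)) (hA.sq h.sq)
    rw [h.pt_eq hA] at h4
    rw [h4]
    have h5 := ord_aeval h hu0 hA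
    have h9 : rootMultiplicity (ev Q x) (-(F - v ^ 2)) = rootMultiplicity (ev Q x) (F - v ^ 2) := by
      rw [← count_roots, ← count_roots, roots_neg]
    rw [← hn, divf_mul hf hf', Finsupp.add_apply, h9] at h5
    by_cases hb : ev Q w = v.eval (ev Q x)
    · rw [hb, Multiset.count_map_eq_count' (fun a => (a, v.eval a)) _
        (fun a b hab => (Prod.ext_iff.mp hab).1), count_roots]
      split_ifs at h5 with h6
      · rw [h6] at hA
        rw [ord_iota h h0 hA] at h5
        omega
      · have h7 := (v_eq_one_iff hf' Q).mp (hA.el_eq_one (A := -v) (B := -1) (by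
          simp only [eval_neg, eval_one, ← hb]
          intro h8
          exact mul_ne_zero h.two h6 (by linear_combination -h8)))
        omega
    · rw [Multiset.count_eq_zero_of_notMem, (v_eq_one_iff hf Q).mp (hA.el_eq_one (by
        simp only [eval_neg, eval_one]
        intro h8
        exact hb (by linear_combination h8)))]
      · simp
      · intro h6
        obtain ⟨a, -, ha⟩ := Multiset.mem_map.mp h6
        obtain ⟨rfl, h7⟩ := Prod.ext_iff.mp ha
        exact hb h7.symm
  rwa [Multiset.map_map] at this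

/-- (A3) -/
theorem A3 {g : ℕ} (hg : F.natDegree = 2 * g + 1) {D : Multiset (k × k)} (hD : On F D)
    (hc : D.card ≤ 2 * g) (h0 : (D.map (cl0 x w)).sum = 0) : D.map cj = D := by
  classical
  have ho : Odd F.natDegree := ⟨g, hg⟩
  rw [sum_cl0, map_sub, sub_eq_zero] at h0
  obtain ⟨A, hA⟩ := count_of_cls h hD (m := g) (by omega) (by
    rw [Dinf_eq h ho, Finsupp.smul_single]
    apply Finsupp.single_le_single.mpr
    simp only [nsmul_eq_mul]; omega) (fun Q hQ => Finsupp.single_eq_of_ne (by
      rintro rfl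
      exact absurd (inf_spec h) (not_lt.mpr hQ))) h0
  ext P
  rw [← cj_cj P, Multiset.count_map_eq_count' _ _ cj_inj, cj_cj]
  by_cases hP : P.2 ^ 2 = F.eval P.1
  · rw [hA P hP, hA (cj P) (by simpa [cj] using hP)]; simp [cj]
  · rw [Multiset.count_eq_zero_of_notMem fun h1 => hP (hD _ h1),
      Multiset.count_eq_zero_of_notMem fun h1 => hP (by simpa [cj] using hD _ h1)]

/-- Jacobi inversion, algebraic form -/
theorem exists_red {g : ℕ} (hg : F.natDegree = 2 * g + 1) {z : Pic k K} (hz : z ∈ Pic0 k K) :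
    ∃ D : Multiset (k × k), On F D ∧ D.card ≤ g ∧ z = (D.map (cl0 x w)).sum := by
  have ho : Odd F.natDegree := ⟨g, hg⟩
  obtain ⟨E, rfl⟩ := cls_surjective z
  rw [mem_Pic0, degPic_cls] at hz
  have h1 := ell_ge (k := k) (K := K) hc_of_isAlgClosed (E + Finsupp.single (inf k x) (g : ℤ))
  have h2 := h.gen_le (g := g) (by omega)
  rw [degD_add, hz, degD_single, degP_eq_one] at h1
  obtain ⟨f, hf, h3⟩ := ell_pos_iff.mp
    (show 0 < ell (E + Finsupp.single (inf k x) (g : ℤ)) by push_cast at h1; omega)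
  obtain ⟨D, hD, he⟩ := exists_dv h _ h3
  have h4 := eq_single h ho (E := E + Finsupp.single (inf k x) (g : ℤ) + divf f - dv x w D)
    fun Q hQ => by rw [Finsupp.sub_apply, he Q hQ, sub_self]
  rw [degD_sub, degD_add, degD_add, hz, degD_single, degP_eq_one, degD_divf hf, degD_dv] at h4
  have h5 := congrArg (fun Z => Z (inf k x)) h4
  have h6 : (0 : ℤ) ≤ (E + Finsupp.single (inf k x) (g : ℤ) + divf f : Pl k K →₀ ℤ) (inf k x) :=
    h3 (inf k x)
  simp only [Finsupp.sub_apply, dv_inf h hD (inf_spec h), Finsupp.single_eq_same, Finsupp.coe_zero,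
    Pi.zero_apply] at h5 h6
  refine ⟨D, hD, by rw [Nat.cast_one] at h5; omega, ?_⟩
  have h7 : dv x w D - Finsupp.single (inf k x) (D.card : ℤ) = E + divf f := by
    have h8 : Finsupp.single (inf k x) (0 + (g : ℤ) * ((1 : ℕ) : ℤ) + 0 - D.card) =
        Finsupp.single (inf k x) (g : ℤ) - Finsupp.single (inf k x) (D.card : ℤ) := by
      rw [← Finsupp.single_sub]; simp
    rw [h8] at h4
    rw [← sub_eq_zero] at h4 ⊢
    rw [← neg_eq_zero, ← h4]; abel
  rw [sum_cl0, h7, map_add, cls_divf hf, add_zero]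

end

/-! ### the data for the analytic Jacobian -/

section

variable {K : Type*} [Field K] [Algebra ℂ K]
variable [Algebra (RatFunc ℂ) K] [IsScalarTower ℂ (RatFunc ℂ) K] [FiniteDimensional (RatFunc ℂ) K]
  [Algebra.IsSeparable (RatFunc ℂ) K]

theorem dat {F : ℂ[X]} {x w : K} (h : Hyp F x w) {g : ℕ} (lo : 2 * g + 1 ≤ F.natDegree)
    (hi : F.natDegree ≤ 2 * g + 2) : Ax.Dat F g (cl x w) (dl ℂ x) where
  sqf := h.sep.squarefree
  lo := lo
  hi := hi
  h1 := fun s ι _ P a b hc hinj hP hb ha hb' hz => by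
    have := sum_cl_of_el h (D := Finset.univ.val.map P) (m := g + 1 + s) (a := a) (b := b)
      (fun Q hQ => by obtain ⟨j, -, rfl⟩ := Multiset.mem_map.mp hQ; exact hP j)
      (Finset.univ.nodup.map fun i j hij => hinj (congrArg Prod.fst hij))
      (by rw [Multiset.card_map]; exact hc) (Or.inr hb) ha (Or.inr (by omega))
      (fun Q hQ => by obtain ⟨j, -, rfl⟩ := Multiset.mem_map.mp hQ; exact hz j)
    rwa [Multiset.map_map] at this
  h2 := fun P Q hP hQ hiP hiQ hs i => by
    classical
    have hQ' : ∀ j, (cj (Q j)).2 ^ 2 = F.eval (cj (Q j)).1 := fun j => by simpa [cj] using hQ j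
    have hD : On F (Finset.univ.val.map P + Finset.univ.val.map fun j => cj (Q j)) := by
      intro R hR
      rcases Multiset.mem_add.mp hR with hR | hR <;> obtain ⟨j, -, rfl⟩ := Multiset.mem_map.mp hR
      exacts [hP j, hQ' j]
    obtain ⟨A, hA⟩ := count_of_cls h hD (m := g) (E := g • Dinf ℂ x) (by omega) le_rfl
      (nsmul_Dinf_aff h g) (by
        rw [cls_dv, Multiset.map_add, Multiset.sum_add, Multiset.map_map, Multiset.map_map]
        change ∑ j, cl x w (P j) + ∑ j, cl x w (cj (Q j)) = _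
        rw [hs, ← Finset.sum_add_distrib, Finset.sum_congr rfl fun j _ => cl_add_cj h (hQ j)]
        simp [dl])
    have h1 := hA (P i) (hP i)
    have h2 := hA (cj (P i)) (by simpa [cj] using hP i)
    have hinj : Function.Injective P := fun i j hij => hiP (congrArg Prod.fst hij)
    have h3 : (Finset.univ.val.map P).count (P i) = 1 :=
      Multiset.count_eq_one_of_mem (Finset.univ.nodup.map hinj)
        (Multiset.mem_map_of_mem _ (Finset.mem_univ i))
    by_contra hcon
    push Not at hcon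
    have h4 : (Finset.univ.val.map fun j => cj (Q j)).count (cj (P i)) = 0 := by
      apply Multiset.count_eq_zero_of_notMem
      intro h5
      obtain ⟨j, -, hj⟩ := Multiset.mem_map.mp h5
      exact hcon j (cj_inj hj).symm
    rw [Multiset.count_add] at h1 h2
    by_cases h0 : (P i).2 = 0
    · have h5 : cj (P i) = P i := by simp [cj, h0, Prod.ext_iff]
      rw [h5] at h4
      rw [h3, h4, if_pos h0] at h1
      omega
    · have h5 : (Finset.univ.val.map P).count (cj (P i)) = 0 := by
        apply Multiset.count_eq_zero_of_notMem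
        intro h5
        obtain ⟨j, -, hj⟩ := Multiset.mem_map.mp h5
        have h6 : j = i := hiP (by simpa [cj] using congrArg Prod.fst hj)
        subst h6
        have h7 := congrArg Prod.snd hj
        simp only [cj] at h7
        exact h0 (by linear_combination h7 / 2)
      rw [h4, h5] at h2
      simp only [cj, neg_eq_zero] at h2
      omega
  h3 := fun a b hb => cl_add_cj h (P := (a, b)) hb
  h4 := fun e₀ T he₀ hT hn hne hc hs => by
    classical
    have h2 : cl x w (e₀, 0) + cl x w (e₀, 0) = dl ℂ x := by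
      have := cl_add_cj h (P := (e₀, 0)) (by simp [he₀])
      simpa [cj] using this
    have hD : On F (T.val.map (fun e => (e, (0 : ℂ))) + Multiset.replicate (T.card % 2) (e₀, 0)) := by
      intro R hR
      rcases Multiset.mem_add.mp hR with hR | hR
      · obtain ⟨j, hj, rfl⟩ := Multiset.mem_map.mp hR
        simp [hT j hj]
      · rw [Multiset.eq_of_mem_replicate hR]; simp [he₀]
    obtain ⟨A, hA⟩ := count_of_cls h hD (m := (T.card + 1) / 2) (E := ((T.card + 1) / 2) • Dinf ℂ x)
      (by omega) le_rfl (nsmul_Dinf_aff h _) (by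
        rw [cls_dv, Multiset.map_add, Multiset.sum_add, Multiset.map_map, Multiset.map_replicate,
          Multiset.sum_replicate, map_nsmul]
        change ∑ e ∈ T, cl x w (e, 0) + _ = _ • dl ℂ x
        rw [Finset.sum_sub_distrib, Finset.sum_const, sub_eq_zero] at hs
        rw [hs, ← h2, ← two_nsmul, ← add_nsmul, ← mul_nsmul]
        congr 1; omega)
    obtain ⟨e, he⟩ := hne
    have h1 := hA (e, 0) (by simp [hT e he])
    rw [Multiset.count_add, Multiset.count_map_eq_count' (fun e => (e, (0 : ℂ))) _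
      (fun a b hab => (Prod.ext_iff.mp hab).1),
      Multiset.count_eq_one_of_mem T.nodup he, Multiset.count_replicate, if_neg (by
        intro h3; exact hn ((Prod.mk.inj h3).1 ▸ he))] at h1
    simp only [if_true] at h1
    omega

end

end Crest.Agent.T15.Aj
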