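import Crest.Agent.T15.AxB_14

/-!
# Row 15, analytic Jacobian of `w² = F(x)`, any genus (helper14), part C

Existence and uniqueness of the exponential map, path formula, discreteness of the kernel, endomorphisms.
-/

set_option autoImplicit false
set_option linter.unusedSectionVars false
set_option linter.unusedVariables false

open Polynomial Filter Topology Metric

noncomputable section

namespace Crest.Agent.T15.Ax

variable {F : ℂ[X]} {g : ℕ}

lemma exists_sq (y : ℂ) : ∃ w : ℂ, w ^ 2 = y := IsAlgClosed.exists_pow_nat_eq y two_pos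

/-- a function `a(x) + w` with prescribed zeros and only simple zeros over distinct `x` -/
lemma exists_conf (hF : Squarefree F) (hd0 : 0 < F.natDegree) {m : ℕ} (hd : F.natDegree < 2 * m)
    (T : Finset ℂ) (hT : T.card = m) (W : ℂ → ℂ) (hW : ∀ y ∈ T, W y ^ 2 = F.eval y) :
    ∃ a : ℂ[X], a.natDegree = m ∧ (∀ y ∈ T, a.eval y + W y = 0) ∧ a ^ 2 - F ≠ 0 ∧
      (a ^ 2 - F).roots.toFinset.card = 2 * m := by
  classical
  set a0 : ℂ[X] := Lagrange.interpolate T id (fun y => -W y) with ha0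
  have ha0e : ∀ y ∈ T, a0.eval y = -W y := fun y hy =>
    Lagrange.eval_interpolate_at_node (v := id) _ (Set.injOn_id _) hy
  have ha0d : a0.degree < m := hT ▸ Lagrange.degree_interpolate_lt (v := id) _ (Set.injOn_id _)
  set q : ℂ[X] := ∏ y ∈ T, (X - C y) with hq
  have hqm : q.Monic := monic_prod_of_monic _ _ fun i _ => monic_X_sub_C _
  have hqd : q.natDegree = m := by
    rw [hq, natDegree_prod_of_monic _ _ fun i _ => monic_X_sub_C _]; simp [hT]
  have hq0 : ∀ y, q.eval y = 0 ↔ y ∈ T := fun y => by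
    simp [hq, eval_prod, Finset.prod_eq_zero_iff, sub_eq_zero]
  have hq' : ∀ y ∈ T, q.derivative.eval y ≠ 0 := fun y hy => by
    have : q = (X - C y) * ∏ i ∈ T.erase y, (X - C i) := (Finset.mul_prod_erase _ _ hy).symm
    rw [this]
    simp [eval_prod, Finset.prod_eq_zero_iff, sub_eq_zero]
  have hF0 : F ≠ 0 := hF.ne_zero
  set H : ℂ[X] := (q * F.derivative - 2 * q.derivative * F) ^ 2 -
    (2 * (q * a0.derivative - q.derivative * a0)) ^ 2 * F with hH
  have hH0 : H ≠ 0 := by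
    by_cases h : (2 * (q * a0.derivative - q.derivative * a0) : ℂ[X]) = 0
    · rw [hH, h]
      simp only [ne_eq, OfNat.ofNat_ne_zero, not_false_eq_true, zero_pow, zero_mul, sub_zero,
        pow_eq_zero_iff]
      intro h1
      have h2 := congrArg leadingCoeff (sub_eq_zero.1 h1)
      have h3 : (2 : ℂ[X]).leadingCoeff = 2 := leadingCoeff_C 2
      simp only [leadingCoeff_mul, leadingCoeff_derivative, hqm.leadingCoeff, hqd, h3] at h2
      have h4 : (F.natDegree : ℂ) = 2 * m :=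
        mul_left_cancel₀ (leadingCoeff_ne_zero.2 hF0) (by linear_combination h2)
      have h5 : F.natDegree = 2 * m := by exact_mod_cast h4
      omega
    · exact norm_ne_zero hF hd0 h
  set N : ℂ → ℂ[X] := fun c => (a0 + C c * q) ^ 2 - F with hN
  have hNe : ∀ c y, (N c).eval y = (a0.eval y + c * q.eval y) ^ 2 - F.eval y := fun c y => by simp [hN]
  have hNd : ∀ c y, (N c).derivative.eval y = 2 * (a0.eval y + c * q.eval y) *
      (a0.derivative.eval y + c * q.derivative.eval y) - F.derivative.eval y := fun c y => by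
    simp [hN, derivative_pow]
  have hfin : ∀ y, {c | (N c).eval y = 0 ∧ (N c).derivative.eval y = 0}.Finite := by
    intro y
    by_cases hy : y ∈ T
    · have hqy := (hq0 y).2 hy
      refine Set.Subsingleton.finite fun c hc c' hc' => ?_
      have h1 := hc.2
      have h2 := hc'.2
      rw [hNd, hqy, ha0e y hy] at h1 h2
      rcases not_both hF (hW y hy) with h | h
      · have : W y * q.derivative.eval y * (c - c') = 0 := by linear_combination (h2 - h1) / 2
        exact sub_eq_zero.1 ((mul_eq_zero.1 this).resolve_left (mul_ne_zero h (hq' y hy)))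
      · by_cases h' : W y = 0
        · exact absurd (by rw [h'] at h1; linear_combination -h1) h
        · have : W y * q.derivative.eval y * (c - c') = 0 := by linear_combination (h2 - h1) / 2
          exact sub_eq_zero.1 ((mul_eq_zero.1 this).resolve_left (mul_ne_zero h' (hq' y hy)))
    · have hqy : q.eval y ≠ 0 := fun h => hy ((hq0 y).1 h)
      obtain ⟨r, hr⟩ := exists_sq (F.eval y)
      refine (Set.toFinite {(r - a0.eval y) / q.eval y, (-r - a0.eval y) / q.eval y}).subset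
        fun c hc => ?_
      have h1 := hc.1
      rw [hNe, ← hr] at h1
      rcases sq_eq_sq_iff_eq_or_eq_neg.1 (sub_eq_zero.1 h1) with h | h
      · left; field_simp; linear_combination h
      · right; simp only [Set.mem_singleton_iff]; field_simp; linear_combination h
  have hbad : ({0} ∪ ⋃ y ∈ ({y | H.IsRoot y} : Set ℂ) ∪ T,
      {c | (N c).eval y = 0 ∧ (N c).derivative.eval y = 0}).Finite :=
    (Set.finite_singleton _).union
      (((finite_setOfPred_isRoot hH0).union T.finite_toSet).biUnion fun y _ => hfin y)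
  obtain ⟨c, hc⟩ := hbad.infinite_compl.nonempty
  simp only [Set.mem_compl_iff, Set.mem_union, Set.mem_singleton_iff, Set.mem_iUnion, not_or,
    not_exists, Set.mem_setOf_eq] at hc
  have had : (a0 + C c * q).natDegree = m := by
    have h1 : (C c * q).degree = m := by
      rw [degree_C_mul hc.1, degree_eq_natDegree hqm.ne_zero, hqd]
    exact natDegree_eq_of_degree_eq_some (by rw [degree_add_eq_right_of_degree_lt (h1 ▸ ha0d), h1])
  have hNdeg : (N c).natDegree = 2 * m := by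
    have h1 : ((a0 + C c * q) ^ 2).natDegree = 2 * m := by rw [natDegree_pow, had]
    rw [hN]; simp only
    rw [natDegree_sub_eq_left_of_natDegree_lt (by omega), h1]
  have hN0 : N c ≠ 0 := fun h => by rw [h] at hNdeg; simp at hNdeg; omega
  refine ⟨a0 + C c * q, had, fun y hy => by simp [ha0e y hy, (hq0 y).2 hy], hN0, ?_⟩
  change (N c).roots.toFinset.card = _
  rw [Multiset.toFinset_card_of_nodup, IsAlgClosed.card_roots_eq_natDegree, hNdeg]
  rw [Multiset.nodup_iff_count_le_one]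
  intro y
  rw [count_roots]
  by_contra hlt
  obtain ⟨h1, h2⟩ := (one_lt_rootMultiplicity_iff_isRoot hN0).1 (not_le.1 hlt)
  refine hc.2 y (Or.inl ?_) ⟨h1, h2⟩
  have h3 := h1
  have h4 := h2
  rw [IsRoot.def, hNe] at h3
  rw [IsRoot.def, hNd] at h4
  simp only [hH, IsRoot.def, eval_sub, eval_mul, eval_pow, eval_ofNat]
  rw [← sub_eq_zero.1 h3, ← sub_eq_zero.1 h4]
  ring

variable {A : Type*} [AddCommGroup A] {cl : ℂ × ℂ → A} {δ : A}

lemma Dat.pos (h : Dat F g cl δ) : 0 < F.natDegree := by have := h.lo; omega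

/-- small moves with vanishing Abel sum do not change the class -/
theorem Dat.loc_rel (h : Dat F g cl δ) {κ : Type*} [Fintype κ] (c : κ → Ch F g)
    (hx : Function.Injective fun j => (c j).x 0) :
    ∀ᶠ τ in 𝓝 (0 : κ → ℂ), sab c τ = 0 → ∑ j, cl ((c j).pt (τ j)) = ∑ j, cl ((c j).pt 0) := by
  classical
  set s := Fintype.card κ + 1 with hs
  obtain ⟨T, hT1, hT2⟩ := Infinite.exists_superset_card_eq
    (Finset.univ.image fun j => (c j).x 0) (g + 1 + s)
    (Finset.card_image_le.trans (by simp [hs]; omega))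
  set W : ℂ → ℂ := Function.extend (fun j => (c j).x 0) (fun j => (c j).w 0)
    fun y => (exists_sq (F.eval y)).choose with hW
  have hW1 : ∀ j, W ((c j).x 0) = (c j).w 0 := fun j => hx.extend_apply _ _ j
  have hW2 : ∀ y, W y ^ 2 = F.eval y := fun y => by
    by_cases hy : ∃ j, (c j).x 0 = y
    · obtain ⟨j, rfl⟩ := hy; rw [hW1]; exact (c j).on0
    · rw [hW, Function.extend_apply' _ _ _ hy]; exact (exists_sq _).choose_spec
  obtain ⟨a, ha1, ha2, ha3, ha4⟩ := exists_conf h.sqf h.pos (m := g + 1 + s)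
    (by have := h.hi; omega) T hT2 W fun y _ => hW2 y
  set S := (a ^ 2 - F).roots.toFinset with hS
  have hSm : ∀ y, y ∈ S ↔ (-a.eval y) ^ 2 = F.eval y := fun y => by
    simp [hS, mem_roots ha3, sub_eq_zero]
  have hcw : ∀ j, (c j).w 0 = -a.eval ((c j).x 0) := fun j => by
    have := ha2 _ (hT1 (Finset.mem_image_of_mem _ (Finset.mem_univ j)))
    rw [hW1] at this
    linear_combination this
  let e : κ → S := fun j => ⟨(c j).x 0, (hSm _).2 (by rw [← hcw]; exact (c j).on0)⟩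
  have he : Function.Injective e := fun i j hij => hx (congrArg Subtype.val hij)
  choose d hd1 hd2 using fun y : S => exists_ch h.sqf g (P := (y.1, -a.eval y.1)) ((hSm _).1 y.2)
  set c' : S → Ch F g := Function.extend e c d with hc'
  have hc1 : ∀ j, c' (e j) = c j := fun j => he.extend_apply _ _ j
  have hc2 : ∀ y : S, (c' y).x 0 = y.1 ∧ (c' y).w 0 = -a.eval y.1 := fun y => by
    by_cases hy : ∃ j, e j = y
    · obtain ⟨j, rfl⟩ := hy; rw [hc1]; exact ⟨rfl, hcw j⟩
    · rw [hc', Function.extend_apply' _ _ _ hy]; exact ⟨hd1 y, hd2 y⟩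
  have hx' : Function.Injective fun y => (c' y).x 0 := fun y y' hy =>
    Subtype.ext (by simpa only [(hc2 _).1] using hy)
  have hcard : Fintype.card S = 2 * (g + 1 + s) := by simp [ha4]
  have hL := loc_conv h.sqf h.pos h.hi hcard c' hx' ha1 fun y => by rw [(hc2 y).1, (hc2 y).2]; simp
  have hrel : ∀ᶠ τ in 𝓝 (0 : S → ℂ), sab c' τ = 0 → ∑ y, cl ((c' y).pt (τ y)) = (g + 1 + s) • δ := by
    filter_upwards [hL, ev_inj c' hx', ev_pi fun y => (c' y).ev] with τ h1 h2 h3 h0
    obtain ⟨a', b', k1, k2, k3, k4⟩ := h1 h0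
    exact h.h1 s S (fun y => (c' y).pt (τ y)) a' b' hcard h2 (fun y => (h3 y).1) k1 k2 k3 k4
  set E : (κ → ℂ) → S → ℂ := fun τ => Function.extend e τ 0 with hE
  have hE1 : ∀ τ j, E τ (e j) = τ j := fun τ j => he.extend_apply _ _ j
  have hE2 : ∀ τ y, y ∉ Set.range e → E τ y = 0 := fun τ y hy => Function.extend_apply' _ _ _ hy
  have hEt : Tendsto E (𝓝 0) (𝓝 0) := by
    refine tendsto_pi_nhds.2 fun y => ?_
    by_cases hy : y ∈ Set.range e
    · obtain ⟨j, rfl⟩ := hy
      simp only [hE1]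
      exact (continuousAt_apply j (0 : κ → ℂ)).tendsto
    · simp only [hE2 _ _ hy]
      exact tendsto_const_nhds
  filter_upwards [hEt.eventually hrel] with τ h1 h0
  have h2 : sab c' (E τ) = 0 := by
    rw [← h0]
    exact (Fintype.sum_of_injective e he _ _ (fun y hy => by rw [hE2 _ _ hy, Ch.ab0])
      fun j => by rw [hc1, hE1]).symm
  have h3 := hrel.self_of_nhds (sab_zero _)
  have h4 : ∑ j, (cl ((c j).pt (τ j)) - cl ((c j).pt 0)) =
      ∑ y, (cl ((c' y).pt (E τ y)) - cl ((c' y).pt 0)) :=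
    Fintype.sum_of_injective e he _ _ (fun y hy => by rw [hE2 _ _ hy, sub_self])
      fun j => by rw [hc1, hE1]
  rw [Finset.sum_sub_distrib, Finset.sum_sub_distrib, h1 h2] at h4
  simp only [Pi.zero_apply] at h3
  rw [h3, sub_self] at h4
  exact sub_eq_zero.1 h4

section Hom

variable {V : Type*} [NormedAddCommGroup V] [NormedSpace ℝ V]

lemma tendsto_div (z : V) : Tendsto (fun n : ℕ => ((n : ℝ)⁻¹) • z) atTop (𝓝 0) := by
  simpa using (tendsto_inv_atTop_nhds_zero_nat (𝕜 := ℝ)).smul_const z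

lemma nsmul_div (z : V) {n : ℕ} (hn : n ≠ 0) : n • (((n : ℝ)⁻¹) • z) = z := by
  rw [← Nat.cast_smul_eq_nsmul ℝ, smul_smul, mul_inv_cancel₀ (by exact_mod_cast hn), one_smul]

/-- homomorphisms that agree near `0` are equal -/
lemma hom_ext {e e' : V →+ A} (h : ∀ᶠ z in 𝓝 0, e z = e' z) : e = e' := by
  ext z
  obtain ⟨n, h1, h2⟩ := (((tendsto_div z).eventually h).and (eventually_ne_atTop 0)).exists
  rw [← nsmul_div z h2, map_nsmul, map_nsmul, h1]

/-- a local homomorphism extends -/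
lemma ext_hom (c : V → A) (h : ∀ᶠ p in 𝓝 ((0, 0) : V × V), c (p.1 + p.2) = c p.1 + c p.2) :
    ∃ e : V →+ A, ∀ᶠ z in 𝓝 0, e z = c z := by
  obtain ⟨ε, hε, hb⟩ := Metric.eventually_nhds_iff_ball.1 h
  have hadd : ∀ z z' : V, ‖z‖ < ε → ‖z'‖ < ε → c (z + z') = c z + c z' := fun z z' h1 h2 =>
    hb (z, z') (by simp [Prod.dist_eq, h1, h2])
  have h0 : c 0 = 0 := by simpa using hadd 0 0 (by simpa) (by simpa)
  have hn : ∀ (n : ℕ) (z : V), n * ‖z‖ < ε → c (n • z) = n • c z := by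
    intro n z
    induction n with
    | zero => intro _; simp [h0]
    | succ n ih =>
      intro h1
      have h2 := norm_nonneg z
      push_cast at h1
      have h3 : (n : ℝ) * ‖z‖ < ε := by nlinarith
      have h4 : (0 : ℝ) ≤ n * ‖z‖ := by positivity
      rw [succ_nsmul, succ_nsmul, hadd _ _ ((norm_nsmul_le).trans_lt h3) (by nlinarith), ih h3]
  have hnorm : ∀ (n : ℕ) (z : V), ‖((n : ℝ)⁻¹) • z‖ = (n : ℝ)⁻¹ * ‖z‖ := fun n z => by
    rw [norm_smul, norm_inv, Real.norm_natCast]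
  have hmul : ∀ (n k : ℕ) (z : V), n ≠ 0 → k ≠ 0 → ‖((n : ℝ)⁻¹) • z‖ < ε →
      n • c (((n : ℝ)⁻¹) • z) = (n * k) • c ((((n * k : ℕ) : ℝ)⁻¹) • z) := by
    intro n k z h1 h2 h3
    have e1 : (((n * k : ℕ) : ℝ)⁻¹) • z = (k : ℝ)⁻¹ • ((n : ℝ)⁻¹ • z) := by
      rw [smul_smul]; push_cast; rw [mul_inv, mul_comm]
    rw [e1, mul_smul, ← hn k, nsmul_div _ h2]
    rw [hnorm k, ← mul_assoc, mul_inv_cancel₀ (by exact_mod_cast h2), one_mul]
    exact h3
  have hind : ∀ (n k : ℕ) (z : V), n ≠ 0 → k ≠ 0 → ‖((n : ℝ)⁻¹) • z‖ < ε → ‖((k : ℝ)⁻¹) • z‖ < ε →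
      n • c (((n : ℝ)⁻¹) • z) = k • c (((k : ℝ)⁻¹) • z) := by
    intro n k z h1 h2 h3 h4
    rw [hmul n k z h1 h2 h3, hmul k n z h2 h1 h4, mul_comm]
  have hev : ∀ z : V, ∀ᶠ n : ℕ in atTop, n ≠ 0 ∧ ‖((n : ℝ)⁻¹) • z‖ < ε := fun z =>
    (eventually_ne_atTop 0).and ((tendsto_div z).norm.eventually_lt_const (by simpa))
  choose N hN1 hN2 using fun z => (hev z).exists
  refine ⟨AddMonoidHom.mk' (fun z => N z • c (((N z : ℝ)⁻¹) • z)) fun z z' => ?_, ?_⟩
  · obtain ⟨n, h1, h2, h3⟩ := ((hev z).and ((hev z').and (hev (z + z')))).exists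
    rw [hind _ n _ (hN1 _) h1.1 (hN2 _) h3.2, hind _ n _ (hN1 _) h1.1 (hN2 _) h1.2,
      hind _ n _ (hN1 _) h1.1 (hN2 _) h2.2, smul_add, hadd _ _ h1.2 h2.2, smul_add]
  · filter_upwards [ball_mem_nhds 0 hε] with z hz
    have := hind _ 1 z (hN1 z) one_ne_zero (hN2 z) (by simpa using hz)
    simpa using this

end Hom

/-- charts with distinct `x` -/
lemma exists_charts (hF : Squarefree F) (g : ℕ) (κ : Type*) [Fintype κ] (B : Finset ℂ) :
    ∃ c : κ → Ch F g, (Function.Injective fun j => (c j).x 0) ∧ ∀ j, (c j).x 0 ∉ B := by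
  obtain ⟨e⟩ : Nonempty (κ ↪ {y : ℂ // y ∉ B}) := by
    have : Infinite {y : ℂ // y ∉ B} := B.finite_toSet.infinite_compl.to_subtype
    exact ⟨(Fintype.equivFin κ).toEmbedding.trans (Fin.valEmbedding.trans (Infinite.natEmbedding _))⟩
  choose c h1 h2 using fun j => exists_ch hF g (P := ((e j).1, (exists_sq (F.eval (e j).1)).choose))
    (exists_sq _).choose_spec
  refine ⟨c, fun i j hij => e.injective (Subtype.ext ?_), fun j => by rw [h1]; exact (e j).2⟩
  simpa only [h1] using hij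

/-- **existence of the exponential map** -/
theorem Dat.exists_exp (h : Dat F g cl δ) : ∃ ex : (Fin g → ℂ) →+ A, IsExp F g cl ex := by
  classical
  obtain ⟨q, hq, -⟩ := exists_charts h.sqf g (Fin 3 × Fin g) ∅
  have hqa : ∀ a, Function.Injective fun j => (q (a, j)).x 0 := fun a i j hij =>
    (Prod.ext_iff.1 (hq hij)).2
  choose ψ hψa hψ0 hψe _ using fun a : Fin 3 => vinv (fun j => q (a, j)) (hqa a)
  have hψt : ∀ a, Tendsto (ψ a) (𝓝 0) (𝓝 0) := fun a => by
    simpa [hψ0] using (hψa a).continuousAt.tendsto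
  set cc : Fin 3 → (Fin g → ℂ) → A := fun a z =>
    ∑ j, (cl ((q (a, j)).pt (ψ a z j)) - cl ((q (a, j)).pt 0)) with hcc
  have hcc0 : ∀ a, cc a 0 = 0 := fun a => by simp [hcc, hψ0]
  have hR : ∀ᶠ z in 𝓝 (0 : Fin 3 → Fin g → ℂ), ∑ a, z a = 0 → ∑ a, cc a (z a) = 0 := by
    have ht : Tendsto (fun z : Fin 3 → Fin g → ℂ => fun p : Fin 3 × Fin g => ψ p.1 (z p.1) p.2)
        (𝓝 0) (𝓝 0) := tendsto_pi_nhds.2 fun p =>
      (tendsto_pi_nhds.1 (hψt p.1) p.2).comp (continuousAt_apply p.1 (0 : Fin 3 → Fin g → ℂ)).tendsto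
    have he : ∀ᶠ z in 𝓝 (0 : Fin 3 → Fin g → ℂ), ∀ a, sab (fun j => q (a, j)) (ψ a (z a)) = z a :=
      eventually_all.2 fun a => (continuousAt_apply a (0 : Fin 3 → Fin g → ℂ)).tendsto.eventually (hψe a)
    filter_upwards [ht.eventually (h.loc_rel q hq), he] with z h1 h2 h0
    have h3 := h1 (by
      rw [← h0, sab, Fintype.sum_prod_type]
      exact Finset.sum_congr rfl fun a _ => h2 a)
    rw [← sub_eq_zero, ← Finset.sum_sub_distrib, Fintype.sum_prod_type] at h3
    exact h3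
  have hR' : ∀ {ι : Type} {l : Filter ι} (z0 z1 z2 : ι → Fin g → ℂ), Tendsto z0 l (𝓝 0) →
      Tendsto z1 l (𝓝 0) → Tendsto z2 l (𝓝 0) → (∀ i, z0 i + z1 i + z2 i = 0) →
      ∀ᶠ i in l, cc 0 (z0 i) + cc 1 (z1 i) + cc 2 (z2 i) = 0 := by
    intro ι l z0 z1 z2 t0 t1 t2 hz
    have ht : Tendsto (fun i => ![z0 i, z1 i, z2 i]) l (𝓝 0) := tendsto_pi_nhds.2 fun a => by
      fin_cases a
      exacts [t0, t1, t2]
    filter_upwards [ht.eventually hR] with i hi
    simpa [Fin.sum_univ_three] using hi (by simpa [Fin.sum_univ_three] using hz i)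
  have tn : Tendsto (fun z : Fin g → ℂ => -z) (𝓝 0) (𝓝 0) := by
    simpa using (continuous_neg (G := Fin g → ℂ)).tendsto 0
  have h02 := hR' id (fun _ => 0) (fun z => -z) tendsto_id tendsto_const_nhds tn (by simp)
  have h12 := hR' (fun _ => 0) id (fun z => -z) tendsto_const_nhds tendsto_id tn (by simp)
  simp only [hcc0, id, add_zero, zero_add] at h02 h12
  have h01 : ∀ᶠ z in 𝓝 0, cc 1 z = cc 0 z := by
    filter_upwards [h02, h12] with z h1 h2
    exact add_right_cancel (h2.trans h1.symm)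
  have t1 : Tendsto (fun p : (Fin g → ℂ) × (Fin g → ℂ) => p.1) (𝓝 (0, 0)) (𝓝 0) :=
    continuous_fst.tendsto _
  have t2 : Tendsto (fun p : (Fin g → ℂ) × (Fin g → ℂ) => p.2) (𝓝 (0, 0)) (𝓝 0) :=
    continuous_snd.tendsto _
  have t3 : Tendsto (fun p : (Fin g → ℂ) × (Fin g → ℂ) => p.1 + p.2) (𝓝 (0, 0)) (𝓝 0) := by
    simpa using t1.add t2
  obtain ⟨ex, hex⟩ := ext_hom (cc 0) (by
    filter_upwards [hR' _ _ _ t1 t2 (tn.comp t3) (fun p => by simp), t2.eventually h01,
      t3.eventually h02] with p h1 h2 h3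
    rw [h2] at h1
    exact add_right_cancel (h3.trans h1.symm))
  refine ⟨ex, fun c => ?_⟩
  obtain ⟨a, ha, hax⟩ : ∃ a : Fin 3, (∀ᶠ z in 𝓝 0, ex z = cc a z) ∧ ∀ j, (q (a, j)).x 0 ≠ c.x 0 := by
    by_cases h0 : ∀ j, (q (0, j)).x 0 ≠ c.x 0
    · exact ⟨0, hex, h0⟩
    · push Not at h0
      obtain ⟨j, hj⟩ := h0
      refine ⟨1, (hex.and h01).mono fun z hz => hz.1.trans hz.2.symm, fun i hi => ?_⟩
      have := hq (hi.trans hj.symm)
      simp at this
  let c' : Option (Fin g) → Ch F g := fun o => o.elim c fun j => q (a, j)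
  have hx' : Function.Injective fun o => (c' o).x 0 := by
    rintro (_ | i) (_ | j) hij
    · rfl
    · exact absurd hij.symm (hax j)
    · exact absurd hij (hax i)
    · exact congrArg some (hqa a hij)
  have ta : Tendsto (fun t => -c.ab t) (𝓝 0) (𝓝 0) := by
    have := c.anab.continuousAt.tendsto
    rw [c.ab0] at this
    exact tn.comp this
  have tt : Tendsto (fun t : ℂ => fun o : Option (Fin g) => o.elim t (ψ a (-c.ab t))) (𝓝 0) (𝓝 0) := by
    refine tendsto_pi_nhds.2 ?_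
    rintro (_ | j)
    · exact tendsto_id
    · exact (tendsto_pi_nhds.1 (hψt a) j).comp ta
  filter_upwards [tt.eventually (h.loc_rel c' hx'), ta.eventually (hψe a), ta.eventually ha]
    with t h1 h2 h3
  have h4 := h1 (by
    rw [sab, Fintype.sum_option]
    exact add_eq_zero_iff_neg_eq.2 h2.symm)
  rw [Fintype.sum_option, Fintype.sum_option] at h4
  rw [map_neg, hcc] at h3
  simp only [Finset.sum_sub_distrib] at h3
  simp only [c', Option.elim] at h4
  rw [← neg_neg (ex (c.ab t)), h3]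
  rw [eq_sub_of_add_eq h4]
  abel

variable {ex : (Fin g → ℂ) →+ A}

lemma IsExp.sum (he : IsExp F g cl ex) {κ : Type*} [Fintype κ] (c : κ → Ch F g) :
    ∀ᶠ τ in 𝓝 (0 : κ → ℂ), ∑ j, cl ((c j).pt (τ j)) = ∑ j, cl ((c j).pt 0) + ex (sab c τ) := by
  filter_upwards [ev_pi fun j => he (c j)] with τ h
  rw [sab, map_sum, ← Finset.sum_add_distrib]
  exact Finset.sum_congr rfl fun j _ => h j

/-- **endomorphisms**: it is enough to know `T` along `g` charts with distinct `x` -/
theorem IsExp.endo (he : IsExp F g cl ex) {A' V : Type*} [AddCommGroup A'] [AddCommGroup V]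
    (T : A →+ A') (ex' : V →+ A') (M : (Fin g → ℂ) →+ V) (c : Fin g → Ch F g)
    (hx : Function.Injective fun j => (c j).x 0)
    (hT : ∀ j, ∀ᶠ t in 𝓝 (0 : ℂ), T (cl ((c j).pt t) - cl ((c j).pt 0)) = ex' (M ((c j).ab t)))
    (z : Fin g → ℂ) : T (ex z) = ex' (M z) := by
  obtain ⟨ψ, h1, h2, h3, -⟩ := vinv c hx
  have ht : Tendsto ψ (𝓝 0) (𝓝 0) := by simpa [h2] using h1.continuousAt.tendsto
  have : T.comp ex = ex'.comp M := by
    refine hom_ext ?_
    filter_upwards [h3, ht.eventually (he.sum c), ht.eventually (ev_pi hT)] with z k1 k2 k3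
    rw [AddMonoidHom.comp_apply, AddMonoidHom.comp_apply, ← k1, ← sub_eq_iff_eq_add'.2 k2,
      ← Finset.sum_sub_distrib, map_sum, sab, map_sum, map_sum]
    exact Finset.sum_congr rfl fun j _ => k3 j
  exact DFunLike.congr_fun this z

theorem IsExp.unique (hF : Squarefree F) {ex' : (Fin g → ℂ) →+ A} (he : IsExp F g cl ex)
    (he' : IsExp F g cl ex') : ex = ex' := by
  obtain ⟨c, hc, -⟩ := exists_charts hF g (Fin g) ∅
  refine AddMonoidHom.ext fun z => ?_
  exact he.endo (AddMonoidHom.id A) ex' (AddMonoidHom.id _) c hc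
    (fun j => (he' (c j)).mono fun t ht => by simp [ht]) z

/-- the kernel is discrete -/
theorem IsExp.disc (h : Dat F g cl δ) (he : IsExp F g cl ex) : ∀ᶠ z in 𝓝 0, ex z = 0 → z = 0 := by
  obtain ⟨c, hx, -⟩ := exists_charts h.sqf g (Fin g) ∅
  obtain ⟨ψ, h1, h2, h3, -⟩ := vinv c hx
  have ht : Tendsto ψ (𝓝 0) (𝓝 0) := by simpa [h2] using h1.continuousAt.tendsto
  have hne : ∀ i, ∀ᶠ t in 𝓝 (0 : ℂ), ∀ j, j ≠ i → (c i).x t ≠ (c j).x 0 := fun i =>
    eventually_all.2 fun j => by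
      by_cases hj : j = i
      · simp [hj]
      · exact ((c i).anx.continuousAt.eventually_ne fun h => hj (hx h).symm).mono fun t ht _ => ht
  filter_upwards [h3, ht.eventually (he.sum c), ht.eventually (ev_inj c hx),
    ht.eventually (ev_pi fun j => (c j).ev), ht.eventually (ev_pi hne)] with z k1 k2 k3 k4 k5 k0
  rw [k1, k0, add_zero] at k2
  have k6 := h.h2 (fun j => (c j).pt (ψ z j)) (fun j => (c j).pt 0) (fun j => (k4 j).1)
    (fun j => (c j).on0) k3 hx k2
  have k7 : ψ z = 0 := by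
    ext i
    obtain ⟨j, hj⟩ := k6 i
    obtain rfl : j = i := by_contra fun hne => k5 i j hne (congrArg Prod.fst hj)
    have e1 : (c j).x (ψ z j) = (c j).x 0 := congrArg Prod.fst hj
    have e2 : (c j).w (ψ z j) = (c j).w 0 := congrArg Prod.snd hj
    have := (k4 j).2.2.2.2.2
    rw [e1, e2] at this
    simpa using this.symm
  rw [← k1, k7, sab_zero]

section Path

variable {𝕜 : Type*} [RCLike 𝕜] [NormedAlgebra 𝕜 ℂ]

lemma ev_const1 {φ : 𝕜 → ℂ} {s₀ : 𝕜} (h : ∀ᶠ s in 𝓝 s₀, HasDerivAt φ 0 s) :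
    ∀ᶠ s in 𝓝 s₀, φ s = φ s₀ := by
  obtain ⟨r, hr, hb⟩ := Metric.eventually_nhds_iff_ball.1 h
  filter_upwards [ball_mem_nhds s₀ hr] with a ha
  exact isOpen_ball.is_const_of_deriv_eq_zero (convex_ball s₀ r).isPreconnected
    (fun y hy => (hb y hy).differentiableAt.differentiableWithinAt) (fun y hy => (hb y hy).deriv) ha
    (mem_ball_self hr)

/-- the conditions on a path at a parameter -/
def PathAt (F : ℂ[X]) {g : ℕ} (X Y m : 𝕜 → ℂ) (z : 𝕜 → Fin g → ℂ) (s : 𝕜) : Prop :=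
  Y s ^ 2 = F.eval (X s) ∧ HasDerivAt X (m s * Y s) s ∧
    HasDerivAt Y (m s * F.derivative.eval (X s) / 2) s ∧
    ∀ k : Fin g, HasDerivAt (fun t => z t k) (X s ^ (k : ℕ) * m s) s

/-- **path formula**, germ form -/
theorem IsExp.germ (hF : Squarefree F) (he : IsExp F g cl ex) {X Y m : 𝕜 → ℂ} {z : 𝕜 → Fin g → ℂ}
    {s₀ : 𝕜} (hp : ∀ᶠ s in 𝓝 s₀, PathAt F X Y m z s) :
    ∀ᶠ s in 𝓝 s₀, cl (X s, Y s) = cl (X s₀, Y s₀) + ex (z s - z s₀) := by
  obtain ⟨c, h1, h2⟩ := exists_ch hF g (P := (X s₀, Y s₀)) hp.self_of_nhds.1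
  simp only at h1 h2
  set τ : 𝕜 → ℂ := fun s => c.α * (X s - c.x 0) + c.β * (Y s - c.w 0) with hτ
  have cX := hp.self_of_nhds.2.1.continuousAt
  have cY := hp.self_of_nhds.2.2.1.continuousAt
  have τ0 : τ s₀ = 0 := by simp [hτ, h1, h2]
  have tτ : Tendsto τ (𝓝 s₀) (𝓝 0) := by
    have : ContinuousAt τ s₀ := by rw [hτ]; fun_prop
    simpa [τ0] using this.tendsto
  have tP : Tendsto (fun s => (X s, Y s)) (𝓝 s₀) (𝓝 (c.x 0, c.w 0)) := by
    rw [h1, h2]; exact (cX.prodMk cY).tendsto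
  have hu : ∀ᶠ s in 𝓝 s₀, c.x (τ s) = X s ∧ c.w (τ s) = Y s := by
    filter_upwards [tP.eventually c.uniq, hp] with s k1 k2
    exact Prod.ext_iff.1 (k1 k2.1)
  have hz : ∀ᶠ s in 𝓝 s₀, ∀ k, c.ab (τ s) k - z s k = c.ab (τ s₀) k - z s₀ k := by
    refine eventually_all.2 fun k => ev_const1 (φ := fun s => c.ab (τ s) k - z s k) ?_
    filter_upwards [hp, hu, tτ.eventually c.ev] with s k1 k2 k3
    have d1 : HasDerivAt τ (c.α * (m s * Y s) + c.β * (m s * F.derivative.eval (X s) / 2)) s :=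
      ((k1.2.1.sub_const _).const_mul _).fun_add ((k1.2.2.1.sub_const _).const_mul _)
    have d2 : HasDerivAt (fun t => c.ab t k) (c.x (τ s) ^ (k : ℕ) * c.η (τ s)) (τ s) :=
      hasDerivAt_pi.1 k3.2.2.2.1 k
    refine ((d2.comp s d1).fun_sub (k1.2.2.2 k)).congr_deriv ?_
    have := k3.2.2.2.2.1
    rw [k2.1, k2.2] at this
    rw [k2.1]
    linear_combination X s ^ (k : ℕ) * m s * this
  filter_upwards [hu, hz, tτ.eventually (he c)] with s k1 k2 k3
  have : c.ab (τ s) = z s - z s₀ := by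
    ext k
    have := k2 k
    rw [τ0, c.ab0] at this
    simp only [Pi.zero_apply, Pi.sub_apply] at this ⊢
    linear_combination this
  rw [← this, ← k1.1, ← k1.2, ← h1, ← h2]
  exact k3

/-- **path formula** -/
theorem IsExp.path (hF : Squarefree F) (he : IsExp F g cl ex) {X Y m : 𝕜 → ℂ} {z : 𝕜 → Fin g → ℂ}
    {S : Set 𝕜} (hS : IsPreconnected S) (hp : ∀ s₀ ∈ S, ∀ᶠ s in 𝓝 s₀, PathAt F X Y m z s)
    {s t : 𝕜} (hs : s ∈ S) (ht : t ∈ S) : cl (X s, Y s) = cl (X t, Y t) + ex (z s - z t) := by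
  letI : TopologicalSpace A := ⊥
  have : DiscreteTopology A := ⟨rfl⟩
  have hc : ContinuousOn (fun s => cl (X s, Y s) - ex (z s)) S := fun s₀ h₀ => by
    refine ContinuousAt.continuousWithinAt ?_
    refine (continuousAt_const (y := cl (X s₀, Y s₀) - ex (z s₀))).congr ?_
    filter_upwards [he.germ hF (hp s₀ h₀)] with s h
    rw [h, map_sub]; abel
  have := hS.constant hc hs ht
  rw [map_sub, eq_add_of_sub_eq this]; abel

end Path

end Crest.Agent.T15.Ax
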