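import Mathlib
import Crest.Agent.T15.Rk2_31
import Crest.Agent.T15.AjB_55
import Crest.Agent.T15.AxC_14

/-!
# Row 15, block F (helper31): torsion of hyperelliptic Jacobians, words and reduction to a lattice

* `RkStmt` : `#Pic[n] = n ^ (2 g)` for `w ^ 2 = F(x)` over algebraically closed subfields of `ℂ`;
* `LatStmt` : the kernel of the exponential is a lattice of rank `2 g`; `rk_of_lat`;
* `RkStmt.finite`, `RkStmt.finrank`, `RkStmt.finite_alg`, `RkStmt.finrank_alg`.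
-/

set_option autoImplicit false
set_option linter.all false

namespace Crest.Agent.T15.Rk

open Module Polynomial
open Crest.Agent.R013.RR7_948 Crest.Agent.R013.PicD_398 Crest.Agent.R013.TP_928
open Crest.Agent.R013.CE9_280 (KO iota isCE)
open Crest.Agent.T15.Hy

/-- the number of torsion classes -/
def RkStmt : Prop :=
  ∀ (k K : Type) [Field k] [IsAlgClosed k] [CharZero k] [Field K] [Algebra k K]
    [Algebra (RatFunc k) K] [IsScalarTower k (RatFunc k) K] [FiniteDimensional (RatFunc k) K]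
    [Algebra.IsSeparable (RatFunc k) K] (_ : k →+* ℂ) (F : k[X]) (x w : K) (g : ℕ), Hyp F x w →
    2 * g + 1 ≤ F.natDegree → F.natDegree ≤ 2 * g + 2 → ∀ n : ℕ, n ≠ 0 →
    Nat.card {ξ : Pic k K // n • ξ = 0} = n ^ (2 * g)

/-- the analytic input -/
def LatStmt : Prop :=
  ∀ (F : ℂ[X]) (g : ℕ) (A : Type) [AddCommGroup A] (cl : ℂ × ℂ → A) (δ : A)
    (ex : (Fin g → ℂ) →+ A), Ax.Dat F g cl δ → Ax.IsExp F g cl ex →
    (∀ P Q : ℂ × ℂ, P.2 ^ 2 = F.eval P.1 → Q.2 ^ 2 = F.eval Q.1 → cl P - cl Q ∈ ex.range) ∧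
    Module.Finite ℤ ex.ker ∧ Module.finrank ℤ ex.ker = 2 * g

theorem rk_of_lat (hL : LatStmt) : RkStmt := by
  intro k K _ _ _ _ _ _ _ _ _ φ F x w g h lo hi n hn
  letI : Algebra k ℂ := φ.toAlgebra
  rw [card_base (isCE k K ℂ) hn]
  have h' := hyp_base (isCE k K ℂ) h
  have hd := Aj.dat h' (g := g) (by rwa [natDegree_map]) (by rwa [natDegree_map])
  obtain ⟨ex, he⟩ := hd.exists_exp
  obtain ⟨h1, h2, h3⟩ := hL _ _ _ _ _ ex hd he
  obtain ⟨b, hb⟩ := Ax.exists_sq ((F.map (algebraMap k ℂ)).eval 0)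
  have h4 := Aj.Pic0_le h' ex.range (P₀ := (0, b)) fun P hP => h1 P _ hP hb
  haveI : Module.Finite ℤ (AddSubgroup.toIntSubmodule ex.ker) := h2
  rw [← h3]
  exact card_tors_lat ex (AddSubgroup.toIntSubmodule ex.ker) (fun v => Iff.rfl) hn
    fun y hy => h4 (Wp.degPic_eq_zero hn hy)

variable {k K : Type} [Field k] [IsAlgClosed k] [CharZero k] [Field K] [Algebra k K]
  [Algebra (RatFunc k) K] [IsScalarTower k (RatFunc k) K] [FiniteDimensional (RatFunc k) K]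
  [Algebra.IsSeparable (RatFunc k) K] {F : k[X]} {x w : K} {g : ℕ}

theorem RkStmt.finite (hR : RkStmt) (φ : k →+* ℂ) (h : Hyp F x w) (p : ℕ) [hp : Fact p.Prime] :
    Module.Finite ℤ_[p] (Tate p (Pic k K)) :=
  finite_of_card (hR k K φ F x w ((F.natDegree - 1) / 2) h (by have := h.pos; omega)
    (by have := h.pos; omega) p hp.out.ne_zero)

theorem RkStmt.finite_tors (hR : RkStmt) (φ : k →+* ℂ) (h : Hyp F x w) {n : ℕ} (hn : n ≠ 0) :
    Finite {ξ : Pic k K // n • ξ = 0} :=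
  Nat.finite_of_card_ne_zero (by
    rw [hR k K φ F x w ((F.natDegree - 1) / 2) h (by have := h.pos; omega)
      (by have := h.pos; omega) n hn]
    exact pow_ne_zero _ hn)

theorem RkStmt.finrank (hR : RkStmt) (φ : k →+* ℂ) (h : Hyp F x w) (lo : 2 * g + 1 ≤ F.natDegree)
    (hi : F.natDegree ≤ 2 * g + 2) (p : ℕ) [hp : Fact p.Prime] :
    Module.finrank ℤ_[p] (Tate p (Pic k K)) = 2 * g :=
  finrank_of_card (lf_pic p) (hR k K φ F x w g h lo hi p hp.out.ne_zero)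

omit [IsAlgClosed k] in
theorem nonempty_hom [Algebra.IsAlgebraic ℚ k] : Nonempty (k →+* ℂ) :=
  ⟨(IsAlgClosed.lift : k →ₐ[ℚ] ℂ).toRingHom⟩

theorem RkStmt.finite_alg [Algebra.IsAlgebraic ℚ k] (hR : RkStmt) (h : Hyp F x w) (p : ℕ)
    [Fact p.Prime] : Module.Finite ℤ_[p] (Tate p (Pic k K)) :=
  nonempty_hom.elim fun φ => hR.finite φ h p

theorem RkStmt.finite_tors_alg [Algebra.IsAlgebraic ℚ k] (hR : RkStmt) (h : Hyp F x w) {n : ℕ}
    (hn : n ≠ 0) : Finite {ξ : Pic k K // n • ξ = 0} :=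
  nonempty_hom.elim fun φ => hR.finite_tors φ h hn

theorem RkStmt.finrank_alg [Algebra.IsAlgebraic ℚ k] (hR : RkStmt) (h : Hyp F x w)
    (lo : 2 * g + 1 ≤ F.natDegree) (hi : F.natDegree ≤ 2 * g + 2) (p : ℕ) [Fact p.Prime] :
    Module.finrank ℤ_[p] (Tate p (Pic k K)) = 2 * g :=
  nonempty_hom.elim fun φ => hR.finrank φ h lo hi p

end Crest.Agent.T15.Rk
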