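import Mathlib
import Crest.Agent.T15.Rk3_31
import Crest.Agent.T15.AxD_14

/-!
# Row 15, block F (helper31): the torsion count of hyperelliptic Jacobians
-/

set_option autoImplicit false

namespace Crest.Agent.T15.Rk

theorem latStmt : LatStmt := by
  intro F g A _ cl δ ex h he
  obtain ⟨h1, -, h3⟩ := h.lattice he
  exact ⟨fun P Q hP hQ => h.mem_range he hP hQ, h1, h3⟩

/-- **`#Pic[n] = n ^ (2 g)`** -/
theorem rkStmt : RkStmt := rk_of_lat latStmt

end Crest.Agent.T15.Rk
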