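import Mathlib
import Crest.Agent.T15.KfE_23
import Crest.Agent.T15.MoC_29
import Crest.Agent.T15.Rk4_31
import Crest.Agent.R013.RR20_948

/-!
# Row 15, block F (helper23): the two geometric inputs of the `j`-algebra

* `pic_neg` : the hyperelliptic involution is `-1` on classes of degree zero; `pic_negY`;
* `hypE`, `algE`, `rank_E`, `rank_Y` : the genus one subfield `Ei = C(A, B2)` of `Y`.
-/

set_option autoImplicit false
set_option linter.all false

namespace Crest.Agent.T15.KfJ

open Polynomial Module IntermediateField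
open Crest.Agent.R013.RR7_948 Crest.Agent.R013.RR8_948 Crest.Agent.R013.RR9_948
open Crest.Agent.R013.RR11_948 Crest.Agent.R013.RR12_948 Crest.Agent.R013.PicD_398
open Crest.Agent.R013.GR2_921 Crest.Agent.R013.Frob1_914 Crest.Agent.R013.TP_928
open Crest.Agent.R013.RR20_948 (ratAlg ratHom ratAlg_tower ratHom_X)
open Crest.Agent.T15.Hy Crest.Agent.T15.Kf

section hyp

variable {k K : Type*} [Field k] [Field K] [Algebra k K] {F : k[X]} {x w : K}

theorem hyp_tr (h : Hyp F x w) : Transcendental k x := fun ⟨p, hp, h0⟩ => hp (h.tr p h0)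

theorem ratHom_alg (hx : Transcendental k x) (p : k[X]) :
    ratHom x hx (algebraMap k[X] (RatFunc k) p) = aeval x p := by
  rw [← RatFunc.aeval_X_left_eq_algebraMap, ← aeval_algHom_apply, ratHom_X]

theorem hyp_finite (h : Hyp F x w) :
    letI := ratAlg x (hyp_tr h); FiniteDimensional (RatFunc k) K := by
  classical
  letI := ratAlg x (hyp_tr h)
  refine ⟨⟨{1, w}, eq_top_iff.mpr fun f _ => ?_⟩⟩
  obtain ⟨A, B, c, hc, he⟩ := h.gen f
  rw [Finset.coe_pair, Submodule.mem_span_pair]
  refine ⟨algebraMap k[X] _ A / algebraMap k[X] _ c, algebraMap k[X] _ B / algebraMap k[X] _ c, ?_⟩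
  have e : ∀ r : RatFunc k, algebraMap (RatFunc k) K r = ratHom x (hyp_tr h) r := fun _ => rfl
  rw [Algebra.smul_def, Algebra.smul_def, e, e, map_div₀, map_div₀, ratHom_alg, ratHom_alg,
    ratHom_alg]
  have := h.aeval_ne hc
  unfold el at he
  field_simp
  linear_combination -he

theorem eq_iota (h : Hyp F x w) (f : K →+* K) (hc : ∀ c, f (algebraMap k K c) = algebraMap k K c)
    (hx : f x = x) (hw : f w = -w) (y : K) : f y = h.iota y := by
  let f' : K →ₐ[k] K := { f with commutes' := hc }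
  have ha : ∀ p : k[X], f (aeval x p) = aeval x p := fun p => by
    have := aeval_algHom_apply f' x p
    rw [show f' x = x from hx] at this
    exact this.symm
  obtain ⟨A, B, c, hc0, he⟩ := h.gen y
  apply mul_right_cancel₀ (h.aeval_ne hc0)
  have h1 := congrArg f he
  rw [map_mul, ha] at h1
  rw [h1, show h.iota y = h.io y from rfl, h.io_spec he]
  simp only [el, map_add, map_mul, ha, hw, map_neg]
  ring

variable [Algebra (RatFunc k) K] [IsScalarTower k (RatFunc k) K] [FiniteDimensional (RatFunc k) K]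
  [Algebra.IsSeparable (RatFunc k) K] [IsAlgClosed k]

theorem cls_add_iota (h : Hyp F x w) (D : Pl k K →₀ ℤ) (hD : ∀ P, D P ≠ 0 → P.v x ≤ 1) :
    cls D + cls (h.siota.D D) = cls (degD D • Dinf k x) := by
  have key : ∀ P, D P ≠ 0 → cls (Finsupp.single P (1 : ℤ)) +
      cls (Finsupp.single (h.siota.pl P) (1 : ℤ)) = cls (Dinf k x) := fun P hP => by
    have hA := h.at_ev (hD P hP)
    have := h.cls_pt_add (hA.sq h.sq)
    rwa [h.pt_eq hA, h.pt_eq (hA.iota h)] at this
  rw [degD_eq_sum]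
  conv_lhs => rw [← Finsupp.sum_single D]
  simp only [Finsupp.sum, map_sum]
  rw [← Finset.sum_add_distrib, Finset.sum_smul, map_sum]
  refine Finset.sum_congr rfl fun P hP => ?_
  rw [map_zsmul, ← key P (Finsupp.mem_support_iff.mp hP), SI.D_single, ← map_add, ← map_add,
    ← map_zsmul, smul_add, Finsupp.smul_single, Finsupp.smul_single, smul_eq_mul, mul_one]

/-- the hyperelliptic involution is `-1` on classes of degree zero -/
theorem pic_siota (h : Hyp F x w) {ξ : Pic k K} (h0 : degPic ξ = 0) : h.siota.pic ξ = -ξ := by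
  obtain ⟨D, rfl, hD⟩ := Wp.exists_move ξ (Dinf k x).support
  have h1 := cls_add_iota h D fun P hP => by
    by_contra hc
    have h2 := not_le.mp hc
    refine hP (hD P (Finsupp.mem_support_iff.mpr ?_))
    rw [Dinf_of_lt h.x_ne h2]
    have := divf_neg_of_lt (k := k) h.x_ne h2
    omega
  rw [degPic_cls] at h0
  rw [h0, zero_smul, map_zero] at h1
  rw [SI.pic_cls]
  exact eq_neg_of_add_eq_zero_right h1

theorem pic_neg (h : Hyp F x w) (e : SI k K k K)
    (hc : ∀ c, e.f (algebraMap k K c) = algebraMap k K c) (hx : e.f x = x) (hw : e.f w = -w)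
    {ξ : Pic k K} (h0 : degPic ξ = 0) : e.pic ξ = -ξ := by
  rw [← pic_siota h h0]
  exact Rk.pic_ext (fun y => eq_iota h (e.f : K →+* K) hc hx hw y) ξ

end hyp

section Y

variable {C Y : Type*} [Field C] [Field Y] [Algebra C Y] {P : Par C} {A B2 u : Y}

/-- `A` in `Ei` -/
def AE (A B2 : Y) : Ei C A B2 := ⟨A, A_mem A B2⟩
/-- `W` in `Ei` -/
def WE (P : Par C) (A B2 : Y) : Ei C A B2 := ⟨W P A B2, W_mem P A B2⟩

/-- `Ei` is `W ^ 2 = a (A ^ 4 - b)` -/
theorem hypE (h : IsY P A B2 u) : Hyp (G P) (AE A B2 : Ei C A B2) (WE P A B2) := by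
  refine Mo.hyp_of_adjoin P.two (sep_G P) (by rw [natDegree_G]; norm_num) ?_ ?_ ?_
  · intro ha
    exact tr_A h (ha.algebraMap (A := Y))
  · apply Subtype.ext
    have := aeval_algebraMap_apply Y (AE A B2 : Ei C A B2) (G P)
    exact (W_sq h.eq1).trans this
  · apply IntermediateField.map_injective (Ei C A B2).val
    rw [adjoin_map, Set.image_pair, ← AlgHom.fieldRange_eq_map, fieldRange_val]
    exact adjoin_AW P A B2

/-- the function field structure of `Ei` -/
@[reducible] noncomputable def algE (h : IsY P A B2 u) : Algebra (RatFunc C) (Ei C A B2) :=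
  ratAlg (AE A B2) (hyp_tr (hypE h))

theorem towE (h : IsY P A B2 u) : letI := algE h; IsScalarTower C (RatFunc C) (Ei C A B2) :=
  ratAlg_tower _ _

theorem finE (h : IsY P A B2 u) : letI := algE h; FiniteDimensional (RatFunc C) (Ei C A B2) :=
  hyp_finite (hypE h)

theorem sepE [CharZero C] (h : IsY P A B2 u) :
    letI := algE h; Algebra.IsSeparable (RatFunc C) (Ei C A B2) := by
  letI := algE h
  haveI := finE h
  infer_instance

theorem sepEY [CharZero C] (h : IsY P A B2 u) : Algebra.IsSeparable (Ei C A B2) Y := by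
  haveI := finite_Ei h
  haveI : CharZero (Ei C A B2) := algebraRat.charZero _
  infer_instance

/-- maps that agree on the constants, `A` and `B2` agree on `Ei` -/
theorem ext_Ei {K : Type*} [Field K] (f f' : Y →+* K)
    (hc : ∀ c, f (algebraMap C Y c) = f' (algebraMap C Y c)) (hA : f A = f' A)
    (hB : f B2 = f' B2) (e : Ei C A B2) : f e = f' e := by
  obtain ⟨e, he⟩ := e
  show f e = f' e
  induction he using adjoin_induction with
  | mem z hz => rcases hz with rfl | rfl <;> assumption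
  | algebraMap c => exact hc c
  | add a b _ _ h1 h2 => rw [map_add, map_add, h1, h2]
  | inv a _ h1 => rw [map_inv₀, map_inv₀, h1]
  | mul a b _ _ h1 h2 => rw [map_mul, map_mul, h1, h2]

theorem fix_Ei {K : Type*} [Field K] [Algebra C K] [Algebra Y K] [IsScalarTower C Y K]
    (x : K ≃ₐ[C] K) (hA : x (algebraMap Y K A) = algebraMap Y K A)
    (hB : x (algebraMap Y K B2) = algebraMap Y K B2) (e : Ei C A B2) :
    x (algebraMap Y K e) = algebraMap Y K e :=
  ext_Ei ((x : K →+* K).comp (algebraMap Y K)) (algebraMap Y K) (fun c => by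
    rw [RingHom.comp_apply, ← IsScalarTower.algebraMap_apply]; exact x.commutes c) hA hB e

variable [Algebra (RatFunc C) Y] [IsScalarTower C (RatFunc C) Y] [FiniteDimensional (RatFunc C) Y]
  [Algebra.IsSeparable (RatFunc C) Y] [IsAlgClosed C]

/-- `A ↦ -A` is `-1` on classes of degree zero -/
theorem pic_negY (h : IsY P A B2 u) (e : SI C Y C Y)
    (hc : ∀ c, e.f (algebraMap C Y c) = algebraMap C Y c) (hA : e.f A = -A) (hB : e.f B2 = B2)
    (hu : e.f u = u) {ξ : Pic C Y} (h0 : degPic ξ = 0) : e.pic ξ = -ξ := by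
  obtain ⟨al, be, hr⟩ := Mo.exists_rt P
  have a : Mo.Act hr.par A B2 u (RingHom.id C) (e.f : Y →+* Y) (-1) :=
    ⟨hc, ⟨rfl, rfl, rfl, rfl⟩, by simpa using hA, by simpa using hB, hu⟩
  obtain ⟨h1, h2⟩ := (hr.isY h).act_neg a rfl rfl
  exact pic_neg (hr.hyp h) e hc h1 h2 h0

theorem pic_negY' (h : IsY P A B2 u) (ι : Y ≃ₐ[C] Y) (hA : ι A = -A) (hB : ι B2 = B2)
    (hu : ι u = u) (ξ : Pic C Y) (h0 : degPic ξ = 0) : (Wp.siOf C ι).pic ξ = -ξ :=
  pic_negY h (Wp.siOf C ι) ι.commutes hA hB hu h0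

end Y

section rank

variable {C Y : Type} [Field C] [Field Y] [Algebra C Y] {P : Par C} {A B2 u : Y}
  [IsAlgClosed C] [CharZero C]

theorem rank_Y [Algebra (RatFunc C) Y] [IsScalarTower C (RatFunc C) Y]
    [FiniteDimensional (RatFunc C) Y] [Algebra.IsSeparable (RatFunc C) Y] (φ : C →+* ℂ)
    (h : IsY P A B2 u) (p : ℕ) [Fact p.Prime] :
    Module.Finite ℤ_[p] (Tate p (Pic C Y)) ∧ finrank ℤ_[p] (Tate p (Pic C Y)) = 6 := by
  obtain ⟨al, be, hr⟩ := Mo.exists_rt P
  have hd := hr.par.natDegree_F P.two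
  exact ⟨Rk.rkStmt.finite φ (hr.hyp h) p,
    Rk.rkStmt.finrank (g := 3) φ (hr.hyp h) (by omega) (by omega) p⟩

/-- for ANY function field structure on `Ei` -/
theorem rank_E [Algebra (RatFunc C) (Ei C A B2)] [IsScalarTower C (RatFunc C) (Ei C A B2)]
    [FiniteDimensional (RatFunc C) (Ei C A B2)] [Algebra.IsSeparable (RatFunc C) (Ei C A B2)]
    (φ : C →+* ℂ) (h : IsY P A B2 u) (p : ℕ) [Fact p.Prime] :
    Module.Finite ℤ_[p] (Tate p (Pic C (Ei C A B2))) ∧
      finrank ℤ_[p] (Tate p (Pic C (Ei C A B2))) = 2 := by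
  have hd := natDegree_G P
  exact ⟨Rk.rkStmt.finite φ (hypE h) p,
    Rk.rkStmt.finrank (g := 1) φ (hypE h) (by omega) (by omega) p⟩

end rank

end Crest.Agent.T15.KfJ
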