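import Crest.Agent.T15.Jy_16
import Crest.Agent.T15.Jc_16
import Crest.Agent.T15.KfJ_23
import Crest.Agent.T15.FaS_49
import Crest.Agent.T15.FDef_67

/-!
# Row 15, block F (helper16): the algebra of `j` and `y` for `Ht.Mdl`
-/

set_option autoImplicit false
set_option linter.all false

noncomputable section

namespace Crest.Agent.T15.Jm

open Module
open Crest.Agent.R013.PicD_398 Crest.Agent.R013.Frob1_914 Crest.Agent.R013.TP_928
open Crest.Agent.T15.Wp Crest.Agent.T15.Rk Crest.Agent.T15.Jy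
open Crest.Agent.T15.Ht (Mdl)
open Crest.Agent.T15.C (Om Gam)

section iso

variable {C Y : Type*} [Field C] [Field Y] [Algebra C Y]

/-- the parameters without `al`, `be` -/
def kf (P : Mo.Par C) (h2 : (2 : C) ≠ 0) : Kf.Par C :=
  ⟨P.p1, P.p2, P.p3, P.t, P.sum, h2, P.h1, P.h2, P.h3, P.k1, P.k2, P.k3, P.ht⟩

theorem eqs_uniq {P : Mo.Par Y} {A B2 u A' B2' u' : Y} (h : Mo.Eqs P A B2 u)
    (h' : Mo.Eqs P A' B2' u') (hb : P.z A B2 u ^ 2 - P.b ≠ 0) (hz : P.z A B2 u = P.z A' B2' u')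
    (hw : P.w A B2 u = P.w A' B2' u') : A = A' ∧ B2 = B2' ∧ u = u' := by
  have hu : u = u' := by rw [h.u_eq, h'.u_eq, hz]
  refine ⟨by rw [h.A_eq hb, h'.A_eq (hz ▸ hb), hz, hw], ?_, hu⟩
  rw [h.B_eq, h'.B_eq, h.V_eq, h.R_eq, h'.V_eq, h'.R_eq, h.V'_eq, h.R'_eq, h'.V'_eq, h'.R'_eq, hz,
    hu]

/-- two systems of generators differ by an automorphism -/
theorem exists_iso {P : Mo.Par C} {A B2 u A' B2' u' : Y} (h : Mo.IsY P A B2 u)
    (h' : Mo.IsY P A' B2' u') : ∃ e : SI C Y C Y, e.s = RingEquiv.refl C ∧ e.f A = A' ∧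
      e.f B2 = B2' ∧ e.f u = u' := by
  obtain ⟨e, h1, h2, h3⟩ := Fa.exists_SI h.hyp h'.hyp (RingEquiv.refl C) (by simp)
  have hc : ∀ c, e.f (algebraMap C Y c) = algebraMap C Y c := fun c => by rw [e.comm, h1]; rfl
  have hP : (P.up Y).map (e.f : Y →+* Y) = P.up Y := by
    simp only [Mo.Par.up, Mo.Par.map, RingHom.coe_coe, hc]
  have hz := Mo.map_z (e.f : Y →+* Y) (P.up Y) A B2 u
  have hw := Mo.map_w (e.f : Y →+* Y) (P.up Y) A B2 u
  rw [hP] at hz hw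
  have hE : Mo.Eqs (P.up Y) (e.f A) (e.f B2) (e.f u) := by
    refine ⟨h.eqs.two, ?_, ?_, ?_, ?_⟩
    · simpa [hc, map_ofNat] using congrArg e.f h.eqs.k0
    · simpa [hc, map_ofNat, Mo.Par.Xc, Mo.Par.V] using congrArg e.f h.eqs.cub
    · simpa [hc] using (map_ne_zero e.f).2 h.eqs.n3
    · simpa [hc] using (map_ne_zero e.f).2 h.eqs.n2
  obtain ⟨a, b, c⟩ := eqs_uniq h'.eqs hE h'.b_ne (h2.symm.trans hz) (h3.symm.trans hw)
  exact ⟨e, h1, a.symm, b.symm, c.symm⟩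

theorem isY_i {P : Mo.Par C} {A B2 u : Y} (h : Mo.IsY P A B2 u) {i : C} (hi : i ^ 2 = -1) :
    Mo.IsY P (algebraMap C Y i * A) (-B2) u := by
  have hY : algebraMap C Y i ^ 2 = -1 := by rw [← map_pow, hi, map_neg, map_one]
  refine ⟨h.two, ?_, ?_, h.tr, ?_⟩
  · rw [← h.k0, mul_pow, hY]; ring
  · rw [← h.cub]; simp only [Mo.Par.Xc, Mo.Par.V, mul_pow, hY]; ring
  · rw [eq_top_iff, ← h.gen, IntermediateField.adjoin_le_iff]
    rintro x (rfl | rfl | rfl)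
    · have : x = algebraMap C Y (-i) * (algebraMap C Y i * x) := by
        rw [map_neg]; linear_combination x * hY
      rw [SetLike.mem_coe, this]
      conv => enter [1]; rw [← this]
      exact mul_mem (IntermediateField.algebraMap_mem _ _)
        (IntermediateField.subset_adjoin _ _ (by simp))
    · exact neg_mem_iff.1 (IntermediateField.subset_adjoin _ _ (by simp))
    · exact IntermediateField.subset_adjoin _ _ (by simp)

end iso

variable {C : Type} [Field C] [IsAlgClosed C] [CharZero C] {P : Mo.Par C} (M : Mdl P)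

theorem moY : Mo.IsY P M.A M.B2 M.u := ⟨two_ne_zero, M.eqs.k0, M.eqs.cub, M.tr, M.gen⟩

theorem kfY : Kf.IsY (kf P two_ne_zero) M.A M.B2 M.u := ⟨M.eqs.k0, M.eqs.cub, M.tr, M.gen⟩

theorem md : Md (kf P two_ne_zero) M.A M.B2 M.u M.B M.r :=
  ⟨kfY M, M.hB, M.genK, M.nB, M.rA, M.rB, M.ru⟩

theorem j_eq : M.j = J M.Y M.rS := rfl

theorem exists_dat : ∃ g : M.K ≃ₐ[M.Y] M.K, g M.B = -M.B ∧ Dat M.Y M.rS g := by
  obtain ⟨g, h1, h2⟩ := (md M).exists_g
  exact ⟨g, h1, (md M).gal, (md M).two, h2, (md M).grg h1⟩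

/-- the automorphism `y` -/
theorem exists_y {i : C} (hi : i ^ 2 = -1) : ∃ y : SI C M.Y C M.Y, y.s = RingEquiv.refl C ∧
    y.f M.A = algebraMap C M.Y i * M.A ∧ y.f M.B2 = -M.B2 ∧ y.f M.u = M.u :=
  exists_iso (moY M) (isY_i (moY M) hi)

/-- `y` is of the type `A ↦ i A`, `B2 ↦ -B2`, `u ↦ u` -/
structure IsYy (i : C) (y : SI C M.Y C M.Y) : Prop where
  hi : i ^ 2 = -1
  s : y.s = RingEquiv.refl C
  hA : y.f M.A = algebraMap C M.Y i * M.A
  hB : y.f M.B2 = -M.B2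
  hu : y.f M.u = M.u

theorem exists_isYy {i : C} (hi : i ^ 2 = -1) : ∃ y, IsYy M i y := by
  obtain ⟨y, a, b, c, d⟩ := exists_y M hi
  exact ⟨y, hi, a, b, c, d⟩

variable {M}

theorem IsYy.comm {i : C} {y : SI C M.Y C M.Y} (h : IsYy M i y) (c : C) :
    y.f (algebraMap C M.Y c) = algebraMap C M.Y c := by rw [y.comm, h.s]; rfl

theorem IsYy.yyA {i : C} {y : SI C M.Y C M.Y} (h : IsYy M i y) : y.f (y.f M.A) = -M.A := by
  rw [h.hA, map_mul, h.comm, h.hA, ← mul_assoc, ← map_mul, ← sq, h.hi, map_neg, map_one,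
    neg_one_mul]

/-- `y² = -1` on `Pic⁰` -/
theorem IsYy.yy {i : C} {y : SI C M.Y C M.Y} (h : IsYy M i y) {a : Pic C M.Y} (ha : degPic a = 0) :
    y.pic (y.pic a) = -a := by
  rw [← SI.pic_trans]
  exact KfJ.pic_negY (kfY M) (y.trans y) (fun c => by
      show y.f (y.f _) = _
      rw [h.comm, h.comm]) h.yyA
    (by show y.f (y.f _) = _; rw [h.hB, map_neg, h.hB, neg_neg])
    (by show y.f (y.f _) = _; rw [h.hu, h.hu]) ha

variable (M) in
theorem six : Six M.Y M.rS := by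
  obtain ⟨i, hi⟩ := IsAlgClosed.exists_pow_nat_eq (-1 : C) two_pos
  obtain ⟨y, h⟩ := exists_isYy M hi
  refine six_of (ι := y.trans y) ((md M).r6 (ι := ((y.trans y).f : M.Y →+* M.Y)) (fun c => ?_)
    h.yyA ?_ ?_) fun a ha => by rw [SI.pic_trans, h.yy ha]
  · show y.f (y.f _) = _
    rw [h.comm, h.comm]
  · show y.f (y.f _) = _
    rw [h.hB, map_neg, h.hB, neg_neg]
  · show y.f (y.f _) = _
    rw [h.hu, h.hu]

variable (M) in
theorem deg_j {a : Pic C M.Y} (ha : degPic a = 0) : degPic (M.j a) = 0 := deg_J _ ha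

variable (M) in
/-- **`j³ = 3 j` on `Pic⁰`** -/
theorem jjj {a : Pic C M.Y} (ha : degPic a = 0) : M.j (M.j (M.j a)) = 3 • M.j a := by
  obtain ⟨g, -, H⟩ := exists_dat M
  exact H.JJJ (six M) ha

/-- **`j y = - y j` on `Pic⁰`** -/
theorem IsYy.jy {i : C} {y : SI C M.Y C M.Y} (h : IsYy M i y) {a : Pic C M.Y} (ha : degPic a = 0) :
    M.j (y.pic a) = -y.pic (M.j a) := by
  obtain ⟨g, -, H⟩ := exists_dat M
  obtain ⟨ψ, h1, -, h2⟩ := (md M).ext_y y.f h.comm h.hi h.hA h.hB h.hu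
  exact H.anti_J (six M) (y' := ⟨RingEquiv.refl C, ψ, fun c => by
    rw [IsScalarTower.algebraMap_apply C M.Y M.K, h1, h.comm]
    exact (IsScalarTower.algebraMap_apply C M.Y M.K c).symm⟩) h1 h2 ha

/-- an `e` with `Fx e` extends to `K` and commutes with `r` -/
theorem exists_extK {e : SI C M.Y C M.Y} (h : M.Fx e) : ∃ e' : SI C M.K C M.K, e'.s = e.s ∧
    (∀ f, e'.f (algebraMap M.Y M.K f) = algebraMap M.Y M.K (e.f f)) ∧ e'.f M.B = M.B ∧
    ∀ f, e'.f (M.r f) = M.r (e'.f f) := by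
  obtain ⟨a, b, c, d, f, g⟩ := h
  obtain ⟨ψ, h1, h2, h3⟩ := (md M).ext_fix e.f e.s e.comm d f g a b c
  exact ⟨⟨e.s, ψ, fun c => by
    rw [IsScalarTower.algebraMap_apply C M.Y M.K, h1, e.comm,
      ← IsScalarTower.algebraMap_apply]⟩, rfl, h1, h2, h3⟩

/-- **the Galois action commutes with `j`** -/
theorem fx_j {e : SI C M.Y C M.Y} (h : M.Fx e) (a : Pic C M.Y) :
    e.pic (M.j a) = M.j (e.pic a) := by
  obtain ⟨e', -, h1, -, h2⟩ := exists_extK h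
  exact comm_J M.rS h1 h2 a

theorem fx_ext {e e' : SI C M.Y C M.Y} (h : M.Fx e) (h' : M.Fx e') (hs : ∀ c, e.s c = e'.s c)
    (f : M.Y) : e.f f = e'.f f :=
  (md M).extY (φ := (e.f : M.Y →+* M.Y)) (ψ := (e'.f : M.Y →+* M.Y))
    (fun c => by show e.f _ = e'.f _; rw [e.comm, e'.comm, hs]) (h.1.trans h'.1.symm)
    (h.2.1.trans h'.2.1.symm) (h.2.2.1.trans h'.2.2.1.symm) f

theorem IsYy.fx_of_eq {i : C} {y e : SI C M.Y C M.Y} (h : IsYy M i y) (he : M.Fx e)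
    (hi : e.s i = i) (a : Pic C M.Y) : e.pic (y.pic a) = y.pic (e.pic a) := by
  rw [← SI.pic_trans, ← SI.pic_trans]
  refine pic_ext ((md M).extY (φ := ((y.trans e).f : M.Y →+* M.Y))
    (ψ := ((e.trans y).f : M.Y →+* M.Y)) (fun c => ?_) ?_ ?_ ?_) a
  · show e.f (y.f _) = y.f (e.f _)
    rw [h.comm, e.comm, h.comm]
  · show e.f (y.f _) = y.f (e.f _)
    rw [he.1, h.hA, map_mul, e.comm, hi, he.1]
  · show e.f (y.f _) = y.f (e.f _)
    rw [he.2.1, h.hB, map_neg, he.2.1]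
  · show e.f (y.f _) = y.f (e.f _)
    rw [he.2.2.1, h.hu, he.2.2.1]

theorem IsYy.fx_of_ne {i : C} {y e : SI C M.Y C M.Y} (h : IsYy M i y) (he : M.Fx e)
    (hi : e.s i = -i) {a : Pic C M.Y} (ha : degPic a = 0) :
    e.pic (y.pic a) = -y.pic (e.pic a) := by
  rw [← h.yy (a := y.pic (e.pic a)) (by rw [SI.degPic_pic, SI.degPic_pic, ha]), ← SI.pic_trans,
    ← SI.pic_trans, ← SI.pic_trans, ← SI.pic_trans]
  refine pic_ext ((md M).extY (φ := ((y.trans e).f : M.Y →+* M.Y))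
    (ψ := ((((e.trans y).trans y).trans y).f : M.Y →+* M.Y)) (fun c => ?_) ?_ ?_ ?_) a
  · show e.f (y.f _) = y.f (y.f (y.f (e.f _)))
    rw [h.comm, e.comm, h.comm, h.comm, h.comm]
  · show e.f (y.f _) = y.f (y.f (y.f (e.f _)))
    rw [he.1, h.yyA, map_neg, h.hA, map_mul, e.comm, hi, he.1, map_neg, neg_mul]
  · show e.f (y.f _) = y.f (y.f (y.f (e.f _)))
    simp only [he.2.1, h.hB, map_neg, neg_neg]
  · show e.f (y.f _) = y.f (y.f (y.f (e.f _)))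
    simp only [he.2.2.1, h.hu]

variable (M) in
/-- **`j` is self-adjoint** -/
theorem tf_j (p : ℕ) [Fact p.Prime] (u v : Tate p (Pic C M.Y)) :
    tf p (Tate.map M.j u) v = tf p u (Tate.map M.j v) := by
  obtain ⟨g, -, H⟩ := exists_dat M
  exact H.tf_J rfl u v

variable (M) in
/-- `ker j` has rank at most two -/
theorem finrank_ker_j (φ : C →+* ℂ) (p : ℕ) [Fact p.Prime] :
    finrank ℤ_[p] (LinearMap.ker (Tate.map (p := p) M.j)) ≤ 2 := by
  obtain ⟨g, -, H⟩ := exists_dat M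
  letI := KfJ.algE (kfY M)
  haveI := KfJ.towE (kfY M)
  haveI := KfJ.finE (kfY M)
  haveI := KfJ.sepE (kfY M)
  haveI := KfJ.finite_Ei (kfY M)
  haveI := KfJ.sepEY (kfY M)
  obtain ⟨h1, h2⟩ := KfJ.rank_E φ (kfY M) p
  exact h2 ▸ H.finrank_ker_le (E := KfJ.Ei C M.A M.B2) (KfJ.finrank_le (kfY M)).2
    (fun f => (md M).r4_fix f.2) (md M).r4_ne (md M).r12

variable (M) in
/-- **`j ≠ 0` on the Tate module** -/
theorem j_ne (φ : C →+* ℂ) (p : ℕ) [Fact p.Prime] : Tate.map (p := p) M.j ≠ 0 := fun h => by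
  have h1 := finrank_ker_j M φ p
  rw [h, LinearMap.ker_zero, finrank_top, (KfJ.rank_Y φ (kfY M) p).2] at h1
  omega

/-- the character of `ℚ(i)` -/
def chi {G : Type*} [Group G] (s : G →* (C ≃+* C)) {i : C} (hi : i ^ 2 = -1) : G →* ℤˣ := by
  classical
  have h1 : ∀ σ, s σ i = i ∨ s σ i = -i := fun σ =>
    sq_eq_sq_iff_eq_or_eq_neg.1 (by rw [← map_pow, hi, map_neg, map_one])
  have h2 : -i ≠ i := fun h => by
    have : i = 0 := by linear_combination (-1 / 2 : C) * h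
    rw [this] at hi; simp at hi
  exact MonoidHom.mk' (fun σ => if s σ i = i then 1 else -1) fun σ τ => by
    rw [map_mul, RingAut.mul_apply]
    rcases h1 σ with a | a <;> rcases h1 τ with b | b <;> simp [a, b, h2]

theorem chi_eq_one {G : Type*} [Group G] (s : G →* (C ≃+* C)) {i : C} (hi : i ^ 2 = -1) (σ : G) :
    chi s hi σ = 1 ↔ s σ i = i := by
  unfold chi
  by_cases h : s σ i = i <;> simp [h]

/-- **the package `WQ` for the model** -/
theorem exists_wq (φ : C →+* ℂ) {G : Type*} [Group G] (s : G →* (C ≃+* C))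
    (E : G → SI C M.Y C M.Y) (hE : ∀ σ, M.Fx (E σ)) (hs : ∀ σ, (E σ).s = s σ) {i : C}
    {y : SI C M.Y C M.Y} (h : IsYy M i y) : ∃ R : Rho.WQ G (Tate 3 (Pic C M.Y)),
      (∀ σ, R.act σ = Tate.map (E σ).pic.toAddMonoidHom) ∧ R.j = Tate.map M.j ∧
      R.y = Tate.map y.pic.toAddMonoidHom ∧ R.e = tf 3 ∧ (∀ σ, R.χ σ = 1 ↔ s σ i = i) ∧
      ∀ σ, (R.cyc σ : ℤ_[3]) = cyc 3 (s σ) := by
  refine ⟨wq s E hs (fun f => ?_) (fun σ τ f => ?_) M.j y h.s (chi s h.hi) (fun a ha => h.yy ha)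
    (fun a ha => jjj M ha) (fun a ha => h.jy ha) (j_ne M φ 3) (fun σ a ha => ?_)
    (fun σ => fx_j (hE σ)) (tf_j M 3), fun _ => rfl, rfl, rfl, rfl, chi_eq_one s h.hi, fun _ => rfl⟩
  · exact fx_ext (e' := SI.refl C M.Y) (hE 1) ⟨rfl, rfl, rfl, rfl, rfl, rfl⟩
      (fun c => by rw [hs, map_one]; rfl) f
  · obtain ⟨a, b, c, d, e, g⟩ := hE σ
    obtain ⟨a', b', c', d', e', g'⟩ := hE τ
    refine fx_ext (e' := (E τ).trans (E σ)) (hE _) ⟨?_, ?_, ?_, ?_, ?_, ?_⟩ (fun c => ?_) f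
    · show (E σ).f ((E τ).f _) = _; rw [a', a]
    · show (E σ).f ((E τ).f _) = _; rw [b', b]
    · show (E σ).f ((E τ).f _) = _; rw [c', c]
    · show (E σ).s ((E τ).s _) = _; rw [d', d]
    · show (E σ).s ((E τ).s _) = _; rw [e', e]
    · show (E σ).s ((E τ).s _) = _; rw [g', g]
    · show _ = (E σ).s ((E τ).s _); rw [hs, hs, hs, map_mul]; rfl
  · rcases Int.units_eq_one_or (chi s h.hi σ) with h1 | h1
    · rw [h1, one_smul]
      exact h.fx_of_eq (hE σ) (by rw [hs]; exact (chi_eq_one s h.hi σ).1 h1) a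
    · rw [h1, Units.neg_smul, one_smul]
      refine h.fx_of_ne (hE σ) ?_ ha
      rw [hs]
      refine (sq_eq_sq_iff_eq_or_eq_neg.1 (by rw [← map_pow, h.hi, map_neg, map_one])).resolve_left
        fun h2 => ?_
      rw [(chi_eq_one s h.hi σ).2 h2] at h1
      exact absurd h1 (by decide)

/-- the body of `FA.WqStmt` -/
theorem wq_Om (P : Mo.Par Om) (M : Mdl P) (E : Gam → SI Om M.Y Om M.Y) (i : Om)
    (hE : ∀ σ, M.Fx (E σ) ∧ ∀ c, (E σ).s c = σ c) (hi : i ^ 2 = -1) :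
    ∃ R : Rho.WQ Gam (Tate 3 (Pic Om M.Y)),
      (∀ σ, R.act σ = Tate.map (E σ).pic.toAddMonoidHom) ∧ R.j = Tate.map M.j ∧
      (∀ σ, R.χ σ = 1 ↔ σ i = i) ∧
      ∀ (σ : Gam) (n a : ℕ) (ζ : Om), IsPrimitiveRoot ζ (3 ^ n) → σ ζ = ζ ^ a →
        (3 : ℤ_[3]) ^ n ∣ (R.cyc σ : ℤ_[3]) - a := by
  obtain ⟨φ⟩ := nonempty_hom (k := Om)
  obtain ⟨y, h⟩ := exists_isYy M hi
  obtain ⟨R, h1, h2, -, -, h3, h4⟩ := exists_wq φ (MulSemiringAction.toRingAut Gam Om) E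
    (fun σ => (hE σ).1) (fun σ => RingEquiv.ext (hE σ).2) h
  refine ⟨R, h1, h2, h3, fun σ n a ζ hζ ha => ?_⟩
  rw [h4]
  exact Ideal.mem_span_singleton.1 (cyc_sub_mem (p := 3) _ hζ ha)

end Crest.Agent.T15.Jm

namespace Crest.Agent.T15.FA

/-- **leaf WQ** -/
theorem wqStmt : WqStmt := fun P M E i hE hi => Jm.wq_Om P M E i hE hi

end Crest.Agent.T15.FA
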