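import Crest.Agent.T15.EbC_64
import Crest.Agent.T15.Jm_16
import Crest.Agent.T15.Gal_31

/-!
# Row 15, block Ht (helper64): leaf E-BLOCK, closed
-/

set_option autoImplicit false

namespace Crest.Agent.T15.Eb

open Crest.Agent.R013.PicD_398 Crest.Agent.R013.Frob1_914 Crest.Agent.R013.TP_928
open Crest.Agent.T15.C (Om)

theorem core : Core := by
  intro P M
  obtain ⟨φ⟩ := Rk.nonempty_hom (k := Om)
  obtain ⟨i, hi⟩ := IsAlgClosed.exists_pow_nat_eq (-1 : Om) two_pos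
  obtain ⟨y, h⟩ := Jm.exists_isYy M hi
  refine ⟨Jy.tm 3 y, fun u => Tate.ext fun n => h.yy (Jy.deg_tate u n),
    fun u => Tate.ext fun n => h.jy (Jy.deg_tate u n), fun u => Tate.ext fun n => ?_,
    Jm.j_ne M φ 3, Jm.tf_j M 3⟩
  rw [show (3 : ℤ_[3]) = ((3 : ℕ) : ℤ_[3]) by norm_num, Tate.natCast_smul_apply]
  exact Jm.jjj M (Jy.deg_tate u n)

end Crest.Agent.T15.Eb

namespace Crest.Agent.T15.Ht

/-- **leaf E-BLOCK** -/
theorem ebStmt : EbStmt := Eb.ebStmt_of galStmt moStmt Eb.core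

end Crest.Agent.T15.Ht
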