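import Crest.Agent.T15.Disc_71
import Crest.Agent.R013.RR20_948

/-!
# Row 15, AJ (helper55), part F: analytic families of places of a function field over `ℂ`

* `PM x θ H` : plane model of a function field, `exists_PM`; `PM.exists_pl` : every point of the model
  is the centre of a place;
* `AnF Q D g` : along the family of places `Q t` the value of `g` is holomorphic with derivative the
  value of `D g`;
* `exists_fam` : through every place over a generic value of `x` there is such a family with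
  `x (Q t) = x (Q 0) + t`.
-/

set_option autoImplicit false
set_option linter.all false

open Polynomial WithZero Filter Topology
open scoped Polynomial.Bivariate
open Crest.Agent.R013.RR7_948 Crest.Agent.R013.RR8_948 Crest.Agent.R013.RR9_948
open Crest.Agent.R013.RR11_948 Crest.Agent.R013.RR13_948 Crest.Agent.R013.RR20_948
open Crest.Agent.T15.Disc

noncomputable section

namespace Crest.Agent.T15.Aj

section pm

variable {k L : Type*} [Field k] [Field L] [Algebra k L]

/-- plane model -/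
structure PM (x θ : L) (H : k[X][Y]) : Prop where
  monic : H.Monic
  root : aevalAeval x θ H = 0
  dvd : ∀ p : k[X][Y], aevalAeval x θ p = 0 → H ∣ p
  gen : ∀ g : L, ∃ (A : k[X][Y]) (c : k[X]), c ≠ 0 ∧ g * aeval x c = aevalAeval x θ A
  sep : aevalAeval x θ (derivative H) ≠ 0

theorem aevalAeval_eq [Algebra k[X] L] {x : L} (hx : ∀ c : k[X], algebraMap k[X] L c = aeval x c)
    (θ : L) (p : k[X][Y]) : aevalAeval x θ p = aeval θ p := by
  induction p using Polynomial.induction_on' with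
  | add p q hp hq => rw [map_add, map_add, hp, hq]
  | monomial n c =>
    rw [← C_mul_X_pow_eq_monomial, map_mul, map_mul, map_pow, map_pow, aevalAeval_C, aevalAeval_Y,
      aeval_C, aeval_X, hx]

theorem exists_PM_aux [CharZero k] [Algebra (RatFunc k) L] [IsScalarTower k (RatFunc k) L]
    [FiniteDimensional (RatFunc k) L] : ∃ θ H, PM (k := k) (xK k L) θ H := by
  letI := algPoly k L
  haveI := towerPoly k L
  haveI : CharZero (RatFunc k) := charZero_of_injective_algebraMap (algebraMap k (RatFunc k)).injective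
  have hx : ∀ c : k[X], algebraMap k[X] L c = aeval (xK k L) c := by
    intro c
    have h1 : ((IsScalarTower.toAlgHom k (RatFunc k) L).comp
        (IsScalarTower.toAlgHom k k[X] (RatFunc k))) = aeval (xK k L) := by
      apply Polynomial.algHom_ext
      simp [xK]
    rw [← h1]
    rfl
  have hinj : Function.Injective (algebraMap k[X] L) :=
    (algebraMap (RatFunc k) L).injective.comp (IsFractionRing.injective k[X] (RatFunc k))
  haveI : FaithfulSMul k[X] L := (faithfulSMul_iff_algebraMap_injective _ _).2 hinj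
  obtain ⟨θ₀, hθ₀⟩ := Field.exists_primitive_element (RatFunc k) L
  have halg : IsAlgebraic k[X] θ₀ :=
    (IsFractionRing.isAlgebraic_iff k[X] (RatFunc k) L).2 (Algebra.IsAlgebraic.isAlgebraic θ₀)
  obtain ⟨c₀, hc₀, hint⟩ := halg.exists_integral_multiple
  set θ := c₀ • θ₀ with hθ
  have htop : IntermediateField.adjoin (RatFunc k) {θ} = ⊤ := by
    rw [eq_top_iff, ← hθ₀, IntermediateField.adjoin_simple_le_iff]
    have h1 : θ₀ = (algebraMap k[X] (RatFunc k) c₀)⁻¹ • θ := by
      rw [hθ, ← algebraMap_smul (RatFunc k) c₀ θ₀, smul_smul, inv_mul_cancel₀, one_smul]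
      simpa using hc₀
    rw [h1]
    exact IntermediateField.smul_mem _ (IntermediateField.mem_adjoin_simple_self _ _)
  have hmap := minpoly.isIntegrallyClosed_eq_field_fractions' (RatFunc k) hint
  refine ⟨θ, minpoly k[X] θ, minpoly.monic hint, ?_, ?_, ?_, ?_⟩
  · rw [aevalAeval_eq hx, minpoly.aeval]
  · intro p hp
    rw [aevalAeval_eq hx] at hp
    exact minpoly.isIntegrallyClosed_dvd hint hp
  · intro g
    have hg : g ∈ (IntermediateField.adjoin (RatFunc k) {θ}).toSubalgebra := by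
      rw [htop]; trivial
    rw [IntermediateField.adjoin_simple_toSubalgebra_of_isAlgebraic
      (Algebra.IsAlgebraic.isAlgebraic θ), Algebra.adjoin_singleton_eq_range_aeval] at hg
    obtain ⟨q, rfl⟩ := hg
    obtain ⟨b, hb, hq⟩ := IsLocalization.integerNormalization_spec (nonZeroDivisors k[X]) q
    refine ⟨IsLocalization.integerNormalization (nonZeroDivisors k[X]) q, b,
      nonZeroDivisors.ne_zero hb, ?_⟩
    rw [aevalAeval_eq hx, ← hx, ← aeval_map_algebraMap (RatFunc k) θ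
      (IsLocalization.integerNormalization (nonZeroDivisors k[X]) q), hq,
      ← algebraMap_smul (RatFunc k), map_smul, Algebra.smul_def, ← IsScalarTower.algebraMap_apply,
      mul_comm]
    rfl
  · rw [aevalAeval_eq hx, ← aeval_map_algebraMap (RatFunc k), ← derivative_map, ← hmap]
    exact (Algebra.IsSeparable.isSeparable (RatFunc k) θ).aeval_derivative_ne_zero (minpoly.aeval _ _)

variable [Algebra (RatFunc k) L] [IsScalarTower k (RatFunc k) L] [FiniteDimensional (RatFunc k) L]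

theorem exists_PM [CharZero k] {x : L} (hx : Transcendental k x) : ∃ θ H, PM (k := k) x θ H := by
  have h := @exists_PM_aux k L _ _ _ _ (ratAlg x hx) (ratAlg_tower x hx) (ratAlg_finite x hx)
  have h2 : @xK k _ L _ (ratAlg x hx) = x := ratAlg_xK x hx
  rwa [h2] at h

variable [Algebra.IsSeparable (RatFunc k) L]

/-- every point of the plane model is the centre of a place -/
theorem PM.exists_pl {x θ : L} {H : k[X][Y]} (h : PM x θ H) (hx : Transcendental k x) {a y : k}
    (h0 : evalEval a y H = 0) : ∃ Q : Pl k L, Q.v (x - algebraMap k L a) < 1 ∧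
      Q.v (θ - algebraMap k L y) < 1 := by
  let φ : k[X][Y] →+* L := (aevalAeval x θ : k[X][Y] →ₐ[k] L)
  let I : Ideal φ.range := (RingHom.ker (evalEvalRingHom a y)).map φ.rangeRestrict
  have hI : I ≠ ⊤ := by
    intro hI
    have h1 : (1 : φ.range) ∈ I := by rw [hI]; trivial
    obtain ⟨p, hp, hp1⟩ := (Ideal.mem_map_iff_of_surjective _ φ.rangeRestrict_surjective).1 h1
    have h2 : φ p = 1 := congrArg Subtype.val hp1
    obtain ⟨q, hq⟩ := h.dvd (p - 1) (by rw [map_sub, map_one]; exact sub_eq_zero.2 h2)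
    have h3 := congrArg (evalEval a y) hq
    rw [evalEval_mul, h0, zero_mul, evalEval_sub, evalEval_one] at h3
    have h4 : evalEval a y p = 0 := hp
    rw [h4] at h3
    simp at h3
  obtain ⟨B, hB, hB'⟩ := Ideal.image_subset_nonunits_valuationSubring I hI
  have hlt : ∀ p, evalEval a y p = 0 → B.valuation (φ p) < 1 := by
    intro p hp
    rw [← ValuationSubring.mem_nonunits_iff]
    exact hB' ⟨φ.rangeRestrict p, Ideal.mem_map_of_mem _ hp, rfl⟩
  have hle : ∀ c : k, B.valuation (algebraMap k L c) ≤ 1 := by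
    intro c
    rw [B.valuation_le_one_iff]
    exact hB ⟨algebraMap k _ c, (aevalAeval x θ).commutes c⟩
  have e1 : φ (C (X - C a)) = x - algebraMap k L a := by
    show aevalAeval x θ _ = _
    rw [aevalAeval_C]; simp
  have e2 : φ (Y - C (C y)) = θ - algebraMap k L y := by
    show aevalAeval x θ _ = _
    rw [map_sub, aevalAeval_C, aevalAeval_Y]; simp
  have l1 := hlt (C (X - C a)) (by simp [evalEval_C])
  have l2 := hlt (Y - C (C y)) (by simp [evalEval_C])
  rw [e1] at l1
  rw [e2] at l2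
  obtain ⟨Q, hQ⟩ := exists_place (k := k) B.valuation (fun c hc => by
    have h1 := hle c
    have h2 := hle c⁻¹
    rw [map_inv₀, map_inv₀] at h2
    have h3 : B.valuation (algebraMap k L c) ≠ 0 := by simpa using hc
    exact le_antisymm h1 ((inv_le_one₀ (zero_lt_iff.2 h3)).1 h2))
    ⟨x - algebraMap k L a, by
      rw [Valuation.ne_zero_iff, sub_ne_zero]
      intro hxa
      exact hx (hxa ▸ isAlgebraic_algebraMap a), l1.ne⟩
  exact ⟨Q, hQ.lt_one_iff_lt_one.2 l1, hQ.lt_one_iff_lt_one.2 l2⟩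

variable [IsAlgClosed k]

theorem ev_aevalAeval (Q : Pl k L) {x θ : L} (hx : Q.v x ≤ 1) (hθ : Q.v θ ≤ 1) (p : k[X][Y]) :
    Q.v (aevalAeval x θ p) ≤ 1 ∧ ev Q (aevalAeval x θ p) = evalEval (ev Q x) (ev Q θ) p := by
  have hC : ∀ c : k[X], Q.v (aeval x c) ≤ 1 ∧ ev Q (aeval x c) = c.eval (ev Q x) := by
    intro c
    induction c using Polynomial.induction_on with
    | C c => rw [aeval_C, eval_C]; exact ⟨v_const_le Q c, ev_const Q c⟩
    | add p q hp hq =>
      rw [map_add, eval_add, ev_add Q hp.1 hq.1, hp.2, hq.2]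
      exact ⟨(Valuation.map_add _ _ _).trans (max_le hp.1 hq.1), rfl⟩
    | monomial n c ih =>
      rw [pow_succ, ← mul_assoc, map_mul, aeval_X, ev_mul Q ih.1 hx, ih.2, eval_mul (q := X), eval_X,
        map_mul]
      exact ⟨mul_le_one' ih.1 hx, rfl⟩
  induction p using Polynomial.induction_on with
  | C c => rw [aevalAeval_C, evalEval_C]; exact hC c
  | add p q hp hq =>
    rw [map_add, evalEval_add, ev_add Q hp.1 hq.1, hp.2, hq.2]
    exact ⟨(Valuation.map_add _ _ _).trans (max_le hp.1 hq.1), rfl⟩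
  | monomial n c ih =>
    rw [pow_succ, ← mul_assoc, map_mul, aevalAeval_Y, ev_mul Q ih.1 hθ, ih.2, evalEval_mul (q := Y),
      evalEval_X, map_mul]
    exact ⟨mul_le_one' ih.1 hθ, rfl⟩

theorem ev_aeval (Q : Pl k L) {x : L} (hx : Q.v x ≤ 1) (c : k[X]) :
    Q.v (aeval x c) ≤ 1 ∧ ev Q (aeval x c) = c.eval (ev Q x) := by
  have := ev_aevalAeval Q hx hx (C c)
  rwa [aevalAeval_C, evalEval_C] at this

theorem v_eq_one_of_ev {Q : Pl k L} {u : L} (hu : Q.v u ≤ 1) (h0 : ev Q u ≠ 0) : Q.v u = 1 :=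
  le_antisymm hu (not_lt.1 fun h => h0 ((ev_eq_zero_iff Q hu).2 h))

theorem ev_inv {Q : Pl k L} {u : L} (hu : Q.v u ≤ 1) (h0 : ev Q u ≠ 0) :
    Q.v u⁻¹ ≤ 1 ∧ ev Q u⁻¹ = (ev Q u)⁻¹ := by
  have h1 := v_eq_one_of_ev hu h0
  have h2 : Q.v u⁻¹ ≤ 1 := by rw [map_inv₀, h1, inv_one]
  have h3 : u ≠ 0 := by rintro rfl; simp at h1
  refine ⟨h2, eq_inv_of_mul_eq_one_left ?_⟩
  rw [← ev_mul Q h2 hu, inv_mul_cancel₀ h3, ev_one]

omit [IsAlgClosed k] [Algebra.IsSeparable (RatFunc k) L] [Algebra (RatFunc k) L]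
  [IsScalarTower k (RatFunc k) L] [FiniteDimensional (RatFunc k) L] in
theorem PM.v_le {x θ : L} {H : k[X][Y]} (h : PM x θ H) (Q : Pl k L) (hx : Q.v x ≤ 1) :
    Q.v θ ≤ 1 := by
  letI : Algebra k[X] L := (aeval x : k[X] →ₐ[k] L).toRingHom.toAlgebra
  refine le_one_of_integral (S := k[X]) Q.v (fun c => ?_) ⟨H, h.monic, ?_⟩
  · show Q.v (aeval x c) ≤ 1
    rw [aeval_eq_sum_range]
    refine Valuation.map_sum_le _ fun i _ => ?_
    rw [Algebra.smul_def, map_mul, map_pow]
    exact mul_le_one' (v_const_le Q _) (pow_le_one' hx i)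
  · rw [← aeval_def, ← aevalAeval_eq (x := x) (fun c => rfl), h.root]

end pm

section fam

variable {L : Type*} [Field L] [Algebra ℂ L] [Algebra (RatFunc ℂ) L]
  [IsScalarTower ℂ (RatFunc ℂ) L] [FiniteDimensional (RatFunc ℂ) L]
  [Algebra.IsSeparable (RatFunc ℂ) L]

/-- `g` is holomorphic along the family of places `Q`, with derivative `D g` -/
def AnF (Q : ℂ → Pl ℂ L) (D : Derivation ℂ L L) (g : L) : Prop :=
  ∀ᶠ t in 𝓝 (0 : ℂ), (Q t).v g ≤ 1 ∧ (Q t).v (D g) ≤ 1 ∧
    HasDerivAt (fun s => ev (Q s) g) (ev (Q t) (D g)) t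

namespace AnF

variable {Q : ℂ → Pl ℂ L} {D : Derivation ℂ L L} {g g' : L}

theorem const (c : ℂ) : AnF Q D (algebraMap ℂ L c) := by
  refine Eventually.of_forall fun t => ⟨v_const_le _ c, by simp, ?_⟩
  simp only [ev_const, Derivation.map_algebraMap, ev_zero]
  exact hasDerivAt_const t c

theorem reg (h : AnF Q D g) : ∀ᶠ t in 𝓝 (0 : ℂ), (Q t).v g ≤ 1 := h.mono fun _ ht => ht.1

theorem analyticAt (h : AnF Q D g) : AnalyticAt ℂ (fun s => ev (Q s) g) 0 := by
  obtain ⟨U, hU, hUo, h0⟩ := eventually_nhds_iff.1 h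
  exact DifferentiableOn.analyticAt (s := U)
    (fun t ht => (hU t ht).2.2.differentiableAt.differentiableWithinAt) (hUo.mem_nhds h0)

theorem add (h : AnF Q D g) (h' : AnF Q D g') : AnF Q D (g + g') := by
  filter_upwards [h, h', (h.reg.and h'.reg).eventually_nhds] with t a b c
  rw [map_add D]
  refine ⟨(Valuation.map_add _ _ _).trans (max_le a.1 b.1),
    (Valuation.map_add _ _ _).trans (max_le a.2.1 b.2.1), ?_⟩
  rw [ev_add _ a.2.1 b.2.1]
  exact (a.2.2.add b.2.2).congr_of_eventuallyEq (c.mono fun s hs => ev_add _ hs.1 hs.2)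

theorem mul (h : AnF Q D g) (h' : AnF Q D g') : AnF Q D (g * g') := by
  filter_upwards [h, h', (h.reg.and h'.reg).eventually_nhds] with t a b c
  have m1 : (Q t).v (g * D g') ≤ 1 := by rw [map_mul]; exact mul_le_one' a.1 b.2.1
  have m2 : (Q t).v (g' * D g) ≤ 1 := by rw [map_mul]; exact mul_le_one' b.1 a.2.1
  rw [Derivation.leibniz, smul_eq_mul, smul_eq_mul]
  refine ⟨by rw [map_mul]; exact mul_le_one' a.1 b.1,
    (Valuation.map_add _ _ _).trans (max_le m1 m2), ?_⟩
  rw [ev_add _ m1 m2, ev_mul _ a.1 b.2.1, ev_mul _ b.1 a.2.1]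
  refine HasDerivAt.congr_of_eventuallyEq ?_ (c.mono fun s hs => ev_mul _ hs.1 hs.2)
  exact (a.2.2.mul b.2.2).congr_deriv (by ring)

theorem inv (h : AnF Q D g) (h0 : ev (Q 0) g ≠ 0) : AnF Q D g⁻¹ := by
  have h1 : ∀ᶠ t in 𝓝 (0 : ℂ), ev (Q t) g ≠ 0 := h.analyticAt.continuousAt.eventually_ne h0
  filter_upwards [h, h1, (h.reg.and h1).eventually_nhds] with t a b c
  have i1 := ev_inv a.1 b
  have m1 : (Q t).v (g⁻¹ ^ 2) ≤ 1 := by rw [map_pow]; exact pow_le_one' i1.1 2
  have m2 : (Q t).v (g⁻¹ ^ 2 * D g) ≤ 1 := by rw [map_mul]; exact mul_le_one' m1 a.2.1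
  rw [Derivation.leibniz_inv, smul_eq_mul, neg_mul]
  refine ⟨i1.1, by rwa [Valuation.map_neg], ?_⟩
  rw [ev_neg _ m2, ev_mul _ m1 a.2.1, ev_pow _ i1.1, i1.2]
  refine HasDerivAt.congr_of_eventuallyEq ?_ (c.mono fun s hs => (ev_inv hs.1 hs.2).2)
  exact (a.2.2.inv b).congr_deriv (by field_simp)

theorem aevalAeval {x θ : L} (hx : AnF Q D x) (hθ : AnF Q D θ) (p : ℂ[X][Y]) :
    AnF Q D (aevalAeval x θ p) := by
  have hC : ∀ c : ℂ[X], AnF Q D (aeval x c) := by
    intro c
    induction c using Polynomial.induction_on with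
    | C c => rw [aeval_C]; exact const c
    | add p q hp hq => rw [map_add]; exact hp.add hq
    | monomial n c ih => rw [pow_succ, ← mul_assoc, map_mul, aeval_X]; exact ih.mul hx
  induction p using Polynomial.induction_on with
  | C c => rw [aevalAeval_C]; exact hC c
  | add p q hp hq => rw [map_add]; exact hp.add hq
  | monomial n c ih => rw [pow_succ, ← mul_assoc, map_mul, aevalAeval_Y]; exact ih.mul hθ

end AnF

/-- chain rule, algebraic and analytic -/
theorem chain (p : ℂ[X][Y]) : ∃ pX : ℂ[X][Y],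
    (∀ (D : Derivation ℂ L L) (x θ : L), D (aevalAeval x θ p) =
      aevalAeval x θ pX * D x + aevalAeval x θ (derivative p) * D θ) ∧
    ∀ (u y : ℂ → ℂ) (u' y' t : ℂ), HasDerivAt u u' t → HasDerivAt y y' t →
      HasDerivAt (fun s => evalEval (u s) (y s) p)
        (evalEval (u t) (y t) pX * u' + evalEval (u t) (y t) (derivative p) * y') t := by
  induction p using Polynomial.induction_on with
  | C c =>
    refine ⟨C (derivative c), fun D x θ => ?_, fun u y u' y' t hu hy => ?_⟩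
    · rw [aevalAeval_C, aevalAeval_C, Derivation.map_aeval, derivative_C, map_zero, zero_mul,
        add_zero, smul_eq_mul]
    · simp only [evalEval_C, derivative_C, evalEval_zero, zero_mul, add_zero]
      exact (c.hasDerivAt (u t)).comp t hu
  | add p q hp hq =>
    obtain ⟨pX, p1, p2⟩ := hp
    obtain ⟨qX, q1, q2⟩ := hq
    refine ⟨pX + qX, fun D x θ => ?_, fun u y u' y' t hu hy => ?_⟩
    · simp only [map_add, p1, q1]; ring
    · simp only [map_add, evalEval_add]
      exact ((p2 u y u' y' t hu hy).add (q2 u y u' y' t hu hy)).congr_deriv (by ring)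
  | monomial n c ih =>
    obtain ⟨pX, p1, p2⟩ := ih
    rw [pow_succ, ← mul_assoc]
    set p : ℂ[X][Y] := C c * Y ^ n
    refine ⟨pX * Y, fun D x θ => ?_, fun u y u' y' t hu hy => ?_⟩
    · simp only [derivative_mul, derivative_X, map_add, map_mul, aevalAeval_Y, Derivation.leibniz, p1,
        smul_eq_mul, map_one]
      ring
    · simp only [derivative_mul, derivative_X, evalEval_add, evalEval_mul, evalEval_X, mul_one]
      exact ((p2 u y u' y' t hu hy).mul hy).congr_deriv (by ring)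

theorem contDiff_evalEval (p : ℂ[X][Y]) {n : WithTop ℕ∞} :
    ContDiff ℂ n fun z : ℂ × ℂ => evalEval z.1 z.2 p := by
  induction p using Polynomial.induction_on with
  | C c =>
    simp only [evalEval_C]
    induction c using Polynomial.induction_on with
    | C c => simp only [eval_C]; exact contDiff_const
    | add p q hp hq => simp only [eval_add]; exact hp.add hq
    | monomial n c ih =>
      simp only [pow_succ, ← mul_assoc, eval_mul (q := X), eval_X]
      exact ih.mul contDiff_fst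
  | add p q hp hq => simp only [evalEval_add]; exact hp.add hq
  | monomial n c ih =>
    simp only [pow_succ, ← mul_assoc, evalEval_mul (q := Y), evalEval_X]
    exact ih.mul contDiff_snd

/-- a simple root moves holomorphically -/
theorem exists_root_fun (H : ℂ[X][Y]) {a y₀ : ℂ} (h0 : evalEval a y₀ H = 0)
    (h1 : evalEval a y₀ (derivative H) ≠ 0) :
    ∃ y : ℂ → ℂ, AnalyticAt ℂ y a ∧ y a = y₀ ∧ ∀ᶠ u in 𝓝 a, evalEval u (y u) H = 0 := by
  have hC : ContDiffAt ℂ ⊤ (fun z : ℂ × ℂ => evalEval z.1 z.2 H) (a, y₀) :=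
    (contDiff_evalEval H).contDiffAt
  have hd : fderiv ℂ (fun z : ℂ × ℂ => evalEval z.1 z.2 H) (a, y₀) (0, 1) ≠ 0 := by
    obtain ⟨pX, -, p2⟩ := chain (L := RatFunc ℂ) H
    have e1 := p2 (fun _ => a) id 0 1 y₀ (hasDerivAt_const _ _) (hasDerivAt_id _)
    have e2 : HasDerivAt (fun y : ℂ => ((a, y) : ℂ × ℂ)) (0, 1) y₀ :=
      (hasDerivAt_const y₀ a).prodMk (hasDerivAt_id y₀)
    have e3 := (hC.differentiableAt (by simp)).hasFDerivAt.comp_hasDerivAt y₀ e2
    have e4 := e3.unique e1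
    rw [e4]
    simpa using h1
  have hi : (fderiv ℂ (fun z : ℂ × ℂ => evalEval z.1 z.2 H) (a, y₀) ∘L
      ContinuousLinearMap.inr ℂ ℂ ℂ).IsInvertible := by
    refine ⟨ContinuousLinearEquiv.unitsEquivAut ℂ (Units.mk0 _ hd), ?_⟩
    ext
    simp
  refine ⟨hC.implicitFunction (by simp) hi, (hC.contDiffAt_implicitFunction (by simp) hi).analyticAt,
    hC.implicitFunction_apply_self (by simp) hi, ?_⟩
  have := hC.eventually_apply_implicitFunction (by simp) hi
  simpa [h0] using this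

theorem transcendental_of_D {D : Derivation ℂ L L} {x : L} (hD : D x = 1) : Transcendental ℂ x := by
  intro h
  have h1 := IsAlgClosed.degree_eq_one_of_irreducible ℂ (minpoly.irreducible h.isIntegral)
  obtain ⟨c, rfl⟩ := minpoly.mem_range_of_degree_eq_one ℂ x h1
  simp at hD

/-- **analytic families of places** -/
theorem exists_fam (D : Derivation ℂ L L) {x : L} (hD : D x = 1) (S : Finset L) :
    ∃ B : Finset ℂ, ∀ Q₀ : Pl ℂ L, Q₀.v x ≤ 1 → ev Q₀ x ∉ B → ∃ Q : ℂ → Pl ℂ L, Q 0 = Q₀ ∧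
      (∀ᶠ t in 𝓝 (0 : ℂ), ev (Q t) x = ev Q₀ x + t) ∧ AnF Q D x ∧ ∀ g ∈ S, AnF Q D g := by
  classical
  have hx := transcendental_of_D hD
  obtain ⟨θ, H, h⟩ := exists_PM hx
  choose A c hc hA using h.gen
  let g₀ := (aevalAeval x θ (derivative H))⁻¹
  refine ⟨(c g₀ * ∏ g ∈ S, c g).roots.toFinset, fun Q₀ hQ₀ hB => ?_⟩
  set a := ev Q₀ x with ha
  have hne : c g₀ * ∏ g ∈ S, c g ≠ 0 := mul_ne_zero (hc _) (Finset.prod_ne_zero_iff.2 fun g _ => hc g)
  rw [Multiset.mem_toFinset, mem_roots hne, IsRoot, eval_mul, mul_eq_zero, not_or, eval_prod,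
    Finset.prod_eq_zero_iff] at hB
  have hθ₀ := h.v_le Q₀ hQ₀
  have r0 : evalEval a (ev Q₀ θ) H = 0 := by
    rw [← (ev_aevalAeval Q₀ hQ₀ hθ₀ H).2, h.root, ev_zero]
  have r1 : evalEval a (ev Q₀ θ) (derivative H) ≠ 0 := by
    intro h0
    apply hB.1
    have e : aeval x (c g₀) = aevalAeval x θ (derivative H * A g₀) := by
      rw [map_mul, ← hA, ← mul_assoc, mul_inv_cancel₀ h.sep, one_mul]
    rw [← (ev_aeval Q₀ hQ₀ _).2, e, (ev_aevalAeval Q₀ hQ₀ hθ₀ _).2, evalEval_mul, h0, zero_mul]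
  obtain ⟨y, y1, y2, y3⟩ := exists_root_fun H r0 r1
  have ex : ∀ t : ℂ, ∃ Q : Pl ℂ L, (t = 0 → Q = Q₀) ∧ (evalEval (a + t) (y (a + t)) H = 0 →
      Q.v (x - algebraMap ℂ L (a + t)) < 1 ∧ Q.v (θ - algebraMap ℂ L (y (a + t))) < 1) := by
    intro t
    by_cases ht : t = 0
    · refine ⟨Q₀, fun _ => rfl, fun _ => ?_⟩
      rw [ht, add_zero, y2]
      exact ⟨ev_spec Q₀ hQ₀, ev_spec Q₀ hθ₀⟩
    · by_cases h0 : evalEval (a + t) (y (a + t)) H = 0
      · obtain ⟨Q, hQ⟩ := h.exists_pl hx h0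
        exact ⟨Q, fun h => absurd h ht, fun _ => hQ⟩
      · exact ⟨Q₀, fun _ => rfl, fun h => absurd h h0⟩
  choose Q hQ0 hQ using ex
  have tt : Tendsto (fun t : ℂ => a + t) (𝓝 0) (𝓝 a) := by
    simpa using (continuous_add_left a).tendsto 0
  have hy : AnalyticAt ℂ (fun t => y (a + t)) 0 := by
    have : AnalyticAt ℂ y (a + 0) := by rwa [add_zero]
    exact this.comp (f := fun t => a + t) (by fun_prop)
  have k1 : ∀ᶠ t in 𝓝 (0 : ℂ), (Q t).v x ≤ 1 ∧ (Q t).v θ ≤ 1 ∧ ev (Q t) x = a + t ∧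
      ev (Q t) θ = y (a + t) ∧ evalEval (a + t) (y (a + t)) H = 0 := by
    filter_upwards [tt.eventually y3] with t ht
    obtain ⟨q1, q2⟩ := hQ t ht
    exact ⟨v_le_of_sub_lt _ q1, v_le_of_sub_lt _ q2, ev_eq _ q1, ev_eq _ q2, ht⟩
  have hX : AnF Q D x := by
    filter_upwards [k1, k1.eventually_nhds] with t a1 a2
    rw [hD, ev_one]
    refine ⟨a1.1, by simp, ?_⟩
    exact ((hasDerivAt_id t).const_add a).congr_of_eventuallyEq (a2.mono fun s hs => hs.2.2.1)
  have hT : AnF Q D θ := by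
    obtain ⟨pX, p1, p2⟩ := chain (L := L) H
    have e := p1 D x θ
    rw [h.root, map_zero, hD, mul_one] at e
    have e' : D θ = -(aevalAeval x θ pX * (aevalAeval x θ (derivative H))⁻¹) := by
      have hs := h.sep
      rw [← div_eq_mul_inv, ← neg_div, eq_div_iff hs]
      linear_combination -e
    have c1 : ContinuousAt (fun t => evalEval (a + t) (y (a + t)) (derivative H)) 0 :=
      ((contDiff_evalEval (derivative H) (n := 0)).continuous.continuousAt).comp
        (f := fun t => (a + t, y (a + t))) (ContinuousAt.prodMk (by fun_prop) hy.continuousAt)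
    have c2 : ∀ᶠ t in 𝓝 (0 : ℂ), evalEval (a + t) (y (a + t)) (derivative H) ≠ 0 :=
      c1.eventually_ne (by simpa [y2] using r1)
    filter_upwards [k1, k1.eventually_nhds, c2, hy.eventually_analyticAt] with t a1 a2 a3 a4
    obtain ⟨b1, b2⟩ := ev_aevalAeval (Q t) a1.1 a1.2.1 pX
    obtain ⟨b3, b4⟩ := ev_aevalAeval (Q t) a1.1 a1.2.1 (derivative H)
    rw [a1.2.2.1, a1.2.2.2.1] at b2 b4
    obtain ⟨b5, b6⟩ := ev_inv b3 (by rwa [b4])
    have b7 : (Q t).v (aevalAeval x θ pX * (aevalAeval x θ (derivative H))⁻¹) ≤ 1 := by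
      rw [map_mul]; exact mul_le_one' b1 b5
    rw [e']
    refine ⟨a1.2.1, by rwa [Valuation.map_neg], ?_⟩
    rw [ev_neg _ b7, ev_mul _ b1 b5, b6, b2, b4]
    have d1 := a4.differentiableAt.hasDerivAt
    have d2 := p2 (fun t => a + t) (fun t => y (a + t)) 1 _ t ((hasDerivAt_id t).const_add a) d1
    have d3 : HasDerivAt (fun s => evalEval (a + s) (y (a + s)) H) 0 t :=
      (hasDerivAt_const t (0 : ℂ)).congr_of_eventuallyEq (a2.mono fun s hs => hs.2.2.2.2)
    have d4 := d2.unique d3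
    refine HasDerivAt.congr_of_eventuallyEq ?_ (a2.mono fun s hs => hs.2.2.2.1)
    refine d1.congr_deriv ?_
    rw [← div_eq_mul_inv, ← neg_div, eq_div_iff a3]
    linear_combination d4
  refine ⟨Q, hQ0 0 rfl, k1.mono fun t ht => ht.2.2.1, hX, fun g hg => ?_⟩
  have hcx : aeval x (c g) ≠ 0 := fun h0 => hx ⟨c g, hc g, h0⟩
  have e : g = aevalAeval x θ (A g) * (aevalAeval x θ (C (c g)))⁻¹ := by
    rw [aevalAeval_C, ← hA, mul_inv_cancel_right₀ hcx]
  rw [e]
  refine (hX.aevalAeval hT _).mul ((hX.aevalAeval hT _).inv ?_)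
  rw [hQ0 0 rfl, aevalAeval_C, (ev_aeval Q₀ hQ₀ _).2]
  exact fun h0 => hB.2 ⟨g, hg, h0⟩

end fam

end Crest.Agent.T15.Aj
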