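import Mathlib
import Crest.Agent.T15.AjF_55
import Crest.Agent.T15.AjC_55
import Crest.Agent.T15.AxC_14
import Crest.Agent.T15.Wp3_31

/-!
# Row 15 (helper55): correspondences act on the analytic Jacobian through their matrix on differentials

`end_abs` (abstract correspondence given by elements of a function field `L`), `end_gal`
(`pushP ∘ e.pic ∘ conP` for a Galois cover), `end_aut` (isomorphisms).
-/

set_option autoImplicit false
set_option linter.all false

open Polynomial WithZero Filter Topology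
open Crest.Agent.R013.RR7_948 Crest.Agent.R013.RR8_948 Crest.Agent.R013.RR9_948
open Crest.Agent.R013.RR11_948 Crest.Agent.R013.RR12_948 Crest.Agent.R013.PicD_398
open Crest.Agent.R013.RR18_948 Crest.Agent.R013.RR19_948 Crest.Agent.R013.RR21_948
open Crest.Agent.R013.RR22_948
open Crest.Agent.R013.GR2_921 Crest.Agent.R013.Frob1_914 Crest.Agent.T15.Disc Crest.Agent.T15.Hy

noncomputable section

namespace Crest.Agent.T15.Aj

theorem exists_prim {E : Type*} [NormedAddCommGroup E] [NormedSpace ℂ E] [CompleteSpace E]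
    {φ : ℂ → E} (h : AnalyticAt ℂ φ 0) :
    ∃ Φ : ℂ → E, Φ 0 = 0 ∧ ∀ᶠ t in 𝓝 (0 : ℂ), HasDerivAt Φ (φ t) t := by
  obtain ⟨r, hr, hb⟩ := Metric.eventually_nhds_iff_ball.1 h.eventually_analyticAt
  obtain ⟨Φ, h0, hΦ⟩ := (DifferentiableOn.isExactOn_ball (f := φ) (c := 0) (r := r)
    fun t ht => (hb t ht).differentiableAt.differentiableWithinAt).with_val_at 0 0
  exact ⟨Φ, h0, by filter_upwards [Metric.ball_mem_nhds (0 : ℂ) hr] with t ht using hΦ t ht⟩

theorem strict_of_ev {E : Type*} [NormedAddCommGroup E] [NormedSpace ℂ E] [CompleteSpace E]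
    {Φ φ : ℂ → E} (h : ∀ᶠ t in 𝓝 (0 : ℂ), HasDerivAt Φ (φ t) t) : HasStrictDerivAt Φ (φ 0) 0 := by
  obtain ⟨U, hU, hUo, h0⟩ := eventually_nhds_iff.1 h
  have : AnalyticAt ℂ Φ 0 := DifferentiableOn.analyticAt (s := U)
    (fun t ht => (hU t ht).differentiableAt.differentiableWithinAt) (hUo.mem_nhds h0)
  exact (this.contDiffAt (n := 1)).hasStrictDerivAt' (hU 0 h0) one_ne_zero

theorem hom_eq_of_curves {g : ℕ} {A : Type*} [AddCommGroup A] (e e' : (Fin g → ℂ) →+ A)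
    (Φ : Fin g → ℂ → Fin g → ℂ) (v : Fin g → Fin g → ℂ) (h0 : ∀ j, Φ j 0 = 0)
    (hd : ∀ j, HasStrictDerivAt (Φ j) (v j) 0) (hv : ∀ z, ∃ σ : Fin g → ℂ, ∑ j, σ j • v j = z)
    (he : ∀ j, ∀ᶠ t in 𝓝 (0 : ℂ), e (Φ j t) = e' (Φ j t)) : e = e' := by
  have h1 : HasStrictFDerivAt (fun σ : Fin g → ℂ => ∑ j, Φ j (σ j))
      (∑ j, (ContinuousLinearMap.toSpanSingleton ℂ (v j)).comp (ContinuousLinearMap.proj j)) 0 :=
    HasStrictFDerivAt.fun_sum fun j _ =>
      (hd j).hasStrictFDerivAt.comp (0 : Fin g → ℂ) (hasStrictFDerivAt_apply j 0)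
  have h2 := h1.map_nhds_eq_of_surj (by
    rw [LinearMap.range_eq_top]
    intro z
    obtain ⟨σ, hσ⟩ := hv z
    exact ⟨σ, by simpa [ContinuousLinearMap.toSpanSingleton_apply] using hσ⟩)
  simp only [Pi.zero_apply, h0, Finset.sum_const_zero] at h2
  apply Ax.hom_ext
  rw [← h2, eventually_map]
  filter_upwards [Ax.ev_pi he] with σ hσ
  rw [map_sum, map_sum]
  exact Finset.sum_congr rfl fun j _ => hσ j

theorem vand_surj {g : ℕ} {a μ : Fin g → ℂ} (ha : Function.Injective a) (hμ : ∀ j, μ j ≠ 0)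
    (z : Fin g → ℂ) : ∃ σ : Fin g → ℂ, ∑ j, σ j • (fun k : Fin g => a j ^ (k : ℕ) * μ j) = z := by
  have h1 : IsUnit (Matrix.vandermonde a).det :=
    (Matrix.det_vandermonde_ne_zero_iff.mpr ha).isUnit
  refine ⟨fun j => Matrix.vecMul z (Matrix.vandermonde a)⁻¹ j / μ j, ?_⟩
  have h2 : Matrix.vecMul (Matrix.vecMul z (Matrix.vandermonde a)⁻¹) (Matrix.vandermonde a) = z := by
    rw [Matrix.vecMul_vecMul, Matrix.nonsing_inv_mul _ h1, Matrix.vecMul_one]
  ext k
  rw [← congrFun h2 k, Finset.sum_apply, Matrix.vecMul, dotProduct]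
  refine Finset.sum_congr rfl fun j _ => ?_
  have := hμ j
  simp only [Pi.smul_apply, smul_eq_mul, Matrix.vandermonde_apply]
  field_simp

section fam

variable {L : Type*} [Field L] [Algebra ℂ L] [Algebra (RatFunc ℂ) L]
  [IsScalarTower ℂ (RatFunc ℂ) L] [FiniteDimensional (RatFunc ℂ) L]
  [Algebra.IsSeparable (RatFunc ℂ) L]

theorem ev_pow' (Q : Pl ℂ L) {x : L} (hx : Q.v x ≤ 1) (n : ℕ) :
    Q.v (x ^ n) ≤ 1 ∧ ev Q (x ^ n) = ev Q x ^ n := by
  simpa using ev_aeval Q hx (X ^ n)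

/-- the path formula along a family of places -/
theorem fam_germ {F : ℂ[X]} {g : ℕ} {A : Type*} [AddCommGroup A] {c : ℂ × ℂ → A}
    {ex : (Fin g → ℂ) →+ A} (hF : Squarefree F) (he : Ax.IsExp F g c ex) {Q : ℂ → Pl ℂ L}
    {D : Derivation ℂ L L} {x w : L} (hw : w ^ 2 = aeval x F) (hw0 : w ≠ 0)
    (ax : AnF Q D x) (aw : AnF Q D w) (aμ : AnF Q D (D x / w)) :
    ∃ Φ : ℂ → Fin g → ℂ, Φ 0 = 0 ∧ ∀ᶠ t in 𝓝 (0 : ℂ),
      HasDerivAt Φ (fun k => ev (Q t) x ^ (k : ℕ) * ev (Q t) (D x / w)) t ∧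
      c (ev (Q t) x, ev (Q t) w) = c (ev (Q 0) x, ev (Q 0) w) + ex (Φ t) := by
  set μ := D x / w with hμ
  have h1 : D x = μ * w := by rw [hμ, div_mul_cancel₀ _ hw0]
  have h2 : D w = μ * aeval x (derivative F * C 2⁻¹) := by
    have h3 := congrArg D hw
    rw [Derivation.leibniz_pow, Derivation.map_aeval, h1] at h3
    have h4 : (2 : L) * algebraMap ℂ L 2⁻¹ = 1 := by
      rw [← map_ofNat (algebraMap ℂ L) 2, ← map_mul]; simp
    apply mul_left_cancel₀ hw0
    simp only [map_mul, aeval_C, smul_eq_mul, nsmul_eq_mul] at h3 ⊢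
    push_cast at h3
    linear_combination algebraMap ℂ L 2⁻¹ * h3 - w * D w * h4
  obtain ⟨Φ, h0, hΦ⟩ := exists_prim (φ := fun t (k : Fin g) => ev (Q t) x ^ (k : ℕ) * ev (Q t) μ)
    (analyticAt_pi_iff.2 fun k => (ax.analyticAt.pow _).mul aμ.analyticAt)
  have h5 := he.germ (𝕜 := ℂ) hF (X := fun t => ev (Q t) x) (Y := fun t => ev (Q t) w)
    (m := fun t => ev (Q t) μ) (z := Φ) (s₀ := 0) (by
      filter_upwards [ax, aw, aμ, hΦ] with t a b d e
      refine ⟨?_, ?_, ?_, fun k => hasDerivAt_pi.1 e k⟩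
      · rw [← (ev_pow' _ b.1 2).2, hw, (ev_aeval _ a.1 F).2]
      · refine a.2.2.congr_deriv ?_
        rw [h1, ev_mul _ d.1 b.1]
      · refine b.2.2.congr_deriv ?_
        rw [h2, ev_mul _ d.1 (ev_aeval _ a.1 _).1, (ev_aeval _ a.1 _).2]
        simp [div_eq_mul_inv, mul_assoc])
  refine ⟨Φ, h0, ?_⟩
  filter_upwards [hΦ, h5] with t a b
  rw [h0, sub_zero] at b
  exact ⟨a, b⟩

theorem exists_pl_at {x : L} (hx : Transcendental ℂ x) (a : ℂ) :
    ∃ Q : Pl ℂ L, Q.v x ≤ 1 ∧ ev Q x = a := by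
  have hne : ∀ c : ℂ, x ≠ algebraMap ℂ L c := fun c hc => hx (hc ▸ isAlgebraic_algebraMap c)
  obtain ⟨P0, hP0⟩ := Hyp.exists_pole (k := ℂ) (f := x - algebraMap ℂ L a) fun c hc =>
    hne (a + c) (by rw [map_add]; linear_combination hc)
  obtain ⟨P, hP⟩ := exists_lt_of_exists_gt (sub_ne_zero.mpr (hne a)) hP0
  exact ⟨P, v_le_of_sub_lt P hP, ev_eq P hP⟩

variable {F F' : ℂ[X]} {g g' : ℕ} {A A' : Type*} [AddCommGroup A] [AddCommGroup A']
  {c : ℂ × ℂ → A} {c' : ℂ × ℂ → A'} {ex : (Fin g → ℂ) →+ A} {ex' : (Fin g' → ℂ) →+ A'}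

theorem end_aux (hF : Squarefree F) (hF' : Squarefree F') (he : Ax.IsExp F g c ex)
    (he' : Ax.IsExp F' g' c' ex') (T : A →+ A') (D : Derivation ℂ L L) {x w : L} (hD : D x = 1)
    (hw : w ^ 2 = aeval x F) (hw0 : w ≠ 0) {ι : Type*} [Fintype ι] (xi wi : ι → L)
    (hwi : ∀ i, wi i ^ 2 = aeval (xi i) F') (hwi0 : ∀ i, wi i ≠ 0) (a : A') (S : Finset (Pl ℂ L))
    (hT : ∀ Q ∉ S, Q.v x ≤ 1 → Q.v w ≤ 1 → (∀ i, Q.v (xi i) ≤ 1 ∧ Q.v (wi i) ≤ 1) →
      T (c (ev Q x, ev Q w)) = ∑ i, c' (ev Q (xi i), ev Q (wi i)) + a)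
    (M : Matrix (Fin g') (Fin g) ℂ)
    (hM : ∀ k : Fin g', ∑ i, xi i ^ (k : ℕ) * (D (xi i) / wi i) =
      ∑ m : Fin g, algebraMap ℂ L (M k m) * (x ^ (m : ℕ) * (D x / w))) (z : Fin g → ℂ) :
    T (ex z) = ex' (M.mulVec z) := by
  classical
  obtain ⟨B, hB⟩ := exists_fam D hD ({w, D x / w} ∪ (Finset.univ.image xi ∪ Finset.univ.image wi ∪
    Finset.univ.image fun i => D (xi i) / wi i))
  obtain ⟨e⟩ : Nonempty (Fin g ↪ {y : ℂ // y ∉ B ∪ S.image fun Q => ev Q x}) := by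
    have : Infinite {y : ℂ // y ∉ B ∪ S.image fun Q => ev Q x} :=
      (B ∪ S.image fun Q => ev Q x).finite_toSet.infinite_compl.to_subtype
    exact ⟨Fin.valEmbedding.trans (Infinite.natEmbedding _)⟩
  choose Q₀ h1 h2 using fun j => exists_pl_at (transcendental_of_D hD) (e j).1
  choose Q q0 q1 q2 q3 using fun j => hB (Q₀ j) (h1 j) (by
    rw [h2]; exact fun h => (e j).2 (Finset.mem_union_left _ h))
  have aw : ∀ j, AnF (Q j) D w := fun j => q3 j _ (by simp)
  have aμ : ∀ j, AnF (Q j) D (D x / w) := fun j => q3 j _ (by simp)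
  have axi : ∀ j i, AnF (Q j) D (xi i) := fun j i => q3 j _ (by simp)
  have awi : ∀ j i, AnF (Q j) D (wi i) := fun j i => q3 j _ (by simp)
  have aμi : ∀ j i, AnF (Q j) D (D (xi i) / wi i) := fun j i => q3 j _ (by
    simp only [Finset.mem_union, Finset.mem_image, Finset.mem_univ, true_and]
    exact Or.inr (Or.inr ⟨i, rfl⟩))
  choose Φ p0 p1 using fun j => fam_germ hF he hw hw0 (q2 j) (aw j) (aμ j)
  choose Ψ r0 r1 using fun j i => fam_germ hF' he' (hwi i) (hwi0 i) (axi j i) (awi j i) (aμi j i)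
  have key := hom_eq_of_curves (T.comp ex) (ex'.comp (Matrix.mulVecLin M).toAddMonoidHom) Φ
    (fun j k => (e j).1 ^ (k : ℕ) * ev (Q j 0) (D x / w)) p0
    (fun j => by
      have := strict_of_ev ((p1 j).mono fun t ht => ht.1)
      rwa [q0, h2, ← q0] at this)
    (vand_surj (fun i j hij => e.injective (Subtype.ext hij)) fun j h0 => by
      have h3 := ev_mul (Q j 0) (aμ j).reg.self_of_nhds (aw j).reg.self_of_nhds
      rw [div_mul_cancel₀ _ hw0, h0, hD, ev_one] at h3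
      simp at h3)
    (fun j => by
      have hS : ∀ᶠ t in 𝓝 (0 : ℂ), Q j t ∉ S := by
        have h3 : ∀ᶠ t in 𝓝 (0 : ℂ), ∀ P ∈ S, (e j).1 + t ≠ ev P x :=
          (Finset.eventually_all S).2 fun P hP =>
            (continuousAt_const.add continuousAt_id).eventually_ne (by
              show (e j).1 + 0 ≠ _
              rw [add_zero]
              intro h
              exact (e j).2 (Finset.mem_union_right _ (Finset.mem_image.2 ⟨P, hP, h.symm⟩)))
        filter_upwards [h3, q1 j] with t a b h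
        exact a _ h (by rw [b, h2])
      have hreg : ∀ᶠ t in 𝓝 (0 : ℂ), ∀ i, (Q j t).v (xi i) ≤ 1 ∧ (Q j t).v (wi i) ≤ 1 :=
        eventually_all.2 fun i => (axi j i).reg.and (awi j i).reg
      have hT' : ∀ᶠ t in 𝓝 (0 : ℂ), T (c (ev (Q j t) x, ev (Q j t) w)) =
          ∑ i, c' (ev (Q j t) (xi i), ev (Q j t) (wi i)) + a := by
        filter_upwards [hS, hreg, (q2 j).reg, (aw j).reg] with t a b d f using hT _ a d f b
      have hder : ∀ k, ∀ᶠ t in 𝓝 (0 : ℂ),
          HasDerivAt (fun s => ∑ i, Ψ j i s k - ∑ m, M k m * Φ j s m) 0 t := by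
        intro k
        filter_upwards [p1 j, eventually_all.2 (r1 j), hreg, (q2 j).reg, (aμ j).reg,
          eventually_all.2 fun i => (aμi j i).reg] with t a b d f u v
        refine ((HasDerivAt.fun_sum fun i _ => hasDerivAt_pi.1 (b i).1 k).fun_sub
          (HasDerivAt.fun_sum fun m _ => (hasDerivAt_pi.1 a.1 m).const_mul (M k m))).congr_deriv ?_
        have m1 : ∀ i, (Q j t).v (xi i ^ (k : ℕ) * (D (xi i) / wi i)) ≤ 1 := fun i => by
          rw [map_mul]; exact mul_le_one' (ev_pow' _ (d i).1 _).1 (v i)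
        have m2 : ∀ m : Fin g, (Q j t).v (x ^ (m : ℕ) * (D x / w)) ≤ 1 := fun m => by
          rw [map_mul]; exact mul_le_one' (ev_pow' _ f _).1 u
        have m3 := congrArg (ev (Q j t)) (hM k)
        rw [ev_sum _ _ _ fun i _ => m1 i, ev_sum _ _ _ fun m _ => by
          rw [map_mul]; exact mul_le_one' (v_const_le _ _) (m2 m)] at m3
        rw [sub_eq_zero]
        convert m3 using 2 with i _ m _
        · rw [ev_mul _ (ev_pow' _ (d i).1 _).1 (v i), (ev_pow' _ (d i).1 _).2]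
        · rw [ev_mul _ (v_const_le _ _) (m2 m), ev_const, ev_mul _ (ev_pow' _ f _).1 u,
            (ev_pow' _ f _).2]
      have hT0 := hT'.self_of_nhds
      filter_upwards [hT', p1 j, eventually_all.2 (r1 j),
        eventually_all.2 fun k => Ax.ev_const1 (𝕜 := ℂ) (hder k)] with t a b d f
      have m4 : (Matrix.mulVecLin M).toAddMonoidHom (Φ j t) = ∑ i, Ψ j i t := by
        ext k
        have := f k
        simp only [p0, r0, Pi.zero_apply, Finset.sum_const_zero, mul_zero, sub_zero] at this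
        rw [Finset.sum_apply, sub_eq_zero.1 this]
        rfl
      rw [b.2, map_add, hT0, Finset.sum_congr rfl fun i _ => (d i).2, Finset.sum_add_distrib,
        add_right_comm, add_left_inj, add_right_inj] at a
      rw [AddMonoidHom.comp_apply, AddMonoidHom.comp_apply, a, m4, map_sum])
  exact DFunLike.congr_fun key z

/-- **END**, abstract form: `D` any derivation with `D x ≠ 0` -/
theorem end_abs (hF : Squarefree F) (hF' : Squarefree F') (he : Ax.IsExp F g c ex)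
    (he' : Ax.IsExp F' g' c' ex') (T : A →+ A') (D : Derivation ℂ L L) {x w : L} (hD : D x ≠ 0)
    (hw : w ^ 2 = aeval x F) (hw0 : w ≠ 0) {ι : Type*} [Fintype ι] (xi wi : ι → L)
    (hwi : ∀ i, wi i ^ 2 = aeval (xi i) F') (hwi0 : ∀ i, wi i ≠ 0) (a : A') (S : Finset (Pl ℂ L))
    (hT : ∀ Q ∉ S, Q.v x ≤ 1 → Q.v w ≤ 1 → (∀ i, Q.v (xi i) ≤ 1 ∧ Q.v (wi i) ≤ 1) →
      T (c (ev Q x, ev Q w)) = ∑ i, c' (ev Q (xi i), ev Q (wi i)) + a)
    (M : Matrix (Fin g') (Fin g) ℂ)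
    (hM : ∀ k : Fin g', ∑ i, xi i ^ (k : ℕ) * (D (xi i) / wi i) =
      ∑ m : Fin g, algebraMap ℂ L (M k m) * (x ^ (m : ℕ) * (D x / w))) (z : Fin g → ℂ) :
    T (ex z) = ex' (M.mulVec z) := by
  refine end_aux hF hF' he he' T ((D x)⁻¹ • D) (by simp [hD]) hw hw0 xi wi hwi hwi0 a S hT M
    (fun k => ?_) z
  have := congrArg (fun y => (D x)⁻¹ * y) (hM k)
  simp only [Finset.mul_sum] at this
  convert this using 2 <;> simp only [Derivation.smul_apply, smul_eq_mul] <;> ring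

end fam

section gal

variable {k : Type*} [Field k] [IsAlgClosed k] {K : Type*} [Field K] [Algebra k K]
  [Algebra (RatFunc k) K] [IsScalarTower k (RatFunc k) K] [FiniteDimensional (RatFunc k) K]
  [Algebra.IsSeparable (RatFunc k) K]
  {L : Type*} [Field L] [Algebra k L] [Algebra K L] [IsScalarTower k K L]
  [FiniteDimensional K L]
  [Algebra (RatFunc k) L] [IsScalarTower k (RatFunc k) L] [FiniteDimensional (RatFunc k) L]
  [Algebra.IsSeparable (RatFunc k) L]

omit [Algebra (RatFunc k) L] [IsScalarTower k (RatFunc k) L] [FiniteDimensional (RatFunc k) L]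
  [Algebra.IsSeparable (RatFunc k) L] in
theorem con_single_gal [IsGalois K L] (Q : Pl k L) :
    con L (Finsupp.single (under K Q) (1 : ℤ)) =
      ∑ σ : L ≃ₐ[K] L, Finsupp.single ((Wp.siOf k σ⁻¹).pl Q) 1 := by
  classical
  letI : Algebra (RatFunc k) L := ((algebraMap K L).comp (algebraMap (RatFunc k) K)).toAlgebra
  haveI : IsScalarTower (RatFunc k) K L := IsScalarTower.of_algebraMap_eq fun _ => rfl
  haveI : IsScalarTower k (RatFunc k) L := IsScalarTower.of_algebraMap_eq fun c => by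
    show algebraMap k L c = algebraMap K L (algebraMap (RatFunc k) K _)
    rw [← IsScalarTower.algebraMap_apply k (RatFunc k) K, ← IsScalarTower.algebraMap_apply k K L]
  haveI : FiniteDimensional (RatFunc k) L := Module.Finite.trans K L
  haveI : Algebra.IsSeparable (RatFunc k) L := Algebra.IsSeparable.trans (RatFunc k) K L
  ext R
  have h1 := sum_galois (K := K) Q fun Q' => Finsupp.single Q' (1 : ℤ) R
  rw [degP_eq_one, degP_eq_one, ← Equiv.sum_comp (Equiv.inv (L ≃ₐ[K] L))] at h1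
  rw [con_apply, Finset.sum_apply']
  have h2 : ∑ σ : L ≃ₐ[K] L, Finsupp.single ((Wp.siOf k σ⁻¹).pl Q) (1 : ℤ) R =
      ∑ σ : L ≃ₐ[K] L, Finsupp.single (mapPl ((Equiv.inv (L ≃ₐ[K] L) σ).restrictScalars k) Q)
        (1 : ℤ) R := rfl
  rw [h2]
  simp only [Nat.cast_one, mul_one, one_mul] at h1
  rw [← h1]
  by_cases hR : under K R = under K Q
  · rw [hR, Finsupp.single_eq_same, Finset.sum_eq_single R, Finsupp.single_eq_same,
      eR_eq_of_under_eq hR]
    · intro b _ hb; exact Finsupp.single_eq_of_ne hb.symm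
    · intro h; exact absurd (mem_above.2 hR) h
  · rw [Finsupp.single_eq_of_ne hR, Finset.sum_eq_zero, mul_zero, mul_zero]
    intro b hb
    refine Finsupp.single_eq_of_ne ?_
    rintro rfl
    exact hR (mem_above.1 hb)

theorem cl_under [Algebra.IsSeparable K L] {F : k[X]} {x w : K} (h : Hyp F x w) {R : Pl k L} {a b : k}
    (ha : R.v (algebraMap K L x - algebraMap k L a) < 1)
    (hb : R.v (algebraMap K L w - algebraMap k L b) < 1) :
    cl x w (a, b) = cls (Finsupp.single (under K R) 1) := by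
  have : At (under K R) x w a b := by
    constructor <;> rw [under_lt_one_iff, map_sub, ← IsScalarTower.algebraMap_apply] <;> assumption
  rw [cl, sp, h.pt_eq this]

end gal

section

variable {K : Type*} [Field K] [Algebra ℂ K]
  [Algebra (RatFunc ℂ) K] [IsScalarTower ℂ (RatFunc ℂ) K] [FiniteDimensional (RatFunc ℂ) K]
  [Algebra.IsSeparable (RatFunc ℂ) K]
  {K' : Type*} [Field K'] [Algebra ℂ K']
  [Algebra (RatFunc ℂ) K'] [IsScalarTower ℂ (RatFunc ℂ) K'] [FiniteDimensional (RatFunc ℂ) K']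
  [Algebra.IsSeparable (RatFunc ℂ) K']
  {F F' : ℂ[X]} {g g' : ℕ} {x w : K} {x' w' : K'}
  {ex : (Fin g → ℂ) →+ Pic ℂ K} {ex' : (Fin g' → ℂ) →+ Pic ℂ K'}

theorem symm_const {L L' : Type*} [Field L] [Algebra ℂ L] [Field L'] [Algebra ℂ L']
    (e : SI ℂ L ℂ L') (hs : ∀ c, e.s c = c) (c : ℂ) :
    e.f.symm (algebraMap ℂ L' c) = algebraMap ℂ L c := by
  rw [RingEquiv.symm_apply_eq, e.comm, hs]

theorem symm_aeval {L L' : Type*} [Field L] [Algebra ℂ L] [Field L'] [Algebra ℂ L']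
    (e : SI ℂ L ℂ L') (hs : ∀ c, e.s c = c) (y : L') (p : ℂ[X]) :
    e.f.symm (aeval y p) = aeval (e.f.symm y) p :=
  (aeval_algHom_apply (AlgHom.mk (e.f.symm : L' →+* L) (symm_const e hs)) y p).symm

/-- **END** for isomorphisms of function fields -/
theorem end_aut (h : Hyp F x w) (h' : Hyp F' x' w') (he : Ax.IsExp F g (cl x w) ex)
    (he' : Ax.IsExp F' g' (cl x' w') ex') (e : SI ℂ K ℂ K') (hs : ∀ c, e.s c = c)
    (D : Derivation ℂ K K) (hD : D x ≠ 0) (M : Matrix (Fin g') (Fin g) ℂ)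
    (hM : ∀ k : Fin g', e.f.symm x' ^ (k : ℕ) * (D (e.f.symm x') / e.f.symm w') =
      ∑ m : Fin g, algebraMap ℂ K (M k m) * (x ^ (m : ℕ) * (D x / w))) (z : Fin g → ℂ) :
    e.pic (ex z) = ex' (M.mulVec z) := by
  refine end_abs (L := K) h.sep.squarefree h'.sep.squarefree he he' e.pic.toAddMonoidHom D hD h.sq
    h.w_ne (ι := Unit) (fun _ => e.f.symm x') (fun _ => e.f.symm w')
    (fun _ => by rw [← map_pow, h'.sq, symm_aeval e hs])
    (fun _ => by simpa using h'.w_ne) 0 ∅ (fun Q _ h1 h2 h3 => ?_) M (by simpa using hM) z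
  have h4 : At (e.pl Q) x' w' (ev Q (e.f.symm x')) (ev Q (e.f.symm w')) := by
    constructor <;> rw [SI.pl_v, map_sub, symm_const e hs]
    exacts [ev_spec Q (h3 ()).1, ev_spec Q (h3 ()).2]
  rw [Fintype.sum_unique, add_zero, cl, cl, sp, sp, h.pt_eq (h.at_ev h1), h'.pt_eq h4]
  exact congrArg cls (e.D_single Q 1)

variable {L : Type*} [Field L] [Algebra ℂ L] [Algebra K L] [IsScalarTower ℂ K L]
  [FiniteDimensional K L] [IsGalois K L]
  [Algebra (RatFunc ℂ) L] [IsScalarTower ℂ (RatFunc ℂ) L] [FiniteDimensional (RatFunc ℂ) L]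
  [Algebra.IsSeparable (RatFunc ℂ) L]
  {L' : Type*} [Field L'] [Algebra ℂ L'] [Algebra K' L'] [IsScalarTower ℂ K' L']
  [FiniteDimensional K' L'] [Algebra.IsSeparable K' L']
  [Algebra (RatFunc ℂ) L'] [IsScalarTower ℂ (RatFunc ℂ) L'] [FiniteDimensional (RatFunc ℂ) L']
  [Algebra.IsSeparable (RatFunc ℂ) L']

/-- **END** for `pushP ∘ e.pic ∘ conP`, `L / K` Galois -/
theorem end_gal (h : Hyp F x w) (h' : Hyp F' x' w') (he : Ax.IsExp F g (cl x w) ex)
    (he' : Ax.IsExp F' g' (cl x' w') ex') (e : SI ℂ L ℂ L') (hs : ∀ c, e.s c = c)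
    (D : Derivation ℂ L L) (hD : D (algebraMap K L x) ≠ 0) (M : Matrix (Fin g') (Fin g) ℂ)
    (hM : ∀ k : Fin g', ∑ σ : L ≃ₐ[K] L, σ (e.f.symm (algebraMap K' L' x')) ^ (k : ℕ) *
      (D (σ (e.f.symm (algebraMap K' L' x'))) / σ (e.f.symm (algebraMap K' L' w'))) =
      ∑ m : Fin g, algebraMap ℂ L (M k m) *
        (algebraMap K L x ^ (m : ℕ) * (D (algebraMap K L x) / algebraMap K L w))) (z : Fin g → ℂ) :
    Wp.pushP K' (e.pic (Wp.conP L (ex z))) = ex' (M.mulVec z) := by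
  refine end_abs (L := L) h.sep.squarefree h'.sep.squarefree he he'
    ((Wp.pushP K').comp (e.pic.toAddMonoidHom.comp (Wp.conP L))) D hD
    (by rw [← map_pow, h.sq, aeval_algebraMap_apply]) (by simpa using h.w_ne)
    (fun σ : L ≃ₐ[K] L => σ (e.f.symm (algebraMap K' L' x')))
    (fun σ => σ (e.f.symm (algebraMap K' L' w'))) (fun σ => ?_)
    (fun _ => by simpa using h'.w_ne) 0 ∅ (fun Q _ h1 h2 h3 => ?_) M hM z
  · rw [← map_pow, ← map_pow, ← map_pow, h'.sq, ← aeval_algebraMap_apply, symm_aeval e hs]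
    exact (aeval_algHom_apply (σ.restrictScalars ℂ) _ F').symm
  · rw [cl_under h (ev_spec Q h1) (ev_spec Q h2), add_zero]
    rw [AddMonoidHom.comp_apply, AddMonoidHom.comp_apply, AddEquiv.coe_toAddMonoidHom, Wp.conP_cls, con_single_gal, map_sum, map_sum, map_sum]
    refine Finset.sum_congr rfl fun σ _ => ?_
    have h4 : ∀ (y : L') (c : ℂ), (e.pl ((Wp.siOf ℂ (σ⁻¹ : L ≃ₐ[K] L)).pl Q)).v (y - algebraMap ℂ L' c) =
        Q.v (σ (e.f.symm y) - algebraMap ℂ L c) := by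
      intro y c
      rw [SI.pl_v, map_sub, symm_const e hs]
      change Q.v (σ (_ - _)) = _
      rw [map_sub]
      exact congrArg (fun u => Q.v (_ - u)) ((σ.restrictScalars ℂ).commutes c)
    rw [cl_under h' (R := e.pl ((Wp.siOf ℂ σ⁻¹).pl Q)) (by rw [h4]; exact ev_spec Q (h3 σ).1)
      (by rw [h4]; exact ev_spec Q (h3 σ).2), SI.pic_cls, SI.D_single, Wp.pushP_cls, Wp.push_single]

end

end Crest.Agent.T15.Aj
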