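import Mathlib
import Crest.Agent.T15.AjE_55
import Crest.Agent.T15.MoB_29

/-!
# Row 15 (helper55): the quadratic cover `K / Y` of the model, the relation `g r⁻¹ = r` on `Y`
-/

set_option autoImplicit false
set_option linter.all false

open Polynomial
open Crest.Agent.R013.RR8_948 Crest.Agent.R013.RR13_948 Crest.Agent.R013.RR14_948 Crest.Agent.R013.RR20_948
open Crest.Agent.T15.Mo

noncomputable section

namespace Crest.Agent.T15.Aj

/-- `d / dz` -/
theorem exists_D {k K : Type*} [Field k] [CharZero k] [Field K] [Algebra k K] [Algebra (RatFunc k) K]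
    [IsScalarTower k (RatFunc k) K] [FiniteDimensional (RatFunc k) K] {z : K}
    (hz : Transcendental k z) : ∃ D : Derivation k K K, D z = 1 := by
  obtain ⟨D, hD, -⟩ := @exists_del k _ K _ _ (ratAlg z hz) (ratAlg_tower z hz)
    (ratAlg_isSeparable z hz)
  have h2 : @xK k _ K _ (ratAlg z hz) = z := ratAlg_xK z hz
  exact ⟨D, h2 ▸ hD⟩

theorem algHom_ext_top {C Y K : Type*} [Field C] [Field Y] [Field K] [Algebra C Y] [Algebra C K]
    {s : Set Y} (hs : IntermediateField.adjoin C s = ⊤) {φ ψ : Y →ₐ[C] K}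
    (h : ∀ y ∈ s, φ y = ψ y) (y : Y) : φ y = ψ y := by
  have hy : y ∈ IntermediateField.adjoin C s := hs ▸ IntermediateField.mem_top
  induction hy using IntermediateField.adjoin_induction with
  | mem x hx => exact h x hx
  | algebraMap c => rw [φ.commutes, ψ.commutes]
  | add a b _ _ ha hb => rw [map_add, map_add, ha, hb]
  | inv a _ ha => rw [map_inv₀, map_inv₀, ha]
  | mul a b _ _ ha hb => rw [map_mul, map_mul, ha, hb]

/-- a quadratic extension `K = Y(B)` -/
theorem quad_gal {Y K : Type*} [Field Y] [Field K] [Algebra Y K] [FiniteDimensional Y K]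
    [Algebra.IsSeparable Y K] {B : K} {B2 : Y} (hB : B ^ 2 = algebraMap Y K B2)
    (genK : IntermediateField.adjoin Y {B} = ⊤) (nB : B ∉ Set.range (algebraMap Y K)) :
    Module.finrank Y K = 2 ∧ IsGalois Y K ∧ ∃ g : K ≃ₐ[Y] K, g ≠ 1 ∧ g B = -B ∧
      (∀ σ : K ≃ₐ[Y] K, σ = 1 ∨ σ = g) ∧
      ∀ {M : Type*} [AddCommMonoid M] (f : (K ≃ₐ[Y] K) → M), ∑ σ, f σ = f 1 + f g := by
  classical
  have hi : IsIntegral Y B := Algebra.IsIntegral.isIntegral B
  have h1 : Module.finrank Y K = (minpoly Y B).natDegree := by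
    rw [← IntermediateField.adjoin.finrank hi, genK, IntermediateField.finrank_top']
  have h2 : 2 ≤ (minpoly Y B).natDegree := (minpoly.two_le_natDegree_iff hi).2 nB
  have h3 : (minpoly Y B).natDegree ≤ 2 := by
    have h4 := natDegree_le_of_dvd (minpoly.dvd Y B (p := X ^ 2 - C B2) (by simp [hB]))
      (X_pow_sub_C_ne_zero two_pos B2)
    rwa [natDegree_X_pow_sub_C] at h4
  have h5 : Module.finrank Y K = 2 := by omega
  haveI : Algebra.IsQuadraticExtension Y K := { finrank_eq_two' := h5 }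
  have hG : IsGalois Y K := inferInstance
  have h6 : (Finset.univ : Finset (K ≃ₐ[Y] K)).card = 2 := by
    rw [Finset.card_univ, ← Nat.card_eq_fintype_card, IsGalois.card_aut_eq_finrank, h5]
  obtain ⟨g, hg⟩ : ∃ g : K ≃ₐ[Y] K, g ≠ 1 :=
    Fintype.exists_ne_of_one_lt_card (by rw [← Finset.card_univ, h6]; norm_num) 1
  have h7 : (Finset.univ : Finset (K ≃ₐ[Y] K)) = {1, g} :=
    (Finset.eq_of_subset_of_card_le (Finset.subset_univ _)
      (by rw [h6, Finset.card_pair hg.symm])).symm
  refine ⟨h5, hG, g, hg, ?_, fun σ => by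
      have := Finset.mem_univ σ
      rwa [h7, Finset.mem_insert, Finset.mem_singleton] at this,
    fun f => by rw [h7, Finset.sum_pair hg.symm]⟩
  have h8 : g B ^ 2 = B ^ 2 := by rw [← map_pow, hB, AlgEquiv.commutes]
  refine (sq_eq_sq_iff_eq_or_eq_neg.1 h8).resolve_left fun h9 => hg (AlgEquiv.ext fun y => ?_)
  exact algHom_ext_top genK (φ := (g : K →ₐ[Y] K)) (ψ := AlgHom.id Y K)
    (fun y hy => by rw [Set.mem_singleton_iff.1 hy]; exact h9) y

section formulas

variable {R R' : Type*} [Field R] [Field R']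

/-- the second root of the cubic (same text as `Ht.xu`) -/
def xv (P : Par R) (A B u : R) : R :=
  (-2 * (P.p1 * P.p2 + P.p1 * P.p3 + P.p2 * P.p3) - u +
    (P.p1 * P.d1) * (P.p2 * P.d2) * (P.p3 * P.d3) * u * P.V' A (B ^ 2) u * P.R' A (B ^ 2) u *
      (A * B / (P.t * P.d1) / (u + P.p2 * P.p3))) / 2

/-- the cubic -/
def Cub (P : Par R) (A B2 u : R) : Prop :=
  u ^ 3 + 2 * (P.p1 * P.p2 + P.p1 * P.p3 + P.p2 * P.p3) * u ^ 2 - P.Xc A B2 * u -
    2 * (P.p1 * P.p2 * P.p3) ^ 2 = 0

theorem map_xv (f : R →+* R') (P : Par R) (A B u : R) :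
    f (xv P A B u) = xv (P.map f) (f A) (f B) (f u) := by
  simp [xv, map_V', map_R', map_ofNat]

theorem Cub.map (f : R →+* R') {P : Par R} {A B2 u : R} (h : Cub P A B2 u) :
    Cub (P.map f) (f A) (f B2) (f u) := by
  have := congrArg f h
  simpa [Cub, Par.Xc, map_V, map_ofNat] using this

theorem xv_add (P : Par R) (two : (2 : R) ≠ 0) (A B u : R) :
    xv P A B u + xv P A (-B) u = -2 * (P.p1 * P.p2 + P.p1 * P.p3 + P.p2 * P.p3) - u := by
  unfold xv
  rw [neg_sq]
  field_simp
  ring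

/-- `r` permutes the roots of the cubic cyclically -/
theorem xv_cyc (P : Par R) (two : (2 : R) ≠ 0) {A B u u1 : R} (h : Cub P A (B ^ 2) u)
    (h1 : Cub P (-B) (A ^ 2) u1) (e : u1 = xv P A B u) (hne : u ≠ u1)
    (n1 : u + P.p2 * P.p3 ≠ 0) (n2 : u + P.p1 * P.p3 ≠ 0) (n3 : u + P.p1 * P.p2 ≠ 0)
    (m1 : u1 + P.p2 * P.p3 ≠ 0) (m2 : u1 + P.p1 * P.p3 ≠ 0) (m3 : u1 + P.p1 * P.p2 ≠ 0) :
    xv P (-B) A u1 = xv P A (-B) u := by
  have hV : P.V (-B) (A ^ 2) = P.V A (B ^ 2) := by unfold Par.V; ring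
  have hR : P.R (-B) (A ^ 2) = -P.R A (B ^ 2) := by unfold Par.R; ring
  have hs := xv_add P two A B u
  rw [← e] at hs
  set u2 := xv P A (-B) u with hu2
  unfold Cub Par.Xc at h h1
  rw [hV] at h1
  unfold xv Par.V' Par.R' at e ⊢
  rw [hV, hR]
  generalize P.V A (B ^ 2) = V at *
  generalize P.R A (B ^ 2) = R at *
  have hS : -B * A / (P.t * P.d1) = -(A * B / (P.t * P.d1)) := by ring
  rw [hS]
  generalize A * B / (P.t * P.d1) = S at *
  set W := P.p1 * P.d1 * (P.p2 * P.d2) * (P.p3 * P.d3) * V * R * S with hW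
  generalize P.p1 * P.p2 * (4 * P.p3 ^ 2 - P.p1 * P.p2) + P.p1 * P.d1 * (P.p2 * P.d2) * V ^ 2 = X0
    at *
  have hsum := P.sum
  set q := P.p1 * P.p2 + P.p1 * P.p3 + P.p2 * P.p3 with hq
  set π := (P.p1 * P.p2 * P.p3) ^ 2 with hπ
  have hN : ∀ T, (T + P.p1 * P.p2) * (T + P.p1 * P.p3) * (T + P.p2 * P.p3) = T ^ 3 + q * T ^ 2 + π := by
    intro T
    rw [hq, hπ]
    linear_combination (P.p1 * P.p2 * P.p3 * T) * hsum
  have e1 : (u1 - u2) * (u ^ 3 + q * u ^ 2 + π) = W * u := by
    have : u1 - u2 = 2 * u1 + 2 * q + u := by linear_combination -hs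
    rw [this, ← hN, e, hW]
    field_simp
    ring
  have e2 : u ^ 2 + u * u1 + u1 ^ 2 + 2 * q * (u + u1) - X0 = 0 := by
    apply mul_left_cancel₀ (sub_ne_zero.2 hne)
    linear_combination h - h1
  have e3 : 2 * π = u * u1 * u2 := by
    linear_combination -h + u * e2 - u * u1 * hs
  have u0 : u ≠ 0 := by
    rintro rfl
    exact mul_ne_zero two (pow_ne_zero 2 (mul_ne_zero (mul_ne_zero P.h1 P.h2) P.h3))
      (by rw [← hπ, e3]; ring)
  have e4 : 2 * W = (u1 - u2) * (u - u1) * (u - u2) := by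
    apply mul_left_cancel₀ u0
    linear_combination -2 * e1 + (u1 - u2) * e3 + (u1 - u2) * u ^ 2 * hs
  have e5 : 2 * (W * u1) = 2 * ((u2 - u) * (u1 ^ 3 + q * u1 ^ 2 + π)) := by
    linear_combination u1 * e4 - (u2 - u) * e3 - (u2 - u) * u1 ^ 2 * hs
  have e6 := mul_left_cancel₀ two e5
  rw [← hN] at e6
  have e7 : P.p1 * P.d1 * (P.p2 * P.d2) * (P.p3 * P.d3) * u1 * (V / (u1 + P.p1 * P.p2)) *
      (-R / (u1 + P.p1 * P.p3)) * (-S / (u1 + P.p2 * P.p3)) = u2 - u := by
    field_simp
    linear_combination e6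
  rw [e7, div_eq_iff two]
  linear_combination -hs

end formulas

section model

variable {C Y K : Type*} [Field C] [CharZero C] [Field Y] [Field K] [Algebra C Y] [Algebra C K]
  [Algebra Y K] [IsScalarTower C Y K]

omit [CharZero C] in
theorem par_fix (P : Par C) (f : K →+* K) (hf : ∀ c, f (algebraMap C K c) = algebraMap C K c) :
    (P.map (algebraMap C K)).map f = P.map (algebraMap C K) := by
  unfold Par.map; congr 1 <;> exact hf _

omit [CharZero C] in
theorem par_up (P : Par C) :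
    (P.map (algebraMap C Y)).map (algebraMap Y K) = P.map (algebraMap C K) := by
  unfold Par.map; congr 1 <;> exact (IsScalarTower.algebraMap_apply C Y K _).symm

variable {P : Par C} {A B2 u : Y} {B : K} (eqs : Eqs (P.map (algebraMap C Y)) A B2 u)
  (tr : Transcendental C u) (hB : B ^ 2 = algebraMap Y K B2) (r : K ≃ₐ[C] K)
  (rA : r (algebraMap Y K A) = -B) (rB : r B = algebraMap Y K A)
  (ru : r (algebraMap Y K u) = xv (P.map (algebraMap C K)) (algebraMap Y K A) B (algebraMap Y K u))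
  (g : K ≃ₐ[Y] K) (hg : g B = -B)
include eqs tr hB rA rB ru hg

theorem g_rsymm_u : g (r.symm (algebraMap Y K u)) = r (algebraMap Y K u) := by
  by_cases hne : algebraMap Y K u = r (algebraMap Y K u)
  · have : r.symm (algebraMap Y K u) = algebraMap Y K u := by
      rw [AlgEquiv.symm_apply_eq]; exact hne
    rw [this, AlgEquiv.commutes, ← hne]
  have two : (2 : K) ≠ 0 := by
    rw [← map_ofNat (algebraMap C K) 2]; simp
  have hn : ∀ c : C, algebraMap Y K u + algebraMap C K c ≠ 0 := by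
    intro c hc
    rw [IsScalarTower.algebraMap_apply C Y K, ← map_add, map_eq_zero, add_eq_zero_iff_eq_neg,
      ← map_neg] at hc
    exact tr (hc ▸ isAlgebraic_algebraMap _)
  have hm : ∀ c : C, r (algebraMap Y K u) + algebraMap C K c ≠ 0 := by
    intro c hc
    rw [← r.commutes, ← map_add, map_eq_zero] at hc
    exact hn c hc
  have hr := par_fix P (r : K →+* K) r.commutes
  have hg' := par_fix P (g : K →+* K) (g.restrictScalars C).commutes
  have c0 : Cub (P.map (algebraMap C K)) (algebraMap Y K A) (B ^ 2) (algebraMap Y K u) := by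
    have := Cub.map (algebraMap Y K) (show Cub _ A B2 u from eqs.cub)
    rwa [par_up, ← hB] at this
  have c1 : Cub (P.map (algebraMap C K)) (-B) (algebraMap Y K A ^ 2) (r (algebraMap Y K u)) := by
    have := c0.map (r : K →+* K)
    rw [hr] at this
    simpa only [RingHom.coe_coe, map_pow, rA, rB] using this
  have k1 := xv_cyc _ two c0 c1 ru hne
    (by simpa using hn (P.p2 * P.p3)) (by simpa using hn (P.p1 * P.p3))
    (by simpa using hn (P.p1 * P.p2)) (by simpa using hm (P.p2 * P.p3))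
    (by simpa using hm (P.p1 * P.p3)) (by simpa using hm (P.p1 * P.p2))
  have k2 := xv_add (P.map (algebraMap C K)) two (algebraMap Y K A) B (algebraMap Y K u)
  set u2 := xv (P.map (algebraMap C K)) (algebraMap Y K A) (-B) (algebraMap Y K u) with hu2
  have k3 : r (r (algebraMap Y K u)) = u2 := by
    rw [← k1]
    conv_lhs => rw [ru]
    have := map_xv (r : K →+* K) (P.map (algebraMap C K)) (algebraMap Y K A) B (algebraMap Y K u)
    rw [hr] at this
    simpa only [RingHom.coe_coe, rA, rB] using this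
  have k4 : r u2 = algebraMap Y K u := by
    rw [← ru] at k2
    have := congrArg r k2
    simp only [map_add, map_sub, map_mul, map_neg, map_ofNat, Par.map_p1, Par.map_p2, Par.map_p3,
      AlgEquiv.commutes, k3] at this k2
    linear_combination this - k2
  have k5 : g u2 = r (algebraMap Y K u) := by
    have := map_xv (g : K →+* K) (P.map (algebraMap C K)) (algebraMap Y K A) (-B) (algebraMap Y K u)
    rw [hg'] at this
    rw [ru]
    simpa only [RingHom.coe_coe, AlgEquiv.commutes, map_neg, hg, neg_neg] using this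
  rw [← k5, ← k4, AlgEquiv.symm_apply_apply]

/-- `g r⁻¹ = r` on `Y` -/
theorem g_rsymm (gen : IntermediateField.adjoin C {A, B2, u} = ⊤) (y : Y) :
    g (r.symm (algebraMap Y K y)) = r (algebraMap Y K y) := by
  refine algHom_ext_top gen
    (φ := ((g.restrictScalars C : K →ₐ[C] K).comp (r.symm : K →ₐ[C] K)).comp
      (IsScalarTower.toAlgHom C Y K))
    (ψ := (r : K →ₐ[C] K).comp (IsScalarTower.toAlgHom C Y K)) (fun y hy => ?_) y
  change g (r.symm (algebraMap Y K y)) = r (algebraMap Y K y)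
  have hA : r.symm (algebraMap Y K A) = B := by rw [← rB, AlgEquiv.symm_apply_apply]
  have hB' : r.symm B = -algebraMap Y K A := by
    rw [AlgEquiv.symm_apply_eq, map_neg, rA, neg_neg]
  rcases hy with rfl | rfl | rfl
  · rw [hA, hg, rA]
  · rw [← hB, map_pow, map_pow, map_pow, hB', rB, map_neg, AlgEquiv.commutes, neg_sq]
  · exact g_rsymm_u eqs tr hB r rA rB ru g hg

end model

end Crest.Agent.T15.Aj
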