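import Crest.Agent.T15.HtDef_95
import Crest.Agent.T15.AjG_55

/-!
# Row 15 (helper55): leaf END of block Ht, and the quadratic cover of a model
-/

set_option autoImplicit false
set_option linter.all false

noncomputable section

namespace Crest.Agent.T15.Ht

open Polynomial Matrix
open Crest.Agent.T15.Mo (Par Eqs)

namespace Mdl

variable {C : Type} [Field C] [CharZero C] {P : Par C} (M : Mdl P)

theorem finrank_two : Module.finrank M.Y M.K = 2 := (Aj.quad_gal.{0, 0, 0} M.hB M.genK M.nB).1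

theorem isGalois : IsGalois M.Y M.K := (Aj.quad_gal.{0, 0, 0} M.hB M.genK M.nB).2.1

/-- the covering involution, and `g r⁻¹ = r` on `Y` -/
theorem exists_g : ∃ g : M.K ≃ₐ[M.Y] M.K, g ≠ 1 ∧ g M.B = -M.B ∧ (∀ σ, σ = 1 ∨ σ = g) ∧
    (∀ {A : Type} [AddCommMonoid A] (f : (M.K ≃ₐ[M.Y] M.K) → A), ∑ σ, f σ = f 1 + f g) ∧
    ∀ y : M.Y, g (M.r.symm (algebraMap M.Y M.K y)) = M.r (algebraMap M.Y M.K y) := by
  obtain ⟨-, -, g, h1, h2, h3, h4⟩ := Aj.quad_gal.{0, 0, 0} M.hB M.genK M.nB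
  exact ⟨g, h1, h2, h3, h4, Aj.g_rsymm M.eqs M.tr M.hB M.r M.rA M.rB M.ru g h2 M.gen⟩

end Mdl

theorem endStmt : EndStmt := by
  intro P M N cl ex h hN hcl he v
  obtain rfl : cl = Aj.cl M.z M.w := funext fun p => hcl p.1 p.2
  haveI := M.isGalois
  obtain ⟨g, -, -, -, h4, h5⟩ := M.exists_g
  have hz : Transcendental ℂ (algebraMap M.Y M.K M.z) :=
    (transcendental_algebraMap_iff (algebraMap M.Y M.K).injective).2
      (transcendental_iff.2 h.tr)
  obtain ⟨D, hD⟩ := Aj.exists_D hz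
  refine Aj.end_gal h h he he M.rS (fun _ => rfl) D (by rw [hD]; exact one_ne_zero) N
    (fun k => ?_) v
  rw [h4]
  change M.r.symm _ ^ _ * (D (M.r.symm _) / M.r.symm _) +
    g (M.r.symm _) ^ _ * (D (g (M.r.symm _)) / g (M.r.symm _)) = _
  rw [h5, h5, add_comm]
  simpa only [mul_div_assoc] using hN D k

end Crest.Agent.T15.Ht
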