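import Crest.Agent.T15.BetMer_91
import Crest.Agent.R007.Wp7
import Crest.Agent.R007.WpTor

/-!
# T15 / BetUni (helper91): uniformisers at the points of `ℍ`, surjectivity of `j`

* `isF_rc` : the Rankin-Cohen bracket `a Db - b Da`;
* `h4` : a form of weight two on `Γ₁(4)` without zeros on `ℍ`;
* `exists_unif` : a `Γ₁(4)`-invariant modular function with a simple zero at `z`;
* `j_onto`.
-/

set_option autoImplicit false

noncomputable section

namespace Crest.Agent.T15.Bet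

open UpperHalfPlane hiding I
open Filter Topology WithZero ModularForm CongruenceSubgroup Derivative Matrix
open scoped MatrixGroups Manifold Real
open Crest.Agent.T15.Mf Crest.Agent.R007 Crest.Agent.R007.Rat

lemma bdd_D {F : ℍ → ℂ} (hF : MDiff F) (hb : IsBoundedAtImInfty F) : IsBoundedAtImInfty (D F) := by
  rw [isBoundedAtImInfty_iff] at hb ⊢
  obtain ⟨C, A, h⟩ := hb
  refine ⟨‖(2 * π * Complex.I : ℂ)⁻¹‖ * (C / 1), max A 1 + 1, fun z hz => ?_⟩
  have hsub : ∀ w ∈ Metric.closedBall (z : ℂ) 1, max A 1 ≤ w.im := by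
    intro w hw
    have h1 : |(w - z).im| ≤ 1 := (Complex.abs_im_le_norm _).trans (by simpa [dist_eq_norm] using hw)
    rw [Complex.sub_im, coe_im, abs_le] at h1
    linarith
  have hpos : ∀ w ∈ Metric.closedBall (z : ℂ) 1, 0 < w.im := fun w hw =>
    lt_of_lt_of_le (lt_of_lt_of_le one_pos (le_max_right A 1)) (hsub w hw)
  rw [normalizedDerivOfComplex, norm_mul]
  gcongr
  refine Complex.norm_deriv_le_of_forall_mem_sphere_norm_le one_pos ?_ fun w hw => ?_
  · refine DifferentiableOn.diffContOnCl ?_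
    rw [closure_ball _ one_ne_zero]
    exact (UpperHalfPlane.mdifferentiable_iff.mp hF).mono hpos
  · have hw' := Metric.sphere_subset_closedBall hw
    rw [Function.comp_apply, ofComplex_apply_of_im_pos (hpos w hw')]
    exact h _ ((le_max_left A 1).trans (hsub w hw'))

/-- Rankin-Cohen bracket -/
def rc (a b : ℍ → ℂ) : ℍ → ℂ := a * D b - b * D a

lemma mdiff_rc {a b : ℍ → ℂ} (ha : MDiff a) (hb : MDiff b) : MDiff (rc a b) :=
  (ha.mul (normalizedDerivOfComplex_mdifferentiable hb)).sub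
    (hb.mul (normalizedDerivOfComplex_mdifferentiable ha))

lemma rc_slash {a b : ℍ → ℂ} (ha : MDiff a) (hb : MDiff b) (k : ℤ) (γ : SL(2, ℤ)) :
    (rc a b) ∣[k + (k + 2)] γ = rc (a ∣[k] γ) (b ∣[k] γ) := by
  rw [rc, rc, normalizedDerivOfComplex_SL_slash ha, normalizedDerivOfComplex_SL_slash hb,
    sub_eq_add_neg, SlashAction.add_slash, SlashAction.neg_slash, mul_slash_SL2, mul_slash_SL2]
  ext z
  simp only [Pi.add_apply, Pi.neg_apply, Pi.mul_apply, Pi.sub_apply]
  ring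

theorem isF_rc {M : ℕ} {k : ℤ} {a b : ℍ → ℂ} (ha : IsF M k a) (hb : IsF M k b) :
    IsF M (k + (k + 2)) (rc a b) where
  slash γ hγ := by rw [rc_slash ha.holo hb.holo, ha.slash γ hγ, hb.slash γ hγ]
  holo := mdiff_rc ha.holo hb.holo
  bdd g := by
    rw [rc_slash ha.holo hb.holo]
    exact ((ha.bdd g).mul (bdd_D (hb.slash_SL g).holo (hb.bdd g))).sub
      ((hb.bdd g).mul (bdd_D (ha.slash_SL g).holo (ha.bdd g)))

lemma rc_mul {u b : ℍ → ℂ} (hu : MDiff u) (hb : MDiff b) : rc (u * b) b = -(b ^ 2 * D u) := by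
  rw [rc, normalizedDerivOfComplex_mul u b hu hb]; ring

lemma ordH_D {u : ℍ → ℂ} (hu : MDiff u) {z : ℍ} (hz : u z = 0) : ordH (D u) z + 1 = ordH u z := by
  have h1 := (analAt hu z).analyticOrderAt_deriv_add_one
  simp only [Function.comp_apply, ofComplex_apply, hz, sub_zero] at h1
  have h2 : (D u) ∘ ofComplex =ᶠ[𝓝 (z : ℂ)]
      (fun _ => (2 * π * Complex.I : ℂ)⁻¹) * deriv (u ∘ ofComplex) := by
    filter_upwards [isOpen_upperHalfPlaneSet.mem_nhds z.im_pos] with w hw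
    simp [normalizedDerivOfComplex, ofComplex_apply_of_im_pos hw]
  rw [ordH, analyticOrderAt_congr h2, analyticOrderAt_mul analyticAt_const (analAt hu z).deriv,
    analyticAt_const.analyticOrderAt_eq_zero.mpr (inv_ne_zero Complex.two_pi_I_ne_zero), zero_add, h1]
  rfl

lemma mdiff_div {a b : ℍ → ℂ} (ha : MDiff a) (hb : MDiff b) (h0 : ∀ z, b z ≠ 0) : MDiff (a / b) := by
  rw [UpperHalfPlane.mdifferentiable_iff] at ha hb ⊢
  exact ha.div hb fun z _ => h0 _

/-- a form of weight two on `Γ₁(4)` without zeros on `ℍ` -/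
def h4 : ℍ → ℂ := Wp.P 4 ![0, 1] - Wp.P 4 ![0, 2]

theorem isF_h4 : IsF 4 2 h4 := (Wp.isF_P (by norm_num) _).sub (Wp.isF_P (by norm_num) _)

theorem h4_slash {γ : SL(2, ℤ)} (hγ : γ ∈ Gamma1 4) : h4 ∣[(2 : ℤ)] γ = h4 := by
  rw [Gamma1_mem] at hγ
  obtain ⟨-, h1, h2⟩ := hγ
  rw [h4, sub_eq_add_neg, SlashAction.add_slash, SlashAction.neg_slash, Wp.P_slash, Wp.P_slash]
  have key : ∀ a : ℤ, Wp.P 4 (![0, a] ᵥ* (γ : Matrix (Fin 2) (Fin 2) ℤ)) = Wp.P 4 ![0, a] := fun a =>
    Wp.P_congr (M := 4) (by norm_num) fun i => by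
      fin_cases i <;> simp [Matrix.vecMul, dotProduct, h1, h2]
  rw [key, key]

theorem h4_ne (z : ℍ) : h4 z ≠ 0 := by
  intro h
  rw [h4, Pi.sub_apply, Wp.P, Wp.P, ← mul_sub, mul_eq_zero, sub_eq_zero] at h
  rcases h with h | h
  · exact inv_ne_zero (pow_ne_zero 2 Complex.two_pi_I_ne_zero) h
  · rw [WpId.wp_eq_iff _ (Wp.pt_notMem (by norm_num) (Or.inr (by decide)) z)
      (Wp.pt_notMem (by norm_num) (Or.inr (by decide)) z)] at h
    rcases h with h | h
    · refine Wp.pt_notMem (M := 4) (v := ![0, -1]) (by norm_num) (Or.inr (by decide)) z ?_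
      convert h using 1
      simp [Wp.pt]; norm_num
    · refine Wp.pt_notMem (M := 4) (v := ![0, 3]) (by norm_num) (Or.inr (by decide)) z ?_
      convert h using 1
      simp [Wp.pt]; norm_num

lemma dl_ne (z : ℍ) : dl z ≠ 0 := ModularForm.discriminant_ne_zero z

lemma dl_ne_zero : dl ≠ 0 := fun h => dl_ne UpperHalfPlane.I (congrFun h _)

/-- `E₄³ - c Δ` -/
def jn (c : ℂ) : ℍ → ℂ := e4 ^ 3 - c • dl

lemma isF_e43 : IsF 1 12 (e4 ^ 3) := (isF_e4.pow 3).cast (by norm_num)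

lemma isF_jn (c : ℂ) : IsF 1 12 (jn c) := isF_e43.sub (isF_dl.smul c)

lemma tendsto_coeff_zero {M : ℕ} [NeZero M] {k : ℤ} {f : ℍ → ℂ} (hf : IsF M k f) :
    Tendsto f atImInfty (𝓝 ((qe M f).coeff 0)) := by
  have h := hf.analytic.continuousAt.tendsto.comp (qParam_tendsto_atImInfty (h := (M : ℝ)) Mpos)
  rw [qe, qExpansion_coeff]
  simp only [Nat.factorial_zero, Nat.cast_one, inv_one, iteratedDeriv_zero, one_mul]
  refine h.congr fun τ => ?_
  exact eq_cuspFunction τ Mpos.ne' hf.periodic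

lemma tendsto_jn (c : ℂ) : Tendsto (jn c) atImInfty (𝓝 1) := by
  have h1 := tendsto_coeff_zero isF_e4
  have h2 := tendsto_coeff_zero isF_dl
  rw [coeff_zero_e4] at h1
  rw [coeff_zero_dl] at h2
  have := (h1.pow 3).sub (h2.const_mul c)
  simp only [one_pow, mul_zero, sub_zero] at this
  exact this

lemma jn_ne (c : ℂ) : jn c ≠ 0 := fun h => by
  have := tendsto_jn c
  rw [h] at this
  exact zero_ne_one (tendsto_nhds_unique tendsto_const_nhds this)

/-- **`j` is onto** -/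
theorem j_onto (c : ℂ) : ∃ z : ℍ, e4 z ^ 3 = c * dl z := by
  by_contra hc
  push Not at hc
  have h0 : ∀ z, jn c z ≠ 0 := fun z h => hc z (sub_eq_zero.mp h)
  have h2 := tendsto_coeff_zero isF_dl
  rw [coeff_zero_dl] at h2
  have hlim : Tendsto (dl / jn c) atImInfty (𝓝 0) := by
    simpa using h2.div (tendsto_jn c) one_ne_zero
  have hsl : ∀ γ : SL(2, ℤ), (dl / jn c) ∣[(0 : ℤ)] γ = dl / jn c := by
    intro γ
    ext z
    have e1 := congrFun (isF_dl.slash_one_level γ) z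
    have e2 := congrFun ((isF_jn c).slash_one_level γ) z
    rw [SL_slash_apply] at e1 e2 ⊢
    have := zpow_ne_zero (-12 : ℤ) (denom_ne_zero γ z)
    rw [Pi.div_apply, Pi.div_apply, ← e1, ← e2, mul_div_mul_right _ _ this]
    simp
  have hF : IsF 1 0 (dl / jn c) := ⟨fun γ _ => hsl γ, mdiff_div isF_dl.holo (isF_jn c).holo h0,
    fun γ => by rw [hsl]; exact hlim.isBigO_one ℝ⟩
  obtain ⟨a, ha⟩ := ModularFormClass.levelOne_weight_zero_const hF.toSL
  rw [IsF.coe_toSL] at ha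
  have ha0 : a = 0 := by
    rw [ha] at hlim
    exact tendsto_nhds_unique tendsto_const_nhds hlim
  have := congrFun ha UpperHalfPlane.I
  rw [ha0, Pi.div_apply, Function.const_apply, div_eq_zero_iff] at this
  exact this.elim (dl_ne _) (h0 _)

/-- **uniformisers** -/
theorem exists_unif (z : ℍ) :
    ∃ x : FF, (∀ γ ∈ Gamma1 4, γ • x = x) ∧ vM z (x : Mer) = exp (-1) := by
  set c := e4 z ^ 3 / dl z
  have ha := isF_jn c
  have hu : MDiff (jn c / dl) := mdiff_div ha.holo isF_dl.holo dl_ne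
  have hab : jn c = jn c / dl * dl := by
    ext w; rw [Pi.mul_apply, Pi.div_apply, div_mul_cancel₀ _ (dl_ne w)]
  have hz : (jn c / dl) z = 0 := by
    have := dl_ne z
    simp only [jn, Pi.div_apply, Pi.sub_apply, Pi.pow_apply, Pi.smul_apply, smul_eq_mul, c]
    field_simp
    simp
  have hu0 : jn c / dl ≠ 0 := fun h => jn_ne c (by rw [hab, h, zero_mul])
  have hD := normalizedDerivOfComplex_mdifferentiable hu
  have ho := ordH_D hu hz
  have ht := ordH_ne_top hu hu0 z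
  have hD0 : D (jn c / dl) ≠ 0 := fun h => ht (by rw [← ho, h, ordH_zero, top_add])
  have hN : IsF 4 26 (jn c * dl * h4) :=
    (((ha.mul isF_dl).mono (one_dvd 4)).mul isF_h4).cast (by norm_num)
  have hR1 : IsF 1 26 (rc (jn c) dl) := (isF_rc ha isF_dl).cast (by norm_num)
  have hR : IsF 4 26 (rc (jn c) dl) := hR1.mono (one_dvd 4)
  refine ⟨quo (jn c * dl * h4) (rc (jn c) dl), fun γ hγ => ?_, ?_⟩
  · rw [← inv_inv γ, inv_sl_smul_quo (by norm_num) hN hR, hR1.slash_one_level,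
      show (26 : ℤ) = (12 + 12) + 2 by norm_num, mul_slash_SL2, (ha.mul isF_dl).slash_one_level,
      h4_slash (inv_mem hγ)]
  · rw [coe_quo (by norm_num) hN hR, map_div₀, mer_mul (ha.mul isF_dl).holo isF_h4.holo,
      mer_mul ha.holo isF_dl.holo, map_mul, map_mul, (vM_mer_eq_one isF_h4.holo).mpr (h4_ne z)]
    have e : rc (jn c) dl = -(dl ^ 2 * D (jn c / dl)) := by
      conv_lhs => rw [hab]
      exact rc_mul hu isF_dl.holo
    rw [e, mer_neg ((isF_dl.pow 2).holo.mul hD), Valuation.map_neg, mer_mul (isF_dl.pow 2).holo hD,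
      mer_pow isF_dl.holo, map_mul, map_pow]
    conv_lhs => rw [hab]
    rw [mer_mul hu isF_dl.holo, map_mul, (vM_mer_eq_one isF_dl.holo).mpr (dl_ne z), vM_mer z hu hu0,
      ← hab, vM_mer z hD hD0]
    simp only [mul_one, one_pow, one_mul]
    rw [← exp_sub, exp_inj, ordZ, ordZ, ← ho, ENat.toNat_add (ordH_ne_top hD hD0 z) (by simp)]
    simp

end Crest.Agent.T15.Bet
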