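import Crest.Agent.T15.EscA_99
import Crest.Agent.T15.BetUni_91
import Crest.Agent.T15.MfB_79
import Crest.Agent.R013.GR2_921

/-!
# Row 15, block T (helper99): `dim M₂ + dim S₂ ≥ d + 1` from Riemann-Roch

`K` is a function field of `Γ`-invariant modular functions, `X ↦ b / a` (`a`, `b` of weight two, `a`
without zeros).  `L(poles X) → M₂`, `h ↦ a h`; `L(dX) → S₂`, `u ↦ u dX`.
-/

set_option autoImplicit false

noncomputable section

namespace Crest.Agent.T15.Esc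

open UpperHalfPlane hiding I
open Filter Topology WithZero ModularForm CongruenceSubgroup Derivative Asymptotics Function
open scoped MatrixGroups Manifold Real
open Crest.Agent.T15.Mf Crest.Agent.T15.Bet Crest.Agent.T15.Hs Crest.Agent.R007 Crest.Agent.R007.Rat

/-! ### the order at `i∞` -/

section cusp

variable {M : ℕ} {k l : ℤ} {F G : ℍ → ℂ}

/-- the local parameter -/
def qq (M : ℕ) : ℍ → ℂ := fun τ => Periodic.qParam (M : ℝ) τ

lemma qq_ne (M : ℕ) (τ : ℍ) : qq M τ ≠ 0 := Periodic.qParam_ne_zero _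

lemma hasDerivAt_qq (τ : ℍ) :
    HasDerivAt (qq M ∘ ofComplex) (2 * π * Complex.I / M * qq M τ) τ := by
  have h1 : HasDerivAt (fun z : ℂ => Periodic.qParam (M : ℝ) z)
      (2 * π * Complex.I / M * qq M τ) τ := by
    have h2 : HasDerivAt (fun z : ℂ => 2 * π * Complex.I * z / ((M : ℝ) : ℂ))
        (2 * π * Complex.I * 1 / ((M : ℝ) : ℂ)) τ :=
      ((hasDerivAt_id (τ : ℂ)).const_mul _).div_const _
    refine h2.cexp.congr_deriv ?_
    simp only [qq, Periodic.qParam, Complex.ofReal_natCast]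
    ring
  refine h1.congr_of_eventuallyEq ?_
  filter_upwards [isOpen_upperHalfPlaneSet.mem_nhds τ.im_pos] with z hz
  simp [qq, ofComplex_apply_of_im_pos hz]

lemma mdiff_qq : MDiff (qq M) := fun τ => mdifferentiableAt_iff.2 (hasDerivAt_qq τ).differentiableAt

lemma D_qq : D (qq M) = (M : ℂ)⁻¹ • qq M := by
  funext τ
  rw [normalizedDerivOfComplex, (hasDerivAt_qq τ).deriv]
  have : (2 * π * Complex.I : ℂ) ≠ 0 := Complex.two_pi_I_ne_zero
  simp only [Pi.smul_apply, smul_eq_mul]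
  field_simp

lemma tendsto_qq (hM : M ≠ 0) : Tendsto (qq M) atImInfty (𝓝 0) :=
  qParam_tendsto_atImInfty (Nat.cast_pos.2 (Nat.pos_of_ne_zero hM))

/-- shape of a nonzero form at `i∞` -/
theorem exists_shape (hM : M ≠ 0) (hF : IsF M k F) (h0 : F ≠ 0) :
    ∃ n : ℕ, (qf F).orderTop = (((n : ℚ) / M : ℚ) : WithTop ℚ) ∧ F =Θ[atImInfty] (qq M ^ n) ∧
      D F =O[atImInfty] (qq M ^ n) := by
  have : NeZero M := ⟨hM⟩
  have hp : qe M F ≠ 0 := fun h => h0 ((qe_eq_zero_iff hF).1 h)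
  obtain ⟨n, hn⟩ : ∃ n : ℕ, (qe M F).order = n :=
    ⟨_, (ENat.natCast_toNat (PowerSeries.order_finite_iff_ne_zero.2 hp).ne).symm⟩
  obtain ⟨h1, h2⟩ := PowerSeries.order_eq_nat.1 hn
  have hM' : (0 : ℚ) < M := Nat.cast_pos.2 (Nat.pos_of_ne_zero hM)
  have hord : analyticOrderAt (cuspFunction (M : ℝ) F) 0 = n := by
    rw [analyticOrderAt_eq_nat_iff_iteratedDeriv_eq_zero hF.analytic]
    refine ⟨fun i hi => ?_, fun h => h1 ?_⟩
    · have := h2 i hi
      rw [qe, qExpansion_coeff] at this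
      exact (mul_eq_zero.1 this).resolve_left (inv_ne_zero (by exact_mod_cast i.factorial_ne_zero))
    · rw [qe, qExpansion_coeff, h, mul_zero]
  obtain ⟨Ψ, hΨ, hΨ0, hΨe⟩ := hF.analytic.analyticOrderAt_eq_natCast.1 hord
  have hn0 : ∀ τ, (qq M ^ n) τ ≠ 0 := fun τ => pow_ne_zero _ (qq_ne M τ)
  have hA : Tendsto (F / qq M ^ n) atImInfty (𝓝 (Ψ 0)) := by
    refine (hΨ.continuousAt.tendsto.comp (tendsto_qq hM)).congr' ?_
    filter_upwards [(tendsto_qq hM).eventually hΨe] with τ hτ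
    have h3 := eq_cuspFunction τ (Mpos (M := M)).ne' hF.periodic
    rw [sub_zero, smul_eq_mul] at hτ
    rw [comp_apply, Pi.div_apply, eq_div_iff (hn0 τ), ← h3, mul_comm]
    exact hτ.symm
  have hq : MDiff (qq M ^ n) := Hol.pow_mem mdiff_qq n
  have hAd : MDiff (F / qq M ^ n) := mdiff_div hF.holo hq hn0
  have hFe : F = qq M ^ n * (F / qq M ^ n) := by
    funext τ; rw [Pi.mul_apply, Pi.div_apply, mul_div_cancel₀ _ (hn0 τ)]
  refine ⟨n, ?_, ?_, ?_⟩
  · refine HahnSeries.orderTop_eq_of_le ?_ fun r hr => ?_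
    · rw [HahnSeries.mem_support, coeff_qf hM hF]; exact h1
    · obtain ⟨m, rfl⟩ := lev_qf hM hF r hr
      rw [HahnSeries.mem_support, coeff_qf hM hF] at hr
      have : n ≤ m := not_lt.1 fun h => hr (h2 m h)
      gcongr
  · exact (isTheta_of_div_tendsto_nhds_ne_zero hA hΨ0).symm
  · have hb := bdd_of_tendsto hA
    have hb' := bdd_D hAd hb
    have hD : D F = qq M ^ n * (((n : ℂ) / M) • (F / qq M ^ n) + D (F / qq M ^ n)) := by
      conv_lhs => rw [hFe]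
      rw [normalizedDerivOfComplex_mul _ _ hq hAd, normalizedDerivOfComplex_pow _ _ mdiff_qq, D_qq]
      funext τ
      rcases n with _ | n
      · simp
      · simp only [Pi.add_apply, Pi.mul_apply, Pi.pow_apply, Pi.smul_apply, smul_eq_mul,
          Pi.natCast_apply, Nat.add_sub_cancel]
        ring
    rw [hD]
    have h5 : (((n : ℂ) / M) • (F / qq M ^ n) + D (F / qq M ^ n)) =O[atImInfty] fun _ => (1 : ℂ) :=
      IsBigO.trans ((hb.smul ((n : ℂ) / M)).add hb') (isBigO_const_const (1 : ℝ) one_ne_zero _)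
    exact ((isBigO_refl (qq M ^ n) atImInfty).mul h5).congr_right fun τ => mul_one _

lemma ev_ne (hM : M ≠ 0) (hF : IsF M k F) (h0 : F ≠ 0) : ∀ᶠ τ in atImInfty, F τ ≠ 0 := by
  obtain ⟨n, -, h, -⟩ := exists_shape hM hF h0
  filter_upwards [h.symm.isBigO.eq_zero_imp] with τ hτ h1
  exact pow_ne_zero n (qq_ne M τ) (hτ h1)

lemma D_isBigO (hM : M ≠ 0) (hF : IsF M k F) (h0 : F ≠ 0) : D F =O[atImInfty] F := by
  obtain ⟨n, -, h, h'⟩ := exists_shape hM hF h0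
  exact h'.trans h.symm.isBigO

lemma rc_isBigO (hM : M ≠ 0) (hF : IsF M k F) (h0 : F ≠ 0) (hG : IsF M l G) (h0' : G ≠ 0) :
    rc F G =O[atImInfty] (F * G) := by
  have h1 := (isBigO_refl F atImInfty).mul (D_isBigO hM hG h0')
  have h2 := (isBigO_refl G atImInfty).mul (D_isBigO hM hF h0)
  refine h1.sub (h2.congr_right fun τ => mul_comm _ _)

lemma pow_isLittleO (hM : M ≠ 0) {m n : ℕ} (h : m < n) : (qq M ^ n) =o[atImInfty] (qq M ^ m) :=
  (isLittleO_pow_pow h).comp_tendsto (tendsto_qq hM)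

/-- the valuation at `i∞` -/
def vI : Valuation FF (Multiplicative (WithTop ℚ)ᵒᵈ) :=
  (AddValuation.toValuation (HahnSeries.addVal ℚ ℂ)).comap qx

lemma vI_apply (x : FF) : vI x = Multiplicative.ofAdd (OrderDual.toDual (qx x).orderTop) := rfl

lemma vI_le_one {x : FF} : vI x ≤ 1 ↔ 0 ≤ (qx x).orderTop := Iff.rfl

lemma vI_lt_one {x : FF} : vI x < 1 ↔ 0 < (qx x).orderTop := Iff.rfl

lemma vI_eq_one {x : FF} : vI x = 1 ↔ (qx x).orderTop = 0 := Iff.rfl

lemma vI_const {c : ℂ} (hc : c ≠ 0) : vI (algebraMap ℂ FF c) = 1 := by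
  rw [vI_eq_one, qx_algebraMap]
  exact HahnSeries.orderTop_single hc

lemma orderTop_quo (hM : M ≠ 0) (hF : IsF M k F) (hG : IsF M k G) (h0 : G ≠ 0) :
    (qf F).orderTop = (qx (quo F G)).orderTop + (qf G).orderTop := by
  rw [qx_quo hM hF hG, ← HahnSeries.addVal_apply, ← HahnSeries.addVal_apply,
    ← HahnSeries.addVal_apply, ← AddValuation.map_mul, div_mul_cancel₀ _ (qf_ne_zero hM hG h0)]

theorem isBigO_of_vI (hM : M ≠ 0) (hF : IsF M k F) (hG : IsF M k G) (h0 : G ≠ 0)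
    (h : vI (quo F G) ≤ 1) : F =O[atImInfty] G := by
  by_cases hF0 : F = 0
  · rw [hF0]; exact isBigO_zero _ _
  obtain ⟨n, hn, h1, -⟩ := exists_shape hM hF hF0
  obtain ⟨m, hm, h2, -⟩ := exists_shape hM hG h0
  have h3 : (qf G).orderTop ≤ (qf F).orderTop := by
    rw [orderTop_quo hM hF hG h0]; exact le_add_of_nonneg_left (vI_le_one.1 h)
  have hM' : (0 : ℚ) < M := Nat.cast_pos.2 (Nat.pos_of_ne_zero hM)
  rw [hn, hm, WithTop.coe_le_coe, div_le_div_iff_of_pos_right hM', Nat.cast_le] at h3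
  refine h1.isBigO.trans (IsBigO.trans ?_ h2.symm.isBigO)
  exact h3.eq_or_lt.elim (fun h4 => h4 ▸ isBigO_refl _ _) fun h4 => (pow_isLittleO hM h4).isBigO

theorem isLittleO_of_vI (hM : M ≠ 0) (hF : IsF M k F) (hG : IsF M k G) (h0 : G ≠ 0)
    (h : vI (quo F G) < 1) : F =o[atImInfty] G := by
  by_cases hF0 : F = 0
  · rw [hF0]; exact isLittleO_zero _ _
  obtain ⟨n, hn, h1, -⟩ := exists_shape hM hF hF0
  obtain ⟨m, hm, h2, -⟩ := exists_shape hM hG h0
  have h3 : (qf G).orderTop < (qf F).orderTop := by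
    rw [orderTop_quo hM hF hG h0, hm]
    conv_lhs => rw [← zero_add ((((m : ℚ) / M : ℚ) : WithTop ℚ))]
    exact WithTop.add_lt_add_right WithTop.coe_ne_top (vI_lt_one.1 h)
  have hM' : (0 : ℚ) < M := Nat.cast_pos.2 (Nat.pos_of_ne_zero hM)
  rw [hn, hm, WithTop.coe_lt_coe, div_lt_div_iff_of_pos_right hM', Nat.cast_lt] at h3
  exact (h1.isBigO.trans_isLittleO (pow_isLittleO hM h3)).trans_isBigO h2.symm.isBigO

lemma exists_vI_ne (x : FF) : ∃ c : ℂ, vI (x - algebraMap ℂ FF c) ≠ 1 := by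
  refine ⟨(qx x).coeff 0, fun h => ?_⟩
  rw [vI_eq_one, map_sub, qx_algebraMap] at h
  have := HahnSeries.coeff_orderTop_ne (g := 0) h
  simp at this

lemma bdd_of_mul {g W A : ℍ → ℂ} (h : g * W = A) (hA : A =O[atImInfty] W)
    (hW : ∀ᶠ τ in atImInfty, W τ ≠ 0) : IsBoundedAtImInfty g := by
  have h1 := hA.mul (isBigO_refl (fun τ => (W τ)⁻¹) atImInfty)
  refine h1.congr' ?_ ?_ |>.trans (isBigO_const_const (1 : ℂ) (one_ne_zero (α := ℝ)) _)
  · filter_upwards [hW] with τ hτ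
    rw [← h, Pi.mul_apply, mul_inv_cancel_right₀ hτ]
  · filter_upwards [hW] with τ hτ
    exact mul_inv_cancel₀ hτ

lemma zero_of_mul {g W A : ℍ → ℂ} (h : g * W = A) (hA : A =o[atImInfty] W)
    (hW : ∀ᶠ τ in atImInfty, W τ ≠ 0) : IsZeroAtImInfty g := by
  have h1 := hA.mul_isBigO (isBigO_refl (fun τ => (W τ)⁻¹) atImInfty)
  refine (isLittleO_one_iff ℂ).1 (h1.congr' ?_ ?_)
  · filter_upwards [hW] with τ hτ
    rw [← h, Pi.mul_apply, mul_inv_cancel_right₀ hτ]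
  · filter_upwards [hW] with τ hτ
    exact mul_inv_cancel₀ hτ

end cusp

/-! ### Riemann-Roch spaces and arbitrary valuations -/

section val

open Crest.Agent.R013.RR7_948 Crest.Agent.R013.RR8_948 Crest.Agent.R013.RR9_948
open Crest.Agent.R013.RR11_948 Crest.Agent.R013.RR13_948 Crest.Agent.R013.RR15_948
open Crest.Agent.R013.RR17_948 Crest.Agent.R013.RR20_948 Crest.Agent.R013.GR2_921

variable {K : Type*} [Field K] [Algebra ℂ K] [Algebra (RatFunc ℂ) K]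
  [IsScalarTower ℂ (RatFunc ℂ) K] [FiniteDimensional (RatFunc ℂ) K]
  {Γ₀ : Type*} [LinearOrderedCommGroupWithZero Γ₀]

omit [FiniteDimensional (RatFunc ℂ) K] in
lemma xK_sub_ne (c : ℂ) : xK ℂ K - algebraMap ℂ K c ≠ 0 := fun h =>
  transcendental_xK (k := ℂ) (K := K) (sub_eq_zero.1 h ▸ isAlgebraic_algebraMap c)

theorem le_of_mem_poles (v : Valuation K Γ₀) (hk : ∀ c : ℂ, c ≠ 0 → v (algebraMap ℂ K c) = 1)
    (hnt : ∃ c : ℂ, v (xK ℂ K - algebraMap ℂ K c) ≠ 1) {h : K}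
    (hh : h ∈ LD (poles (k := ℂ) (xK ℂ K))) : v h ≤ 1 ∨ v (h / xK ℂ K) ≤ 1 := by
  obtain ⟨c, hc⟩ := hnt
  obtain ⟨P, hP⟩ := exists_place v hk ⟨_, (Valuation.ne_zero_iff v).2 (xK_sub_ne c), hc⟩
  have hx : xK ℂ K ≠ 0 := by simpa using xK_sub_ne (K := K) 0
  have h1 := mem_LD.1 hh P
  rw [poles_apply] at h1
  rw [← hP.le_one_iff_le_one, ← hP.le_one_iff_le_one, map_div₀, v_eq hx P,
    div_le_one₀ exp_pos]
  rcases le_total (-divf (k := ℂ) (xK ℂ K) P) 0 with h2 | h2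
  · rw [max_eq_right h2, exp_zero] at h1; exact Or.inl h1
  · rw [max_eq_left h2] at h1; exact Or.inr h1

theorem lt_of_mem_can (v : Valuation K Γ₀) (hk : ∀ c : ℂ, c ≠ 0 → v (algebraMap ℂ K c) = 1)
    (hnt : ∃ c : ℂ, v (xK ℂ K - algebraMap ℂ K c) ≠ 1) {u : K}
    (hu : u ∈ LD (canD ℂ K)) : ∃ c : ℂ, v (u * (xK ℂ K - algebraMap ℂ K c)) < 1 := by
  obtain ⟨c, hc⟩ := hnt
  obtain ⟨P, hP⟩ := exists_place v hk ⟨_, (Valuation.ne_zero_iff v).2 (xK_sub_ne c), hc⟩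
  obtain ⟨t, ht⟩ := P.surj (exp (-1))
  have h1 := mem_LD.1 hu P
  rw [← v_del_eq P ht] at h1
  suffices H : ∃ c : ℂ, P.v u * P.v (xK ℂ K - algebraMap ℂ K c) < 1 by
    obtain ⟨c, hc⟩ := H
    exact ⟨c, hP.lt_one_iff_lt_one.1 (by rwa [map_mul])⟩
  rcases le_or_gt (P.v (xK ℂ K)) 1 with h2 | h2
  · obtain ⟨c', hc'⟩ := exists_const P h2
    refine ⟨c', ?_⟩
    have h3 := v_eq (k := ℂ) (xK_sub_ne (K := K) c') P
    have h4 : 0 < divf (k := ℂ) (xK ℂ K - algebraMap ℂ K c') P := by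
      rw [h3, ← exp_zero, exp_lt_exp] at hc'; omega
    rw [v_del_finite P ht (p := Polynomial.X - Polynomial.C c') (by simpa using h3) h4
      (by simp)] at h1
    refine (mul_le_mul_left h1 _).trans_lt ?_
    rw [h3, ← exp_add, ← exp_zero, exp_lt_exp]; omega
  · refine ⟨0, ?_⟩
    have h3 := v_eq (k := ℂ) (xK_sub_ne (K := K) 0) P
    rw [map_zero, sub_zero] at h3 ⊢
    have h4 : 0 < -divf (k := ℂ) (xK ℂ K) P := by
      rw [h3, ← exp_zero, exp_lt_exp] at h2; exact h2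
    rw [v_del_infinite P ht h3 h4] at h1
    refine (mul_le_mul_left h1 _).trans_lt ?_
    rw [h3, ← exp_add, ← exp_zero, exp_lt_exp]; omega

theorem rr_bound : Module.finrank (RatFunc ℂ) K + 1 ≤
    Module.finrank ℂ (LD (poles (k := ℂ) (xK ℂ K))) + Module.finrank ℂ (LD (canD ℂ K)) := by
  have hc : algebraicClosure ℂ K = ⊥ := IntermediateField.eq_bot_of_isAlgClosed_of_isAlgebraic _
  have h := ell_ge hc (poles (k := ℂ) (xK ℂ K))
  rw [degD_poles_xK] at h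
  unfold gen ell at h
  omega

end val

/-! ### from functions to forms -/

section forms

variable {M : ℕ} {k : ℤ} {F G a b f g : ℍ → ℂ}

lemma bdd_of_vI (hM : M ≠ 0) (hF : IsF M k F) (hG : IsF M k G) (hG0 : G ≠ 0) (ha : IsF M 2 a)
    (hb : IsF M 2 b) (hb0 : b ≠ 0) (h : f * G = a * F)
    (hv : vI (quo F G) ≤ 1 ∨ vI (quo F G / quo b a) ≤ 1) : IsBoundedAtImInfty f := by
  have one {c : ℍ → ℂ} (hc : IsF M 2 c) : c =O[atImInfty] fun _ => (1 : ℂ) :=
    IsBigO.trans hc.bdd_infty (isBigO_const_const (1 : ℝ) one_ne_zero _)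
  refine bdd_of_mul h ?_ (ev_ne hM hG hG0)
  rcases hv with hv | hv
  · exact ((one ha).mul (isBigO_of_vI hM hF hG hG0 hv)).congr_right fun τ => one_mul _
  · rw [div_eq_mul_inv, quo_inv hM hb ha, ← quo_mul hM hF hG ha hb] at hv
    have h1 := isBigO_of_vI hM (hF.mul ha) (hG.mul hb)
      (fun h2 => mul_ne_zero (mer_ne_zero hG.holo hG0) (mer_ne_zero hb.holo hb0)
        (by rw [← mer_mul hG.holo hb.holo, h2, mer_zero])) hv
    rw [mul_comm a F]
    exact h1.trans (((isBigO_refl G atImInfty).mul (one hb)).congr_right fun τ => mul_one _)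

lemma zero_of_vI (hM : M ≠ 0) (hF : IsF M k F) (hG : IsF M k G) (hG0 : G ≠ 0) (ha : IsF M 2 a)
    (ha0 : a ≠ 0) (hb : IsF M 2 b) (hb0 : b ≠ 0) (h : g * (a * a) * G = rc a b * F)
    (hv : vI (quo F G * quo b a) < 1) : IsZeroAtImInfty g := by
  rw [← quo_mul hM hF hG hb ha] at hv
  have h1 := isLittleO_of_vI hM (hF.mul hb) (hG.mul ha)
    (fun h2 => mul_ne_zero (mer_ne_zero hG.holo hG0) (mer_ne_zero ha.holo ha0)
      (by rw [← mer_mul hG.holo ha.holo, h2, mer_zero])) hv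
  refine zero_of_mul (W := G * a * (a * b)) (A := F * b * rc a b) (by linear_combination b * h)
    (h1.mul_isBigO (rc_isBigO hM ha ha0 hb hb0)) ?_
  filter_upwards [ev_ne hM hG hG0, ev_ne hM ha ha0, ev_ne hM hb hb0] with τ h2 h3 h4
  exact mul_ne_zero (mul_ne_zero h2 h3) (mul_ne_zero h3 h4)

lemma vM_D (z : ℍ) (hf : MDiff f) (h0 : f ≠ 0) : vM z (mer (D f)) ≤ exp 1 * vM z (mer f) := by
  have hD := normalizedDerivOfComplex_mdifferentiable hf
  by_cases h1 : D f = 0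
  · rw [h1, mer_zero, map_zero]; exact zero_le
  rw [vM_mer z hD h1, vM_mer z hf h0, ← exp_add, exp_le_exp]
  unfold ordZ
  by_cases hz : f z = 0
  · have h2 := ordH_D hf hz
    have h3 := ordH_ne_top hD h1 z
    lift ordH (D f) z to ℕ using h3 with n
    rw [← h2, ← Nat.cast_succ, ENat.toNat_natCast, ENat.toNat_natCast]
    push_cast; omega
  · rw [(ordH_eq_zero hf).2 hz]
    simp only [ENat.toNat_zero]
    omega

lemma vM_rc (z : ℍ) (ha : MDiff a) (ha0 : a ≠ 0) (hb : MDiff b) (hb0 : b ≠ 0) :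
    vM z (mer (rc a b)) ≤ exp 1 * vM z (mer a * mer b) := by
  have hDa := normalizedDerivOfComplex_mdifferentiable ha
  have hDb := normalizedDerivOfComplex_mdifferentiable hb
  rw [rc, mer_sub (ha.mul hDb) (hb.mul hDa), mer_mul ha hDb, mer_mul hb hDa]
  refine (vM z).map_sub_le ?_ ?_
  · rw [map_mul, map_mul, mul_left_comm]; exact mul_le_mul_right (vM_D z hb hb0) _
  · rw [map_mul, map_mul, mul_comm (vM z (mer a)), mul_left_comm]
    exact mul_le_mul_right (vM_D z ha ha0) _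

lemma rc_sub (ha : MDiff a) (hb : MDiff b) (c : ℂ) : rc a (b - c • a) = rc a b := by
  rw [rc, rc, normalizedDerivOfComplex_sub _ _ hb (ha.const_smul c),
    normalizedDerivOfComplex_smul c a ha]
  funext τ
  simp only [Pi.sub_apply, Pi.mul_apply, Pi.smul_apply, smul_eq_mul]
  ring

lemma slash_of_mer {x : FF} {γ : SL(2, ℤ)} (hx : γ⁻¹ • x = x) {R W : ℍ → ℂ} (hR : MDiff R)
    (hW : MDiff W) (hRγ : R ∣[k] γ = R) (h : mer W = mer R * x) : W ∣[k] γ = W := by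
  apply mer_inj (mdiff_slash hW γ) hW
  let φ := MulSemiringAction.toRingHom GQ Mer (sq γ)⁻¹
  have h1 : φ x = x := by
    rw [sl_smul, map_inv] at hx
    exact congrArg Subtype.val hx
  have h2 : mer (R ∣[k] rr (sq γ)) = φ (mer R) * _ := mer_slash hR k (sq γ)
  have h3 : mer (W ∣[k] rr (sq γ)) = φ (mer W) * _ := mer_slash hW k (sq γ)
  rw [slash_sq, hRγ] at h2
  rw [← slash_sq, h3, h, map_mul, h1, mul_right_comm, ← h2]

lemma mul_eq_of_mer (hM : M ≠ 0) (hF : IsF M k F) (hG : IsF M k G) (hG0 : G ≠ 0) {R W : ℍ → ℂ}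
    (hR : MDiff R) (hW : MDiff W) (h : mer W = mer R * quo F G) : W * G = R * F := by
  apply mer_inj (hW.mul hG.holo) (hR.mul hF.holo)
  rw [mer_mul hW hG.holo, mer_mul hR hF.holo, h, coe_quo hM hF hG, mul_assoc,
    div_mul_cancel₀ _ (mer_ne_zero hG.holo hG0)]

lemma exists_quo_lev (x : FF) {N : ℕ} (hN : N ≠ 0) : ∃ (M : ℕ) (k : ℤ) (F G : ℍ → ℂ),
    M ≠ 0 ∧ N ∣ M ∧ IsF M k F ∧ IsF M k G ∧ G ≠ 0 ∧ x = quo F G := by
  obtain ⟨M, k, F, G, hM, hF, hG, hG0, h⟩ := exists_quo x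
  exact ⟨M * N, k, F, G, mul_ne_zero hM hN, dvd_mul_left _ _, level_mul_left hF, level_mul_left hG,
    hG0, h⟩

lemma quo_sub_const (hM : M ≠ 0) (ha : IsF M k a) (ha0 : a ≠ 0) (hb : IsF M k b) (c : ℂ) :
    quo b a - algebraMap ℂ FF c = quo (b - c • a) a := by
  rw [quo_sub hM hb (ha.smul c) ha, quo_smul hM ha ha, quo_self hM ha ha0, mul_one]

end forms

section main

open Crest.Agent.R013.RR7_948 Crest.Agent.R013.RR8_948 Crest.Agent.R013.RR9_948
open Crest.Agent.R013.RR11_948 Crest.Agent.R013.RR20_948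

variable {K : Type*} [Field K] [Algebra ℂ K]

/-- the order at a point of `ℍ` -/
def vz (ι : K →ₐ[ℂ] FF) (z : ℍ) : Valuation K ℤᵐ⁰ :=
  (vM z).comap ((FF.val.comp ι : K →ₐ[ℂ] Mer) : K →+* Mer)

lemma vz_apply (ι : K →ₐ[ℂ] FF) (z : ℍ) (x : K) : vz ι z x = vM z (ι x : Mer) := rfl

lemma vz_const (ι : K →ₐ[ℂ] FF) (z : ℍ) (c : ℂ) (hc : c ≠ 0) : vz ι z (algebraMap ℂ K c) = 1 := by
  rw [vz_apply, AlgHom.commutes]; exact vM_const z hc

/-- the order at a cusp -/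
def vs (ι : K →ₐ[ℂ] FF) (s : SL(2, ℤ)) : Valuation K (Multiplicative (WithTop ℚ)ᵒᵈ) :=
  vI.comap ((MulSemiringAction.toRingHom SL(2, ℤ) FF s⁻¹).comp (ι : K →+* FF))

lemma vs_apply (ι : K →ₐ[ℂ] FF) (s : SL(2, ℤ)) (x : K) : vs ι s x = vI (s⁻¹ • ι x) := rfl

lemma sl_const (s : SL(2, ℤ)) (c : ℂ) : s • algebraMap ℂ FF c = algebraMap ℂ FF c :=
  smul_algebraMap_FF _ c

lemma vs_const (ι : K →ₐ[ℂ] FF) (s : SL(2, ℤ)) (c : ℂ) (hc : c ≠ 0) :
    vs ι s (algebraMap ℂ K c) = 1 := by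
  rw [vs_apply, AlgHom.commutes, sl_const]; exact vI_const hc

lemma vs_nt (ι : K →ₐ[ℂ] FF) (s : SL(2, ℤ)) (x : K) : ∃ c : ℂ, vs ι s (x - algebraMap ℂ K c) ≠ 1 := by
  obtain ⟨c, hc⟩ := exists_vI_ne (s⁻¹ • ι x)
  exact ⟨c, by rwa [vs_apply, map_sub, AlgHom.commutes, smul_sub, sl_const]⟩

lemma finrank_le_of_mer (ι : K →ₐ[ℂ] FF) {S : Submodule ℂ (ℍ → ℂ)} [Module.Finite ℂ S]
    (hS : ∀ f ∈ S, MDiff f) {w : Mer} (hw : w ≠ 0) {V : Submodule ℂ K}
    (h : ∀ x ∈ V, ∃ f ∈ S, mer f = w * ι x) : Module.finrank ℂ V ≤ Module.finrank ℂ S := by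
  choose f hf hf' using h
  let φ : V →ₗ[ℂ] S :=
    { toFun := fun x => ⟨f x x.2, hf _ _⟩
      map_add' := fun x y => Subtype.ext <| mer_inj (hS _ (hf _ _))
        ((hS _ (hf _ _)).add (hS _ (hf _ _))) <| by
          change mer (f _ _) = mer (f _ _ + f _ _)
          rw [mer_add (hS _ (hf _ _)) (hS _ (hf _ _)), hf', hf', hf', Submodule.coe_add, map_add]
          push_cast; ring
      map_smul' := fun c x => Subtype.ext <| mer_inj (hS _ (hf _ _))
        ((hS _ (hf _ _)).const_smul c) <| by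
          change mer (f _ _) = mer (c • f _ _)
          rw [mer_smul (hS _ (hf _ _)), hf', hf', Submodule.coe_smul, map_smul,
            IntermediateField.coe_smul, Algebra.smul_def, mul_left_comm] }
  refine LinearMap.finrank_le_finrank_of_injective (f := φ) fun x y hxy => ?_
  have h1 : f x x.2 = f y y.2 := congrArg Subtype.val hxy
  have h2 := hf' x x.2
  rw [h1, hf'] at h2
  exact Subtype.ext (ι.injective (Subtype.ext (mul_left_cancel₀ hw h2).symm))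

variable [Algebra (RatFunc ℂ) K] [IsScalarTower ℂ (RatFunc ℂ) K] [FiniteDimensional (RatFunc ℂ) K]

/-- the data of the dimension bound -/
structure Dat (Γ : Subgroup SL(2, ℤ)) (ι : K →ₐ[ℂ] FF) (N : ℕ) (a b : ℍ → ℂ) : Prop where
  fix : ∀ x, ∀ γ ∈ Γ, γ • ι x = ι x
  hN : N ≠ 0
  ha : IsF N 2 a
  hb : IsF N 2 b
  ne : ∀ z, a z ≠ 0
  ia : ∀ γ ∈ Γ, a ∣[(2 : ℤ)] γ = a
  ib : ∀ γ ∈ Γ, b ∣[(2 : ℤ)] γ = b
  hx : ι (xK ℂ K) = quo b a

variable {Γ : Subgroup SL(2, ℤ)} {ι : K →ₐ[ℂ] FF} {N : ℕ} {a b : ℍ → ℂ}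

namespace Dat

variable (H : Dat Γ ι N a b)
include H

omit [IsScalarTower ℂ (RatFunc ℂ) K] [FiniteDimensional (RatFunc ℂ) K] in
lemma a0 : a ≠ 0 := fun h => H.ne UpperHalfPlane.I (congrFun h _)

omit [IsScalarTower ℂ (RatFunc ℂ) K] [FiniteDimensional (RatFunc ℂ) K] in
lemma sub (c : ℂ) : ι (xK ℂ K - algebraMap ℂ K c) = quo (b - c • a) a := by
  rw [map_sub, AlgHom.commutes, H.hx, quo_sub_const H.hN H.ha H.a0 H.hb]

omit [FiniteDimensional (RatFunc ℂ) K] in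
lemma b0 (c : ℂ) : b - c • a ≠ 0 := fun h => by
  have h1 := H.sub c
  rw [(quo_eq_zero H.hN (H.hb.sub (H.ha.smul c)) H.ha H.a0).2 h, map_eq_zero] at h1
  exact xK_sub_ne c h1

omit [IsScalarTower ℂ (RatFunc ℂ) K] [FiniteDimensional (RatFunc ℂ) K] in
lemma vz_nt (z : ℍ) : ∃ c : ℂ, vz ι z (xK ℂ K - algebraMap ℂ K c) ≠ 1 := by
  refine ⟨b z / a z, ne_of_lt ?_⟩
  have hb' := H.hb.sub (H.ha.smul (b z / a z))
  rw [vz_apply, H.sub, coe_quo H.hN hb' H.ha, map_div₀, (vM_mer_eq_one H.ha.holo).2 (H.ne z), div_one,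
    vM_mer_lt_one hb'.holo]
  simp [div_mul_cancel₀ _ (H.ne z)]

theorem exists_MS {h : K} (hh : h ∈ LD (poles (k := ℂ) (xK ℂ K))) :
    ∃ f ∈ MS Γ 2, mer f = mer a * ι h := by
  have hb0 : b ≠ 0 := by simpa using H.b0 0
  obtain ⟨f, hf⟩ := exists_hol (x := mer a * ι h) fun z => by
    rcases le_of_mem_poles (vz ι z) (vz_const ι z) (H.vz_nt z) hh with h1 | h1
    · rw [map_mul]; exact mul_le_one' (vM_mer_le z H.ha.holo) h1
    · have h2 : mer a * ι h = mer b * ι (h / xK ℂ K) := by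
        rw [map_div₀, H.hx, IntermediateField.coe_div, coe_quo H.hN H.hb H.ha]
        have := mer_ne_zero H.hb.holo hb0
        have := mer_ne_zero H.ha.holo H.a0
        field_simp
      rw [h2, map_mul]; exact mul_le_one' (vM_mer_le z H.hb.holo) h1
  have hf' : mer f = mer a * ι h := (mer_coe f).trans hf.symm
  refine ⟨f, ⟨f.2, fun γ hγ => slash_of_mer (H.fix h _ (inv_mem hγ)) H.ha.holo f.2 (H.ia γ hγ) hf',
    fun s => ?_⟩, hf'⟩
  obtain ⟨M, k, F, G, hM, hNM, hF, hG, hG0, e⟩ := exists_quo_lev (ι h) H.hN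
  have ha := H.ha.mono hNM
  have hb := H.hb.mono hNM
  have h1 := congrArg (· ∣[2 + k] s) (mul_eq_of_mer hM hF hG hG0 ha.holo f.2 (e ▸ hf'))
  simp only [mul_slash_SL2] at h1
  refine bdd_of_vI hM (hF.slash_SL s) (hG.slash_SL s) (slash_ne_zero hG0 _ _) (ha.slash_SL s)
    (hb.slash_SL s) (slash_ne_zero hb0 _ _) h1 ?_
  have h2 := le_of_mem_poles (vs ι s) (vs_const ι s) (vs_nt ι s _) hh
  rwa [vs_apply, vs_apply, map_div₀, smul_div₀', H.hx, e, inv_sl_smul_quo hM hF hG,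
    inv_sl_smul_quo hM hb ha] at h2

theorem exists_CS {u : K} (hu : u ∈ LD (canD ℂ K)) :
    ∃ g ∈ CS Γ 2, mer g = mer (rc a b) / (mer a * mer a) * ι u := by
  have hma := mer_ne_zero H.ha.holo H.a0
  have hrc := mdiff_rc H.ha.holo H.hb.holo
  obtain ⟨g, hg⟩ := exists_hol (x := mer (rc a b) / (mer a * mer a) * ι u) fun z => by
    obtain ⟨c, hc⟩ := lt_of_mem_can (vz ι z) (vz_const ι z) (H.vz_nt z) hu
    have hb' := H.hb.sub (H.ha.smul c)
    have hmb := mer_ne_zero hb'.holo (H.b0 c)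
    have h2 : mer (rc a b) / (mer a * mer a) * ι u = mer (rc a (b - c • a)) /
        (mer a * mer (b - c • a)) * ι (u * (xK ℂ K - algebraMap ℂ K c)) := by
      rw [map_mul, H.sub, IntermediateField.coe_mul, coe_quo H.hN hb' H.ha, rc_sub H.ha.holo H.hb.holo]
      field_simp
    have h3 : vM z (mer (rc a (b - c • a)) / (mer a * mer (b - c • a))) ≤ exp 1 := by
      rw [map_div₀, div_le_iff₀ ((vM z).pos_iff.2 (mul_ne_zero hma hmb))]
      exact vM_rc z H.ha.holo H.a0 hb'.holo (H.b0 c)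
    rw [h2, map_mul]
    refine (mul_le_mul' h3 (show _ ≤ exp (-1) from ?_)).trans_eq (by rw [← exp_add]; rfl)
    rw [← lt_mul_exp_iff_le exp_ne_zero, ← exp_add]
    exact hc
  have hg' : mer g = mer (rc a b) / (mer a * mer a) * ι u := (mer_coe g).trans hg.symm
  have haa : MDiff ((g : ℍ → ℂ) * (a * a)) := g.2.mul (H.ha.holo.mul H.ha.holo)
  have hg2 : mer ((g : ℍ → ℂ) * (a * a)) = mer (rc a b) * ι u := by
    rw [mer_mul g.2 (H.ha.holo.mul H.ha.holo), mer_mul H.ha.holo H.ha.holo, hg']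
    field_simp
  refine ⟨g, ⟨g.2, fun γ hγ => ?_, fun s => ?_⟩, hg'⟩
  · have h1 := slash_of_mer (k := 2 + (2 + 2)) (H.fix u _ (inv_mem hγ)) hrc haa
      (by rw [rc_slash H.ha.holo H.hb.holo, H.ia γ hγ, H.ib γ hγ]) hg2
    rw [mul_slash_SL2, mul_slash_SL2, H.ia γ hγ] at h1
    funext z
    exact mul_right_cancel₀ (mul_ne_zero (H.ne z) (H.ne z)) (congrFun h1 z)
  · obtain ⟨M, k, F, G, hM, hNM, hF, hG, hG0, e⟩ := exists_quo_lev (ι u) H.hN
    obtain ⟨c, hc⟩ := lt_of_mem_can (vs ι s) (vs_const ι s) (vs_nt ι s _) hu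
    have ha := H.ha.mono hNM
    have hb := (H.hb.sub (H.ha.smul c)).mono hNM
    have h1 := congrArg (· ∣[2 + (2 + 2) + k] s) (mul_eq_of_mer hM hF hG hG0 hrc haa (e ▸ hg2))
    simp only [← rc_sub H.ha.holo H.hb.holo c, mul_slash_SL2, rc_slash ha.holo hb.holo] at h1
    refine zero_of_vI hM (hF.slash_SL s) (hG.slash_SL s) (slash_ne_zero hG0 _ _) (ha.slash_SL s)
      (slash_ne_zero H.a0 _ _) (hb.slash_SL s) (slash_ne_zero (H.b0 c) _ _) h1 ?_
    rwa [vs_apply, map_mul, smul_mul', H.sub, e, inv_sl_smul_quo hM hF hG,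
      inv_sl_smul_quo hM hb ha] at hc

omit [FiniteDimensional (RatFunc ℂ) K] in
lemma rc_ne : rc a b ≠ 0 := fun h => by
  have hu := mdiff_div H.hb.holo H.ha.holo H.ne
  have h1 := rc_mul hu H.ha.holo
  have h2 : b / a * a = b := funext fun z => div_mul_cancel₀ _ (H.ne z)
  have h3 : rc b a = -rc a b := (neg_sub _ _).symm
  rw [h2, h3, h, neg_inj] at h1
  have h4 : IsPrim (b / a) 0 := fun z => by
    have h5 := (mul_eq_zero.1 (congrFun h1 z).symm).resolve_left (pow_ne_zero 2 (H.ne z))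
    have h6 := (mul_eq_zero.1 h5).resolve_left (inv_ne_zero Complex.two_pi_I_ne_zero)
    exact (isPrim_deriv hu z).congr_deriv h6
  refine H.b0 ((b / a) UpperHalfPlane.I) (funext fun z => ?_)
  rw [← h4.const_of_zero z]
  simp [div_mul_cancel₀ _ (H.ne z)]

/-- **the dimension bound** -/
theorem dim_lower [Module.Finite ℂ (MS Γ 2)] [Module.Finite ℂ (CS Γ 2)] :
    Module.finrank (RatFunc ℂ) K + 1 ≤ Module.finrank ℂ (MS Γ 2) + Module.finrank ℂ (CS Γ 2) := by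
  have hma := mer_ne_zero H.ha.holo H.a0
  exact rr_bound.trans (add_le_add
    (finrank_le_of_mer ι (S := MS Γ 2) (fun _ h => h.1) hma fun _ h => H.exists_MS h)
    (finrank_le_of_mer ι (S := CS Γ 2) (fun _ h => h.1) (div_ne_zero (mer_ne_zero (mdiff_rc H.ha.holo H.hb.holo)
      H.rc_ne) (mul_ne_zero hma hma)) fun _ h => H.exists_CS h))

end Dat

end main

end Crest.Agent.T15.Esc
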