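import Mathlib
import Crest.Agent.T15.BetUni_91

/-!
# Row 15, block T (helper61), Igusa part T: the Hauptmodul `tt` of `Γ₁(4)`

`tt = (3 e₁ / h₄ + 2) / 4` satisfies `j t (t - 1) = 16 (16 t² - 16 t + 1)³`.
-/

set_option autoImplicit false
set_option linter.unusedSectionVars false

noncomputable section

namespace Crest.Agent.T15.Ig

open UpperHalfPlane ModularForm CongruenceSubgroup Filter Topology PeriodPair
open scoped MatrixGroups Manifold Real Matrix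
open Crest.Agent.R007 Crest.Agent.R007.Rat Crest.Agent.T15.Mf Crest.Agent.T15.Bet

theorem half_period_val (L : PeriodPair) {b z : ℂ} (hb : b ∉ L.lattice) (h2b : 2 * b ∈ L.lattice)
    (hz : z ∉ L.lattice) (hzb : z + b ∉ L.lattice) :
    (℘[L] (z + b) - ℘[L] b) * (℘[L] z - ℘[L] b) = 3 * ℘[L] b ^ 2 - L.g₂ / 4 := by
  obtain ⟨c, hc⟩ := WpId.half_period L hb h2b
  have a1 : AnalyticAt ℂ (fun z : ℂ => ℘[L] (z + b)) z :=
    AnalyticAt.fun_comp (WpId.analyticAt_wp L hzb) (analyticAt_id.add analyticAt_const)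
  have hcont : ContinuousAt (fun z => (℘[L] (z + b) - ℘[L] b) * (℘[L] z - ℘[L] b)) z :=
    ((a1.sub analyticAt_const).mul ((WpId.analyticAt_wp L hz).sub analyticAt_const)).continuousAt
  have h1 : (℘[L] (z + b) - ℘[L] b) * (℘[L] z - ℘[L] b) = c :=
    tendsto_nhds_unique (hcont.tendsto.mono_left nhdsWithin_le_nhds)
      (tendsto_const_nhds.congr' (hc z).symm)
  obtain ⟨R, hR, hR0, hTay⟩ := WpId.taylor2 (WpId.analyticAt_wp L hb)
  rw [L.deriv_weierstrassP, WpId.dwp_of_two_torsion L h2b] at hTay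
  rw [WpId.iteratedDeriv_two_wp L hb] at hR0
  have a2 : AnalyticAt ℂ (fun h => R h * (1 + h ^ 2 * (WpId.E L h - ℘[L] b))) 0 :=
    hR.mul (analyticAt_const.add ((analyticAt_id.pow 2).mul
      ((WpId.analyticAt_E L).sub analyticAt_const)))
  have h2 : (fun h => R h * (1 + h ^ 2 * (WpId.E L h - ℘[L] b))) =ᶠ[𝓝[≠] (0 : ℂ)] fun _ => c := by
    filter_upwards [self_mem_nhdsWithin, hc 0] with h hh hch
    have hh0 : h ≠ 0 := hh
    rw [← hch, add_comm h b, hTay h, WpId.wp_eq L h]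
    field_simp
    ring
  have h3 := tendsto_nhds_unique (a2.continuousAt.tendsto.mono_left nhdsWithin_le_nhds)
    (tendsto_const_nhds.congr' h2.symm)
  rw [h1, ← h3, hR0]
  ring

/-- the division value at `1/2` -/
def eh : ℍ → ℂ := Wp.P 4 ![0, 2]

theorem isF_eh : IsF 4 2 eh := Wp.isF_P (by norm_num) _

theorem eh_slash {γ : SL(2, ℤ)} (hγ : γ ∈ Gamma1 4) : eh ∣[(2 : ℤ)] γ = eh := by
  rw [Gamma1_mem] at hγ
  obtain ⟨-, h1, h2⟩ := hγ
  rw [eh, Wp.P_slash]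
  exact Wp.P_congr (M := 4) (by norm_num) fun i => by
    fin_cases i <;> simp [Matrix.vecMul, dotProduct, h1, h2]

theorem e4_eq : e4 = (48 : ℂ) • ((3 : ℂ) • eh ^ 2 - h4 ^ 2) := by
  funext τ
  have hb := Wp.pt_notMem (M := 4) (v := ![0, 2]) (by norm_num) (Or.inr (by decide)) τ
  have hz := Wp.pt_notMem (M := 4) (v := ![0, 1]) (by norm_num) (Or.inr (by decide)) τ
  have hzb := Wp.pt_notMem (M := 4) (v := ![0, 3]) (by norm_num) (Or.inr (by decide)) τ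
  have e1 : Wp.pt 4 ![0, 3] τ = Wp.pt 4 ![0, 1] τ + Wp.pt 4 ![0, 2] τ := by
    simp [Wp.pt]; norm_num
  have h2b : 2 * Wp.pt 4 ![0, 2] τ ∈ (Wp.PP τ).lattice := Wp.mem_PP.2 ⟨0, 1, by
    simp [Wp.pt]; norm_num⟩
  have h := half_period_val _ hb h2b hz (e1 ▸ hzb)
  have e2 : ℘[Wp.PP τ] (Wp.pt 4 ![0, 1] τ + Wp.pt 4 ![0, 2] τ) = ℘[Wp.PP τ] (Wp.pt 4 ![0, 1] τ) := by
    rw [WpId.wp_eq_iff _ (e1 ▸ hzb) hz]
    exact Or.inr (Wp.mem_PP.2 ⟨0, 1, by simp [Wp.pt]; norm_num⟩)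
  rw [e2, Wp.g₂_PP] at h
  have hI : (2 * π * Complex.I : ℂ) ^ 2 = -4 * π ^ 2 := by
    rw [mul_pow, Complex.I_sq]; ring
  have hπ : (π : ℂ) ≠ 0 := Complex.ofReal_ne_zero.2 Real.pi_ne_zero
  simp only [Pi.smul_apply, Pi.sub_apply, Pi.pow_apply, smul_eq_mul, h4, eh, Wp.P, hI, e4]
  field_simp
  linear_combination 48 * h

theorem e6_eq : e6 = (864 : ℂ) • (eh * ((2 : ℂ) • eh ^ 2 - h4 ^ 2)) := by
  funext τ
  have h := Wp.Q_sq (M := 4) (v := ![0, 2]) (by norm_num) (Or.inr (by decide)) τ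
  have h2b : 2 * Wp.pt 4 ![0, 2] τ ∈ (Wp.PP τ).lattice := Wp.mem_PP.2 ⟨0, 1, by
    simp [Wp.pt]; norm_num⟩
  rw [Wp.Q, WpId.dwp_of_two_torsion _ h2b] at h
  have h4' := congrFun e4_eq τ
  simp only [Pi.smul_apply, Pi.sub_apply, Pi.pow_apply, Pi.mul_apply, smul_eq_mul, e4, e6, eh] at h4' ⊢
  rw [h4'] at h
  linear_combination -216 * h

theorem dl_eq' : dl = (16 : ℂ) • (h4 ^ 4 * ((9 : ℂ) • eh ^ 2 - (4 : ℂ) • h4 ^ 2)) := by
  rw [dl_eq, e4_eq, e6_eq]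
  funext τ
  simp only [Pi.smul_apply, Pi.sub_apply, Pi.pow_apply, Pi.mul_apply, Pi.add_apply, smul_eq_mul]
  ring

theorem h4_ne_zero : h4 ≠ 0 := fun h => h4_ne UpperHalfPlane.I (congrFun h _)

/-- the Hauptmodul of `Γ₁(4)` -/
def tt : FF := (3 * quo eh h4 + 2) / 4

theorem tt_inv {γ : SL(2, ℤ)} (hγ : γ ∈ Gamma1 4) : γ • tt = tt := by
  have h : γ • quo eh h4 = quo eh h4 := by
    rw [← inv_inv γ, inv_sl_smul_quo (by norm_num) isF_eh isF_h4, eh_slash (inv_mem hγ),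
      h4_slash (inv_mem hγ)]
  have := map_div₀ (MulSemiringAction.toRingHom SL(2, ℤ) FF γ) (3 * quo eh h4 + 2) 4
  rw [map_add, map_mul, map_ofNat, map_ofNat, map_ofNat] at this
  simp only [MulSemiringAction.toRingHom_apply] at this
  rw [tt, this, h]

/-- **the modular equation** -/
theorem tt_rel : quo (e4 ^ 3) dl * (tt * (tt - 1)) = 16 * (16 * tt ^ 2 - 16 * tt + 1) ^ 3 := by
  have hh := isF_h4.holo
  have he := isF_eh.holo
  have h0 := mer_ne_zero hh h4_ne_zero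
  have hd := mer_ne_zero isF_dl.holo dl_ne_zero
  have m4 : mer e4 = 48 * (3 * mer eh ^ 2 - mer h4 ^ 2) := by
    rw [e4_eq, mer_smul (Hol.sub_mem (Hol.smul_mem (Hol.pow_mem he 2) _) (Hol.pow_mem hh 2)),
      mer_sub (Hol.smul_mem (Hol.pow_mem he 2) _) (Hol.pow_mem hh 2), mer_smul (Hol.pow_mem he 2),
      mer_pow he, mer_pow hh, map_ofNat, map_ofNat]
  have md : mer dl = 16 * (mer h4 ^ 4 * (9 * mer eh ^ 2 - 4 * mer h4 ^ 2)) := by
    have a1 := Hol.smul_mem (Hol.pow_mem he 2) (9 : ℂ)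
    have a2 := Hol.smul_mem (Hol.pow_mem hh 2) (4 : ℂ)
    rw [dl_eq', mer_smul (Hol.mul_mem (Hol.pow_mem hh 4) (Hol.sub_mem a1 a2)),
      mer_mul (Hol.pow_mem hh 4) (Hol.sub_mem a1 a2), mer_sub a1 a2, mer_smul (Hol.pow_mem he 2),
      mer_smul (Hol.pow_mem hh 2), mer_pow he, mer_pow hh, mer_pow hh, map_ofNat, map_ofNat,
      map_ofNat]
  apply Subtype.ext
  have c1 := coe_quo one_ne_zero isF_e43 isF_dl
  have c2 := coe_quo (by norm_num) isF_eh isF_h4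
  have c3 : (tt : Mer) = (3 * (mer eh / mer h4) + 2) / 4 := by
    rw [← c2]; rfl
  change ((quo (e4 ^ 3) dl : FF) : Mer) * ((tt : Mer) * ((tt : Mer) - 1)) =
    16 * (16 * (tt : Mer) ^ 2 - 16 * (tt : Mer) + 1) ^ 3
  have : CharZero Mer := charZero_of_injective_algebraMap (algebraMap ℂ Mer).injective
  rw [c1, c3, mer_pow isF_e4.holo, div_mul_eq_mul_div, div_eq_iff hd, m4, md]
  field_simp
  ring

end Crest.Agent.T15.Ig
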