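import Crest.Agent.T15.EscZ_12
import Crest.Agent.T15.EscC_99
import Crest.Agent.T15.MfC_79
import Crest.Agent.T15.IgT_61

/-!
# Row 15, block T (helper12): the dimension count and the Eichler-Shimura surjectivity
-/

set_option autoImplicit false

noncomputable section

namespace Crest.Agent.T15.EscO

open CongruenceSubgroup Module Polynomial
open scoped MatrixGroups nonZeroDivisors
open Crest.Agent.T15.Esc Crest.Agent.T15.Mf Crest.Agent.T15.Bet Crest.Agent.T15.Ig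
open Crest.Agent.R013.RR8_948 Crest.Agent.R013.RR20_948

theorem card_le_finrank12 {K L I : Type} [Field K] [Field L] [Algebra ℂ K] [Algebra ℂ L]
    [Algebra (RatFunc ℂ) K] [IsScalarTower ℂ (RatFunc ℂ) K] [FiniteDimensional (RatFunc ℂ) K]
    (φ₀ : K →ₐ[ℂ] L) (φ : I → (K →ₐ[ℂ] L)) (hi : Function.Injective φ)
    (h : ∀ i, φ i (xK ℂ K) = φ₀ (xK ℂ K)) : Nat.card I ≤ finrank (RatFunc ℂ) K := by
  let _ : Algebra (RatFunc ℂ) L := (φ₀.toRingHom.comp (algebraMap (RatFunc ℂ) K)).toAlgebra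
  have key : ∀ i, (φ i).toRingHom.comp (algebraMap (RatFunc ℂ) K) =
      φ₀.toRingHom.comp (algebraMap (RatFunc ℂ) K) := fun i => by
    apply IsLocalization.ringHom_ext ℂ[X]⁰
    apply Polynomial.ringHom_ext
    · intro c
      simp only [RingHom.comp_apply]
      rw [RatFunc.algebraMap_C, ← RatFunc.algebraMap_eq_C, ← IsScalarTower.algebraMap_apply]
      exact ((φ i).commutes c).trans (φ₀.commutes c).symm
    · simp only [RingHom.comp_apply]
      rw [RatFunc.algebraMap_X]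
      exact h i
  let ψ : I → (K →ₐ[RatFunc ℂ] L) := fun i =>
    { (φ i).toRingHom with commutes' := fun r => RingHom.congr_fun (key i) r }
  refine (Nat.card_le_card_of_injective ψ fun i j e => hi ?_).trans (card_algHom_le_finrank _ _ _)
  exact AlgHom.ext fun x => AlgHom.congr_fun e x

theorem x0_notMem : quo eh h4 ∉ Set.range (algebraMap ℂ FF) := by
  rintro ⟨c, hc⟩
  have h := tt_rel
  have hs : tt = algebraMap ℂ FF ((3 * c + 2) / 4) := by
    rw [tt, ← hc, map_div₀, map_add, map_mul, map_ofNat, map_ofNat, map_ofNat]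
  generalize (3 * c + 2) / 4 = s at hs
  rw [hs] at h
  have h1 : jj * algebraMap ℂ FF (s * (s - 1)) =
      algebraMap ℂ FF (16 * (16 * (s * (s - 1)) + 1) ^ 3) := by
    simp only [map_mul, map_sub, map_add, map_pow, map_one, map_ofNat]
    rw [jj, h]; ring
  generalize s * (s - 1) = u at h1
  by_cases hu : u = 0
  · subst hu
    rw [map_zero, mul_zero, eq_comm, map_eq_zero] at h1
    norm_num at h1
  · refine jj_notMem ⟨16 * (16 * u + 1) ^ 3 / u, ?_⟩
    rw [map_div₀, ← h1, mul_div_cancel_right₀ _ ((_root_.map_ne_zero _).2 hu)]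

/-- `F Γ` without its `ℂ(j)`-structure -/
def KK (Γ : Subgroup SL(2, ℤ)) : Type := F Γ

instance (Γ : Subgroup SL(2, ℤ)) : Field (KK Γ) := inferInstanceAs (Field (F Γ))
instance (Γ : Subgroup SL(2, ℤ)) : Algebra ℂ (KK Γ) := inferInstanceAs (Algebra ℂ (F Γ))

/-- the embedding attached to `γ` -/
def emb (Γ : Subgroup SL(2, ℤ)) (γ : SL(2, ℤ)) : KK Γ →ₐ[ℂ] FF where
  toFun x := γ • (x : F Γ).1
  map_one' := smul_one γ
  map_mul' x y := smul_mul' γ (x : F Γ).1 (y : F Γ).1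
  map_zero' := smul_zero γ
  map_add' x y := smul_add γ (x : F Γ).1 (y : F Γ).1
  commutes' c := sl_smul_algebraMap_C γ c

theorem x0_inv {γ : SL(2, ℤ)} (hγ : γ ∈ Gamma1 4) : γ • quo eh h4 = quo eh h4 := by
  rw [← inv_inv γ, inv_sl_smul_quo (by norm_num) isF_eh isF_h4, eh_slash (inv_mem hγ),
    h4_slash (inv_mem hγ)]

theorem hdim12 (Γ : Subgroup SL(2, ℤ)) (hΓ : Γ ≤ Gamma1 4) (hc : IsCongruenceSubgroup Γ)
    [Γ.FiniteIndex] [Module.Finite ℂ (MS Γ 2)] [Module.Finite ℂ (CS Γ 2)] :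
    Γ.relIndex (Gamma1 4) + 1 ≤ finrank ℂ (MS Γ 2) + finrank ℂ (CS Γ 2) := by
  let x : KK Γ := (⟨quo eh h4, fun γ hγ => x0_inv (hΓ hγ)⟩ : F Γ)
  have hx : Transcendental ℂ x := fun h => by
    have h1 : x ∈ algebraicClosure ℂ (KK Γ) := mem_algebraicClosure_iff.mpr h
    rw [IntermediateField.eq_bot_of_isAlgClosed_of_isAlgebraic (algebraicClosure ℂ (KK Γ)),
      IntermediateField.mem_bot] at h1
    obtain ⟨c, hc⟩ := h1
    exact x0_notMem ⟨c, congrArg Subtype.val hc⟩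
  have hfin := @ratAlg_finite ℂ _ (KK Γ) _ _ (inferInstanceAs (Algebra (RatFunc ℂ) (F Γ)))
    (inferInstanceAs (IsScalarTower ℂ (RatFunc ℂ) (F Γ)))
    (inferInstanceAs (FiniteDimensional (RatFunc ℂ) (F Γ))) x hx
  let _ := ratAlg x hx
  have := ratAlg_tower x hx
  have hX : xK ℂ (KK Γ) = x := ratAlg_xK x hx
  have hD : Dat Γ (emb Γ 1) 4 h4 eh :=
    ⟨fun y γ hγ => by
        change γ • (1 : SL(2, ℤ)) • (y : F Γ).1 = (1 : SL(2, ℤ)) • (y : F Γ).1
        rw [one_smul]; exact (y : F Γ).2 γ hγ,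
      by norm_num, isF_h4, isF_eh, h4_ne, fun γ hγ => h4_slash (hΓ hγ),
      fun γ hγ => eh_slash (hΓ hγ), by rw [hX]; exact one_smul _ _⟩
  refine le_trans (Nat.succ_le_succ ?_) hD.dim_lower
  refine card_le_finrank12 (emb Γ 1)
    (fun q : Gamma1 4 ⧸ Γ.subgroupOf (Gamma1 4) => emb Γ (q.out : Gamma1 4)) (fun q r e => ?_)
    fun q => ?_
  · have h1 : ((q.out : Gamma1 4) : SL(2, ℤ))⁻¹ * (r.out : Gamma1 4) ∈ pm Γ :=
      (fix_iff hc _).1 fun y hy => by
        have h2 : ((q.out : Gamma1 4) : SL(2, ℤ)) • y = ((r.out : Gamma1 4) : SL(2, ℤ)) • y :=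
          AlgHom.congr_fun e (⟨y, hy⟩ : F Γ)
        rw [mul_smul, ← h2, inv_smul_smul]
    rw [← q.out_eq, ← r.out_eq]
    refine QuotientGroup.eq.2 (Subgroup.mem_subgroupOf.2 ?_)
    rcases h1 with h1 | h1
    · exact h1
    · exfalso
      have h2 := (Gamma1_mem _ _).1 (hΓ h1)
      have h3 := (Gamma1_mem _ _).1 ((q.out)⁻¹ * r.out).2
      have h4 := h2.1
      rw [show ∀ g : SL(2, ℤ), (-g) 0 0 = -(g 0 0) from fun _ => rfl, Int.cast_neg] at h4
      have h5 := h3.1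
      rw [Subgroup.coe_mul, Subgroup.coe_inv] at h5
      rw [h5] at h4
      exact absurd h4 (by decide)
  · rw [hX]
    exact (x0_inv (q.out : Gamma1 4).2).trans (one_smul _ _).symm

/-- **Eichler-Shimura**, surjectivity -/
theorem esSurj : EsSurj := esSurj_of fun Γ h4 hc => hdim12 Γ h4 hc

end Crest.Agent.T15.EscO
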