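import Mathlib

/-!
# Row 15, block R (helper28): odd two-dimensional pseudo-representations (Wiles)

* `Ps`: a function `T : G → R` with the identities of the trace of an odd representation;
* `Ps.rep`: the representation attached to it when some `x g₀ h₀` is a unit;
* `descend`: a representation over `A` with traces in a subring `R` descends to `R`;
* `exists_diag`, `conj_of_trace_eq`: uniqueness up to conjugation over a local ring;
* `exists_unit`: irreducibility gives the unit.
-/

set_option autoImplicit false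

noncomputable section

namespace Crest.Agent.T15.Ps

open Matrix

/-- two by two matrices -/
abbrev M2 (A : Type*) : Type _ := Matrix (Fin 2) (Fin 2) A

variable {G : Type*} [Group G] {R A : Type*} [CommRing R] [CommRing A]

/-- upper left entry (`h = 1/2`, `c` the involution) -/
def pa (h : R) (c : G) (T : G → R) (g : G) : R := h * (T g + T (c * g))
/-- lower right entry -/
def pd (h : R) (c : G) (T : G → R) (g : G) : R := h * (T g - T (c * g))
/-- the product of the off-diagonal entries `b(g) c(k)` -/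
def px (h : R) (c : G) (T : G → R) (g k : G) : R := pa h c T (g * k) - pa h c T g * pa h c T k

lemma map_pa (f : R →+* A) (h : R) (c : G) (T : G → R) (g : G) :
    f (pa h c T g) = pa (f h) c (f ∘ T) g := by simp [pa]
lemma map_pd (f : R →+* A) (h : R) (c : G) (T : G → R) (g : G) :
    f (pd h c T g) = pd (f h) c (f ∘ T) g := by simp [pd]
lemma map_px (f : R →+* A) (h : R) (c : G) (T : G → R) (g k : G) :
    f (px h c T g k) = px (f h) c (f ∘ T) g k := by simp [px, map_pa]

/-- odd pseudo-representation of dimension two -/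
structure IsPs (h : R) (c : G) (T : G → R) : Prop where
  half : 2 * h = 1
  cc : c * c = 1
  one : T 1 = 2
  tc : T c = 0
  xx : ∀ g k g' k', px h c T g k * px h c T g' k' = px h c T g k' * px h c T g' k
  left : ∀ g k l, px h c T (g * k) l = pa h c T g * px h c T k l + px h c T g l * pd h c T k
  right : ∀ g k l, px h c T l (g * k) = px h c T l g * pa h c T k + pd h c T g * px h c T l k
  dmul : ∀ g k, pd h c T (g * k) = px h c T k g + pd h c T g * pd h c T k
  xc : ∀ g, px h c T g c = 0

namespace IsPs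
variable {h : R} {c : G} {T : G → R}

lemma map (H : IsPs h c T) (f : R →+* A) : IsPs (f h) c (f ∘ T) where
  half := by simpa [map_ofNat] using congrArg f H.half
  cc := H.cc
  one := by simpa [map_ofNat] using congrArg f H.one
  tc := by simpa using congrArg f H.tc
  xx g k g' k' := by simpa only [map_mul, map_px] using congrArg f (H.xx g k g' k')
  left g k l := by
    simpa only [map_mul, map_add, map_px, map_pa, map_pd] using congrArg f (H.left g k l)
  right g k l := by
    simpa only [map_mul, map_add, map_px, map_pa, map_pd] using congrArg f (H.right g k l)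
  dmul g k := by simpa only [map_mul, map_add, map_px, map_pd] using congrArg f (H.dmul g k)
  xc g := by simpa only [map_px, map_zero] using congrArg f (H.xc g)

lemma of_injective {f : R →+* A} (hf : Function.Injective f) (H : IsPs (f h) c (f ∘ T)) :
    IsPs h c T where
  half := hf (by simpa [map_ofNat] using H.half)
  cc := H.cc
  one := hf (by simpa [map_ofNat] using H.one)
  tc := hf (by simpa using H.tc)
  xx g k g' k' := hf (by simpa only [map_mul, map_px] using H.xx g k g' k')
  left g k l := hf (by simpa only [map_mul, map_add, map_px, map_pa, map_pd] using H.left g k l)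
  right g k l := hf (by simpa only [map_mul, map_add, map_px, map_pa, map_pd] using H.right g k l)
  dmul g k := hf (by simpa only [map_mul, map_add, map_px, map_pd] using H.dmul g k)
  xc g := hf (by simpa only [map_px, map_zero] using H.xc g)

variable (H : IsPs h c T)
include H

lemma pa_add_pd (g : G) : pa h c T g + pd h c T g = T g := by
  simp only [pa, pd]; linear_combination T g * H.half
lemma pa_one : pa h c T 1 = 1 := by
  simp only [pa, mul_one, H.one, H.tc]; linear_combination H.half
lemma pd_one : pd h c T 1 = 1 := by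
  simp only [pd, mul_one, H.one, H.tc]; linear_combination H.half
lemma pa_c : pa h c T c = 1 := by
  simp only [pa, H.cc, H.one, H.tc]; linear_combination H.half
lemma pd_c : pd h c T c = -1 := by
  simp only [pd, H.cc, H.one, H.tc]; linear_combination -H.half
lemma px_one_left (g : G) : px h c T 1 g = 0 := by simp [px, H.pa_one]
lemma px_one_right (g : G) : px h c T g 1 = 0 := by simp [px, H.pa_one]
lemma px_c_left (g : G) : px h c T c g = 0 := by
  rw [px, H.pa_c, pa, pa, ← mul_assoc, H.cc, one_mul]; ring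

/-- the representation attached to a pseudo-representation and a unit value `x g₀ h₀ = u⁻¹` -/
def rep (g₀ h₀ : G) (u : R) (hu : px h c T g₀ h₀ * u = 1) : G →* M2 R where
  toFun g := !![pa h c T g, px h c T g h₀ * u; px h c T g₀ g, pd h c T g]
  map_one' := by
    rw [H.pa_one, H.pd_one, H.px_one_left, H.px_one_right, zero_mul, one_fin_two]
  map_mul' g k := by
    have e1 : pa h c T (g * k) =
        pa h c T g * pa h c T k + px h c T g h₀ * u * px h c T g₀ k := by
      have e : pa h c T (g * k) = pa h c T g * pa h c T k + px h c T g k := by simp [px]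
      rw [e]
      linear_combination (-px h c T g k) * hu + u * H.xx g k g₀ h₀
    have e2 : px h c T (g * k) h₀ * u =
        pa h c T g * (px h c T k h₀ * u) + px h c T g h₀ * u * pd h c T k := by
      linear_combination u * H.left g k h₀
    have e4 : pd h c T (g * k) =
        px h c T g₀ g * (px h c T k h₀ * u) + pd h c T g * pd h c T k := by
      linear_combination H.dmul g k + (-px h c T k g) * hu + u * H.xx k g g₀ h₀
    rw [mul_fin_two, e1, e2, e4, H.right g k g₀]

variable {g₀ h₀ : G} {u : R} (hu : px h c T g₀ h₀ * u = 1)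

lemma rep_apply (g : G) : H.rep g₀ h₀ u hu g =
    !![pa h c T g, px h c T g h₀ * u; px h c T g₀ g, pd h c T g] := rfl

lemma trace_rep (g : G) : (H.rep g₀ h₀ u hu g).trace = T g := by
  rw [rep_apply, trace_fin_two_of, H.pa_add_pd]

lemma rep_c : H.rep g₀ h₀ u hu c = !![1, 0; 0, -1] := by
  rw [rep_apply, H.pa_c, H.pd_c, H.px_c_left, H.xc, zero_mul]

/-- base change -/
lemma map_rep (f : R →+* A) (hu' : px (f h) c (f ∘ T) g₀ h₀ * f u = 1) (g : G) :
    (H.rep g₀ h₀ u hu g).map f = (H.map f).rep g₀ h₀ (f u) hu' g := by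
  rw [rep_apply, rep_apply]
  ext i j
  fin_cases i <;> fin_cases j <;> simp [map_pa, map_pd, map_px]

/-- the kernel is read off from the trace -/
lemma rep_eq_one {n : G} (hn : ∀ g k, T (g * n * k) = T (g * k)) : H.rep g₀ h₀ u hu n = 1 := by
  have h1 : ∀ g k, pa h c T (g * n * k) = pa h c T (g * k) := fun g k => by
    rw [pa, pa, hn, ← mul_assoc, ← mul_assoc, hn, mul_assoc]
  have h2 : pa h c T n = 1 := by simpa [H.pa_one] using h1 1 1
  have h3 : pd h c T n = 1 := by
    have := H.pa_add_pd n
    have h4 : T n = 2 := by simpa [H.one] using hn 1 1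
    linear_combination this + h4 - h2
  have h5 : px h c T n h₀ = 0 := by
    have := h1 1 h₀
    simp only [one_mul] at this
    rw [px, this, h2]; ring
  have h6 : px h c T g₀ n = 0 := by
    have := h1 g₀ 1
    simp only [mul_one] at this
    rw [px, this, h2]; ring
  rw [rep_apply, h2, h3, h5, h6, zero_mul, one_fin_two]

end IsPs

/-! ### the trace of an odd representation -/

lemma rank_one {e : M2 A} (ht : e.trace = 1) (hd : e.det = 0) (X : M2 A) :
    e * X * e = (e * X).trace • e := by
  rw [trace_fin_two] at ht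
  rw [det_fin_two] at hd
  have h11 : e 1 1 = 1 - e 0 0 := by linear_combination ht
  rw [h11] at hd
  ext i j
  fin_cases i <;> fin_cases j <;>
    simp [mul_apply, Fin.sum_univ_two, trace_fin_two, h11]
  · linear_combination (-X 1 1) * hd
  · linear_combination (X 0 1) * hd
  · linear_combination (X 1 0) * hd
  · linear_combination (-X 0 0) * hd

lemma det_invol {h : A} (h2 : 2 * h = 1) {J : M2 A} (hJ : J * J = 1) (ht : J.trace = 0) :
    J.det = -1 := by
  rw [trace_fin_two] at ht
  have h0 := congrFun (congrFun hJ 0) 0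
  simp only [mul_apply, Fin.sum_univ_two, one_apply_eq] at h0
  rw [det_fin_two]
  linear_combination J 0 0 * ht - h0 + 0 * h2

theorem isPs_trace (ρ : G →* M2 A) {h : A} (h2 : 2 * h = 1) {c : G} (hc : c * c = 1)
    (ht : (ρ c).trace = 0) : IsPs h c fun g => (ρ g).trace := by
  have hJ : ρ c * ρ c = 1 := by rw [← map_mul, hc, map_one]
  have hdet := det_invol h2 hJ ht
  set e : M2 A := h • (1 + ρ c) with he
  set f : M2 A := h • (1 - ρ c) with hf
  have hef : e + f = 1 := by
    rw [he, hf, ← smul_add, add_add_sub_cancel, ← two_smul A, smul_smul, mul_comm, h2, one_smul]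
  rw [trace_fin_two] at ht
  rw [det_fin_two] at hdet
  have et : e.trace = 1 := by
    simp only [he, trace_fin_two, Matrix.smul_apply, Matrix.add_apply, one_apply_eq, smul_eq_mul]
    linear_combination h2 + h * ht
  have ft : f.trace = 1 := by
    simp only [hf, trace_fin_two, Matrix.smul_apply, Matrix.sub_apply, one_apply_eq, smul_eq_mul]
    linear_combination h2 - h * ht
  have ed : e.det = 0 := by
    simp [he, det_fin_two]
    linear_combination h * h * ht + h * h * hdet
  have fd : f.det = 0 := by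
    simp [hf, det_fin_two]
    linear_combination (-h * h) * ht + h * h * hdet
  have E := rank_one et ed
  have F := rank_one ft fd
  have ha : ∀ g, pa h c (fun g => (ρ g).trace) g = (e * ρ g).trace := fun g => by
    simp [pa, he, add_mul, mul_add]
  have hd : ∀ g, pd h c (fun g => (ρ g).trace) g = (f * ρ g).trace := fun g => by
    simp [pd, hf, sub_mul, mul_sub]
  have E' : ∀ X Y : M2 A, (e * X * e * Y).trace = (e * X).trace * (e * Y).trace := fun X Y => by
    rw [E, smul_mul, trace_smul, smul_eq_mul]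
  have F' : ∀ X Y : M2 A, (f * X * f * Y).trace = (f * X).trace * (f * Y).trace := fun X Y => by
    rw [F, smul_mul, trace_smul, smul_eq_mul]
  have split : ∀ X Y : M2 A, (X * Y).trace = (X * e * Y).trace + (X * f * Y).trace := fun X Y => by
    rw [← trace_add, ← add_mul, ← mul_add, hef, mul_one]
  have hx : ∀ g k, px h c (fun g => (ρ g).trace) g k = (e * ρ g * f * ρ k).trace := fun g k => by
    rw [px, ha, ha, ha, map_mul, ← mul_assoc, split (e * ρ g), E']; ring
  have cyc : ∀ X Y : M2 A, (f * (Y * e * X)).trace = (e * X * f * Y).trace := fun X Y => by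
    rw [← mul_assoc, ← mul_assoc, mul_assoc (f * Y), trace_mul_comm]; simp only [mul_assoc]
  refine ⟨h2, hc, by simp, by simpa [trace_fin_two] using ht, fun g k g' k' => ?_,
    fun g k l => ?_, fun g k l => ?_, fun g k => ?_, fun g => ?_⟩
  · simp only [hx]
    have h1 := E' (ρ g * f * ρ k) (ρ g' * f * ρ k')
    have h3 := congrArg (fun X => (e * ρ g * X * ρ k').trace) (F (ρ k * e * ρ g'))
    simp only [mul_smul_comm, smul_mul, trace_smul, smul_eq_mul, cyc] at h3
    simp only [mul_assoc] at h1 h3 ⊢
    rw [← h1, h3, mul_comm]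
  · simp only [hx, ha, hd, map_mul]
    have h1 := split (e * ρ g) (ρ k * f * ρ l)
    have h3 := E' (ρ g) (ρ k * f * ρ l)
    have h4 := congrArg (fun X => (e * ρ g * X * ρ l).trace) (F (ρ k))
    simp only [mul_smul_comm, smul_mul, trace_smul, smul_eq_mul] at h4
    simp only [mul_assoc] at h1 h3 h4 ⊢
    rw [h1, h3, h4, mul_comm (f * ρ k).trace]
  · simp only [hx, ha, hd, map_mul]
    have h1 := split (e * ρ l * f * ρ g) (ρ k)
    have h3 := E' (ρ l * f * ρ g) (ρ k)
    have h4 := congrArg (fun X => (e * ρ l * X * ρ k).trace) (F (ρ g))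
    simp only [mul_smul_comm, smul_mul, trace_smul, smul_eq_mul] at h4
    simp only [mul_assoc] at h1 h3 h4 ⊢
    rw [h1, h3, h4]
  · simp only [hx, hd, map_mul]
    have h1 := split (f * ρ g) (ρ k)
    have h3 := F' (ρ g) (ρ k)
    have h4 : (f * ρ g * e * ρ k).trace = (e * ρ k * f * ρ g).trace := by
      rw [mul_assoc (f * ρ g), trace_mul_comm]; simp only [mul_assoc]
    rw [← mul_assoc, h1, h3, h4]
  · have h1 : f * ρ c = -f := by
      rw [hf, smul_mul, sub_mul, one_mul, hJ, ← smul_neg, neg_sub]
    have h3 : f * e = 0 := by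
      rw [he, mul_smul_comm, mul_add, mul_one, h1, add_neg_cancel, smul_zero]
    rw [hx, mul_assoc, h1, mul_neg, trace_neg, trace_mul_comm, ← mul_assoc, h3, zero_mul,
      trace_zero, neg_zero]

/-- **descent**: traces in `R` and a unit value give a representation over `R` -/
theorem isPs_of_trace {ι : R →+* A} (hι : Function.Injective ι) (ρ : G →* M2 A) {T : G → R}
    (hT : ∀ g, ι (T g) = (ρ g).trace) {h : R} (h2 : 2 * h = 1) {c : G} (hc : c * c = 1)
    (ht : T c = 0) : IsPs h c T := by
  refine IsPs.of_injective hι ?_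
  have : ι ∘ T = fun g => (ρ g).trace := funext hT
  rw [this]
  exact isPs_trace ρ (by simpa [map_ofNat] using congrArg ι h2) hc (by rw [← hT, ht, map_zero])

theorem descend {ι : R →+* A} (hι : Function.Injective ι) (ρ : G →* M2 A) {T : G → R}
    (hT : ∀ g, ι (T g) = (ρ g).trace) {h : R} (h2 : 2 * h = 1) {c : G} (hc : c * c = 1)
    (ht : T c = 0) {g₀ h₀ : G} (hu : IsUnit (px h c T g₀ h₀)) :
    ∃ σ : G →* M2 R, (∀ g, (σ g).trace = T g) ∧ σ c = !![1, 0; 0, -1] ∧
      ∀ n, ρ n = 1 → σ n = 1 := by
  have H := isPs_of_trace hι ρ hT h2 hc ht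
  obtain ⟨u, hu⟩ := hu.exists_right_inv
  refine ⟨H.rep g₀ h₀ u hu, H.trace_rep hu, H.rep_c hu, fun n hn => H.rep_eq_one hu fun g k => ?_⟩
  exact hι (by rw [hT, hT, map_mul, map_mul, map_mul, hn, mul_one])

/-! ### uniqueness -/

section diag
variable (σ : G →* M2 R) {h : R} (h2 : 2 * h = 1) {c : G} (hc : σ c = !![1, 0; 0, -1])
include h2 hc

lemma pa_diag (g : G) : pa h c (fun g => (σ g).trace) g = σ g 0 0 := by
  simp only [pa, map_mul, hc, trace_fin_two]
  simp [mul_apply, Fin.sum_univ_two]
  linear_combination σ g 0 0 * h2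
lemma pd_diag (g : G) : pd h c (fun g => (σ g).trace) g = σ g 1 1 := by
  simp only [pd, map_mul, hc, trace_fin_two]
  simp [mul_apply, Fin.sum_univ_two]
  linear_combination σ g 1 1 * h2
lemma px_diag (g k : G) : px h c (fun g => (σ g).trace) g k = σ g 0 1 * σ k 1 0 := by
  simp only [px, pa_diag σ h2 hc, map_mul, mul_apply, Fin.sum_univ_two]; ring

end diag

/-- conjugate representation -/
def conj (σ : G →* M2 R) (P : GL (Fin 2) R) : G →* M2 R where
  toFun g := (P⁻¹ : GL (Fin 2) R).val * σ g * P.val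
  map_one' := by simp
  map_mul' g k := by simp [mul_assoc]

lemma conj_apply (σ : G →* M2 R) (P : GL (Fin 2) R) (g : G) :
    conj σ P g = (P⁻¹ : GL (Fin 2) R).val * σ g * P.val := rfl

lemma trace_conj (σ : G →* M2 R) (P : GL (Fin 2) R) (g : G) :
    (conj σ P g).trace = (σ g).trace := by
  rw [conj_apply, trace_mul_comm, ← mul_assoc]; simp

lemma det_conj' (σ : G →* M2 R) (P : GL (Fin 2) R) (g : G) : (conj σ P g).det = (σ g).det := by
  rw [conj_apply, det_mul, det_mul, mul_right_comm, ← det_mul]; simp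

lemma conj_conj (σ : G →* M2 R) (P Q : GL (Fin 2) R) : conj (conj σ P) Q = conj σ (P * Q) := by
  ext1 g; simp [conj_apply, mul_assoc]

lemma conj_one (σ : G →* M2 R) : conj σ 1 = σ := by
  ext1 g; simp [conj_apply]

lemma conj_eq_of {σ σ' : G →* M2 R} (P : GL (Fin 2) R) (h : ∀ g, σ g * P.val = P.val * σ' g) :
    conj σ P = σ' := by
  ext1 g; rw [conj_apply, mul_assoc, h, ← mul_assoc]; simp

/-- an involution of trace zero over a local ring is diagonalisable -/
lemma exists_diag_mat [IsLocalRing R] {h : R} (h2 : 2 * h = 1) {J : M2 R} (hJ : J * J = 1)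
    (ht : J.trace = 0) : ∃ P : GL (Fin 2) R, J * P.val = P.val * !![1, 0; 0, -1] := by
  have hd := det_invol h2 hJ ht
  rw [trace_fin_two] at ht
  rw [det_fin_two] at hd
  have h11 : J 1 1 = -J 0 0 := by linear_combination ht
  rw [h11] at hd
  have hs : h * (1 + J 0 0) + h * (1 - J 0 0) = 1 := by linear_combination h2
  rcases IsLocalRing.isUnit_or_isUnit_of_add_one hs with hu | hu
  · have hdet : IsUnit (!![1 + J 0 0, -J 0 1; J 1 0, 1 + J 0 0] : M2 R).det := by
      have e : (!![1 + J 0 0, -J 0 1; J 1 0, 1 + J 0 0] : M2 R).det * (h * h) =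
          h * (1 + J 0 0) := by
        rw [det_fin_two_of]; linear_combination (h * (1 + J 0 0)) * h2 - h * h * hd
      exact isUnit_of_mul_isUnit_left (e ▸ hu)
    refine ⟨((isUnit_iff_isUnit_det _).2 hdet).unit, ?_⟩
    ext i j
    fin_cases i <;> fin_cases j <;> simp [mul_apply, Fin.sum_univ_two, h11]
    · linear_combination -hd
    · ring
    · ring
    · linear_combination hd
  · have hdet : IsUnit (!![J 0 1, 1 - J 0 0; 1 - J 0 0, -J 1 0] : M2 R).det := by
      have e : (!![J 0 1, 1 - J 0 0; 1 - J 0 0, -J 1 0] : M2 R).det * (-h * h) =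
          h * (1 - J 0 0) := by
        rw [det_fin_two_of]; linear_combination (h * (1 - J 0 0)) * h2 - h * h * hd
      exact isUnit_of_mul_isUnit_left (e ▸ hu)
    refine ⟨((isUnit_iff_isUnit_det _).2 hdet).unit, ?_⟩
    ext i j
    fin_cases i <;> fin_cases j <;> simp [mul_apply, Fin.sum_univ_two, h11]
    · ring
    · linear_combination hd
    · linear_combination -hd
    · ring

theorem exists_diag [IsLocalRing R] (σ : G →* M2 R) {h : R} (h2 : 2 * h = 1) {c : G}
    (hc : c * c = 1) (ht : (σ c).trace = 0) :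
    ∃ P : GL (Fin 2) R, conj σ P c = !![1, 0; 0, -1] := by
  obtain ⟨P, hP⟩ := exists_diag_mat h2 (J := σ c) (by rw [← map_mul, hc, map_one]) ht
  exact ⟨P, by rw [conj_apply, mul_assoc, hP, ← mul_assoc]; simp⟩

/-- a diagonalised representation is conjugate to the standard one -/
lemma conj_rep (σ : G →* M2 R) {h : R} {c : G} (hc : σ c = !![1, 0; 0, -1])
    (H : IsPs h c fun g => (σ g).trace) {g₀ h₀ : G} {u : R}
    (hu : px h c (fun g => (σ g).trace) g₀ h₀ * u = 1) :
    ∃ P : GL (Fin 2) R, conj σ P = H.rep g₀ h₀ u hu := by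
  have hu' := hu
  rw [px_diag σ H.half hc] at hu'
  refine ⟨⟨!![1, 0; 0, σ h₀ 1 0 * u], !![1, 0; 0, σ g₀ 0 1], ?_, ?_⟩, conj_eq_of _ fun g => ?_⟩
  · rw [mul_fin_two, one_fin_two]; congr 3 <;> simp; linear_combination hu'
  · rw [mul_fin_two, one_fin_two]; congr 3 <;> simp; linear_combination hu'
  · rw [IsPs.rep_apply, pa_diag σ H.half hc, pd_diag σ H.half hc, px_diag σ H.half hc,
      px_diag σ H.half hc]
    ext i j
    fin_cases i <;> fin_cases j <;> simp [mul_apply, Fin.sum_univ_two]
    · ring
    · linear_combination (-σ g 1 0) * hu'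
    · ring

/-- **uniqueness**: over a local ring the trace determines the representation -/
theorem conj_of_trace_eq [IsLocalRing R] (σ σ' : G →* M2 R) (hT : ∀ g, (σ g).trace = (σ' g).trace)
    {h : R} (h2 : 2 * h = 1) {c : G} (hc : c * c = 1) (ht : (σ c).trace = 0) {g₀ h₀ : G}
    (hu : IsUnit (px h c (fun g => (σ g).trace) g₀ h₀)) : ∃ P : GL (Fin 2) R, conj σ P = σ' := by
  obtain ⟨u, hu⟩ := hu.exists_right_inv
  have key : ∀ τ : G →* M2 R, (∀ g, (σ g).trace = (τ g).trace) →
      ∃ P : GL (Fin 2) R, conj τ P = (isPs_trace σ h2 hc ht).rep g₀ h₀ u hu := fun τ hτ => by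
    obtain ⟨P, hP⟩ := exists_diag τ h2 hc (by rw [← hτ, ht])
    have e : (fun g => (σ g).trace) = fun g => (conj τ P g).trace :=
      funext fun g => by rw [trace_conj, hτ]
    obtain ⟨Q, hQ⟩ := conj_rep (conj τ P) hP (e ▸ isPs_trace σ h2 hc ht) (e ▸ hu)
    refine ⟨P * Q, ?_⟩
    rw [← conj_conj, hQ]
    ext1 g
    simp only [IsPs.rep_apply, e]
  obtain ⟨P, hP⟩ := key σ fun _ => rfl
  obtain ⟨Q, hQ⟩ := key σ' hT
  exact ⟨P * Q⁻¹, by rw [← conj_conj, hP, ← hQ, conj_conj, mul_inv_cancel, conj_one]⟩

/-- no common eigenvector -/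
def Irr {k : Type*} [Field k] (ρ : G →* M2 k) : Prop :=
  ∀ v : Fin 2 → k, (∀ g, ∃ t : k, ρ g *ᵥ v = t • v) → v = 0

lemma Irr.conj {k : Type*} [Field k] {ρ : G →* M2 k} (H : Irr ρ) (P : GL (Fin 2) k) :
    Irr (conj ρ P) := fun v hv => by
  have h1 := H (P.val *ᵥ v) fun g => by
    obtain ⟨t, ht⟩ := hv g
    refine ⟨t, ?_⟩
    rw [← mulVec_smul, ← ht, conj_apply, mulVec_mulVec, mulVec_mulVec, ← mul_assoc, ← mul_assoc]
    simp
  have h2 := congrArg (fun w => (P⁻¹ : GL (Fin 2) k).val *ᵥ w) h1
  simpa only [mulVec_mulVec, Units.inv_mul, one_mulVec, mulVec_zero] using h2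

/-- an irreducible odd representation has a non-zero value of `x` -/
theorem Irr.exists_px_ne {k : Type*} [Field k] {ρ : G →* M2 k} (H : Irr ρ) {h : k}
    (h2 : 2 * h = 1) {c : G} (hc : c * c = 1) (ht : (ρ c).trace = 0) :
    ∃ g₀ h₀, px h c (fun g => (ρ g).trace) g₀ h₀ ≠ 0 := by
  obtain ⟨P, hP⟩ := exists_diag ρ h2 hc ht
  have e : (fun g => (ρ g).trace) = fun g => (Ps.conj ρ P g).trace :=
    funext fun g => by rw [trace_conj]
  have H' := H.conj P
  rw [e]
  generalize Ps.conj ρ P = τ at hP H'
  by_contra hcon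
  simp only [not_exists, not_not, px_diag τ h2 hP] at hcon
  by_cases hb : ∀ g, τ g 0 1 = 0
  · have := H' ![0, 1] fun g => ⟨τ g 1 1, by
      ext i; fin_cases i <;> simp [mulVec, dotProduct, Fin.sum_univ_two, hb]⟩
    simpa using congrFun this 1
  · obtain ⟨g, hg⟩ := not_forall.1 hb
    have := H' ![1, 0] fun k => ⟨τ k 0 0, by
      ext i; fin_cases i <;>
        simp [mulVec, dotProduct, Fin.sum_univ_two, (mul_eq_zero.1 (hcon g k)).resolve_left hg]⟩
    simpa using congrFun this 0

/-- residual irreducibility gives a unit value of `x` -/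
theorem exists_unit {k : Type*} [Field k] (π : R →+* k) [IsLocalHom π] {ρ : G →* M2 k}
    (H : Irr ρ) {T : G → R} (hT : ∀ g, π (T g) = (ρ g).trace) {h : R} (h2 : 2 * h = 1) {c : G}
    (hc : c * c = 1) (ht : T c = 0) : ∃ g₀ h₀, IsUnit (px h c T g₀ h₀) := by
  obtain ⟨g₀, h₀, hx⟩ := H.exists_px_ne (h := π h) (by simpa [map_ofNat] using congrArg π h2) hc
    (by rw [← hT, ht, map_zero])
  refine ⟨g₀, h₀, isUnit_of_map_unit π _ (IsUnit.mk0 _ ?_)⟩
  rwa [map_px, show π ∘ T = fun g => (ρ g).trace from funext hT]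

/-- **descent in the residually irreducible case**, with the residual representation on the nose -/
theorem descend_irr {k : Type*} [Field k] (π : R →+* k) [IsLocalHom π] {ρ₀ : G →* M2 k}
    (H : Irr ρ₀) {ι : R →+* A} (hι : Function.Injective ι) (ρ : G →* M2 A) {T : G → R}
    (hT : ∀ g, ι (T g) = (ρ g).trace) (hT₀ : ∀ g, π (T g) = (ρ₀ g).trace) {h : R}
    (h2 : 2 * h = 1) {c : G} (hc : c * c = 1) (ht : T c = 0) :
    ∃ (σ : G →* M2 R) (P : GL (Fin 2) k), (∀ g, (σ g).trace = T g) ∧ σ c = !![1, 0; 0, -1] ∧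
      (∀ n, ρ n = 1 → σ n = 1) ∧ ∀ g, (σ g).map π = conj ρ₀ P g := by
  obtain ⟨g₀, h₀, hu⟩ := exists_unit π H hT₀ h2 hc ht
  obtain ⟨σ, h1, h3, h4⟩ := descend hι ρ hT h2 hc ht hu
  have h5 : 2 * π h = 1 := by simpa [map_ofNat] using congrArg π h2
  obtain ⟨P, hP⟩ := conj_of_trace_eq ρ₀ (π.mapMatrix.toMonoidHom.comp σ) (fun g => by
    rw [← hT₀, ← h1]; simp [trace_fin_two]) h5 hc (by rw [← hT₀, ht, map_zero])
    (g₀ := g₀) (h₀ := h₀) (by
      rw [← show π ∘ T = fun g => (ρ₀ g).trace from funext hT₀, ← map_px]; exact hu.map π)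
  exact ⟨σ, P, h1, h3, h4, fun g => by rw [hP]; rfl⟩

end Crest.Agent.T15.Ps

end
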