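import Crest.Agent.T15.Eb_64
import Crest.Agent.T15.RhoD_86
import Crest.Agent.T15.Disc_71
import Crest.Agent.T15.Wp4_31
import Crest.Agent.T15.CDef_7

/-!
# Row 15, blocks F / Ht (helper64): Frobenius clauses in the words `Rho.WQ`, smoothness of `Pic`

* `wq_E`, `wq_A`, `wq_tr` : the clauses of the link;
* `cyc_frob` : the cyclotomic character at a Frobenius;
* `exists_fix_pic`, `exists_fix_fin`, `exists_open_fin` : open kernels.
-/

set_option autoImplicit false

namespace Crest.Agent.T15.Eb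

open Module WithZero
open Crest.Agent.R013.TP_928 Crest.Agent.T15.Rho
open Crest.Agent.R013.RR7_948 Crest.Agent.R013.RR8_948 Crest.Agent.R013.RR9_948
open Crest.Agent.R013.RR11_948 Crest.Agent.R013.PicD_398 Crest.Agent.R013.Frob1_914
open Crest.Agent.R013.GR2_921
open Crest.Agent.R018.Placesx484

section wq

variable {G A : Type*} [Group G] [AddCommGroup A] (R : WQ G (Tate 3 A))
  (hl : ∀ m (ξ : A), (3 ^ m) • ξ = 0 → ∃ u : Tate 3 A, u m = ξ) {J S : A →+ A}
  (hJ : ∀ u, R.j u = Tate.map J u) {σ : G} (hS : ∀ u, R.act σ u = Tate.map S u) {l : ℕ}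
  (hc : (R.cyc σ : ℤ_[3]) = l)

include hl hJ hS hc

/-- **E-block** -/
theorem wq_E [Module.Finite ℤ_[3] (Tate 3 A)] (hr : finrank ℤ_[3] (Tate 3 A) ≤ 6) :
    ∃ t : ℕ → ℤ, ∀ m (ξ : A), (3 ^ m) • ξ = 0 →
      J (J (S (S ξ) - t m • S ξ + l • ξ)) = 3 • (S (S ξ) - t m • S ξ + l • ξ) := by
  obtain ⟨τ, hτ⟩ := eblock_y hr R.y R.j R.yy R.jy R.jjj R.j0 R.e R.alt R.nd R.ej (R.act σ)
    (R.aj σ) _ (R.he σ)
  refine ⟨ap τ, eblock_of hl J S 3 l τ fun x => ?_⟩
  simpa only [hJ, hS, hc, Nat.cast_ofNat] using hτ x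

/-- **A-block** -/
theorem wq_A (F : Fr R.qm) (m : ℕ) (ξ : A) (hξ : (3 ^ m) • ξ = 0) :
    J (S (S ξ) - ap (F.cc σ) m • (if R.χ σ = 1 then S ξ else J (S ξ)) + l • ξ) = 0 := by
  obtain ⟨u, rfl⟩ := hl m ξ hξ
  have := congrArg (fun w : Tate 3 A => w m) (R.quad F σ u)
  rw [sub_add_eq_add_sub]
  split_ifs at this ⊢ with h <;>
  simpa only [hJ, hS, hc, Tate.map_apply, Tate.add_apply, Tate.sub_apply, Tate.zero_apply,
    Tate.natCast_smul_apply, ap_smul (F.cc σ)] using this

omit hl hJ hS hc in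
/-- the last clause of the link -/
theorem wq_tr (F : Fr R.qm) {O B : Type*} [CommRing O] [CommRing B] (c : C3 O) (φ : O →+* B)
    (σ : G) {u v : ℤ} (h : ∀ m, (3 : ℤ) ^ m ∣ u - ap (F.cc σ) m * v) :
    (v : B) * φ (F.ρ0 R.qm_χb c σ).trace = u * if R.χ σ = 1 then 1 else φ c.s := by
  have := congrArg φ (limit_mul c.φ (F.cc σ) (if R.χ σ = 1 then 1 else c.s) (u := u) (v := v)
    (by exact_mod_cast h))
  rw [map_mul, map_mul φ (u : O), map_intCast, map_intCast, apply_ite φ, map_one] at this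
  rw [F.trace_ρ0]
  exact this

end wq

section frob

open Crest.Agent.T15.C

/-- the cyclotomic character at a Frobenius -/
theorem cyc_frob {p : ℕ} [hp : Fact p.Prime] {P : Place Om} {q : ℕ} {g : Gam} (hg : IsFr P q g)
    (hP : P.rchar ≠ p) {s : Om ≃+* Om} (hs : ∀ a, s a = g a) : Wp.cyc p s = q := by
  rw [← sub_eq_zero]
  refine eq_zero_of_dvd _ fun n => ?_
  rw [← Ideal.mem_span_singleton]
  have hz : IsPrimitiveRoot ((Wp.zt p Om n : Omˣ) : Om) (p ^ n) :=
    IsPrimitiveRoot.coe_units_iff.2 (Wp.zt_prim p Om n)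
  refine Wp.cyc_sub_mem s hz ?_
  rw [hs]
  refine P.frob_root (g := g) hg (fun h => hP ?_) hz.pow_eq_one
  exact (Nat.prime_dvd_prime_iff_eq P.rchar_prime hp.out).1 (P.rchar_prime.dvd_of_dvd_pow h)

/-- the cyclotomic character is trivial on inertia away from `p` -/
theorem cyc_inertia {p : ℕ} [hp : Fact p.Prime] {P : Place Om} {g : Gam} (hg : g ∈ In P)
    (hP : P.rchar ≠ p) {s : Om ≃+* Om} (hs : ∀ a, s a = g a) : Wp.cyc p s = 1 := by
  have := cyc_frob (p := p) (P := P) (q := 1) (g := g) (fun x => by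
    rw [pow_one]; exact hg x) hP hs
  simpa using this

/-- the same from the characterisation of the character -/
theorem cyc_eq {p : ℕ} [hp : Fact p.Prime] {P : Place Om} {q : ℕ} {g : Gam} (hg : IsFr P q g)
    (hP : P.rchar ≠ p) {c : ℤ_[p]} (hc : ∀ (n a : ℕ) (ζ : Om), IsPrimitiveRoot ζ (p ^ n) →
      g ζ = ζ ^ a → ((p : ℕ) : ℤ_[p]) ^ n ∣ c - a) : c = q := by
  rw [← sub_eq_zero]
  refine eq_zero_of_dvd _ fun n => ?_
  have hz : IsPrimitiveRoot ((Wp.zt p Om n : Omˣ) : Om) (p ^ n) :=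
    IsPrimitiveRoot.coe_units_iff.2 (Wp.zt_prim p Om n)
  refine hc n q _ hz ?_
  refine P.frob_root (g := g) hg (fun h => hP ?_) hz.pow_eq_one
  exact (Nat.prime_dvd_prime_iff_eq P.rchar_prime hp.out).1 (P.rchar_prime.dvd_of_dvd_pow h)

/-- the fixer of a finite set contains an open subgroup -/
theorem exists_open (S : Finset Om) :
    ∃ U : Subgroup Gam, IsOpen (U : Set Gam) ∧ ∀ g ∈ U, ∀ a ∈ S, g a = a := by
  have : FiniteDimensional ℚ (IntermediateField.adjoin ℚ (S : Set Om)) :=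
    IntermediateField.finiteDimensional_adjoin fun x _ => Algebra.IsIntegral.isIntegral x
  exact ⟨(IntermediateField.adjoin ℚ (S : Set Om)).fixingSubgroup,
    IntermediateField.fixingSubgroup_isOpen _, fun g hg a ha =>
      (IntermediateField.mem_fixingSubgroup_iff _ _).1 hg a (IntermediateField.subset_adjoin _ _ ha)⟩

/-- a homomorphism that kills the fixer of a finite set has open kernel -/
theorem isOpen_of_fix {M : Type*} [Monoid M] (ρ : Gam →* M) (S : Finset Om)
    (h : ∀ g : Gam, (∀ a ∈ S, g a = a) → ρ g = 1) : IsOpen (ρ.ker : Set Gam) := by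
  obtain ⟨U, hU, hS⟩ := exists_open S
  exact Subgroup.isOpen_mono (fun g hg => h g (hS g hg)) hU

end frob

section smooth

variable {k K : Type*} [Field k] [Field K] [Algebra k K]

/-- an element is fixed as soon as the generators and finitely many constants are -/
theorem exists_fix {T : Set K} (hT : IntermediateField.adjoin k T = ⊤) (f : K) :
    ∃ S : Finset k, ∀ e : SI k K k K, (∀ t ∈ T, e.f t = t) → (∀ a ∈ S, e.s a = a) → e.f f = f := by
  classical
  have hf : f ∈ IntermediateField.adjoin k T := hT ▸ IntermediateField.mem_top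
  induction hf using IntermediateField.adjoin_induction with
  | mem x hx => exact ⟨∅, fun e h _ => h x hx⟩
  | algebraMap c => exact ⟨{c}, fun e _ h => by rw [e.comm, h c (by simp)]⟩
  | add x y _ _ hx hy =>
    obtain ⟨S, hS⟩ := hx
    obtain ⟨S', hS'⟩ := hy
    exact ⟨S ∪ S', fun e h h' => by
      rw [map_add, hS e h fun a ha => h' a (by simp [ha]), hS' e h fun a ha => h' a (by simp [ha])]⟩
  | inv x _ hx =>
    obtain ⟨S, hS⟩ := hx
    exact ⟨S, fun e h h' => by rw [map_inv₀, hS e h h']⟩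
  | mul x y _ _ hx hy =>
    obtain ⟨S, hS⟩ := hx
    obtain ⟨S', hS'⟩ := hy
    exact ⟨S ∪ S', fun e h h' => by
      rw [map_mul, hS e h fun a ha => h' a (by simp [ha]), hS' e h fun a ha => h' a (by simp [ha])]⟩

variable [IsAlgClosed k] [Algebra (RatFunc k) K] [IsScalarTower k (RatFunc k) K]
  [FiniteDimensional (RatFunc k) K] [Algebra.IsSeparable (RatFunc k) K]

/-- a function whose only pole is `P` -/
theorem exists_pole_only (P : Pl k K) : ∃ f : K, 1 < P.v f ∧ ∀ Q : Pl k K, Q ≠ P → Q.v f ≤ 1 := by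
  classical
  set D : Pl k K →₀ ℤ := Finsupp.single P (gen k K + 1) with hD
  have h1 := ell_ge (k := k) (K := K) hc_of_isAlgClosed D
  rw [hD, degD_single, degP_eq_one, ← hD] at h1
  have hQ : ∀ f ∈ LD D, ∀ Q : Pl k K, Q ≠ P → Q.v f ≤ 1 := fun f hf Q hQ => by
    have := mem_LD.1 hf Q
    rwa [hD, Finsupp.single_eq_of_ne hQ, exp_zero] at this
  by_contra hc
  push Not at hc
  have hle : LD D ≤ LD (0 : Pl k K →₀ ℤ) := fun f hf => mem_LD.2 fun Q => by
    rw [Finsupp.zero_apply, exp_zero]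
    by_cases h : Q = P
    · subst h
      by_contra h'
      obtain ⟨Q', h2, h3⟩ := hc f (not_le.1 h')
      exact absurd (hQ f hf Q' h2) (not_le.2 h3)
    · exact hQ f hf Q h
  have := LD_finite (0 : Pl k K →₀ ℤ)
  have h2 := Submodule.finrank_mono hle
  have h3 := ell_zero (k := k) (K := K) hc_of_isAlgClosed
  unfold ell at h1 h3
  push_cast at h1
  omega

variable {T : Set K} (hT : IntermediateField.adjoin k T = ⊤)

include hT

theorem exists_fix_pl (P : Pl k K) :
    ∃ S : Finset k, ∀ e : SI k K k K, (∀ t ∈ T, e.f t = t) → (∀ a ∈ S, e.s a = a) → e.pl P = P := by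
  obtain ⟨f, h1, h2⟩ := exists_pole_only P
  obtain ⟨S, hS⟩ := exists_fix hT f
  refine ⟨S, fun e h h' => ?_⟩
  by_contra hne
  have := h2 _ hne
  rw [← hS e h h', e.pl_v_apply] at this
  exact absurd h1 (not_lt.2 this)

theorem exists_fix_D (D : Pl k K →₀ ℤ) :
    ∃ S : Finset k, ∀ e : SI k K k K, (∀ t ∈ T, e.f t = t) → (∀ a ∈ S, e.s a = a) → e.D D = D := by
  classical
  induction D using Finsupp.induction_linear with
  | zero => exact ⟨∅, fun e _ _ => map_zero _⟩
  | add x y hx hy =>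
    obtain ⟨S, hS⟩ := hx
    obtain ⟨S', hS'⟩ := hy
    exact ⟨S ∪ S', fun e h h' => by
      rw [map_add, hS e h fun a ha => h' a (by simp [ha]), hS' e h fun a ha => h' a (by simp [ha])]⟩
  | single P n =>
    obtain ⟨S, hS⟩ := exists_fix_pl hT P
    exact ⟨S, fun e h h' => by rw [e.D_single, hS e h h']⟩

/-- every class is fixed as soon as the generators and finitely many constants are -/
theorem exists_fix_pic (x : Pic k K) :
    ∃ S : Finset k, ∀ e : SI k K k K, (∀ t ∈ T, e.f t = t) → (∀ a ∈ S, e.s a = a) → e.pic x = x := by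
  obtain ⟨D, rfl⟩ := cls_surjective x
  obtain ⟨S, hS⟩ := exists_fix_D hT D
  exact ⟨S, fun e h h' => by rw [e.pic_cls, hS e h h']⟩

theorem exists_fix_fin {X : Set (Pic k K)} (hX : X.Finite) :
    ∃ S : Finset k, ∀ e : SI k K k K, (∀ t ∈ T, e.f t = t) → (∀ a ∈ S, e.s a = a) →
      ∀ x ∈ X, e.pic x = x := by
  classical
  choose S hS using exists_fix_pic hT
  exact ⟨hX.toFinset.biUnion S, fun e h h' x hx => hS x e h fun a ha =>
    h' a (Finset.mem_biUnion.2 ⟨x, hX.mem_toFinset.2 hx, ha⟩)⟩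

end smooth

section op

open Crest.Agent.T15.C

variable {K : Type*} [Field K] [Algebra Om K] [Algebra (RatFunc Om) K]
  [IsScalarTower Om (RatFunc Om) K] [FiniteDimensional (RatFunc Om) K]
  [Algebra.IsSeparable (RatFunc Om) K]

/-- an open subgroup of `Gam` fixes a given finite set of classes -/
theorem exists_open_fin {T : Set K} (hT : IntermediateField.adjoin Om T = ⊤)
    (e : Gam → SI Om K Om K) (hs : ∀ g a, (e g).s a = g a) (hf : ∀ g, ∀ t ∈ T, (e g).f t = t)
    {X : Set (Pic Om K)} (hX : X.Finite) :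
    ∃ U : Subgroup Gam, IsOpen (U : Set Gam) ∧ ∀ g ∈ U, ∀ x ∈ X, (e g).pic x = x := by
  obtain ⟨S, hS⟩ := exists_fix_fin hT hX
  obtain ⟨U, hU, h⟩ := exists_open S
  exact ⟨U, hU, fun g hg => hS (e g) (hf g) fun a ha => by rw [hs, h g hg a ha]⟩

end op

end Crest.Agent.T15.Eb
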