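import Mathlib
import Crest.Agent.T15.HyB_90
import Crest.Agent.T15.Wp1_31
import Crest.Agent.T15.FlR_23

/-!
# Row 15, block F (helper90): flatness at `3` of a hyperelliptic Jacobian of compact type, words

`Gp` general point of a chart, `Chart`, `Mov` (moving lemma), `SrcStmt` (flatness from the moving
lemma and the Weil pairing).
-/

set_option autoImplicit false
set_option linter.all false

namespace Crest.Agent.T15.F3

open Polynomial WithZero Module
open scoped NNReal
open Crest.Agent.R013.RR7_948 Crest.Agent.R013.RR8_948 Crest.Agent.R013.RR9_948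
open Crest.Agent.R013.RR11_948 Crest.Agent.R013.RR12_948 Crest.Agent.R013.PicD_398
open Crest.Agent.R013.Frob1_914 Crest.Agent.T15.Hy

section

variable {C K : Type*} [Field C] [IsAlgClosed C] [Field K] [Algebra C K]
  [Algebra (RatFunc C) K] [IsScalarTower C (RatFunc C) K] [FiniteDimensional (RatFunc C) K]
  [Algebra.IsSeparable (RatFunc C) K] (v : Valuation C ℝ≥0)

/-- `x(P)` is integral and not congruent to an element of `S` -/
def Gp (x : K) (S : Finset C) (P : Pl C K) : Prop :=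
  P.v x ≤ 1 ∧ v (Disc.ev P x) ≤ 1 ∧ ∀ s ∈ S, 1 ≤ v (Disc.ev P x - s)

/-- an integral equation `w ^ 2 = F(x)` whose reduction is not a square -/
structure Chart (F : C[X]) (x w : K) : Prop where
  hyp : Hyp F x w
  int : ∀ i, v (F.coeff i) ≤ 1
  nsq : ∀ A B : C[X], (∀ i, v (A.coeff i) ≤ 1) → (∀ i, v (B.coeff i) ≤ 1) →
    (∀ i, v ((A ^ 2 - B ^ 2 * F).coeff i) < 1) → ∀ i, v (A.coeff i) < 1 ∧ v (B.coeff i) < 1

/-- the moving lemma for the charts `x j` -/
def Mov {ι : Type*} [Fintype ι] (x : ι → K) : Prop :=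
  ∃ N : ι → Finset C, (∀ j l, j ≠ l → ∀ P : Pl C K, Gp v (x l) (N l) P → ¬ Gp v (x j) (N j) P) ∧
    ∀ z ∈ Pic0 C K, ∀ S : ι → Finset C, ∃ P Q : ι → Pl C K,
      (∀ j, Gp v (x j) (S j) (P j) ∧ Gp v (x j) (S j) (Q j)) ∧
      z = cls (∑ j, (Finsupp.single (P j) 1 - Finsupp.single (Q j) 1))

end

/-- flatness of the `n`-torsion of `Pic` from charts defined over the inertia field -/
def SrcStmt : Prop :=
  ∀ (C K : Type) [Field C] [IsAlgClosed C] [CharZero C] [Field K] [Algebra C K]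
    [Algebra (RatFunc C) K] [IsScalarTower C (RatFunc C) K] [FiniteDimensional (RatFunc C) K]
    [Algebra.IsSeparable (RatFunc C) K] (v : Valuation C ℝ≥0)
    (G : Type) [Group G] [MulSemiringAction G C],
    (∀ (g : G) (a : C), v (g • a) = v a) → (∀ (g : G) (a : C), v a ≤ 1 → v (g • a - a) < 1) →
    (∀ a : C, (Set.range fun g : G => g • a).Finite) →
    ∀ (e : G → SI C K C K), (∀ g a, (e g).s a = g • a) →
    ∀ (ι : Type) [Fintype ι] (F : ι → C[X]) (x w : ι → K), (∀ j, Chart v (F j) (x j) (w j)) →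
    (∀ g j, (e g).f (x j) = x j ∧ (e g).f (w j) = w j) → Mov v x →
    ∀ (n : ℕ), n ≠ 0 →
    (∀ u : Pic C K, n • u = 0 → u ≠ 0 → ∃ y : Pic C K, n • y = 0 ∧ Wp.wp n u y ≠ 1) →
    ∀ (V : Type) [AddCommGroup V] [Finite V] (i : V →+ Pic C K), Function.Injective i →
    (∀ u, n • i u = 0) → ∀ ρ : G → V → V, (∀ g u, i (ρ g u) = (e g).pic (i u)) → FlR.Flat v G ρ

end Crest.Agent.T15.F3
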