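import Mathlib
import Crest.Agent.T15.HyB_90

/-!
# Row 15, block F (helper90): specialisation of divisors of `w ^ 2 = F(x)` to one component

`F ∈ O[X]`, `F̄ = H ^ 2 E`, `E` separable of odd degree, the roots of `H` are roots of `E`.
`sp : Pl C K → Pl k κ`, `sp_el : sp_* div f = div f̄`, `spPic : Pic C K →+ Pic k κ`.
-/

set_option autoImplicit false
set_option linter.all false

namespace Crest.Agent.T15.Hy

open Polynomial WithZero Module
open scoped NNReal
open Crest.Agent.R013.RR7_948 Crest.Agent.R013.RR8_948 Crest.Agent.R013.RR9_948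
open Crest.Agent.R013.RR11_948 Crest.Agent.R013.RR12_948 Crest.Agent.R013.PicD_398
open Crest.Agent.R013.GR2_921 Crest.Agent.R013.GR5_921 Crest.Agent.R013.Frob1_914
open Crest.Agent.T15.Disc

theorem mapDomain_congr_iff {A B : Type*} (D : A →₀ ℤ) (f g : A → B) {b : B}
    (h : ∀ a, f a = b ↔ g a = b) : D.mapDomain f b = D.mapDomain g b := by
  classical
  simp only [Finsupp.mapDomain, Finsupp.sum_apply, Finsupp.single_apply, h]

theorem mapDomain_eq_zero_of {A B : Type*} (D : A →₀ ℤ) (f : A → B) {b : B}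
    (h : ∀ a, f a = b → D a = 0) : D.mapDomain f b = 0 := by
  rw [mapDomain_congr_fibre D 0 f h]; simp

theorem mapDomain_sub' {A B : Type*} (D D' : A →₀ ℤ) (f : A → B) :
    (D - D').mapDomain f = D.mapDomain f - D'.mapDomain f :=
  map_sub (Finsupp.mapDomain.addMonoidHom f) D D'

section gauss

variable {K : Type*} [Field K] {Γ : Type*} [LinearOrderedCommGroupWithZero Γ] (v : Valuation K Γ)

/-- a polynomial at an integral point far from its roots -/
theorem coeff_le_eval [IsAlgClosed K] {a : K} (ha : v a ≤ 1) (p : K[X])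
    (hp : ∀ t, p.IsRoot t → 1 ≤ v (a - t)) (i : ℕ) : v (p.coeff i) ≤ v (p.eval a) := by
  induction hn : p.natDegree generalizing p i with
  | zero =>
    obtain ⟨s, rfl⟩ := natDegree_eq_zero.mp hn
    rw [coeff_C, eval_C]
    split_ifs <;> simp
  | succ n ih =>
    have hp0 : p ≠ 0 := by rintro rfl; simp at hn
    obtain ⟨t, ht⟩ := IsAlgClosed.exists_root p (by
      rw [degree_eq_natDegree hp0, hn]; exact_mod_cast Nat.succ_ne_zero n)
    have h1 := hp t ht
    obtain ⟨q, rfl⟩ := dvd_iff_isRoot.mpr ht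
    have hq : q ≠ 0 := right_ne_zero_of_mul hp0
    have h2 := fun i => ih q (fun s hs => hp s (by simp [IsRoot, hs.eq_zero])) i (by
      rw [natDegree_mul (X_sub_C_ne_zero t) hq, natDegree_X_sub_C] at hn; omega)
    have h3 : v t ≤ v (a - t) := by
      have : t = a - (a - t) := by ring
      conv_lhs => rw [this]
      exact (Valuation.map_sub _ _ _).trans (max_le (ha.trans h1) le_rfl)
    rw [eval_mul, map_mul, eval_sub, eval_X, eval_C]
    cases i with
    | zero =>
      rw [mul_coeff_zero, map_mul]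
      simpa using mul_le_mul' h3 (h2 0)
    | succ i =>
      rw [coeff_X_sub_C_mul]
      refine (Valuation.map_sub _ _ _).trans (max_le ?_ ?_)
      · exact (h2 i).trans (le_mul_of_one_le_left' h1)
      · rw [map_mul]; exact mul_le_mul' h3 (h2 _)

/-- normalisation of a pair of polynomials -/
theorem exists_prim (A B : K[X]) (hAB : A ≠ 0 ∨ B ≠ 0) :
    ∃ (s : K) (A' B' : v.integer[X]), s ≠ 0 ∧ A = C s * A'.map v.integer.subtype ∧
      B = C s * B'.map v.integer.subtype ∧ ((∃ i, A'.coeff i = 1) ∨ ∃ i, B'.coeff i = 1) := by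
  classical
  have hne : (A.coeffs ∪ B.coeffs).Nonempty := by
    rcases hAB with h | h
    · exact ⟨_, Finset.mem_union_left _ (coeff_mem_coeffs (leadingCoeff_ne_zero.mpr h))⟩
    · exact ⟨_, Finset.mem_union_right _ (coeff_mem_coeffs (leadingCoeff_ne_zero.mpr h))⟩
  obtain ⟨s, hs, hmax⟩ := (A.coeffs ∪ B.coeffs).exists_max_image v hne
  have hs0 : s ≠ 0 := by
    rintro rfl
    rcases Finset.mem_union.mp hs with h | h <;>
    · obtain ⟨i, h1, h2⟩ := mem_coeffs_iff.mp h
      exact mem_support_iff.mp h1 h2.symm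
  have key : ∀ D : K[X], D.coeffs ⊆ A.coeffs ∪ B.coeffs → ∃ D' : v.integer[X],
      D = C s * D'.map v.integer.subtype ∧ (s ∈ D.coeffs → ∃ i, D'.coeff i = 1) := by
    intro D hD
    have h1 : C s⁻¹ * D ∈ lifts v.integer.subtype := by
      rw [lifts_iff_coeff_lifts]
      intro i
      refine ⟨⟨(C s⁻¹ * D).coeff i, ?_⟩, rfl⟩
      rw [Valuation.mem_integer_iff, coeff_C_mul, map_mul, map_inv₀]
      by_cases h0 : D.coeff i = 0
      · simp [h0]
      · rw [inv_mul_le_iff₀ (by simpa [pos_iff_ne_zero] using hs0), mul_one]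
        exact hmax _ (hD (coeff_mem_coeffs h0))
    obtain ⟨D', hD'⟩ := h1
    rw [coe_mapRingHom] at hD'
    refine ⟨D', by rw [hD', ← mul_assoc, ← C_mul, mul_inv_cancel₀ hs0]; simp, fun hsD => ?_⟩
    obtain ⟨i, -, hi⟩ := mem_coeffs_iff.mp hsD
    refine ⟨i, Subtype.ext ?_⟩
    have := congrArg (coeff · i) hD'
    simp only [coeff_map, coeff_C_mul, ← hi, inv_mul_cancel₀ hs0] at this
    exact this
  obtain ⟨A', hA, hA'⟩ := key A Finset.subset_union_left
  obtain ⟨B', hB, hB'⟩ := key B Finset.subset_union_right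
  exact ⟨s, A', B', hs0, hA, hB, (Finset.mem_union.mp hs).imp hA' hB'⟩

end gauss

variable {Ω K : Type*} [Field Ω] [IsAlgClosed Ω] [Field K] [Algebra Ω K]
  [Algebra (RatFunc Ω) K] [IsScalarTower Ω (RatFunc Ω) K] [FiniteDimensional (RatFunc Ω) K]
  [Algebra.IsSeparable (RatFunc Ω) K]
  {k κ : Type*} [Field k] [IsAlgClosed k] [Field κ] [Algebra k κ]
  [Algebra (RatFunc k) κ] [IsScalarTower k (RatFunc k) κ] [FiniteDimensional (RatFunc k) κ]
  [Algebra.IsSeparable (RatFunc k) κ]
  {Γ : Type*} [LinearOrderedCommGroupWithZero Γ] {v : Valuation Ω Γ} (r : v.integer →+* k)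

/-- `r` is the residue map -/
structure Rd : Prop where
  surj : Function.Surjective r
  ker : ∀ a, r a = 0 ↔ v (a : Ω) < 1

/-- the residue, as a function on the field -/
noncomputable def rC (c : Ω) : k := by
  classical
  exact if h : v c ≤ 1 then r ⟨c, h⟩ else 0

theorem rC_coe (a : v.integer) : rC r (a : Ω) = r a := by
  have h : v (a : Ω) ≤ 1 := a.2
  unfold rC; rw [dif_pos h]

variable (k) in
/-- a place at infinity -/
noncomputable def oo (xb : κ) : Pl k κ := Classical.epsilon fun P : Pl k κ => 1 < P.v xb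

/-- the specialisation of places -/
noncomputable def sp (H : k[X]) (x w : K) (xb wb : κ) (P : Pl Ω K) : Pl k κ := by
  classical
  exact if P.v x ≤ 1 ∧ v (ev P x) ≤ 1 then
    pt xb wb (rC r (ev P x)) (rC r (ev P w) / H.eval (rC r (ev P x))) else oo k xb

/-- the data of a component -/
structure SpD (F : v.integer[X]) (H E : k[X]) (x w : K) (xb wb : κ) : Prop where
  rd : Rd r
  hyp : Hyp (F.map v.integer.subtype) x w
  hyb : Hyp E xb wb
  red : F.map r = H ^ 2 * E
  H0 : H ≠ 0
  root : ∀ t, H.eval t = 0 → E.eval t = 0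
  odd : Odd E.natDegree

variable {r}

theorem Rd.eq_iff (h : Rd r) (a b : v.integer) : r a = r b ↔ v ((a : Ω) - b) < 1 := by
  rw [← sub_eq_zero, ← map_sub, h.ker]; rfl

theorem eval_coe (A : v.integer[X]) (a : v.integer) :
    (A.map v.integer.subtype).eval (a : Ω) = ((A.eval a : v.integer) : Ω) := by
  have : (a : Ω) = v.integer.subtype a := rfl
  rw [this, eval_map, eval₂_hom]; rfl

theorem eval_red (A : v.integer[X]) (a : v.integer) : (A.map r).eval (r a) = r (A.eval a) := by
  rw [eval_map, eval₂_hom]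

namespace SpD

variable {F : v.integer[X]} {H E : k[X]} {x w : K} {xb wb : κ} (h : SpD r F H E x w xb wb)
include h

theorem oo_spec : 1 < (oo k xb).v xb := Classical.epsilon_spec h.hyb.exists_inf

theorem sq_int {P : Pl Ω K} {a b : v.integer} (hP : At P x w a b) : b ^ 2 = F.eval a := by
  apply Subtype.ext
  have := hP.sq h.hyp.sq
  rwa [eval_coe] at this

theorem sq_red {a b : v.integer} (hb : b ^ 2 = F.eval a) :
    (r b / H.eval (r a)) ^ 2 = E.eval (r a) := by
  by_cases h0 : H.eval (r a) = 0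
  · rw [h.root _ h0, h0]; simp
  · have h1 := eval_red (r := r) F a
    rw [h.red, ← hb, eval_mul, eval_pow, map_pow] at h1
    rw [div_pow, ← h1]; field_simp

theorem sp_at {P : Pl Ω K} {a b : v.integer} (hP : At P x w a b) :
    sp r H x w xb wb P = pt xb wb (r a) (r b / H.eval (r a)) := by
  unfold sp
  rw [ev_eq P hP.1, ev_eq P hP.2, if_pos ⟨hP.x_le, a.2⟩, rC_coe, rC_coe]

theorem exists_int {P : Pl Ω K} (h1 : P.v x ≤ 1) (h2 : v (ev P x) ≤ 1) :
    ∃ a b : v.integer, At P x w a b := by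
  have hA := h.hyp.at_ev h1
  have h3 := hA.sq h.hyp.sq
  have h4 := eval_coe F ⟨ev P x, h2⟩
  have h5 : v (ev P w) ≤ 1 := by
    have h6 : v (ev P w ^ 2) ≤ 1 := by
      have h7 : v ((F.eval (⟨ev P x, h2⟩ : v.integer) : v.integer) : Ω) ≤ 1 :=
        (F.eval (⟨ev P x, h2⟩ : v.integer)).2
      rw [h3]; exact h4 ▸ h7
    rw [map_pow] at h6
    exact (pow_le_one_iff (by norm_num)).mp h6
  exact ⟨⟨_, h2⟩, ⟨_, h5⟩, hA⟩

theorem sp_cases (P : Pl Ω K) :
    (∃ a b : v.integer, At P x w a b) ∨ sp r H x w xb wb P = oo k xb := by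
  by_cases h1 : P.v x ≤ 1 ∧ v (ev P x) ≤ 1
  · exact Or.inl (h.exists_int h1.1 h1.2)
  · right; unfold sp; rw [if_neg h1]

/-- the fibre over an affine point -/
theorem fibre {p : Pl k κ} {α β : k} (hp : At p xb wb α β) {P : Pl Ω K}
    (hP : sp r H x w xb wb P = p) :
    ∃ a b : v.integer, At P x w a b ∧ r a = α ∧ r b / H.eval α = β := by
  rcases h.sp_cases P with ⟨a, b, hA⟩ | h1
  · rw [h.sp_at hA, h.hyb.pt_eq_iff hp (h.sq_red (h.sq_int hA))] at hP
    exact ⟨a, b, hA, hP.1, hP.1 ▸ hP.2⟩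
  · rw [h1] at hP
    exact absurd (hP ▸ hp.x_le) (not_le.mpr h.oo_spec)

theorem sp_lin (t : v.integer) {p : Pl k κ} {α β : k} (hp : At p xb wb α β) :
    (divf (k := Ω) (x - algebraMap Ω K t)).mapDomain (sp r H x w xb wb) p =
      divf (k := k) (xb - algebraMap k κ (r t)) p := by
  obtain ⟨s0, hs0⟩ := IsAlgClosed.exists_pow_nat_eq ((F.map v.integer.subtype).eval (t : Ω)) two_pos
  have hP := h.hyp.at_pt hs0
  obtain ⟨a, s, hA⟩ := h.exists_int hP.x_le (by rw [ev_eq _ hP.1]; exact t.2)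
  obtain ⟨h1, h2⟩ := hA.eq hP
  obtain rfl : a = t := Subtype.ext h1
  subst h2
  have hs0' : ((-s : v.integer) : Ω) ^ 2 = (F.map v.integer.subtype).eval (a : Ω) := by
    rw [← hs0]; simp
  have hP' := h.hyp.at_pt hs0'
  rw [h.hyp.div_x hs0, h.hyb.div_x (h.sq_red (h.sq_int hP)), mapDomain_sub', Finsupp.mapDomain_add,
    Finsupp.mapDomain_single, Finsupp.mapDomain_single, h.sp_at hP]
  have e : -(s : Ω) = ((-s : v.integer) : Ω) := rfl
  rw [e, h.sp_at hP', map_neg, neg_div, Finsupp.sub_apply, Finsupp.sub_apply,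
    Dinf_of_le h.hyb.x_ne hp.x_le, mapDomain_eq_zero_of]
  intro P hP
  obtain ⟨a, b, hA, -⟩ := h.fibre hp hP
  exact Dinf_of_le h.hyp.x_ne hA.x_le

theorem sp_poly {p : Pl k κ} {α β : k} (hp : At p xb wb α β) (N : v.integer[X])
    (hN : N.map r ≠ 0) :
    (divf (k := Ω) (aeval x (N.map v.integer.subtype))).mapDomain (sp r H x w xb wb) p =
      divf (k := k) (aeval xb (N.map r)) p := by
  obtain ⟨a0, rfl⟩ := h.rd.surj α
  have hinj : Function.Injective v.integer.subtype := Subtype.val_injective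
  induction hn : N.natDegree using Nat.strong_induction_on generalizing N with
  | _ n ih =>
  have hN0 : N ≠ 0 := by rintro rfl; simp at hN
  by_cases hex : ∃ t : Ω, (N.map v.integer.subtype).IsRoot t ∧ v (a0 - t) < 1
  · obtain ⟨t0, ht, ht'⟩ := hex
    have h1 : v t0 ≤ 1 := by
      have : t0 = a0 - (a0 - t0) := by ring
      rw [this]
      exact (Valuation.map_sub _ _ _).trans (max_le a0.2 ht'.le)
    obtain ⟨t, rfl⟩ : ∃ t : v.integer, (t : Ω) = t0 := ⟨⟨t0, h1⟩, rfl⟩
    have h2 : N.IsRoot t := by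
      apply Subtype.ext
      rw [← eval_coe]; exact ht
    obtain ⟨N', rfl⟩ := dvd_iff_isRoot.mpr h2
    have hN' : N' ≠ 0 := right_ne_zero_of_mul hN0
    have hN'r : N'.map r ≠ 0 := by
      intro h0; apply hN; rw [Polynomial.map_mul, h0, mul_zero]
    have h3 := ih N'.natDegree (by
      rw [natDegree_mul (X_sub_C_ne_zero t) hN', natDegree_X_sub_C] at hn; omega) N' hN'r rfl
    simp only [Polynomial.map_mul, Polynomial.map_sub, map_X, map_C, map_mul, map_sub, aeval_X,
      aeval_C]
    rw [divf_mul (h.hyp.x_sub_ne _) (h.hyp.aeval_ne ((Polynomial.map_ne_zero_iff hinj).mpr hN')),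
      divf_mul (h.hyb.x_sub_ne _) (h.hyb.aeval_ne hN'r), Finsupp.mapDomain_add, Finsupp.add_apply,
      Finsupp.add_apply, h3]
    congr 1
    exact h.sp_lin t hp
  · push Not at hex
    have h1 : (N.map r).eval (r a0) ≠ 0 := by
      rw [eval_red, Ne, h.rd.ker, ← eval_coe, not_lt]
      obtain ⟨i, hi⟩ : ∃ i, (N.map r).coeff i ≠ 0 := ⟨_, leadingCoeff_ne_zero.mpr hN⟩
      rw [coeff_map, Ne, h.rd.ker, not_lt] at hi
      refine hi.trans ?_
      have := coeff_le_eval v a0.2 _ hex i
      rwa [coeff_map] at this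
    rw [(v_eq_one_iff (h.hyb.aeval_ne hN) p).mp (hp.aeval_eq_one h1)]
    apply mapDomain_eq_zero_of
    intro P hP
    obtain ⟨a, b, hA, ha, -⟩ := h.fibre hp hP
    refine (v_eq_one_iff (h.hyp.aeval_ne ((Polynomial.map_ne_zero_iff hinj).mpr hN0)) P).mp
      (hA.aeval_eq_one fun h0 => ?_)
    exact absurd ((h.rd.eq_iff a0 a).mp ha.symm) (not_lt.mpr (hex a h0))

omit h in
theorem el_red (A B : k[X]) : el xb (aeval xb H * wb) A B = el xb wb A (B * H) := by
  simp only [el, map_mul]; ring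

theorem sq_red' : (aeval xb H * wb) ^ 2 = aeval xb (F.map r) := by
  rw [h.red, mul_pow, h.hyb.sq]; simp

theorem red_ne {A B : v.integer[X]} (hAB : A.map r ≠ 0 ∨ B.map r ≠ 0) :
    el xb wb (A.map r) (B.map r * H) ≠ 0 :=
  h.hyb.el_ne (hAB.imp id fun h1 => mul_ne_zero h1 h.H0)

theorem up_ne {A B : v.integer[X]} (hAB : A.map r ≠ 0 ∨ B.map r ≠ 0) :
    el x w (A.map v.integer.subtype) (B.map v.integer.subtype) ≠ 0 := by
  have hinj : Function.Injective v.integer.subtype := Subtype.val_injective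
  refine h.hyp.el_ne (hAB.imp ?_ ?_) <;>
  · intro h1
    rw [Polynomial.map_ne_zero_iff hinj]
    rintro rfl
    simp at h1

theorem sp_le {p : Pl k κ} {α β : k} (hp : At p xb wb α β) (hβ : β ≠ 0) (n : ℕ) :
    ∀ A B : v.integer[X], (A.map r ≠ 0 ∨ B.map r ≠ 0) →
      (divf (k := Ω) (el x w (A.map v.integer.subtype) (B.map v.integer.subtype))).mapDomain
        (sp r H x w xb wb) p ≤ n →
      (divf (k := Ω) (el x w (A.map v.integer.subtype) (B.map v.integer.subtype))).mapDomain
        (sp r H x w xb wb) p ≤ divf (k := k) (el xb wb (A.map r) (B.map r * H)) p := by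
  induction n with
  | zero =>
    intro A B hAB h0
    exact h0.trans ((v_le_one_iff (h.red_ne hAB) p).mp (hp.el_le _ _))
  | succ n ih =>
    intro A B hAB hn
    by_cases h0 : (divf (k := Ω) (el x w (A.map v.integer.subtype)
        (B.map v.integer.subtype))).mapDomain (sp r H x w xb wb) p ≤ 0
    · exact h0.trans ((v_le_one_iff (h.red_ne hAB) p).mp (hp.el_le _ _))
    obtain ⟨P, hP, hpos⟩ := exists_pos_of_mapDomain_pos _ _ (not_le.mp h0)
    obtain ⟨a, b, hA, rfl, hb⟩ := h.fibre hp hP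
    have hH : H.eval (r a) ≠ 0 := by
      intro h1; rw [h1, div_zero] at hb; exact hβ hb.symm
    have hb' : r b = β * H.eval (r a) := by rw [← hb, div_mul_cancel₀ _ hH]
    have h1 : A.eval a + B.eval a * b = 0 := by
      apply Subtype.ext
      have := hA.el_lt_iff.mp ((v_lt_one_iff (h.up_ne hAB) P).mpr hpos)
      rwa [eval_coe, eval_coe] at this
    obtain ⟨A', B', e1, e2⟩ := div1 (h.sq_int hA) h1
    have u1 := congrArg (Polynomial.map v.integer.subtype) e1
    have u2 := congrArg (Polynomial.map v.integer.subtype) e2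
    have d1 := congrArg (Polynomial.map r) e1
    have d2 := congrArg (Polynomial.map r) e2
    simp only [Polynomial.map_add, Polynomial.map_mul, Polynomial.map_sub, map_X, map_C]
      at u1 u2 d1 d2
    have u3 := el_div1 h.hyp.sq u1 u2
    have d3 := el_div1 h.sq_red' d1 d2
    simp only [el_red, zero_mul, one_mul] at d3
    have hval : (C (r b)).eval (r a) + H.eval (r a) * β ≠ 0 := by
      rw [eval_C, hb', mul_comm β, ← two_mul]
      exact mul_ne_zero h.hyb.two (mul_ne_zero hH hβ)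
    have hU : el xb wb (C (r b)) H ≠ 0 := h.hyb.el_ne (Or.inr h.H0)
    have hAB' : A'.map r ≠ 0 ∨ B'.map r ≠ 0 := by
      by_contra hcon
      push Not at hcon
      rw [hcon.1, hcon.2, zero_mul, el_zero xb wb 0, map_zero, mul_zero] at d3
      exact mul_ne_zero (h.red_ne hAB) hU d3
    have hU' : el x w (C (v.integer.subtype b)) 1 ≠ 0 := h.hyp.el_ne (Or.inr one_ne_zero)
    have u4 := congrArg (fun f => (divf (k := Ω) f).mapDomain (sp r H x w xb wb) p) u3
    have d4 := congrArg (fun f => divf (k := k) f p) d3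
    simp only [el_zero, map_sub, aeval_X, aeval_C] at u4 d4
    rw [divf_mul (h.up_ne hAB) hU', divf_mul (h.hyp.x_sub_ne _) (h.up_ne hAB'),
      Finsupp.mapDomain_add, Finsupp.mapDomain_add, Finsupp.add_apply, Finsupp.add_apply] at u4
    rw [divf_mul (h.red_ne hAB) hU, divf_mul (h.hyb.x_sub_ne _) (h.red_ne hAB'), Finsupp.add_apply,
      Finsupp.add_apply, (v_eq_one_iff hU p).mp (hp.el_eq_one hval), h.hyb.ord_x hp hβ] at d4
    have u5 : (divf (k := Ω) (el x w (C (v.integer.subtype b)) 1)).mapDomain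
        (sp r H x w xb wb) p = 0 := by
      apply mapDomain_eq_zero_of
      intro P' hP'
      obtain ⟨a', b', hA', -, hb2⟩ := h.fibre hp hP'
      refine (v_eq_one_iff hU' P').mp (hA'.el_eq_one fun h2 => hval ?_)
      have h3 : b + b' = 0 := Subtype.ext (by simpa using h2)
      have h4 := congrArg r h3
      rw [map_add, map_zero] at h4
      rw [eval_C, ← hb2, mul_div_cancel₀ _ hH, h4]
    have u6 := h.sp_lin a hp
    rw [h.hyb.ord_x hp hβ] at u6
    have u7 : v.integer.subtype a = (a : Ω) := rfl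
    rw [u5, u7, u6] at u4
    have := ih A' B' hAB' (by push_cast at hn; omega)
    omega

theorem siota_siota (P : Pl Ω K) : h.hyp.siota.pl (h.hyp.siota.pl P) = P := by
  ext f; rw [h.hyp.siota_v, h.hyp.siota_v, h.hyp.iota_iota]

theorem sp_aff {p : Pl k κ} {α β : k} (hp : At p xb wb α β) {A B : v.integer[X]}
    (hAB : A.map r ≠ 0 ∨ B.map r ≠ 0) :
    (divf (k := Ω) (el x w (A.map v.integer.subtype) (B.map v.integer.subtype))).mapDomain
        (sp r H x w xb wb) p = divf (k := k) (el xb wb (A.map r) (B.map r * H)) p := by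
  have hAB' : A.map r ≠ 0 ∨ (-B).map r ≠ 0 := by simpa using hAB
  have d1 := el_norm h.sq_red' (A.map r) (B.map r)
  have u1 := el_norm h.hyp.sq (A.map v.integer.subtype) (B.map v.integer.subtype)
  rw [el_red, el_red, ← Polynomial.map_neg] at d1
  rw [← Polynomial.map_neg] at u1
  have hN : (A ^ 2 - B ^ 2 * F).map r ≠ 0 := by
    intro h0
    simp only [Polynomial.map_sub, Polynomial.map_mul, Polynomial.map_pow] at h0
    rw [h0, map_zero] at d1
    exact mul_ne_zero (h.red_ne hAB) (h.red_ne hAB') d1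
  have h1 := h.sp_poly hp _ hN
  simp only [Polynomial.map_sub, Polynomial.map_mul, Polynomial.map_pow] at h1
  rw [← d1, ← u1, divf_mul (h.up_ne hAB) (h.up_ne hAB'), divf_mul (h.red_ne hAB) (h.red_ne hAB'),
    Finsupp.mapDomain_add, Finsupp.add_apply, Finsupp.add_apply] at h1
  by_cases hβ : β = 0
  · subst hβ
    have h2 : h.hyb.siota.pl p = p := h.hyb.at_unique (by simpa using hp.iota h.hyb) hp
    have h3 : divf (k := k) (el xb wb (A.map r) ((-B).map r * H)) p =
        divf (k := k) (el xb wb (A.map r) (B.map r * H)) p := by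
      have e : el xb wb (A.map r) ((-B).map r * H) =
          h.hyb.siota.f (el xb wb (A.map r) (B.map r * H)) := by
        rw [Polynomial.map_neg, neg_mul]; exact (h.hyb.iota_el _ _).symm
      rw [e, SI.divf_f _ (h.red_ne hAB)]
      conv_lhs => rw [← h2]
      rw [SI.D_pl]
    have key : ∀ P, sp r H x w xb wb P = p → sp r H x w xb wb (h.hyp.siota.pl P) = p := by
      intro P hP
      obtain ⟨a, b, hA, rfl, hb⟩ := h.fibre hp hP
      have hA' : At (h.hyp.siota.pl P) x w (a : Ω) ((-b : v.integer) : Ω) := hA.iota h.hyp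
      rw [h.sp_at hA', map_neg, neg_div, hb, neg_zero, h.hyb.pt_eq hp]
    have h4 : (divf (k := Ω) (el x w (A.map v.integer.subtype)
        ((-B).map v.integer.subtype))).mapDomain (sp r H x w xb wb) p =
        (divf (k := Ω) (el x w (A.map v.integer.subtype)
        (B.map v.integer.subtype))).mapDomain (sp r H x w xb wb) p := by
      have e : el x w (A.map v.integer.subtype) ((-B).map v.integer.subtype) =
          h.hyp.siota.f (el x w (A.map v.integer.subtype) (B.map v.integer.subtype)) := by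
        rw [Polynomial.map_neg]; exact (h.hyp.iota_el _ _).symm
      rw [e, SI.divf_f _ (h.up_ne hAB)]
      unfold SI.D
      rw [Finsupp.domCongr_apply, Finsupp.equivMapDomain_eq_mapDomain, ← Finsupp.mapDomain_comp]
      apply mapDomain_congr_iff
      intro P
      refine ⟨fun h5 => ?_, key P⟩
      have := key _ h5
      rwa [SI.plEquiv_apply, h.siota_siota] at this
    omega
  · have h2 := h.sp_le hp hβ _ A B hAB (Int.self_le_toNat _)
    have h3 := h.sp_le hp hβ _ A (-B) hAB' (Int.self_le_toNat _)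
    omega

omit h in
theorem degD_map (f : Pl Ω K → Pl k κ) (D : Pl Ω K →₀ ℤ) : degD (D.mapDomain f) = degD D := by
  rw [degD_eq_sum, degD_eq_sum, sum_mapDomain]

/-- **specialisation of principal divisors** -/
theorem sp_el {A B : v.integer[X]} (hAB : A.map r ≠ 0 ∨ B.map r ≠ 0) :
    (divf (k := Ω) (el x w (A.map v.integer.subtype) (B.map v.integer.subtype))).mapDomain
        (sp r H x w xb wb) = divf (k := k) (el xb wb (A.map r) (B.map r * H)) := by
  classical
  set D1 := (divf (k := Ω) (el x w (A.map v.integer.subtype) (B.map v.integer.subtype))).mapDomain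
        (sp r H x w xb wb) with hD1
  set D2 := divf (k := k) (el xb wb (A.map r) (B.map r * H)) with hD2
  have h1 : D1 - D2 = Finsupp.single (oo k xb) ((D1 - D2) (oo k xb)) := by
    ext p
    by_cases hp : oo k xb = p
    · subst hp; simp
    · rw [Finsupp.single_apply, if_neg hp, Finsupp.sub_apply, sub_eq_zero]
      have h2 : p.v xb ≤ 1 := by
        by_contra h3
        exact hp (h.hyb.inf_unique h.odd h.oo_spec (not_le.mp h3))
      exact h.sp_aff (h.hyb.at_ev h2) hAB
  have h2 := congrArg degD h1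
  rw [degD_sub, hD1, degD_map, degD_divf (h.up_ne hAB), hD2, degD_divf (h.red_ne hAB), degD_single,
    degP_eq_one] at h2
  rw [← sub_eq_zero, h1]
  have h3 : (D1 - D2) (oo k xb) = 0 := by simpa using h2.symm
  rw [h3, Finsupp.single_zero]

theorem sp_prin {f : K} (hf : f ≠ 0) :
    ∃ g : κ, g ≠ 0 ∧ (divf (k := Ω) f).mapDomain (sp r H x w xb wb) = divf (k := k) g := by
  obtain ⟨A, B, c, hc, he⟩ := h.hyp.gen f
  have h0 : A ≠ 0 ∨ B ≠ 0 := by
    by_contra hcon
    push Not at hcon
    rw [hcon.1, hcon.2, el_zero, map_zero] at he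
    exact mul_ne_zero hf (h.hyp.aeval_ne hc) he
  have aux : ∀ D : v.integer[X], (∃ i, D.coeff i = 1) → D.map r ≠ 0 := by
    rintro D ⟨i, hi⟩ h1
    have := congrArg (coeff · i) h1
    simp [coeff_map, hi] at this
  obtain ⟨s, A', B', hs, rfl, rfl, h1⟩ := exists_prim v A B h0
  obtain ⟨s', c', d', hs', rfl, hd, h2⟩ := exists_prim v c 0 (Or.inl hc)
  have hAB : A'.map r ≠ 0 ∨ B'.map r ≠ 0 := h1.imp (aux _) (aux _)
  have hcd : c'.map r ≠ 0 ∨ d'.map r ≠ 0 := h2.imp (aux _) (aux _)
  have hd' : d'.map v.integer.subtype = 0 :=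
    (mul_eq_zero.mp hd.symm).resolve_left (by simpa using hs')
  have e : f = algebraMap Ω K (s / s') *
      (el x w (A'.map v.integer.subtype) (B'.map v.integer.subtype) /
        el x w (c'.map v.integer.subtype) (d'.map v.integer.subtype)) := by
    have h3 := h.up_ne hcd
    have h4 : algebraMap Ω K s' ≠ 0 := by simpa using hs'
    rw [hd', el_zero] at h3 ⊢
    simp only [el, map_mul, aeval_C] at he
    rw [map_div₀]
    unfold el
    field_simp
    linear_combination he
  refine ⟨_, div_ne_zero (h.red_ne hAB) (h.red_ne hcd), ?_⟩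
  rw [e, divf_mul (by simpa using ⟨hs, hs'⟩) (div_ne_zero (h.up_ne hAB) (h.up_ne hcd)),
    divf_const (div_ne_zero hs hs'), zero_add, divf_div (h.up_ne hAB) (h.up_ne hcd),
    divf_div (h.red_ne hAB) (h.red_ne hcd), mapDomain_sub', h.sp_el hAB, h.sp_el hcd]

/-- the specialisation of divisor classes -/
noncomputable def spPic : Pic Ω K →+ Pic k κ :=
  QuotientAddGroup.map (Prin Ω K) (Prin k κ) (Finsupp.mapDomain.addMonoidHom (sp r H x w xb wb)) (by
    rintro _ ⟨f, hf, rfl⟩
    obtain ⟨g, hg, he⟩ := h.sp_prin hf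
    exact ⟨g, hg, he.symm⟩)

theorem spPic_cls (D : Pl Ω K →₀ ℤ) :
    h.spPic (cls D) = cls (D.mapDomain (sp r H x w xb wb)) := rfl

theorem spPic_single (P : Pl Ω K) (n : ℤ) :
    h.spPic (cls (Finsupp.single P n)) = cls (Finsupp.single (sp r H x w xb wb P) n) := by
  rw [h.spPic_cls, Finsupp.mapDomain_single]

theorem exists_lift {α β : k} (hβ : β ^ 2 = E.eval α) (hH : H.eval α ≠ 0) {a : v.integer}
    (ha : r a = α) : ∃ (P : Pl Ω K) (b : v.integer), At P x w a b ∧
      sp r H x w xb wb P = pt xb wb α β := by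
  subst ha
  obtain ⟨s0, hs0⟩ := IsAlgClosed.exists_pow_nat_eq ((F.map v.integer.subtype).eval (a : Ω)) two_pos
  have hP := h.hyp.at_pt hs0
  obtain ⟨a', s, hA⟩ := h.exists_int hP.x_le (by rw [ev_eq _ hP.1]; exact a.2)
  obtain ⟨h1, h2⟩ := hA.eq hP
  obtain rfl : a' = a := Subtype.ext h1
  have h3 := h.sq_red (h.sq_int hA)
  rcases sq_eq_sq_iff_eq_or_eq_neg.mp (h3.trans hβ.symm) with h4 | h4
  · exact ⟨_, s, hA, by rw [h.sp_at hA, h4]⟩
  · have hA' : At (h.hyp.siota.pl _) x w (a' : Ω) ((-s : v.integer) : Ω) := hA.iota h.hyp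
    exact ⟨_, -s, hA', by rw [h.sp_at hA', map_neg, neg_div, h4, neg_neg]⟩

end SpD

end Crest.Agent.T15.Hy
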