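import Mathlib
import Crest.Agent.T15.F3Def_90
import Crest.Agent.T15.Sp_90
import Crest.Agent.T15.Src_71

/-!
# Row 15, block F (helper90): the Weil pairing is integral on charts (`flat_of_mov`)
-/

set_option autoImplicit false
set_option linter.all false

namespace Crest.Agent.T15.F3

open Polynomial WithZero Module
open scoped NNReal
open Crest.Agent.R013.RR7_948 Crest.Agent.R013.RR8_948 Crest.Agent.R013.RR9_948
open Crest.Agent.R013.RR11_948 Crest.Agent.R013.RR12_948 Crest.Agent.R013.PicD_398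
open Crest.Agent.R013.GR2_921 Crest.Agent.R013.Frob1_914 Crest.Agent.T15.Hy
open Crest.Agent.T15.Disc Crest.Agent.T15.FlR

variable {Om K : Type*} [Field Om] [IsAlgClosed Om] [Field K] [Algebra Om K]
  [Algebra (RatFunc Om) K] [IsScalarTower Om (RatFunc Om) K] [FiniteDimensional (RatFunc Om) K]
  [Algebra.IsSeparable (RatFunc Om) K] {v : Valuation Om ℝ≥0}

/-- integral polynomial -/
def Itg (v : Valuation Om ℝ≥0) (p : Om[X]) : Prop := ∀ i, v (p.coeff i) ≤ 1

theorem int_map (p : v.integer[X]) : Itg v (p.map v.integer.subtype) := fun i => by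
  rw [coeff_map]; exact (p.coeff i).2

theorem Itg.eval_le {p : Om[X]} (hp : Itg v p) {a : Om} (ha : v a ≤ 1) : v (p.eval a) ≤ 1 := by
  rw [eval_eq_sum_range]
  apply Valuation.map_sum_le
  intro i _
  rw [map_mul, map_pow]
  exact mul_le_one' (hp i) (pow_le_one' ha i)

/-- `a` is not congruent to the `x`-coordinates of the zeros and poles of `f` -/
def Far (v : Valuation Om ℝ≥0) (x f : K) (a : Om) : Prop :=
  ∀ R : Pl Om K, R.v x ≤ 1 → divf (k := Om) f R ≠ 0 → 1 ≤ v (a - ev R x)

theorem one_le_of_congr {a a' t : Om} (h : 1 ≤ v (a - t)) (h' : v (a' - a) < 1) : 1 ≤ v (a' - t) := by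
  have : a' - t = (a - t) + (a' - a) := by ring
  rw [this, Valuation.map_add_eq_of_lt_left _ (lt_of_lt_of_le h' h)]
  exact h

theorem Far.congr {x f : K} {a a' : Om} (h : Far v x f a) (h' : v (a' - a) < 1) : Far v x f a' :=
  fun R h1 h2 => one_le_of_congr (h R h1 h2) h'

theorem Chart.key {F : Om[X]} {x w : K} (h : Chart v F x w) {f : K} (hf : f ≠ 0) :
    ∃ (s : Om) (A B c : Om[X]), s ≠ 0 ∧ Itg v A ∧ Itg v B ∧ Itg v c ∧
      f * aeval x c = algebraMap Om K s * el x w A B ∧
      ∀ a, v a ≤ 1 → Far v x f a → v (c.eval a) = 1 ∧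
        v (A.eval a ^ 2 - B.eval a ^ 2 * F.eval a) = 1 := by
  classical
  set T := (divf (k := Om) f).support.filter fun R => R.v x ≤ 1 with hT
  set c0 : Om[X] := ∏ R ∈ T, (X - C (ev R x)) ^ (divf (k := Om) f R).natAbs with hc0
  have hc00 : c0 ≠ 0 := Finset.prod_ne_zero_iff.mpr fun R _ => pow_ne_zero _ (X_sub_C_ne_zero _)
  have hroot : ∀ t, c0.eval t = 0 → ∃ R : Pl Om K, R.v x ≤ 1 ∧ divf (k := Om) f R ≠ 0 ∧ t = ev R x := by
    intro t ht
    rw [hc0, eval_prod, Finset.prod_eq_zero_iff] at ht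
    obtain ⟨R, hR, h0⟩ := ht
    rw [hT, Finset.mem_filter, Finsupp.mem_support_iff] at hR
    refine ⟨R, hR.2, hR.1, ?_⟩
    rw [eval_pow] at h0
    simpa [sub_eq_zero] using (pow_eq_zero_iff'.mp h0).1
  obtain ⟨A0, B0, he⟩ := h.hyp.exists_el (f := f * aeval x c0) fun P hP => by
    by_cases h0 : divf (k := Om) f P = 0
    · rw [map_mul, (v_eq_one_iff hf P).mpr h0, one_mul]; exact v_aeval_le_one P hP _
    · have h1 : P ∈ T := by rw [hT, Finset.mem_filter, Finsupp.mem_support_iff]; exact ⟨h0, hP⟩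
      rw [hc0, ← Finset.mul_prod_erase _ _ h1, map_mul (aeval x), ← mul_assoc, map_mul]
      refine mul_le_one' ?_ (v_aeval_le_one P hP _)
      have h2 := (v_lt_one_iff (h.hyp.x_sub_ne (ev P x)) P).mp (ev_spec P hP)
      simp only [map_pow, map_sub, aeval_X, aeval_C]
      rw [v_le_one_iff (mul_ne_zero hf (pow_ne_zero _ (h.hyp.x_sub_ne _))),
        divf_mul hf (pow_ne_zero _ (h.hyp.x_sub_ne _)), divf_pow (h.hyp.x_sub_ne _),
        Finsupp.add_apply, Finsupp.smul_apply, nsmul_eq_mul]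
      have h3 : -divf (k := Om) f P ≤ ((divf (k := Om) f P).natAbs : ℤ) := by omega
      have h4 : (0 : ℤ) ≤ ((divf (k := Om) f P).natAbs : ℤ) := by omega
      nlinarith
  have h0 : A0 ≠ 0 ∨ B0 ≠ 0 := by
    by_contra hcon
    push Not at hcon
    rw [hcon.1, hcon.2, el_zero, map_zero] at he
    exact mul_ne_zero hf (h.hyp.aeval_ne hc00) he
  obtain ⟨s, A, B, hs, rfl, rfl, h1⟩ := exists_prim v A0 B0 h0
  obtain ⟨s', c, d, hs', hc, hd, h2⟩ := exists_prim v c0 0 (Or.inl hc00)
  have hd' : d.map v.integer.subtype = 0 :=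
    (mul_eq_zero.mp hd.symm).resolve_left (by simpa using hs')
  have hc1 : ∃ i, (c.map v.integer.subtype).coeff i = 1 := by
    rcases h2 with ⟨i, hi⟩ | ⟨i, hi⟩
    · exact ⟨i, by simp [coeff_map, hi]⟩
    · have := congrArg (coeff · i) hd'
      simp [coeff_map, hi] at this
  have hs'' : algebraMap Om K s' ≠ 0 := by simpa using hs'
  have he' : f * aeval x (c.map v.integer.subtype) = algebraMap Om K (s / s') *
      el x w (A.map v.integer.subtype) (B.map v.integer.subtype) := by
    rw [hc] at he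
    simp only [el, map_mul, aeval_C] at he
    rw [map_div₀]
    unfold el
    field_simp
    linear_combination he
  have hroot' : ∀ t, (c.map v.integer.subtype).eval t = 0 →
      ∃ R : Pl Om K, R.v x ≤ 1 ∧ divf (k := Om) f R ≠ 0 ∧ t = ev R x := fun t ht =>
    hroot t (by rw [hc, eval_mul, ht, mul_zero])
  refine ⟨s / s', _, _, _, div_ne_zero hs hs', int_map A, int_map B, int_map c, he', ?_⟩
  intro a ha hfar
  constructor
  · refine le_antisymm ((int_map c).eval_le ha) ?_
    obtain ⟨i, hi⟩ := hc1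
    have := coeff_le_eval v ha (c.map v.integer.subtype) (fun t ht => by
      obtain ⟨R, h3, h4, rfl⟩ := hroot' t ht
      exact hfar R h3 h4) i
    rwa [hi, map_one] at this
  · refine le_antisymm ?_ ?_
    · refine (Valuation.map_sub _ _ _).trans (max_le ?_ ?_)
      · rw [map_pow]; exact pow_le_one' ((int_map A).eval_le ha) 2
      · rw [map_mul, map_pow]
        exact mul_le_one' (pow_le_one' ((int_map B).eval_le ha) 2) (Itg.eval_le h.int ha)
    · obtain ⟨i, hi⟩ : ∃ i, 1 ≤ v (((A.map v.integer.subtype) ^ 2 -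
          (B.map v.integer.subtype) ^ 2 * F).coeff i) := by
        by_contra hcon
        push Not at hcon
        have h3 := h.nsq _ _ (int_map A) (int_map B) hcon
        rcases h1 with ⟨i, hi⟩ | ⟨i, hi⟩
        · have := (h3 i).1; simp [coeff_map, hi] at this
        · have := (h3 i).2; simp [coeff_map, hi] at this
      refine hi.trans ?_
      have := coeff_le_eval v ha ((A.map v.integer.subtype) ^ 2 -
          (B.map v.integer.subtype) ^ 2 * F) (fun t ht => by
        obtain ⟨β, hβ⟩ := IsAlgClosed.exists_pow_nat_eq (F.eval t) two_pos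
        have h3 : ∃ β', β' ^ 2 = F.eval t ∧ (A.map v.integer.subtype).eval t +
            (B.map v.integer.subtype).eval t * β' = 0 := by
          have h4 : ((A.map v.integer.subtype).eval t + (B.map v.integer.subtype).eval t * β) *
              ((A.map v.integer.subtype).eval t + (B.map v.integer.subtype).eval t * (-β)) = 0 := by
            have h5 := ht.eq_zero
            simp only [eval_sub, eval_mul, eval_pow, ← hβ] at h5
            linear_combination h5
          rcases mul_eq_zero.mp h4 with h5 | h5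
          · exact ⟨β, hβ, h5⟩
          · exact ⟨-β, by rw [neg_sq, hβ], h5⟩
        obtain ⟨β', hβ', h4⟩ := h3
        have hR := h.hyp.at_pt hβ'
        by_cases h5 : (c.map v.integer.subtype).eval t = 0
        · obtain ⟨R, h6, h7, rfl⟩ := hroot' t h5
          exact hfar R h6 h7
        · have h6 := hfar _ hR.x_le (by
            intro h7
            have h8 := congrArg (pt x w t β').v he'
            rw [map_mul, map_mul, (v_eq_one_iff hf _).mpr h7, hR.aeval_eq_one h5,
              Pl.const _ _ (div_ne_zero hs hs'), one_mul, one_mul] at h8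
            exact absurd (hR.el_lt_iff.mpr h4) (by rw [← h8]; exact lt_irrefl _))
          rwa [ev_eq _ hR.1] at h6) i
      simpa only [eval_sub, eval_mul, eval_pow] using this

theorem ev_of_eq {x w f : K} {Q : Pl Om K} {a b s : Om} {A B c : Om[X]} (hQ : At Q x w a b)
    (he : f * aeval x c = algebraMap Om K s * el x w A B) (hs : s ≠ 0) (hc : c.eval a ≠ 0)
    (hAB : A.eval a + B.eval a * b ≠ 0) :
    Q.v f = 1 ∧ ev Q f / s = (A.eval a + B.eval a * b) / c.eval a := by
  have h1 := congrArg Q.v he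
  rw [map_mul, map_mul, hQ.aeval_eq_one hc, Q.const _ hs, hQ.el_eq_one hAB, mul_one, mul_one] at h1
  refine ⟨h1, ?_⟩
  have h2 := congrArg (ev Q) he
  rw [ev_mul Q h1.le (v_aeval_le_one Q hQ.x_le c), ev_mul Q (v_const_le Q s) (hQ.el_le A B),
    ev_const, ev_eq Q (hQ.el_sub A B), ev_eq Q (v_aeval_sub Q hQ.1 c)] at h2
  field_simp
  linear_combination h2

theorem SI_aeval (e : SI Om K Om K) (x : K) (p : Om[X]) :
    e.f (aeval x p) = aeval (e.f x) (p.map (e.s : Om →+* Om)) :=
  Polynomial.map_aeval_eq_aeval_map (φ := (e.s : Om →+* Om)) (ψ := (e.f : K →+* K))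
    (by ext c; simp [e.comm]) p x

theorem unit_of_mul {a b : Om} (ha : v a ≤ 1) (hb : v b ≤ 1) (h : v (a * b) = 1) : v a = 1 := by
  refine le_antisymm ha ?_
  rw [← h, map_mul]
  exact mul_le_of_le_one_right' hb

section act

variable {G : Type*} [Group G] [MulSemiringAction G Om] {e : G → SI Om K Om K}

theorem map_mem_RR (hs : ∀ g a, (e g).s a = g • a) {p : Om[X]} (hp : Itg v p) {a : Om} (ha : v a ≤ 1) :
    (fun g => (p.map ((e g).s : Om →+* Om)).eval a) ∈ RR v G := by
  have := sum_mem' (Finset.range (p.natDegree + 1)) (F := fun i (g : G) => (g • p.coeff i) * a ^ i)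
    fun i _ => mul_mem' (G := G) (smul_mem (hp i)) (pow_mem' (const_mem ha) i)
  convert this using 2 with g
  rw [eval_map, eval₂_eq_sum_range]
  simp [hs]

theorem eval_mem_RR {p : Om[X]} (hp : Itg v p) {a : Om} (ha : v a ≤ 1) :
    (fun g : G => p.eval (g • a)) ∈ RR v G := by
  have := sum_mem' (Finset.range (p.natDegree + 1)) (F := fun i (g : G) => p.coeff i * (g • a) ^ i)
    fun i _ => mul_mem' (const_mem (hp i)) (pow_mem' (smul_mem ha) i)
  convert this using 2 with g
  rw [eval_eq_sum_range]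

theorem Chart.ur {F : Om[X]} {x w : K} (h : Chart v F x w)
    (hiso : ∀ (g : G) (a : Om), v (g • a) = v a) (hres : ∀ (g : G) (a : Om), v a ≤ 1 → v (g • a - a) < 1)
    (horb : ∀ a : Om, (Set.range fun g : G => g • a).Finite) (hs : ∀ g a, (e g).s a = g • a)
    (hfix : ∀ g, (e g).f x = x ∧ (e g).f w = w) {f : K} (hf : f ≠ 0) :
    ∃ s : Om, s ≠ 0 ∧ ∀ Q : Pl Om K, Q.v x ≤ 1 → v (ev Q x) ≤ 1 → Far v x f (ev Q x) →
      (∀ g, Q.v ((e g).f f) = 1 ∧ ((e g).pl Q).v f = 1) ∧
      UR v G (fun g => ev Q ((e g).f f) / g • s) ∧ UR v G (fun g => ev ((e g).pl Q) f / s) := by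
  obtain ⟨s, A, B, c, hs0, hA, hB, hc, he, hu⟩ := h.key hf
  refine ⟨s, hs0, fun Q hQ ha hfar => ?_⟩
  have hAt := h.hyp.at_ev hQ
  set a := ev Q x
  set b := ev Q w
  have hb2 := hAt.sq h.hyp.sq
  have hb : v b ≤ 1 := by
    have := Itg.eval_le h.int ha
    rw [← hb2, map_pow] at this
    exact (pow_le_one_iff (by norm_num)).mp this
  have hmap : ∀ (g : G) (p : Om[X]) (t : Om),
      (p.map ((e g).s : Om →+* Om)).eval (g • t) = g • p.eval t := by
    intro g p t
    rw [← hs, ← hs, eval_map]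
    exact eval₂_hom ((e g).s : Om →+* Om) t
  have hF : ∀ g, F.map ((e g).s : Om →+* Om) = F := by
    intro g
    have h1 := SI_aeval (e g) x F
    rw [← h.hyp.sq, map_pow, (hfix g).1, (hfix g).2, h.hyp.sq] at h1
    exact (sub_eq_zero.mp (h.hyp.tr _ (by rw [map_sub, ← h1, sub_self])))
  -- the values at `g • (a, b)`
  have hval : ∀ g : G, v (c.eval (g • a)) = 1 ∧ v (A.eval (g • a) + B.eval (g • a) * g • b) = 1 ∧
      v (A.eval (g • a) + B.eval (g • a) * g • b) = 1 := by
    intro g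
    have h1 : v (g • a) ≤ 1 := by rw [hiso]; exact ha
    have h2 : v (g • b) ≤ 1 := by rw [hiso]; exact hb
    obtain ⟨h3, h4⟩ := hu _ h1 (hfar.congr (hres g a ha))
    have h5 : F.eval (g • a) = (g • b) ^ 2 := by
      conv_lhs => rw [← hF g]
      rw [hmap, ← hb2, smul_pow']
    have h6 : v (B.eval (g • a) * g • b) ≤ 1 := by
      rw [map_mul]; exact mul_le_one' (hB.eval_le h1) h2
    have h7 : v (A.eval (g • a) + B.eval (g • a) * g • b) = 1 := by
      refine unit_of_mul (b := A.eval (g • a) - B.eval (g • a) * g • b)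
        ((Valuation.map_add _ _ _).trans (max_le (hA.eval_le h1) h6))
        ((Valuation.map_sub _ _ _).trans (max_le (hA.eval_le h1) h6)) ?_
      rw [← h4, h5]; congr 1; ring
    exact ⟨h3, h7, h7⟩
  have hne : ∀ {t : Om}, v t = 1 → t ≠ 0 := by
    rintro t ht rfl; simp at ht
  have hval' : ∀ g : G, v ((c.map ((e g).s : Om →+* Om)).eval a) = 1 ∧
      v ((A.map ((e g).s : Om →+* Om)).eval a + (B.map ((e g).s : Om →+* Om)).eval a * b) = 1 := by
    intro g
    obtain ⟨h1, h2, -⟩ := hval g⁻¹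
    constructor
    · conv_lhs => rw [← smul_inv_smul g a]
      rw [hmap, hiso, h1]
    · conv_lhs => rw [← smul_inv_smul g a, ← smul_inv_smul g b]
      rw [hmap, hmap, ← smul_mul', ← smul_add, hiso, h2]
  have e1 : ∀ g : G, Q.v ((e g).f f) = 1 ∧ ev Q ((e g).f f) / g • s =
      ((A.map ((e g).s : Om →+* Om)).eval a + (B.map ((e g).s : Om →+* Om)).eval a * b) /
        (c.map ((e g).s : Om →+* Om)).eval a := by
    intro g
    refine ev_of_eq hAt ?_ ((smul_ne_zero_iff_ne g).mpr hs0) (hne (hval' g).1) (hne (hval' g).2)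
    have h1 := congrArg (e g).f he
    simp only [el, map_mul, map_add, SI_aeval, (hfix g).1, (hfix g).2, (e g).comm, hs] at h1
    exact h1
  have e2 : ∀ g : G, ((e g).pl Q).v f = 1 ∧ ev ((e g).pl Q) f / s =
      (A.eval (g • a) + B.eval (g • a) * g • b) / c.eval (g • a) := by
    intro g
    have h1 := hAt.SI (e g)
    rw [(hfix g).1, (hfix g).2, hs, hs] at h1
    exact ev_of_eq h1 he hs0 (hne (hval g).1) (hne (hval g).2.1)
  refine ⟨fun g => ⟨(e1 g).1, (e2 g).1⟩, ?_, ?_⟩
  · simp only [fun g => (e1 g).2]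
    exact UR.div horb ⟨add_mem' (map_mem_RR hs hA ha) (mul_mem' (map_mem_RR hs hB ha) (const_mem hb)),
      fun g => (hval' g).2⟩ ⟨map_mem_RR hs hc ha, fun g => (hval' g).1⟩
  · simp only [fun g => (e2 g).2]
    exact UR.div horb ⟨add_mem' (eval_mem_RR hA ha) (mul_mem' (eval_mem_RR hB ha) (smul_mem hb)),
      fun g => (hval g).2.1⟩ ⟨eval_mem_RR hc ha, fun g => (hval g).1⟩

end act

theorem supp_sum {ι : Type*} [Fintype ι] {P Q : ι → Pl Om K} {R : Pl Om K}
    (h : (∑ j, (Finsupp.single (P j) 1 - Finsupp.single (Q j) 1) : Pl Om K →₀ ℤ) R ≠ 0) :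
    ∃ j, R = P j ∨ R = Q j := by
  classical
  by_contra hcon
  push Not at hcon
  apply h
  rw [Finsupp.finsetSum_apply]
  refine Finset.sum_eq_zero fun j _ => ?_
  rw [Finsupp.sub_apply, Finsupp.single_apply, Finsupp.single_apply, if_neg (hcon j).1.symm,
    if_neg (hcon j).2.symm, sub_zero]

theorem ev_sum {ι : Type*} (s : Finset ι) (f : K) {P Q : ι → Pl Om K}
    (h : ∀ j, (P j).v f = 1 ∧ (Q j).v f = 1) :
    (Wp.ev f (∑ j ∈ s, (Finsupp.single (P j) 1 - Finsupp.single (Q j) 1)) : Om) =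
      ∏ j ∈ s, ev (P j) f / ev (Q j) f := by
  classical
  induction s using Finset.induction_on with
  | empty => simp
  | insert j s hj ih =>
    rw [Finset.sum_insert hj, Finset.prod_insert hj, Wp.ev_add, Units.val_mul, ih, Wp.ev_sub,
      Wp.ev_single, Wp.ev_single, zpow_one, zpow_one, Units.val_div_eq_div_val,
      coe_nrm_eq (h j).1, coe_nrm_eq (h j).2]

theorem wp_UR {G : Type*} [Group G] [MulSemiringAction G Om] {e : G → SI Om K Om K}
    (hiso : ∀ (g : G) (a : Om), v (g • a) = v a) (hres : ∀ (g : G) (a : Om), v a ≤ 1 → v (g • a - a) < 1)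
    (horb : ∀ a : Om, (Set.range fun g : G => g • a).Finite) (hs : ∀ g a, (e g).s a = g • a)
    {ι : Type*} [Fintype ι] {F : ι → Om[X]} {x w : ι → K} (hc : ∀ j, Chart v (F j) (x j) (w j))
    (hfix : ∀ g j, (e g).f (x j) = x j ∧ (e g).f (w j) = w j) (hm : Mov v x) {n : ℕ} (hn : n ≠ 0)
    {z y : Pic Om K} (hz : n • z = 0) (hy : n • y = 0) :
    UR v G (fun g => (Wp.wp n ((e g).pic z) y : Om)) := by
  classical
  obtain ⟨N, hN, hmov⟩ := hm
  have hP0 : ∀ {z : Pic Om K}, n • z = 0 → z ∈ Pic0 Om K := by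
    intro z hz
    have := congrArg (degPic (k := Om) (K := K)) hz
    rw [map_nsmul, map_zero] at this
    exact mem_Pic0.mpr (by simpa [hn] using this)
  obtain ⟨P, Q, hPQ, rfl⟩ := hmov z (hP0 hz) N
  obtain ⟨P', Q', hPQ', rfl⟩ := hmov y (hP0 hy) fun j => N j ∪
    (Finset.univ.image (fun l => ev (P l) (x j)) ∪ Finset.univ.image fun l => ev (Q l) (x j))
  obtain ⟨f, hf, hfD⟩ := Wp.exists_fun hz
  obtain ⟨f', hf', hfE⟩ := Wp.exists_fun hy
  choose s hs0 hu using fun j => (hc j).ur hiso hres horb hs (fun g => hfix g j) hf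
  choose s' hs0' hu' using fun j => (hc j).ur hiso hres horb hs (fun g => hfix g j) hf'
  have far1 : ∀ j (R' : Pl Om K), Gp v (x j) (N j ∪ (Finset.univ.image (fun l => ev (P l) (x j)) ∪
      Finset.univ.image fun l => ev (Q l) (x j))) R' → Far v (x j) f (ev R' (x j)) := by
    intro j R' hR' R _ hR
    rw [hfD, Finsupp.smul_apply] at hR
    obtain ⟨l, rfl | rfl⟩ := supp_sum (right_ne_zero_of_smul hR)
    · exact hR'.2.2 _ (by simp)
    · exact hR'.2.2 _ (by simp)
  have far2 : ∀ j (R0 : Pl Om K), Gp v (x j) (N j) R0 → (R0 = P j ∨ R0 = Q j) →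
      Far v (x j) f' (ev R0 (x j)) := by
    intro j R0 hR0 hR0' R hR1 hR
    rw [hfE, Finsupp.smul_apply] at hR
    obtain ⟨l, hl⟩ := supp_sum (right_ne_zero_of_smul hR)
    have hG : Gp v (x l) (N l ∪ (Finset.univ.image (fun l' => ev (P l') (x l)) ∪
        Finset.univ.image fun l' => ev (Q l') (x l))) R := by
      rcases hl with rfl | rfl
      · exact (hPQ' l).1
      · exact (hPQ' l).2
    by_cases hjl : j = l
    · subst hjl
      rw [Valuation.map_sub_swap]
      rcases hR0' with rfl | rfl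
      · exact hG.2.2 _ (by simp)
      · exact hG.2.2 _ (by simp)
    · have h1 := hN j l hjl R ⟨hG.1, hG.2.1, fun t ht => hG.2.2 t (Finset.mem_union_left _ ht)⟩
      by_cases h2 : v (ev R (x j)) ≤ 1
      · have h3 : ∃ t ∈ N j, v (ev R (x j) - t) < 1 := by
          by_contra hcon
          push Not at hcon
          exact h1 ⟨hR1, h2, hcon⟩
        obtain ⟨t, ht, ht'⟩ := h3
        rw [Valuation.map_sub_swap]
        have h4 := hR0.2.2 t ht
        rw [Valuation.map_sub_swap] at h4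
        exact one_le_of_congr h4 ht'
      · push Not at h2
        rw [Valuation.map_sub_eq_of_lt_right _ (lt_of_le_of_lt hR0.2.1 h2)]
        exact h2.le
  have a1 := fun j => hu j _ (hPQ' j).1.1 (hPQ' j).1.2.1 (far1 j _ (hPQ' j).1)
  have a2 := fun j => hu j _ (hPQ' j).2.1 (hPQ' j).2.2.1 (far1 j _ (hPQ' j).2)
  have b1 := fun j => hu' j _ (hPQ j).1.1 (hPQ j).1.2.1 (far2 j _ (hPQ j).1 (Or.inl rfl))
  have b2 := fun j => hu' j _ (hPQ j).2.1 (hPQ j).2.2.1 (far2 j _ (hPQ j).2 (Or.inr rfl))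
  have c1 := UR.prod Finset.univ fun j _ => (a1 j).2.1.div horb (a2 j).2.1
  have c2 := UR.prod Finset.univ fun j _ => (b1 j).2.2.div horb (b2 j).2.2
  convert c1.div horb c2 using 2 with g
  have hfg : (e g).f f ≠ 0 := by simpa using hf
  have hdiv : divf (k := Om) ((e g).f f) =
      n • (e g).D (∑ j, (Finsupp.single (P j) 1 - Finsupp.single (Q j) 1)) := by
    rw [(e g).divf_f hf, hfD, map_nsmul]
  rw [SI.pic_cls, Wp.wp_eq hc_of_isAlgClosed hn (f := (e g).f f) (g := f') hfg hf' hdiv hfE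
    (fun R => by
      by_cases hR : (∑ j, (Finsupp.single (P' j) 1 - Finsupp.single (Q' j) 1) : Pl Om K →₀ ℤ) R = 0
      · exact Or.inr hR
      · left
        have h1 : R.v ((e g).f f) = 1 := by
          obtain ⟨l, rfl | rfl⟩ := supp_sum hR
          · exact ((a1 l).1 g).1
          · exact ((a2 l).1 g).1
        have h2 := (v_eq_one_iff hfg R).mp h1
        rw [hdiv, Finsupp.smul_apply] at h2
        simpa [hn] using h2), Units.val_div_eq_div_val,
    ev_sum _ _ fun j => ⟨((a1 j).1 g).1, ((a2 j).1 g).1⟩]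
  simp only [map_sum, map_sub, SI.D_single]
  rw [ev_sum _ _ fun j => ⟨((b1 j).1 g).2, ((b2 j).1 g).2⟩]
  congr 1
  · refine Finset.prod_congr rfl fun j _ => ?_
    rw [div_div_div_cancel_right₀ ((smul_ne_zero_iff_ne g).mpr (hs0 j))]
  · refine Finset.prod_congr rfl fun j _ => ?_
    rw [div_div_div_cancel_right₀ (hs0' j)]

theorem flat_of_mov [CharZero Om] {G : Type*} [Group G] [MulSemiringAction G Om] {e : G → SI Om K Om K}
    (hiso : ∀ (g : G) (a : Om), v (g • a) = v a) (hres : ∀ (g : G) (a : Om), v a ≤ 1 → v (g • a - a) < 1)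
    (horb : ∀ a : Om, (Set.range fun g : G => g • a).Finite) (hs : ∀ g a, (e g).s a = g • a)
    {ι : Type*} [Fintype ι] {F : ι → Om[X]} {x w : ι → K} (hc : ∀ j, Chart v (F j) (x j) (w j))
    (hfix : ∀ g j, (e g).f (x j) = x j ∧ (e g).f (w j) = w j) (hm : Mov v x) {n : ℕ} (hn : n ≠ 0)
    (hnd : ∀ u : Pic Om K, n • u = 0 → u ≠ 0 → ∃ y : Pic Om K, n • y = 0 ∧ Wp.wp n u y ≠ 1)
    {V : Type*} [AddCommGroup V] [Finite V] (i : V →+ Pic Om K) (hi : Function.Injective i)
    (hV : ∀ u, n • i u = 0) {ρ : G → V → V} (hr : ∀ g u, i (ρ g u) = (e g).pic (i u)) :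
    Flat v G ρ := by
  refine flat_of_sep fun u hu => ?_
  obtain ⟨y, hy, hne⟩ := hnd (i u) (hV u) (fun h0 => hu (hi (by rw [h0, map_zero])))
  let χ : AddChar V Om :=
    { toFun := fun v => (Wp.wp n (i v) y : Om)
      map_zero_eq_one' := by rw [map_zero, Wp.wp_zero_left hc_of_isAlgClosed hn hy, Units.val_one]
      map_add_eq_mul' := fun a b => by
        rw [map_add, Wp.wp_add_left hc_of_isAlgClosed hn (hV a) (hV b) hy, Units.val_mul] }
  refine ⟨χ, fun h1 => hne (Units.ext h1), fun u' => ?_⟩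
  have := (wp_UR hiso hres horb hs hc hfix hm hn (hV u') hy).1
  convert this using 2 with g
  show (Wp.wp n (i (ρ g u')) y : Om) = _
  rw [hr]

theorem srcStmt_90 : SrcStmt := by
  intro C K _ _ _ _ _ _ _ _ _ v G _ _ hiso hres horb e hs ι _ F x w hc hfix hm n hn hnd V _ _ i hi hV
    ρ hr
  exact flat_of_mov hiso hres horb hs hc hfix hm hn hnd i hi hV hr

end Crest.Agent.T15.F3
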