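import Mathlib
import Crest.Agent.T15.F3Src_90
import Crest.Agent.T15.Wp3_31

/-!
# Row 15, block F (helper90): the moving lemma, the chain of three elliptic curves, flatness
-/

set_option autoImplicit false
set_option linter.all false

namespace Crest.Agent.T15.F3

open Polynomial WithZero Module
open scoped NNReal
open Crest.Agent.R013.RR7_948 Crest.Agent.R013.RR8_948 Crest.Agent.R013.RR9_948
open Crest.Agent.R013.RR11_948 Crest.Agent.R013.RR12_948 Crest.Agent.R013.PicD_398
open Crest.Agent.R013.GR2_921 Crest.Agent.R013.Frob1_914 Crest.Agent.T15.Hy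
open Crest.Agent.T15.Disc Crest.Agent.T15.FlR

section residue

variable {Om : Type*} [Field Om] {Γ : Type*} [LinearOrderedCommGroupWithZero Γ] (v : Valuation Om Γ)

theorem rd_residue : Rd (IsLocalRing.residue v.integer) where
  surj := IsLocalRing.residue_surjective
  ker := fun a => by
    rw [IsLocalRing.residue_eq_zero_iff, IsLocalRing.mem_maximalIdeal, mem_nonunits_iff,
      (Valuation.integer.integers v).isUnit_iff_valuation_eq_one]
    exact ⟨fun h => lt_of_le_of_ne a.2 h, fun h => h.ne⟩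

theorem isAlgClosed_of_rd [IsAlgClosed Om] {k : Type*} [Field k] {r : v.integer →+* k} (h : Rd r) :
    IsAlgClosed k := by
  apply IsAlgClosed.of_exists_root
  intro p hp hirr
  obtain ⟨q, rfl, hdeg, hq⟩ := lifts_and_degree_eq_and_monic
    ((mem_lifts p).mpr (map_surjective r h.surj p)) hp
  obtain ⟨t, ht⟩ := IsAlgClosed.exists_root (q.map v.integer.subtype) (by
    rw [hq.degree_map, hdeg]; exact (degree_pos_of_irreducible hirr).ne')
  have h1 : v t ≤ 1 := (Valuation.integer.integers v).mem_of_integral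
    ⟨q, hq, by rw [← eval_map]; exact ht⟩
  refine ⟨r ⟨t, h1⟩, ?_⟩
  have h2 : q.eval ⟨t, h1⟩ = 0 := Subtype.ext (by
    have := ht.eq_zero
    rw [eval_map, show t = v.integer.subtype ⟨t, h1⟩ from rfl, eval₂_at_apply] at this
    exact this)
  rw [eval_map, eval₂_at_apply, h2, map_zero]

end residue

variable {Om K : Type*} [Field Om] [IsAlgClosed Om] [Field K] [Algebra Om K]
  [Algebra (RatFunc Om) K] [IsScalarTower Om (RatFunc Om) K] [FiniteDimensional (RatFunc Om) K]
  [Algebra.IsSeparable (RatFunc Om) K] {v : Valuation Om ℝ≥0}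
  {k : Type*} [Field k] [IsAlgClosed k] {r : v.integer →+* k}

theorem exists_sum (n : ℕ) : ∀ D : Pl Om K →₀ ℤ, 0 ≤ D → degD D = n →
    ∃ R : Fin n → Pl Om K, D = ∑ i, Finsupp.single (R i) 1 := by
  classical
  induction n with
  | zero => exact fun D h1 h2 => ⟨Fin.elim0, by simpa using eq_zero_of_nonneg h1 h2⟩
  | succ n ih =>
    intro D h1 h2
    obtain ⟨P, hP⟩ : ∃ P, D P ≠ 0 := by
      by_contra hcon
      push Not at hcon
      rw [show D = 0 from Finsupp.ext hcon, degD_zero] at h2
      omega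
    obtain ⟨R, hR⟩ := ih (D - Finsupp.single P 1) (by
      intro Q
      have h3 := h1 Q
      simp only [Finsupp.sub_apply, Finsupp.single_apply, Finsupp.coe_zero, Pi.zero_apply] at h3 ⊢
      split_ifs with h4
      · subst h4; omega
      · omega) (by rw [degD_sub, h2, degD_single, degP_eq_one]; push_cast; ring)
    refine ⟨Fin.cons P R, ?_⟩
    rw [Fin.sum_univ_succ]
    simp only [Fin.cons_zero, Fin.cons_succ, ← hR]
    abel

section one

variable {κ : Type*} [Field κ] [Algebra k κ]
  [Algebra (RatFunc k) κ] [IsScalarTower k (RatFunc k) κ] [FiniteDimensional (RatFunc k) κ]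
  [Algebra.IsSeparable (RatFunc k) κ]
  {F : v.integer[X]} {H E : k[X]} {x w : K} {xb wb : κ}

theorem chart_of_spD (h : SpD r F H E x w xb wb) : Chart v (F.map v.integer.subtype) x w where
  hyp := h.hyp
  int := int_map F
  nsq := fun A B hA hB hN => by
    have key : ∀ D : Om[X], (∀ i, v (D.coeff i) ≤ 1) → ∃ D' : v.integer[X],
        D'.map v.integer.subtype = D := fun D hD =>
      (mem_lifts D).mp ((lifts_iff_coeff_lifts _).mpr fun i => ⟨⟨_, hD i⟩, rfl⟩)
    obtain ⟨A, rfl⟩ := key A hA
    obtain ⟨B, rfl⟩ := key B hB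
    have h1 : (A ^ 2 - B ^ 2 * F).map r = 0 := by
      ext i
      rw [coeff_map, coeff_zero, h.rd.ker]
      have := hN i
      rwa [← Polynomial.map_pow, ← Polynomial.map_pow, ← Polynomial.map_mul, ← Polynomial.map_sub,
        coeff_map] at this
    have d1 := el_norm h.sq_red' (A.map r) (B.map r)
    simp only [Polynomial.map_sub, Polynomial.map_mul, Polynomial.map_pow] at h1
    rw [h1, map_zero, SpD.el_red, SpD.el_red, ← Polynomial.map_neg] at d1
    have h2 : A.map r = 0 ∧ B.map r = 0 := by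
      by_contra hcon
      rw [not_and_or] at hcon
      exact mul_ne_zero (h.red_ne hcon) (h.red_ne (B := -B) (by simpa using hcon)) d1
    intro i
    have h3 := congrArg (coeff · i) h2.1
    have h4 := congrArg (coeff · i) h2.2
    simp only [coeff_map, coeff_zero, h.rd.ker] at h3 h4
    simp only [coeff_map]
    exact ⟨h3, h4⟩

theorem exists_bad (h : SpD r F H E x w xb wb) (S : Finset Om) :
    ∃ B : Finset (Pl k κ), (∀ P, sp r H x w xb wb P ∉ B → Gp v x S P) ∧
      ∀ p ∉ B, ∃ P, sp r H x w xb wb P = p := by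
  classical
  have hfin : ∀ t : k, {p : Pl k κ | p.v (xb - algebraMap k κ t) ≠ 1}.Finite := fun t =>
    R013.RR11_948.finite_ne_one (h.hyb.x_sub_ne t)
  refine ⟨insert (oo k xb) ((S.image (rC r) ∪ H.roots.toFinset).biUnion fun t => (hfin t).toFinset),
    ?_, ?_⟩
  · intro P hP
    simp only [Finset.mem_insert, Finset.mem_biUnion, Set.Finite.mem_toFinset, Set.mem_setOf_eq,
      not_or, not_exists, not_and, not_not] at hP
    obtain ⟨a, b, hA⟩ := (h.sp_cases P).resolve_right hP.1
    refine ⟨hA.x_le, by rw [ev_eq P hA.1]; exact a.2, fun s hs => ?_⟩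
    rw [ev_eq P hA.1]
    by_contra hlt
    push Not at hlt
    have h1 : v s ≤ 1 := by
      have : s = a - (a - s) := by ring
      rw [this]
      exact (Valuation.map_sub _ _ _).trans (max_le a.2 hlt.le)
    have h2 : r a = rC r s := by
      rw [show s = ((⟨s, h1⟩ : v.integer) : Om) from rfl, rC_coe, h.rd.eq_iff]; exact hlt
    have h3 := hP.2 (rC r s) (Finset.mem_union_left _ (Finset.mem_image_of_mem _ hs))
    rw [h.sp_at hA, ← h2] at h3
    exact absurd (h.hyb.at_pt (h.sq_red (h.sq_int hA))).1 (by rw [h3]; exact lt_irrefl _)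
  · intro p hp
    simp only [Finset.mem_insert, Finset.mem_biUnion, Set.Finite.mem_toFinset, Set.mem_setOf_eq,
      not_or, not_exists, not_and, not_not] at hp
    have h2 : p.v xb ≤ 1 := by
      by_contra h3
      exact hp.1 (h.hyb.inf_unique h.odd (not_le.mp h3) h.oo_spec)
    have hA := h.hyb.at_ev h2
    have h3 : H.eval (ev p xb) ≠ 0 := by
      intro h4
      have := hp.2 (ev p xb) (Finset.mem_union_right _ (by simp [h.H0, h4]))
      exact absurd hA.1 (by rw [this]; exact lt_irrefl _)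
    obtain ⟨a, ha⟩ := h.rd.surj (ev p xb)
    obtain ⟨P, b, -, hP⟩ := h.exists_lift (hA.sq h.hyb.sq) h3 ha
    exact ⟨P, by rw [hP, h.hyb.pt_eq hA]⟩

end one

/-- **the moving lemma** -/
theorem mov_of {ι : Type*} [Fintype ι] {F : ι → v.integer[X]} {H E : ι → k[X]} [∀ j, HF (E j)]
    {x w : ι → K} (h : ∀ j, SpD r (F j) (H j) (E j) (x j) (w j) (Hf.x (E j)) (Hf.w (E j)))
    (h3 : ∀ j, 3 ≤ (E j).natDegree) (hg : gen Om K ≤ Fintype.card ι) (N : ι → Finset Om)
    (hN : ∀ j l, j ≠ l → ∀ P : Pl Om K, Gp v (x l) (N l) P → ¬ Gp v (x j) (N j) P)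
    (hc : ∀ j l, j ≠ l → ∀ P P' : Pl Om K, Gp v (x l) (N l) P → Gp v (x l) (N l) P' →
      sp r (H j) (x j) (w j) (Hf.x (E j)) (Hf.w (E j)) P =
        sp r (H j) (x j) (w j) (Hf.x (E j)) (Hf.w (E j)) P') : Mov v x := by
  classical
  refine ⟨N, hN, fun z hz S => ?_⟩
  have mono : ∀ {j : ι} {P : Pl Om K}, Gp v (x j) (S j ∪ N j) P →
      Gp v (x j) (S j) P ∧ Gp v (x j) (N j) P := fun hP =>
    ⟨⟨hP.1, hP.2.1, fun t ht => hP.2.2 t (Finset.mem_union_left _ ht)⟩,
      ⟨hP.1, hP.2.1, fun t ht => hP.2.2 t (Finset.mem_union_right _ ht)⟩⟩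
  choose B hB hB' using fun j => exists_bad (h j) (S j ∪ N j)
  choose p0 hp0 using fun j => exists_notMem (B j)
  choose P0 hP0 using fun j => hB' j _ (hp0 j)
  have hP0' : ∀ j, Gp v (x j) (N j) (P0 j) := fun j => (mono (hB j _ (by rw [hP0]; exact hp0 j))).2
  have hfin : ∀ j, {q : Pl k (Hf (E j)) | ∃ β : ι → B j,
      ∑ i, cls (Finsupp.single (β i : Pl k (Hf (E j))) (1 : ℤ)) = (h j).spPic z +
        (cls (Finsupp.single q 1) +
          ∑ l ∈ Finset.univ.erase j, (h j).spPic (cls (Finsupp.single (P0 l) 1)))}.Finite := by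
    intro j
    rw [Set.setOf_exists]
    refine Set.finite_iUnion fun β => Set.Subsingleton.finite fun q hq q' hq' => ?_
    exact (h j).hyb.eq_of_cls (h3 j) (add_right_cancel (add_left_cancel (hq.symm.trans hq')))
  choose q hq using fun j => exists_notMem (B j ∪ (hfin j).toFinset)
  simp only [Finset.mem_union, not_or, Set.Finite.mem_toFinset, Set.mem_setOf_eq] at hq
  choose Q hQ using fun j => hB' j _ (hq j).1
  have hQ' : ∀ j, Gp v (x j) (S j ∪ N j) (Q j) := fun j => hB j _ (by rw [hQ]; exact (hq j).1)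
  obtain ⟨D, rfl⟩ := cls_surjective z
  have hD : degD D = 0 := hz
  have hdeg : degD (D + ∑ j, Finsupp.single (Q j) 1) = Fintype.card ι := by
    rw [degD_add, hD, zero_add]
    have : ∀ s : Finset ι, degD (∑ j ∈ s, Finsupp.single (Q j) (1 : ℤ)) = s.card := by
      intro s
      induction s using Finset.induction_on with
      | empty => simp [degD_zero]
      | insert a s ha ih =>
        rw [Finset.sum_insert ha, degD_add, ih, degD_single, degP_eq_one,
          Finset.card_insert_of_notMem ha]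
        push_cast; ring
    exact this _
  obtain ⟨f, hf, hfD⟩ := exists_mem_LD (D := D + ∑ j, Finsupp.single (Q j) 1)
    (by rw [hdeg]; exact_mod_cast hg)
  rw [mem_LD_iff hf] at hfD
  obtain ⟨R0, hR0⟩ := exists_sum (Fintype.card ι) _ hfD (by
    rw [degD_add, degD_divf hf, hdeg]; simp)
  set R : ι → Pl Om K := fun i => R0 (Fintype.equivFin ι i) with hR
  have hsum : ∑ i, cls (Finsupp.single (R i) (1 : ℤ)) =
      cls D + ∑ j, cls (Finsupp.single (Q j) 1) := by
    have := congrArg cls hR0
    simp only [map_add, map_sum, cls_divf hf] at this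
    rw [Equiv.sum_comp (Fintype.equivFin ι) fun i => cls (Finsupp.single (R0 i) (1 : ℤ)), ← this]
    simp
  have hex : ∀ j, ∃ i, Gp v (x j) (S j ∪ N j) (R i) := by
    intro j
    by_contra hcon
    push Not at hcon
    have h1 : ∀ i, sp r (H j) (x j) (w j) (Hf.x (E j)) (Hf.w (E j)) (R i) ∈ B j := by
      intro i
      by_contra h2
      exact hcon i (hB j _ h2)
    refine (hq j).2 ⟨fun i => ⟨_, h1 i⟩, ?_⟩
    have h2 := congrArg (h j).spPic hsum
    simp only [map_add, map_sum, SpD.spPic_single] at h2 ⊢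
    rw [h2, ← Finset.add_sum_erase _ _ (Finset.mem_univ j), hQ]
    congr 2
    refine Finset.sum_congr rfl fun l hl => ?_
    rw [hc j l (Finset.ne_of_mem_erase hl).symm _ _ (mono (hQ' l)).2 (hP0' l)]
  choose σ hσ using hex
  have hinj : Function.Injective σ := by
    intro j l hjl
    by_contra hne
    exact hN j l hne _ (mono (hσ l)).2 (hjl ▸ (mono (hσ j)).2)
  refine ⟨fun j => R (σ j), Q, fun j => ⟨(mono (hσ j)).1, (mono (hQ' j)).1⟩, ?_⟩
  simp only [map_sum, map_sub, Finset.sum_sub_distrib]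
  rw [← Equiv.sum_comp (Equiv.ofBijective σ (Finite.injective_iff_bijective.mp hinj))
    (fun i => cls (Finsupp.single (R i) (1 : ℤ)))] at hsum
  simp only [Equiv.ofBijective_apply] at hsum
  rw [hsum]; abel

end Crest.Agent.T15.F3
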