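import Mathlib
import Crest.Agent.T15.F3Mov_90

/-!
# Row 15, block F (helper90): flatness for `w ^ 2 = c z (z ^ 2 - a0) (z ^ 2 - a1) (z ^ 2 - a2)` whose
reduction is a chain of three elliptic curves
-/

set_option autoImplicit false
set_option linter.all false

namespace Crest.Agent.T15.F3

open Polynomial WithZero Module
open scoped NNReal
open Crest.Agent.R013.RR7_948 Crest.Agent.R013.RR8_948 Crest.Agent.R013.RR9_948
open Crest.Agent.R013.RR11_948 Crest.Agent.R013.RR12_948 Crest.Agent.R013.PicD_398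
open Crest.Agent.R013.GR2_921 Crest.Agent.R013.Frob1_914 Crest.Agent.T15.Hy
open Crest.Agent.T15.Disc Crest.Agent.T15.FlR

section ell

variable {k : Type*} [Field k]

/-- the components `w ^ 2 = u x (x ^ 2 - a)` -/
noncomputable def Eb (u a : k) : k[X] := C u * X * (X ^ 2 - C a)

theorem Eb_deg {u : k} (a : k) (hu : u ≠ 0) : (Eb u a).natDegree = 3 := by
  unfold Eb
  rw [natDegree_mul (mul_ne_zero (by simpa using hu) X_ne_zero) (X_pow_sub_C_ne_zero two_pos a),
    natDegree_C_mul_X _ hu, natDegree_X_pow_sub_C]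
  rfl

theorem Eb_HF {u a : k} (h2 : (2 : k) ≠ 0) (hu : u ≠ 0) (ha : a ≠ 0) : HF (Eb u a) where
  two := h2
  pos := by rw [Eb_deg a hu]; norm_num
  sep := by
    unfold Eb
    rw [mul_assoc]
    refine Separable.unit_mul (isUnit_C.mpr hu.isUnit) (Separable.mul separable_X
      (separable_X_pow_sub_C a (by exact_mod_cast h2) ha) ⟨C a⁻¹ * X, -C a⁻¹, ?_⟩)
    have : (C a⁻¹ * C a : k[X]) = 1 := by rw [← map_mul, inv_mul_cancel₀ ha, map_one]
    linear_combination this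

end ell

variable {Om : Type*} [Field Om] [IsAlgClosed Om] {v : Valuation Om ℝ≥0}

section chd

variable {k : Type*} [Field k] (r : v.integer →+* k)

/-- the chart `z = p x`, `w = s y` reduces to `y ^ 2 = H ^ 2 u x (x ^ 2 - a)` -/
def ChD (Fc : Om[X]) (p s : Om) : Prop :=
  ∃ (F : v.integer[X]) (H : k[X]) (u a : k), u ≠ 0 ∧ a ≠ 0 ∧
    Fc.comp (C 0 + C p * X) = C (s ^ 2) * F.map v.integer.subtype ∧ F.map r = H ^ 2 * Eb u a ∧
    H ≠ 0 ∧ ∀ t, H.eval t = 0 → t = 0

variable {r} (hr : Rd r) {c a0 a1 a2 p s : Om}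
include hr

theorem r_ne {x : Om} (h : v x = 1) : r ⟨x, h.le⟩ ≠ 0 := by
  rw [Ne, hr.ker]; exact h.not_lt

theorem r_eq {x : Om} (h : v x < 1) : r ⟨x, h.le⟩ = 0 := by
  rw [hr.ker]; exact h

theorem chD0 (hc : c ≠ 0) (ha : a0 ≠ 0) (h01 : v a0 < v a1) (h12 : v a1 < v a2)
    (hp : v p ^ 2 = v a0) (hs : v s ^ 2 = v c * v p ^ 3 * v a1 * v a2) :
    ChD r (C c * X * (X ^ 2 - C a0) * (X ^ 2 - C a1) * (X ^ 2 - C a2)) p s := by
  have b0 : 0 < v a0 := by simpa [pos_iff_ne_zero] using ha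
  have b1 := b0.trans h01
  have b2 := b1.trans h12
  have p0 : v p ≠ 0 := fun h => by rw [h] at hp; simp [← hp] at b0
  have c0 : v c ≠ 0 := by simpa using hc
  have s0 : v s ≠ 0 := fun h => by
    rw [h] at hs; simp [c0, p0, b1.ne', b2.ne'] at hs
  have hu : v (c * p ^ 3 * a1 * a2 / s ^ 2) = 1 := by
    simp only [map_div₀, map_mul, map_pow, ← hs]; exact div_self (pow_ne_zero _ s0)
  have hal : v (a0 / p ^ 2) = 1 := by
    simp only [map_div₀, map_pow, hp]; exact div_self b0.ne'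
  have h1 : v (p ^ 2 / a1) < 1 := by
    simp only [map_div₀, map_pow, hp]; exact (div_lt_one₀ b1).mpr h01
  have h2 : v (p ^ 2 / a2) < 1 := by
    simp only [map_div₀, map_pow, hp]; exact (div_lt_one₀ b2).mpr (h01.trans h12)
  refine ⟨C ⟨_, hu.le⟩ * X * (X ^ 2 - C ⟨_, hal.le⟩) * (C ⟨_, h1.le⟩ * X ^ 2 - 1) *
    (C ⟨_, h2.le⟩ * X ^ 2 - 1), 1, _, _, r_ne hr hu, r_ne hr hal, ?_, ?_, one_ne_zero, by simp⟩
  · have := (v.ne_zero_iff).mp p0
    have := (v.ne_zero_iff).mp s0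
    have := (v.ne_zero_iff).mp b1.ne'
    have := (v.ne_zero_iff).mp b2.ne'
    refine Polynomial.funext fun t => ?_
    simp [eval_comp]
    field_simp
  · simp [Eb, r_eq hr h1, r_eq hr h2]

theorem chD1 (hc : c ≠ 0) (ha : a0 ≠ 0) (h01 : v a0 < v a1) (h12 : v a1 < v a2)
    (hp : v p ^ 2 = v a1) (hs : v s ^ 2 = v c * v p ^ 5 * v a2) :
    ChD r (C c * X * (X ^ 2 - C a0) * (X ^ 2 - C a1) * (X ^ 2 - C a2)) p s := by
  have b0 : 0 < v a0 := by simpa [pos_iff_ne_zero] using ha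
  have b1 := b0.trans h01
  have b2 := b1.trans h12
  have p0 : v p ≠ 0 := fun h => by rw [h] at hp; simp [← hp] at b1
  have c0 : v c ≠ 0 := by simpa using hc
  have s0 : v s ≠ 0 := fun h => by
    rw [h] at hs; simp [c0, p0, b1.ne', b2.ne'] at hs
  have hu : v (c * p ^ 5 * a2 / s ^ 2) = 1 := by
    simp only [map_div₀, map_mul, map_pow, ← hs]; exact div_self (pow_ne_zero _ s0)
  have hal : v (a1 / p ^ 2) = 1 := by
    simp only [map_div₀, map_pow, hp]; exact div_self b1.ne'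
  have h1 : v (a0 / p ^ 2) < 1 := by
    simp only [map_div₀, map_pow, hp]; exact (div_lt_one₀ b1).mpr h01
  have h2 : v (p ^ 2 / a2) < 1 := by
    simp only [map_div₀, map_pow, hp]; exact (div_lt_one₀ b2).mpr h12
  refine ⟨C ⟨_, hu.le⟩ * X * (X ^ 2 - C ⟨_, h1.le⟩) * (X ^ 2 - C ⟨_, hal.le⟩) *
    (C ⟨_, h2.le⟩ * X ^ 2 - 1), X, _, _, neg_ne_zero.mpr (r_ne hr hu), r_ne hr hal, ?_, ?_,
    X_ne_zero, by simp⟩
  · have := (v.ne_zero_iff).mp p0
    have := (v.ne_zero_iff).mp s0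
    have := (v.ne_zero_iff).mp b2.ne'
    refine Polynomial.funext fun t => ?_
    simp [eval_comp]
    field_simp
  · simp [Eb, r_eq hr h1, r_eq hr h2]
    ring

theorem chD2 (hc : c ≠ 0) (ha : a0 ≠ 0) (h01 : v a0 < v a1) (h12 : v a1 < v a2)
    (hp : v p ^ 2 = v a2) (hs : v s ^ 2 = v c * v p ^ 7) :
    ChD r (C c * X * (X ^ 2 - C a0) * (X ^ 2 - C a1) * (X ^ 2 - C a2)) p s := by
  have b0 : 0 < v a0 := by simpa [pos_iff_ne_zero] using ha
  have b1 := b0.trans h01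
  have b2 := b1.trans h12
  have p0 : v p ≠ 0 := fun h => by rw [h] at hp; simp [← hp] at b2
  have c0 : v c ≠ 0 := by simpa using hc
  have s0 : v s ≠ 0 := fun h => by
    rw [h] at hs; simp [c0, p0, b1.ne', b2.ne'] at hs
  have hu : v (c * p ^ 7 / s ^ 2) = 1 := by
    simp only [map_div₀, map_mul, map_pow, ← hs]; exact div_self (pow_ne_zero _ s0)
  have hal : v (a2 / p ^ 2) = 1 := by
    simp only [map_div₀, map_pow, hp]; exact div_self b2.ne'
  have h1 : v (a0 / p ^ 2) < 1 := by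
    simp only [map_div₀, map_pow, hp]; exact (div_lt_one₀ b2).mpr (h01.trans h12)
  have h2 : v (a1 / p ^ 2) < 1 := by
    simp only [map_div₀, map_pow, hp]; exact (div_lt_one₀ b2).mpr h12
  refine ⟨C ⟨_, hu.le⟩ * X * (X ^ 2 - C ⟨_, h1.le⟩) * (X ^ 2 - C ⟨_, h2.le⟩) *
    (X ^ 2 - C ⟨_, hal.le⟩), X ^ 2, _, _, r_ne hr hu, r_ne hr hal, ?_, ?_,
    pow_ne_zero _ X_ne_zero, by simp⟩
  · have := (v.ne_zero_iff).mp p0
    have := (v.ne_zero_iff).mp s0
    refine Polynomial.funext fun t => ?_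
    simp [eval_comp]
    field_simp
  · simp [Eb, r_eq hr h1, r_eq hr h2]
    ring

end chd

variable {K : Type*} [Field K] [Algebra Om K]
  [Algebra (RatFunc Om) K] [IsScalarTower Om (RatFunc Om) K] [FiniteDimensional (RatFunc Om) K]
  [Algebra.IsSeparable (RatFunc Om) K]

/-- flatness from charts centred at `0` of different radii, as many as the genus -/
theorem flat_of_chD [CharZero Om] {ι : Type*} [Fintype ι] {Fc : Om[X]} {z w : K} (h : Hyp Fc z w)
    (h2 : v 2 = 1) (hg : R013.RR11_948.gen Om K ≤ Fintype.card ι) {p s : ι → Om}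
    (hp : ∀ j, p j ≠ 0) (hs0 : ∀ j, s j ≠ 0) (hpp : ∀ j l, v (p j) = v (p l) → j = l)
    (hch : ∀ j, ChD (IsLocalRing.residue v.integer) Fc (p j) (s j))
    {G : Type*} [Group G] [MulSemiringAction G Om] {e : G → SI Om K Om K}
    (hiso : ∀ (g : G) (a : Om), v (g • a) = v a)
    (hres : ∀ (g : G) (a : Om), v a ≤ 1 → v (g • a - a) < 1)
    (horb : ∀ a : Om, (Set.range fun g : G => g • a).Finite) (hs : ∀ g a, (e g).s a = g • a)
    (hz : ∀ g, (e g).f z = z) (hw : ∀ g, (e g).f w = w)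
    (hfix : ∀ (g : G) j, g • p j = p j ∧ g • s j = s j) {n : ℕ} (hn : n ≠ 0)
    {V : Type*} [AddCommGroup V] [Finite V] (i : V →+ Pic Om K) (hi : Function.Injective i)
    (hV : ∀ u, n • i u = 0) {ρ : G → V → V} (hr : ∀ g u, i (ρ g u) = (e g).pic (i u)) :
    Flat v G ρ := by
  classical
  have rd := rd_residue v
  haveI := isAlgClosed_of_rd v rd
  set r := IsLocalRing.residue v.integer with hr'
  choose F H u a hu ha hF hred H0 hroot using hch
  have k2 : (2 : IsLocalRing.ResidueField v.integer) ≠ 0 := by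
    rw [← map_ofNat r 2, Ne, rd.ker]
    exact (show v ((2 : v.integer) : Om) = 1 from h2).not_lt
  haveI : ∀ j, HF (Eb (u j) (a j)) := fun j => Eb_HF k2 (hu j) (ha j)
  have hp' : ∀ j, algebraMap Om K (p j) ≠ 0 := fun j => by simpa using hp j
  have hs' : ∀ j, algebraMap Om K (s j) ≠ 0 := fun j => by simpa using hs0 j
  have hS : ∀ j, SpD r (F j) (H j) (Eb (u j) (a j)) (z / algebraMap Om K (p j))
      (w / algebraMap Om K (s j)) (Hf.x _) (Hf.w _) := fun j =>
    ⟨rd, h.chart (c := 0) (hp j) (hs0 j) (by rw [map_zero, zero_add, mul_div_cancel₀ _ (hp' j)])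
      (by rw [mul_div_cancel₀ _ (hs' j)]) (hF j), Hf.hyp _, hred j, H0 j,
      fun t ht => by simp [hroot j t ht, Eb], by rw [Eb_deg _ (hu j)]; decide⟩
  have key : ∀ j l (P : Pl Om K), Gp v (z / algebraMap Om K (p l)) {0} P →
      P.v (z / algebraMap Om K (p j)) ≤ 1 ∧
        v (ev P (z / algebraMap Om K (p j))) = v (p l) / v (p j) := by
    intro j l P hP
    have e1 : z / algebraMap Om K (p j) = (p l / p j) • (z / algebraMap Om K (p l)) := by
      have := hp' j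
      have := hp' l
      rw [Algebra.smul_def, map_div₀]; field_simp
    have e2 : v (ev P (z / algebraMap Om K (p l))) = 1 :=
      le_antisymm hP.2.1 (by simpa using hP.2.2 0 (by simp))
    rw [e1, ev_smul P _ hP.1, map_mul, e2, mul_one, map_div₀, Algebra.smul_def, map_mul]
    exact ⟨mul_le_one' (v_const_le P _) hP.1, rfl⟩
  have pv : ∀ j, v (p j) ≠ 0 := fun j => by simpa using hp j
  refine flat_of_mov hiso hres horb hs (fun j => chart_of_spD (hS j)) (fun g j => ?_)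
    (mov_of hS (fun j => (Eb_deg _ (hu j)).ge) hg (fun _ => {0}) ?_ ?_) hn
    (fun y hy h0 => Wp.exists_wp_ne_one' (by exact_mod_cast hn) (Wp.divH Om hn) hy h0) i hi hV hr
  · simp only [map_div₀, hz, hw, SI.comm, hs, (hfix g j).1, (hfix g j).2, and_self]
  · intro j l hjl P hl hj
    have e1 := (key j l P hl).2
    rw [(key j j P hj).2, div_self (pv j), eq_comm, div_eq_one_iff_eq (pv j)] at e1
    exact hjl (hpp _ _ e1).symm
  · intro j l hjl P P' hP hP'
    rcases lt_trichotomy (v (p l) / v (p j)) 1 with h1 | h1 | h1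
    · have : ∀ Q : Pl Om K, Gp v (z / algebraMap Om K (p l)) {0} Q →
          sp r (H j) (z / algebraMap Om K (p j)) (w / algebraMap Om K (s j))
            (Hf.x (Eb (u j) (a j))) (Hf.w _) Q = pt (Hf.x _) (Hf.w _) 0 0 := by
        intro Q hQ
        obtain ⟨k1, k2⟩ := key j l Q hQ
        obtain ⟨α, β, hA⟩ := (hS j).exists_int k1 (by rw [k2]; exact h1.le)
        have e1 : r α = 0 := by rw [rd.ker, ← ev_eq Q hA.1, k2]; exact h1
        have e2 := (hS j).sq_red ((hS j).sq_int hA)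
        rw [(hS j).sp_at hA]
        rw [e1] at e2 ⊢
        rw [show r β / (H j).eval 0 = 0 by simpa [Eb] using e2]
      rw [this P hP, this P' hP']
    · rw [div_eq_one_iff_eq (pv j)] at h1
      exact absurd (hpp _ _ h1).symm hjl
    · unfold sp
      rw [if_neg (fun h3 => h1.not_ge ((key j l P hP).2 ▸ h3.2)),
        if_neg (fun h3 => h1.not_ge ((key j l P' hP').2 ▸ h3.2))]

/-- **flatness at a chain of three elliptic curves** -/
theorem flat_chain [CharZero Om] {c a0 a1 a2 : Om} {z w : K}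
    (h : Hyp (C c * X * (X ^ 2 - C a0) * (X ^ 2 - C a1) * (X ^ 2 - C a2)) z w)
    (h2 : v 2 = 1) (ha : a0 ≠ 0) (h01 : v a0 < v a1) (h12 : v a1 < v a2)
    {p0 p1 p2 s0 s1 s2 : Om} (hp0 : v p0 ^ 2 = v a0) (hp1 : v p1 ^ 2 = v a1)
    (hp2 : v p2 ^ 2 = v a2) (hs0 : v s0 ^ 2 = v c * v p0 ^ 3 * v a1 * v a2)
    (hs1 : v s1 ^ 2 = v c * v p1 ^ 5 * v a2) (hs2 : v s2 ^ 2 = v c * v p2 ^ 7)
    {G : Type*} [Group G] [MulSemiringAction G Om] {e : G → SI Om K Om K}
    (hiso : ∀ (g : G) (a : Om), v (g • a) = v a)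
    (hres : ∀ (g : G) (a : Om), v a ≤ 1 → v (g • a - a) < 1)
    (horb : ∀ a : Om, (Set.range fun g : G => g • a).Finite) (hs : ∀ g a, (e g).s a = g • a)
    (hz : ∀ g, (e g).f z = z) (hw : ∀ g, (e g).f w = w)
    (hfix : ∀ g : G, g • p0 = p0 ∧ g • p1 = p1 ∧ g • p2 = p2 ∧ g • s0 = s0 ∧ g • s1 = s1 ∧
      g • s2 = s2) {n : ℕ} (hn : n ≠ 0)
    {V : Type*} [AddCommGroup V] [Finite V] (i : V →+ Pic Om K) (hi : Function.Injective i)
    (hV : ∀ u, n • i u = 0) {ρ : G → V → V} (hr : ∀ g u, i (ρ g u) = (e g).pic (i u)) :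
    Flat v G ρ := by
  have hc : c ≠ 0 := fun h0 => h.F_ne (by simp [h0])
  have c0 : v c ≠ 0 := by simpa using hc
  have b0 : 0 < v a0 := by simpa [pos_iff_ne_zero] using ha
  have b1 := b0.trans h01
  have b2 := b1.trans h12
  have q0 : v p0 ≠ 0 := fun h => by rw [h] at hp0; simp [← hp0] at b0
  have q1 : v p1 ≠ 0 := fun h => by rw [h] at hp1; simp [← hp1] at b1
  have q2 : v p2 ≠ 0 := fun h => by rw [h] at hp2; simp [← hp2] at b2
  have t0 : v s0 ≠ 0 := fun h => by rw [h] at hs0; simp [c0, q0, b1.ne', b2.ne'] at hs0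
  have t1 : v s1 ≠ 0 := fun h => by rw [h] at hs1; simp [c0, q1, b1.ne', b2.ne'] at hs1
  have t2 : v s2 ≠ 0 := fun h => by rw [h] at hs2; simp [c0, q2, b1.ne', b2.ne'] at hs2
  have n01 : v p0 ≠ v p1 := fun h => h01.ne (by rw [← hp0, ← hp1, h])
  have n12 : v p1 ≠ v p2 := fun h => h12.ne (by rw [← hp2, ← hp1, h])
  have n02 : v p0 ≠ v p2 := fun h => (h01.trans h12).ne (by rw [← hp0, ← hp2, h])
  refine flat_of_chD (p := ![p0, p1, p2]) (s := ![s0, s1, s2]) h h2
    (by simpa using h.gen_le (g := 3) (by compute_degree!)) ?_ ?_ ?_ ?_ hiso hres horb hs hz hw ?_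
    hn i hi hV hr
  · rw [v.ne_zero_iff] at q0 q1 q2
    intro j; fin_cases j <;> simpa using ‹_›
  · rw [v.ne_zero_iff] at t0 t1 t2
    intro j; fin_cases j <;> simpa using ‹_›
  · intro j l; fin_cases j <;> fin_cases l <;> simp [n01, n12, n02, n01.symm, n12.symm, n02.symm]
  · intro j; fin_cases j
    · exact chD0 (rd_residue v) hc ha h01 h12 hp0 hs0
    · exact chD1 (rd_residue v) hc ha h01 h12 hp1 hs1
    · exact chD2 (rd_residue v) hc ha h01 h12 hp2 hs2
  · intro g j; fin_cases j <;> simp [hfix g]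

end Crest.Agent.T15.F3
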