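import Crest.Agent.T15.FlK_23
import Crest.Agent.T15.FlL_80

/-!
# Row 15, block Fl: Fontaine's bound and the Kummer level over a local field (helper23)
-/

set_option autoImplicit false

noncomputable section

namespace Crest.Agent.T15.FlR

open scoped NNReal
open Polynomial Crest.Agent.T15.Fl

variable {F Ω : Type*} [Field F] [Field Ω] [Algebra F Ω] {w : Valuation Ω ℝ≥0}

theorem finite_orbit [Algebra.IsAlgebraic F Ω] (a : Ω) :
    (Set.range fun g : Ω ≃ₐ[F] Ω => g • a).Finite := by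
  have ha : IsIntegral F a := Algebra.IsIntegral.isIntegral a
  refine ((minpoly F a).rootSet_finite Ω).subset ?_
  rintro _ ⟨g, rfl⟩
  rw [mem_rootSet]
  refine ⟨minpoly.ne_zero ha, ?_⟩
  change aeval (g a) _ = 0
  rw [aeval_algHom_apply, minpoly.aeval, map_zero]

/-- elements of `RR` with unit values are invertible -/
theorem inv_mem' [Algebra.IsAlgebraic F Ω] {f : (Ω ≃ₐ[F] Ω) → Ω} (h : f ∈ RR w (Ω ≃ₐ[F] Ω))
    (hu : ∀ g, w (f g) = 1) : (fun g => (f g)⁻¹) ∈ RR w (Ω ≃ₐ[F] Ω) :=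
  inv_mem h (finite_range finite_orbit h) hu

variable [CharZero Ω] [IsGalois F Ω] [IsAlgClosed Ω]

theorem mono_of (hc : Ctx F w) (hf : Full F w) : Mono w (Ω ≃ₐ[F] Ω) := by
  intro A hA
  have : FiniteDimensional F (IntermediateField.adjoin F (A : Set Ω)) :=
    IntermediateField.finiteDimensional_adjoin fun x _ => Algebra.IsIntegral.isIntegral x
  obtain ⟨α, -, h1, -, -, h2, -⟩ := hc.mono hf (IntermediateField.adjoin F (A : Set Ω))
  refine ⟨α, h1, finite_orbit α, fun a ha => ?_⟩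
  obtain ⟨p, hp⟩ := h2 a (IntermediateField.subset_adjoin F _ ha) (hA a ha)
  refine ⟨p.map (algebraMap (OF F w) Ω), fun i => ?_, fun g => ?_⟩
  · rw [coeff_map]; exact (p.coeff i).2
  · rw [eval_map_algebraMap, ← hp]
    exact (aeval_algHom_apply (g.restrictScalars (OF F w)) α p).symm

omit [CharZero Ω] [IsAlgClosed Ω] in
theorem disc_of (hc : Ctx F w) (a : Ω) (ha : a ≠ 0) (h : ∀ g : Ω ≃ₐ[F] Ω, g • a = a) :
    ∃ n : ℤ, w a = w 3 ^ n := by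
  obtain ⟨b, rfl⟩ := (InfiniteGalois.mem_range_algebraMap_iff_fixed a).mpr h
  exact hc.disc b (by rintro rfl; simp at ha)

omit [CharZero Ω] [IsGalois F Ω] [IsAlgClosed Ω] in
theorem res_of (hf : Full F w) (c : Ω) (h : w c ≤ 1) :
    ∃ a, (∀ g : Ω ≃ₐ[F] Ω, g • a = a) ∧ w (c - a) < 1 := by
  obtain ⟨b, hb⟩ := hf c h
  exact ⟨_, fun g => g.commutes b, hb⟩

variable {V : Type*} [AddCommGroup V] [Finite V]

/-- **KUM** over a field `F` with `Ctx` and `Full`, the action given as a bare function -/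
theorem kumF (hc : Ctx F w) (hf : Full F w) {ρ : (Ω ≃ₐ[F] Ω) → V → V} (hF : Flat w (Ω ≃ₐ[F] Ω) ρ)
    (h3 : ∀ v : V, 3 • v = 0) (π x : Ω) (hπ : π ^ 8 = -3)
    (hker : ∀ g g', (∀ v, ρ g v = ρ g' v) → (g⁻¹ * g') π = π ∧ (g⁻¹ * g') x = x)
    (hx3 : ∀ g : Ω ≃ₐ[F] Ω, g π = π → g (x ^ 3) = x ^ 3) (j : ℕ) (hj : j ≤ 4) (hj3 : ¬ 3 ∣ j)
    (hxj : w (x - 1) ^ 24 = w 3 ^ j) : False :=
  kum hc.w3 hc.inv (mono_of hc hf) (disc_of hc) (res_of hf) hF h3 π x hπ hker hx3 j hj hj3 hxj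

/-- **KUM** for a multiplicative action -/
theorem kumF' (hc : Ctx F w) (hf : Full F w) {ρ : (Ω ≃ₐ[F] Ω) → V → V} (hF : Flat w (Ω ≃ₐ[F] Ω) ρ)
    (h1 : ∀ v, ρ 1 v = v) (hm : ∀ g g' v, ρ (g * g') v = ρ g (ρ g' v))
    (h3 : ∀ v : V, 3 • v = 0) (π x : Ω) (hπ : π ^ 8 = -3)
    (hker : ∀ g, (∀ v, ρ g v = v) → g π = π ∧ g x = x)
    (hx3 : ∀ g : Ω ≃ₐ[F] Ω, g π = π → g (x ^ 3) = x ^ 3) (j : ℕ) (hj : j ≤ 4) (hj3 : ¬ 3 ∣ j)
    (hxj : w (x - 1) ^ 24 = w 3 ^ j) : False :=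
  kumF hc hf hF h3 π x hπ
    (fun g g' h => hker _ fun v => by rw [hm, ← h, ← hm, inv_mul_cancel, h1]) hx3 j hj hj3 hxj

end Crest.Agent.T15.FlR
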