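import Crest.Agent.T15.TopH_88
import Crest.Agent.T15.Fl3_75

/-!
# Row 15: the local data at `3`, the extension of scalars, change of level (helper88)
-/

set_option autoImplicit false

noncomputable section

namespace Crest.Agent.T15.Top

open NumberField IsLocalRing Matrix Crest.Agent.R018.Placesx484 Crest.Agent.T15.Ps
open Crest.Agent.T15.C (Om Gam In De om Hyp Cls Triv)

/-- the local data attached to `Fl.Loc3` -/
def Lc.of {ι : Om →+* ℂ} {P : Plc} (h3 : P.rchar = 3) (L : Fl.Loc3 ι P) : Lc where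
  P := P
  h3 := h3
  Ω := ℂ
  w := L.w
  G := L.G
  r := L.rG
  hr := L.range_rG

theorem mp_mp {R S T : Type*} [CommRing R] [CommRing S] [CommRing T] (f : R →+* S) (f' : S →+* T)
    (ρ : Gam →* M2 R) : mp f' (mp f ρ) = mp (f'.comp f) ρ := by
  ext g a c; simp [mp]

theorem mp_apply {R S : Type*} [CommRing R] [CommRing S] (f : R →+* S) (ρ : Gam →* M2 R) (g : Gam) :
    mp f ρ g = (ρ g).map f := rfl

theorem det_mp {R S : Type*} [CommRing R] [CommRing S] (f : R →+* S) (ρ : Gam →* M2 R) (g : Gam) :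
    (mp f ρ g).det = f (ρ g).det := by
  simp [mp, det_fin_two]

theorem mp_eq_one {R S : Type*} [CommRing R] [CommRing S] (f : R →+* S) {ρ : Gam →* M2 R} {g : Gam}
    (h : ρ g = 1) : mp f ρ g = 1 := by
  simp [mp, h]

theorem mp_eq_one_iff {R S : Type*} [CommRing R] [CommRing S] {f : R →+* S}
    (hf : Function.Injective f) {ρ : Gam →* M2 R} {g : Gam} : mp f ρ g = 1 ↔ ρ g = 1 := by
  refine ⟨fun h => ?_, mp_eq_one f⟩
  have : f.mapMatrix (ρ g) = f.mapMatrix (1 : M2 R) := by rw [map_one]; exact h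
  exact Matrix.map_injective hf this

theorem Op.mp {R S : Type*} [CommRing R] [CommRing S] (f : R →+* S) {ρ : Gam →* M2 R} (h : Op ρ) :
    Op (mp f ρ) :=
  Subgroup.isOpen_mono (H₁ := ρ.ker) (H₂ := (Top.mp f ρ).ker) (fun _ hg => mp_eq_one f hg) h

theorem DetCyc.mp {R S : Type*} [CommRing R] [CommRing S] (f : R →+* S) {ρ : Gam →* M2 R}
    (h : DetCyc ρ) : DetCyc (mp f ρ) := fun g n a ζ hζ hg => by
  obtain ⟨c, hc⟩ := Ideal.mem_span_singleton'.1 (h g n a ζ hζ hg)
  refine Ideal.mem_span_singleton'.2 ⟨f c, ?_⟩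
  have := congrArg f hc
  simpa [det_mp, map_ofNat] using this

theorem mulVec_mp {R S : Type*} [CommRing R] [CommRing S] (f : R →+* S) (ρ : Gam →* M2 R) (g : Gam)
    (v : Fin 2 → R) : (fun i => f ((ρ g *ᵥ v) i)) = mp f ρ g *ᵥ fun i => f (v i) := by
  ext i; simp [mp, mulVec, dotProduct]

/-- flatness passes to a quotient of the coefficients -/
theorem Lc.Fl.mp {X : Lc} {R S : Type} [CommRing R] [CommRing S] {f : R →+* S}
    (hf : Function.Surjective f) {ρ : Gam →* M2 R} (h : X.Fl fun g (v : Fin 2 → R) => ρ g *ᵥ v) :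
    X.Fl fun g (v : Fin 2 → S) => Top.mp f ρ g *ᵥ v :=
  h.quot (f.toAddMonoidHom.compLeft (Fin 2)) (fun y => ⟨fun i => (hf (y i)).choose,
    funext fun i => (hf (y i)).choose_spec⟩) fun g _ v => mulVec_mp f ρ g v

/-- flatness passes to a finite extension of the coefficients -/
theorem Lc.Fl.ext {X : Lc} {R S : Type} [CommRing R] [CommRing S] (f : R →+* S) {ι : Type}
    [Fintype ι] (b : ι → S) (hb : ∀ y : S, ∃ c : ι → R, y = ∑ j, b j * f (c j)) {ρ : Gam →* M2 R}
    (h : X.Fl fun g (v : Fin 2 → R) => ρ g *ᵥ v) :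
    X.Fl fun g (v : Fin 2 → S) => Top.mp f ρ g *ᵥ v := by
  refine (h.pi (ι := ι)).quot
    { toFun := fun v i => ∑ j, b j * f (v j i)
      map_zero' := by ext; simp
      map_add' := fun v v' => by ext; simp [mul_add, Finset.sum_add_distrib] } (fun y => ?_)
    fun g _ v => ?_
  · choose c hc using fun i => hb (y i)
    exact ⟨fun j i => c i j, funext fun i => (hc i).symm⟩
  · ext i
    simp only [AddMonoidHom.coe_mk, ZeroHom.coe_mk, mulVec, dotProduct, Fin.sum_univ_two, map_add,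
      map_mul, mp_apply, map_apply, Finset.mul_sum, ← Finset.sum_add_distrib]
    exact Finset.sum_congr rfl fun j _ => by ring

theorem Lift.flat_res {X : Lc} {O : Type} [CommRing O] [IsLocalRing O] (h3 : (3 : O) ∈ maximalIdeal O)
    {ρ : Gam →* M2 O} (h : Lift X ρ) :
    X.Fl fun g (v : Fin 2 → ResidueField O) => mp (residue O) ρ g *ᵥ v := by
  let q : Cn O 1 →+* ResidueField O := Ideal.Quotient.lift _ (residue O) fun a ha => by
    obtain ⟨c, rfl⟩ := Ideal.mem_span_singleton'.1 ha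
    rw [residue_eq_zero_iff, pow_one]
    exact Ideal.mul_mem_left _ _ h3
  have hq : Function.Surjective q := fun y => by
    obtain ⟨x, rfl⟩ := residue_surjective y
    exact ⟨Ideal.Quotient.mk _ x, rfl⟩
  have := (h.flat 1).mp hq
  rwa [mp_mp] at this

theorem bGlue (X : Lc) : BGlue X := by
  intro hE hR hD O _ _ _ _ N ρ h0 hl
  obtain ⟨O', _, _, _, _, _, _, i, hi, ⟨b⟩, hj⟩ := hE O h0.card
  have e : mp (residue O') (mp (algebraMap O O') ρ) =
      mp (ResidueField.map (algebraMap O O')) (mp (residue O) ρ) := by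
    rw [mp_mp, mp_mp, ResidueField.map_comp_residue]
  have e' : ∀ n, mp (Ideal.Quotient.mk (Ideal.span {(3 : O') ^ n})) (mp (algebraMap O O') ρ) =
      mp (cnMap O O' n) (mp (Ideal.Quotient.mk (Ideal.span {(3 : O) ^ n})) ρ) := fun n => by
    rw [mp_mp, mp_mp]; rfl
  refine ⟨O', _, _, _, ‹_›, algebraMap O O', ⟨i, hi⟩, ?_, ?_, ⟨fun n => ?_, hl.det.mp _,
    fun P hP g hg h => ?_, fun n => ?_⟩, hj⟩
  · rw [e]
    exact hR _ _ _ _ N h0 ⟨residue O' i, by rw [← map_pow, hi]; simp⟩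
  · rw [e]
    exact hD _ _ _ _ N h0 (hl.flat_res Coef.h3)
  · rw [e']; exact (hl.op n).mp _
  · rw [e, mp_eq_one_iff (RingHom.injective _)] at h
    exact mp_eq_one _ (hl.min P hP g hg h)
  · rw [e']
    refine (hl.flat n).ext _ (fun j => Ideal.Quotient.mk _ (b j)) fun y => ?_
    obtain ⟨x, rfl⟩ := Ideal.Quotient.mk_surjective y
    refine ⟨fun j => Ideal.Quotient.mk _ (b.repr x j), ?_⟩
    conv_lhs => rw [← b.sum_repr x]
    rw [map_sum]
    refine Finset.sum_congr rfl fun j _ => ?_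
    rw [Algebra.smul_def, map_mul, mul_comm]; rfl

end Crest.Agent.T15.Top
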