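import Crest.Agent.T15.F3A_80
import Crest.Agent.T15.F3Ch_90
import Crest.Agent.T15.MoB_29
import Crest.Agent.T15.Ar_22
import Crest.Agent.T15.TopB_88
import Crest.Agent.T15.FlG_23

/-!
# Row 15, block F (helper80): the certificate at `3`
-/

set_option autoImplicit false
set_option linter.unusedSectionVars false

namespace Crest.Agent.T15.F3

open Polynomial
open scoped NNReal
open Crest.Agent.R013.RR7_948 Crest.Agent.R013.RR8_948 Crest.Agent.R013.RR9_948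
open Crest.Agent.R013.RR11_948 Crest.Agent.R013.RR12_948 Crest.Agent.R013.PicD_398
open Crest.Agent.R013.Frob1_914 Crest.Agent.T15.Hy
open Crest.Agent.T15.C (Om Gam In)

/-- helper90's theorem on a chain of three elliptic curves -/
def ChainStmt : Prop :=
  ∀ (C K : Type) [Field C] [IsAlgClosed C] [CharZero C] [Field K] [Algebra C K]
    [Algebra (RatFunc C) K] [IsScalarTower C (RatFunc C) K] [FiniteDimensional (RatFunc C) K]
    [Algebra.IsSeparable (RatFunc C) K] (v : Valuation C ℝ≥0)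
    (G : Type) [Group G] [MulSemiringAction G C],
    (∀ (g : G) (a : C), v (g • a) = v a) → (∀ (g : G) (a : C), v a ≤ 1 → v (g • a - a) < 1) →
    (∀ a : C, (Set.range fun g : G => g • a).Finite) →
    ∀ (e : G → SI C K C K), (∀ g a, (e g).s a = g • a) →
    ∀ (c a0 a1 a2 p0 p1 p2 s0 s1 s2 : C) (z w : K), Hyp (Mo.Fm c a0 a1 a2) z w →
    v a0 < v a1 → v a1 < v a2 → a0 ≠ 0 → v 2 = 1 →
    (∀ g : G, g • p0 = p0 ∧ g • p1 = p1 ∧ g • p2 = p2 ∧ g • s0 = s0 ∧ g • s1 = s1 ∧ g • s2 = s2) →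
    v p0 ^ 2 = v a0 → v p1 ^ 2 = v a1 → v p2 ^ 2 = v a2 →
    v s0 ^ 2 = v c * v p0 ^ 3 * v a1 * v a2 → v s1 ^ 2 = v c * v p1 ^ 5 * v a2 →
    v s2 ^ 2 = v c * v p2 ^ 7 → (∀ g, (e g).f z = z ∧ (e g).f w = w) →
    ∀ (n : ℕ), n ≠ 0 →
    ∀ (V : Type) [AddCommGroup V] [Finite V] (i : V →+ Pic C K), Function.Injective i →
    (∀ u, n • i u = 0) → ∀ ρ : G → V → V, (∀ g u, i (ρ g u) = (e g).pic (i u)) → FlR.Flat v G ρ

theorem chainStmt : ChainStmt := by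
  intro C K _ _ _ _ _ _ _ _ _ v G _ _ hinv hres horb e he c a0 a1 a2 p0 p1 p2 s0 s1 s2 z w h h01 h12 ha
    h2 hfix hp0 hp1 hp2 hs0 hs1 hs2 hz n hn V _ _ i hi hV ρ hρ
  exact flat_chain h h2 ha h01 h12 hp0 hp1 hp2 hs0 hs1 hs2 hinv hres horb he (fun g => (hz g).1)
    (fun g => (hz g).2) hfix hn i hi hV hρ

section

variable {C K : Type} [Field C] [IsAlgClosed C] [CharZero C] [Field K] [Algebra C K]
  [Algebra (RatFunc C) K] [IsScalarTower C (RatFunc C) K] [FiniteDimensional (RatFunc C) K]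
  [Algebra.IsSeparable (RatFunc C) K] {v : Valuation C ℝ≥0}
  {G : Type} [Group G] [MulSemiringAction G C]

theorem chain_pow_80 (h3 : v 3 < 1) (hinv : ∀ (g : G) (a : C), v (g • a) = v a)
    (hres : ∀ (g : G) (a : C), v a ≤ 1 → v (g • a - a) < 1)
    (horb : ∀ a : C, (Set.range fun g : G => g • a).Finite) (e : G → SI C K C K)
    (he : ∀ g a, (e g).s a = g • a) {c a0 a1 a2 : C} {z w : K} (h : Hyp (Mo.Fm c a0 a1 a2) z w)
    {m m0 m1 m2 : ℤ} (hc : v c = v 3 ^ (2 * m)) (h0 : v a0 = v 3 ^ (4 * m0))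
    (h1 : v a1 = v 3 ^ (4 * m1)) (h2 : v a2 = v 3 ^ (4 * m2)) (l1 : m1 < m0) (l2 : m2 < m1)
    (hz : ∀ g, (e g).f z = z ∧ (e g).f w = w) {n : ℕ} (hn : n ≠ 0) {V : Type} [AddCommGroup V]
    [Finite V] (i : V →+ Pic C K) (hi : Function.Injective i) (hV : ∀ u, n • i u = 0)
    (ρ : G → V → V) (hρ : ∀ g u, i (ρ g u) = (e g).pic (i u)) : FlR.Flat v G ρ := by
  have p3 : 0 < v 3 := (Valuation.pos_iff v).2 three_ne_zero
  have fx : ∀ (g : G) (k : ℤ), g • (3 : C) ^ k = 3 ^ k := fun g k => by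
    change MulSemiringAction.toRingHom G C g _ = _
    rw [map_zpow₀, map_ofNat]
  refine chainStmt C K v G hinv hres horb e he c a0 a1 a2 (3 ^ (2 * m0)) (3 ^ (2 * m1)) (3 ^ (2 * m2))
    (3 ^ (m + 3 * m0 + 2 * m1 + 2 * m2)) (3 ^ (m + 5 * m1 + 2 * m2)) (3 ^ (m + 7 * m2)) z w h
    ?_ ?_ ?_ (v_two_80 h3) (fun g => ⟨fx g _, fx g _, fx g _, fx g _, fx g _, fx g _⟩) ?_ ?_ ?_ ?_ ?_ ?_
    hz n hn V i hi hV ρ hρ
  · rw [h0, h1]; exact zpow_lt_zpow_right_of_lt_one₀ p3 h3 (by omega)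
  · rw [h1, h2]; exact zpow_lt_zpow_right_of_lt_one₀ p3 h3 (by omega)
  · rintro rfl
    exact (zpow_pos p3 _).ne (by rw [← h0, map_zero])
  all_goals
    simp only [map_zpow₀, hc, h0, h1, h2, ← zpow_natCast, ← zpow_mul, ← zpow_add₀ p3.ne']
    congr 1
    push_cast
    ring

/-- flatness for the normal form with `v₃(p₁) = 4`, `v₃(t) = 2` -/
theorem flat_par_80 (h3 : v 3 < 1) (hinv : ∀ (g : G) (a : C), v (g • a) = v a)
    (hres : ∀ (g : G) (a : C), v a ≤ 1 → v (g • a - a) < 1)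
    (horb : ∀ a : C, (Set.range fun g : G => g • a).Finite) (e : G → SI C K C K)
    (he : ∀ g a, (e g).s a = g • a) (Q : Mo.Par C) (v1 : v Q.p1 = v 3 ^ 4) (v2 : v Q.p2 = 1)
    (v3 : v Q.p3 = 1) (w1 : v Q.d1 = 1) (w2 : v Q.d2 = 1) (w3 : v Q.d3 = 1) (vt : v Q.t = v 3 ^ 2)
    (f1 : ∀ g : G, g • Q.p1 = Q.p1) (f2 : ∀ g : G, g • Q.p2 = Q.p2) (f3 : ∀ g : G, g • Q.p3 = Q.p3)
    {z w : K} (h : Hyp Q.F z w)
    (hz : ∀ g, g • Q.al = Q.al → g • Q.be = Q.be → (e g).f z = z ∧ (e g).f w = w)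
    {n : ℕ} (hn : n ≠ 0) {V : Type} [AddCommGroup V]
    [Finite V] (i : V →+ Pic C K) (hi : Function.Injective i) (hV : ∀ u, n • i u = 0)
    (ρ : G → V → V) (hρ : ∀ g u, i (ρ g u) = (e g).pic (i u)) : FlR.Flat v G ρ := by
  have p3 : 0 < v 3 := (Valuation.pos_iff v).2 three_ne_zero
  obtain ⟨-, -, k1, k2, k3, m, kc⟩ := vals3_80 h3 p3.ne' v1 v2 v3 w1 w2 w3 vt Q.al_sq Q.be_sq
    (by linear_combination Q.sq_sub) (by linear_combination Q.sq_sub3)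
  have hz' : ∀ g, (e g).f z = z ∧ (e g).f w = w := fun g => hz g
    (fix_of_sq_80 (v_two_80 h3) hres Q.al_sq (by simp [v2, w2])
      (by simp [Mo.Par.d2, smul_mul', smul_pow', smul_sub, f1, f2, f3]))
    (fix_of_sq_80 (v_two_80 h3) hres Q.be_sq (by simp [v3, w3])
      (by simp [Mo.Par.d3, smul_mul', smul_pow', smul_sub, f1, f2, f3]))
  rcases k3 with k3 | k3
  · exact chain_pow_80 h3 hinv hres horb e he (c := Q.c) (a0 := Q.a3) (a1 := Q.a1) (a2 := Q.a2)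
      (by convert h using 1; simp only [Mo.Par.F, Mo.Fm]; ring) kc k3 k1 k2 (by norm_num)
      (by norm_num) hz' hn i hi hV ρ hρ
  · exact chain_pow_80 h3 hinv hres horb e he (c := Q.c) (a0 := Q.a1) (a1 := Q.a2) (a2 := Q.a3)
      h kc k1 k2 k3 (by norm_num) (by norm_num) hz' hn i hi hV ρ hρ

omit [IsAlgClosed C] [CharZero C] in
/-- a semilinear automorphism fixing `A, B², u` and the parameters fixes `z, w` -/
theorem fix_zw_80 (e : SI C K C K) (Q : Mo.Par C) (f1 : e.s Q.p1 = Q.p1) (f2 : e.s Q.p2 = Q.p2)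
    (f3 : e.s Q.p3 = Q.p3) (ft : e.s Q.t = Q.t) (fa : e.s Q.al = Q.al) (fb : e.s Q.be = Q.be)
    {A B2 u : K} (hA : e.f A = A) (hB : e.f B2 = B2) (hu : e.f u = u) :
    e.f ((Q.map (algebraMap C K)).z A B2 u) = (Q.map (algebraMap C K)).z A B2 u ∧
      e.f ((Q.map (algebraMap C K)).w A B2 u) = (Q.map (algebraMap C K)).w A B2 u := by
  have hz : e.f ((Q.map (algebraMap C K)).z A B2 u) = (Q.map (algebraMap C K)).z A B2 u := by
    simp [Mo.Par.z, Mo.Par.V', Mo.Par.R', Mo.Par.V, Mo.Par.R, Mo.Par.d2, Mo.Par.d3, e.comm, f1, f2, f3,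
      ft, fa, fb, hA, hB, hu, map_ofNat]
  refine ⟨hz, ?_⟩
  simp [Mo.Par.w, hz, Mo.Par.a1, Mo.Par.a2, Mo.Par.b, Mo.Par.d1, e.comm, f1, f2, f3, fa, fb, hA]

end

theorem v_int_80 {C : Type*} [Field C] {v : Valuation C ℝ≥0} (h3 : v 3 < 1) {a : ℤ} (ha : a ≠ 0) :
    v (a : C) = v 3 ^ padicValInt 3 a := by
  have : Fact (Nat.Prime 3) := ⟨Nat.prime_three⟩
  obtain ⟨b, hb⟩ := padicValInt_dvd (p := 3) a
  have hb3 : ¬ (3 : ℤ) ∣ b := fun ⟨c, hc⟩ => by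
    have := (padicValInt_dvd_iff (p := 3) (padicValInt 3 a + 1) a).1 ⟨c, by
      nth_rewrite 1 [hb]; rw [hc]; push_cast; ring⟩
    omega
  have hv : v (b : C) = 1 := by
    have := Fl.Unr.w_natCast h3 (n := b.natAbs) fun h => hb3 (Int.natAbs_dvd_natAbs.1 h)
    rcases Int.natAbs_eq b with h | h <;> rw [h] <;> simpa using this
  nth_rewrite 1 [hb]
  push_cast
  rw [map_mul, map_pow, hv, mul_one]

/-- **flatness at `3` of the torsion of `Pic` of the curve `Y`** -/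
theorem fl_pic_zw {ι : Om →+* ℂ} {P : Top.Plc} (h3 : P.rchar = 3) (L : Fl.Loc3 ι P)
    {del : ℚ} {m p1 p2 p3 t D : ℤ} (hc : Ar.Cert del m p1 p2 p3 t D) (Q : Mo.Par Om)
    (e1 : Q.p1 = p1) (e2 : Q.p2 = p2) (e3 : Q.p3 = p3) (et : Q.t = t)
    {K : Type} [Field K] [Algebra Om K] [Algebra (RatFunc Om) K] [IsScalarTower Om (RatFunc Om) K]
    [FiniteDimensional (RatFunc Om) K] [Algebra.IsSeparable (RatFunc Om) K] {z w : K}
    (h : Hyp Q.F z w) (e : Gam → SI Om K Om K) (he : ∀ g a, (e g).s a = g a)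
    (hz : ∀ g : Gam, g Q.al = Q.al → g Q.be = Q.be → (e g).f z = z ∧ (e g).f w = w)
    {n : ℕ} (hn : n ≠ 0) {V : Type} [AddCommGroup V] [Finite V] (i : V →+ Pic Om K)
    (hi : Function.Injective i) (hV : ∀ u, n • i u = 0) (α : Gam → V → V)
    (hα : ∀ g u, i (α g u) = (e g).pic (i u)) : (Top.Lc.of h3 L).Fl α := by
  let _ : MulSemiringAction L.G Om := MulSemiringAction.compHom Om L.rG
  have hs : ∀ (g : L.G) (a : Om), g • a = L.rG g a := fun _ _ => rfl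
  have h3' : (L.w.comap ι) 3 < 1 := by simpa [map_ofNat] using L.w3
  obtain ⟨n2, n3, n4, n5, n6⟩ := hc.only_p1 (l := 3) Nat.prime_three (by norm_num) hc.three_dvd
  refine flat_map_80 (v := L.w.comap ι) ι (fun x hx => hx) (fun g x => L.iota_rG g x)
    (flat_par_80 h3' (fun g a => ?_) (fun g a ha => ?_) (fun a => ?_) (fun g => e (L.rG g))
      (fun g a => he _ a) Q ?_ ?_ ?_ ?_ ?_ ?_ ?_ (fun g => ?_) (fun g => ?_) (fun g => ?_) h
      (fun g => hz _) hn i hi hV _ fun g => hα _)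
  · simp [hs, L.iota_rG, L.w_G]
  · simpa [hs, L.iota_rG] using L.w_G_sub g ha
  · exact (FlR.finite_orbit (F := ℚ) a).subset (by rintro _ ⟨g, rfl⟩; exact ⟨L.rG g, rfl⟩)
  · rw [e1, v_int_80 h3' hc.p1_ne, hc.v3]
  · rw [e2, v_int_80 h3' hc.p2_ne, Ar.val_zero n2, pow_zero]
  · rw [e3, v_int_80 h3' hc.p3_ne, Ar.val_zero n3, pow_zero]
  · rw [Mo.Par.d1, e2, e3, ← Int.cast_sub, v_int_80 h3' hc.d1_ne, Ar.val_zero n4, pow_zero]
  · rw [Mo.Par.d2, e1, e3, ← Int.cast_sub, v_int_80 h3' hc.d2_ne, Ar.val_zero n5, pow_zero]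
  · rw [Mo.Par.d3, e1, e2, ← Int.cast_sub, v_int_80 h3' hc.d3_ne, Ar.val_zero n6, pow_zero]
  · rw [et, v_int_80 h3' hc.t_ne, hc.v3t]
  · rw [e1, hs, map_intCast]
  · rw [e2, hs, map_intCast]
  · rw [e3, hs, map_intCast]

/-- the same for `Y = ℚbar(A, B², u)` with the Galois action that fixes `A, B², u` -/
theorem fl_pic {ι : Om →+* ℂ} {P : Top.Plc} (h3 : P.rchar = 3) (L : Fl.Loc3 ι P)
    {del : ℚ} {m p1 p2 p3 t D : ℤ} (hc : Ar.Cert del m p1 p2 p3 t D) (Q : Mo.Par Om)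
    (e1 : Q.p1 = p1) (e2 : Q.p2 = p2) (e3 : Q.p3 = p3) (et : Q.t = t)
    {K : Type} [Field K] [Algebra Om K] [Algebra (RatFunc Om) K] [IsScalarTower Om (RatFunc Om) K]
    [FiniteDimensional (RatFunc Om) K] [Algebra.IsSeparable (RatFunc Om) K] {A B2 u : K}
    (h : Mo.IsY Q A B2 u) (e : Gam → SI Om K Om K) (he : ∀ g a, (e g).s a = g a)
    (hA : ∀ g, (e g).f A = A) (hB : ∀ g, (e g).f B2 = B2) (hu : ∀ g, (e g).f u = u)
    {n : ℕ} (hn : n ≠ 0) {V : Type} [AddCommGroup V] [Finite V] (i : V →+ Pic Om K)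
    (hi : Function.Injective i) (hV : ∀ u, n • i u = 0) (α : Gam → V → V)
    (hα : ∀ g u, i (α g u) = (e g).pic (i u)) : (Top.Lc.of h3 L).Fl α :=
  fl_pic_zw h3 L hc Q e1 e2 e3 et h.hyp e he (fun g ha hb => fix_zw_80 (e g) Q
    (by rw [he, e1, map_intCast]) (by rw [he, e2, map_intCast]) (by rw [he, e3, map_intCast])
    (by rw [he, et, map_intCast]) (by rw [he, ha]) (by rw [he, hb]) (hA g) (hB g) (hu g))
    hn i hi hV α hα

end Crest.Agent.T15.F3
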