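import Crest.Agent.T15.CDef_7
import Crest.Agent.R018.TameP_31

/-!
# Row 15, block F: elements fixed by inertia have integral valuation (helper67)
-/

set_option autoImplicit false

namespace Crest.Agent.T15.Rb

open NumberField IsDedekindDomain Crest.Agent.R018.Placesx484 Crest.Agent.R018.Placesx484.Place
open scoped Pointwise

theorem liesOver_int {L : Type*} [Field L] [NumberField L] (P : Place L) :
    P.ideal.LiesOver (Ideal.span {(P.rchar : ℤ)}) := by
  have hmax : (Ideal.span {(P.rchar : ℤ)}).IsMaximal := PrincipalIdealRing.isMaximal_of_irreducible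
      (Nat.prime_iff_prime_int.mp P.rchar_prime).irreducible
  constructor
  have hle : Ideal.span {(P.rchar : ℤ)} ≤ P.ideal.under ℤ := by
    rw [Ideal.span_singleton_le_iff_mem, Ideal.under_def, Ideal.mem_comap]
    simpa using P.rchar_mem
  exact hmax.eq_of_le (Ideal.IsPrime.ne_top inferInstance) hle

theorem val_of_unram {T : Type*} [Field T] [NumberField T] (Q : Place T)
    (he : Q.ideal.ramificationIdx ℤ = 1) {x : T} (hx : x ≠ 0) :
    ∃ m : ℤ, Q.v (x * (Q.rchar : T) ^ m) = 1 := by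
  have := liesOver_int Q
  set w : HeightOneSpectrum (𝓞 T) := ⟨Q.ideal, Q.isPrime, Q.ne_bot⟩ with hw
  have hl0 : ((Q.rchar : ℕ) : 𝓞 T) ≠ 0 := by exact_mod_cast Q.rchar_prime.ne_zero
  have hmap : Ideal.map (algebraMap ℤ (𝓞 T)) (Ideal.span {(Q.rchar : ℤ)}) =
      Ideal.span {((Q.rchar : ℕ) : 𝓞 T)} := by
    rw [Ideal.map_span, Set.image_singleton]
    simp
  rw [Ideal.IsDedekindDomain.ramificationIdx_eq_multiplicity (Ideal.span {(Q.rchar : ℤ)}) Q.ideal
    (by rw [hmap, Ne, Ideal.span_singleton_eq_bot]; exact hl0), hmap] at he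
  have h1 : w.valuation T (Q.rchar : T) = WithZero.exp (-1 : ℤ) := by
    rw [← map_natCast (algebraMap (𝓞 T) T), w.valuation_of_algebraMap,
      w.intValuation_eq_exp_neg_multiplicity hl0, he]
    rfl
  have hvx : w.valuation T x ≠ 0 := (Valuation.ne_zero_iff _).2 hx
  obtain ⟨i, hi⟩ : ∃ i : ℤ, w.valuation T x = WithZero.exp i := ⟨_, (WithZero.exp_log hvx).symm⟩
  have h2 : w.valuation T (x * (Q.rchar : T) ^ i) = 1 := by
    rw [map_mul, map_zpow₀, h1, hi, ← WithZero.exp_zsmul, ← WithZero.exp_add]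
    simp
  have h0 : x * (Q.rchar : T) ^ i ≠ 0 := fun h => by simp [h] at h2
  refine ⟨i, le_antisymm ((numberField_val_iff Q _).2 h2.le) ?_⟩
  have h3 := (numberField_val_iff Q (x * (Q.rchar : T) ^ i)⁻¹).2 (by rw [map_inv₀, h2, inv_one])
  rwa [map_inv₀, inv_le_one₀ (zero_lt_iff.2 ((Valuation.ne_zero_iff _).2 h0))] at h3

theorem val_fixed_fin {L : Type*} [Field L] [NumberField L] [IsGalois ℚ L] (P : Place L) {x : L}
    (hx : x ≠ 0) (h : ∀ σ ∈ P.ideal.inertia (L ≃ₐ[ℚ] L), σ x = x) :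
    ∃ m : ℤ, P.v (x * (P.rchar : L) ^ m) = 1 := by
  set I := P.ideal.inertia (L ≃ₐ[ℚ] L) with hI
  let T : IntermediateField ℚ L := FixedPoints.intermediateField I
  have hG : IsGaloisGroup I T L := IsGaloisGroup.subgroup (L ≃ₐ[ℚ] L) ℚ L I
  have hG' : IsGaloisGroup I (𝓞 T) (𝓞 L) := .of_isFractionRing _ _ _ T L
  have := liesOver_int P
  set p : Ideal ℤ := Ideal.span {(P.rchar : ℤ)} with hp
  have hmax : p.IsMaximal := PrincipalIdealRing.isMaximal_of_irreducible
      (Nat.prime_iff_prime_int.mp P.rchar_prime).irreducible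
  have hfin : Finite (ℤ ⧸ p) := by
    have : p ≠ ⊥ := by
      rw [hp, Ne, Ideal.span_singleton_eq_bot]
      exact_mod_cast P.rchar_prime.ne_zero
    exact Ring.HasFiniteQuotients.finiteQuotient this
  have hover : P.ideal.LiesOver (P.res T).ideal := ⟨rfl⟩
  have hfin' : Finite (𝓞 T ⧸ (P.res T).ideal) := Ring.HasFiniteQuotients.finiteQuotient (P.res T).ne_bot
  have := (P.res T).isMaximal
  have h1 : Nat.card I = P.ideal.ramificationIdx ℤ :=
    (Ideal.card_inertia_eq_ramificationIdxIn p P.ideal).trans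
      (Ideal.ramificationIdxIn_eq_ramificationIdx p P.ideal (L ≃ₐ[ℚ] L))
  have h2 : Nat.card (P.ideal.inertia I) = P.ideal.ramificationIdx (𝓞 T) :=
    (Ideal.card_inertia_eq_ramificationIdxIn (P.res T).ideal P.ideal).trans
      (Ideal.ramificationIdxIn_eq_ramificationIdx (P.res T).ideal P.ideal I)
  have h3 : P.ideal.inertia I = ⊤ := eq_top_iff.2 fun σ _ => σ.2
  rw [h3, Subgroup.card_top, h1] at h2
  have h4 := Ideal.ramificationIdx_tower (R := ℤ) (P.res T).ideal P.ideal
  rw [← h2, right_eq_mul₀ (Ideal.ramificationIdx_pos P.ideal ℤ).ne'] at h4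
  have hxT : x ∈ T := fun σ => h σ σ.2
  obtain ⟨m, hm⟩ := val_of_unram (P.res T) h4 (x := ⟨x, hxT⟩) fun e => hx (congrArg Subtype.val e)
  rw [v_res_eq_one_iff, rchar_res, map_mul, map_zpow₀, map_natCast] at hm
  exact ⟨m, hm⟩

/-- **an element fixed by inertia has the valuation of a power of the residue characteristic** -/
theorem val_fixed {E : Type*} [Field E] [CharZero E] [IsGalois ℚ E] (P : Place E) {x : E}
    (hx : x ≠ 0) (h : ∀ σ ∈ P.ideal.inertia (E ≃ₐ[ℚ] E), σ x = x) :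
    ∃ m : ℤ, P.v (x * (P.rchar : E) ^ m) = 1 := by
  let K := IntermediateField.adjoin ℚ {x}
  have : FiniteDimensional ℚ K := IntermediateField.adjoin.finiteDimensional
    (Algebra.IsAlgebraic.isAlgebraic (R := ℚ) x).isIntegral
  let L : IntermediateField ℚ E := IntermediateField.normalClosure ℚ K E
  have : NumberField L := { to_finiteDimensional := inferInstance }
  have : Normal ℚ L := normalClosure.normal ℚ K E
  have : IsGalois ℚ L := ⟨⟩
  have hxL : x ∈ L := IntermediateField.le_normalClosure K (IntermediateField.mem_adjoin_simple_self ℚ x)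
  obtain ⟨m, hm⟩ := val_fixed_fin (P.res L) (x := ⟨x, hxL⟩) (fun e => hx (congrArg Subtype.val e))
    fun σ hσ => by
      obtain ⟨τ, hτ, e⟩ := Crest.Agent.R018.Tamex31.exists_inertia_lift P σ hσ
      exact Subtype.ext ((e ⟨x, hxL⟩).symm.trans (h τ hτ))
  rw [v_res_eq_one_iff, rchar_res, map_mul, map_zpow₀, map_natCast] at hm
  exact ⟨m, hm⟩

/-- an element whose square has odd valuation is moved by inertia -/
theorem exists_move {E : Type*} [Field E] [CharZero E] [IsGalois ℚ E] (P : Place E) {x : E} {j : ℤ}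
    (hj : Odd j) (h : P.v (x ^ 2 * (P.rchar : E) ^ j) = 1) :
    ∃ σ ∈ P.ideal.inertia (E ≃ₐ[ℚ] E), σ x ≠ x := by
  by_contra hc
  push Not at hc
  have hx : x ≠ 0 := fun e => by simp [e] at h
  obtain ⟨m, hm⟩ := val_fixed P hx hc
  have hl0 : (P.rchar : E) ≠ 0 := by exact_mod_cast P.rchar_prime.ne_zero
  have hl : P.v (P.rchar : E) < 1 := lt_of_le_of_ne (P.v_natCast_le_one _)
    fun e => (P.v_natCast_eq_one_iff _).1 e dvd_rfl
  have h1 : P.v (P.rchar : E) ^ (2 * m - j) = 1 := by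
    have e : (x * (P.rchar : E) ^ m) ^ 2 = x ^ 2 * (P.rchar : E) ^ j * (P.rchar : E) ^ (2 * m - j) := by
      rw [mul_assoc, ← zpow_add₀ hl0, add_sub_cancel, mul_pow, mul_comm 2 m, zpow_mul, zpow_ofNat]
    have := congrArg P.v e
    rwa [map_pow, hm, one_pow, map_mul, h, one_mul, map_zpow₀, eq_comm] at this
  have h2 := (zpow_eq_one_iff_right₀ zero_le hl.ne).1 h1
  obtain ⟨k, hk⟩ := hj
  omega

end Crest.Agent.T15.Rb
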