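import Crest.Agent.T15.TopB_88
import Crest.Agent.T15.RbA_67

/-!
# Row 15: the leaf `Top.ResStmt` (helper67)
-/

set_option autoImplicit false

noncomputable section

namespace Crest.Agent.T15.Rb

open NumberField Matrix Crest.Agent.R018.Placesx484 Crest.Agent.T15.Ps Crest.Agent.T15.Top
open Crest.Agent.T15.C (Om Gam In om om_spec Hyp)

section mat
variable {K : Type*} [Field K] {J : M2 K}

/-- the commutant of a non-scalar matrix -/
theorem comm_eq (h01 : J 0 1 ≠ 0) {X : M2 K} (h : X * J = J * X) :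
    ∃ a b : K, X = a • (1 : M2 K) + b • J := by
  have e0 := congrFun (congrFun h 0) 0
  have e1 := congrFun (congrFun h 0) 1
  simp only [Matrix.mul_apply, Fin.sum_univ_two] at e0 e1
  refine ⟨X 0 0 - X 0 1 / J 0 1 * J 0 0, X 0 1 / J 0 1, ?_⟩
  ext i j
  fin_cases i <;> fin_cases j <;> simp <;> field_simp
  · linear_combination -e0
  · linear_combination -e1

theorem ab_mul (hJ : J * J = -1) (a b c d : K) :
    (a • (1 : M2 K) + b • J) * (c • (1 : M2 K) + d • J) =
      (a * c - b * d) • (1 : M2 K) + (a * d + b * c) • J := by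
  simp only [add_mul, mul_add, smul_mul_assoc, mul_smul_comm, one_mul, mul_one, hJ]
  module

theorem tr_zero (hJ : J * J = -1) (h01 : J 0 1 ≠ 0) : J 1 1 = -J 0 0 := by
  have e1 := congrFun (congrFun hJ 0) 1
  simp only [Matrix.mul_apply, Fin.sum_univ_two] at e1
  simp at e1
  exact mul_left_cancel₀ h01 (by linear_combination e1)

theorem det_ab (hJ : J * J = -1) (h01 : J 0 1 ≠ 0) (a b : K) :
    (a • (1 : M2 K) + b • J).det = a ^ 2 + b ^ 2 := by
  have e0 := congrFun (congrFun hJ 0) 0
  simp only [Matrix.mul_apply, Fin.sum_univ_two] at e0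
  simp [det_fin_two, tr_zero hJ h01] at e0 ⊢
  linear_combination (-b ^ 2) * e0

/-- `1, J, C, C J` span the matrix algebra -/
theorem span_top (h2 : (2 : K) ≠ 0) (hJ : J * J = -1) (h01 : J 0 1 ≠ 0) {C C' : M2 K}
    (hC : C * J = -(J * C)) (hC' : C * C' = 1) {S : Submodule K (M2 K)} (h1 : 1 ∈ S) (hJS : J ∈ S)
    (hCS : C ∈ S) (hCJ : C * J ∈ S) : S = ⊤ := by
  have hC'' : C' * C = 1 := mul_eq_one_comm.1 hC'
  have e : J * C' = -(C' * J) := by
    have := congrArg (fun Y => C' * Y * C') hC
    simp only [← mul_assoc, hC'', one_mul, mul_neg, neg_mul] at this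
    rwa [mul_assoc (C' * J), hC', mul_one] at this
  refine eq_top_iff.2 fun X _ => ?_
  obtain ⟨a, b, h3⟩ := comm_eq h01 (X := X - J * X * J) (by
    rw [sub_mul, mul_sub, mul_assoc (J * X), hJ, ← mul_assoc, ← mul_assoc, hJ]
    simp only [mul_neg, neg_mul, mul_one, one_mul, sub_neg_eq_add, add_comm])
  obtain ⟨c, d, h4⟩ := comm_eq h01 (X := C' * (X + J * X * J)) (by
    have e1 : (X + J * X * J) * J = -(J * (X + J * X * J)) := by
      rw [add_mul, mul_add, mul_assoc (J * X), hJ, ← mul_assoc, ← mul_assoc, hJ]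
      simp only [mul_neg, neg_mul, mul_one, one_mul, neg_add_rev, neg_neg]
    rw [← mul_assoc J, e, neg_mul, mul_assoc, e1, mul_neg, mul_assoc C' J])
  have h5 : X + J * X * J = c • C + d • (C * J) := by
    have := congrArg (fun Y => C * Y) h4
    simpa only [← mul_assoc, hC', one_mul, mul_add, mul_smul_comm, mul_one] using this
  have h6 : (2 : K) • X = (a • (1 : M2 K) + b • J) + (c • C + d • (C * J)) := by
    rw [← h3, ← h5, two_smul]; abel
  rw [← S.smul_mem_iff h2, h6]
  exact S.add_mem (S.add_mem (S.smul_mem _ h1) (S.smul_mem _ hJS))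
    (S.add_mem (S.smul_mem _ hCS) (S.smul_mem _ hCJ))

end mat

section F3
variable {k : Type} [Field k]

theorem three_zero (h : Nat.card k = 3) : (3 : k) = 0 := by
  have : Finite k := Nat.finite_of_card_ne_zero (by omega)
  have := Fintype.ofFinite k
  have e := FiniteField.cast_card_eq_zero k
  rwa [← Nat.card_eq_fintype_card, h] at e

theorem cube (h : Nat.card k = 3) (a : k) : a ^ 3 = a := by
  have : Finite k := Nat.finite_of_card_ne_zero (by omega)
  have := Fintype.ofFinite k
  have e := FiniteField.pow_card a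
  rwa [← Nat.card_eq_fintype_card, h] at e

theorem tri (h : Nat.card k = 3) (a : k) : a = 0 ∨ a = 1 ∨ a = -1 := by
  have e : a * ((a - 1) * (a + 1)) = 0 := by linear_combination cube h a
  simpa only [mul_eq_zero, sub_eq_zero, add_eq_zero_iff_eq_neg] using e

theorem two_ne {K : Type*} [Field K] (h : (3 : K) = 0) : (2 : K) ≠ 0 := fun e =>
  one_ne_zero (α := K) (by linear_combination h - e)

theorem sq_ne (h : Nat.card k = 3) (a : k) : a ^ 2 ≠ -1 := fun e => by
  rcases tri h a with rfl | rfl | rfl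
  · simp at e
  · exact two_ne (three_zero h) (by linear_combination e)
  · exact two_ne (three_zero h) (by linear_combination e)

theorem j01 (h : Nat.card k = 3) {J : M2 k} (hJ : J * J = -1) : J 0 1 ≠ 0 := fun e => by
  have e0 := congrFun (congrFun hJ 0) 0
  simp [Matrix.mul_apply, Fin.sum_univ_two, e] at e0
  exact sq_ne h (J 0 0) (by linear_combination e0)

theorem pow_four (h : Nat.card k = 3) {J : M2 k} (hJ : J * J = -1) {X : M2 k} (hX : X * J = J * X) :
    X ^ 4 = X.det • (1 : M2 k) := by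
  obtain ⟨a, b, rfl⟩ := comm_eq (j01 h hJ) hX
  rw [det_ab hJ (j01 h hJ), show 4 = 2 * 2 from rfl, pow_mul, sq, sq, ab_mul hJ, ab_mul hJ]
  have e1 : (a * a - b * b) * (a * a - b * b) - (a * b + b * a) * (a * b + b * a) = a ^ 2 + b ^ 2 := by
    linear_combination a * cube h a + b * cube h b - 2 * a ^ 2 * b ^ 2 * three_zero h
  have e2 : (a * a - b * b) * (a * b + b * a) + (a * b + b * a) * (a * a - b * b) = 0 := by
    linear_combination 4 * b * cube h a - 4 * a * cube h b
  rw [e1, e2, zero_smul, add_zero]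

end F3

theorem exists_place {l : ℕ} (hl : l.Prime) : ∃ P : Plc, P.rchar = l := by
  have hp : Prime ((l : ℕ) : 𝓞 ℚ) := by
    have := (MulEquiv.prime_iff Rat.ringOfIntegersEquiv.symm).2 (Nat.prime_iff_prime_int.1 hl)
    rwa [map_natCast] at this
  obtain ⟨P, hP⟩ := Place.exists_res_eq (E := Om) ℚ
    ⟨Ideal.span {((l : ℕ) : 𝓞 ℚ)}, (Ideal.span_singleton_prime hp.ne_zero).2 hp,
      by simpa using hp.ne_zero⟩
  refine ⟨P, ?_⟩
  rw [← Place.rchar_res ℚ P, hP]
  exact ((Nat.prime_dvd_prime_iff_eq (Place.rchar_prime _) hl).1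
    ((Place.natCast_mem_iff _ l).1 (Ideal.subset_span rfl)))

theorem om_sq {g : Gam} (h : g om ≠ om) : g om = om ^ 2 := by
  obtain ⟨a, ha, e⟩ := om_spec.eq_pow_of_pow_eq_one (ξ := g om)
    (by rw [← map_pow, om_spec.pow_eq_one, map_one])
  interval_cases a
  · exact absurd (g.injective (by rw [← e, pow_zero, map_one])) (om_spec.ne_one (by norm_num))
  · exact absurd (by rw [← e, pow_one]) h
  · exact e.symm

theorem om_sq_sq (g : Gam) : (g * g) om = om := by
  by_cases h : g om = om
  · rw [AlgEquiv.mul_apply, h, h]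
  · rw [AlgEquiv.mul_apply, om_sq h, map_pow, om_sq h, ← pow_mul, show 2 * 2 = 3 + 1 from rfl,
      pow_succ, om_spec.pow_eq_one, one_mul]

theorem i_sq_sq {i : Om} (hi : i ^ 2 = -1) (g : Gam) : (g * g) i = i := by
  have e : (g i - i) * (g i + i) = 0 := by
    have := congrArg g hi
    rw [map_pow, map_neg, map_one] at this
    linear_combination this - hi
  rcases mul_eq_zero.1 e with e | e
  · rw [sub_eq_zero] at e; rw [AlgEquiv.mul_apply, e, e]
  · rw [add_eq_zero_iff_eq_neg] at e; rw [AlgEquiv.mul_apply, e, map_neg, e, neg_neg]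

open Classical in
theorem det_eq {k : Type} [Field k] (h3 : (3 : k) = 0) {ρ : Gam →* M2 k} (h : DetCyc ρ) (g : Gam) :
    (ρ g).det = if g om = om then 1 else -1 := by
  have key : ∀ a : ℕ, g om = om ^ a → (ρ g).det = a := fun a ha => by
    have := h g 1 a om (by simpa using om_spec) ha
    rwa [pow_one, h3, Ideal.span_singleton_zero, Ideal.mem_bot, sub_eq_zero] at this
  split_ifs with e
  · simpa using key 1 (by simpa using e)
  · rw [key 2 (om_sq e)]
    push_cast
    linear_combination h3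

/-- inertia at `3` fixes `i` -/
theorem fix_i {i : Om} (hi : i ^ 2 = -1) {P : Plc} (hP : P.rchar ≠ 2) {g : Gam} (hg : g ∈ In P) :
    g i = i :=
  P.inertia_root hg (n := 2 ^ 2) (fun e => hP ((Nat.prime_dvd_prime_iff_eq P.rchar_prime
    Nat.prime_two).1 (P.rchar_prime.dvd_of_dvd_pow e))) (a := i)
    (by rw [show 2 ^ 2 = 2 * 2 from rfl, pow_mul, hi]; norm_num)

/-- inertia away from `3` fixes `om` -/
theorem fix_om {P : Plc} (hP : P.rchar ≠ 3) {g : Gam} (hg : g ∈ In P) : g om = om :=
  P.inertia_root hg (n := 3) (fun e => hP ((Nat.prime_dvd_prime_iff_eq P.rchar_prime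
    Nat.prime_three).1 e)) (a := om) om_spec.pow_eq_one

/-- inertia at `2` moves `i` -/
theorem move_i {i : Om} (hi : i ^ 2 = -1) {P : Plc} (hP : P.rchar = 2) : ∃ g ∈ In P, g i ≠ i := by
  obtain ⟨g, hg, h⟩ := exists_move P (x := 1 + i) (j := -1) (by decide) (by
    have e : (1 + i) ^ 2 * ((P.rchar : ℕ) : Om) ^ (-1 : ℤ) = i := by
      rw [hP, _root_.zpow_neg_one]
      push_cast
      field_simp
      linear_combination hi
    have e' : P.v i ^ 2 = 1 := by rw [← map_pow, hi, Valuation.map_neg, map_one]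
    rw [e]
    exact (pow_eq_one_iff_of_nonneg zero_le two_ne_zero).1 e')
  exact ⟨g, hg, fun e => h (by rw [map_add, map_one, e])⟩

/-- inertia at `3` moves `om` -/
theorem move_om {P : Plc} (hP : P.rchar = 3) : ∃ g ∈ In P, g om ≠ om := by
  obtain ⟨g, hg, h⟩ := exists_move P (x := 2 * om + 1) (j := -1) (by decide) (by
    have e0 := om_spec.geom_sum_eq_zero (by norm_num)
    simp only [Finset.sum_range_succ, Finset.sum_range_zero] at e0
    have e : (2 * om + 1) ^ 2 * ((P.rchar : ℕ) : Om) ^ (-1 : ℤ) = -1 := by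
      rw [hP, _root_.zpow_neg_one]
      push_cast
      field_simp
      linear_combination 4 * e0
    rw [e, Valuation.map_neg, map_one])
  exact ⟨g, hg, fun e => h (by rw [map_add, map_one, map_mul, e, map_ofNat])⟩

theorem disc_mp {R S : Type*} [CommRing R] [CommRing S] (f : R →+* S) (ρ : Gam →* M2 R) (g : Gam) :
    disc (mp f ρ g) = f (disc (ρ g)) := by
  simp only [disc, trace_mp, det_mp, map_sub, map_mul, map_pow, map_ofNat]

/-- **leaf RES** -/
theorem resStmt : ResStmt := by
  intro k k' _ _ f ρ N h ⟨i', hi'⟩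
  obtain ⟨i, J, hi, hJ, hcm⟩ := h.cm
  have h3 := three_zero h.card
  have h3' : (3 : k') = 0 := by rw [← map_ofNat f 3, h3, map_zero]
  have hdet := det_eq h3 h.det
  have h01 := j01 h.card hJ
  have hker : (mp f ρ).ker = ρ.ker := Subgroup.ext fun g => mp_eq_one_iff f.injective
  refine ⟨h.pos, h.two, h.three, ⟨h.op.mp f, ?_, det_eq h3' (h.det.mp f), ?_⟩, fun g => ?_,
    fun P hP g hg => mp_eq_one f (h.unr P hP g hg), fun P hP => ?_, fun P hP => ⟨?_, ?_⟩⟩
  · have : Finite k := Nat.finite_of_card_ne_zero (by rw [h.card]; omega)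
    rw [hker, ← MonoidHom.ker_toHomUnits, Subgroup.index_ker]
    have hp : IsPGroup 2 ρ.toHomUnits.range := by
      rintro ⟨_, g, rfl⟩
      refine ⟨3, Subtype.ext (Units.ext ?_)⟩
      have e := pow_four h.card hJ ((hcm _).1 (i_sq_sq hi g))
      rw [hdet, if_pos (om_sq_sq g), one_smul, map_mul, ← sq, ← pow_mul] at e
      simpa using e
    obtain ⟨n, hn⟩ := IsPGroup.iff_card.1 hp
    rw [hn]
    exact fun e => absurd (Nat.prime_three.dvd_of_dvd_pow e) (by decide)
  · obtain ⟨P3, hP3⟩ := exists_place Nat.prime_three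
    obtain ⟨P2, hP2⟩ := exists_place Nat.prime_two
    obtain ⟨t, ht, ht'⟩ := move_om hP3
    obtain ⟨c, hc, hc'⟩ := move_i hi hP2
    have hco := fix_om (by omega) hc
    obtain ⟨a, b, e⟩ := comm_eq h01 ((hcm t).1 (fix_i hi (by omega) ht))
    have hd := hdet t
    rw [if_neg ht', e, det_ab hJ h01] at hd
    have ha : a ≠ 0 := fun e => sq_ne h.card b (by rw [← hd, e]; ring)
    have hb : b ≠ 0 := fun e => sq_ne h.card a (by rw [← hd, e]; ring)
    have e1 : a * a - b * b = 0 := mul_left_cancel₀ (mul_ne_zero ha hb)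
      (by linear_combination b * cube h.card a - a * cube h.card b)
    have e2 : f (a * b + b * a) ≠ 0 := (_root_.map_ne_zero f).2 fun e =>
      mul_ne_zero (two_ne h3) (mul_ne_zero ha hb) (by linear_combination e)
    have e3 : mp f ρ (t * t) = f (a * b + b * a) • J.map f := by
      rw [mp_apply, map_mul, e, ab_mul hJ, e1, zero_smul, zero_add]
      ext; simp
    have hm : ∀ X Y : M2 k, (X * Y).map f = X.map f * Y.map f := fun X Y => Matrix.map_mul
    refine span_top (J := J.map f) (C := mp f ρ c) (C' := mp f ρ c⁻¹) (two_ne h3') ?_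
      ((_root_.map_ne_zero f).2 h01) ?_ (by rw [← map_mul, mul_inv_cancel, map_one])
      (Submodule.subset_span ⟨1, rfl, map_one _⟩) ?_ (Submodule.subset_span ⟨c, hco, rfl⟩) ?_
    · rw [← hm, hJ]; exact (map_neg f.mapMatrix 1).trans (by rw [map_one])
    · rw [mp_apply, ← hm, ← hm, (hcm c).2 hc']; exact map_neg f.mapMatrix _
    · rw [← Submodule.smul_mem_iff _ e2, ← e3]
      exact Submodule.subset_span ⟨t * t, om_sq_sq t, rfl⟩
    · rw [← Submodule.smul_mem_iff _ e2, ← mul_smul_comm, ← e3, ← map_mul]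
      exact Submodule.subset_span ⟨c * (t * t), by
        rw [Set.mem_ofPred_eq, AlgEquiv.mul_apply, om_sq_sq, hco], rfl⟩
  · obtain ⟨s, hs⟩ : ∃ s : k', s ^ 2 = disc (mp f ρ g) := by
      rw [disc_mp]
      rcases tri h.card (disc (ρ g)) with e | e | e <;> rw [e]
      · exact ⟨0, by simp⟩
      · exact ⟨1, by simp⟩
      · exact ⟨i', by simp [hi']⟩
    rw [disc] at hs
    exact ⟨-((mp f ρ g).trace + s), -((mp f ρ g).trace - s),
      by linear_combination (-(mp f ρ g).trace) * h3',
      by linear_combination -hs + (mp f ρ g).det * h3'⟩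
  · obtain ⟨g, hg, e⟩ := h.ram P hP
    exact ⟨g, hg, by rw [disc_mp]; exact (_root_.map_ne_zero f).2 e⟩
  · intro s hs t ht
    obtain ⟨a, b, e⟩ := comm_eq h01 ((hcm s).1 (fix_i hi (by omega) hs))
    obtain ⟨c, d, e'⟩ := comm_eq h01 ((hcm t).1 (fix_i hi (by omega) ht))
    have : ρ (s * t) = ρ (t * s) := by
      rw [map_mul, map_mul, e, e', ab_mul hJ, ab_mul hJ]
      congr 2 <;> ring
    rw [← map_mul, ← map_mul, mp_apply, mp_apply, this]
  · intro s hs
    rw [← map_pow, mp_apply, map_pow, pow_four h.card hJ ((hcm s).1 (fix_i hi (by omega) hs)), det_mp]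
    ext a b
    by_cases e : a = b <;> simp [e]

end Crest.Agent.T15.Rb
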