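import Crest.Agent.T15.RhoD_86
import Crest.Agent.T15.Res_67
import Crest.Agent.T15.Rg_28
import Crest.Agent.T15.Rk0_31
import Crest.Agent.T15.TwAsm_16

/-!
# Row 15, block F (helper67): from `Rho.WQ` to `Res0`, `Lift`, `IsTr`
-/

set_option autoImplicit false

noncomputable section

namespace Crest.Agent.T15.FA

open NumberField Matrix IsLocalRing Crest.Agent.R018.Placesx484 Crest.Agent.T15.Ps Crest.Agent.T15.Top
open Crest.Agent.R013.TP_928 Crest.Agent.T15.Rho Crest.Agent.T15.Rb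
open Crest.Agent.T15.C (Om Gam In om om_spec)

theorem exists_isTr {R : Type*} [CommRing R] {ρ : Gam →* M2 R} {N : ℕ} (h : Unr ρ N) :
    ∃ a, IsTr ρ N a := by
  classical
  refine ⟨fun l => if h : ∃ x : Plc × Gam, x.1.rchar = l ∧ IsFr x.1 x.2 then (ρ h.choose.2).trace
    else 0, fun P g hP hg => ?_⟩
  have hx : ∃ x : Plc × Gam, x.1.rchar = P.rchar ∧ IsFr x.1 x.2 := ⟨(P, g), rfl, hg⟩
  simp only [dif_pos hx]
  obtain ⟨h1, h2⟩ := hx.choose_spec
  generalize hx.choose = x at h1 h2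
  obtain ⟨Q, s⟩ := x
  obtain ⟨u, rfl⟩ := Cheb.exists_smul_eq (P := P) (Q := Q) h1.symm
  have h3 : C.IsFr P P.rchar (u⁻¹ * s * u) := h1 ▸ TwAsm.IsFr.conj h2
  have h4 := congrArg (· * ρ (u⁻¹ * s * u)) (h P hP _ (TwAsm.IsFr.inv_mul hg h3))
  simp only [← map_mul, inv_mul_cancel_right, one_mul] at h4
  rw [h4, map_mul, trace_mul_comm, ← map_mul, ← mul_assoc, mul_inv_cancel, one_mul]

section res
variable {k : Type} [Field k] {ρ : Gam →* M2 k} {i : Om} {J : M2 k}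

theorem disc_of_sq {X : M2 k} (h2 : (2 : k) ≠ 0) (h : X * X = -1) (hd : X.det = 1) : disc X ≠ 0 := by
  have e0 := congrFun (congrFun h 0) 0
  have e1 := congrFun (congrFun h 1) 1
  simp [Matrix.mul_apply, Fin.sum_univ_two] at e0 e1
  rw [det_fin_two] at hd
  have : disc X = -(2 * 2) := by
    rw [disc, trace_fin_two, det_fin_two]
    linear_combination e0 + e1 - 2 * hd
  rw [this]
  exact neg_ne_zero.2 (mul_ne_zero h2 h2)

/-- the image of the inertia group at `2` -/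
theorem two_aux (hk : Nat.card k = 3) (hd : DetCyc ρ) (hi : i ^ 2 = -1) (hJ : J * J = -1)
    (hcm : ∀ g : Gam, (g i = i → ρ g * J = J * ρ g) ∧ (g i ≠ i → ρ g * J = -(J * ρ g))) {P : Plc}
    (hP : P.rchar = 2) : (∃ g ∈ In P, disc (ρ g) ≠ 0) ∧
      Submodule.span k (ρ '' (In P : Set Gam)) = ⊤ := by
  have h3 := three_zero hk
  have h01 := j01 hk hJ
  have hdet := det_eq h3 hd
  obtain ⟨c, hc, hc'⟩ := move_i hi hP
  have hco := fix_om (P := P) (by omega) hc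
  have hcJ := (hcm c).2 hc'
  obtain ⟨φ, hφ, h1, h2⟩ : ∃ φ : Gam, φ • P = P ∧ φ i = i ∧ φ om ≠ om := by
    obtain ⟨φ, hφ, hf⟩ := Crest.Agent.R018.FDEx389.exists_frobQ P
    have e : φ om = om ^ 2 := hP ▸ P.frob_root hf (n := 3) (by rw [hP]; decide) om_spec.pow_eq_one
    have e' : om ^ 2 ≠ om := fun h =>
      absurd (om_spec.pow_inj (i := 2) (j := 1) (by omega) (by omega) (by simpa using h)) (by omega)
    by_cases h : φ i = i
    · exact ⟨φ, hφ, h, e ▸ e'⟩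
    · have neg : ∀ g : Gam, g i ≠ i → g i = -i := fun g hg => by
        have := congrArg g hi
        rw [map_pow, map_neg, map_one, ← hi, sq_eq_sq_iff_eq_or_eq_neg] at this
        exact this.resolve_left hg
      refine ⟨φ * c, by rw [mul_smul, P.smul_eq_of_mem_inertia hc, hφ], ?_, ?_⟩
      · rw [AlgEquiv.mul_apply, neg c hc', map_neg, neg φ h, neg_neg]
      · rw [AlgEquiv.mul_apply, hco, e]; exact e'
  have hτ : c * (φ * c⁻¹ * φ⁻¹) ∈ In P := (In P).mul_mem hc (by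
    have := TwAsm.conj_mem_In (P := P) (g := φ⁻¹) (u := c⁻¹)
      (by rw [inv_smul_eq_iff.2 hφ.symm]; exact (In P).inv_mem hc)
    rwa [inv_inv] at this)
  obtain ⟨a, b, e⟩ := comm_eq h01 ((hcm φ).1 h1)
  have hd' := hdet φ
  rw [if_neg h2, e, det_ab hJ h01] at hd'
  have ha : a ≠ 0 := fun e => sq_ne hk b (by rw [← hd', e]; ring)
  have hb : b ≠ 0 := fun e => sq_ne hk a (by rw [← hd', e]; ring)
  have e1 : a * a - b * b = 0 := mul_left_cancel₀ (mul_ne_zero ha hb)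
    (by linear_combination b * cube hk a - a * cube hk b)
  have e2 : ρ φ⁻¹ = (-a) • (1 : M2 k) + b • J := by
    have : ρ φ * ((-a) • (1 : M2 k) + b • J) = 1 := by
      rw [e, ab_mul hJ, show a * -a - b * b = 1 by linear_combination -hd',
        show a * b + b * -a = 0 by ring, one_smul, zero_smul, add_zero]
    have h := congrArg (ρ φ⁻¹ * ·) this
    simp only [← mul_assoc, ← map_mul, inv_mul_cancel, map_one, one_mul, mul_one] at h
    exact h.symm
  have e3 : ρ (c * (φ * c⁻¹ * φ⁻¹)) = (2 * a * b) • J := by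
    have : ρ c * ρ φ = (a • (1 : M2 k) + (-b) • J) * ρ c := by
      rw [e]
      simp only [mul_add, add_mul, mul_smul_comm, smul_mul_assoc, mul_one, one_mul, hcJ, smul_neg,
        neg_smul, neg_mul]
    rw [← mul_assoc, ← mul_assoc, map_mul, map_mul, map_mul, this, mul_assoc _ (ρ c), ← map_mul,
      mul_inv_cancel, map_one, mul_one, e2, ab_mul hJ,
      show a * -a - -b * b = 0 by linear_combination -e1, zero_smul, zero_add]
    congr 1; ring
  have e4 : 2 * a * b ≠ 0 := mul_ne_zero (mul_ne_zero (two_ne h3) ha) hb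
  refine ⟨⟨_, hτ, disc_of_sq (two_ne h3) ?_ ?_⟩, span_top (C := ρ c) (C' := ρ c⁻¹) (two_ne h3) hJ h01
    hcJ (by rw [← map_mul, mul_inv_cancel, map_one]) (Submodule.subset_span ⟨1, one_mem _, map_one _⟩)
    ?_ (Submodule.subset_span ⟨c, hc, rfl⟩) ?_⟩
  · rw [e3, smul_mul_assoc, mul_smul_comm, smul_smul, hJ, show 2 * a * b * (2 * a * b) = 1 from
      mul_left_cancel₀ e4 (by linear_combination cube hk (2 * a * b)), one_smul]
  · rw [hdet, if_pos (fix_om (P := P) (by omega) hτ)]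
  · rw [← Submodule.smul_mem_iff _ e4, ← e3]
    exact Submodule.subset_span ⟨_, hτ, rfl⟩
  · rw [← Submodule.smul_mem_iff _ e4, ← mul_smul_comm, ← e3, ← map_mul]
    exact Submodule.subset_span ⟨_, (In P).mul_mem hc hτ, rfl⟩

end res

instance : Coef O3 := ⟨inferInstance, inferInstance, inferInstance, O3.three_mem⟩

variable {A : Type} [AddCommGroup A] {a : Gam → A →+ A} {R : WQ Gam (Tate 3 A)}

theorem rho_eq_one (ha : ∀ σ, R.act σ = Tate.map (a σ)) (F : Fr R.qm) {B : Type*} [CommRing B]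
    (f : O3 →+* B) {n : ℕ} (hf : f (3 ^ n) = 0) {σ : Gam} (h : ∀ x, 3 ^ n • x = 0 → a σ x = x) :
    mp f (F.ρ0 R.qm_χb O3.c3) σ = 1 := by
  rw [mp_apply, ← F.ρ0_map]
  refine F.ρ0_eq_one _ _ (a := 3 ^ n) (by simpa [C3.map, O3.c3, map_ofNat] using hf) fun u => ?_
  obtain ⟨v, hv⟩ := (Rk.apply_eq_zero_iff (R.act σ u - (u : Tate 3 A)) n).1 (by
    rw [Tate.sub_apply, ha, Tate.map_apply, h _ (Tate.pow_smul_apply _ n), sub_self])
  rw [Nat.cast_ofNat] at hv
  exact ⟨⟨v, R.mem_of_smul (pow_ne_zero n three_ne) (hv ▸ R.T.sub_mem (R.act_mem σ u u.2) u.2)⟩,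
    Subtype.ext (by simp [← hv])⟩

/-- **the package** -/
theorem pack (X : Lc) (ha : ∀ σ, R.act σ = Tate.map (a σ)) (F : Fr R.qm) {i : Om} (hi : i ^ 2 = -1)
    (hχ : ∀ σ, R.χ σ = 1 ↔ σ i = i)
    (hc : ∀ (σ : Gam) (n b : ℕ) (ζ : Om), IsPrimitiveRoot ζ (3 ^ n) → σ ζ = ζ ^ b →
      (3 : ℤ_[3]) ^ n ∣ (R.cyc σ : ℤ_[3]) - b) {N : ℕ} (h0 : 0 < N) (h2 : 2 ∣ N) (h3 : ¬ 3 ∣ N)
    (hfin : ∀ n : ℕ, Finite {x : A // 3 ^ n • x = 0})
    (hop : ∀ x : A, ∃ U : Subgroup Gam, IsOpen (U : Set Gam) ∧ ∀ σ ∈ U, a σ x = x)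
    (hunr : ∀ Q : Plc, ¬ Q.rchar ∣ 3 * N → ∀ σ ∈ In Q, R.act σ = 1)
    (hram : ∀ Q : Plc, Q.rchar ∣ N → Q.rchar ≠ 2 →
      (∀ σ ∈ In Q, R.act (σ ^ 4) = 1) ∧ ∃ σ ∈ In Q, R.act (σ * σ) = -1)
    (hfl : ∀ (n : ℕ) (V : Type) [AddCommGroup V] [Finite V] (j : V →+ A) (α : Gam → V → V),
      n ≠ 0 → Function.Injective j → (∀ u, n • j u = 0) → (∀ g u, j (α g u) = a g (j u)) → X.Fl α) :
    Res0 (mp (residue O3) (F.ρ0 R.qm_χb O3.c3)) N ∧ Lift X (F.ρ0 R.qm_χb O3.c3) ∧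
      Unr (F.ρ0 R.qm_χb O3.c3) (3 * N) := by
  set ρ := F.ρ0 R.qm_χb O3.c3 with hρ
  have op : ∀ {B : Type} [CommRing B] (f : O3 →+* B) (n : ℕ), f (3 ^ n) = 0 → Op (mp f ρ) := by
    intro B _ f n hf
    choose U hU hU' using hop
    have := hfin n
    refine Subgroup.isOpen_mono (H₁ := ⨅ x : {x : A // 3 ^ n • x = 0}, U x) (H₂ := (mp f ρ).ker)
      (fun σ hσ => rho_eq_one ha F f hf fun x hx => hU' x σ (Subgroup.mem_iInf.1 hσ ⟨x, hx⟩)) ?_
    rw [Subgroup.coe_iInf]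
    exact isOpen_iInter_of_finite fun x => hU x
  have op' : ∀ n, Op (mp (Ideal.Quotient.mk (Ideal.span {(3 : O3) ^ n})) ρ) := fun n =>
    op _ n (Ideal.Quotient.eq_zero_iff_mem.2 (Ideal.subset_span rfl))
  have det : DetCyc ρ := fun g n b ζ hζ hg => by
    have := map_dvd O3.c3.φ (hc g n b ζ hζ hg)
    rw [map_pow, map_ofNat, map_sub, map_natCast] at this
    rw [F.det_ρ0 _ _ rfl, Ideal.mem_span_singleton]
    exact this
  have unr : Unr ρ (3 * N) := fun Q hQ σ hσ =>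
    F.ρ0_eq_one' _ _ (LinearMap.ext fun u => Subtype.ext (by rw [R.qm_act, hunr Q hQ σ hσ]; rfl))
  have hJ : (!![0, -1; 1, 0] : M2 (ResidueField O3)) * !![0, -1; 1, 0] = -1 := by
    ext i j; fin_cases i <;> fin_cases j <;> simp
  have cm : ∀ g : Gam, (g i = i → mp (residue O3) ρ g * !![0, -1; 1, 0] =
      !![0, -1; 1, 0] * mp (residue O3) ρ g) ∧ (g i ≠ i → mp (residue O3) ρ g * !![0, -1; 1, 0] =
      -(!![0, -1; 1, 0] * mp (residue O3) ρ g)) := fun g => by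
    have := F.ρ0_mul_J R.qm_χb (O3.c3.map (residue O3)) ((residue_eq_zero_iff _).2 O3.s3_mem) g
    rw [F.ρ0_map, map_neg, map_one] at this
    refine ⟨fun e => ?_, fun e => ?_⟩
    · rwa [show R.qm.χa g = 1 from (hχ g).2 e, one_smul] at this
    · rwa [show R.qm.χa g = -1 from (Int.units_eq_one_or _).resolve_left (mt (hχ g).1 e),
        Units.neg_smul, one_smul] at this
  have t2 := fun (P : Plc) => two_aux (P := P) O3.card_res (det.mp (residue O3)) hi hJ cm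
  have n3 : ∀ P : Plc, P.rchar ∣ N → P.rchar ≠ 3 := fun P hP e => h3 (e ▸ hP)
  refine ⟨⟨h0, h2, h3, O3.card_res, op _ 1 ((residue_eq_zero_iff _).2 (by simpa using O3.three_mem)),
    det.mp _, ⟨i, _, hi, hJ, cm⟩, fun Q hQ σ hσ => mp_eq_one _ (unr Q hQ σ hσ), fun P hP => ?_⟩,
    ⟨op', det, fun P hP g hg h1 => ?_, fun n => ?_⟩, unr⟩
  · by_cases e : P.rchar = 2
    · exact (t2 P e).1
    obtain ⟨σ, hσ, h⟩ := (hram P hP e).2
    refine ⟨σ, hσ, disc_of_sq (two_ne (three_zero O3.card_res)) ?_ ?_⟩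
    · rw [← map_mul, mp_apply, F.ρ0_eq_neg _ _
        (LinearMap.ext fun u => Subtype.ext (by rw [R.qm_act, h]; rfl))]
      exact (map_neg (residue O3).mapMatrix 1).trans (by rw [map_one])
    · rw [det_eq (three_zero O3.card_res) (det.mp _), if_pos (fix_om (n3 P hP) hσ)]
  · by_cases e : P.rchar = 2
    · exact Rg.tame_of_span op' det hP (t2 P e).2 g hg h1
    by_cases hN : P.rchar ∣ N
    · refine eq_one_of_pow (m := 4) ?_ h1 ?_
      · rw [O3.isUnit_iff_res, map_natCast]; decide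
      · rw [← map_pow]
        exact F.ρ0_eq_one' _ _
          (LinearMap.ext fun u => Subtype.ext (by rw [R.qm_act, (hram P hN e).1 g hg]; rfl))
    · exact unr P (fun h => ((Nat.Prime.dvd_mul P.rchar_prime).1 h).elim (fun h => hP
        ((Nat.prime_dvd_prime_iff_eq P.rchar_prime Nat.prime_three).1 h)) hN) g hg
  · have : Finite (Cn O3 n) := Rg.finite_cn n
    have := Fintype.ofFinite (Cn O3 n)
    let π0 : R.T →+ A := (Rk.pr 3 A n).comp R.T.subtype.toAddMonoidHom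
    have hV : ∀ u : π0.range, 3 ^ n • (u : A) = 0 := by
      rintro ⟨_, u, rfl⟩
      exact Tate.pow_smul_apply _ n
    have := hfin n
    have : Finite π0.range := Finite.of_injective
      (fun u : π0.range => (⟨u, hV u⟩ : {x : A // 3 ^ n • x = 0}))
      fun u v h => Subtype.ext (Subtype.mk.inj h)
    have hπ : ∀ g u, π0 (R.qm.act g u) = a g (π0 u) := fun g u =>
      show (R.act g u) n = _ by rw [ha]; rfl
    let α : Gam → π0.range → π0.range := fun g u => ⟨a g u, by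
      obtain ⟨_, u, rfl⟩ := u
      exact ⟨_, hπ g u⟩⟩
    obtain ⟨q, hq, he⟩ := F.exists_quot0 R.qm_χb
      (O3.c3.map (Ideal.Quotient.mk (Ideal.span {(3 : O3) ^ n}))) π0.rangeRestrict
      π0.rangeRestrict_surjective (a := 3 ^ n)
      (Ideal.Quotient.eq_zero_iff_mem.2 (Ideal.subset_span (by simp [O3.c3, map_ofNat])))
      fun u hu => by
        obtain ⟨v, hv⟩ := (Rk.apply_eq_zero_iff (u : Tate 3 A) n).1 (congrArg Subtype.val hu)
        rw [Nat.cast_ofNat] at hv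
        exact ⟨⟨v, R.mem_of_smul (pow_ne_zero n three_ne) (hv ▸ u.2)⟩, Subtype.ext hv⟩
    refine ((hfl (3 ^ n) _ π0.range.subtype α (by positivity) Subtype.val_injective hV
      fun _ _ => rfl).pi (ι := Cn O3 n × Fin 2)).quot q hq fun g _ v => ?_
    rw [he g (α g) fun u => Subtype.ext (hπ g u), F.ρ0_map]
    rfl

end Crest.Agent.T15.FA
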