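import Mathlib
import Crest.Agent.T15.Rk4_31

/-!
# Row 15, block F (helper31): the Tate module in genus three (the body of `FA.TaStmt`)
-/

set_option autoImplicit false

namespace Crest.Agent.T15.Rk

open Polynomial Crest.Agent.R013.PicD_398 Crest.Agent.R013.TP_928

theorem ta {k K : Type} [Field k] [IsAlgClosed k] [CharZero k] [Algebra.IsAlgebraic ℚ k] [Field K]
    [Algebra k K] [Algebra (RatFunc k) K] [IsScalarTower k (RatFunc k) K]
    [FiniteDimensional (RatFunc k) K] [Algebra.IsSeparable (RatFunc k) K] {F : k[X]} {x w : K}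
    (h : Hy.Hyp F x w) (hd : F.natDegree = 7) :
    Module.Finite ℤ_[3] (Tate 3 (Pic k K)) ∧ Module.finrank ℤ_[3] (Tate 3 (Pic k K)) = 6 ∧
      (∀ n : ℕ, Finite {y : Pic k K // 3 ^ n • y = 0}) ∧
      ∀ (n : ℕ) (y : Pic k K), 3 ^ n • y = 0 → ∃ u : Tate 3 (Pic k K), u n = y :=
  ⟨rkStmt.finite_alg h 3, rkStmt.finrank_alg (g := 3) h (by omega) (by omega) 3,
    fun n => rkStmt.finite_tors_alg h (pow_ne_zero n (by norm_num)), lf_pic 3⟩

end Crest.Agent.T15.Rk
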