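import Crest.Agent.T15.FDef_67
import Crest.Agent.T15.Pack_67
import Crest.Agent.T15.EbB_64
import Crest.Agent.T15.F3Cert_80
import Crest.Agent.T15.Rk5_31

/-!
# Row 15, block F (helper67): the assembly
-/

set_option autoImplicit false

noncomputable section

namespace Crest.Agent.T15.FA

open Crest.Agent.R013.PicD_398 Crest.Agent.R013.Frob1_914 Crest.Agent.R013.TP_928
open Crest.Agent.T15.C (Om Gam In)
open Crest.Agent.T15.Top (Plc Lc IsFr FStmt)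
open Crest.Agent.T15.Mo (Par)
open Crest.Agent.T15.Ar (Cert)
open Crest.Agent.T15.Ht (Mdl Is MoStmt ExStmt GalStmt Lk Lim ep)
open Crest.Agent.T15.Rho Crest.Agent.T15.Eb

theorem isY {C : Type} [Field C] [CharZero C] {P : Par C} (M : Mdl P) : Mo.IsY P M.A M.B2 M.u :=
  ⟨two_ne_zero, M.eqs.k0, M.eqs.cub, M.tr, M.gen⟩

theorem opStmt : OpStmt := fun _ M x => by
  obtain ⟨S, hS⟩ := exists_fix_pic M.gen x
  obtain ⟨U, hU, h⟩ := exists_open S
  refine ⟨U, hU, fun σ hσ e he => hS e ?_ fun a ha => by rw [he.2, h σ hσ a ha]⟩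
  rintro _ (rfl | rfl | rfl)
  exacts [he.1.1, he.1.2.1, he.1.2.2.1]

theorem taStmt : TaStmt := fun P M => Rk.ta (isY M).hyp (P.natDegree_F two_ne_zero)

theorem flatStmt (ι : Om →+* ℂ) (Q : Plc) (h3 : Q.rchar = 3) (L : Fl.Loc3 ι Q) :
    FlatStmt (Lc.of h3 L) := by
  intro del m p1 p2 p3 t D P M E hc hP hE n V _ _ i α hn hi hV hα
  exact F3.fl_pic h3 L hc P hP.h1 hP.h2 hP.h3 hP.ht (isY M) E (fun g => (hE g).2)
    (fun g => (hE g).1.1) (fun g => (hE g).1.2.1) (fun g => (hE g).1.2.2.1) hn i hi hV α hα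

theorem exists_par (C : Type) [Field C] [IsAlgClosed C] [CharZero C] {del : ℚ}
    {m p1 p2 p3 t D : ℤ} (h : Cert del m p1 p2 p3 t D) : ∃ P : Par C, Is P p1 p2 p3 t := by
  obtain ⟨al, hal⟩ := IsAlgClosed.exists_pow_nat_eq (-(p2 : C) ^ 3 * ((p3 : C) - p1)) two_pos
  obtain ⟨be, hbe⟩ := IsAlgClosed.exists_pow_nat_eq ((p3 : C) ^ 3 * ((p1 : C) - p2)) two_pos
  exact ⟨⟨p1, p2, p3, t, al, be, by exact_mod_cast h.sum, by exact_mod_cast h.p1_ne,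
    by exact_mod_cast h.p2_ne, by exact_mod_cast h.p3_ne, by exact_mod_cast h.d1_ne,
    by exact_mod_cast h.d2_ne, by exact_mod_cast h.d3_ne, by exact_mod_cast h.t_ne, hal, hbe⟩,
    rfl, rfl, rfl, rfl⟩

theorem exists_ov (hG : GalStmt) {P : Par Om} {p1 p2 p3 t : ℤ} (hP : Is P p1 p2 p3 t) (M : Mdl P)
    (σ : Gam) : ∃ e, Ov M σ e := by
  obtain ⟨e, h1, h2⟩ := (hG Om P M).1 σ.toRingEquiv (by rw [hP.h1, map_intCast])
    (by rw [hP.h2, map_intCast]) (by rw [hP.ht, map_intCast])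
  exact ⟨e, h1, fun c => by rw [h2]; rfl⟩

theorem lim (φ : ℤ_[3] →+* ℂ) (τ : ℤ_[3]) {s : ℂ} (hs : s ≠ 0) : Lim (ap τ) (φ τ * s) s := by
  refine fun u v => ⟨fun h => limit_mul φ τ s (by exact_mod_cast h), fun h m => ?_⟩
  have hφ : ∀ x, φ x = 0 → x = 0 := fun x hx => by
    by_contra h0
    rw [PadicInt.unitCoeff_spec h0, map_mul, map_pow, map_natCast] at hx
    exact mul_ne_zero ((Units.isUnit _).map φ).ne_zero (pow_ne_zero _ (by norm_num)) hx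
  have h1 : (u : ℤ_[3]) = v * τ := sub_eq_zero.1 (hφ _ (by
    rw [map_sub, map_mul, map_intCast, map_intCast]
    exact mul_right_cancel₀ hs (by linear_combination -h)))
  have h2 : ((3 : ℕ) : ℤ_[3]) ^ m ∣ ((u - ap τ m * v : ℤ) : ℤ_[3]) := by
    have := (dvd_sub_ap τ m).mul_left v
    convert this using 1
    push_cast
    rw [h1]; ring
  exact_mod_cast (PadicInt.pow_p_dvd_int_iff m _).1 h2

theorem frob_i {i : Om} (hi : i ^ 2 = -1) {Q : Plc} (hQ : Q.rchar ≠ 2) {σ : Gam} (h : IsFr Q σ) :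
    σ i = i ↔ Q.rchar % 4 ≠ 3 := by
  have h4 : i ^ 4 = 1 := by rw [show 4 = 2 * 2 from rfl, pow_mul, hi]; norm_num
  have e : σ i = i ^ Q.rchar := Q.frob_root h (n := 2 ^ 2) (fun e => hQ
    ((Nat.prime_dvd_prime_iff_eq Q.rchar_prime Nat.prime_two).1
      (Q.rchar_prime.dvd_of_dvd_pow e))) h4
  rw [e, pow_eq_pow_mod _ h4]
  rcases Nat.odd_mod_four_iff.1 (Q.rchar_prime.eq_two_or_odd.resolve_left hQ) with h1 | h1 <;> rw [h1]
  · simp
  · refine iff_of_false (fun h => ?_) (by simp)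
    exact two_ne_zero (show (2 : Om) = 0 by linear_combination i * h - (i ^ 2 - 1) * hi + hi)

/-- a fourth root of `l` is moved by an element of order four -/
theorem exists_four {Q : Plc} {lam : Om} (h : lam ^ 4 = Q.rchar) (hQ : Q.rchar ≠ 2) :
    (∀ σ ∈ In Q, (σ ^ 4) lam = lam) ∧ ∃ σ ∈ In Q, (σ * σ) lam = -lam := by
  have hl : (Q.rchar : Om) ≠ 0 := Nat.cast_ne_zero.2 Q.rchar_prime.ne_zero
  have h0 : lam ≠ 0 := fun e => hl (by rw [← h, e]; norm_num)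
  have key : ∀ σ ∈ In Q, ∃ ζ : Om, ζ ^ 4 = 1 ∧ σ lam = ζ * lam ∧ (σ * σ) lam = ζ ^ 2 * lam := by
    intro σ hσ
    have h1 : (σ lam / lam) ^ 4 = 1 := by rw [div_pow, ← map_pow, h, map_natCast, div_self hl]
    have h2 : σ (σ lam / lam) = σ lam / lam := Q.inertia_root hσ (n := 2 ^ 2) (fun e => hQ
      ((Nat.prime_dvd_prime_iff_eq Q.rchar_prime Nat.prime_two).1
        (Q.rchar_prime.dvd_of_dvd_pow e))) h1
    generalize hζ : σ lam / lam = ζ at h1 h2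
    have h3 : σ lam = ζ * lam := (div_eq_iff h0).1 hζ
    exact ⟨ζ, h1, h3, by rw [AlgEquiv.mul_apply, h3, map_mul, h2, h3]; ring⟩
  constructor
  · intro σ hσ
    obtain ⟨ζ, h1, -, h2⟩ := key σ hσ
    have h3 : (σ * σ) (ζ ^ 2) = ζ ^ 2 := by
      rcases sq_eq_one_iff.1 (show (ζ ^ 2) ^ 2 = 1 by rw [← pow_mul, h1]) with e | e <;>
        rw [e] <;> simp
    rw [show σ ^ 4 = (σ * σ) * (σ * σ) by simp only [pow_succ, pow_zero, one_mul, mul_assoc],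
      AlgEquiv.mul_apply, h2, map_mul, h2, h3]
    linear_combination lam * h1
  · obtain ⟨σ, hσ, h1⟩ := Rb.exists_move Q (x := lam ^ 2) (j := -1) (by decide) (by
      rw [← pow_mul, h, zpow_neg_one, mul_inv_cancel₀ hl, map_one])
    obtain ⟨ζ, h2, h3, h4⟩ := key σ hσ
    refine ⟨σ, hσ, ?_⟩
    have h5 : ζ ^ 2 - 1 ≠ 0 := fun e => h1 (by rw [map_pow, h3]; linear_combination lam ^ 2 * e)
    rw [h4, mul_left_cancel₀ h5 (show (ζ ^ 2 - 1) * ζ ^ 2 = (ζ ^ 2 - 1) * -1 by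
      linear_combination h2), neg_one_mul]

/-- **BLOCK F** from its leaves -/
theorem fStmt_of (hE : ExStmt) (hG : GalStmt) (hW : WqStmt) (hU : UnrStmt) (hR : RamStmt)
    {del : ℚ} (hd : 0 < del) {m : ℕ} (hm : 0 < m) (h17 : ¬ 17 ∣ m)
    (ι : Om →+* ℂ) (Q3 : Plc) (h3 : Q3.rchar = 3) (L : Fl.Loc3 ι Q3) :
    FStmt (Lc.of h3 L) (Lk del) (Ar.nb del hd m hm h17) := by
  refine ⟨(Ar.M0 m : ℝ), 1, fun y S hS => ?_⟩
  obtain ⟨p1, p2, p3, t, D, hc, hy, hD⟩ := Ar.cert_le hd hm h17 hS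
  obtain ⟨P, hP⟩ := exists_par Om hc
  obtain ⟨M⟩ := hE Om P
  choose E hE using exists_ov hG hP M
  obtain ⟨i, hi⟩ := IsAlgClosed.exists_pow_nat_eq (-1 : Om) two_pos
  obtain ⟨R, ha, hj, hχ, hcy⟩ := hW P M E i hE hi
  obtain ⟨hfin, hrk, htor, hl⟩ := taStmt P M
  obtain ⟨F⟩ := R.exists_fr (by omega)
  have h2 : 2 ∣ D.natAbs := Int.natCast_dvd.1 hc.two
  have h3' : ¬ 3 ∣ D.natAbs := fun h => hc.three (Int.natCast_dvd.2 h)
  have nd : ∀ (Q : Plc) (n : ℕ), Q.rchar ≠ 3 → ¬ Q.rchar ∣ 3 ^ n := fun Q n h => Rg.not_dvd_pow h n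
  obtain ⟨r0, r1, r2⟩ := pack (Lc.of h3 L) (a := fun σ => (E σ).pic.toAddMonoidHom) ha F hi hχ hcy
    (Int.natAbs_pos.2 hc.D_ne) h2 h3' htor
    (fun x => by
      obtain ⟨U, h1, h2⟩ := opStmt P M x
      exact ⟨U, h1, fun σ hσ => h2 σ hσ _ (hE σ)⟩)
    (fun Q hQ σ hσ => by
      rw [ha]
      exact LinearMap.ext fun u => Tate.ext fun n => hU _ _ _ _ _ _ _ P M Q hc hP hQ σ hσ _ (hE σ) _ _
        (nd Q n fun e => hQ (e ▸ dvd_mul_right _ _)) (u.pow_smul_apply n))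
    (fun Q hQ hQ2 => by
      obtain ⟨lam, hlam⟩ := IsAlgClosed.exists_pow_nat_eq (Q.rchar : Om) four_pos
      have key := fun σ hσ (u : Tate 3 (Pic Om M.Y)) n =>
        hR _ _ _ _ _ _ _ P M Q hc hP hQ hQ2 lam hlam σ hσ _ (hE σ) _ _
          (nd Q n fun e => h3' (e ▸ hQ)) (u.pow_smul_apply n)
      obtain ⟨f1, σ, hσ, f2⟩ := exists_four hlam hQ2
      refine ⟨fun σ hσ => ?_, σ, hσ, ?_⟩ <;> rw [ha]
      · exact LinearMap.ext fun u => Tate.ext fun n =>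
          (key _ ((In Q).pow_mem hσ 4) u n).1 (f1 σ hσ)
      · exact LinearMap.ext fun u => Tate.ext fun n => (key _ ((In Q).mul_mem hσ hσ) u n).2 f2)
    (flatStmt ι Q3 h3 L _ _ _ _ _ _ _ P M E hc hP hE)
  obtain ⟨a, hT⟩ := exists_isTr r2
  refine ⟨O3, _, _, _, inferInstance, D.natAbs, _, a, r0, r1, hT, hD, fun j =>
    ⟨m, p1, p2, p3, t, D, P, M, j O3.s3, hc, hy, hP, ?_, fun Q e hQ ⟨he, σ, hσ, hs⟩ => ?_⟩⟩
  · rw [← map_pow, O3.s3_sq, map_ofNat]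
  obtain rfl : e = E σ := (hG Om P M).2.1 _ _ he (hE σ).1
    (RingEquiv.ext fun c => (hs c).trans ((hE σ).2 c).symm)
  have hχ' : R.χ σ = 1 ↔ Q.rchar % 4 ≠ 3 :=
    (hχ σ).trans (frob_i hi (fun e => hQ ((e ▸ h2).mul_left 3)) hσ)
  have hcyc : (R.cyc σ : ℤ_[3]) = Q.rchar :=
    cyc_eq (p := 3) hσ (fun e => hQ (e ▸ dvd_mul_right _ _)) (by exact_mod_cast hcy σ)
  refine ⟨ap (F.cc σ), fun n x hx => ?_, ?_⟩
  · have := wq_A R hl (fun u => by rw [hj]) (fun u => by rw [ha σ]) hcyc F n x hx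
    refine (congrArg M.j ?_).trans (map_zero _)
    rw [← this]
    by_cases h : Q.rchar % 4 = 3
    · rw [if_neg (fun e => hχ'.1 e h), ep, if_pos h]; rfl
    · rw [if_pos (hχ'.2 h), ep, if_neg h]; rfl
  · have e : j (a Q.rchar) = (j.comp O3.c3.φ) (F.cc σ) * j O3.s3 ^ ep Q.rchar := by
      rw [← hT Q σ hQ hσ, F.trace_ρ0, map_mul, show R.qm.χa σ = R.χ σ from rfl]
      by_cases h : Q.rchar % 4 = 3
      · rw [if_neg (fun e => hχ'.1 e h), ep, if_pos h, pow_one]; rfl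
      · rw [if_pos (hχ'.2 h), ep, if_neg h, pow_zero, map_one]; rfl
    show Lim _ (j (a Q.rchar)) _
    rw [e]
    refine lim _ _ (pow_ne_zero _ fun h => ?_)
    have := congrArg j O3.s3_sq
    rw [map_pow, h, map_ofNat] at this
    norm_num at this

end Crest.Agent.T15.FA
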