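import Crest.Agent.T15.Abel_82
import Crest.Agent.T15.Wp2_31

/-!
# Row 15, block Ht (helper82): functoriality of `lam` (semilinear isomorphisms, norm, conorm, END)
-/

set_option autoImplicit false
set_option linter.all false

noncomputable section

namespace Crest.Agent.T15.Hon

open WithZero TensorProduct Module
open Crest.Agent.R013.RR7_948 Crest.Agent.R013.RR8_948 Crest.Agent.R013.RR9_948
open Crest.Agent.R013.RR11_948 Crest.Agent.R013.RR12_948 Crest.Agent.R013.PicD_398
open Crest.Agent.R013.RR14_948 Crest.Agent.R013.RR18_948 Crest.Agent.R013.RR19_948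
open Crest.Agent.T15.Disc Crest.Agent.R013.Frob1_914
open Crest.Agent.R013.CE2_280 Crest.Agent.R013.CE3_280 Crest.Agent.R013.CE5_280

section chain

variable {C K M : Type*} [Field C] [Field K] [Algebra C K] [Algebra (RatFunc C) K]
  [IsScalarTower C (RatFunc C) K] [Algebra.IsSeparable (RatFunc C) K] [Field M] [Algebra C M]

/-- the chain rule for any derivation `D` normalised by `D x = 1` -/
theorem chain_D (D : Derivation C K K) {x : K} (hD : D x = 1) (φ : K →ₐ[C] M)
    (δ : Derivation C M M) (y : K) : δ (φ y) = φ (D y) * δ (φ x) := by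
  have h1 := chain_82 (AlgHom.id C K) D y
  have h2 := chain_82 (AlgHom.id C K) D x
  simp only [AlgHom.id_apply] at h1 h2
  rw [hD] at h2
  have h3 := congrArg φ h2
  rw [map_one, map_mul] at h3
  rw [chain_82 φ δ y, chain_82 φ δ x, h1, map_mul]
  linear_combination (φ (del C K y) * δ (φ (xK C K))) * h3

end chain

section si

variable {Ω L Ω' L' : Type*} [Field Ω] [IsAlgClosed Ω] [Field L] [Algebra Ω L]
  [Algebra (RatFunc Ω) L] [IsScalarTower Ω (RatFunc Ω) L] [FiniteDimensional (RatFunc Ω) L]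
  [Algebra.IsSeparable (RatFunc Ω) L] [Field Ω'] [IsAlgClosed Ω'] [Field L'] [Algebra Ω' L']
  [Algebra (RatFunc Ω') L'] [IsScalarTower Ω' (RatFunc Ω') L'] [FiniteDimensional (RatFunc Ω') L']
  [Algebra.IsSeparable (RatFunc Ω') L']

theorem ev_SI (e : SI Ω L Ω' L') (P : Pl Ω L) (u : L) : ev (e.pl P) (e.f u) = e.s (ev P u) := by
  by_cases hu : P.v u ≤ 1
  · apply ev_eq
    rw [← e.comm, ← map_sub, SI.pl_v_apply]
    exact ev_spec P hu
  · have h2 : ¬ (e.pl P).v (e.f u) ≤ 1 := by rwa [SI.pl_v_apply]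
    unfold Disc.ev
    rw [dif_neg h2, dif_neg hu, map_zero]

/-- `lam` and semilinear isomorphisms -/
theorem lam_SI (e : SI Ω L Ω' L') (d : Ω → Ω) (d' : Ω' → Ω') (c : Ω')
    (hd : ∀ a, d' (e.s a) = c * e.s (d a)) (h y : L) (D : Pl Ω L →₀ ℤ) :
    lam d' (e.f h) (e.f y) (e.D D) = c * e.s (lam d h y D) := by
  induction D using Finsupp.induction_linear with
  | zero => simp
  | add a b ha hb => simp only [map_add, ha, hb, mul_add]
  | single P n =>
    rw [SI.D_single, lam_single, lam_single, ev_SI, ev_SI, hd, map_mul, map_mul, map_intCast]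
    ring

end si

section push

variable {Ω L L7 : Type*} [Field Ω] [IsAlgClosed Ω] [Field L] [Algebra Ω L]
  [Algebra (RatFunc Ω) L] [IsScalarTower Ω (RatFunc Ω) L] [FiniteDimensional (RatFunc Ω) L]
  [Algebra.IsSeparable (RatFunc Ω) L] [Field L7] [Algebra Ω L7]
  [Algebra (RatFunc Ω) L7] [IsScalarTower Ω (RatFunc Ω) L7] [FiniteDimensional (RatFunc Ω) L7]
  [Algebra.IsSeparable (RatFunc Ω) L7] [Algebra L L7] [IsScalarTower Ω L L7]
  [FiniteDimensional L L7] [Algebra.IsSeparable L L7]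

theorem ev_under (Q : Pl Ω L7) (u : L) : ev Q (algebraMap L L7 u) = ev (under L Q) u := by
  by_cases hu : (under L Q).v u ≤ 1
  · apply ev_eq
    rw [IsScalarTower.algebraMap_apply Ω L L7, ← map_sub, ← under_lt_one_iff]
    exact ev_spec _ hu
  · have h2 : ¬ Q.v (algebraMap L L7 u) ≤ 1 := by rwa [← under_le_one_iff]
    unfold Disc.ev
    rw [dif_neg h2, dif_neg hu]

/-- `lam` and the norm of divisors -/
theorem lam_push (d : Ω → Ω) (h y : L) (E : Pl Ω L7 →₀ ℤ) :
    lam d h y (Wp.push L E) = lam d (algebraMap L L7 h) (algebraMap L L7 y) E := by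
  induction E using Finsupp.induction_linear with
  | zero => simp
  | add a b ha hb => simp only [map_add, ha, hb]
  | single Q n => rw [Wp.push_single, lam_single, lam_single, ev_under, ev_under]

end push

section one

variable {C K Ω L : Type*} [Field C] [IsAlgClosed C] [Field K] [Algebra C K]
  [Algebra (RatFunc C) K] [IsScalarTower C (RatFunc C) K] [FiniteDimensional (RatFunc C) K]
  [Algebra.IsSeparable (RatFunc C) K] [Field Ω] [Algebra C Ω] [IsAlgClosed Ω]
  [Field L] [Algebra Ω L] [Algebra C L] [IsScalarTower C Ω L]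
  [Algebra (RatFunc Ω) L] [IsScalarTower Ω (RatFunc Ω) L] [FiniteDimensional (RatFunc Ω) L]
  [Algebra.IsSeparable (RatFunc Ω) L] {ι : K →ₐ[C] L}

theorem lam_plQ' (hι : IsCE Ω ι) (d : Ω → Ω) (h y : K) (Q : K →ₐ[C] Ω) (n : ℤ) :
    lam d (ι h) (ι y) (Finsupp.single (plQ hι Q) n) = n * (Q h * d (Q y)) := by
  rw [lam_single, ev_plQ, ev_plQ]

/-- `lam` is `C`-linear in `h` -/
theorem lam_sum (hι : IsCE Ω ι) (d : Derivation C Ω Ω) {I : Type*} (s : Finset I) (c : I → C)
    (h : I → K) (y : K) (D : Pl Ω L →₀ ℤ) :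
    lam d (ι (∑ i ∈ s, c i • h i)) (ι y) D =
      ∑ i ∈ s, algebraMap C Ω (c i) * lam d (ι (h i)) (ι y) D := by
  induction D using Finsupp.induction_linear with
  | zero => simp
  | add a b ha hb => simp only [map_add, mul_add, Finset.sum_add_distrib, ha, hb]
  | single w n =>
    rcases cases hι w with ⟨P, rfl⟩ | ⟨Q, rfl⟩
    · simp only [lam_conP, mul_zero, Finset.sum_const_zero]
    · rw [lam_plQ', map_sum Q, Finset.sum_mul, Finset.mul_sum]
      refine Finset.sum_congr rfl fun i _ => ?_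
      rw [lam_plQ', map_smul Q, Algebra.smul_def]
      ring

/-- change of variable: `h dy = h (D y) dx` -/
theorem lam_D (hι : IsCE Ω ι) (d : Derivation C Ω Ω) (D : Derivation C K K) {x : K}
    (hD : D x = 1) (h y : K) (E : Pl Ω L →₀ ℤ) :
    lam d (ι h) (ι y) E = lam d (ι (h * D y)) (ι x) E := by
  induction E using Finsupp.induction_linear with
  | zero => simp
  | add a b ha hb => simp only [map_add, ha, hb]
  | single w n =>
    rcases cases hι w with ⟨P, rfl⟩ | ⟨Q, rfl⟩
    · rw [lam_conP, lam_conP]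
    · rw [lam_plQ', lam_plQ', chain_D D hD Q d y, map_mul, mul_assoc]

variable [CharZero C]

/-- `lam` of a regular differential on classes -/
def lamP (hι : IsCE Ω ι) (hx : xK Ω L = ι (xK C K)) (d : Derivation C Ω Ω) (h y : K)
    (hg : h * del C K y ∈ LD (canD C K)) : Pic Ω L →+ Ω :=
  QuotientAddGroup.lift (Prin Ω L) (lam d (ι h) (ι y)) (by
    rintro _ ⟨f, hf, rfl⟩
    exact lam_divf hι hx d h y hg hf)

theorem lamP_cls (hι : IsCE Ω ι) (hx : xK Ω L = ι (xK C K)) (d : Derivation C Ω Ω) (h y : K)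
    (hg : h * del C K y ∈ LD (canD C K)) (D : Pl Ω L →₀ ℤ) :
    lamP hι hx d h y hg (cls D) = lam d (ι h) (ι y) D := rfl

theorem lam_congr (hι : IsCE Ω ι) (hx : xK Ω L = ι (xK C K)) (d : Derivation C Ω Ω) (h y : K)
    (hg : h * del C K y ∈ LD (canD C K)) {D E : Pl Ω L →₀ ℤ} (hDE : cls D = cls E) :
    lam d (ι h) (ι y) D = lam d (ι h) (ι y) E := by
  rw [← lamP_cls hι hx d h y hg, ← lamP_cls hι hx d h y hg, hDE]

end one

section two

variable {C K K7 Ω L L7 : Type*} [Field C] [IsAlgClosed C] [Field K] [Algebra C K]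
  [Algebra (RatFunc C) K] [IsScalarTower C (RatFunc C) K] [FiniteDimensional (RatFunc C) K]
  [Algebra.IsSeparable (RatFunc C) K] [Field K7] [Algebra C K7]
  [Algebra (RatFunc C) K7] [IsScalarTower C (RatFunc C) K7] [FiniteDimensional (RatFunc C) K7]
  [Algebra.IsSeparable (RatFunc C) K7] [Algebra K K7] [IsScalarTower C K K7]
  [FiniteDimensional K K7] [Algebra.IsSeparable K K7]
  [Field Ω] [Algebra C Ω] [IsAlgClosed Ω]
  [Field L] [Algebra Ω L] [Algebra C L] [IsScalarTower C Ω L]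
  [Algebra (RatFunc Ω) L] [IsScalarTower Ω (RatFunc Ω) L] [FiniteDimensional (RatFunc Ω) L]
  [Algebra.IsSeparable (RatFunc Ω) L]
  [Field L7] [Algebra Ω L7] [Algebra C L7] [IsScalarTower C Ω L7]
  [Algebra (RatFunc Ω) L7] [IsScalarTower Ω (RatFunc Ω) L7] [FiniteDimensional (RatFunc Ω) L7]
  [Algebra.IsSeparable (RatFunc Ω) L7] [Algebra L L7] [IsScalarTower Ω L L7]
  [FiniteDimensional L L7] [Algebra.IsSeparable L L7] {ι : K →ₐ[C] L} {ι7 : K7 →ₐ[C] L7}

theorem finrank_ce_le (hι7 : IsCE Ω ι7)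
    (hc : ∀ a, ι7 (algebraMap K K7 a) = algebraMap L L7 (ι a)) :
    finrank L L7 ≤ finrank K K7 := by
  classical
  let b := Module.finBasis K K7
  let S : Submodule L L7 := Submodule.span L (Set.range fun i => ι7 (b i))
  have h1 : ∀ a : K7, ι7 a ∈ S := by
    intro a
    rw [← b.sum_repr a, map_sum]
    refine S.sum_mem fun i _ => ?_
    rw [Algebra.smul_def, map_mul, hc, ← Algebra.smul_def]
    exact S.smul_mem _ (Submodule.subset_span ⟨i, rfl⟩)
  have h2 : ∀ t : Ω ⊗[C] K7, mu ι7 t ∈ S := by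
    intro t
    induction t with
    | zero => simp
    | add s t hs ht => rw [map_add]; exact S.add_mem hs ht
    | tmul c f =>
      rw [mu_tmul, IsScalarTower.algebraMap_apply Ω L L7, ← Algebra.smul_def]
      exact S.smul_mem _ (h1 f)
  have h3 : ∀ (t : Ω ⊗[C] K7), ∀ s ∈ S, mu ι7 t * s ∈ S := by
    intro t s hs
    induction hs using Submodule.span_induction with
    | mem x hx =>
      obtain ⟨i, rfl⟩ := hx
      have := h2 (t * (1 ⊗ₜ b i))
      rwa [map_mul, mu_tmul, map_one, one_mul] at this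
    | zero => simp
    | add x y _ _ hx hy => rw [mul_add]; exact S.add_mem hx hy
    | smul a x _ hx => rw [mul_smul_comm]; exact S.smul_mem _ hx
  have h4 : S = ⊤ := by
    rw [eq_top_iff]
    intro f _
    obtain ⟨a, t, ht, hat⟩ := hι7.frac f
    have hm : mu ι7 t ≠ 0 := hι7.ne_zero ht
    let m : S →ₗ[L] S := (LinearMap.mulLeft L (mu ι7 t)).restrict (h3 t)
    have hinj : Function.Injective m := by
      intro x y hxy
      have h5 : mu ι7 t * (x : L7) = mu ι7 t * (y : L7) := congrArg Subtype.val hxy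
      exact Subtype.ext (mul_left_cancel₀ hm h5)
    obtain ⟨s, hs⟩ := (LinearMap.injective_iff_surjective.mp hinj) ⟨mu ι7 a, h2 a⟩
    have h6 : mu ι7 t * (s : L7) = mu ι7 a := congrArg Subtype.val hs
    have h7 : f = s := by
      apply mul_left_cancel₀ hm
      rw [h6, ← hat, mul_comm]
    rw [h7]
    exact s.2
  calc finrank L L7 = finrank L S := by rw [h4, finrank_top]
    _ ≤ Fintype.card (Fin (finrank K K7)) := finrank_range_le_card _
    _ = finrank K K7 := Fintype.card_fin _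

theorem under_plQ (hι : IsCE Ω ι) (hι7 : IsCE Ω ι7)
    (hc : ∀ a, ι7 (algebraMap K K7 a) = algebraMap L L7 (ι a)) (ψ : K7 →ₐ[C] Ω) :
    under L (plQ hι7 ψ) = plQ hι (ψ.comp (IsScalarTower.toAlgHom C K K7)) := by
  refine At.unique hι (fun f => ?_) (plQ_At hι _)
  rw [under_lt_one_iff, map_sub, ← hc, ← IsScalarTower.algebraMap_apply]
  exact plQ_At hι7 ψ _

/-- **`lam` and the conorm**: the trace of the differential -/
theorem lam_con (hι : IsCE Ω ι) (hι7 : IsCE Ω ι7)
    (hc : ∀ a, ι7 (algebraMap K K7 a) = algebraMap L L7 (ι a)) (d : Derivation C Ω Ω)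
    (D : Derivation C K7 K7) {x : K} (hD : D (algebraMap K K7 x) = 1) (h y : K7)
    (E : Pl Ω L →₀ ℤ) :
    lam d (ι7 h) (ι7 y) (con L7 E) = lam d (ι (Algebra.trace K K7 (h * D y))) (ι x) E := by
  classical
  induction E using Finsupp.induction_linear with
  | zero => rw [con_zero, map_zero, map_zero]
  | add a b ha hb => rw [con_add, map_add, map_add, ha, hb]
  | single w n =>
    rw [con_single, map_sum]
    rcases cases hι w with ⟨P, rfl⟩ | ⟨φ, rfl⟩
    · rw [lam_conP]
      refine Finset.sum_eq_zero fun Q hQ => ?_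
      rcases cases hι7 Q with ⟨P', rfl⟩ | ⟨ψ, rfl⟩
      · rw [lam_conP]
      · rw [mem_above, under_plQ hι hι7 hc] at hQ
        exact absurd hQ.symm (conP_ne_plQ hι _ _)
    · letI : Algebra K Ω := φ.toRingHom.toAlgebra
      haveI : IsScalarTower C K Ω := IsScalarTower.of_algebraMap_eq fun c => (φ.commutes c).symm
      let q : (K7 →ₐ[K] Ω) → Pl Ω L7 := fun σ => plQ hι7 (σ.restrictScalars C)
      have hq : Function.Injective q := fun σ τ hστ =>
        AlgHom.restrictScalars_injective C (plQ_injective hι7 hστ)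
      have hsub : Finset.univ.image q ⊆ above L7 (plQ hι φ) := by
        intro Q hQ
        obtain ⟨σ, -, rfl⟩ := Finset.mem_image.mp hQ
        rw [mem_above, under_plQ hι hι7 hc]
        congr 1
        ext a
        exact σ.commutes a
      have hcard : (Finset.univ.image q).card = finrank K K7 := by
        rw [Finset.card_image_of_injective _ hq, Finset.card_univ, AlgHom.card]
      have hsum : ∑ Q ∈ above L7 (plQ hι φ), eR L Q = finrank L L7 := by
        have := sum_eR_degP (L := L7) (plQ hι φ)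
        simpa only [degP_eq_one, mul_one] using this
      have hle := finrank_ce_le hι7 hc
      have h1 : ∑ Q ∈ above L7 (plQ hι φ), 1 ≤ ∑ Q ∈ above L7 (plQ hι φ), eR L Q :=
        Finset.sum_le_sum fun Q _ => eR_pos Q
      have h2 : ∑ Q ∈ above L7 (plQ hι φ), 1 = (above L7 (plQ hι φ)).card := by simp
      have h3 := Finset.card_le_card hsub
      have heq : Finset.univ.image q = above L7 (plQ hι φ) :=
        Finset.eq_of_subset_of_card_le hsub (by omega)
      have he : ∀ Q ∈ above L7 (plQ hι φ), 1 = eR L Q :=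
        (Finset.sum_eq_sum_iff_of_le fun Q _ => eR_pos Q).mp (by omega)
      rw [Finset.sum_congr rfl fun Q hQ => by rw [← he Q hQ, Nat.cast_one, one_mul], ← heq,
        Finset.sum_image fun σ _ τ _ hστ => hq hστ, lam_plQ']
      have h4 : φ (Algebra.trace K K7 (h * D y)) = ∑ σ : K7 →ₐ[K] Ω, σ (h * D y) :=
        trace_eq_sum_embeddings Ω
      rw [h4, Finset.sum_mul, Finset.mul_sum]
      refine Finset.sum_congr rfl fun σ _ => ?_
      have h5 : (σ.restrictScalars C) (algebraMap K K7 x) = φ x := σ.commutes x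
      rw [lam_plQ', chain_D D hD (σ.restrictScalars C) d y, h5, map_mul, mul_assoc]
      rfl

/-- **END on divisors**: the correspondence `push ∘ e ∘ con`; `h'`, `y'` are the preimages of `h`,
`y` under the automorphism -/
theorem lam_end (hι : IsCE Ω ι) (hι7 : IsCE Ω ι7)
    (hc : ∀ a, ι7 (algebraMap K K7 a) = algebraMap L L7 (ι a)) (d : Derivation C Ω Ω)
    (D : Derivation C K7 K7) {x : K} (hD : D (algebraMap K K7 x) = 1) (e : SI Ω L7 Ω L7)
    (hs : ∀ a, e.s a = a) {h y : K} {h' y' : K7} (hh : e.f (ι7 h') = ι7 (algebraMap K K7 h))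
    (hy : e.f (ι7 y') = ι7 (algebraMap K K7 y)) (E : Pl Ω L →₀ ℤ) :
    lam d (ι h) (ι y) (Wp.push L (e.D (con L7 E))) =
      lam d (ι (Algebra.trace K K7 (h' * D y'))) (ι x) E := by
  rw [lam_push, ← hc, ← hc, ← hh, ← hy, lam_SI e d d 1 (fun a => by rw [hs, hs, one_mul]), hs,
    one_mul, lam_con hι hι7 hc d D hD]

/-- **END with a matrix** -/
theorem lam_end_sum (hι : IsCE Ω ι) (hι7 : IsCE Ω ι7)
    (hc : ∀ a, ι7 (algebraMap K K7 a) = algebraMap L L7 (ι a)) (d : Derivation C Ω Ω)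
    (D : Derivation C K7 K7) {x : K} (hD : D (algebraMap K K7 x) = 1) (e : SI Ω L7 Ω L7)
    (hs : ∀ a, e.s a = a) {h y : K} {h' y' : K7} (hh : e.f (ι7 h') = ι7 (algebraMap K K7 h))
    (hy : e.f (ι7 y') = ι7 (algebraMap K K7 y)) {I : Type*} (s : Finset I) (c : I → C)
    (g : I → K) (htr : Algebra.trace K K7 (h' * D y') = ∑ i ∈ s, c i • g i) (E : Pl Ω L →₀ ℤ) :
    lam d (ι h) (ι y) (Wp.push L (e.D (con L7 E))) =
      ∑ i ∈ s, algebraMap C Ω (c i) * lam d (ι (g i)) (ι x) E := by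
  rw [lam_end hι hι7 hc d D hD e hs hh hy, htr, lam_sum hι]

/-- **END on classes** -/
theorem lamP_end [CharZero C] (hι : IsCE Ω ι) (hx : xK Ω L = ι (xK C K)) (hι7 : IsCE Ω ι7)
    (hc : ∀ a, ι7 (algebraMap K K7 a) = algebraMap L L7 (ι a)) (d : Derivation C Ω Ω)
    (D : Derivation C K7 K7) {x : K} (hD : D (algebraMap K K7 x) = 1) (e : SI Ω L7 Ω L7)
    (hs : ∀ a, e.s a = a) {h y : K} (hg : h * del C K y ∈ LD (canD C K)) {h' y' : K7}
    (hh : e.f (ι7 h') = ι7 (algebraMap K K7 h))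
    (hy : e.f (ι7 y') = ι7 (algebraMap K K7 y)) {I : Type*} (s : Finset I) (c : I → C)
    (g : I → K) (hgi : ∀ i, g i * del C K x ∈ LD (canD C K))
    (htr : Algebra.trace K K7 (h' * D y') = ∑ i ∈ s, c i • g i) (z : Pic Ω L) :
    lamP hι hx d h y hg (Wp.pushP L (e.pic (Wp.conP L7 z))) =
      ∑ i ∈ s, algebraMap C Ω (c i) * lamP hι hx d (g i) x (hgi i) z := by
  obtain ⟨E, rfl⟩ := cls_surjective z
  rw [Wp.conP_cls, SI.pic_cls, Wp.pushP_cls, lamP_cls,
    lam_end_sum hι hι7 hc d D hD e hs hh hy s c g htr]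
  rfl

end two

section sip

variable {C K Ω L : Type*} [Field C] [IsAlgClosed C] [CharZero C] [Field K] [Algebra C K]
  [Algebra (RatFunc C) K] [IsScalarTower C (RatFunc C) K] [FiniteDimensional (RatFunc C) K]
  [Algebra.IsSeparable (RatFunc C) K] [Field Ω] [Algebra C Ω] [IsAlgClosed Ω]
  [Field L] [Algebra Ω L] [Algebra C L] [IsScalarTower C Ω L]
  [Algebra (RatFunc Ω) L] [IsScalarTower Ω (RatFunc Ω) L] [FiniteDimensional (RatFunc Ω) L]
  [Algebra.IsSeparable (RatFunc Ω) L] {ι : K →ₐ[C] L}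

/-- a semilinear automorphism which sends `h dy` to `h' dy'` -/
theorem lam_SI' (hι : IsCE Ω ι) (d : Derivation C Ω Ω) (e : SI Ω L Ω L) (c : Ω)
    (hd : ∀ a, d (e.s a) = c * e.s (d a)) {h y h1 y1 h' y' : K} (hh : e.f (ι h) = ι h1)
    (hy : e.f (ι y) = ι y1) (hω : h1 * del C K y1 = h' * del C K y') (E : Pl Ω L →₀ ℤ) :
    lam d (ι h') (ι y') (e.D E) = c * e.s (lam d (ι h) (ι y) E) := by
  rw [← lam_SI e d d c hd, hh, hy, lam_D hι d (del C K) (del_xK C K) h' y',
    lam_D hι d (del C K) (del_xK C K) h1 y1, hω]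

theorem lamP_SI (hι : IsCE Ω ι) (hx : xK Ω L = ι (xK C K)) (d : Derivation C Ω Ω)
    (e : SI Ω L Ω L) (c : Ω) (hd : ∀ a, d (e.s a) = c * e.s (d a)) {h y h1 y1 h' y' : K}
    (hg : h * del C K y ∈ LD (canD C K)) (hg' : h' * del C K y' ∈ LD (canD C K))
    (hh : e.f (ι h) = ι h1) (hy : e.f (ι y) = ι y1) (hω : h1 * del C K y1 = h' * del C K y')
    (z : Pic Ω L) :
    lamP hι hx d h' y' hg' (e.pic z) = c * e.s (lamP hι hx d h y hg z) := by
  obtain ⟨E, rfl⟩ := cls_surjective z
  rw [SI.pic_cls, lamP_cls, lamP_cls, lam_SI' hι d e c hd hh hy hω]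

end sip

end Crest.Agent.T15.Hon
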