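import Mathlib
import Crest.Agent.T15.Rk2_31

/-!
# Row 15 (helper39): constant field extension, functoriality

`hι : IsCE Ω ι` (`ι : K →ₐ[F] L`, `L` the constant field extension of `K / F` to `Ω`).
* `hom_ext`, `exists_hom`, `exists_SI`, `extSI` : maps of constant field extensions;
* `baseP_SI`, `baseP_pushP`, `baseP_conP` : compatibility with semilinear isomorphisms, norm, conorm.
-/

set_option autoImplicit false
set_option linter.all false

namespace Crest.Agent.T15.Fn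

open WithZero Module TensorProduct
open Crest.Agent.R013.RR7_948 Crest.Agent.R013.RR8_948 Crest.Agent.R013.RR9_948
open Crest.Agent.R013.RR11_948 Crest.Agent.R013.RR12_948 Crest.Agent.R013.RR13_948
open Crest.Agent.R013.RR18_948 Crest.Agent.R013.RR19_948
open Crest.Agent.R013.PicD_398 Crest.Agent.R013.Frob1_914 Crest.Agent.R013.TP_928
open Crest.Agent.R013.CE3_280 (IsCE mu mu_tmul Over plQ plQ_At conP_Over)
open Crest.Agent.R013.CE5_280 (base base_conP base_plQ base_single degD_base)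
open Crest.Agent.R013.CE9_280 (KO iota isCE xK_eq)
open Crest.Agent.R013
open Crest.Agent.T15.Wp
open Crest.Agent.T15.Rk (baseP baseP_cls baseP_SI exists_baseP degPic_baseP)

section Hom

variable {F K Ω L : Type*} [Field F] [Field K] [Algebra F K] [Field Ω] [Algebra F Ω]
  [Field L] [Algebra Ω L] [Algebra F L] [IsScalarTower F Ω L] {ι : K →ₐ[F] L}
  {F₂ K₂ Ω₂ L₂ : Type*} [Field F₂] [Field K₂] [Algebra F₂ K₂] [Field Ω₂] [Algebra F₂ Ω₂]
  [Field L₂] [Algebra Ω₂ L₂] [Algebra F₂ L₂] [IsScalarTower F₂ Ω₂ L₂] {ι₂ : K₂ →ₐ[F₂] L₂}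

/-- a subfield containing `Ω` and `ι K` is everything -/
theorem mem_of (hι : IsCE Ω ι) (S : Subfield L) (h1 : ∀ c, algebraMap Ω L c ∈ S)
    (h2 : ∀ f, ι f ∈ S) (x : L) : x ∈ S := by
  have hmu : ∀ t : Ω ⊗[F] K, mu ι t ∈ S := by
    intro t
    induction t with
    | zero => rw [map_zero]; exact zero_mem _
    | add t t' h h' => rw [map_add]; exact add_mem h h'
    | tmul c g => rw [mu_tmul]; exact mul_mem (h1 c) (h2 g)
  obtain ⟨a, c, hc, hac⟩ := hι.frac x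
  rw [(eq_div_iff (hι.ne_zero hc)).mpr hac]
  exact div_mem (hmu a) (hmu c)

theorem hom_ext (hι : IsCE Ω ι) {M : Type*} [Field M] {E E' : L →+* M}
    (h1 : ∀ c, E (algebraMap Ω L c) = E' (algebraMap Ω L c)) (h2 : ∀ f, E (ι f) = E' (ι f)) :
    E = E' :=
  RingHom.ext fun x => mem_of hι (RingHom.eqLocusField E E') h1 h2 x

theorem exists_hom (hι : IsCE Ω ι) (hι₂ : IsCE Ω₂ ι₂) (s : F →+* F₂) (hs : Function.Surjective s)
    (g : Ω →+* Ω₂) (φ : K →+* K₂) (hg : ∀ c, g (algebraMap F Ω c) = algebraMap F₂ Ω₂ (s c))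
    (hφ : ∀ c, φ (algebraMap F K c) = algebraMap F₂ K₂ (s c)) :
    ∃ E : L →+* L₂, (∀ c, E (algebraMap Ω L c) = algebraMap Ω₂ L₂ (g c)) ∧
      ∀ f, E (ι f) = ι₂ (φ f) := by
  classical
  letI : Algebra F L₂ := ((algebraMap F₂ L₂).comp s).toAlgebra
  let g' : Ω →ₐ[F] L₂ :=
    { toRingHom := (algebraMap Ω₂ L₂).comp g
      commutes' := fun c => by
        show algebraMap Ω₂ L₂ (g (algebraMap F Ω c)) = algebraMap F₂ L₂ (s c)
        rw [hg, ← IsScalarTower.algebraMap_apply] }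
  let ψ : K →ₐ[F] L₂ :=
    { toRingHom := (ι₂ : K₂ →+* L₂).comp φ
      commutes' := fun c => by
        show ι₂ (φ (algebraMap F K c)) = algebraMap F₂ L₂ (s c)
        rw [hφ, AlgHom.commutes] }
  let T : Ω ⊗[F] K →ₐ[F] L₂ := Algebra.TensorProduct.lift g' ψ (fun _ _ => Commute.all _ _)
  have hT : ∀ c f, T (c ⊗ₜ f) = algebraMap Ω₂ L₂ (g c) * ι₂ (φ f) := fun c f =>
    Algebra.TensorProduct.lift_tmul _ _ _ _ _
  have hinj : Function.Injective (T : Ω ⊗[F] K →+* L₂) := by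
    rw [injective_iff_map_eq_zero]
    intro t ht
    let b := Basis.ofVectorSpace F K
    obtain ⟨c, rfl⟩ := TensorProduct.eq_repr_basis_right b t
    have hb := (b.linearIndependent.map_of_surjective_injective s φ.toAddMonoidHom hs
      (fun m hm => by simpa using hm) (fun r m => by
        show φ (r • m) = s r • φ m
        rw [Algebra.smul_def, Algebra.smul_def, map_mul, hφ])).comp
      (fun i : c.support => (i : Basis.ofVectorSpaceIndex F K)) Subtype.val_injective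
    have h3 := CE8_280.coeff_eq_zero (N := Ω₂) hb (fun i => g (c i)) (by
      apply hι₂.inj
      rw [map_zero, ← ht, map_sum, Finsupp.sum, map_sum, ← Finset.sum_coe_sort c.support]
      refine Finset.sum_congr rfl fun i _ => ?_
      rw [mu_tmul]
      exact (hT _ _).symm)
    have h4 : c = 0 := by
      ext i
      by_contra hi
      have := congrFun h3 ⟨i, Finsupp.mem_support_iff.mpr hi⟩
      exact hi (by simpa using this)
    rw [h4, Finsupp.sum_zero_index]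
  letI : Algebra (Ω ⊗[F] K) L := (mu (Ω := Ω) ι : Ω ⊗[F] K →+* L).toAlgebra
  haveI : FaithfulSMul (Ω ⊗[F] K) L := (faithfulSMul_iff_algebraMap_injective _ _).mpr hι.inj
  haveI : IsFractionRing (Ω ⊗[F] K) L := IsFractionRing.of_field _ _ fun z => by
    obtain ⟨a, c, hc, hac⟩ := hι.frac z
    exact ⟨a, c, (eq_div_iff (hι.ne_zero hc)).mpr hac⟩
  have hl : ∀ t, IsFractionRing.lift (K := L) hinj (mu ι t) = T t := fun t =>
    IsFractionRing.lift_algebraMap hinj t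
  refine ⟨IsFractionRing.lift hinj, fun c => ?_, fun f => ?_⟩
  · have := hl (c ⊗ₜ 1)
    rw [hT, mu_tmul] at this
    simpa using this
  · have := hl (1 ⊗ₜ f)
    rw [hT, mu_tmul] at this
    simpa using this

theorem exists_SI (hι : IsCE Ω ι) (hι₂ : IsCE Ω₂ ι₂) (e : SI F K F₂ K₂) (g : Ω ≃+* Ω₂)
    (hg : ∀ c, g (algebraMap F Ω c) = algebraMap F₂ Ω₂ (e.s c)) :
    ∃ E : SI Ω L Ω₂ L₂, E.s = g ∧ ∀ f, E.f (ι f) = ι₂ (e.f f) := by
  obtain ⟨E, h1, h2⟩ := exists_hom hι hι₂ (e.s : F →+* F₂) e.s.surjective (g : Ω →+* Ω₂)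
    (e.f : K →+* K₂) hg e.comm
  have hs : Function.Surjective E := fun y => by
    refine mem_of hι₂ E.fieldRange (fun c => ⟨algebraMap Ω L (g.symm c), ?_⟩)
      (fun f => ⟨ι (e.f.symm f), ?_⟩) y
    · show E _ = _
      rw [h1]; simp
    · show E _ = _
      rw [h2]; simp
  exact ⟨⟨g, RingEquiv.ofBijective E ⟨E.injective, hs⟩, h1⟩, rfl, h2⟩

/-- the extension of `e` which is `g` on the constants -/
noncomputable def extSI (hι : IsCE Ω ι) (hι₂ : IsCE Ω₂ ι₂) (e : SI F K F₂ K₂) (g : Ω ≃+* Ω₂)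
    (hg : ∀ c, g (algebraMap F Ω c) = algebraMap F₂ Ω₂ (e.s c)) : SI Ω L Ω₂ L₂ :=
  (exists_SI hι hι₂ e g hg).choose

theorem extSI_s (hι : IsCE Ω ι) (hι₂ : IsCE Ω₂ ι₂) (e : SI F K F₂ K₂) (g : Ω ≃+* Ω₂)
    (hg : ∀ c, g (algebraMap F Ω c) = algebraMap F₂ Ω₂ (e.s c)) :
    (extSI hι hι₂ e g hg).s = g := (exists_SI hι hι₂ e g hg).choose_spec.1

theorem extSI_iota (hι : IsCE Ω ι) (hι₂ : IsCE Ω₂ ι₂) (e : SI F K F₂ K₂) (g : Ω ≃+* Ω₂)
    (hg : ∀ c, g (algebraMap F Ω c) = algebraMap F₂ Ω₂ (e.s c)) (f : K) :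
    (extSI hι hι₂ e g hg).f (ι f) = ι₂ (e.f f) := (exists_SI hι hι₂ e g hg).choose_spec.2 f

theorem extSI_alg (hι : IsCE Ω ι) (hι₂ : IsCE Ω₂ ι₂) (e : SI F K F₂ K₂) (g : Ω ≃+* Ω₂)
    (hg : ∀ c, g (algebraMap F Ω c) = algebraMap F₂ Ω₂ (e.s c)) (c : Ω) :
    (extSI hι hι₂ e g hg).f (algebraMap Ω L c) = algebraMap Ω₂ L₂ (g c) := by
  rw [SI.comm, extSI_s]

/-- two semilinear isomorphisms which agree on the constants and on `ι K` agree -/
theorem SI_ext (hι : IsCE Ω ι) {E E' : SI Ω L Ω₂ L₂} (h1 : E.s = E'.s)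
    (h2 : ∀ f, E.f (ι f) = E'.f (ι f)) (x : L) : E.f x = E'.f x :=
  RingHom.congr_fun (hom_ext hι (E := (E.f : L →+* L₂)) (E' := (E'.f : L →+* L₂))
    (fun c => by
      show E.f _ = E'.f _
      rw [E.comm, E'.comm, h1]) h2) x

end Hom

section Pic

variable {F K Ω L : Type*} [Field F] [IsAlgClosed F] [Field K] [Algebra F K]
  [Algebra (RatFunc F) K] [IsScalarTower F (RatFunc F) K] [FiniteDimensional (RatFunc F) K]
  [Algebra.IsSeparable (RatFunc F) K]
  [Field Ω] [Algebra F Ω] [IsAlgClosed Ω]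
  [Field L] [Algebra Ω L] [Algebra F L] [IsScalarTower F Ω L]
  [Algebra (RatFunc Ω) L] [IsScalarTower Ω (RatFunc Ω) L]
  [FiniteDimensional (RatFunc Ω) L] [Algebra.IsSeparable (RatFunc Ω) L]
  {ι : K →ₐ[F] L}

section SI

variable {F₂ K₂ Ω₂ L₂ : Type*} [Field F₂] [IsAlgClosed F₂] [Field K₂] [Algebra F₂ K₂]
  [Algebra (RatFunc F₂) K₂] [IsScalarTower F₂ (RatFunc F₂) K₂]
  [FiniteDimensional (RatFunc F₂) K₂] [Algebra.IsSeparable (RatFunc F₂) K₂]
  [Field Ω₂] [Algebra F₂ Ω₂] [IsAlgClosed Ω₂]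
  [Field L₂] [Algebra Ω₂ L₂] [Algebra F₂ L₂] [IsScalarTower F₂ Ω₂ L₂]
  [Algebra (RatFunc Ω₂) L₂] [IsScalarTower Ω₂ (RatFunc Ω₂) L₂]
  [FiniteDimensional (RatFunc Ω₂) L₂] [Algebra.IsSeparable (RatFunc Ω₂) L₂]
  {ι₂ : K₂ →ₐ[F₂] L₂} {e : SI F K F₂ K₂} {E : SI Ω L Ω₂ L₂}

theorem pl_conP (hι : IsCE Ω ι) (hι₂ : IsCE Ω₂ ι₂) (h : ∀ f, E.f (ι f) = ι₂ (e.f f))
    (P : Pl F K) : E.pl (CE3_280.conP hι P) = CE3_280.conP hι₂ (e.pl P) := by
  have h1 : ∀ f, (E.pl (CE3_280.conP hι P)).v (ι₂ f) = (e.pl P).v f := fun f => by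
    obtain ⟨f, rfl⟩ := e.f.surjective f
    rw [← h, SI.pl_v_apply, SI.pl_v_apply, (conP_Over hι P).v_iota hι]
  exact CE3_280.Over.unique hι₂ ⟨fun f hf => by rwa [h1], fun f hf => by rwa [h1]⟩
    (conP_Over hι₂ _)

end SI

variable [CharZero F]

instance sepKO : Algebra.IsSeparable (RatFunc Ω) (KO F K Ω) := by
  haveI : CharZero Ω := charZero_of_injective_algebraMap (algebraMap F Ω).injective
  haveI : CharZero (RatFunc Ω) :=
    charZero_of_injective_algebraMap (algebraMap Ω (RatFunc Ω)).injective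
  infer_instance

/-- transport of identities on torsion -/
theorem tors_ext (hι : IsCE Ω ι) {B : Type*} {φ ψ : Pic Ω L → B} {n : ℕ} (hn : n ≠ 0)
    (h : ∀ x : Pic F K, n • x = 0 → φ (baseP hι x) = ψ (baseP hι x)) (y : Pic Ω L) (hy : n • y = 0) :
    φ y = ψ y := by
  obtain ⟨x, hx, rfl⟩ := exists_baseP hι hn hy
  exact h x hx

end Pic

section Tower

variable {F Y K Ω Y' K' : Type*} [Field F] [IsAlgClosed F] [Field Ω] [Algebra F Ω] [IsAlgClosed Ω]
  [Field Y] [Algebra F Y]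
  [Algebra (RatFunc F) Y] [IsScalarTower F (RatFunc F) Y] [FiniteDimensional (RatFunc F) Y]
  [Algebra.IsSeparable (RatFunc F) Y]
  [Field K] [Algebra F K]
  [Algebra (RatFunc F) K] [IsScalarTower F (RatFunc F) K] [FiniteDimensional (RatFunc F) K]
  [Algebra.IsSeparable (RatFunc F) K]
  [Algebra Y K] [IsScalarTower F Y K] [FiniteDimensional Y K] [Algebra.IsSeparable Y K]
  [Field Y'] [Algebra Ω Y'] [Algebra F Y'] [IsScalarTower F Ω Y']
  [Algebra (RatFunc Ω) Y'] [IsScalarTower Ω (RatFunc Ω) Y']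
  [FiniteDimensional (RatFunc Ω) Y'] [Algebra.IsSeparable (RatFunc Ω) Y']
  [Field K'] [Algebra Ω K'] [Algebra F K'] [IsScalarTower F Ω K']
  [Algebra (RatFunc Ω) K'] [IsScalarTower Ω (RatFunc Ω) K']
  [FiniteDimensional (RatFunc Ω) K'] [Algebra.IsSeparable (RatFunc Ω) K']
  [Algebra Y' K'] [IsScalarTower Ω Y' K'] [FiniteDimensional Y' K'] [Algebra.IsSeparable Y' K']
  {iY : Y →ₐ[F] Y'} {iK : K →ₐ[F] K'}

theorem under_conP (hY : IsCE Ω iY) (hK : IsCE Ω iK)
    (h : ∀ f, iK (algebraMap Y K f) = algebraMap Y' K' (iY f)) (Q : Pl F K) :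
    under Y' (CE3_280.conP hK Q) = CE3_280.conP hY (under Y Q) := by
  refine CE3_280.Over.unique hY ⟨fun f hf => ?_, fun f hf => ?_⟩ (conP_Over hY _)
  · rw [under_le_one_iff] at hf ⊢
    rwa [← h, (conP_Over hK Q).v_iota hK]
  · rw [under_lt_one_iff] at hf ⊢
    rwa [← h, (conP_Over hK Q).v_iota hK]

theorem eR_conP (hY : IsCE Ω iY) (hK : IsCE Ω iK)
    (h : ∀ f, iK (algebraMap Y K f) = algebraMap Y' K' (iY f)) (Q : Pl F K) :
    eR Y' (CE3_280.conP hK Q) = eR Y Q := by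
  obtain ⟨t, -, ht⟩ := exists_v_eq (under Y Q) 1
  have h1 := v_algebraMap_exp Q ht
  have h2 := v_algebraMap_exp (K := Y') (CE3_280.conP hK Q) (f := iY t) (n := 1) (by
    rw [under_conP hY hK h, (conP_Over hY _).v_iota hY, ht])
  rw [← h, (conP_Over hK Q).v_iota hK, h1, exp_inj] at h2
  omega

theorem under_plQ (hY : IsCE Ω iY) (hK : IsCE Ω iK)
    (h : ∀ f, iK (algebraMap Y K f) = algebraMap Y' K' (iY f)) (Q : K →ₐ[F] Ω) :
    under Y' (plQ hK Q) = plQ hY (Q.comp (IsScalarTower.toAlgHom F Y K)) := by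
  refine CE3_280.At.unique hY (fun f => ?_) (plQ_At hY _)
  rw [under_lt_one_iff, map_sub, ← h, ← IsScalarTower.algebraMap_apply]
  exact plQ_At hK Q _

theorem push_base (hY : IsCE Ω iY) (hK : IsCE Ω iK)
    (h : ∀ f, iK (algebraMap Y K f) = algebraMap Y' K' (iY f)) (D : Pl F K →₀ ℤ) :
    push Y' (base hK D) = base hY (push Y D) := by
  induction D using Finsupp.induction_linear with
  | zero => simp
  | add D E h1 h2 => simp only [map_add, h1, h2]
  | single P n => rw [base_single, push_single, push_single, base_single, under_conP hY hK h]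

theorem con_base (hY : IsCE Ω iY) (hK : IsCE Ω iK)
    (h : ∀ f, iK (algebraMap Y K f) = algebraMap Y' K' (iY f)) (D : Pl F Y →₀ ℤ) :
    con K' (base hY D) = base hK (con K D) := by
  ext w
  rcases CE3_280.cases hK w with ⟨P, rfl⟩ | ⟨Q, rfl⟩
  · rw [con_apply, base_conP, con_apply, eR_conP hY hK h, under_conP hY hK h, base_conP]
  · rw [con_apply, base_plQ, under_plQ hY hK h, base_plQ, mul_zero]

theorem baseP_pushP (hY : IsCE Ω iY) (hK : IsCE Ω iK)
    (h : ∀ f, iK (algebraMap Y K f) = algebraMap Y' K' (iY f)) (y : Pic F K) :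
    pushP Y' (baseP hK y) = baseP hY (pushP Y y) := by
  obtain ⟨D, rfl⟩ := cls_surjective y
  rw [baseP_cls, pushP_cls, pushP_cls, baseP_cls, push_base hY hK h]

theorem baseP_conP (hY : IsCE Ω iY) (hK : IsCE Ω iK)
    (h : ∀ f, iK (algebraMap Y K f) = algebraMap Y' K' (iY f)) (x : Pic F Y) :
    conP K' (baseP hY x) = baseP hK (conP K x) := by
  obtain ⟨D, rfl⟩ := cls_surjective x
  rw [baseP_cls, conP_cls, conP_cls, baseP_cls, con_base hY hK h]

/-- the correspondence `push ∘ r ∘ con` commutes with base change -/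
theorem baseP_corr (hY : IsCE Ω iY) (hK : IsCE Ω iK)
    (h : ∀ f, iK (algebraMap Y K f) = algebraMap Y' K' (iY f)) {r : SI F K F K}
    {r' : SI Ω K' Ω K'} (hr : ∀ f, r'.f (iK f) = iK (r.f f)) (x : Pic F Y) :
    pushP Y' (r'.pic (conP K' (baseP hY x))) = baseP hY (pushP Y (r.pic (conP K x))) := by
  rw [baseP_conP hY hK h, baseP_SI hK hK hr, baseP_pushP hY hK h]

end Tower

end Crest.Agent.T15.Fn
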