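import Mathlib
import Crest.Agent.T15.Fn0_39

/-!
# Row 15 (helper39): constant field extension, towers

* `exists_alg`, `finite_of`, `finrank_eq`, `adjoin_top`, `adjoin_top'`, `transcendental_iota`;
* `extAut`, `pl_plQ`, `extSI_trans`;
* `algKO` : the tower `KO F Y Ω ⊆ KO F K Ω`.
-/

set_option autoImplicit false
set_option linter.all false

namespace Crest.Agent.T15.Fn

open WithZero Module TensorProduct
open Crest.Agent.R013.RR7_948 Crest.Agent.R013.RR8_948 Crest.Agent.R013.RR9_948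
open Crest.Agent.R013.RR11_948 Crest.Agent.R013.RR12_948 Crest.Agent.R013.RR13_948
open Crest.Agent.R013.RR18_948 Crest.Agent.R013.RR19_948
open Crest.Agent.R013.PicD_398 Crest.Agent.R013.Frob1_914 Crest.Agent.R013.TP_928
open Crest.Agent.R013.CE3_280 (IsCE mu mu_tmul Over plQ plQ_At conP_Over)
open Crest.Agent.R013.CE5_280 (base base_conP base_plQ base_single degD_base)
open Crest.Agent.R013.CE9_280 (KO iota isCE xK_eq)
open Crest.Agent.R013
open Crest.Agent.T15.Wp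
open Crest.Agent.T15.Rk (baseP baseP_cls baseP_SI exists_baseP degPic_baseP)

theorem SI_eq {k K k' K' : Type*} [Field k] [Field K] [Algebra k K] [Field k'] [Field K']
    [Algebra k' K'] {e e' : SI k K k' K'} (h : ∀ x, e.f x = e'.f x) : e = e' := by
  obtain ⟨s, f, hc⟩ := e
  obtain ⟨s', f', hc'⟩ := e'
  obtain rfl : f = f' := RingEquiv.ext h
  obtain rfl : s = s' := RingEquiv.ext fun c =>
    (algebraMap k' K').injective (by rw [← hc, ← hc'])
  rfl

section Hom

variable {F K Ω L : Type*} [Field F] [Field K] [Algebra F K] [Field Ω] [Algebra F Ω]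
  [Field L] [Algebra Ω L] [Algebra F L] [IsScalarTower F Ω L] {ι : K →ₐ[F] L}

theorem iota_notMem (hι : IsCE Ω ι) {u : K} (hu : u ∉ Set.range (algebraMap F K)) :
    ι u ∉ Set.range (algebraMap Ω L) := by
  rintro ⟨c, hc⟩
  have h2 : (1 ⊗ₜ u : Ω ⊗[F] K) = c ⊗ₜ 1 := hι.inj (by simp [hc])
  obtain ⟨φ, hφ⟩ := Projective.exists_dual_eq_one F (one_ne_zero : (1 : Ω) ≠ 0)
  have h3 := congrArg (fun t => TensorProduct.lid F K (φ.rTensor K t)) h2
  simp only [LinearMap.rTensor_tmul, TensorProduct.lid_tmul, hφ, one_smul] at h3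
  exact hu ⟨φ c, by rw [h3, Algebra.algebraMap_eq_smul_one]⟩

theorem transcendental_iota [IsAlgClosed Ω] (hι : IsCE Ω ι) {u : K} (hu : Transcendental F u) :
    Transcendental Ω (ι u) :=
  CE2_280.transcendental_of_notMem (iota_notMem hι (by
    rintro ⟨c, rfl⟩
    exact hu (isAlgebraic_algebraMap c)))

theorem adjoin_top (hι : IsCE Ω ι) {S : Set K} (h : IntermediateField.adjoin F S = ⊤) :
    IntermediateField.adjoin Ω (ι '' S) = ⊤ := by
  rw [eq_top_iff]
  intro x _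
  refine mem_of hι (IntermediateField.adjoin Ω (ι '' S)).toSubfield
    (fun c => IntermediateField.algebraMap_mem _ c) (fun f => ?_) x
  have hf : f ∈ IntermediateField.adjoin F S := by rw [h]; trivial
  have h1 : (IntermediateField.adjoin F S).map ι ≤
      (IntermediateField.adjoin Ω (ι '' S)).restrictScalars F := by
    rw [IntermediateField.adjoin_map, IntermediateField.adjoin_le_iff]
    exact IntermediateField.subset_adjoin Ω _
  exact h1 ⟨f, hf, rfl⟩

/-- the `Ω`-linear extension of an automorphism -/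
noncomputable def extAut (hι : IsCE Ω ι) (r : K ≃ₐ[F] K) : L ≃ₐ[Ω] L :=
  { (extSI hι hι ⟨RingEquiv.refl F, r.toRingEquiv, fun c => r.commutes c⟩ (RingEquiv.refl Ω)
      (fun _ => rfl)).f with
    commutes' := fun c => extSI_alg _ _ _ _ _ c }

theorem extAut_iota (hι : IsCE Ω ι) (r : K ≃ₐ[F] K) (f : K) : extAut hι r (ι f) = ι (r f) :=
  extSI_iota hι hι ⟨RingEquiv.refl F, r.toRingEquiv, fun c => r.commutes c⟩ (RingEquiv.refl Ω)
    (fun _ => rfl) f

variable {F₂ K₂ Ω₂ L₂ : Type*} [Field F₂] [Field K₂] [Algebra F₂ K₂] [Field Ω₂] [Algebra F₂ Ω₂]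
  [Field L₂] [Algebra Ω₂ L₂] [Algebra F₂ L₂] [IsScalarTower F₂ Ω₂ L₂] {ι₂ : K₂ →ₐ[F₂] L₂}

theorem eq_extSI (hι : IsCE Ω ι) (hι₂ : IsCE Ω₂ ι₂) {e : SI F K F₂ K₂} {g : Ω ≃+* Ω₂}
    (hg : ∀ c, g (algebraMap F Ω c) = algebraMap F₂ Ω₂ (e.s c)) {E : SI Ω L Ω₂ L₂}
    (h1 : E.s = g) (h2 : ∀ f, E.f (ι f) = ι₂ (e.f f)) : E = extSI hι hι₂ e g hg :=
  SI_eq (SI_ext hι (by rw [h1, extSI_s]) fun f => by rw [h2, extSI_iota])

theorem SI_eq_of_iota (hι : IsCE Ω ι) {E E' : SI Ω L Ω₂ L₂} (h1 : E.s = E'.s)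
    (h2 : ∀ f, E.f (ι f) = E'.f (ι f)) : E = E' := SI_eq (SI_ext hι h1 h2)

end Hom

section Pts

variable {F K Ω L : Type*} [Field F] [IsAlgClosed F] [Field K] [Algebra F K]
  [Algebra (RatFunc F) K] [IsScalarTower F (RatFunc F) K] [FiniteDimensional (RatFunc F) K]
  [Algebra.IsSeparable (RatFunc F) K]
  [Field Ω] [Algebra F Ω] [IsAlgClosed Ω]
  [Field L] [Algebra Ω L] [Algebra F L] [IsScalarTower F Ω L]
  [Algebra (RatFunc Ω) L] [IsScalarTower Ω (RatFunc Ω) L]
  [FiniteDimensional (RatFunc Ω) L] [Algebra.IsSeparable (RatFunc Ω) L]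
  {ι : K →ₐ[F] L}
  {F₂ K₂ Ω₂ L₂ : Type*} [Field F₂] [IsAlgClosed F₂] [Field K₂] [Algebra F₂ K₂]
  [Algebra (RatFunc F₂) K₂] [IsScalarTower F₂ (RatFunc F₂) K₂]
  [FiniteDimensional (RatFunc F₂) K₂] [Algebra.IsSeparable (RatFunc F₂) K₂]
  [Field Ω₂] [Algebra F₂ Ω₂] [IsAlgClosed Ω₂]
  [Field L₂] [Algebra Ω₂ L₂] [Algebra F₂ L₂] [IsScalarTower F₂ Ω₂ L₂]
  [Algebra (RatFunc Ω₂) L₂] [IsScalarTower Ω₂ (RatFunc Ω₂) L₂]
  [FiniteDimensional (RatFunc Ω₂) L₂] [Algebra.IsSeparable (RatFunc Ω₂) L₂]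
  {ι₂ : K₂ →ₐ[F₂] L₂} {e : SI F K F₂ K₂} {E : SI Ω L Ω₂ L₂}

theorem pl_plQ (hι : IsCE Ω ι) (hι₂ : IsCE Ω₂ ι₂) (h : ∀ f, E.f (ι f) = ι₂ (e.f f))
    {Q : K →ₐ[F] Ω} {Q₂ : K₂ →ₐ[F₂] Ω₂} (hQ : ∀ f, Q₂ (e.f f) = E.s (Q f)) :
    E.pl (plQ hι Q) = plQ hι₂ Q₂ := by
  refine CE3_280.At.unique hι₂ (fun f => ?_) (plQ_At hι₂ _)
  obtain ⟨f, rfl⟩ := e.f.surjective f
  rw [← h, hQ, ← E.comm, ← map_sub, SI.pl_v_apply]
  exact plQ_At hι Q f

end Pts

section Tower

variable {F Y K Ω Y' K' : Type*} [Field F] [Field Ω] [Algebra F Ω]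
  [Field Y] [Algebra F Y] [Field K] [Algebra F K] [Algebra Y K] [IsScalarTower F Y K]
  [Field Y'] [Algebra Ω Y'] [Algebra F Y'] [IsScalarTower F Ω Y']
  [Field K'] [Algebra Ω K'] [Algebra F K'] [IsScalarTower F Ω K']
  {iY : Y →ₐ[F] Y'} {iK : K →ₐ[F] K'}

theorem exists_alg (hY : IsCE Ω iY) (hK : IsCE Ω iK) :
    ∃ β : Y' →ₐ[Ω] K', ∀ f, iK (algebraMap Y K f) = β (iY f) := by
  obtain ⟨E, h1, h2⟩ := exists_hom hY hK (RingHom.id F) Function.surjective_id (RingHom.id Ω)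
    (algebraMap Y K) (fun _ => rfl) (fun c => (IsScalarTower.algebraMap_apply F Y K c).symm)
  exact ⟨⟨E, h1⟩, fun f => (h2 f).symm⟩

variable [Algebra Y' K'] [IsScalarTower Ω Y' K']

theorem adjoin_top' (hK : IsCE Ω iK) (h : ∀ f, iK (algebraMap Y K f) = algebraMap Y' K' (iY f))
    {S : Set K} (hS : IntermediateField.adjoin Y S = ⊤) :
    IntermediateField.adjoin Y' (iK '' S) = ⊤ := by
  rw [eq_top_iff]
  intro x _
  refine mem_of hK (IntermediateField.adjoin Y' (iK '' S)).toSubfield (fun c => ?_) (fun f => ?_) x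
  · rw [IsScalarTower.algebraMap_apply Ω Y' K']
    exact IntermediateField.algebraMap_mem _ _
  · have hf : f ∈ IntermediateField.adjoin Y S := by rw [hS]; trivial
    have h1 : (IntermediateField.adjoin Y S).toSubfield ≤
        (IntermediateField.adjoin Y' (iK '' S)).toSubfield.comap (iK : K →+* K') := by
      rw [IntermediateField.adjoin_toSubfield, Subfield.closure_le]
      rintro y (⟨c, rfl⟩ | hy)
      · show iK (algebraMap Y K c) ∈ IntermediateField.adjoin Y' (iK '' S)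
        rw [h]
        exact IntermediateField.algebraMap_mem _ _
      · exact IntermediateField.subset_adjoin Y' _ ⟨y, hy, rfl⟩
    exact h1 hf

theorem finite_of [FiniteDimensional Y K] (hK : IsCE Ω iK)
    (h : ∀ f, iK (algebraMap Y K f) = algebraMap Y' K' (iY f)) : FiniteDimensional Y' K' := by
  let b := Module.finBasis Y K
  have h1 : IntermediateField.adjoin Y (Set.range b) = ⊤ := by
    rw [eq_top_iff]
    intro f _
    rw [← b.sum_repr f]
    exact sum_mem fun i _ => IntermediateField.smul_mem _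
      (IntermediateField.subset_adjoin _ _ (Set.mem_range_self i))
  haveI := ((Set.finite_range b).image iK).to_subtype
  have h2 : FiniteDimensional Y' (IntermediateField.adjoin Y' (iK '' Set.range b)) :=
    IntermediateField.finiteDimensional_adjoin (by
      rintro _ ⟨f, -, rfl⟩
      exact (Algebra.IsIntegral.isIntegral (R := Y) f).map_of_comp_eq (iY : Y →+* Y')
        (iK : K →+* K') (RingHom.ext fun c => (h c).symm))
  rw [adjoin_top' hK h h1] at h2
  exact (IntermediateField.topEquiv (F := Y') (E := K')).toLinearEquiv.finiteDimensional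

theorem finrank_eq [IsAlgClosed F] [IsAlgClosed Ω]
    [Algebra (RatFunc F) Y] [IsScalarTower F (RatFunc F) Y] [FiniteDimensional (RatFunc F) Y]
    [Algebra.IsSeparable (RatFunc F) Y]
    [Algebra (RatFunc F) K] [IsScalarTower F (RatFunc F) K] [FiniteDimensional (RatFunc F) K]
    [Algebra.IsSeparable (RatFunc F) K] [FiniteDimensional Y K] [Algebra.IsSeparable Y K]
    [Algebra (RatFunc Ω) Y'] [IsScalarTower Ω (RatFunc Ω) Y']
    [FiniteDimensional (RatFunc Ω) Y'] [Algebra.IsSeparable (RatFunc Ω) Y']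
    [Algebra (RatFunc Ω) K'] [IsScalarTower Ω (RatFunc Ω) K']
    [FiniteDimensional (RatFunc Ω) K'] [Algebra.IsSeparable (RatFunc Ω) K']
    [FiniteDimensional Y' K'] [Algebra.IsSeparable Y' K'] (hY : IsCE Ω iY) (hK : IsCE Ω iK)
    (h : ∀ f, iK (algebraMap Y K f) = algebraMap Y' K' (iY f)) : finrank Y' K' = finrank Y K := by
  obtain ⟨P, -⟩ := RR12_948.exists_notMem (∅ : Finset (Pl F Y))
  have h1 := congrArg degPic (baseP_conP hY hK h (cls (Finsupp.single P 1)))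
  rw [Rk.degPic_conP, degPic_baseP, degPic_baseP, Rk.degPic_conP, degPic_cls, degD_single,
    CE5_280.degP_eq_one] at h1
  simpa using h1

end Tower

section KOT

variable (F Y K Ω : Type*) [Field F] [IsAlgClosed F] [Field Ω] [Algebra F Ω]
  [Field Y] [Algebra F Y] [Field K] [Algebra F K] [Algebra Y K] [IsScalarTower F Y K]

/-- the tower `Y_Ω ⊆ K_Ω` -/
@[reducible] noncomputable def algKO : Algebra (KO F Y Ω) (KO F K Ω) :=
  ((exists_alg (isCE F Y Ω) (isCE F K Ω)).choose : KO F Y Ω →+* KO F K Ω).toAlgebra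

theorem towerKO : letI := algKO F Y K Ω; IsScalarTower Ω (KO F Y Ω) (KO F K Ω) :=
  letI := algKO F Y K Ω
  IsScalarTower.of_algebraMap_eq fun c =>
    ((exists_alg (isCE F Y Ω) (isCE F K Ω)).choose.commutes c).symm

theorem iota_alg (f : Y) : letI := algKO F Y K Ω
    iota F K Ω (algebraMap Y K f) = algebraMap (KO F Y Ω) (KO F K Ω) (iota F Y Ω f) :=
  (exists_alg (isCE F Y Ω) (isCE F K Ω)).choose_spec f

theorem finiteKO [FiniteDimensional Y K] :
    letI := algKO F Y K Ω; FiniteDimensional (KO F Y Ω) (KO F K Ω) :=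
  letI := algKO F Y K Ω
  haveI := towerKO F Y K Ω
  finite_of (isCE F K Ω) (iota_alg F Y K Ω)

end KOT

end Crest.Agent.T15.Fn
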