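import Crest.Agent.T15.HtDef_95
import Crest.Agent.T15.MoB_29
import Crest.Agent.T15.Fn1_39

/-!
# Row 15 (helper39): base change of the model `Ht.Mdl`

`M.bc Ω`, `M.iY Ω`, `M.iK Ω`, `M.bp Ω : Pic C M.Y →+ Pic Ω (M.bc Ω).Y`, `bc_j`, `M.ext`.
-/

set_option autoImplicit false
set_option linter.all false

noncomputable section

namespace Crest.Agent.T15.Ht

open Module
open Crest.Agent.R013.PicD_398 Crest.Agent.R013.Frob1_914
open Crest.Agent.R013.CE3_280 (IsCE)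
open Crest.Agent.R013.CE9_280 (KO iota isCE xK_eq)
open Crest.Agent.T15.Mo (Par Eqs)
open Crest.Agent.T15.Fn
open Crest.Agent.T15.Rk (baseP baseP_SI exists_baseP baseP_injective)

section alg

variable {R S : Type*} [Field R] [Field S]

theorem par_map_map {T : Type*} [Field T] (P : Par R) (f : R →+* S) (g : S →+* T) :
    (P.map f).map g = P.map (g.comp f) := rfl

theorem eqs_map {P : Par R} {A B2 u : R} (h : Eqs P A B2 u) (f : R →+* S) :
    Eqs (P.map f) (f A) (f B2) (f u) where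
  two := by rw [← map_ofNat f 2]; exact (map_ne_zero f).mpr h.two
  k0 := by simpa [map_ofNat] using congrArg f h.k0
  cub := by simpa [map_ofNat, Par.Xc, Mo.map_V] using congrArg f h.cub
  n3 := by simpa using (map_ne_zero f).mpr h.n3
  n2 := by simpa using (map_ne_zero f).mpr h.n2

theorem map_xu (P : Par R) (A B u : R) (f : R →+* S) :
    f (xu P A B u) = xu (P.map f) (f A) (f B) (f u) := by
  simp [xu, Mo.map_V', Mo.map_R', map_ofNat]

end alg

namespace Mdl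

variable {C : Type} [Field C] [IsAlgClosed C] [CharZero C] {P : Par C} (M : Mdl P)
  (Ω : Type) [Field Ω] [IsAlgClosed Ω] [Algebra C Ω]

theorem par_iota (Y : Type) [Field Y] [Algebra C Y] :
    (P.map (algebraMap C Ω)).map (algebraMap Ω (KO C Y Ω)) =
      (P.map (algebraMap C Y)).map (iota C Y Ω : Y →+* KO C Y Ω) := by
  rw [par_map_map, par_map_map]
  congr 1
  ext c
  exact ((iota C Y Ω).commutes c).symm

/-- base change of a model -/
def bc : Mdl (P.map (algebraMap C Ω)) :=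
  letI := algKO C M.Y M.K Ω
  haveI := towerKO C M.Y M.K Ω
  haveI := finiteKO C M.Y M.K Ω
  have h := iota_alg C M.Y M.K Ω
  { Y := KO C M.Y Ω
    K := KO C M.K Ω
    A := iota C M.Y Ω M.A
    B2 := iota C M.Y Ω M.B2
    u := iota C M.Y Ω M.u
    B := iota C M.K Ω M.B
    eqs := by rw [par_iota]; exact eqs_map M.eqs _
    tr := Fn.transcendental_iota (isCE C M.Y Ω) M.tr
    gen := by
      have := adjoin_top (isCE C M.Y Ω) M.gen
      rwa [Set.image_insert_eq, Set.image_insert_eq, Set.image_singleton] at this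
    hB := by rw [← map_pow, M.hB, h]
    genK := by
      have := adjoin_top' (isCE C M.K Ω) h M.genK
      rwa [Set.image_singleton] at this
    nB := by
      intro hB
      have h1 := adjoin_top' (isCE C M.K Ω) h M.genK
      rw [Set.image_singleton, IntermediateField.adjoin_simple_eq_bot_iff.mpr hB,
        IntermediateField.bot_eq_top_iff_finrank_eq_one,
        finrank_eq (isCE C M.Y Ω) (isCE C M.K Ω) h,
        ← IntermediateField.bot_eq_top_iff_finrank_eq_one] at h1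
      have h2 : M.B ∈ (⊥ : IntermediateField M.Y M.K) := by rw [h1]; trivial
      exact M.nB h2
    r := extAut (isCE C M.K Ω) M.r
    rA := by rw [← h, extAut_iota, M.rA, map_neg]
    rB := by rw [extAut_iota, M.rB, h]
    ru := by
      rw [← h, ← h, extAut_iota, M.ru, par_iota]
      exact map_xu _ _ _ _ (iota C M.K Ω : M.K →+* KO C M.K Ω) }

instance : Algebra C (M.bc Ω).Y := inferInstanceAs (Algebra C (KO C M.Y Ω))
instance : Algebra C (M.bc Ω).K := inferInstanceAs (Algebra C (KO C M.K Ω))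
instance : IsScalarTower C Ω (M.bc Ω).Y := inferInstanceAs (IsScalarTower C Ω (KO C M.Y Ω))
instance : IsScalarTower C Ω (M.bc Ω).K := inferInstanceAs (IsScalarTower C Ω (KO C M.K Ω))

/-- the embedding of `Y` -/
def iY : M.Y →ₐ[C] (M.bc Ω).Y := iota C M.Y Ω
/-- the embedding of `K` -/
def iK : M.K →ₐ[C] (M.bc Ω).K := iota C M.K Ω

theorem ceY : IsCE Ω (M.iY Ω) := isCE C M.Y Ω
theorem ceK : IsCE Ω (M.iK Ω) := isCE C M.K Ω
theorem xY : R013.RR8_948.xK Ω (M.bc Ω).Y = M.iY Ω (R013.RR8_948.xK C M.Y) := xK_eq C M.Y Ω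
theorem xK' : R013.RR8_948.xK Ω (M.bc Ω).K = M.iK Ω (R013.RR8_948.xK C M.K) := xK_eq C M.K Ω

theorem iK_alg (f : M.Y) :
    M.iK Ω (algebraMap M.Y M.K f) = algebraMap (M.bc Ω).Y (M.bc Ω).K (M.iY Ω f) :=
  iota_alg C M.Y M.K Ω f

theorem bc_A : (M.bc Ω).A = M.iY Ω M.A := rfl
theorem bc_B2 : (M.bc Ω).B2 = M.iY Ω M.B2 := rfl
theorem bc_u : (M.bc Ω).u = M.iY Ω M.u := rfl
theorem bc_B : (M.bc Ω).B = M.iK Ω M.B := rfl
theorem bc_r (f : M.K) : (M.bc Ω).r (M.iK Ω f) = M.iK Ω (M.r f) :=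
  extAut_iota (isCE C M.K Ω) M.r f

theorem bc_z : (M.bc Ω).z = M.iY Ω M.z := by
  have := Mo.map_z (iota C M.Y Ω : M.Y →+* KO C M.Y Ω) (P.map (algebraMap C M.Y)) M.A M.B2 M.u
  rw [← par_iota] at this
  exact this.symm

theorem bc_w : (M.bc Ω).w = M.iY Ω M.w := by
  have := Mo.map_w (iota C M.Y Ω : M.Y →+* KO C M.Y Ω) (P.map (algebraMap C M.Y)) M.A M.B2 M.u
  rw [← par_iota] at this
  exact this.symm

/-- base change of classes -/
def bp : Pic C M.Y →+ Pic Ω (M.bc Ω).Y := baseP (M.ceY Ω)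

theorem bp_injective : Function.Injective (M.bp Ω) := baseP_injective _

theorem exists_bp {n : ℕ} (hn : n ≠ 0) {y : Pic Ω (M.bc Ω).Y} (hy : n • y = 0) :
    ∃ x : Pic C M.Y, n • x = 0 ∧ M.bp Ω x = y := exists_baseP _ hn hy

/-- `j` commutes with base change -/
theorem bc_j (x : Pic C M.Y) : (M.bc Ω).j (M.bp Ω x) = M.bp Ω (M.j x) :=
  baseP_corr (M.ceY Ω) (M.ceK Ω) (M.iK_alg Ω) (r := M.rS) (r' := (M.bc Ω).rS) (M.bc_r Ω) x

theorem bc_j_iter (n : ℕ) (x : Pic C M.Y) :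
    (M.bc Ω).j^[n] (M.bp Ω x) = M.bp Ω (M.j^[n] x) := by
  induction n with
  | zero => rfl
  | succ n ih => rw [Function.iterate_succ_apply', Function.iterate_succ_apply', ih, bc_j]

variable {Ω}

/-- the extension of `e` which is `g` on the constants -/
def ext (e : SI C M.Y C M.Y) (g : Ω ≃+* Ω)
    (hg : ∀ c, g (algebraMap C Ω c) = algebraMap C Ω (e.s c)) : SI Ω (M.bc Ω).Y Ω (M.bc Ω).Y :=
  extSI (M.ceY Ω) (M.ceY Ω) e g hg

variable {M} {e : SI C M.Y C M.Y} {g : Ω ≃+* Ω}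
  (hg : ∀ c, g (algebraMap C Ω c) = algebraMap C Ω (e.s c))

theorem ext_s : (M.ext e g hg).s = g := extSI_s _ _ _ _ _

theorem ext_iY (f : M.Y) : (M.ext e g hg).f (M.iY Ω f) = M.iY Ω (e.f f) := extSI_iota _ _ _ _ _ f

theorem ext_pic (x : Pic C M.Y) : (M.ext e g hg).pic (M.bp Ω x) = M.bp Ω (e.pic x) :=
  baseP_SI _ _ (ext_iY hg) x

theorem Fx.ext (h : M.Fx e) : (M.bc Ω).Fx (M.ext e g hg) :=
  ⟨by rw [bc_A, ext_iY, h.1], by rw [bc_B2, ext_iY, h.2.1], by rw [bc_u, ext_iY, h.2.2.1],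
    by rw [ext_s, Par.map_p1, hg, h.2.2.2.1], by rw [ext_s, Par.map_p2, hg, h.2.2.2.2.1],
    by rw [ext_s, Par.map_t, hg, h.2.2.2.2.2]⟩

/-- an isomorphism which fixes `iY Y` and `C` respects the `ℚ`-structure -/
theorem fx_of_fix {E : SI Ω (M.bc Ω).Y Ω (M.bc Ω).Y} (h : ∀ f, E.f (M.iY Ω f) = M.iY Ω f) :
    (M.bc Ω).Fx E := by
  have h1 : ∀ c : C, E.s (algebraMap C Ω c) = algebraMap C Ω c := fun c => by
    apply (algebraMap Ω (M.bc Ω).Y).injective
    rw [← E.comm, ← IsScalarTower.algebraMap_apply, ← (M.iY Ω).commutes, h]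
  exact ⟨h _, h _, h _, h1 _, h1 _, h1 _⟩

omit hg

variable {E : SI Ω (M.bc Ω).Y Ω (M.bc Ω).Y}

theorem rel_bc (h : ∀ f, E.f (M.iY Ω f) = M.iY Ω (e.f f)) (l : ℕ) (τ : ℕ → ℤ) :
    (M.bc Ω).Rel E l τ ↔ M.Rel e l τ := by
  have h1 : ∀ x, E.pic (M.bp Ω x) = M.bp Ω (e.pic x) := baseP_SI _ _ h
  have h2 : ∀ m x, (M.bc Ω).j ((M.bc Ω).j (E.pic (E.pic (M.bp Ω x)) -
      τ m • ((M.bc Ω).j^[ep l] (E.pic (M.bp Ω x))) + l • M.bp Ω x)) =
      M.bp Ω (M.j (M.j (e.pic (e.pic x) - τ m • (M.j^[ep l] (e.pic x)) + l • x))) := by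
    intro m x
    rw [h1, h1, bc_j_iter, ← map_zsmul, ← map_nsmul, ← map_sub, ← map_add, bc_j, bc_j]
  constructor
  · intro H m x hx
    apply M.bp_injective Ω
    rw [← h2, map_zero]
    exact H m _ (by rw [← map_nsmul, hx, map_zero])
  · intro H m y hy
    obtain ⟨x, hx, rfl⟩ := M.exists_bp Ω (pow_ne_zero m three_ne_zero) hy
    rw [h2, H m x hx, map_zero]

theorem relE_bc (h : ∀ f, E.f (M.iY Ω f) = M.iY Ω (e.f f)) (l : ℕ) (τ : ℕ → ℤ) :
    (M.bc Ω).RelE E l τ ↔ M.RelE e l τ := by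
  have h1 : ∀ x, E.pic (M.bp Ω x) = M.bp Ω (e.pic x) := baseP_SI _ _ h
  have h2 : ∀ m x, E.pic (E.pic (M.bp Ω x)) - τ m • E.pic (M.bp Ω x) + l • M.bp Ω x =
      M.bp Ω (e.pic (e.pic x) - τ m • e.pic x + l • x) := by
    intro m x
    rw [h1, h1, ← map_zsmul, ← map_nsmul, ← map_sub, ← map_add]
  constructor
  · intro H m x hx
    apply M.bp_injective Ω
    rw [map_nsmul, ← bc_j, ← bc_j, ← h2]
    exact H m _ (by rw [← map_nsmul, hx, map_zero])
  · intro H m y hy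
    obtain ⟨x, hx, rfl⟩ := M.exists_bp Ω (pow_ne_zero m three_ne_zero) hy
    rw [h2, bc_j, bc_j, H m x hx, map_nsmul]

end Mdl

end Crest.Agent.T15.Ht
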