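import Mathlib
import Crest.Agent.T15.Inj_71

/-!
# Row 15, block Ht (helper11): good reduction in every characteristic

Copy of the parts of R013/GR5-GR7 (921) and T15/Disc, Inj (71) which assumed `CharZero C`,
with `Algebra.IsSeparable (RatFunc C) L` instead.
-/

set_option autoImplicit false
set_option linter.all false

namespace Crest.Agent.T15.Id

open Polynomial WithZero Module
open scoped NNReal
open Crest.Agent.R013.RR7_948 Crest.Agent.R013.RR8_948 Crest.Agent.R013.RR9_948
open Crest.Agent.R013.RR11_948 Crest.Agent.R013.RR12_948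
open Crest.Agent.R013.RR18_948 Crest.Agent.R013.RR19_948 Crest.Agent.R013.RR20_948
open Crest.Agent.R013.RR21_948
open Crest.Agent.R013.GR2_921
open Crest.Agent.R013.GR4_921 hiding residue_const exists_good_lift
open Crest.Agent.R013.GR5_921 hiding SpP sp_eq_of_pole exists_fun sp_equivariant mapDomain_mapD
open Crest.Agent.R013.GR6_921 hiding lift_indep degD_poles_le
open Crest.Agent.R013.GR7_921 hiding finrank_red_LD one_mem_red exists_bar ell_le gen_le bar_eq add_le_bar exists_sp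
open Crest.Agent.T15.Disc hiding Good exists_good Reg

section card

variable {C : Type*} [Field C] [IsAlgClosed C] {L : Type*} [Field L] [Algebra C L]
  [Algebra (RatFunc C) L] [IsScalarTower C (RatFunc C) L] [FiniteDimensional (RatFunc C) L]
  [Algebra.IsSeparable (RatFunc C) L]

theorem poles_nonneg (f : L) : 0 ≤ poles (k := C) f := fun P => by
  rw [poles_apply]; exact le_max_right _ _

theorem mem_LD_poles' (f : L) : f ∈ LD (poles (k := C) f) := by
  by_cases hf : f = 0
  · rw [hf]; exact zero_mem _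
  · exact mem_LD_poles hf

theorem mul_mem_LD {D E : Pl C L →₀ ℤ} {f g : L} (hf : f ∈ LD D) (hg : g ∈ LD E) :
    f * g ∈ LD (D + E) := by
  rw [mem_LD] at hf hg ⊢
  intro P
  rw [map_mul, Finsupp.add_apply, exp_add]
  exact mul_le_mul' (hf P) (hg P)

theorem pow_mem_LD {D : Pl C L →₀ ℤ} {f : L} (hf : f ∈ LD D) (n : ℕ) : f ^ n ∈ LD (n • D) := by
  induction n with
  | zero => rw [pow_zero, zero_nsmul, mem_LD]; intro P; simp
  | succ n ih => rw [pow_succ, succ_nsmul]; exact mul_mem_LD ih hf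

theorem degD_nsmul' (n : ℕ) (E : Pl C L →₀ ℤ) : degD (n • E) = n * degD E := by
  induction n with
  | zero => simp [degD_zero]
  | succ n ih => rw [succ_nsmul, degD_add, ih]; push_cast; ring

theorem degD_nonneg' {D : Pl C L →₀ ℤ} (hD : 0 ≤ D) : 0 ≤ degD D := by
  have := degD_mono hD
  rwa [degD_zero] at this

/-- `[L : C(t)] ≤ deg (poles t)`, no separability -/
theorem card_le_poles (t : L) {ι : Type} [Fintype ι] (g : ι → L)
    (hind : ∀ Φ : ι → C[X], ∑ i, aeval t (Φ i) * g i = 0 → ∀ i, Φ i = 0) :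
    (Fintype.card ι : ℤ) ≤ degD (poles (k := C) t) := by
  classical
  obtain ⟨P0, _⟩ := exists_notMem (k := C) (K := L) ∅
  set B := poles (k := C) t with hB
  set D0 : Pl C L →₀ ℤ := ∑ i, poles (k := C) (g i) + Finsupp.single P0 (2 * gen C L : ℤ) with hD0
  have hs0 : (0 : Pl C L →₀ ℤ) ≤ Finsupp.single P0 (2 * gen C L : ℤ) := by
    intro P; rw [Finsupp.single_apply]; split_ifs <;> simp
  have hsum : (0 : Pl C L →₀ ℤ) ≤ ∑ i, poles (k := C) (g i) :=
    Finset.sum_nonneg fun i _ => poles_nonneg _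
  have hg : ∀ i, g i ∈ LD D0 := by
    intro i
    refine LD_mono ?_ (mem_LD_poles' (g i))
    have h1 : poles (k := C) (g i) ≤ ∑ i, poles (k := C) (g i) :=
      Finset.single_le_sum (f := fun i => poles (k := C) (g i)) (fun i _ => poles_nonneg _)
        (Finset.mem_univ i)
    exact h1.trans (le_add_of_nonneg_right hs0)
  have hd0 : (2 * gen C L : ℤ) ≤ degD D0 := by
    rw [hD0, degD_add, degD_single, degP_eq_one]
    have := degD_nonneg' hsum
    push_cast; omega
  have hb0 : 0 ≤ degD B := degD_nonneg' (poles_nonneg t)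
  have key : ∀ r : ℕ, (Fintype.card ι : ℤ) * r ≤ r * degD B + degD D0 + 1 := by
    intro r
    have hmem : ∀ x : ι × Fin r, t ^ (x.2 : ℕ) * g x.1 ∈ LD (r • B + D0) := by
      intro x
      refine LD_mono ?_ (mul_mem_LD (pow_mem_LD (mem_LD_poles' t) x.2) (hg x.1))
      exact add_le_add_left (nsmul_le_nsmul_left (poles_nonneg t) x.2.2.le) _
    let b : ι × Fin r → LD (r • B + D0) := fun x => ⟨_, hmem x⟩
    have hli : LinearIndependent C b := by
      rw [Fintype.linearIndependent_iff]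
      intro c hc
      have h1 := congrArg (Subtype.val) hc
      rw [Submodule.coe_sum] at h1
      have h2 := hind (fun i => ∑ j : Fin r, monomial (j : ℕ) (c (i, j))) (by
        rw [Fintype.sum_prod_type] at h1
        refine Eq.trans ?_ h1
        refine Finset.sum_congr rfl fun i _ => ?_
        rw [map_sum, Finset.sum_mul]
        refine Finset.sum_congr rfl fun j _ => ?_
        rw [aeval_monomial]
        show _ = c (i, j) • (t ^ (j : ℕ) * g i)
        rw [Algebra.smul_def, mul_assoc])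
      rintro ⟨i, j⟩
      have h3 := congrArg (fun q => Polynomial.coeff q (j : ℕ)) (h2 i)
      simp only [finsetSum_coeff, coeff_monomial, coeff_zero] at h3
      rw [Finset.sum_eq_single j (fun j' _ hj' => if_neg fun h => hj' (Fin.ext h))
        (fun h => absurd (Finset.mem_univ _) h), if_pos rfl] at h3
      exact h3
    haveI := LD_finite (r • B + D0)
    have h4 := hli.fintype_card_le_finrank
    rw [Fintype.card_prod, Fintype.card_fin] at h4
    have h5 : degD (r • B + D0) = r * degD B + degD D0 := by rw [degD_add, degD_nsmul']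
    have h6 := ell_eq_of_lt (k := C) (K := L) hc_of_isAlgClosed (D := r • B + D0) (by
      rw [h5]; have : (0 : ℤ) ≤ r * degD B := by positivity
      omega)
    have h7 : ((Fintype.card ι * r : ℕ) : ℤ) ≤ ell (r • B + D0) := by exact_mod_cast h4
    push_cast at h7
    omega
  by_contra hcon
  push Not at hcon
  have h1 := key (degD D0 + 2).toNat
  have h2 : (((degD D0 + 2).toNat : ℕ) : ℤ) = degD D0 + 2 := Int.toNat_of_nonneg (by omega)
  rw [h2] at h1
  have h3 : (degD B + 1) * (degD D0 + 2) ≤ (Fintype.card ι : ℤ) * (degD D0 + 2) :=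
    mul_le_mul_of_nonneg_right hcon (by omega)
  nlinarith

end card

section lemmaT

variable {C : Type*} [Field C] [IsAlgClosed C] {L : Type*} [Field L] [Algebra C L]
  [Algebra (RatFunc C) L] [IsScalarTower C (RatFunc C) L] [FiniteDimensional (RatFunc C) L]
  [Algebra.IsSeparable (RatFunc C) L]
  {k κ : Type*} [Field k] [IsAlgClosed k] [Field κ] [Algebra k κ]
  {vC : Valuation C ℝ≥0} {ρC : C → k} {w : Valuation L ℝ≥0} {ρ : L → κ}

/-- if the residue of every element of `C[u]` of norm `≤ 1` is constant then all residues are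
constant -/
theorem residue_const (h : Red vC ρC w ρ) {u : L} (hu : Transcendental C u)
    (hc : ∀ f : C[X], w (aeval u f) ≤ 1 → ρ (aeval u f) ∈ Set.range (algebraMap k κ)) (z : κ) :
    z ∈ Set.range (algebraMap k κ) := by
  classical
  have hfin := ratAlg_finite u hu
  letI := ratAlg u hu
  haveI := ratAlg_tower u hu
  haveI : FiniteDimensional (RatFunc C) L := hfin
  obtain ⟨t, ht, rfl⟩ := h.res.surj z
  -- `t` is algebraic over `C[u]`
  letI : Algebra C[X] L := ((algebraMap (RatFunc C) L).comp (algebraMap C[X] (RatFunc C))).toAlgebra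
  haveI : IsScalarTower C[X] (RatFunc C) L := IsScalarTower.of_algebraMap_eq fun _ => rfl
  have halg : IsAlgebraic (RatFunc C) t := Algebra.IsAlgebraic.isAlgebraic t
  have halg2 : IsAlgebraic C[X] t := (IsFractionRing.isAlgebraic_iff C[X] (RatFunc C) L).mpr halg
  obtain ⟨P, hP0, hP⟩ := halg2
  have hmap : ∀ f : C[X], algebraMap C[X] L f = aeval u f := by
    intro f
    show (ratHom u hu) (algebraMap C[X] (RatFunc C) f) = _
    unfold ratHom
    have h1 := RatFunc.liftAlgHom_apply_div (Polynomial.aeval u)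
      (nonZeroDivisors_le_comap_nonZeroDivisors_of_injective _
        (transcendental_iff_injective.mp hu)) f 1
    simp only [map_one, div_one] at h1
    exact h1
  rw [aeval_eq_sum_range] at hP
  -- scale
  let W : ℕ → ℝ≥0 := fun i => w (aeval u (P.coeff i))
  have hne : (Finset.range (P.natDegree + 1)).Nonempty := ⟨0, by simp⟩
  obtain ⟨j, hj, hjmax⟩ := Finset.exists_max_image (Finset.range (P.natDegree + 1)) W hne
  have hinj := transcendental_iff_injective.mp hu
  have hWj : aeval u (P.coeff j) ≠ 0 := by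
    intro h0
    have h1 : W j = 0 := by show w _ = 0; rw [h0, map_zero]
    have h2 : W P.natDegree ≤ 0 := h1 ▸ hjmax P.natDegree (by simp)
    have h3 : aeval u (P.coeff P.natDegree) = 0 := (Valuation.zero_iff w).mp (le_antisymm h2 zero_le)
    have h4 : P.coeff P.natDegree = 0 := by
      apply hinj
      show aeval u _ = aeval u 0
      rw [h3, map_zero]
    exact hP0 (leadingCoeff_eq_zero.mp h4)
  obtain ⟨c, hc0, hcj, hc1⟩ := h.normalise hWj
  let b : ℕ → L := fun i => aeval u (P.coeff i * Polynomial.C c⁻¹)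
  have hb : ∀ i, b i = aeval u (P.coeff i) * algebraMap C L c⁻¹ := fun i => by
    show aeval u _ = _; rw [map_mul, aeval_C]
  have hb1 : ∀ i ∈ Finset.range (P.natDegree + 1), w (b i) ≤ 1 := by
    intro i hi
    rw [hb, map_mul]
    calc _ ≤ w (aeval u (P.coeff j)) * w (algebraMap C L c⁻¹) := mul_le_mul_left (hjmax i hi) _
      _ = 1 := by rw [← map_mul]; exact hc1
  have hsum : ∑ i ∈ Finset.range (P.natDegree + 1), b i * t ^ i = 0 := by
    have h1 : ∑ i ∈ Finset.range (P.natDegree + 1), b i * t ^ i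
        = (∑ i ∈ Finset.range (P.natDegree + 1), P.coeff i • t ^ i) * algebraMap C L c⁻¹ := by
      rw [Finset.sum_mul]
      refine Finset.sum_congr rfl fun i _ => ?_
      rw [hb, Algebra.smul_def, hmap]; ring
    rw [h1, hP, zero_mul]
  choose e he using fun i : {i // i ∈ Finset.range (P.natDegree + 1)} =>
    hc (P.coeff i * Polynomial.C c⁻¹) (hb1 i i.2)
  let Q : k[X] := ∑ i : {i // i ∈ Finset.range (P.natDegree + 1)}, Polynomial.C (e i) * X ^ (i : ℕ)
  have hQz : aeval (ρ t) Q = 0 := by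
    have h1 := congrArg ρ hsum
    rw [h.res.zero, h.res.sum _ _ (fun i hi => by
      rw [map_mul, map_pow]; exact mul_le_one' (hb1 i hi) (pow_le_one' ht i))] at h1
    show aeval (ρ t) (∑ i : {i // i ∈ Finset.range (P.natDegree + 1)},
      Polynomial.C (e i) * X ^ (i : ℕ)) = 0
    rw [map_sum, ← h1, ← Finset.sum_coe_sort (Finset.range (P.natDegree + 1))
      (fun i => ρ (b i * t ^ i))]
    refine Finset.sum_congr rfl fun i _ => ?_
    rw [map_mul, map_pow, aeval_C, aeval_X, he i,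
      h.res.mul _ _ (hb1 i i.2) (by rw [map_pow]; exact pow_le_one' ht i), h.res.pow ht]
  have hQ0 : Q ≠ 0 := by
    intro h0
    have h1 : Q.coeff j = e ⟨j, hj⟩ := by
      show (∑ i : {i // i ∈ Finset.range (P.natDegree + 1)},
        Polynomial.C (e i) * X ^ (i : ℕ)).coeff j = _
      rw [finsetSum_coeff, Finset.sum_eq_single ⟨j, hj⟩]
      · rw [coeff_C_mul, coeff_X_pow, if_pos rfl, mul_one]
      · intro i _ hi
        rw [coeff_C_mul, coeff_X_pow, if_neg, mul_zero]
        intro hji; exact hi (Subtype.ext hji.symm)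
      · intro h'; exact absurd (Finset.mem_univ _) h'
    rw [h0, coeff_zero] at h1
    have h2 := he ⟨j, hj⟩
    rw [← h1, map_zero] at h2
    have h3 : ρ (b j) ≠ 0 := by
      rw [h.res.ne_zero_iff (hb1 j hj), hb]; exact hc1
    exact h3 h2.symm
  have halgz : IsAlgebraic k (ρ t) := ⟨Q, hQ0, hQz⟩
  have h1 : ρ t ∈ algebraicClosure k κ := mem_algebraicClosure_iff.mpr halgz
  rw [hc_of_isAlgClosed (k := k) (K := κ), IntermediateField.mem_bot] at h1
  exact h1

/-- **Lemma T** -/
theorem exists_good_lift (h : Red vC ρC w ρ) (hκ : ∃ z : κ, z ∉ Set.range (algebraMap k κ))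
    {u : L} (hu : Transcendental C u) :
    ∃ a c : C, c ≠ 0 ∧ w ((u - algebraMap C L a) * algebraMap C L c⁻¹) = 1 ∧
      ρ ((u - algebraMap C L a) * algebraMap C L c⁻¹) ∉ Set.range (algebraMap k κ) := by
  by_contra hcon
  push Not at hcon
  obtain ⟨z, hz⟩ := hκ
  apply hz
  -- every `u - a` is approximable
  have happr : ∀ a : C, Appr (C := C) w (u - algebraMap C L a) := by
    intro a
    have hne : u - algebraMap C L a ≠ 0 := by
      intro h0
      rw [sub_eq_zero.mp h0] at hu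
      exact hu (isAlgebraic_algebraMap a)
    obtain ⟨c, hc0, hc, hc1⟩ := h.normalise hne
    obtain ⟨d, hd⟩ := hcon a c hc0 hc1
    obtain ⟨e, he1, he⟩ := h.resC.surj d
    have h1 : ρ ((u - algebraMap C L a) * algebraMap C L c⁻¹) = ρ (algebraMap C L e) := by
      rw [h.comp e he1, he, hd]
    rw [h.res.eq_iff hc1.le (by rw [h.norm]; exact he1)] at h1
    refine ⟨e * c, ?_⟩
    have h2 : u - algebraMap C L a - algebraMap C L (e * c)
        = ((u - algebraMap C L a) * algebraMap C L c⁻¹ - algebraMap C L e) * algebraMap C L c := by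
      rw [sub_mul, mul_assoc, ← map_mul (algebraMap C L) c⁻¹ c, inv_mul_cancel₀ hc0, map_one,
        mul_one, ← map_mul]
    rw [h2, map_mul, h.norm, hc]
    calc _ < 1 * vC c := mul_lt_mul_of_pos_right h1 (by rw [Valuation.pos_iff]; exact hc0)
      _ = vC c := one_mul _
  refine residue_const h hu ?_ z
  intro f hf
  by_cases hf0 : f = 0
  · rw [hf0, map_zero, h.res.zero]; exact ⟨0, map_zero _⟩
  obtain ⟨d, hd⟩ := Appr.aeval happr hf0
  have hd1 : vC d ≤ 1 := by rw [← h.norm, w_eq_of_lt hd]; exact hf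
  refine ⟨ρC d, ?_⟩
  rw [← h.comp d hd1, eq_comm, h.res.eq_iff hf (by rw [h.norm]; exact hd1)]
  exact lt_of_lt_of_le hd hf

end lemmaT

section sp

variable {C : Type*} [Field C] [IsAlgClosed C] {L : Type*} [Field L] [Algebra C L]
  [Algebra (RatFunc C) L] [IsScalarTower C (RatFunc C) L] [FiniteDimensional (RatFunc C) L]
  [Algebra.IsSeparable (RatFunc C) L]
  {k κ : Type*} [Field k] [IsAlgClosed k] [Field κ] [Algebra k κ]
  [Algebra (RatFunc k) κ] [IsScalarTower k (RatFunc k) κ] [FiniteDimensional (RatFunc k) κ]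
  [Algebra.IsSeparable (RatFunc k) κ]
  {vC : Valuation C ℝ≥0} {ρC : C → k} {w : Valuation L ℝ≥0} {ρ : L → κ}

/-- the specialisation property: divisors of functions of norm one reduce to the divisors of their
reductions -/
def SpP (w : Valuation L ℝ≥0) (ρ : L → κ) (sp : Pl C L → Pl k κ) : Prop :=
  ∀ u, w u = 1 → divf (k := k) (ρ u) = (divf (k := C) u).mapDomain sp

theorem sp_eq_of_pole {sp : Pl C L → Pl k κ} (hsp : SpP w ρ sp) {u : L} {P : Pl C L}
    (hu : ∀ Q, Q ≠ P → Q.v u ≤ 1) (hwu : w u = 1) {b : Pl k κ} (hb : 1 < b.v (ρ u)) :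
    sp P = b := by
  by_contra hne
  have h1 := divf_neg_of_pole hb
  rw [hsp u hwu] at h1
  refine absurd (mapDomain_nonneg_of (divf (k := C) u) sp b fun Q hQ => ?_) (not_le.mpr h1)
  apply divf_nonneg_of_le
  apply hu
  rintro rfl
  exact hne hQ

/-- a function with only pole `P` and non constant residue of norm one -/
theorem exists_fun (h : Red vC ρC w ρ) (P : Pl C L) :
    ∃ u : L, (∀ Q, Q ≠ P → Q.v u ≤ 1) ∧ w u = 1 ∧ ρ u ∉ Set.range (algebraMap k κ) := by
  obtain ⟨f, hf1, hf2⟩ := exists_pole_order (k := C) (K := L) hc_of_isAlgClosed P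
    (2 * gen C L + 2) (by rw [degP_eq_one]; push_cast; linarith) (by omega)
  have htr : Transcendental C f := by
    intro halg
    have h1 : f ∈ algebraicClosure C L := mem_algebraicClosure_iff.mpr halg
    rw [hc_of_isAlgClosed (k := C) (K := L), IntermediateField.mem_bot] at h1
    obtain ⟨c, rfl⟩ := h1
    by_cases hc : c = 0
    · rw [hc, map_zero, map_zero] at hf1
      exact exp_ne_zero hf1.symm
    · rw [P.const c hc, ← exp_zero, exp_inj] at hf1
      push_cast at hf1
      omega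
  obtain ⟨a, c, hc0, h1, h2⟩ := exists_good_lift h exists_notMem_range htr
  refine ⟨_, fun Q hQ => ?_, h1, h2⟩
  have hconst : ∀ c : C, Q.v (algebraMap C L c) ≤ 1 := by
    intro c
    by_cases hc : c = 0
    · simp [hc]
    · rw [Q.const c hc]
  rw [map_mul]
  exact mul_le_one' ((Valuation.map_sub _ _ _).trans (max_le (hf2 Q hQ) (hconst a))) (hconst _)

/-- **equivariance** of the specialisation map -/
theorem sp_equivariant (h : Red vC ρC w ρ) {sp : Pl C L → Pl k κ} (hsp : SpP w ρ sp)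
    {σ : L ≃ₐ[C] L} (hσ : ∀ x, w (σ x) = w x) {σb : κ ≃ₐ[k] κ}
    (hσb : ∀ x, w x ≤ 1 → ρ (σ x) = σb (ρ x)) (P : Pl C L) :
    sp (mapPl σ P) = mapPl σb (sp P) := by
  obtain ⟨u, hu1, hu2, hu3⟩ := exists_fun h P
  obtain ⟨b, hb⟩ := exists_pole hu3
  rw [sp_eq_of_pole hsp hu1 hu2 hb]
  apply sp_eq_of_pole hsp (u := σ u) (P := mapPl σ P) ?_ (by rw [hσ, hu2])
  · rw [hσb u hu2.le, mapPl_v_apply]; exact hb
  · intro Q hQ
    have h1 := hu1 (mapPl σ.symm Q) (by
      intro h2; apply hQ; rw [← h2, mapPl_mapPl_symm])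
    exact h1

theorem mapDomain_mapD (h : Red vC ρC w ρ) {sp : Pl C L → Pl k κ} (hsp : SpP w ρ sp)
    {σ : L ≃ₐ[C] L} (hσ : ∀ x, w (σ x) = w x) {σb : κ ≃ₐ[k] κ}
    (hσb : ∀ x, w x ≤ 1 → ρ (σ x) = σb (ρ x)) (E : Pl C L →₀ ℤ) :
    (mapD σ E).mapDomain sp = mapD σb (E.mapDomain sp) := by
  have h1 : mapD σ E = E.mapDomain (mapPl σ) := by
    unfold mapD
    rw [Finsupp.domCongr_apply, Finsupp.equivMapDomain_eq_mapDomain]; rfl
  have h2 : mapD σb (E.mapDomain sp) = (E.mapDomain sp).mapDomain (mapPl σb) := by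
    unfold mapD
    rw [Finsupp.domCongr_apply, Finsupp.equivMapDomain_eq_mapDomain]; rfl
  rw [h1, h2, ← Finsupp.mapDomain_comp, ← Finsupp.mapDomain_comp]
  congr 1
  funext P
  exact sp_equivariant h hsp hσ hσb P

end sp

section deg

variable {C : Type*} [Field C] [IsAlgClosed C] {L : Type*} [Field L] [Algebra C L]
  [Algebra (RatFunc C) L] [IsScalarTower C (RatFunc C) L] [FiniteDimensional (RatFunc C) L]
  [Algebra.IsSeparable (RatFunc C) L]
  {k κ : Type*} [Field k] [IsAlgClosed k] [Field κ] [Algebra k κ]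
  [Algebra (RatFunc k) κ] [IsScalarTower k (RatFunc k) κ] [FiniteDimensional (RatFunc k) κ]
  [Algebra.IsSeparable (RatFunc k) κ]
  {vC : Valuation C ℝ≥0} {ρC : C → k} {w : Valuation L ℝ≥0} {ρ : L → κ}

/-- lifts of `k(y)`-independent elements are `C(t)`-independent -/
theorem lift_indep (h : Red vC ρC w ρ) {t : L} (ht : w t ≤ 1) {ι : Type} [Fintype ι] {η : ι → κ}
    (hη : ∀ φ : ι → k[X], ∑ i, aeval (ρ t) (φ i) * η i = 0 → ∀ i, φ i = 0) {g : ι → L}
    (hg : ∀ i, w (g i) ≤ 1) (hgη : ∀ i, ρ (g i) = η i) (Φ : ι → C[X])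
    (hΦ : ∑ i, aeval t (Φ i) * g i = 0) : ∀ i, Φ i = 0 := by
  classical
  by_contra hcon
  push Not at hcon
  obtain ⟨i1, hi1⟩ := hcon
  -- maximal coefficient
  let N := Finset.univ.sup fun i => (Φ i).natDegree
  have hN : ∀ i, (Φ i).natDegree ≤ N := fun i =>
    Finset.le_sup (f := fun i => (Φ i).natDegree) (Finset.mem_univ i)
  obtain ⟨⟨i0, n0⟩, _, hmax⟩ := Finset.exists_max_image
    (Finset.univ ×ˢ Finset.range (N + 1) : Finset (ι × ℕ)) (fun x => vC ((Φ x.1).coeff x.2))
    ⟨(i1, 0), by simp⟩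
  have hmax' : ∀ i n, vC ((Φ i).coeff n) ≤ vC ((Φ i0).coeff n0) := by
    intro i n
    by_cases hn : n < N + 1
    · exact hmax (i, n) (by simp; omega)
    · rw [coeff_eq_zero_of_natDegree_lt (by have := hN i; omega), map_zero]
      exact zero_le
  set c := (Φ i0).coeff n0 with hc
  have hc0 : c ≠ 0 := by
    intro h0
    have h1 := hmax' i1 (Φ i1).natDegree
    rw [h0, map_zero] at h1
    have h2 := (Valuation.zero_iff vC).mp (le_antisymm h1 zero_le)
    exact hi1 (leadingCoeff_eq_zero.mp h2)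
  have hvc : 0 < vC c := by rw [Valuation.pos_iff]; exact hc0
  let Ψ : ι → C[X] := fun i => Polynomial.C c⁻¹ * Φ i
  have hΨ : ∀ i n, vC ((Ψ i).coeff n) ≤ 1 := by
    intro i n
    show vC ((Polynomial.C c⁻¹ * Φ i).coeff n) ≤ 1
    rw [coeff_C_mul, map_mul, map_inv₀, inv_mul_le_iff₀ hvc, mul_one]
    exact hmax' i n
  have hsum : ∑ i, aeval t (Ψ i) * g i = 0 := by
    have h1 : ∑ i, aeval t (Ψ i) * g i = algebraMap C L c⁻¹ * ∑ i, aeval t (Φ i) * g i := by
      rw [Finset.mul_sum]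
      refine Finset.sum_congr rfl fun i _ => ?_
      show aeval t (Polynomial.C c⁻¹ * Φ i) * g i = _
      rw [map_mul, aeval_C]; ring
    rw [h1, hΦ, mul_zero]
  have hred := hη (fun i => redP ρC (Ψ i)) (by
    have h1 := congrArg ρ hsum
    rw [h.res.zero, h.res.sum _ _ fun i _ => by
      rw [map_mul]; exact mul_le_one' (w_aeval_le h (hΨ i) ht) (hg i)] at h1
    rw [← h1]
    refine Finset.sum_congr rfl fun i _ => ?_
    rw [h.res.mul _ _ (w_aeval_le h (hΨ i) ht) (hg i), res_aeval h (hΨ i) ht, hgη]) i0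
  have h1 := congrArg (fun q => Polynomial.coeff q n0) hred
  simp only [coeff_redP h, coeff_zero] at h1
  have h2 : (Ψ i0).coeff n0 = 1 := by
    show (Polynomial.C c⁻¹ * Φ i0).coeff n0 = 1
    rw [coeff_C_mul, ← hc, inv_mul_cancel₀ hc0]
  rw [h2, h.resC.one] at h1
  exact one_ne_zero h1

/-- **(DEG)** -/
theorem degD_poles_le (h : Red vC ρC w ρ) {u : L} (hu : w u = 1)
    (hns : ρ u ∉ Set.range (algebraMap k κ)) :
    degD (poles (k := k) (ρ u)) ≤ degD (poles (k := C) u) := by
  classical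
  have hu0 : u ≠ 0 := by rintro rfl; simp at hu
  have hρu0 : ρ u ≠ 0 := by rw [h.res.ne_zero_iff hu.le]; exact hu
  set t := u⁻¹ with ht
  have ht0 : t ≠ 0 := inv_ne_zero hu0
  have hwt : w t = 1 := by rw [ht, map_inv₀, hu, inv_one]
  have hρt : ρ t = (ρ u)⁻¹ := h.res.inv hu
  have hρt0 : ρ t ≠ 0 := by rw [hρt]; exact inv_ne_zero hρu0
  -- `t` is transcendental
  have htr : Transcendental C t := by
    intro halg
    have h1 : t ∈ algebraicClosure C L := mem_algebraicClosure_iff.mpr halg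
    rw [hc_of_isAlgClosed (k := C) (K := L), IntermediateField.mem_bot] at h1
    obtain ⟨c, hc⟩ := h1
    have hc1 : vC c = 1 := by rw [← h.norm, hc, hwt]
    have h2 : ρ t = algebraMap k κ (ρC c) := by rw [← hc, h.comp c hc1.le]
    apply hns
    refine ⟨(ρC c)⁻¹, ?_⟩
    rw [map_inv₀, ← h2, hρt, inv_inv]
  obtain ⟨ι, _, η, hcard, hη⟩ := exists_indep (k := k) hρt0
  choose g hg hgη using fun i => h.res.surj (η i)
  have hind := lift_indep h hwt.le hη hg hgη
  have hle := card_le_poles t g hind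
  have h1 : poles (k := k) (ρ u) = zeros (ρ t) := by
    rw [← poles_inv hρt0, hρt, inv_inv]
  have h2 : degD (poles (k := C) u) = degD (poles (k := C) t) := by
    rw [ht, poles_inv hu0]; exact (degD_zeros_eq_poles hu0).symm
  rw [h1, ← hcard, h2]
  exact_mod_cast hle

end deg

section main

variable {C : Type*} [Field C] [IsAlgClosed C] {L : Type*} [Field L] [Algebra C L]
  [Algebra (RatFunc C) L] [IsScalarTower C (RatFunc C) L] [FiniteDimensional (RatFunc C) L]
  [Algebra.IsSeparable (RatFunc C) L]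
  {k κ : Type*} [Field k] [IsAlgClosed k] [Field κ] [Algebra k κ]
  [Algebra (RatFunc k) κ] [IsScalarTower k (RatFunc k) κ] [FiniteDimensional (RatFunc k) κ]
  [Algebra.IsSeparable (RatFunc k) κ]
  {vC : Valuation C ℝ≥0} {ρC : C → k} {w : Valuation L ℝ≥0} {ρ : L → κ}

theorem finrank_red_LD (h : Red vC ρC w ρ) (hO : Orth vC w) (D : Pl C L →₀ ℤ) :
    FiniteDimensional k (red h (LD D)) ∧ finrank k (red h (LD D)) = ell D := by
  have hfin := LD_finite D
  exact finrank_red h (hO (LD D) hfin)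

theorem one_mem_red (h : Red vC ρC w ρ) {D : Pl C L →₀ ℤ} (hD : 0 ≤ D) :
    (1 : κ) ∈ red h (LD D) := by
  have h1 : (1 : L) ∈ LD D := by
    rw [mem_LD]
    intro P
    rw [map_one, ← exp_zero, exp_le_exp]
    exact hD P
  have h2 := mem_red_of (h := h) h1 (by rw [map_one])
  rwa [h.res.one] at h2

/-- Lemma A: the supremum `D̄` of the reduction of `L(D)`, `D` effective -/
theorem exists_bar (h : Red vC ρC w ρ) (hO : Orth vC w) {D : Pl C L →₀ ℤ} (hD : 0 ≤ D) :
    ∃ E : Pl k κ →₀ ℤ, IsSup (red h (LD D)) E ∧ 0 ≤ E ∧ degD E ≤ degD D := by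
  have hfin := (finrank_red_LD h hO D).1
  have h1 := one_mem_red h hD
  have hne : red h (LD D) ≠ ⊥ := by
    intro h0
    rw [h0, Submodule.mem_bot] at h1
    exact one_ne_zero h1
  obtain ⟨E, hE⟩ := exists_isSup hfin hne
  have hE0 : 0 ≤ E := by
    intro b
    have h2 := hE.1 h1
    rw [mem_LD] at h2
    have h3 := h2 b
    rw [map_one, ← exp_zero, exp_le_exp] at h3
    exact h3
  refine ⟨E, hE, hE0, ?_⟩
  obtain ⟨z, ⟨u, hu, hu1, rfl⟩, hz0, hz⟩ := hE.exists_generic hE0
  have hD' : 0 ≤ degD D := by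
    have := degD_mono (k := C) (κ := L) hD
    rwa [degD_zero] at this
  by_cases hc : ρ u ∈ Set.range (algebraMap k κ)
  · obtain ⟨c, hc⟩ := hc
    have hc0 : c ≠ 0 := by
      rintro rfl
      rw [map_zero] at hc
      exact hz0 hc.symm
    have h2 : poles (k := k) (ρ u) = 0 := by
      ext b
      rw [poles_apply, Finsupp.zero_apply]
      have h3 := b.const c hc0
      rw [hc, v_eq hz0, ← exp_zero, exp_inj] at h3
      rw [h3]; simp
    rw [← hz, h2, degD_zero]
    exact hD'
  · have hwu : w u = 1 := (h.res.ne_zero_iff hu1).mp hz0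
    have h2 := degD_poles_le h hwu hc
    rw [hz] at h2
    refine h2.trans (degD_mono (k := C) (κ := L) ?_)
    have hu0 : u ≠ 0 := by rintro rfl; simp at hwu
    rw [mem_LD_iff hu0] at hu
    intro P
    rw [poles_apply]
    have h3 : 0 ≤ D P + divf (k := C) u P := hu P
    have h4 : 0 ≤ D P := hD P
    exact max_le (by linarith) h4

/-- the dimension estimate -/
theorem ell_le (h : Red vC ρC w ρ) (hO : Orth vC w) {D : Pl C L →₀ ℤ} {E : Pl k κ →₀ ℤ}
    (hE : IsSup (red h (LD D)) E) : ell D ≤ ell E := by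
  have h1 := finrank_red_LD h hO D
  haveI := h1.1
  haveI := LD_finite E
  rw [← h1.2]
  exact Submodule.finrank_mono hE.1

/-- **genus inequality** -/
theorem gen_le (h : Red vC ρC w ρ) (hO : Orth vC w) : gen k κ ≤ gen C L := by
  obtain ⟨P0, _⟩ := exists_notMem (k := C) (K := L) ∅
  obtain ⟨b0, _⟩ := exists_notMem (k := k) (K := κ) ∅
  let d : ℤ := 2 * gen C L + 2 * gen k κ
  let D : Pl C L →₀ ℤ := Finsupp.single P0 d
  have hd : degD D = d := by
    show degD (Finsupp.single P0 d) = d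
    rw [degD_single, degP_eq_one]; simp
  have hd0 : 0 ≤ d := by positivity
  have hD : 0 ≤ D := by
    classical
    intro P
    show (0 : ℤ) ≤ Finsupp.single P0 d P
    rw [Finsupp.single_apply]
    split_ifs
    · exact hd0
    · exact le_refl _
  obtain ⟨E, hE1, hE2, hE3⟩ := exists_bar h hO hD
  have h1 := ell_le h hO hE1
  rw [hd] at hE3
  obtain ⟨h2, h3⟩ := exists_ge_degD E hE3 b0
  have h4 := h1.trans (ell_mono h2)
  have h5 := ell_eq_of_lt (k := k) (K := κ) hc_of_isAlgClosed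
    (D := E + Finsupp.single b0 (d - degD E)) (by rw [h3]; show _ < 2 * (gen C L : ℤ) + 2 * gen k κ; linarith)
  have h6 := ell_ge (k := C) (K := L) hc_of_isAlgClosed D
  have h7 : (ell D : ℤ) ≤ ell (E + Finsupp.single b0 (d - degD E)) := by exact_mod_cast h4
  rw [h5, h3] at h7
  rw [hd] at h6
  have h8 : (gen k κ : ℤ) ≤ gen C L := by linarith
  exact_mod_cast h8

/-- equality case: the reduction of `L(D)` is `L(D̄)`, `deg D̄ = deg D` -/
theorem bar_eq (h : Red vC ρC w ρ) (hO : Orth vC w) (hg : gen k κ = gen C L)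
    {D : Pl C L →₀ ℤ} (hdeg : 2 * (gen C L : ℤ) ≤ degD D) {E : Pl k κ →₀ ℤ}
    (hE : IsSup (red h (LD D)) E) (hE3 : degD E ≤ degD D) : degD E = degD D := by
  obtain ⟨b0, _⟩ := exists_notMem (k := k) (K := κ) ∅
  by_contra hne
  have hlt : degD E ≤ degD D - 1 := by omega
  have h1 := ell_le h hO hE
  obtain ⟨h2, h3⟩ := exists_ge_degD E hlt b0
  have h4 := h1.trans (ell_mono h2)
  have h5 := ell_eq_of_lt (k := k) (K := κ) hc_of_isAlgClosed
    (D := E + Finsupp.single b0 (degD D - 1 - degD E)) (by rw [h3, hg]; linarith)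
  have h6 := ell_ge (k := C) (K := L) hc_of_isAlgClosed D
  have h7 : (ell D : ℤ) ≤ ell (E + Finsupp.single b0 (degD D - 1 - degD E)) := by
    exact_mod_cast h4
  rw [h5, h3, hg] at h7
  linarith

/-- products -/
theorem add_le_bar (h : Red vC ρC w ρ) {D D' : Pl C L →₀ ℤ} {A B E : Pl k κ →₀ ℤ}
    (hA : IsSup (red h (LD D)) A) (hB : IsSup (red h (LD D')) B)
    (hE : IsSup (red h (LD (D + D'))) E) : A + B ≤ E := by
  intro b
  obtain ⟨z, ⟨x, hx, hx1, rfl⟩, hzb⟩ := hA.2 b
  obtain ⟨z', ⟨x', hx', hx1', rfl⟩, hzb'⟩ := hB.2 b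
  have h1 : x * x' ∈ LD (D + D') := by
    rw [mem_LD] at hx hx' ⊢
    intro P
    rw [map_mul, Finsupp.add_apply, exp_add]
    exact mul_le_mul' (hx P) (hx' P)
  have h2 := hE.1 (mem_red_of h1 (by rw [map_mul]; exact mul_le_one' hx1 hx1'))
  rw [mem_LD] at h2
  have h3 := h2 b
  rw [h.res.mul _ _ hx1 hx1', map_mul, hzb, hzb', ← exp_add, exp_le_exp] at h3
  exact h3

/-- **the specialisation map** of a norm with good reduction -/
theorem exists_sp (h : Red vC ρC w ρ) (hO : Orth vC w) (hg : gen k κ = gen C L) :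
    ∃ sp : Pl C L → Pl k κ, SpP w ρ sp := by
  classical
  obtain ⟨P0, _⟩ := exists_notMem (k := C) (K := L) ∅
  have hex : ∀ D : Pl C L →₀ ℤ, ∃ E : Pl k κ →₀ ℤ, 0 ≤ D →
      IsSup (red h (LD D)) E ∧ 0 ≤ E ∧ degD E ≤ degD D := by
    intro D
    by_cases hD : 0 ≤ D
    · obtain ⟨E, hE⟩ := exists_bar h hO hD
      exact ⟨E, fun _ => hE⟩
    · exact ⟨0, fun h' => absurd h' hD⟩
  choose bar hbar using hex
  have hdeg : ∀ D, 0 ≤ D → 2 * (gen C L : ℤ) ≤ degD D → degD (bar D) = degD D := fun D hD hd =>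
    bar_eq h hO hg hd (hbar D hD).1 (hbar D hD).2.2
  have hmono : ∀ D D', 0 ≤ D → D ≤ D' → bar D ≤ bar D' := by
    intro D D' hD hle
    refine (hbar D hD).1.le (hbar D' (hD.trans hle)).1 ?_
    rintro _ ⟨x, hx, hx1, rfl⟩
    exact mem_red_of (LD_mono hle hx) hx1
  have hadd : ∀ D D', 0 ≤ D → 0 ≤ D' → 2 * (gen C L : ℤ) ≤ degD D → 2 * (gen C L : ℤ) ≤ degD D' →
      bar (D + D') = bar D + bar D' := by
    intro D D' hD hD' hd hd'
    have h0 : 0 ≤ D + D' := add_nonneg hD hD'
    symm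
    apply eq_of_le_of_degD
      (add_le_bar h (hbar D hD).1 (hbar D' hD').1 (hbar _ h0).1)
    have hgnn : (0 : ℤ) ≤ gen C L := by positivity
    rw [degD_add, hdeg D hD hd, hdeg D' hD' hd', hdeg _ h0 (by rw [degD_add]; linarith), degD_add]
  -- the base divisor
  set D0 : Pl C L →₀ ℤ := Finsupp.single P0 (2 * (gen C L : ℤ)) with hD0
  have hD0deg : degD D0 = 2 * gen C L := by rw [hD0, degD_single, degP_eq_one]; simp
  have hD0nn : 0 ≤ D0 := by
    intro P
    rw [hD0, Finsupp.single_apply]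
    split_ifs
    · show (0 : ℤ) ≤ 2 * gen C L
      positivity
    · exact le_refl _
  have hsingle : ∀ P : Pl C L, (0 : Pl C L →₀ ℤ) ≤ Finsupp.single P 1 := by
    intro P Q
    rw [Finsupp.single_apply]
    split_ifs
    · show (0 : ℤ) ≤ 1; norm_num
    · exact le_refl _
  have hdegnn : ∀ D : Pl C L →₀ ℤ, 0 ≤ D → 0 ≤ degD D := by
    intro D hD
    have := degD_mono (k := C) (κ := L) hD
    rwa [degD_zero] at this
  have hdeg' : ∀ D, 0 ≤ D → degD (bar (D0 + D)) = 2 * gen C L + degD D := by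
    intro D hD
    rw [hdeg _ (add_nonneg hD0nn hD) (by rw [degD_add, hD0deg]; have := hdegnn D hD; linarith),
      degD_add, hD0deg]
  -- the places
  have hpl : ∀ P : Pl C L, ∃ b : Pl k κ, bar (D0 + Finsupp.single P 1) - bar D0
      = Finsupp.single b 1 := by
    intro P
    apply eq_single_of_degD_one
    · rw [sub_nonneg]
      exact hmono _ _ hD0nn (le_add_of_nonneg_right (hsingle P))
    · rw [degD_sub, hdeg' _ (hsingle P), hdeg D0 hD0nn (by rw [hD0deg]), hD0deg, degD_single,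
        degP_eq_one]
      push_cast; ring
  choose sp hsp using hpl
  refine ⟨sp, ?_⟩
  -- additivity
  have hT : ∀ (n : ℕ) (D : Pl C L →₀ ℤ), 0 ≤ D → degD D = n →
      bar (D0 + D) = bar D0 + D.mapDomain sp := by
    intro n
    induction n with
    | zero =>
      intro D hD hdD
      have h1 : (0 : Pl C L →₀ ℤ) = D := eq_of_le_of_degD hD (by rw [hdD, degD_zero]; simp)
      rw [← h1, add_zero, Finsupp.mapDomain_zero, add_zero]
    | succ n ih =>
      intro D hD hdD
      have hne : D ≠ 0 := by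
        rintro rfl
        rw [degD_zero] at hdD
        push_cast at hdD
        omega
      obtain ⟨P, hP⟩ := Finsupp.ne_iff.mp hne
      rw [Finsupp.zero_apply] at hP
      have hPpos : 1 ≤ D P := by
        have h1 : 0 ≤ D P := hD P
        omega
      set D' := D - Finsupp.single P 1 with hD'
      have hD'nn : 0 ≤ D' := by
        intro Q
        rw [hD', Finsupp.sub_apply, Finsupp.single_apply]
        have h1 : 0 ≤ D Q := hD Q
        split_ifs with h2
        · subst h2
          show (0 : ℤ) ≤ D P - 1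
          omega
        · show (0 : ℤ) ≤ D Q - 0
          omega
      have hD'deg : degD D' = n := by
        rw [hD', degD_sub, hdD, degD_single, degP_eq_one]
        push_cast; ring
      have hDD' : D = D' + Finsupp.single P 1 := by rw [hD']; abel
      have hih := ih D' hD'nn hD'deg
      have hdeg0 : 2 * (gen C L : ℤ) ≤ degD D0 := by rw [hD0deg]
      have hdegA : ∀ X : Pl C L →₀ ℤ, 0 ≤ X → 2 * (gen C L : ℤ) ≤ degD (D0 + X) := by
        intro X hX
        rw [degD_add, hD0deg]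
        have := hdegnn X hX
        linarith
      have e1 := hadd (D0 + D) D0 (add_nonneg hD0nn hD) hD0nn (hdegA D hD) hdeg0
      have e2 := hadd (D0 + D') (D0 + Finsupp.single P 1) (add_nonneg hD0nn hD'nn)
        (add_nonneg hD0nn (hsingle P)) (hdegA D' hD'nn) (hdegA _ (hsingle P))
      have e3 : D0 + D + D0 = (D0 + D') + (D0 + Finsupp.single P 1) := by rw [hDD']; abel
      rw [e3, e2, hih] at e1
      have e4 : bar (D0 + Finsupp.single P 1) = bar D0 + Finsupp.single (sp P) 1 := by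
        rw [← hsp P]; abel
      rw [e4] at e1
      have e5 : D.mapDomain sp = D'.mapDomain sp + Finsupp.single (sp P) 1 := by
        rw [hDD', Finsupp.mapDomain_add, Finsupp.mapDomain_single]
      rw [e5]
      have e6 : bar (D0 + D) + bar D0
          = bar D0 + (D'.mapDomain sp + Finsupp.single (sp P) 1) + bar D0 := by
        rw [← e1]; abel
      exact add_right_cancel e6
  have hT' : ∀ D : Pl C L →₀ ℤ, 0 ≤ D → bar (D0 + D) = bar D0 + D.mapDomain sp := by
    intro D hD
    obtain ⟨n, hn⟩ := Int.eq_ofNat_of_zero_le (hdegnn D hD)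
    exact hT n D hD hn
  -- functions
  intro u hu
  have hu0 : u ≠ 0 := by rintro rfl; simp at hu
  have hρu0 : ρ u ≠ 0 := by rw [h.res.ne_zero_iff hu.le]; exact hu
  set Z := zeros (k := C) u with hZ
  set N := poles (k := C) u with hN
  have hZnn : 0 ≤ Z := fun P => by
    rw [hZ, zeros_apply]; exact le_max_right _ _
  have hNnn : 0 ≤ N := fun P => by
    rw [hN, poles_apply]; exact le_max_right _ _
  have hdiv : divf (k := C) u = Z - N := divf_eq_zeros_sub_poles u
  have hmem : ∀ f : L, f ∈ LD (D0 + Z) ↔ u * f ∈ LD (D0 + N) := by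
    intro f
    by_cases hf : f = 0
    · rw [hf, mul_zero]; simp
    · rw [mem_LD_iff hf, mem_LD_iff (mul_ne_zero hu0 hf), divf_mul hu0 hf, hdiv]
      have : D0 + N + (Z - N + divf (k := C) f) = D0 + Z + divf f := by abel
      rw [this]
  have hZ1 := (hbar (D0 + Z) (add_nonneg hD0nn hZnn)).1
  have hN1 := (hbar (D0 + N) (add_nonneg hD0nn hNnn)).1
  have hsup : IsSup (red h (LD (D0 + N))) (bar (D0 + Z) - divf (k := k) (ρ u)) := by
    constructor
    · rintro _ ⟨x, hx, hx1, rfl⟩
      have h1 : x * u⁻¹ ∈ LD (D0 + Z) := by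
        rw [hmem, mul_comm x, mul_inv_cancel_left₀ hu0]; exact hx
      have h2 := hZ1.1 (mem_red_of h1 (by rw [map_mul, map_inv₀, hu, inv_one, mul_one]; exact hx1))
      rw [mem_LD] at h2 ⊢
      intro b
      have h3 := h2 b
      rw [h.res.mul _ _ hx1 (by rw [map_inv₀, hu, inv_one]), h.res.inv hu, map_mul, map_inv₀,
        v_eq hρu0, ← exp_neg, neg_neg] at h3
      rw [Finsupp.sub_apply, sub_eq_add_neg, exp_add]
      have h4 : b.v (ρ x) = b.v (ρ x) * exp (divf (k := k) (ρ u) b) * exp (-divf (k := k) (ρ u) b) := by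
        rw [mul_assoc, ← exp_add]; simp
      rw [h4]
      exact mul_le_mul_left h3 _
    · intro b
      obtain ⟨_, ⟨x, hx, hx1, rfl⟩, hzb⟩ := hZ1.2 b
      refine ⟨ρ (u * x), mem_red_of ((hmem x).mp hx) (by rw [map_mul, hu, one_mul]; exact hx1), ?_⟩
      rw [h.res.mul _ _ hu.le hx1, map_mul, hzb, v_eq hρu0, ← exp_add, Finsupp.sub_apply]
      congr 1
      ring
  have h1 := hN1.unique hsup
  rw [hT' N hNnn, hT' Z hZnn] at h1
  have hdiv2 : (divf (k := C) u).mapDomain sp = Z.mapDomain sp - N.mapDomain sp := by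
    rw [hdiv]
    exact map_sub (Finsupp.mapDomain.addMonoidHom sp) Z N
  rw [hdiv2]
  have h2 : divf (k := k) (ρ u) = (bar D0 + Z.mapDomain sp) - (bar D0 + N.mapDomain sp) := by
    rw [h1]; abel
  rw [h2]; abel

end main

section good

variable {C : Type*} [Field C] [IsAlgClosed C] {L : Type*} [Field L] [Algebra C L]
  [Algebra (RatFunc C) L] [IsScalarTower C (RatFunc C) L] [FiniteDimensional (RatFunc C) L]
  [Algebra.IsSeparable (RatFunc C) L]
  {k κ : Type*} [Field k] [IsAlgClosed k] [Field κ] [Algebra k κ]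
  [Algebra (RatFunc k) κ] [IsScalarTower k (RatFunc k) κ] [FiniteDimensional (RatFunc k) κ]
  [Algebra.IsSeparable (RatFunc k) κ]

/-- good reduction -/
structure Good (vC : Valuation C ℝ≥0) (ρC : C → k) (w : Valuation L ℝ≥0) (ρ : L → κ)
    (sp : Pl C L → Pl k κ) : Prop where
  rd : Red vC ρC w ρ
  orth : Orth vC w
  gen_eq : gen k κ = gen C L
  spp : SpP w ρ sp

theorem exists_good {vC : Valuation C ℝ≥0} {ρC : C → k} {w : Valuation L ℝ≥0} {ρ : L → κ}
    (h : Red vC ρC w ρ) (hO : Orth vC w) (hg : gen k κ = gen C L) :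
    ∃ sp : Pl C L → Pl k κ, Good vC ρC w ρ sp := by
  obtain ⟨sp, hsp⟩ := exists_sp h hO hg
  exact ⟨sp, h, hO, hg, hsp⟩

/-- no pole in the residue disc of `b` -/
def Reg (sp : Pl C L → Pl k κ) (b : Pl k κ) (u : L) : Prop := ∀ P, sp P = b → P.v u ≤ 1

namespace Reg

variable {sp : Pl C L → Pl k κ} {b : Pl k κ}

theorem const (c : C) : Reg sp b (algebraMap C L c) := fun P _ => v_const_le P c

theorem add {u u' : L} (h : Reg sp b u) (h' : Reg sp b u') : Reg sp b (u + u') :=
  fun P hP => (Valuation.map_add _ _ _).trans (max_le (h P hP) (h' P hP))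

theorem sub {u u' : L} (h : Reg sp b u) (h' : Reg sp b u') : Reg sp b (u - u') :=
  fun P hP => (Valuation.map_sub _ _ _).trans (max_le (h P hP) (h' P hP))

theorem mul {u u' : L} (h : Reg sp b u) (h' : Reg sp b u') : Reg sp b (u * u') :=
  fun P hP => by rw [map_mul]; exact mul_le_one' (h P hP) (h' P hP)

theorem smul (c : C) {u : L} (h : Reg sp b u) : Reg sp b (c • u) := by
  rw [Algebra.smul_def]; exact (const c).mul h

theorem pow {u : L} (h : Reg sp b u) (n : ℕ) : Reg sp b (u ^ n) :=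
  fun P hP => by rw [map_pow]; exact pow_le_one' (h P hP) n

theorem sum {ι : Type*} (s : Finset ι) (f : ι → L) (h : ∀ i ∈ s, Reg sp b (f i)) :
    Reg sp b (∑ i ∈ s, f i) :=
  fun P hP => Valuation.map_sum_le _ fun i hi => h i hi P hP

end Reg

namespace Good

variable {vC : Valuation C ℝ≥0} {ρC : C → k} {w : Valuation L ℝ≥0} {ρ : L → κ}
  {sp : Pl C L → Pl k κ} (h : Good vC ρC w ρ sp)

include h

theorem res_ne {u : L} (hu : w u = 1) : ρ u ≠ 0 := (h.rd.res.ne_zero_iff hu.le).mpr hu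

theorem reg_res {b : Pl k κ} {u : L} (hu : w u ≤ 1) (hr : Reg sp b u) : b.v (ρ u) ≤ 1 := by
  by_cases h1 : w u = 1
  · have hu0 : u ≠ 0 := by rintro rfl; simp at h1
    rw [v_le_one_iff (h.res_ne h1), h.spp u h1]
    exact mapDomain_nonneg_of _ _ _ fun P hP => (v_le_one_iff hu0 P).mp (hr P hP)
  · rw [(h.rd.res.zero_iff u hu).mpr (lt_of_le_of_ne hu h1)]; simp

theorem res_lt {b : Pl k κ} {u : L} (hu : w u ≤ 1) (hr : Reg sp b u) {P : Pl C L} (hP : sp P = b)
    (hz : P.v u < 1) : b.v (ρ u) < 1 := by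
  by_cases h1 : w u = 1
  · have hu0 : u ≠ 0 := by rintro rfl; simp at h1
    rw [v_lt_one_iff (h.res_ne h1), h.spp u h1]
    exact lt_of_lt_of_le ((v_lt_one_iff hu0 P).mp hz)
      (le_mapDomain _ _ (fun Q hQ => (v_le_one_iff hu0 Q).mp (hr Q hQ)) hP)
  · rw [(h.rd.res.zero_iff u hu).mpr (lt_of_le_of_ne hu h1)]; simp

theorem ev_le_one {u : L} (hu : w u ≤ 1) {P : Pl C L} (hr : Reg sp (sp P) u) :
    vC (ev P u) ≤ 1 := by
  by_contra hcon
  push Not at hcon
  set c := ev P u with hc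
  have hc0 : c ≠ 0 := by rintro h0; rw [h0, map_zero] at hcon; exact not_lt_of_ge zero_le hcon
  have hci : vC c⁻¹ < 1 := by rw [map_inv₀]; exact inv_lt_one_of_one_lt₀ hcon
  have h1 : w (algebraMap C L c⁻¹ * u) < 1 := by
    rw [map_mul, h.rd.norm]; exact mul_lt_one_of_lt_of_le hci hu
  have h2 : w (algebraMap C L c⁻¹ * u - 1) ≤ 1 :=
    (Valuation.map_sub _ _ _).trans (max_le h1.le (by simp))
  have h3 : Reg sp (sp P) (algebraMap C L c⁻¹ * u - 1) :=
    ((Reg.const _).mul hr).sub (fun Q _ => by simp)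
  have h4 : P.v (algebraMap C L c⁻¹ * u - 1) < 1 := by
    rw [← ev_eq_zero_iff P (h3 P rfl), ev_sub P (((Reg.const _).mul hr) P rfl) (by simp),
      ev_mul P (v_const_le P _) (hr P rfl), ev_const, ev_one, ← hc, inv_mul_cancel₀ hc0, sub_self]
  have h5 := h.res_lt h2 h3 rfl h4
  rw [h.rd.res.sub h1.le (by simp), (h.rd.res.zero_iff _ h1.le).mpr h1, h.rd.res.one] at h5
  simp at h5

/-- values reduce to values -/
theorem res_ev {u : L} (hu : w u ≤ 1) {P : Pl C L} (hr : Reg sp (sp P) u) :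
    ρC (ev P u) = ev (sp P) (ρ u) := by
  have h1 := h.ev_le_one hu hr
  have h2 : w (algebraMap C L (ev P u)) ≤ 1 := by rw [h.rd.norm]; exact h1
  have h3 := h.res_lt ((Valuation.map_sub _ _ _).trans (max_le hu h2)) (hr.sub (Reg.const _)) rfl
    (ev_spec P (hr P rfl))
  rw [h.rd.res.sub hu h2, h.rd.comp _ h1] at h3
  exact (ev_eq _ h3).symm

/-- maximum principle -/
theorem ev_le {u : L} {P : Pl C L} (hr : Reg sp (sp P) u) : vC (ev P u) ≤ w u := by
  by_cases hu0 : u = 0
  · rw [hu0, ev_zero]; simp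
  obtain ⟨c, hc0, hc, hc1⟩ := h.rd.normalise hu0
  have h1 := h.ev_le_one hc1.le (hr.mul (Reg.const c⁻¹))
  rw [ev_mul P (hr P rfl) (v_const_le P _), ev_const, map_mul, map_inv₀] at h1
  have hpos : 0 < vC c := by rw [Valuation.pos_iff]; exact hc0
  rw [hc]
  rwa [mul_inv_le_iff₀ hpos, one_mul] at h1

theorem sp_surj (b : Pl k κ) : ∃ P, sp P = b := by
  obtain ⟨z, hz0, hz⟩ := exists_v_eq b (-1)
  obtain ⟨u, hu, rfl⟩ := h.rd.res.lift hz0
  have h1 : 0 < divf (k := k) (ρ u) b := by
    rw [← v_lt_one_iff hz0, hz, ← exp_zero, exp_lt_exp]; norm_num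
  rw [h.spp u hu] at h1
  obtain ⟨P, hP, _⟩ := exists_pos_of_mapDomain_pos _ _ h1
  exact ⟨P, hP⟩

theorem degD_map (D : Pl C L →₀ ℤ) : degD (D.mapDomain sp) = degD D := by
  rw [degD_eq_sum, degD_eq_sum, sum_mapDomain]

theorem res_mem_LD {D : Pl C L →₀ ℤ} {u : L} (hu : u ∈ LD D) (hw : w u ≤ 1) :
    ρ u ∈ LD (D.mapDomain sp) := by
  by_cases h1 : w u = 1
  · have hu0 : u ≠ 0 := by rintro rfl; simp at h1
    rw [mem_LD_iff hu0] at hu
    rw [mem_LD_iff (h.res_ne h1), h.spp u h1, ← Finsupp.mapDomain_add]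
    exact mapDomain_nonneg hu sp
  · rw [(h.rd.res.zero_iff u hw).mpr (lt_of_le_of_ne hw h1)]; exact zero_mem _

theorem ell_le (D : Pl C L →₀ ℤ) : ell D ≤ ell (D.mapDomain sp) := by
  have h1 := finrank_red_LD h.rd h.orth D
  haveI := LD_finite (D.mapDomain sp)
  rw [← h1.2]
  apply Submodule.finrank_mono
  rintro _ ⟨x, hx, hx1, rfl⟩
  exact h.res_mem_LD hx hx1

/-- lifting of functions -/
theorem lift_LD {D : Pl C L →₀ ℤ} (hD : ell (D.mapDomain sp) ≤ ell D) {z : κ}
    (hz : z ∈ LD (D.mapDomain sp)) : ∃ u ∈ LD D, w u ≤ 1 ∧ ρ u = z := by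
  have h1 := finrank_red_LD h.rd h.orth D
  haveI := LD_finite (D.mapDomain sp)
  have hle : red h.rd (LD D) ≤ LD (D.mapDomain sp) := by
    rintro _ ⟨x, hx, hx1, rfl⟩
    exact h.res_mem_LD hx hx1
  have heq := Submodule.eq_of_le_of_finrank_le hle (by rw [h1.2]; exact hD)
  rw [← heq] at hz
  exact hz

theorem ell_eq_of_big {D : Pl C L →₀ ℤ} (hD : 2 * (gen C L : ℤ) - 2 < degD D) :
    ell (D.mapDomain sp) = ell D := by
  have h1 := ell_eq_of_lt (k := C) (K := L) hc_of_isAlgClosed hD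
  have h2 := ell_eq_of_lt (k := k) (K := κ) hc_of_isAlgClosed (D := D.mapDomain sp)
    (by rw [h.degD_map, h.gen_eq]; exact hD)
  rw [h.degD_map, h.gen_eq] at h2
  omega

/-- a regular function of norm one whose reduction has a simple zero has exactly one zero -/
theorem divf_of_simple {b : Pl k κ} {t : L} (ht : w t = 1) (hr : Reg sp b t)
    (hb : divf (k := k) (ρ t) b = 1) {P : Pl C L} (hP : sp P = b) (hz : P.v t < 1) :
    divf (k := C) t P = 1 ∧ ∀ Q, sp Q = b → Q ≠ P → divf (k := C) t Q = 0 := by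
  have ht0 : t ≠ 0 := by rintro rfl; simp at ht
  have hnn : ∀ Q, sp Q = b → 0 ≤ divf (k := C) t Q := fun Q hQ => (v_le_one_iff ht0 Q).mp (hr Q hQ)
  have h1 := (v_lt_one_iff ht0 P).mp hz
  rw [h.spp t ht] at hb
  have h2 := le_mapDomain _ sp hnn hP
  refine ⟨by omega, fun Q hQ hne => ?_⟩
  have h3 := add_le_mapDomain _ sp hnn hP hQ hne
  have h4 := hnn Q hQ
  omega

/-- such a function has a zero in the disc -/
theorem exists_zero {b : Pl k κ} {t : L} (ht : w t = 1) (hb : 0 < divf (k := k) (ρ t) b) :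
    ∃ P, sp P = b ∧ P.v t < 1 := by
  have ht0 : t ≠ 0 := by rintro rfl; simp at ht
  rw [h.spp t ht] at hb
  obtain ⟨P, hP, h1⟩ := exists_pos_of_mapDomain_pos _ _ hb
  exact ⟨P, hP, (v_lt_one_iff ht0 P).mpr h1⟩

/-- local parameter of a disc, centred at `P` -/
theorem exists_param (P : Pl C L) :
    ∃ t : L, w t = 1 ∧ Reg sp (sp P) t ∧ divf (k := k) (ρ t) (sp P) = 1 ∧ P.v t < 1 := by
  classical
  obtain ⟨b0, hb0⟩ := exists_notMem (k := k) (K := κ) {sp P}
  rw [Finset.mem_singleton] at hb0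
  obtain ⟨P0, rfl⟩ := h.sp_surj b0
  have hne : P0 ≠ P := by rintro rfl; exact hb0 rfl
  set m : ℤ := 2 * gen C L + 2 with hm
  set D : Pl C L →₀ ℤ := Finsupp.single P0 m - Finsupp.single P 1 with hD
  have hmap : D.mapDomain sp = Finsupp.single (sp P0) m - Finsupp.single (sp P) 1 := by
    have := map_sub (Finsupp.mapDomain.addMonoidHom sp) (Finsupp.single P0 m) (Finsupp.single P 1)
    simp only [Finsupp.mapDomain.addMonoidHom_apply, Finsupp.mapDomain_single] at this
    exact this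
  have hdeg : degD D = m - 1 := by
    rw [hD, degD_sub, degD_single, degD_single, degP_eq_one, degP_eq_one]; simp
  have e1 := ell_eq_of_lt (k := k) (K := κ) hc_of_isAlgClosed (D := D.mapDomain sp)
    (by rw [h.degD_map, h.gen_eq, hdeg]; omega)
  have e2 := ell_eq_of_lt (k := k) (K := κ) hc_of_isAlgClosed
    (D := D.mapDomain sp - Finsupp.single (sp P) 1)
    (by rw [degD_sub, h.degD_map, h.gen_eq, hdeg, degD_single, degP_eq_one]; push_cast; omega)
  rw [degD_sub, degD_single, degP_eq_one] at e2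
  have hex : ∃ z ∈ LD (D.mapDomain sp), z ∉ LD (D.mapDomain sp - Finsupp.single (sp P) 1) := by
    by_contra hcon
    push Not at hcon
    haveI := LD_finite (D.mapDomain sp - Finsupp.single (sp P) 1)
    have h1 : ell (D.mapDomain sp) ≤ ell (D.mapDomain sp - Finsupp.single (sp P) 1) :=
      Submodule.finrank_mono hcon
    push_cast at e2
    omega
  obtain ⟨z, hz1, hz2⟩ := hex
  obtain ⟨t, ht, hw, rfl⟩ := h.lift_LD (h.ell_eq_of_big (by rw [hdeg]; omega)).le hz1
  have hz0 : ρ t ≠ 0 := by rintro h0; rw [h0] at hz2; exact hz2 (zero_mem _)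
  have hw1 : w t = 1 := (h.rd.res.ne_zero_iff hw).mp hz0
  have ht0 : t ≠ 0 := by rintro rfl; simp at hw1
  rw [mem_LD_iff ht0] at ht
  rw [mem_LD_iff hz0] at hz1 hz2
  refine ⟨t, hw1, ?_, ?_, ?_⟩
  · intro Q hQ
    rw [v_le_one_iff ht0]
    have h1 := ht Q
    have hQ0 : P0 ≠ Q := by rintro rfl; exact hb0 hQ
    simp only [hD, Finsupp.add_apply, Finsupp.sub_apply, Finsupp.single_apply, if_neg hQ0,
      Finsupp.zero_apply] at h1
    split_ifs at h1 <;> omega
  · have h1 := hz1 (sp P)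
    have h2 : ¬ (0 ≤ (D.mapDomain sp - Finsupp.single (sp P) 1 + divf (k := k) (ρ t) :
        Pl k κ →₀ ℤ) (sp P)) := by
      intro h3
      apply hz2
      intro c
      by_cases hc : c = sp P
      · rw [hc]; exact h3
      · have h4 := hz1 c
        simp only [Finsupp.add_apply, Finsupp.sub_apply, Finsupp.single_apply, if_neg (Ne.symm hc),
          Finsupp.zero_apply] at h4 ⊢
        omega
    simp only [hmap, Finsupp.add_apply, Finsupp.sub_apply, Finsupp.single_apply, if_neg hb0,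
      Finsupp.zero_apply, if_true] at h1 h2
    omega
  · rw [v_lt_one_iff ht0]
    have h1 := ht P
    simp only [hD, Finsupp.add_apply, Finsupp.sub_apply, Finsupp.single_apply, if_neg hne,
      Finsupp.zero_apply, if_true] at h1
    omega

end Good

end good

section inj

variable {C : Type*} [Field C] [IsAlgClosed C] {L : Type*} [Field L] [Algebra C L]
  [Algebra (RatFunc C) L] [IsScalarTower C (RatFunc C) L] [FiniteDimensional (RatFunc C) L]
  [Algebra.IsSeparable (RatFunc C) L]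
  {k κ : Type*} [Field k] [IsAlgClosed k] [Field κ] [Algebra k κ]
  [Algebra (RatFunc k) κ] [IsScalarTower k (RatFunc k) κ] [FiniteDimensional (RatFunc k) κ]
  [Algebra.IsSeparable (RatFunc k) κ]

namespace Good

variable {vC : Valuation C ℝ≥0} {ρC : C → k} {w : Valuation L ℝ≥0} {ρ : L → κ}
  {sp : Pl C L → Pl k κ} (h : Good vC ρC w ρ sp)

include h

theorem res_natCast (n : ℕ) : ρ (n : L) = (n : κ) := by
  induction n with
  | zero => simp [h.rd.res.zero]
  | succ n ih =>
    have hn : w (n : L) ≤ 1 := by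
      have : (n : L) ∈ w.integer := natCast_mem _ n
      exact this
    push_cast
    rw [h.rd.res.add _ _ hn (by simp), ih, h.rd.res.one]

/-- recentring of a local parameter -/
theorem shift_param {b : Pl k κ} {t : L} (ht : w t = 1) (hr : Reg sp b t)
    (hb : divf (k := k) (ρ t) b = 1) {P' : Pl C L} (hP' : sp P' = b) :
    vC (ev P' t) < 1 ∧ w (t - algebraMap C L (ev P' t)) = 1 ∧
      ρ (t - algebraMap C L (ev P' t)) = ρ t := by
  subst hP'
  have h1 := h.ev_le_one ht.le hr
  have h2 := h.res_ev ht.le hr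
  have h3 : (sp P').v (ρ t) < 1 := by rw [v_lt_one_iff (h.res_ne ht)]; omega
  rw [(ev_eq_zero_iff _ h3.le).mpr h3] at h2
  have h4 := (h.rd.resC.zero_iff _ h1).mp h2
  have h5 : w (algebraMap C L (ev P' t)) < 1 := by rw [h.rd.norm]; exact h4
  refine ⟨h4, ?_, ?_⟩
  · rw [Valuation.map_sub_eq_of_lt_left w (by rw [ht]; exact h5), ht]
  · rw [h.rd.res.sub ht.le h5.le, (h.rd.res.zero_iff _ h5.le).mpr h5, sub_zero]

/-- the local computation -/
theorem loc [DecidableEq (Pl C L)] {n : ℕ} (hn : (n : k) ≠ 0) {P P' : Pl C L} (hP' : sp P' = sp P)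
    {F : L} (hF : w F = 1)
    (hdiv : ∀ R, sp R = sp P → divf (k := C) F R
      = n * ((if R = P' then 1 else 0) - (if R = P then 1 else 0)))
    {a c : C} (hc0 : c ≠ 0) (hu : w ((F - algebraMap C L a) * algebraMap C L c⁻¹) = 1) :
    (sp P).v (ρ ((F - algebraMap C L a) * algebraMap C L c⁻¹)) ≤ exp 1 := by
  obtain ⟨t, ht, hr, hb, hz⟩ := h.exists_param P
  obtain ⟨hε, ht', hρ'⟩ := h.shift_param ht hr hb hP'
  set ε := ev P' t with hεdef
  set t' := t - algebraMap C L ε with ht'def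
  have hr' : Reg sp (sp P) t' := hr.sub (Reg.const _)
  have hz' : P'.v t' < 1 := ev_spec P' (hr P' hP')
  have d1 := h.divf_of_simple ht hr hb rfl hz
  have d2 := h.divf_of_simple ht' hr' (by rw [hρ']; exact hb) hP' hz'
  have ht0 : t ≠ 0 := by rintro h0; rw [h0] at ht; simp at ht
  have ht'0 : t' ≠ 0 := by rintro h0; rw [h0] at ht'; simp at ht'
  have hF0 : F ≠ 0 := by rintro h0; rw [h0] at hF; simp at hF
  set g := F * (t / t') ^ n with hg
  have hg0 : g ≠ 0 := mul_ne_zero hF0 (pow_ne_zero _ (div_ne_zero ht0 ht'0))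
  have hwg : w g = 1 := by rw [hg, map_mul, map_pow, map_div₀, hF, ht, ht']; simp
  have hgdiv : ∀ R, sp R = sp P → divf (k := C) g R = 0 := by
    intro R hR
    rw [hg, divf_mul hF0 (pow_ne_zero _ (div_ne_zero ht0 ht'0)), divf_pow (div_ne_zero ht0 ht'0),
      divf_div ht0 ht'0, Finsupp.add_apply, Finsupp.smul_apply, Finsupp.sub_apply, hdiv R hR]
    have e1 : divf (k := C) t R = if R = P then 1 else 0 := by
      split_ifs with h1
      · rw [h1]; exact d1.1
      · exact d1.2 R hR h1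
    have e2 : divf (k := C) t' R = if R = P' then 1 else 0 := by
      split_ifs with h1
      · rw [h1]; exact d2.1
      · exact d2.2 R hR h1
    rw [e1, e2, nsmul_eq_mul]; ring
  have hgr : Reg sp (sp P) g := fun R hR => by rw [v_le_one_iff hg0, hgdiv R hR]
  have hgb : (sp P).v (ρ g) = 1 := by
    rw [v_eq_one_iff (h.res_ne hwg), h.spp g hwg,
      mapDomain_congr_fibre _ 0 sp (fun R hR => by rw [hgdiv R hR]; rfl)]
    simp
  set e := algebraMap C L ε with he
  have hwe : w e < 1 := by rw [he, h.rd.norm]; exact hε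
  have hws : w t⁻¹ = 1 := by rw [map_inv₀, ht, inv_one]
  obtain ⟨r, hr1, hbin⟩ := binom_two w (x := e * t⁻¹)
    (by rw [map_mul, hws, mul_one]; exact hwe.le) n
  have hFg : F = g * (1 - e * t⁻¹) ^ n := by
    have h1 : 1 - e * t⁻¹ = t' / t := by rw [ht'def]; field_simp
    rw [h1, hg, mul_assoc, ← mul_pow, div_mul_div_comm, mul_comm t t', div_self
      (mul_ne_zero ht'0 ht0), one_pow, mul_one]
  have hwn : w (n : L) ≤ 1 := by
    have : (n : L) ∈ w.integer := natCast_mem _ n
    exact this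
  have hsb : (sp P).v (ρ t⁻¹) = exp 1 := by
    rw [h.rd.res.inv ht, map_inv₀, v_eq (h.res_ne ht), hb, ← exp_neg, neg_neg]
  set A := algebraMap C L a with hA
  set ci := algebraMap C L c⁻¹ with hci
  have hwm : w ((n : L) * t⁻¹ * g) ≤ 1 := by
    rw [map_mul, map_mul, hws, hwg, mul_one, mul_one]; exact hwn
  have hρm : (sp P).v (ρ ((n : L) * t⁻¹ * g)) = exp 1 := by
    rw [h.rd.res.mul _ _ (by rw [map_mul, hws, mul_one]; exact hwn) hwg.le,
      h.rd.res.mul _ _ hwn hws.le, map_mul, map_mul, hgb, hsb, h.res_natCast,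
      ← map_natCast (algebraMap k κ), (sp P).const _ hn]
    simp
  have hwr : w (t⁻¹ ^ 2 * r * g) ≤ 1 := by
    rw [map_mul, map_mul, map_pow, hws, hwg]; simpa using hr1
  by_cases hcase : vC ε ≤ vC c
  · have hpos : 0 < vC c := by rw [Valuation.pos_iff]; exact hc0
    have hq : w (e * ci) ≤ 1 := by
      rw [he, hci, map_mul, h.rd.norm, h.rd.norm, map_inv₀, mul_inv_le_iff₀ hpos, one_mul]
      exact hcase
    have hid : (g - A) * ci = (F - A) * ci + (e * ci) * ((n : L) * t⁻¹ * g)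
        - e * ((e * ci) * (t⁻¹ ^ 2 * r * g)) := by
      rw [hFg, hbin]; ring
    have w2 : w ((e * ci) * ((n : L) * t⁻¹ * g)) ≤ 1 := by
      rw [map_mul]; exact mul_le_one' hq hwm
    have w3 : w (e * ((e * ci) * (t⁻¹ ^ 2 * r * g))) < 1 := by
      rw [map_mul]
      exact mul_lt_one_of_lt_of_le hwe (by rw [map_mul]; exact mul_le_one' hq hwr)
    have w12 : w ((F - A) * ci + (e * ci) * ((n : L) * t⁻¹ * g)) ≤ 1 :=
      (Valuation.map_add _ _ _).trans (max_le hu.le w2)
    have w1 : w ((g - A) * ci) ≤ 1 := by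
      rw [hid]; exact (Valuation.map_sub _ _ _).trans (max_le w12 w3.le)
    have r1 := h.reg_res w1 ((hgr.sub (Reg.const a)).mul (Reg.const c⁻¹))
    rw [hid, h.rd.res.sub w12 w3.le, (h.rd.res.zero_iff _ w3.le).mpr w3, sub_zero,
      h.rd.res.add _ _ hu.le w2] at r1
    have r2 : (sp P).v (ρ ((e * ci) * ((n : L) * t⁻¹ * g))) ≤ exp 1 := by
      rw [h.rd.res.mul _ _ hq hwm, map_mul, hρm, he, hci, ← map_mul, h.rd.comp _ (by
        rw [← h.rd.norm, map_mul]; exact hq)]
      exact mul_le_of_le_one_left' (v_const_le _ _)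
    have h9 : ρ ((F - A) * ci) = (ρ ((F - A) * ci) + ρ ((e * ci) * ((n : L) * t⁻¹ * g)))
        - ρ ((e * ci) * ((n : L) * t⁻¹ * g)) := by ring
    rw [h9]
    refine (Valuation.map_sub _ _ _).trans (max_le (r1.trans ?_) r2)
    rw [← exp_zero, exp_le_exp]; norm_num
  · exfalso
    push Not at hcase
    have hε0 : ε ≠ 0 := by
      rintro h0; rw [h0, map_zero] at hcase; exact not_lt_of_ge zero_le hcase
    have he0 : e ≠ 0 := by rw [he]; simpa using hε0
    have hci0 : ci ≠ 0 := by rw [hci]; simpa using hc0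
    have hpos : 0 < vC ε := by rw [Valuation.pos_iff]; exact hε0
    have hq : w (ci⁻¹ * e⁻¹) < 1 := by
      rw [map_mul, map_inv₀ w, map_inv₀ w, he, hci, h.rd.norm, h.rd.norm, map_inv₀, inv_inv,
        mul_inv_lt_iff₀ hpos, one_mul]
      exact hcase
    have hid : (g - A) * algebraMap C L ε⁻¹ = (n : L) * t⁻¹ * g +
        ((ci⁻¹ * e⁻¹) * ((F - A) * ci) - e * (t⁻¹ ^ 2 * r * g)) := by
      rw [map_inv₀, ← he, hFg, hbin]; field_simp; ring
    have w3 : w ((ci⁻¹ * e⁻¹) * ((F - A) * ci) - e * (t⁻¹ ^ 2 * r * g)) < 1 := by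
      refine lt_of_le_of_lt (Valuation.map_sub _ _ _) (max_lt ?_ ?_)
      · rw [map_mul]; exact mul_lt_one_of_lt_of_le hq hu.le
      · rw [map_mul]; exact mul_lt_one_of_lt_of_le hwe hwr
    have w1 : w ((g - A) * algebraMap C L ε⁻¹) ≤ 1 := by
      rw [hid]; exact (Valuation.map_add _ _ _).trans (max_le hwm w3.le)
    have r1 := h.reg_res w1 ((hgr.sub (Reg.const a)).mul (Reg.const ε⁻¹))
    rw [hid, h.rd.res.add _ _ hwm w3.le, (h.rd.res.zero_iff _ w3.le).mpr w3, add_zero, hρm,
      ← exp_zero, exp_le_exp] at r1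
    omega

/-- two effective divisors over a non special reduced divisor whose difference is `n`-torsion agree -/
theorem eq_of_torsion {n : ℕ} (hn : (n : k) ≠ 0) {T : Finset (Pl k κ)} (hT : ell (sumD T) ≤ 1)
    {E Q : Pl C L →₀ ℤ} (hE : 0 ≤ E) (hQ : 0 ≤ Q) (hE' : E.mapDomain sp = sumD T)
    (hQ' : Q.mapDomain sp = sumD T) {f : L} (hf : f ≠ 0)
    (hdiv : divf (k := C) f = n • (E - Q)) : E = Q := by
  classical
  have hn0 : n ≠ 0 := by rintro rfl; simp at hn
  obtain ⟨c0, hc0, -, hF⟩ := h.rd.normalise hf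
  set F := f * algebraMap C L c0⁻¹ with hFdef
  have hF0 : F ≠ 0 := by rintro h0; rw [h0] at hF; simp at hF
  have hdivF : divf (k := C) F = n • (E - Q) := by
    rw [hFdef, divf_mul hf (by simpa using hc0), divf_const (inv_ne_zero hc0), add_zero, hdiv]
  by_cases hconst : F ∈ Set.range (algebraMap C L)
  · obtain ⟨c, hc⟩ := hconst
    have hc' : c ≠ 0 := by rintro rfl; rw [map_zero] at hc; exact hF0 hc.symm
    rw [← hc, divf_const hc'] at hdivF
    ext P
    have h1 := DFunLike.congr_fun hdivF P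
    rw [Finsupp.smul_apply, Finsupp.sub_apply, nsmul_eq_mul, Finsupp.zero_apply] at h1
    have h2 : (n : ℤ) ≠ 0 := by exact_mod_cast hn0
    have h3 := (mul_eq_zero.mp h1.symm).resolve_left h2
    omega
  exfalso
  obtain ⟨a, c, hc, hu, hρ⟩ := exists_good_lift h.rd exists_notMem_range
    (transcendental_of_notMem hconst)
  apply hρ
  apply mem_range_of_LD (sumD_nonneg T) hT
  rw [mem_LD]
  intro b
  rw [sumD_apply]
  split_ifs with hb
  · obtain ⟨P, hP, hPQ⟩ := fibre_single hQ sp (b := b) (by rw [hQ', sumD_apply, if_pos hb])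
    obtain ⟨P', hP', hPE⟩ := fibre_single hE sp (b := b) (by rw [hE', sumD_apply, if_pos hb])
    subst hP
    refine h.loc hn hP' hF ?_ hc hu
    intro R hR
    rw [hdivF, Finsupp.smul_apply, Finsupp.sub_apply, nsmul_eq_mul, hPQ R hR, hPE R hR]
  · rw [exp_zero]
    refine h.reg_res hu.le ((Reg.sub ?_ (Reg.const a)).mul (Reg.const _))
    intro R hR
    rw [v_le_one_iff hF0, hdivF, Finsupp.smul_apply, Finsupp.sub_apply,
      fibre_zero hE sp (by rw [hE', sumD_apply, if_neg hb]) hR,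
      fibre_zero hQ sp (by rw [hQ', sumD_apply, if_neg hb]) hR]
    simp

/-- lifts of a reduced divisor -/
theorem exists_lift_sumD (T : Finset (Pl k κ)) :
    ∃ Q : Pl C L →₀ ℤ, 0 ≤ Q ∧ Q.mapDomain sp = sumD T := by
  classical
  choose l hl using h.sp_surj
  refine ⟨(sumD T).mapDomain l, mapDomain_nonneg (sumD_nonneg T) l, ?_⟩
  rw [← Finsupp.mapDomain_comp]
  have : sp ∘ l = id := funext hl
  rw [this, Finsupp.mapDomain_id]

/-- a class with trivial reduction is represented by `E - Q` -/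
theorem exists_move {T : Finset (Pl k κ)} (hcard : T.card = gen k κ) (hT : ell (sumD T) ≤ 1)
    {Q : Pl C L →₀ ℤ} (hQ' : Q.mapDomain sp = sumD T) {D : Pl C L →₀ ℤ} {z : κ} (hz : z ≠ 0)
    (hD : D.mapDomain sp = divf (k := k) z) :
    ∃ x : L, x ≠ 0 ∧ 0 ≤ D + Q + divf (k := C) x ∧
      (D + Q + divf (k := C) x).mapDomain sp = sumD T := by
  have hdeg : degD (D + Q) = gen C L := by
    rw [← h.degD_map, Finsupp.mapDomain_add, degD_add, hD, hQ', degD_divf hz, degD_sumD, hcard,
      h.gen_eq, zero_add]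
  obtain ⟨x0, hx0, hx⟩ := exists_mem_LD hdeg.ge
  obtain ⟨c0, hc0, -, hw⟩ := h.rd.normalise hx0
  set x := x0 * algebraMap C L c0⁻¹ with hxdef
  have hx' : x ∈ LD (D + Q) := by
    rw [hxdef, mul_comm, ← Algebra.smul_def]; exact Submodule.smul_mem _ _ hx
  have hxne : x ≠ 0 := by rintro h0; rw [h0] at hw; simp at hw
  refine ⟨x, hxne, (mem_LD_iff hxne).mp hx', ?_⟩
  have h1 := h.res_mem_LD hx' hw.le
  have hρ := h.res_ne hw
  rw [Finsupp.mapDomain_add, hD, hQ', mem_LD_iff hρ] at h1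
  have h2 : z * ρ x ∈ LD (sumD T) := by
    rw [mem_LD_iff (mul_ne_zero hz hρ), divf_mul hz hρ]
    convert h1 using 1; abel
  obtain ⟨e, he⟩ := mem_range_of_LD (sumD_nonneg T) hT h2
  have he0 : e ≠ 0 := by rintro rfl; rw [map_zero] at he; exact mul_ne_zero hz hρ he.symm
  have h3 := divf_const (K := κ) he0
  rw [he, divf_mul hz hρ] at h3
  rw [Finsupp.mapDomain_add, Finsupp.mapDomain_add, hD, hQ', ← h.spp x hw, add_right_comm, h3,
    zero_add]

/-- **reduction is injective on `n`-torsion** -/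
theorem inj_div {n : ℕ} (hn : (n : k) ≠ 0) {D : Pl C L →₀ ℤ} {f : L} (hf : f ≠ 0)
    (hdiv : divf (k := C) f = n • D) {z : κ} (hz : z ≠ 0)
    (hD : D.mapDomain sp = divf (k := k) z) : ∃ g : L, g ≠ 0 ∧ divf (k := C) g = D := by
  obtain ⟨T, hcard, -, hT⟩ := exists_nonspecial (0 : Pl k κ →₀ ℤ) degD_zero ∅
  rw [zero_add] at hT
  obtain ⟨Q, hQ, hQ'⟩ := h.exists_lift_sumD T
  obtain ⟨x, hx0, hE, hE'⟩ := h.exists_move hcard hT.le hQ' hz hD
  have h1 := h.eq_of_torsion hn hT.le hE hQ hE' hQ' (f := f * x ^ n)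
    (mul_ne_zero hf (pow_ne_zero _ hx0)) (by
      rw [divf_mul hf (pow_ne_zero _ hx0), divf_pow hx0, hdiv, ← nsmul_add]
      congr 1; abel)
  refine ⟨x⁻¹, inv_ne_zero hx0, ?_⟩
  rw [divf_inv hx0]
  have h2 : D + divf (k := C) x = 0 := by
    have h3 : D + divf (k := C) x + Q = 0 + Q := by rw [zero_add, add_right_comm]; exact h1
    exact add_right_cancel h3
  exact neg_eq_of_add_eq_zero_left h2

/-- orders at the cusps are divisible too -/
theorem dvd_divf {n : ℕ} {f : L} (hf : w f = 1) (S : Set (Pl C L)) (hS : Set.InjOn sp S)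
    (hdiv : ∀ P, P ∉ S → (n : ℤ) ∣ divf (k := C) f P) {z : κ} (hz : ρ f = z ^ n) (P : Pl C L) :
    (n : ℤ) ∣ divf (k := C) f P := by
  classical
  by_cases hP : P ∉ S
  · exact hdiv P hP
  push Not at hP
  by_cases hn0 : n = 0
  · subst hn0
    rw [pow_zero] at hz
    have h1 := h.spp f hf
    rw [hz, divf_one] at h1
    have h2 := mapDomain_congr_fibre (divf (k := C) f) (Finsupp.single P (divf (k := C) f P)) sp
      (b := sp P) (by
        intro R hR
        rw [Finsupp.single_apply]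
        split_ifs with h3
        · rw [h3]
        · have h4 : R ∉ S := fun h5 => h3 (hS hP h5 hR.symm)
          simpa using hdiv R h4)
    rw [← h1, Finsupp.mapDomain_single, Finsupp.single_eq_same, Finsupp.zero_apply] at h2
    rw [← h2]
    exact dvd_zero _
  have hz0 : z ≠ 0 := by
    rintro rfl
    rw [zero_pow hn0] at hz
    exact h.res_ne hf hz
  let D' : Pl C L →₀ ℤ := (divf (k := C) f).mapRange (fun m => m / (n : ℤ)) (by simp)
  have h2 := mapDomain_congr_fibre (divf (k := C) f)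
    (n • D' + Finsupp.single P (divf (k := C) f P % n)) sp (b := sp P) (by
      intro R hR
      rw [Finsupp.add_apply, Finsupp.smul_apply, Finsupp.single_apply, nsmul_eq_mul]
      show _ = (n : ℤ) * (divf (k := C) f R / n) + _
      split_ifs with h3
      · rw [h3]; exact (Int.mul_ediv_add_emod _ _).symm
      · have h4 : R ∉ S := fun h5 => h3 (hS hP h5 hR.symm)
        rw [add_zero, Int.mul_ediv_cancel' (hdiv R h4)])
  have h3 : (n • D').mapDomain sp = n • D'.mapDomain sp :=
    map_nsmul (Finsupp.mapDomain.addMonoidHom sp) n D'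
  rw [← h.spp f hf, hz, divf_pow hz0, Finsupp.mapDomain_add, h3, Finsupp.mapDomain_single,
    Finsupp.add_apply, Finsupp.single_eq_same, Finsupp.smul_apply, Finsupp.smul_apply,
    nsmul_eq_mul, nsmul_eq_mul] at h2
  apply Int.dvd_of_emod_eq_zero
  have h4 : (n : ℤ) ∣ divf (k := C) f P % n :=
    ⟨divf (k := k) z (sp P) - D'.mapDomain sp (sp P), by rw [mul_sub]; omega⟩
  have h5 := Int.emod_eq_zero_of_dvd h4
  rwa [Int.emod_emod] at h5

/-- **Kummer form** : if the orders of `f` off the cusps are divisible by `n` and the reduction of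
`f` is an `n`-th power then `f` is an `n`-th power -/
theorem inj_pow {n : ℕ} (hn : (n : k) ≠ 0) {f : L} (hf : w f = 1) (S : Set (Pl C L))
    (hS : Set.InjOn sp S) (hdiv : ∀ P, P ∉ S → (n : ℤ) ∣ divf (k := C) f P) {z : κ}
    (hz : ρ f = z ^ n) : ∃ g : L, f = g ^ n := by
  classical
  have hn0 : n ≠ 0 := by rintro rfl; simp at hn
  have hf0 : f ≠ 0 := by rintro rfl; simp at hf
  have hz0 : z ≠ 0 := by
    rintro rfl
    rw [zero_pow hn0] at hz
    exact h.res_ne hf hz
  have hall := h.dvd_divf hf S hS hdiv hz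
  let D : Pl C L →₀ ℤ := (divf (k := C) f).mapRange (fun m => m / (n : ℤ)) (by simp)
  have hD : divf (k := C) f = n • D := by
    ext R
    rw [Finsupp.smul_apply, nsmul_eq_mul]
    show _ = (n : ℤ) * (divf (k := C) f R / n)
    rw [Int.mul_ediv_cancel' (hall R)]
  have hD' : D.mapDomain sp = divf (k := k) z := by
    have h1 := h.spp f hf
    have h3 : (n • D).mapDomain sp = n • D.mapDomain sp :=
      map_nsmul (Finsupp.mapDomain.addMonoidHom sp) n D
    rw [hz, divf_pow hz0, hD, h3] at h1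
    ext b
    have h2 := DFunLike.congr_fun h1 b
    rw [Finsupp.smul_apply, Finsupp.smul_apply, nsmul_eq_mul, nsmul_eq_mul] at h2
    exact (mul_left_cancel₀ (by exact_mod_cast hn0) h2).symm
  obtain ⟨g, hg0, hg⟩ := h.inj_div hn hf0 hD hz0 hD'
  have h1 : divf (k := C) (f / g ^ n) = 0 := by
    rw [divf_div hf0 (pow_ne_zero _ hg0), divf_pow hg0, hg, hD, sub_self]
  obtain ⟨c, hc⟩ := const_of_divf_zero (div_ne_zero hf0 (pow_ne_zero _ hg0)) h1
  obtain ⟨e, he⟩ := IsAlgClosed.exists_pow_nat_eq c (Nat.pos_of_ne_zero hn0)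
  refine ⟨algebraMap C L e * g, ?_⟩
  rw [mul_pow, ← map_pow, he, hc, div_mul_cancel₀ _ (pow_ne_zero _ hg0)]

end Good

end inj

end Crest.Agent.T15.Id
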