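import Mathlib
import Crest.Agent.T15.Sp_90
import Crest.Agent.T15.IdG_11

/-!
# Row 15, block F/Ht (helper77): the Gauss norm of `w ^ 2 = F(x)` and naive good reduction

* `Md` : a ring of integral functions with a reduction map gives a norm and a residue map;
* `NR` : a norm `W` of `K = C(x, w)` with `res x = xb`, `res w = H(xb) wb`; existence, uniqueness,
  orthonormal bases, invariance under semilinear automorphisms, the residual action.
-/

set_option autoImplicit false
set_option linter.all false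

namespace Crest.Agent.T15.Ng

open Polynomial WithZero Module
open scoped NNReal
open Crest.Agent.R013.GR4_921 Crest.Agent.R013.GR6_921
open Crest.Agent.T15.Hy

section abs

variable {C K k κ S : Type*} [Field C] [Field K] [Algebra C K] [Field k] [Field κ] [Algebra k κ]
  [CommRing S] {v : Valuation C ℝ≥0} {ρC : C → k}

/-- the residue map as a ring homomorphism -/
def resHom (h : IsRes v ρC) : v.integer →+* k where
  toFun a := ρC a
  map_one' := h.one
  map_mul' a b := h.mul a b a.2 b.2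
  map_zero' := h.zero
  map_add' a b := h.add a b a.2 b.2

theorem resHom_apply (h : IsRes v ρC) (a : v.integer) : resHom h a = ρC a := rfl

theorem rd_resHom (h : IsRes v ρC) : Rd (resHom h) :=
  ⟨fun y => by obtain ⟨x, hx, rfl⟩ := h.surj y; exact ⟨⟨x, hx⟩, rfl⟩, fun a => h.zero_iff a a.2⟩

theorem rC_resHom (h : IsRes v ρC) {c : C} (hc : v c ≤ 1) : rC (resHom h) c = ρC c := by
  unfold rC; rw [dif_pos hc]; rfl

theorem exists_mul {s t : C} (h : v t ≤ v s) : ∃ c : v.integer, t = c * s := by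
  by_cases hs : s = 0
  · refine ⟨0, ?_⟩
    rw [hs, map_zero, le_zero_iff, Valuation.zero_iff] at h
    simp [h]
  · have h0 : 0 < v s := (Valuation.pos_iff v).mpr hs
    exact ⟨⟨t / s, show v (t / s) ≤ 1 by rw [map_div₀]; exact (div_le_one₀ h0).mpr h⟩,
      (div_mul_cancel₀ t hs).symm⟩

/-- a ring `S` of integral functions (`ι`) with its reduction (`φ`) -/
structure Md (h : IsRes v ρC) (j : v.integer →+* S) (ι : S →+* K) (φ : S →+* κ) : Prop where
  ij : ∀ c, ι (j c) = algebraMap C K c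
  pj : ∀ c, φ (j c) = algebraMap k κ (ρC c)
  ker : ∀ u, ι u = 0 → φ u = 0
  up : ∀ f : K, ∃ (s : C) (u u' : S), φ u ≠ 0 ∧ φ u' ≠ 0 ∧ f * ι u' = algebraMap C K s * ι u
  down : ∀ y : κ, ∃ u u' : S, φ u' ≠ 0 ∧ y * φ u' = φ u

/-- `f` is `s` times a unit -/
def Rp (ι : S →+* K) (φ : S →+* κ) (f : K) (s : C) : Prop :=
  ∃ u u' : S, φ u ≠ 0 ∧ φ u' ≠ 0 ∧ f * ι u' = algebraMap C K s * ι u

namespace Md

variable {h : IsRes v ρC} {j : v.integer →+* S} {ι : S →+* K} {φ : S →+* κ} (m : Md h j ι φ)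
include m

theorem le_of {f : K} {s t : C} (ht : Rp ι φ f t) {u u' : S} (hu : φ u' ≠ 0)
    (e : f * ι u' = algebraMap C K s * ι u) : v t ≤ v s := by
  by_contra hlt
  push Not at hlt
  obtain ⟨a, a', ha, -, e'⟩ := ht
  obtain ⟨c, hc⟩ := exists_mul hlt.le
  have ht0 : t ≠ 0 := by rintro rfl; simp at hlt
  have hc1 : v (c : C) < 1 := by
    rw [hc, map_mul] at hlt
    by_contra h1
    exact absurd hlt (not_lt.mpr (le_mul_of_one_le_left' (not_lt.mp h1)))
  have h1 : ι (a * u' - j c * (u * a')) = 0 := by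
    have h2 : algebraMap C K t ≠ 0 := by simpa using ht0
    apply mul_left_cancel₀ h2
    rw [hc, map_mul] at e
    simp only [map_sub, map_mul, m.ij]
    linear_combination ι a' * e - ι u' * e'
  have h2 := m.ker _ h1
  rw [map_sub, map_mul, map_mul, m.pj, (h.zero_iff _ c.2).mpr hc1, map_zero, zero_mul,
    sub_zero] at h2
  exact mul_ne_zero ha hu h2

theorem rp_eq {f : K} {s t : C} (hs : Rp ι φ f s) (ht : Rp ι φ f t) : v s = v t := by
  have h1 := hs
  have h2 := ht
  obtain ⟨u, u', -, hu, e⟩ := h1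
  obtain ⟨a, a', -, ha, e'⟩ := h2
  exact le_antisymm (m.le_of hs ha e') (m.le_of ht hu e)

theorem exists_rp (f : K) : ∃ s : C, Rp ι φ f s := m.up f

theorem w0_eq {f : K} {s : C} (hs : Rp ι φ f s) : v (m.exists_rp f).choose = v s :=
  m.rp_eq (m.exists_rp f).choose_spec hs

theorem add_le {f g : K} {s t r : C} (hs : Rp ι φ f s) (ht : Rp ι φ g t) (hr : Rp ι φ (f + g) r)
    (hle : v t ≤ v s) : v r ≤ v s := by
  obtain ⟨u, u', -, hu, e⟩ := hs
  obtain ⟨a, a', -, ha, e'⟩ := ht
  obtain ⟨c, hc⟩ := exists_mul hle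
  refine m.le_of hr (u := u * a' + j c * (a * u')) (u' := u' * a')
    (by rw [map_mul]; exact mul_ne_zero hu ha) ?_
  rw [hc, map_mul] at e'
  simp only [map_add, map_mul, m.ij]
  linear_combination ι a' * e + ι u' * e'

/-- the norm -/
noncomputable def W : Valuation K ℝ≥0 where
  toFun f := v (m.exists_rp f).choose
  map_zero' := (m.w0_eq (s := 0) ⟨1, 1, by simp, by simp, by simp⟩).trans (map_zero v)
  map_one' := (m.w0_eq (s := 1) ⟨1, 1, by simp, by simp, by simp⟩).trans (map_one v)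
  map_mul' f g := by
    obtain ⟨u, u', h1, h2, e⟩ := (m.exists_rp f).choose_spec
    obtain ⟨a, a', h3, h4, e'⟩ := (m.exists_rp g).choose_spec
    rw [← map_mul]
    refine m.w0_eq ⟨u * a, u' * a', by rw [map_mul]; exact mul_ne_zero h1 h3,
      by rw [map_mul]; exact mul_ne_zero h2 h4, ?_⟩
    simp only [map_mul]
    linear_combination (g * ι a') * e + (algebraMap C K (m.exists_rp f).choose * ι u) * e'
  map_add_le_max' f g := by
    rcases le_total (v (m.exists_rp g).choose) (v (m.exists_rp f).choose) with h1 | h1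
    · exact (m.add_le (m.exists_rp f).choose_spec (m.exists_rp g).choose_spec
        (m.exists_rp _).choose_spec h1).trans (le_max_left _ _)
    · refine (m.add_le (m.exists_rp g).choose_spec (m.exists_rp f).choose_spec
        (by rw [add_comm g f]; exact (m.exists_rp _).choose_spec) h1).trans (le_max_right _ _)

theorem W_eq {f : K} {s : C} (hs : Rp ι φ f s) : m.W f = v s := m.w0_eq hs

omit m in
variable (ι φ) in
/-- the residue map -/
noncomputable def res (f : K) : κ :=
  φ (Classical.epsilon fun p : S × S => φ p.2 ≠ 0 ∧ f * ι p.2 = ι p.1).1 /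
    φ (Classical.epsilon fun p : S × S => φ p.2 ≠ 0 ∧ f * ι p.2 = ι p.1).2

theorem res_eq {f : K} {u u' : S} (hu : φ u' ≠ 0) (e : f * ι u' = ι u) :
    res ι φ f = φ u / φ u' := by
  have hp := Classical.epsilon_spec (p := fun p : S × S => φ p.2 ≠ 0 ∧ f * ι p.2 = ι p.1)
    ⟨(u, u'), hu, e⟩
  unfold res
  generalize (Classical.epsilon fun p : S × S => φ p.2 ≠ 0 ∧ f * ι p.2 = ι p.1) = p at hp
  have h1 := m.ker (p.1 * u' - u * p.2) (by
    simp only [map_sub, map_mul]; linear_combination ι p.2 * e - ι u' * hp.2)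
  rw [div_eq_div_iff hp.1 hu]
  simp only [map_sub, map_mul] at h1
  exact sub_eq_zero.mp h1

theorem le_one_iff {f : K} : m.W f ≤ 1 ↔ ∃ u u' : S, φ u' ≠ 0 ∧ f * ι u' = ι u := by
  obtain ⟨s, hs⟩ := m.exists_rp f
  rw [m.W_eq hs]
  constructor
  · intro h1
    obtain ⟨u, u', -, hu, e⟩ := hs
    exact ⟨j ⟨s, h1⟩ * u, u', hu, by rw [map_mul, m.ij]; exact e⟩
  · rintro ⟨u, u', hu, e⟩
    have := m.le_of (s := 1) hs (u := u) hu (by simpa using e)
    rwa [map_one] at this

theorem W_le (u : S) : m.W (ι u) ≤ 1 := m.le_one_iff.mpr ⟨u, 1, by simp, by simp⟩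

theorem res_ι (u : S) : res ι φ (ι u) = φ u := by
  rw [m.res_eq (u := u) (u' := 1) (by simp) (by simp)]; simp

theorem isRes : IsRes m.W (res ι φ) where
  add f g hf hg := by
    obtain ⟨u, u', hu, e⟩ := m.le_one_iff.mp hf
    obtain ⟨a, a', ha, e'⟩ := m.le_one_iff.mp hg
    rw [m.res_eq hu e, m.res_eq ha e', m.res_eq (u := u * a' + a * u') (u' := u' * a')
      (by rw [map_mul]; exact mul_ne_zero hu ha)
      (by simp only [map_add, map_mul]; linear_combination ι a' * e + ι u' * e')]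
    simp only [map_add, map_mul]
    field_simp
  mul f g hf hg := by
    obtain ⟨u, u', hu, e⟩ := m.le_one_iff.mp hf
    obtain ⟨a, a', ha, e'⟩ := m.le_one_iff.mp hg
    rw [m.res_eq hu e, m.res_eq ha e', m.res_eq (u := u * a) (u' := u' * a')
      (by rw [map_mul]; exact mul_ne_zero hu ha)
      (by simp only [map_mul]; linear_combination (g * ι a') * e + ι u * e')]
    simp only [map_mul]
    field_simp
  one := by have := m.res_ι 1; rwa [map_one, map_one] at this
  zero_iff f hf := by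
    obtain ⟨s, hs⟩ := m.exists_rp f
    rw [m.W_eq hs] at hf ⊢
    obtain ⟨u, u', h0, hu, e⟩ := hs
    rw [m.res_eq (u := j ⟨s, hf⟩ * u) hu (by rw [map_mul, m.ij]; exact e), map_mul, m.pj,
      ← h.zero_iff s hf]
    simp [h0, hu]
  surj y := by
    obtain ⟨u, u', hu, e⟩ := m.down y
    have h0 : ι u' ≠ 0 := fun h0 => hu (m.ker _ h0)
    have e' : ι u / ι u' * ι u' = ι u := div_mul_cancel₀ _ h0
    exact ⟨ι u / ι u', m.le_one_iff.mpr ⟨u, u', hu, e'⟩, by
      rw [m.res_eq hu e', ← e, mul_div_cancel_right₀ _ hu]⟩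

theorem red : Red v ρC m.W (res ι φ) where
  resC := h
  res := m.isRes
  norm c := m.W_eq ⟨1, 1, by simp, by simp, by simp⟩
  comp c hc := by
    have := m.res_ι (j ⟨c, hc⟩)
    rwa [m.ij, m.pj] at this
  val f _ := by obtain ⟨s, hs⟩ := m.exists_rp f; exact ⟨s, m.W_eq hs⟩

end Md

/-- homomorphisms from `R[√a]` -/
def qh {R T : Type*} [CommRing R] [CommRing T] {a : R} (ψ : R →+* T) (t : T) (ht : t ^ 2 = ψ a) :
    QuadraticAlgebra R a 0 →+* T where
  toFun u := ψ u.re + ψ u.im * t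
  map_one' := by
    show ψ 1 + ψ 0 * t = 1
    simp
  map_mul' u u' := by
    simp only [QuadraticAlgebra.re_mul, QuadraticAlgebra.im_mul, map_add, map_mul, map_zero]
    linear_combination (-(ψ u.im * ψ u'.im)) * ht
  map_zero' := by simp
  map_add' u u' := by
    simp only [QuadraticAlgebra.re_add, QuadraticAlgebra.im_add, map_add]; ring

theorem qh_apply {R T : Type*} [CommRing R] [CommRing T] {a : R} (ψ : R →+* T) (t : T)
    (ht : t ^ 2 = ψ a) (u : QuadraticAlgebra R a 0) : qh ψ t ht u = ψ u.re + ψ u.im * t := rfl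

end abs

section poly

variable {C k : Type*} [Field C] [Field k] {v : Valuation C ℝ≥0} {ρC : C → k}

/-- integral coefficients -/
def IntP (v : Valuation C ℝ≥0) (A : C[X]) : Prop := ∀ i, v (A.coeff i) ≤ 1

theorem coeff_rp (h : IsRes v ρC) (A : C[X]) (n : ℕ) : (redP ρC A).coeff n = ρC (A.coeff n) := by
  unfold redP
  rw [finsetSum_coeff]
  simp only [coeff_C_mul_X_pow]
  rw [Finset.sum_ite_eq]
  split_ifs with hn
  · rfl
  · rw [coeff_eq_zero_of_natDegree_lt (by simpa [Nat.lt_succ_iff] using hn), h.zero]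

theorem intP_map (A : v.integer[X]) : IntP v (A.map v.integer.subtype) := fun i => by
  rw [coeff_map]; exact (A.coeff i).2

theorem redP_map (h : IsRes v ρC) (A : v.integer[X]) :
    redP ρC (A.map v.integer.subtype) = A.map (resHom h) := by
  ext n; rw [coeff_rp h, coeff_map, coeff_map]; rfl

theorem IntP.lift {A : C[X]} (hA : IntP v A) : ∃ A' : v.integer[X], A'.map v.integer.subtype = A := by
  have : A ∈ Polynomial.lifts v.integer.subtype :=
    (lifts_iff_coeff_lifts A).mpr fun n => ⟨⟨_, hA n⟩, rfl⟩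
  exact (mem_lifts A).mp this

theorem IntP.add {A B : C[X]} (hA : IntP v A) (hB : IntP v B) : IntP v (A + B) := by
  obtain ⟨A, rfl⟩ := hA.lift; obtain ⟨B, rfl⟩ := hB.lift
  rw [← Polynomial.map_add]; exact intP_map _

theorem IntP.mul {A B : C[X]} (hA : IntP v A) (hB : IntP v B) : IntP v (A * B) := by
  obtain ⟨A, rfl⟩ := hA.lift; obtain ⟨B, rfl⟩ := hB.lift
  rw [← Polynomial.map_mul]; exact intP_map _

theorem IntP.neg {A : C[X]} (hA : IntP v A) : IntP v (-A) := fun i => by
  rw [coeff_neg, Valuation.map_neg]; exact hA i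

theorem IntP.sub {A B : C[X]} (hA : IntP v A) (hB : IntP v B) : IntP v (A - B) := by
  rw [sub_eq_add_neg]; exact hA.add hB.neg

theorem intP_C {c : C} (hc : v c ≤ 1) : IntP v (Polynomial.C c) := fun i => by
  rw [coeff_C]; split_ifs <;> simp [hc]

theorem intP_X : IntP v (X : C[X]) := fun i => by
  rw [coeff_X]; split_ifs <;> simp

theorem intP_zero : IntP v (0 : C[X]) := fun i => by simp

theorem intP_one : IntP v (1 : C[X]) := by rw [← C_1]; exact intP_C (by simp)

theorem IntP.pow {A : C[X]} (hA : IntP v A) (n : ℕ) : IntP v (A ^ n) := by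
  induction n with
  | zero => rw [pow_zero]; exact intP_one
  | succ n ih => rw [pow_succ]; exact ih.mul hA

theorem redP_add (h : IsRes v ρC) {A B : C[X]} (hA : IntP v A) (hB : IntP v B) :
    redP ρC (A + B) = redP ρC A + redP ρC B := by
  obtain ⟨A, rfl⟩ := hA.lift; obtain ⟨B, rfl⟩ := hB.lift
  rw [← Polynomial.map_add, redP_map h, redP_map h, redP_map h, Polynomial.map_add]

theorem redP_mul (h : IsRes v ρC) {A B : C[X]} (hA : IntP v A) (hB : IntP v B) :
    redP ρC (A * B) = redP ρC A * redP ρC B := by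
  obtain ⟨A, rfl⟩ := hA.lift; obtain ⟨B, rfl⟩ := hB.lift
  rw [← Polynomial.map_mul, redP_map h, redP_map h, redP_map h, Polynomial.map_mul]

theorem redP_neg (h : IsRes v ρC) {A : C[X]} (hA : IntP v A) : redP ρC (-A) = -redP ρC A := by
  ext n; rw [coeff_neg, coeff_rp h, coeff_rp h, coeff_neg, h.neg (hA n)]

theorem redP_sub (h : IsRes v ρC) {A B : C[X]} (hA : IntP v A) (hB : IntP v B) :
    redP ρC (A - B) = redP ρC A - redP ρC B := by
  rw [sub_eq_add_neg, redP_add h hA hB.neg, redP_neg h hB, sub_eq_add_neg]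

theorem redP_C (h : IsRes v ρC) (c : C) : redP ρC (Polynomial.C c) = Polynomial.C (ρC c) := by
  ext n; rw [coeff_rp h, coeff_C, coeff_C]; split_ifs <;> simp [h.zero]

theorem redP_X (h : IsRes v ρC) : redP ρC (X : C[X]) = X := by
  ext n; rw [coeff_rp h, coeff_X, coeff_X]; split_ifs <;> simp [h.zero, h.one]

theorem redP_zero (h : IsRes v ρC) : redP ρC (0 : C[X]) = 0 := by
  ext n; rw [coeff_rp h]; simp [h.zero]

theorem redP_one (h : IsRes v ρC) : redP ρC (1 : C[X]) = 1 := by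
  rw [← C_1, redP_C h, h.one, C_1]

theorem redP_pow (h : IsRes v ρC) {A : C[X]} (hA : IntP v A) (n : ℕ) :
    redP ρC (A ^ n) = redP ρC A ^ n := by
  induction n with
  | zero => rw [pow_zero, pow_zero, redP_one h]
  | succ n ih => rw [pow_succ, pow_succ, redP_mul h (hA.pow n) hA, ih]

theorem natDegree_redP_le (h : IsRes v ρC) (A : C[X]) : (redP ρC A).natDegree ≤ A.natDegree :=
  natDegree_le_iff_coeff_eq_zero.mpr fun n hn => by
    rw [coeff_rp h, coeff_eq_zero_of_natDegree_lt hn, h.zero]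

theorem redP_ne_iff (h : IsRes v ρC) {A : C[X]} (hA : IntP v A) :
    redP ρC A ≠ 0 ↔ ∃ i, v (A.coeff i) = 1 := by
  rw [ne_eq, Polynomial.ext_iff, not_forall]
  refine exists_congr fun i => ?_
  rw [coeff_rp h, coeff_zero, ← h.ne_zero_iff (hA i)]

theorem exists_redP (h : IsRes v ρC) (B : k[X]) : ∃ A : C[X], IntP v A ∧ redP ρC A = B := by
  obtain ⟨A, rfl⟩ := map_surjective (resHom h) (rd_resHom h).surj B
  exact ⟨_, intP_map A, redP_map h A⟩

/-- normalisation of a pair of polynomials -/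
theorem exists_prim' (h : IsRes v ρC) (A B : C[X]) : ∃ (s : C) (A' B' : C[X]), IntP v A' ∧
    IntP v B' ∧ (redP ρC A' ≠ 0 ∨ redP ρC B' ≠ 0) ∧ A = Polynomial.C s * A' ∧
      B = Polynomial.C s * B' := by
  by_cases hAB : A ≠ 0 ∨ B ≠ 0
  · obtain ⟨s, A', B', -, hA, hB, h1⟩ := exists_prim v A B hAB
    have aux : ∀ D : v.integer[X], (∃ i, D.coeff i = 1) →
        redP ρC (D.map v.integer.subtype) ≠ 0 := by
      rintro D ⟨i, hi⟩
      exact (redP_ne_iff h (intP_map D)).mpr ⟨i, by rw [coeff_map, hi]; simp⟩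
    exact ⟨s, _, _, intP_map A', intP_map B', h1.imp (aux _) (aux _), hA, hB⟩
  · push Not at hAB
    exact ⟨0, 1, 0, intP_one, intP_zero, Or.inl (by rw [redP_one h]; exact one_ne_zero),
      by simp [hAB.1], by simp [hAB.2]⟩

theorem IntP.map {A : C[X]} (hA : IntP v A) {s : C →+* C} (hs : ∀ c, v (s c) = v c) :
    IntP v (A.map s) := fun i => by rw [coeff_map, hs]; exact hA i

end poly

section hyp

variable {C K k κ : Type*} [Field C] [Field K] [Algebra C K] [Field k] [Field κ] [Algebra k κ]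
  {v : Valuation C ℝ≥0} {ρC : C → k}

theorem rep (h : IsRes v ρC) {F : C[X]} {x w : K} (hy : Hyp F x w) (f : K) :
    ∃ (s : C) (A B c : C[X]), IntP v A ∧ IntP v B ∧ IntP v c ∧
      (redP ρC A ≠ 0 ∨ redP ρC B ≠ 0) ∧ redP ρC c ≠ 0 ∧
      f * aeval x c = algebraMap C K s * el x w A B := by
  obtain ⟨A, B, c, hc, he⟩ := hy.gen f
  obtain ⟨s, A', B', hA, hB, h1, rfl, rfl⟩ := exists_prim' h A B
  obtain ⟨s', c', d', hc', -, h2, rfl, hd⟩ := exists_prim' h c 0
  have hs' : s' ≠ 0 := by rintro rfl; simp at hc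
  have hd' : d' = 0 := (mul_eq_zero.mp hd.symm).resolve_left (by simpa using hs')
  have h3 : redP ρC c' ≠ 0 := h2.resolve_right (by rw [hd', redP_zero h]; simp)
  refine ⟨s / s', A', B', c', hA, hB, hc', h1, h3, ?_⟩
  have h4 : algebraMap C K s' ≠ 0 := by simpa using hs'
  simp only [el, map_mul, aeval_C] at he
  rw [map_div₀]
  unfold el
  field_simp
  linear_combination he

/-- a norm of `K = C(x, w)` with `res x = xb` and `res w = H(xb) wb` -/
structure NR (v : Valuation C ℝ≥0) (ρC : C → k) (F : C[X]) (x w : K) (H E : k[X]) (xb wb : κ)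
    (W : Valuation K ℝ≥0) (res : K → κ) : Prop where
  hyp : Hyp F x w
  hyb : Hyp E xb wb
  int : IntP v F
  red : redP ρC F = H ^ 2 * E
  H0 : H ≠ 0
  rd : Red v ρC W res
  wx : W x ≤ 1
  rx : res x = xb
  rw : res w = aeval xb H * wb

theorem exists_NR (h : IsRes v ρC) {F : C[X]} {x w : K} {H E : k[X]} {xb wb : κ} (hy : Hyp F x w)
    (hb : Hyp E xb wb) (hF : IntP v F) (hr : redP ρC F = H ^ 2 * E) (H0 : H ≠ 0) :
    ∃ (W : Valuation K ℝ≥0) (res : K → κ), NR v ρC F x w H E xb wb W res := by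
  obtain ⟨F', hF'⟩ := hF.lift
  let ψ : v.integer[X] →+* K := (aeval x : C[X] →ₐ[C] K).toRingHom.comp (mapRingHom v.integer.subtype)
  let ψ' : v.integer[X] →+* κ := (aeval xb : k[X] →ₐ[k] κ).toRingHom.comp (mapRingHom (resHom h))
  have hψ : ∀ A, ψ A = aeval x (A.map v.integer.subtype) := fun _ => rfl
  have hψ' : ∀ A, ψ' A = aeval xb (redP ρC (A.map v.integer.subtype)) := fun A => by
    rw [redP_map h]; rfl
  have h1 : w ^ 2 = ψ F' := by rw [hψ, hF', hy.sq]
  have h2 : (aeval xb H * wb) ^ 2 = ψ' F' := by rw [hψ', hF', hr, mul_pow, hb.sq]; simp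
  have hι : ∀ A B : v.integer[X], qh ψ w h1 ⟨A, B⟩ =
      el x w (A.map v.integer.subtype) (B.map v.integer.subtype) := fun _ _ => rfl
  have hφ : ∀ A B : v.integer[X], qh ψ' _ h2 ⟨A, B⟩ = el xb wb (redP ρC (A.map v.integer.subtype))
      (redP ρC (B.map v.integer.subtype) * H) := fun A B => by
    rw [qh_apply, hψ', hψ']; simp only [el, map_mul]; ring
  have m : Md h ((algebraMap v.integer[X] (QuadraticAlgebra v.integer[X] F' 0)).comp Polynomial.C)
      (qh ψ w h1) (qh ψ' _ h2) := by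
    refine ⟨fun c => ?_, fun c => ?_, ?_, fun f => ?_, fun y => ?_⟩
    · show qh ψ w h1 ⟨Polynomial.C c, 0⟩ = _
      rw [hι]; simp [el]
    · show qh ψ' _ h2 ⟨Polynomial.C c, 0⟩ = _
      rw [hφ, map_C, redP_C h, Polynomial.map_zero, redP_zero h]; simp [el]
    · rintro ⟨A, B⟩ h0
      rw [hι] at h0
      obtain ⟨hA, hB⟩ := hy.indep h0
      rw [hφ, hA, hB, redP_zero h]; simp [el]
    · obtain ⟨s, A, B, c, hA, hB, hc, h3, h4, e⟩ := rep h hy f
      obtain ⟨A, rfl⟩ := hA.lift
      obtain ⟨B, rfl⟩ := hB.lift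
      obtain ⟨c, rfl⟩ := hc.lift
      refine ⟨s, ⟨A, B⟩, ⟨c, 0⟩, ?_, ?_, ?_⟩
      · rw [hφ]; exact hb.el_ne (h3.imp id fun h5 => mul_ne_zero h5 H0)
      · rw [hφ]; exact hb.el_ne (Or.inl h4)
      · rw [hι, hι, Polynomial.map_zero, el_zero, e]
    · obtain ⟨A, B, c, hc, e⟩ := hb.gen y
      obtain ⟨A', hA, e1⟩ := exists_redP h (A * H)
      obtain ⟨B', hB, e2⟩ := exists_redP h B
      obtain ⟨c', hc', e3⟩ := exists_redP h (c * H)
      obtain ⟨A', rfl⟩ := hA.lift
      obtain ⟨B', rfl⟩ := hB.lift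
      obtain ⟨c', rfl⟩ := hc'.lift
      refine ⟨⟨A', B'⟩, ⟨c', 0⟩, ?_, ?_⟩
      · rw [hφ, e3]; exact hb.el_ne (Or.inl (mul_ne_zero hc H0))
      · rw [hφ, hφ, e1, e2, e3, Polynomial.map_zero, redP_zero h, zero_mul, el_zero, map_mul,
          ← mul_assoc, e, el_mul_aeval]
  have ex : x = qh ψ w h1 ⟨X, 0⟩ := by rw [hι]; simp [el]
  have ew : w = qh ψ w h1 ⟨0, 1⟩ := by rw [hι]; simp [el]
  refine ⟨m.W, _, hy, hb, hF, hr, H0, m.red, ?_, ?_, ?_⟩
  · conv_lhs => rw [ex]
    exact m.W_le _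
  · have := m.res_ι ⟨X, 0⟩
    rw [← ex, hφ, Polynomial.map_X, redP_X h, Polynomial.map_zero, redP_zero h] at this
    simpa [el] using this
  · have := m.res_ι ⟨0, 1⟩
    rw [← ew, hφ, Polynomial.map_one, redP_one h, Polynomial.map_zero, redP_zero h] at this
    simpa [el] using this

end hyp

end Crest.Agent.T15.Ng
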