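import Mathlib
import Crest.Agent.T15.NgA_77

/-!
# Row 15, block F/Ht (helper77): naive good reduction of `w ^ 2 = F(x)`

API of `NR`, the genus, `NG` (good reduction with explicit specialisation).
-/

set_option autoImplicit false
set_option linter.all false

namespace Crest.Agent.T15.Ng

open Polynomial WithZero Module
open scoped NNReal
open Crest.Agent.R013.RR7_948 Crest.Agent.R013.RR8_948 Crest.Agent.R013.RR9_948
open Crest.Agent.R013.RR11_948 Crest.Agent.R013.RR12_948 Crest.Agent.R013.PicD_398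
open Crest.Agent.R013.GR2_921 Crest.Agent.R013.Frob1_914
open Crest.Agent.R013.GR4_921 Crest.Agent.R013.GR6_921
open Crest.Agent.T15.Hy

section nr

variable {C K k κ : Type*} [Field C] [Field K] [Algebra C K] [Field k] [Field κ] [Algebra k κ]
  {v : Valuation C ℝ≥0} {ρC : C → k} {W : Valuation K ℝ≥0} {res : K → κ}

theorem W_aeval_eq (h : Red v ρC W res) {t : K} (ht : W t ≤ 1)
    (tr : ∀ p : k[X], aeval (res t) p = 0 → p = 0) {A : C[X]} (hA : IntP v A)
    (h0 : redP ρC A ≠ 0) : W (aeval t A) = 1 := by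
  rw [← h.res.ne_zero_iff (w_aeval_le h hA ht), res_aeval h hA ht]
  exact fun h1 => h0 (tr _ h1)

theorem tr_of_notMem [IsAlgClosed k] {y : κ} (hy : y ∉ Set.range (algebraMap k κ)) (p : k[X])
    (hp : aeval y p = 0) : p = 0 := by
  by_contra h0
  have h1 : y ∈ algebraicClosure k κ := mem_algebraicClosure_iff.mpr ⟨p, h0, hp⟩
  rw [hc_of_isAlgClosed, IntermediateField.mem_bot] at h1
  exact hy h1

theorem SI_aeval {C' K' : Type*} [Field C'] [Field K'] [Algebra C' K'] (e : SI C K C' K') (x : K)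
    (A : C[X]) : e.f (aeval x A) = aeval (e.f x) (A.map (e.s : C →+* C')) := by
  induction A using Polynomial.induction_on' with
  | add p q hp hq => rw [map_add, map_add, hp, hq, Polynomial.map_add, map_add]
  | monomial n a =>
    rw [aeval_monomial, map_mul, map_pow, e.comm, Polynomial.map_monomial, aeval_monomial]; rfl

theorem SI_el {C' K' : Type*} [Field C'] [Field K'] [Algebra C' K'] (e : SI C K C' K') (x w : K)
    (A B : C[X]) : e.f (el x w A B) =
      el (e.f x) (e.f w) (A.map (e.s : C →+* C')) (B.map (e.s : C →+* C')) := by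
  simp only [el, map_add, map_mul, SI_aeval]

namespace NR

variable {F : C[X]} {x w : K} {H E : k[X]} {xb wb : κ} (h : NR v ρC F x w H E xb wb W res)
include h

theorem W_aeval_le {A : C[X]} (hA : IntP v A) : W (aeval x A) ≤ 1 := w_aeval_le h.rd hA h.wx

theorem res_aeval {A : C[X]} (hA : IntP v A) : res (aeval x A) = aeval xb (redP ρC A) := by
  rw [R013.GR6_921.res_aeval h.rd hA h.wx, h.rx]

theorem W_aeval {A : C[X]} (hA : IntP v A) (h0 : redP ρC A ≠ 0) : W (aeval x A) = 1 :=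
  W_aeval_eq h.rd h.wx (by rw [h.rx]; exact h.hyb.tr) hA h0

theorem W_x : W x = 1 := by
  have := h.W_aeval intP_X (by rw [redP_X h.rd.resC]; exact X_ne_zero)
  rwa [aeval_X] at this

theorem redF_ne : redP ρC F ≠ 0 := by
  rw [h.red]; exact mul_ne_zero (pow_ne_zero 2 h.H0) h.hyb.F_ne

theorem W_w : W w = 1 := by
  have h1 := h.W_aeval h.int h.redF_ne
  rw [← h.hyp.sq, map_pow] at h1
  exact (pow_eq_one_iff_of_nonneg zero_le' two_ne_zero).mp h1

theorem W_el_le {A B : C[X]} (hA : IntP v A) (hB : IntP v B) : W (el x w A B) ≤ 1 :=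
  (Valuation.map_add _ _ _).trans (max_le (h.W_aeval_le hA)
    (by rw [map_mul, h.W_w, mul_one]; exact h.W_aeval_le hB))

theorem res_el {A B : C[X]} (hA : IntP v A) (hB : IntP v B) :
    res (el x w A B) = el xb wb (redP ρC A) (redP ρC B * H) := by
  unfold el
  rw [h.rd.res.add _ _ (h.W_aeval_le hA) (by rw [map_mul, h.W_w, mul_one]; exact h.W_aeval_le hB),
    h.rd.res.mul _ _ (h.W_aeval_le hB) h.W_w.le, h.res_aeval hA, h.res_aeval hB, h.rw, map_mul,
    mul_assoc]

theorem W_el {A B : C[X]} (hA : IntP v A) (hB : IntP v B) (h0 : redP ρC A ≠ 0 ∨ redP ρC B ≠ 0) :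
    W (el x w A B) = 1 := by
  rw [← h.rd.res.ne_zero_iff (h.W_el_le hA hB), h.res_el hA hB]
  exact h.hyb.el_ne (h0.imp id fun h1 => mul_ne_zero h1 h.H0)

/-- the norm of `A(x) + B(x) w` dominates the coefficients -/
theorem coeff_le (A B : C[X]) (i : ℕ) :
    v (A.coeff i) ≤ W (el x w A B) ∧ v (B.coeff i) ≤ W (el x w A B) := by
  obtain ⟨s, A', B', hA, hB, h0, rfl, rfl⟩ := exists_prim' h.rd.resC A B
  have e : el x w (Polynomial.C s * A') (Polynomial.C s * B') = algebraMap C K s * el x w A' B' := by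
    simp only [el, map_mul, aeval_C]; ring
  rw [e, map_mul, h.W_el hA hB h0, h.rd.norm, mul_one, coeff_C_mul, coeff_C_mul, map_mul, map_mul]
  exact ⟨mul_le_of_le_one_right' (hA i), mul_le_of_le_one_right' (hB i)⟩

theorem W_el_le_iff {A B : C[X]} : W (el x w A B) ≤ 1 ↔ IntP v A ∧ IntP v B :=
  ⟨fun h1 => ⟨fun i => (h.coeff_le A B i).1.trans h1, fun i => (h.coeff_le A B i).2.trans h1⟩,
    fun h1 => h.W_el_le h1.1 h1.2⟩

theorem rep' (f : K) : ∃ (s : C) (A B c : C[X]), IntP v A ∧ IntP v B ∧ IntP v c ∧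
    (redP ρC A ≠ 0 ∨ redP ρC B ≠ 0) ∧ redP ρC c ≠ 0 ∧
    f * aeval x c = algebraMap C K s * el x w A B ∧ W f = v s := by
  obtain ⟨s, A, B, c, hA, hB, hc, h1, h2, e⟩ := rep h.rd.resC h.hyp f
  refine ⟨s, A, B, c, hA, hB, hc, h1, h2, e, ?_⟩
  have := congrArg W e
  rwa [map_mul, map_mul, h.W_aeval hc h2, h.W_el hA hB h1, h.rd.norm, mul_one, mul_one] at this

theorem int_rep {f : K} (hf : W f ≤ 1) : ∃ A B c : C[X], IntP v A ∧ IntP v B ∧ IntP v c ∧
    redP ρC c ≠ 0 ∧ f * aeval x c = el x w A B := by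
  obtain ⟨s, A, B, c, hA, hB, hc, -, h2, e, hs⟩ := h.rep' f
  rw [hs] at hf
  refine ⟨Polynomial.C s * A, Polynomial.C s * B, c, (intP_C hf).mul hA, (intP_C hf).mul hB, hc,
    h2, ?_⟩
  rw [e]; simp only [el, map_mul, aeval_C]; ring

theorem unit_rep {f : K} (hf : W f = 1) : ∃ A B c : C[X], IntP v A ∧ IntP v B ∧ IntP v c ∧
    (redP ρC A ≠ 0 ∨ redP ρC B ≠ 0) ∧ redP ρC c ≠ 0 ∧ f * aeval x c = el x w A B := by
  obtain ⟨A, B, c, hA, hB, hc, h2, e⟩ := h.int_rep hf.le
  refine ⟨A, B, c, hA, hB, hc, ?_, h2, e⟩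
  have h1 : W (el x w A B) = 1 := by rw [← e, map_mul, hf, h.W_aeval hc h2, mul_one]
  rw [← h.rd.res.ne_zero_iff h1.le, h.res_el hA hB] at h1
  by_contra hcon
  push Not at hcon
  rw [hcon.1, hcon.2] at h1
  simp [el] at h1

theorem res_eq {f : K} {A B c : C[X]} (hA : IntP v A) (hB : IntP v B) (hc : IntP v c)
    (h2 : redP ρC c ≠ 0) (e : f * aeval x c = el x w A B) :
    W f ≤ 1 ∧ res f * aeval xb (redP ρC c) = el xb wb (redP ρC A) (redP ρC B * H) := by
  have h1 : W f ≤ 1 := by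
    have := h.W_el_le hA hB
    rwa [← e, map_mul, h.W_aeval hc h2, mul_one] at this
  exact ⟨h1, by rw [← h.res_el hA hB, ← e, h.rd.res.mul _ _ h1 (h.W_aeval_le hc), h.res_aeval hc]⟩

/-- a norm which is the Gauss norm on `C(x)` is `W` (form with a homomorphism `σ`) -/
theorem W_hom {K' : Type*} [Field K'] (W' : Valuation K' ℝ≥0) (σ : K →+* K')
    (hc : ∀ c, W' (σ (algebraMap C K c)) = v c)
    (h1 : ∀ A, IntP v A → W' (σ (aeval x A)) ≤ 1)
    (h2 : ∀ A, IntP v A → redP ρC A ≠ 0 → W' (σ (aeval x A)) = 1) (f : K) : W' (σ f) = W f := by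
  have hw : W' (σ w) = 1 := by
    have h3 := h2 F h.int h.redF_ne
    rw [← h.hyp.sq, map_pow, map_pow] at h3
    exact (pow_eq_one_iff_of_nonneg zero_le' two_ne_zero).mp h3
  have hle : ∀ A B, IntP v A → IntP v B → W' (σ (el x w A B)) ≤ 1 := fun A B hA hB => by
    unfold el
    rw [map_add, map_mul]
    exact (Valuation.map_add _ _ _).trans (max_le (h1 A hA)
      (by rw [map_mul, hw, mul_one]; exact h1 B hB))
  obtain ⟨s, A, B, c, hA, hB, hc', h3, h4, e, hs⟩ := h.rep' f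
  have hN : IntP v (A ^ 2 - B ^ 2 * F) := (hA.pow 2).sub ((hB.pow 2).mul h.int)
  have h5 : W (aeval x (A ^ 2 - B ^ 2 * F)) = 1 := by
    rw [← el_norm h.hyp.sq, map_mul, h.W_el hA hB h3, h.W_el hA hB.neg
      (by rw [redP_neg h.rd.resC hB]; exact h3.imp id neg_ne_zero.mpr), mul_one]
  have h6 : redP ρC (A ^ 2 - B ^ 2 * F) ≠ 0 := by
    rw [← h.rd.res.ne_zero_iff h5.le, h.res_aeval hN] at h5
    intro h0; rw [h0, map_zero] at h5; exact h5 rfl
  have h7 := h2 _ hN h6
  rw [← el_norm h.hyp.sq, map_mul, map_mul] at h7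
  have h8 : W' (σ (el x w A B)) = 1 := by
    refine le_antisymm (hle A B hA hB) ?_
    rw [← h7]
    exact mul_le_of_le_one_right' (hle A (-B) hA hB.neg)
  have h9 := congrArg (fun z => W' (σ z)) e
  simp only [map_mul] at h9
  rwa [h2 c hc' h4, h8, hc, mul_one, mul_one, ← hs] at h9

/-- **invariance**: an isometric semilinear automorphism for which the image of `x` has a
transcendental residue preserves the norm -/
theorem W_SI' (e : SI C K C K) (hs : ∀ c, v (e.s c) = v c) (hx : W (e.f x) ≤ 1)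
    (tr : ∀ p : k[X], aeval (res (e.f x)) p = 0 → p = 0) (f : K) : W (e.f f) = W f := by
  have hs' : ∀ c, v ((e.s : C →+* C) c) = v c := hs
  refine h.W_hom W (e.f : K →+* K) (fun c => ?_) (fun A hA => ?_) (fun A hA h0 => ?_) f
  · show W (e.f _) = _
    rw [e.comm, h.rd.norm, hs]
  · show W (e.f _) ≤ _
    rw [SI_aeval]; exact w_aeval_le h.rd (hA.map hs') hx
  · show W (e.f _) = _
    rw [SI_aeval]
    refine W_aeval_eq h.rd hx tr (hA.map hs') ?_
    obtain ⟨i, hi⟩ := (redP_ne_iff h.rd.resC hA).mp h0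
    exact (redP_ne_iff h.rd.resC (hA.map hs')).mpr ⟨i, by rw [coeff_map, hs', hi]⟩

theorem W_SI [IsAlgClosed k] (e : SI C K C K) (hs : ∀ c, v (e.s c) = v c) (hx : W (e.f x) ≤ 1)
    (hn : res (e.f x) ∉ Set.range (algebraMap k κ)) (f : K) : W (e.f f) = W f :=
  h.W_SI' e hs hx (tr_of_notMem hn) f

theorem xb_notMem : xb ∉ Set.range (algebraMap k κ) := by
  rintro ⟨a, ha⟩
  exact h.hyb.x_sub_ne a (by rw [ha, sub_self])

theorem W_fix (e : SI C K C K) (hs : ∀ c, v (e.s c) = v c) (hx : e.f x = x) (f : K) :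
    W (e.f f) = W f :=
  h.W_SI' e hs (by rw [hx]; exact h.wx) (by rw [hx, h.rx]; exact h.hyb.tr) f

/-- `x ↦ a x + b` -/
theorem W_aff (e : SI C K C K) (hs : ∀ c, v (e.s c) = v c) {a b : C} (ha : v a = 1) (hb : v b ≤ 1)
    (hx : e.f x = algebraMap C K a * x + algebraMap C K b) [IsAlgClosed k] (f : K) :
    W (e.f f) = W f := by
  have h1 : W (algebraMap C K a * x) ≤ 1 := by rw [map_mul, h.rd.norm, ha, h.W_x, mul_one]
  have h2 : W (algebraMap C K b) ≤ 1 := by rw [h.rd.norm]; exact hb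
  refine h.W_SI e hs (by rw [hx]; exact (Valuation.map_add _ _ _).trans (max_le h1 h2)) ?_ f
  rw [hx, h.rd.res.add _ _ h1 h2, h.rd.res.mul _ _ (by rw [h.rd.norm, ha]) h.wx, h.rd.comp _ ha.le,
    h.rd.comp _ hb, h.rx]
  rintro ⟨c, hc⟩
  have h3 : ρC a ≠ 0 := (h.rd.resC.ne_zero_iff ha.le).mpr ha
  have h4 : algebraMap k κ (ρC a) ≠ 0 := by simpa using h3
  exact h.xb_notMem ⟨(c - ρC b) / ρC a, by rw [map_div₀, map_sub, hc]; field_simp; ring⟩

/-- `x ↦ a / x` -/
theorem W_inv (e : SI C K C K) (hs : ∀ c, v (e.s c) = v c) {a : C} (ha : v a = 1)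
    (hx : e.f x = algebraMap C K a / x) [IsAlgClosed k] (f : K) : W (e.f f) = W f := by
  have h2 : W (algebraMap C K a) = 1 := by rw [h.rd.norm]; exact ha
  refine h.W_SI e hs (by rw [hx, map_div₀, h2, h.W_x]; simp) ?_ f
  rw [hx, h.rd.res.div h2.le h.W_x, h.rd.comp _ ha.le, h.rx]
  rintro ⟨c, hc⟩
  have h3 : ρC a ≠ 0 := (h.rd.resC.ne_zero_iff ha.le).mpr ha
  have h4 : algebraMap k κ (ρC a) ≠ 0 := by simpa using h3
  have h5 := h.hyb.x_ne
  exact h.xb_notMem ⟨ρC a / c, by rw [map_div₀, hc]; field_simp⟩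

/-- **the residual action** is read on the constants, `x` and `w` -/
theorem res_hom {K' κ' : Type*} [Field K'] [Field κ'] {W' : Valuation K' ℝ≥0} {res' : K' → κ'}
    (h' : IsRes W' res') (σ : K →+* K') (hW : ∀ f, W' (σ f) = W f) (τ : κ →+* κ')
    (hc : ∀ c, v c ≤ 1 → res' (σ (algebraMap C K c)) = τ (algebraMap k κ (ρC c)))
    (hx : res' (σ x) = τ xb) (hw : res' (σ w) = τ (aeval xb H * wb)) {f : K} (hf : W f ≤ 1) :
    res' (σ f) = τ (res f) := by
  have h1 : ∀ A, IntP v A → res' (σ (aeval x A)) = τ (res (aeval x A)) := by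
    intro A hA
    rw [h.res_aeval hA, redP, aeval_eq_sum_range, map_sum, map_sum, map_sum,
      h'.sum _ _ fun i _ => by
        rw [hW, Algebra.smul_def, map_mul, map_pow, h.rd.norm, h.W_x, one_pow, mul_one]; exact hA i]
    refine Finset.sum_congr rfl fun i _ => ?_
    rw [Algebra.smul_def, map_mul, map_pow,
      h'.mul _ _ (by rw [hW, h.rd.norm]; exact hA i) (by rw [map_pow, hW, h.W_x, one_pow]),
      h'.pow (by rw [hW]; exact h.wx), hc _ (hA i), hx]
    simp
  obtain ⟨A, B, c, hA, hB, hc', h2, e⟩ := h.int_rep hf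
  have h3 : τ (res (aeval x c)) ≠ 0 := by
    rw [_root_.map_ne_zero, h.rd.res.ne_zero_iff (h.W_aeval_le hc')]; exact h.W_aeval hc' h2
  apply mul_right_cancel₀ h3
  have hBw : W (aeval x B * w) ≤ 1 := by rw [map_mul, h.W_w, mul_one]; exact h.W_aeval_le hB
  rw [← map_mul, ← h.rd.res.mul _ _ hf (h.W_aeval_le hc'), ← h1 c hc',
    ← h'.mul _ _ (by rw [hW]; exact hf) (by rw [hW]; exact h.W_aeval_le hc'), ← map_mul, e]
  unfold el
  rw [map_add, h'.add _ _ (by rw [hW]; exact h.W_aeval_le hA) (by rw [hW]; exact hBw),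
    h.rd.res.add _ _ (h.W_aeval_le hA) hBw, map_add, h1 A hA, map_mul,
    h'.mul _ _ (by rw [hW]; exact h.W_aeval_le hB) (by rw [hW]; exact h.W_w.le), h1 B hB, hw,
    h.rd.res.mul _ _ (h.W_aeval_le hB) h.W_w.le, h.rw, map_mul τ (res _)]

/-- automorphisms which are trivial on the residue field -/
theorem res_triv (e : SI C K C K) (hW : ∀ f, W (e.f f) = W f)
    (hs : ∀ c, v c ≤ 1 → v (e.s c - c) < 1) (hx : W (e.f x - x) < 1) (hw : W (e.f w - w) < 1)
    {f : K} (hf : W f ≤ 1) : res (e.f f) = res f := by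
  refine h.res_hom h.rd.res (e.f : K →+* K) hW (RingHom.id κ) (fun c hc => ?_) ?_ ?_ hf
  · show res (e.f _) = algebraMap k κ _
    have h1 : v (e.s c) ≤ 1 := by rw [← h.rd.norm, ← e.comm, hW, h.rd.norm]; exact hc
    rw [e.comm, h.rd.comp _ h1, (h.rd.resC.eq_iff h1 hc).mpr (hs c hc)]
  · show res (e.f x) = xb
    rw [← h.rx]; exact (h.rd.res.eq_iff (by rw [hW]; exact h.wx) h.wx).mpr hx
  · show res (e.f w) = aeval xb H * wb
    rw [← h.rw]; exact (h.rd.res.eq_iff (by rw [hW]; exact h.W_w.le) h.W_w.le).mpr hw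

theorem orth : Orth v W := by
  classical
  intro V hV
  obtain ⟨T, hT⟩ := (Submodule.fg_iff_finiteDimensional V).mpr hV
  choose s A B c hA hB hc h1 h2 e using rep (K := K) h.rd.resC h.hyp
  let d : C[X] := ∏ f ∈ T, c f
  have hd : IntP v d ∧ redP ρC d ≠ 0 :=
    Finset.prod_induction _ (fun p => IntP v p ∧ redP ρC p ≠ 0)
      (fun p q hp hq => ⟨hp.1.mul hq.1, by
        rw [redP_mul h.rd.resC hp.1 hq.1]; exact mul_ne_zero hp.2 hq.2⟩)
      ⟨intP_one, by rw [redP_one h.rd.resC]; exact one_ne_zero⟩ fun f _ => ⟨hc f, h2 f⟩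
  have hWd := h.W_aeval hd.1 hd.2
  have hd0 : aeval x d ≠ 0 := by intro h0; rw [h0] at hWd; simp at hWd
  have hex : ∀ f ∈ T, ∃ p : C[X] × C[X], f * aeval x d = el x w p.1 p.2 := by
    intro f hf
    obtain ⟨q, hq⟩ := Finset.dvd_prod_of_mem c hf
    refine ⟨(Polynomial.C (s f) * A f * q, Polynomial.C (s f) * B f * q), ?_⟩
    rw [show d = c f * q from hq, map_mul, ← mul_assoc, e]
    simp only [el, map_mul, aeval_C]; ring
  choose! p hp using hex
  let N : ℕ := T.sup (fun f => max (p f).1.natDegree (p f).2.natDegree) + 1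
  let b : Fin N ⊕ Fin N → K := Sum.elim (fun i => x ^ (i : ℕ) / aeval x d)
    fun i => x ^ (i : ℕ) * w / aeval x d
  have hsum : ∀ a : Fin N ⊕ Fin N → C, ∑ i, a i • b i =
      el x w (∑ i : Fin N, monomial i (a (Sum.inl i))) (∑ i : Fin N, monomial i (a (Sum.inr i))) /
        aeval x d := by
    intro a
    rw [Fintype.sum_sum_type]
    simp only [b, el, Sum.elim_inl, Sum.elim_inr, map_sum, aeval_monomial, Algebra.smul_def,
      add_div, Finset.sum_div, Finset.sum_mul, mul_div_assoc, mul_assoc]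
  have hco : ∀ (a : Fin N → C) (i : Fin N), (∑ i : Fin N, monomial (i : ℕ) (a i)).coeff i = a i := by
    intro a i
    rw [finsetSum_coeff, Finset.sum_eq_single i (fun j _ hj => by
      rw [coeff_monomial, if_neg (fun h0 => hj (Fin.ext h0))]) (by simp), coeff_monomial, if_pos rfl]
  refine HasON.mono h.rd.norm (V := Submodule.span C (Set.range b))
    (HasON.of_family h.rd.norm b (fun i => Submodule.subset_span ⟨i, rfl⟩) le_rfl ?_ ?_) ?_
  · rintro (i | i) <;> simp [b, hWd, h.W_x, h.W_w]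
  · intro a i
    rw [hsum, map_div₀, hWd, div_one]
    rcases i with i | i
    · rw [← hco (fun i => a (Sum.inl i)) i]; exact (h.coeff_le _ _ _).1
    · rw [← hco (fun i => a (Sum.inr i)) i]; exact (h.coeff_le _ _ _).2
  · rw [← hT, Submodule.span_le]
    intro f hf
    have hN := Finset.le_sup (f := fun f => max (p f).1.natDegree (p f).2.natDegree) hf
    have hq : ∀ q : C[X], q.natDegree < N → ∑ i : Fin N, monomial (i : ℕ) (q.coeff i) = q :=
      fun q hq => by
        rw [Fin.sum_univ_eq_sum_range (fun i => monomial i (q.coeff i)) N]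
        exact (as_sum_range' q N hq).symm
    have h3 := hsum (Sum.elim (fun i => (p f).1.coeff i) fun i => (p f).2.coeff i)
    simp only [Sum.elim_inl, Sum.elim_inr] at h3
    rw [hq _ (Nat.lt_succ_of_le ((le_max_left _ _).trans hN)),
      hq _ (Nat.lt_succ_of_le ((le_max_right _ _).trans hN)), ← hp f hf,
      mul_div_cancel_right₀ _ hd0] at h3
    rw [← h3]
    exact Submodule.sum_mem _ fun i _ => Submodule.smul_mem _ _ (Submodule.subset_span ⟨i, rfl⟩)

end NR

end nr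

section gen

variable {k K : Type*} [Field k] [IsAlgClosed k] [Field K] [Algebra k K]
  [Algebra (RatFunc k) K] [IsScalarTower k (RatFunc k) K] [FiniteDimensional (RatFunc k) K]
  [Algebra.IsSeparable (RatFunc k) K] {F : k[X]} {x w : K}

theorem le_gen (h : Hyp F x w) {g : ℕ} (hg : 2 * g + 1 ≤ F.natDegree) : g ≤ gen k K := by
  have hdeg : ∀ n : ℕ, degD (n • Dinf k x) = 2 * n := by
    intro n
    induction n with
    | zero => simp [degD_zero]
    | succ n ih => rw [succ_nsmul, degD_add, ih, h.degD_Dinf]; push_cast; ring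
  have h1 := ell_ge (k := k) (K := K) hc_of_isAlgClosed (g • Dinf k x)
  haveI : Module.Finite k (degreeLT k (g + 1)) := Module.Finite.equiv (degreeLTEquiv k _).symm
  have h2 : LD (g • Dinf k x) ≤ (degreeLT k (g + 1)).map (aeval x : k[X] →ₐ[k] K).toLinearMap := by
    intro f hf
    obtain ⟨A, B, rfl, hA, hB⟩ := h.of_mem_LD hf
    obtain rfl : B = 0 := hB.resolve_right (by omega)
    exact ⟨A, mem_degreeLT.mpr (degree_le_natDegree.trans_lt (by exact_mod_cast Nat.lt_succ_of_le hA)),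
      (el_zero x w A).symm⟩
  have h3 := (Submodule.finrank_mono h2).trans (Submodule.finrank_map_le _ _)
  rw [(degreeLTEquiv k _).finrank_eq, finrank_fin_fun] at h3
  change ell (g • Dinf k x) ≤ _ at h3
  rw [hdeg] at h1
  omega

theorem gen_eq (h : Hyp F x w) {g : ℕ} (h1 : 2 * g + 1 ≤ F.natDegree) (h2 : F.natDegree ≤ 2 * g + 2) :
    gen k K = g := le_antisymm (h.gen_le h2) (le_gen h h1)

end gen

section good

variable {C K : Type*} [Field C] [IsAlgClosed C] [Field K] [Algebra C K]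
  [Algebra (RatFunc C) K] [IsScalarTower C (RatFunc C) K] [FiniteDimensional (RatFunc C) K]
  [Algebra.IsSeparable (RatFunc C) K]
  {k κ : Type*} [Field k] [IsAlgClosed k] [Field κ] [Algebra k κ]
  [Algebra (RatFunc k) κ] [IsScalarTower k (RatFunc k) κ] [FiniteDimensional (RatFunc k) κ]
  [Algebra.IsSeparable (RatFunc k) κ]
  {v : Valuation C ℝ≥0} {ρC : C → k} {W : Valuation K ℝ≥0} {res : K → κ}

/-- naive good reduction: `F` reduces to `Fb`, of the same genus -/
structure NG (v : Valuation C ℝ≥0) (ρC : C → k) (F : C[X]) (x w : K) (Fb : k[X]) (xb wb : κ)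
    (W : Valuation K ℝ≥0) (res : K → κ) (sp : Pl C K → Pl k κ) : Prop where
  nr : NR v ρC F x w 1 Fb xb wb W res
  good : Id.Good v ρC W res sp
  rw : res w = wb
  at_ : ∀ (P : Pl C K) (a b : C), At P x w a b → v a ≤ 1 → v b ≤ 1 ∧ At (sp P) xb wb (ρC a) (ρC b)
  inf : ∀ P : Pl C K, ¬ (P.v x ≤ 1 ∧ v (Disc.ev P x) ≤ 1) → 1 < (sp P).v xb

theorem NR.spP {F : C[X]} {x w : K} {H E : k[X]} {xb wb : κ} (h : NR v ρC F x w H E xb wb W res)
    {F' : v.integer[X]} (hs : SpD (resHom h.rd.resC) F' H E x w xb wb) :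
    Id.SpP W res (sp (resHom h.rd.resC) H x w xb wb) := by
  intro u hu
  have hu0 : u ≠ 0 := by rintro rfl; simp at hu
  obtain ⟨A, B, c, hA, hB, hc, h1, h2, e⟩ := h.unit_rep hu
  have e' := (h.res_eq hA hB hc h2 e).2
  obtain ⟨A, rfl⟩ := hA.lift
  obtain ⟨B, rfl⟩ := hB.lift
  obtain ⟨c, rfl⟩ := hc.lift
  rw [redP_map h.rd.resC] at h2
  rw [redP_map h.rd.resC, redP_map h.rd.resC] at h1
  rw [redP_map h.rd.resC, redP_map h.rd.resC, redP_map h.rd.resC] at e'
  have h3 := hs.sp_el h1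
  have h4 := hs.sp_el (A := c) (B := 0) (Or.inl h2)
  have h5 := hs.up_ne (A := c) (B := 0) (Or.inl h2)
  rw [Polynomial.map_zero, el_zero] at h5
  rw [Polynomial.map_zero, Polynomial.map_zero, zero_mul, el_zero, el_zero] at h4
  rw [← e, ← e', divf_mul hu0 h5, divf_mul ((h.rd.res.ne_zero_iff hu.le).mpr hu)
    (h.hyb.aeval_ne h2), Finsupp.mapDomain_add, h4] at h3
  exact (add_right_cancel h3).symm

/-- **(NG1)** naive good reduction -/
theorem exists_NG (h : IsRes v ρC) {F : C[X]} {x w : K} {Fb : k[X]} {xb wb : κ} (hy : Hyp F x w)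
    (hb : Hyp Fb xb wb) (hF : IntP v F) (hr : redP ρC F = Fb) (hodd : Odd Fb.natDegree)
    (hd : F.natDegree ≤ Fb.natDegree + 1) :
    ∃ (W : Valuation K ℝ≥0) (res : K → κ) (sp : Pl C K → Pl k κ),
      NG v ρC F x w Fb xb wb W res sp := by
  obtain ⟨W, res, hn⟩ := exists_NR h hy hb hF (H := 1) (by rw [hr]; simp) one_ne_zero
  obtain ⟨F', hF'⟩ := hF.lift
  have hs : SpD (resHom hn.rd.resC) F' 1 Fb x w xb wb :=
    ⟨rd_resHom _, by rw [hF']; exact hy, hb, by rw [← redP_map, hF', hr]; simp, one_ne_zero,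
      fun t ht => by simp at ht, hodd⟩
  obtain ⟨g, hg⟩ := hodd
  have hle : Fb.natDegree ≤ F.natDegree := hr ▸ natDegree_redP_le h F
  refine ⟨W, res, _, hn, ⟨hn.rd, hn.orth, ?_, hn.spP hs⟩, by simpa using hn.rw, ?_, ?_⟩
  · rw [gen_eq hb (g := g) (by omega) (by omega), gen_eq hy (g := g) (by omega) (by omega)]
  · intro P a b hP ha
    obtain ⟨a', b', hP'⟩ := hs.exists_int hP.x_le (by rw [Disc.ev_eq P hP.1]; exact ha)
    obtain ⟨rfl, rfl⟩ := hP.eq hP'
    refine ⟨b'.2, ?_⟩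
    rw [hs.sp_at hP']
    have := hs.sq_red (hs.sq_int hP')
    simp only [eval_one, div_one] at this ⊢
    exact hb.at_pt this
  · intro P hP
    unfold sp
    rw [if_neg hP]
    exact hs.oo_spec

theorem NG.disc [CharZero C] {F : C[X]} {x w : K} {Fb : k[X]} {xb wb : κ} {sp : Pl C K → Pl k κ}
    (h : NG v ρC F x w Fb xb wb W res sp) : Disc.Good v ρC W res sp :=
  ⟨h.good.rd, h.good.orth, h.good.gen_eq, h.good.spp⟩

end good

end Crest.Agent.T15.Ng
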