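import Mathlib
import Crest.Agent.T15.HonF_74
import Crest.Agent.T15.NgB_77
import Crest.Agent.T15.FaDef_51
import Crest.Agent.T15.HopfB_71

/-!
# Row 15, block Ht (helper54): the frame `Fm` on which the congruence is proved

`op j e Ψ = ∑ Ψ i (j) e ^ i`, `ops` the same word on series, `Fm` the curve over `X.Ω` with its
good reduction, Frobenius lift `e`, correspondence `j` and logarithmic derivative `Λ`.
-/

set_option autoImplicit false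
set_option linter.all false

noncomputable section

namespace Crest.Agent.T15.Hon

open scoped NNReal PowerSeries
open Polynomial
open Crest.Agent.R013.RR7_948 Crest.Agent.R013.RR11_948 Crest.Agent.R013.PicD_398
open Crest.Agent.R013.Frob1_914

/-- the word `∑ Ψ i (j) e ^ i` -/
def op {A : Type*} [AddCommGroup A] (j e : A →+ A) (Ψ : Fin 3 → ℤ[X]) (c : A) : A :=
  ∑ i : Fin 3, aeval (j.toIntLinearMap : Module.End ℤ A) (Ψ i) (e^[i] c)

/-- the word kills the `3 ^ m`-torsion -/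
def Kill {A : Type*} [AddCommGroup A] (j e : A →+ A) (Ψ : Fin 3 → ℤ[X]) (m : ℕ) : Prop :=
  ∀ c : A, 3 ^ m • c = 0 → op j e Ψ c = 0

section series

variable {K0 : Type*} [Field K0] {g : ℕ}

/-- an integer matrix acting on vectors of series -/
def jS (K0 : Type*) [Field K0] (J : Matrix (Fin g) (Fin g) ℤ) :
    (Fin g → K0⟦X⟧) →+ (Fin g → K0⟦X⟧) where
  toFun ψ m := ∑ m', J m m' • ψ m'
  map_zero' := by funext m; simp
  map_add' ψ ψ' := by funext m; simp [Finset.sum_add_distrib]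

/-- Frobenius on vectors of series -/
def eS (g : ℕ) (σ : K0 →+* K0) (p : ℕ) (hp : p ≠ 0) : (Fin g → K0⟦X⟧) →+ (Fin g → K0⟦X⟧) where
  toFun ψ m := fr σ p hp (ψ m)
  map_zero' := by funext m; simp
  map_add' ψ ψ' := by funext m; simp

end series

/-- The frame: the curve `w ^ 2 = F(z)` over `X.Ω`. -/
structure Fm {C : Type} [Field C] {K0 : Subfield C} {v0 : Valuation K0 ℝ≥0} {p : ℕ} {hp : p ≠ 0}
    {σ : K0 →+* K0} (X : Vs C K0 v0 p hp σ) (g : ℕ) (F : K0[X]) (N : Fin g → Fin g → K0)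
    (J : Matrix (Fin g) (Fin g) ℤ) where
  L : Type
  [fL : Field L]
  [aL : Algebra X.Ω L]
  [rL : Algebra (RatFunc X.Ω) L]
  [tL : IsScalarTower X.Ω (RatFunc X.Ω) L]
  [dL : FiniteDimensional (RatFunc X.Ω) L]
  [sL : Algebra.IsSeparable (RatFunc X.Ω) L]
  κ : Type
  [fκ : Field κ]
  [aκ : Algebra X.k' κ]
  [rκ : Algebra (RatFunc X.k') κ]
  [tκ : IsScalarTower X.k' (RatFunc X.k') κ]
  [dκ : FiniteDimensional (RatFunc X.k') κ]
  [sκ : Algebra.IsSeparable (RatFunc X.k') κ]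
  z : L
  w : L
  Fb : X.k'[X]
  xb : κ
  wb : κ
  W : Valuation L ℝ≥0
  res : L → κ
  sp : Pl X.Ω L → Pl X.k' κ
  ng : Ng.NG X.v X.ρ (F.map ((algebraMap C X.Ω).comp K0.subtype)) z w Fb xb wb W res sp
  deg : F.natDegree = 2 * g + 1
  degb : Fb.natDegree = 2 * g + 1
  /-- the semilinear automorphisms which respect the `ℚ`-structure -/
  Fx : SI X.Ω L X.Ω L → Prop
  Fx_trans : ∀ e e', Fx e → Fx e' → Fx (e.trans e')
  Fx_symm : ∀ e, Fx e → Fx e.symm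
  Fx_ex : ∀ s : X.Ω ≃+* X.Ω, ∃ e, Fx e ∧ e.s = s
  Fx_ext : ∀ e e', Fx e → Fx e' → e.s = e'.s → e = e'
  T : Finset K0
  Fx_zw : ∀ e, Fx e → (∀ a ∈ T, e.s (algebraMap C X.Ω a) = algebraMap C X.Ω a) →
    e.f z = z ∧ e.f w = w
  e : SI X.Ω L X.Ω L
  e_Fx : Fx e
  e_s : e.s = X.S
  e_iso : ∀ u, W (e.f u) = W u
  j : Pic X.Ω L →+ Pic X.Ω L
  j_comm : ∀ e, Fx e → ∀ c, e.pic (j c) = j (e.pic c)
  Λ : Pic X.Ω L →+ (Fin g → X.Ω)
  Λ_cls : ∀ D m, Λ (cls D) m =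
    ∑ k, algebraMap C X.Ω (N m k) * lam X.d (z ^ (k : ℕ) / w) z D
  Λ_j : ∀ c m, Λ (j c) m = ∑ m', J m m' • Λ c m'
  Λ_e : ∀ c m, Λ (e.pic c) m = p * X.S (Λ c m)

attribute [instance] Fm.fL Fm.aL Fm.rL Fm.tL Fm.dL Fm.sL Fm.fκ Fm.aκ Fm.rκ Fm.tκ Fm.dκ Fm.sκ

namespace Fm

variable {C : Type} [Field C] {K0 : Subfield C} {v0 : Valuation K0 ℝ≥0} {p : ℕ} {hp : p ≠ 0}
  {σ : K0 →+* K0} {X : Vs C K0 v0 p hp σ} {g : ℕ} {F : K0[X]} {N : Fin g → Fin g → K0}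
  {J : Matrix (Fin g) (Fin g) ℤ} (Y : Fm X g F N J)

/-- the class `[P(t)] - [P(0)]` of the arc through `(a, b)` -/
def x (a b : K0) : Pic X.Ω Y.L :=
  cls (Finsupp.single (Hy.pt Y.z Y.w (X.em (PowerSeries.C a + PowerSeries.X)) (X.em (wt F a b))) 1) -
    cls (Finsupp.single (Hy.pt Y.z Y.w (algebraMap C X.Ω a) (algebraMap C X.Ω b)) 1)

/-- reduction of classes -/
def spc : Pic X.Ω Y.L →+ Pic X.k' Y.κ := Y.ng.disc.spPic

/-- the word applied to the arc has constant reduction -/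
def Cg (a b : K0) (Ψ : Fin 3 → ℤ[X]) : Prop :=
  Fa.ConC X.k Y.xb Y.wb (Y.spc (op Y.j Y.e.pic.toAddMonoidHom Ψ (Y.x a b)))

end Fm

/-- the congruence for the logarithms of the arc through `(a, b)` -/
def Cong {K0 : Type*} [Field K0] (v0 : Valuation K0 ℝ≥0) (p : ℕ) (hp : p ≠ 0) (σ : K0 →+* K0)
    {g : ℕ} (F : K0[X]) (N : Fin g → Fin g → K0) (J : Matrix (Fin g) (Fin g) ℤ) (a b : K0)
    (Ψ : Fin 3 → ℤ[X]) : Prop :=
  ∀ m, PI v0 (v0 p) (op (jS K0 J) (eS g σ p hp) Ψ (lgN N F a b) m)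

/-- CONG (helper54) -/
def CongStmt : Prop :=
  ∀ (C : Type) [Field C] [IsAlgClosed C] [CharZero C] [Algebra.IsAlgebraic ℚ C] (K0 : Subfield C)
    (v0 : Valuation K0 ℝ≥0) (p : ℕ) (hp : p ≠ 0) (σ : K0 →+* K0), Un v0 p σ →
    ∀ (X : Vs C K0 v0 p hp σ) (g : ℕ) (F : K0[X]) (N : Fin g → Fin g → K0)
      (J : Matrix (Fin g) (Fin g) ℤ) (Y : Fm X g F N J), (∀ m k, v0 (N m k) ≤ 1) →
      ∀ a0 b0 : Fin g → K0, (∀ i, GdP v0 F (a0 i) (b0 i)) →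
        (∀ i i', i ≠ i' → v0 (a0 i - a0 i') = 1) →
        ∀ a b : K0, GdP v0 F a b → ∀ Ψ, Y.Cg a b Ψ → Cong v0 p hp σ F N J a b Ψ

end Crest.Agent.T15.Hon
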