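import Crest.Agent.T15.Rat_42

/-!
# Row 15, leaf W1 (helper42): the dichotomy for operator words

`W` is the group of operator words, `Kill Ψ m` : `Ψ` kills the `l ^ m`-torsion, `Cg Ψ` : the
conclusion drawn from "the specialisation of `Ψ x` is constant".
-/

set_option autoImplicit false
set_option linter.all false

namespace Crest.Agent.T15.Rat

/-- the output of the frame -/
def Tri (l p : ℕ) {W : Type*} [AddCommGroup W] (Kill : W → ℕ → Prop) (Cg : W → Prop) : Prop :=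
  ∃ (Γ : Type) (_ : AddCommGroup Γ) (φ : W →+ Γ) (B : Γ →+ Γ →+ ℚ),
    (∀ c c', ∃ (e : ℕ) (n : ℤ), (p : ℚ) ^ e * B c c' = n) ∧
    (∀ Ψ m, Kill Ψ m → ∃ c, φ Ψ = l ^ m • c) ∧ ∀ Ψ, B (φ Ψ) (φ Ψ) = 0 → Cg Ψ

theorem bd_of {Γ : Type*} [AddCommGroup Γ] {p : ℕ} {lam : Γ →+ ℚ}
    (h : ∀ c, ∃ (e : ℕ) (n : ℤ), (p : ℚ) ^ e * lam c = n) : Bd p lam :=
  ⟨1, one_pos, fun c => by simpa using h c⟩

variable {l p : ℕ} {W : Type*} [AddCommGroup W] {Kill : W → ℕ → Prop} {Cg : W → Prop}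

theorem Tri.mono (h : Tri l p Kill Cg) {Kill' : W → ℕ → Prop} {Cg' : W → Prop}
    (hK : ∀ Ψ m, Kill' Ψ m → Kill Ψ m) (hC : ∀ Ψ, Cg Ψ → Cg' Ψ) : Tri l p Kill' Cg' := by
  obtain ⟨Γ, _, φ, B, h1, h2, h3⟩ := h
  exact ⟨Γ, inferInstance, φ, B, h1, fun Ψ m hm => h2 Ψ m (hK Ψ m hm), fun Ψ h0 => hC Ψ (h3 Ψ h0)⟩

/-- a word which kills all `l`-power torsion satisfies `Cg` -/
theorem Tri.cg_of_kill (h : Tri l p Kill Cg) (hl : 2 ≤ l) (hlp : Nat.Coprime l p) {Ψ : W}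
    (hΨ : ∀ m, Kill Ψ m) : Cg Ψ := by
  obtain ⟨Γ, _, φ, B, h1, h2, h3⟩ := h
  refine h3 Ψ (zero_of_fun l p hl hlp (B (φ Ψ)) (bd_of (h1 _)) (φ Ψ) 0 (fun _ => 0) (fun m => ?_)
    (map_zero _))
  simpa using h2 Ψ m (hΨ m)

/-- **the dichotomy** -/
theorem Tri.di (h : Tri l p Kill Cg) (hl : 2 ≤ l) (hlp : Nat.Coprime l p) {a b : W} {τ : ℕ → ℤ}
    (hτ : ∀ m, Kill (a - τ m • b) m) :
    (Cg a ∧ Cg b) ∨ ∃ u v : ℤ, v ≠ 0 ∧ (∀ m, (l : ℤ) ^ m ∣ u - τ m * v) ∧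
      ∀ u' v' : ℤ, u' * v = u * v' → Cg (v' • a - u' • b) := by
  obtain ⟨Γ, _, φ, B, h1, h2, h3⟩ := h
  have hd : ∀ m, ∃ c, φ a - τ m • φ b = l ^ m • c := fun m => by
    simpa using h2 _ m (hτ m)
  rcases dichotomy l p hl hlp (fun c => B c) (fun c => bd_of (h1 c)) (fun c => ∀ c', B c' c = 0)
    (fun _ h => h) (φ a) (φ b) τ hd with ⟨ha, hb⟩ | ⟨u, v, hv, hdv, hc⟩
  · exact Or.inl ⟨h3 a (ha _), h3 b (hb _)⟩
  · refine Or.inr ⟨u, v, hv, hdv, fun u' v' e => h3 _ ?_⟩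
    have h4 := hc (φ (v' • a - u' • b))
    have e' : (u' : ℚ) * v = u * v' := by exact_mod_cast e
    have hv' : (v : ℚ) ≠ 0 := by exact_mod_cast hv
    generalize hy : φ (v' • a - u' • b) = y at h4 ⊢
    have h5 : B y y = v' * B y (φ a) - u' * B y (φ b) := by
      conv_lhs => enter [2]; rw [← hy]
      simp
    simp only [map_sub, map_zsmul, zsmul_eq_mul] at h4
    apply mul_left_cancel₀ hv'
    rw [h5]
    linear_combination (v' : ℚ) * h4 - B y (φ b) * e'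

/-- the same with a reduced fraction -/
theorem Tri.di' (h : Tri l p Kill Cg) (hl : 2 ≤ l) (hlp : Nat.Coprime l p) {a b : W} {τ : ℕ → ℤ}
    (hτ : ∀ m, Kill (a - τ m • b) m) :
    (Cg a ∧ Cg b) ∨ ∃ u v : ℤ, v ≠ 0 ∧ IsCoprime u v ∧ Cg (v • a - u • b) := by
  rcases h.di hl hlp hτ with h0 | ⟨u, v, hv, -, hc⟩
  · exact Or.inl h0
  · obtain ⟨g, u', v', hg, hco, hu, hv'⟩ := Int.exists_gcd_one' (m := u) (n := v)
      (Int.gcd_pos_of_ne_zero_right u hv)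
    refine Or.inr ⟨u', v', ?_, Int.isCoprime_iff_gcd_eq_one.mpr hco, hc u' v' ?_⟩
    · rintro rfl; exact hv (by simpa using hv')
    · rw [hu, hv']; ring

/-- from `l ^ m ∣ (n - τ m) v` for all `m` to approximations -/
theorem exists_shift (hl : l.Prime) {n v : ℤ} (hv : v ≠ 0) {τ : ℕ → ℤ}
    (h : ∀ m, (l : ℤ) ^ m ∣ n * v - τ m * v) : ∃ c, ∀ m, (l : ℤ) ^ m ∣ n - τ (m + c) := by
  have hp : Prime (l : ℤ) := Nat.prime_iff_prime_int.mp hl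
  obtain ⟨c, v', hv', rfl⟩ := WfDvdMonoid.max_power_factor hv hp.irreducible
  refine ⟨c, fun m => ?_⟩
  have h1 := h (m + c)
  rw [← sub_mul, pow_add, mul_comm ((l : ℤ) ^ c) v', ← mul_assoc] at h1
  have h2 := (mul_dvd_mul_iff_right (pow_ne_zero c hp.ne_zero)).mp h1
  exact (IsCoprime.pow_left ((hp.irreducible.coprime_iff_not_dvd).mpr hv')).dvd_of_dvd_mul_right h2

/-- the end of `RAT`: `v a = u s ^ ε`, `a` integral, `s ^ 2 = 3` -/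
theorem eq_int_mul {a s : ℂ} {ε : ℕ} (hε : ε ≤ 1) (hs : s ^ 2 = 3) (ha : IsIntegral ℤ a) {u v : ℤ}
    (hv : v ≠ 0) (h : (v : ℂ) * a = u * s ^ ε) : ∃ n : ℤ, a = n * s ^ ε ∧ u = n * v := by
  have hs0 : s ≠ 0 := by rintro rfl; norm_num at hs
  have hv' : (v : ℂ) ≠ 0 := by exact_mod_cast hv
  have key : ∃ n : ℤ, a = n * s ^ ε := by
    interval_cases ε
    · obtain ⟨n, hn⟩ := int_of_isIntegral a ha u v hv (by simpa using h)
      exact ⟨n, by simpa using hn⟩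
    · obtain ⟨n, hn⟩ := int_of_isIntegral_mul (a / s) s 3 Int.prime_three.squarefree
        (by simpa using hs) (by rwa [div_mul_cancel₀ _ hs0]) u v hv
        (by field_simp; simpa [mul_comm] using h)
      exact ⟨n, by rw [← hn, pow_one, div_mul_cancel₀ _ hs0]⟩
  obtain ⟨n, hn⟩ := key
  refine ⟨n, hn, ?_⟩
  rw [hn, ← mul_assoc] at h
  have := mul_right_cancel₀ (pow_ne_zero ε hs0) h
  exact_mod_cast (this.symm.trans (mul_comm _ _))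

end Crest.Agent.T15.Rat
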