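import Mathlib
import Crest.Agent.T15.HonD_54
import Crest.Agent.T15.HtDef_95
import Crest.Agent.T15.RatB_42

/-!
# Row 15, block Ht (helper54): the leaves `OmStmt`, `FrmStmt`
-/

set_option autoImplicit false
set_option linter.all false

noncomputable section

namespace Crest.Agent.T15.Ht

open Polynomial Matrix
open scoped NNReal
open Crest.Agent.R013.PicD_398 Crest.Agent.R013.Frob1_914 Crest.Agent.R013.RR14_948
open Crest.Agent.T15.C (Om Gam)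
open Crest.Agent.T15.Top (Plc IsFr)
open Crest.Agent.T15.Mo (Par)
open Crest.Agent.T15.Hon

/-- the matrix of `j` in the rational basis -/
def J3 : Matrix (Fin 3) (Fin 3) ℤ := !![0, 3, 0; 1, 0, 0; 0, 0, 0]

/-- `∑ k, N m k * z ^ k dz / w` is a rational basis of the differentials -/
structure IsOm {P : Par Om} (M : Mdl P) (N : Matrix (Fin 3) (Fin 3) Om) : Prop where
  det : N.det ≠ 0
  v1 : N *ᵥ v1 P = ![1, 0, 0]
  mx : N * Mx P = J3.map (Int.cast : ℤ → Om) * N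
  fx : ∀ e, M.Fx e → ∀ m, ∑ k : Fin 3, e.s (N m k) •
      (e.f M.z ^ (k : ℕ) / e.f M.w * del Om M.Y (e.f M.z)) =
    ∑ k : Fin 3, N m k • (M.z ^ (k : ℕ) / M.w * del Om M.Y M.z)

/-- leaf OM -/
def OmStmt : Prop :=
  ∀ (p1 p2 p3 t : ℤ) (P : Par Om) (M : Mdl P), Is P p1 p2 p3 t → ∃ N, IsOm M N

/-- leaf FRAME -/
def FrmStmt : Prop :=
  ∀ (p1 p2 p3 t : ℤ) (P : Par Om) (M : Mdl P) (N : Matrix (Fin 3) (Fin 3) Om), Is P p1 p2 p3 t →
    IsOm M N → ∃ S : Finset Om, 0 ∉ S ∧ ∀ (K0 : Subfield Om) (v0 : Valuation K0 ℝ≥0) (p : ℕ)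
      (hp : p ≠ 0) (σ : K0 →+* K0), Un v0 p σ → p ≠ 3 →
      (∀ s ∈ S, ∃ h : s ∈ K0, v0 ⟨s, h⟩ = 1) →
      ∀ (X : Vs Om K0 v0 p hp σ) (F0 : K0[X]) (N0 : Fin 3 → Fin 3 → K0),
        F0.map K0.subtype = P.F → (∀ m k, (N0 m k : Om) = N m k) →
        ∃ (Q : Plc) (e : SI Om M.Y Om M.Y), Q.rchar = p ∧ Fr M Q e ∧
          ∃ Y : Fm X 3 F0 N0 J3, ∀ a b : K0, GdP v0 F0 a b →
            Rat.Tri 3 p (Kill M.j e.pic.toAddMonoidHom) (Y.Cg a b)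

end Crest.Agent.T15.Ht
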