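import Mathlib
import Crest.Agent.T15.HonDef_54
import Crest.Agent.R013.Car5_700

/-!
# Row 15, block Ht (helper22): the standard differentials of `w ^ 2 = F(x)` are regular
-/

set_option autoImplicit false
set_option linter.all false

namespace Crest.Agent.T15.Hon

open Polynomial WithZero Module
open Crest.Agent.R013.RR7_948 Crest.Agent.R013.RR8_948 Crest.Agent.R013.RR9_948
open Crest.Agent.R013.RR11_948 Crest.Agent.R013.RR12_948 Crest.Agent.R013.RR14_948
open Crest.Agent.R013.Car5_700 Crest.Agent.T15.Disc Crest.Agent.T15.Hy

variable {k K : Type*} [Field k] [PerfectField k] [Field K] [Algebra k K]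
  [Algebra (RatFunc k) K] [IsScalarTower k (RatFunc k) K] [FiniteDimensional (RatFunc k) K]
  [Algebra.IsSeparable (RatFunc k) K]

/-- `2 w dw = F'(x) dx` -/
theorem two_w_del_22 {F : k[X]} {x w : K} (h : Hyp F x w) :
    2 * w * del k K w = aeval x F.derivative * del k K x := by
  have := congrArg (del k K) h.sq
  rw [Derivation.leibniz_pow, Derivation.map_aeval] at this
  simp only [smul_eq_mul, nsmul_eq_mul] at this
  rw [← this]; push_cast; ring

/-- `x ^ m dx / w` is regular (any perfect constant field) -/
theorem reg_22 {F : k[X]} {x w : K} (h : Hyp F x w) {m : ℕ} (hm : 2 * m + 3 ≤ F.natDegree) :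
    x ^ m / w * del k K x ∈ LD (canD k K) := by
  rw [mem_LD]
  intro P
  have hw0 := h.w_ne
  rcases le_or_gt (P.v x) 1 with hx | hx
  · have hw : P.v w ≤ 1 := by
      have h1 : P.v w ^ 2 ≤ 1 := by rw [← map_pow, h.sq]; exact v_aeval_le_one P hx F
      by_contra hc
      exact absurd h1 (not_le.2 (one_lt_pow₀ (not_le.1 hc) two_ne_zero))
    have hxm : P.v (x ^ m) ≤ 1 := by rw [map_pow]; exact pow_le_one₀ zero_le hx
    rcases hw.eq_or_lt with hw1 | hw1
    · rw [map_mul, map_div₀, hw1, div_one]
      exact (mul_le_of_le_one_left' hxm).trans (v_del_le P hx)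
    · have hF : P.v (aeval x F) < 1 := by
        rw [← h.sq, map_pow]; exact pow_lt_one₀ zero_le hw1 two_ne_zero
      obtain ⟨p, q, hpq⟩ := h.sep
      have e := congrArg (aeval x) hpq
      rw [map_add, map_mul, map_mul, map_one] at e
      have h1 : P.v (aeval x p * aeval x F) < 1 := by
        rw [map_mul]
        exact (mul_le_of_le_one_left' (v_aeval_le_one P hx p)).trans_lt hF
      have e2 : x ^ m / w * del k K x =
          x ^ m * (aeval x p * w * del k K x + aeval x q * (2 * del k K w)) := by
        have h2 := two_w_del_22 h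
        have h3 := h.sq
        field_simp
        linear_combination x ^ m * (-del k K x) * e - x ^ m * aeval x p * del k K x * h3 -
          x ^ m * aeval x q * h2
      have two : P.v (2 : K) ≤ 1 := by
        have := v_const_le P (2 : k)
        rwa [map_ofNat] at this
      rw [e2, map_mul]
      refine (mul_le_of_le_one_left' hxm).trans ((Valuation.map_add _ _ _).trans (max_le ?_ ?_))
      · rw [map_mul, map_mul]
        exact (mul_le_of_le_one_left' (mul_le_one' (v_aeval_le_one P hx p) hw)).trans
          (v_del_le P hx)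
      · rw [map_mul, map_mul, ← mul_assoc]
        exact (mul_le_of_le_one_left' (mul_le_one' (v_aeval_le_one P hx q) two)).trans
          (v_del_le P hw)
  · have h2 := h.two_ord_w hx
    have h3 := divf_neg_of_lt (k := k) h.x_ne hx
    have h4 : -(m : ℤ) * divf (k := k) x P + divf (k := k) w P - divf (k := k) x P + 1 ≤ 0 := by
      obtain ⟨j, hj⟩ := Nat.exists_eq_add_of_le hm
      rw [hj] at h2
      push_cast at h2
      rcases Nat.eq_zero_or_pos j with rfl | hj0
      · have : Even (divf (k := k) x P) := by
          refine ⟨divf (k := k) w P - (m + 1) * divf (k := k) x P, ?_⟩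
          push_cast at h2; linarith
        obtain ⟨s, hs⟩ := this
        have : divf (k := k) x P ≤ -2 := by omega
        push_cast at h2; nlinarith
      · have : (1 : ℤ) ≤ j := by exact_mod_cast hj0
        nlinarith
    rw [map_mul, map_div₀, map_pow]
    refine (mul_le_mul_right (v_del_le' P x) _).trans ?_
    rw [v_eq (k := k) h.x_ne, v_eq (k := k) hw0, ← exp_nsmul, ← exp_sub, ← exp_add, ← exp_add,
      exp_le_exp, nsmul_eq_mul]
    linarith

theorem regStmt_22 : RegStmt := fun C K _ _ _ _ _ _ _ _ _ F x w h m hm => reg_22 h hm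

end Crest.Agent.T15.Hon
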