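import Crest.Agent.T15.FrmP_90
import Crest.Agent.T15.Omq_82

/-!
# Row 15, block Ht (helper90): `FrmStmt` from `MatStmt`
-/

set_option autoImplicit false

namespace Crest.Agent.T15.Ht

theorem frmStmt_mat (hMat : MatStmt) : FrmStmt :=
  frmStmt_of (fun _ _ _ h Ω _ _ _ d => exists_Lam hMat h Ω d) plS90

end Crest.Agent.T15.Ht
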