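import Mathlib
import Crest.Agent.T15.HonDef_54

/-!
# Row 15, block Ht (helper54): the functional equation lemma
-/

set_option autoImplicit false
set_option linter.all false

noncomputable section

namespace Crest.Agent.T15.Hon

open scoped NNReal PowerSeries
open PowerSeries

variable {K0 : Type*} [Field K0] {v0 : Valuation K0 ℝ≥0}

namespace PI

variable {c c' : ℝ≥0} {f g : K0⟦X⟧}

theorem mono (h : PI v0 c f) (hc : c ≤ c') : PI v0 c' f := fun n => (h n).trans hc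

theorem zero (c : ℝ≥0) : PI v0 c (0 : K0⟦X⟧) := fun n => by simp

theorem add (h : PI v0 c f) (h' : PI v0 c g) : PI v0 c (f + g) := fun n => by
  rw [map_add]; exact (v0.map_add _ _).trans (max_le (h n) (h' n))

theorem neg (h : PI v0 c f) : PI v0 c (-f) := fun n => by
  rw [map_neg, Valuation.map_neg]; exact h n

theorem sub (h : PI v0 c f) (h' : PI v0 c g) : PI v0 c (f - g) := by
  rw [sub_eq_add_neg]; exact h.add h'.neg

theorem mul (h : PI v0 c f) (h' : PI v0 c' g) : PI v0 (c * c') (f * g) := fun n => by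
  rw [coeff_mul]
  refine v0.map_sum_le fun x _ => ?_
  rw [map_mul]
  exact mul_le_mul' (h _) (h' _)

theorem mul_left (h : PI v0 1 f) (h' : PI v0 c g) : PI v0 c (f * g) := by
  simpa using h.mul h'

theorem mul_right (h : PI v0 c f) (h' : PI v0 1 g) : PI v0 c (f * g) := by
  simpa using h.mul h'

theorem sum {ι : Type*} (s : Finset ι) {f : ι → K0⟦X⟧} (h : ∀ i ∈ s, PI v0 c (f i)) :
    PI v0 c (∑ i ∈ s, f i) := fun n => by
  rw [map_sum]; exact v0.map_sum_le fun i hi => h i hi n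

theorem const (a : K0) : PI v0 (v0 a) (C a) := fun n => by
  rw [coeff_C]; split_ifs <;> simp

theorem const_le {a : K0} (h : v0 a ≤ c) : PI v0 c (C a) := (const a).mono h

theorem one : PI v0 1 (1 : K0⟦X⟧) := by simpa using const (v0 := v0) 1

theorem X' : PI v0 1 (X : K0⟦X⟧) := fun n => by
  rw [coeff_X]; split_ifs <;> simp

theorem pow (h : PI v0 1 f) (n : ℕ) : PI v0 1 (f ^ n) := by
  induction n with
  | zero => simpa using one
  | succ n ih => rw [pow_succ]; exact ih.mul_left h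

theorem trans_sub {f g h : K0⟦X⟧} (h1 : PI v0 c (f - g)) (h2 : PI v0 c (g - h)) :
    PI v0 c (f - h) := by
  have := h1.add h2
  rwa [sub_add_sub_cancel] at this

theorem symm_sub (h : PI v0 c (f - g)) : PI v0 c (g - f) := by
  have := h.neg; rwa [neg_sub] at this

theorem of_sub (h : PI v0 c (f - g)) (h' : PI v0 c g) : PI v0 c f := by
  have := h.add h'; rwa [sub_add_cancel] at this

end PI

theorem v_natCast_le (v0 : Valuation K0 ℝ≥0) (n : ℕ) : v0 n ≤ 1 := natCast_mem v0.integer n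

theorem v_intCast_le (v0 : Valuation K0 ℝ≥0) (n : ℤ) : v0 n ≤ 1 := intCast_mem v0.integer n

theorem v_natCast_eq {p : ℕ} (hp : p.Prime) (h : v0 p < 1) {n : ℕ} (hn : ¬ p ∣ n) : v0 n = 1 := by
  refine le_antisymm (v_natCast_le v0 n) (not_lt.1 fun h' => ?_)
  obtain ⟨a, b, hab⟩ := Nat.isCoprime_iff_coprime.2 ((Nat.Prime.coprime_iff_not_dvd hp).2 hn)
  have e : (a : K0) * p + (b : K0) * n = 1 := by exact_mod_cast congrArg (Int.cast : ℤ → K0) hab
  have : v0 ((a : K0) * p + (b : K0) * n) < 1 := by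
    refine v0.map_add_lt ?_ ?_ <;> rw [map_mul]
    · exact mul_lt_one_of_nonneg_of_lt_one_right (v_intCast_le v0 a) zero_le h
    · exact mul_lt_one_of_nonneg_of_lt_one_right (v_intCast_le v0 b) zero_le h'
  rw [e, map_one] at this
  exact lt_irrefl _ this

variable (v0) in
/-- the ring of integral series -/
def PIr : Subring K0⟦X⟧ where
  carrier := {f | PI v0 1 f}
  mul_mem' := fun h h' => PI.mul_left h h'
  one_mem' := PI.one
  add_mem' := fun h h' => PI.add h h'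
  zero_mem' := PI.zero 1
  neg_mem' := fun h => PI.neg h

theorem pi_of_dvd {a : K0} {f : PIr v0} (ha : v0 a ≤ 1)
    (h : (⟨C a, PI.const_le ha⟩ : PIr v0) ∣ f) : PI v0 (v0 a) (f : K0⟦X⟧) := by
  obtain ⟨g, rfl⟩ := h
  exact PI.mul_right (PI.const a) g.2

theorem v_finsum_le {f : ℕ → K0} {c : ℝ≥0} (h : ∀ i, v0 (f i) ≤ c) : v0 (∑ᶠ i, f i) ≤ c :=
  finsum_induction (fun x => v0 x ≤ c) (by simp)
    (fun x y hx hy => (v0.map_add _ _).trans (max_le hx hy)) h

theorem PI.subst {c : ℝ≥0} {f a : K0⟦X⟧} (hf : PI v0 c f) (ha : PI v0 1 a)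
    (h0 : constantCoeff a = 0) : PI v0 c (f.subst a) := fun n => by
  rw [coeff_subst' (HasSubst.of_constantCoeff_zero' h0)]
  refine v_finsum_le fun d => ?_
  rw [smul_eq_mul, map_mul]
  exact mul_le_of_le_of_le_one (hf d) (ha.pow d n)

theorem coeff_subst_sub {a b : K0⟦X⟧} (ha : constantCoeff a = 0) (hb : constantCoeff b = 0)
    (f : K0⟦X⟧) (e : ℕ) : coeff e (f.subst a - f.subst b) =
      ∑ᶠ d, coeff d f * coeff e (a ^ d - b ^ d) := by
  have h1 := HasSubst.of_constantCoeff_zero' ha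
  have h2 := HasSubst.of_constantCoeff_zero' hb
  rw [map_sub, coeff_subst' h1, coeff_subst' h2,
    ← finsum_sub_distrib (coeff_subst_finite' h1 f e) (coeff_subst_finite' h2 f e)]
  refine finsum_congr fun d => ?_
  rw [map_sub, mul_sub, smul_eq_mul, smul_eq_mul]

variable [CharZero K0] {p : ℕ}

theorem pow_congr (hp : p.Prime) (h : v0 p < 1) {a b : K0⟦X⟧} (ha : PI v0 1 a) (hb : PI v0 1 b)
    (hab : PI v0 (v0 p) (a - b)) (n : ℕ) : PI v0 (v0 p * v0 n) (a ^ n - b ^ n) := by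
  rcases Nat.eq_zero_or_pos n with rfl | hn
  · simpa using PI.zero _
  obtain ⟨k, m, hm, rfl⟩ := Nat.exists_eq_pow_mul_and_not_dvd hn.ne' p hp.ne_one
  have hp0 : (p : K0) ≠ 0 := Nat.cast_ne_zero.2 hp.ne_zero
  have hv0 : v0 p ≠ 0 := (Valuation.ne_zero_iff _).2 hp0
  let A : PIr v0 := ⟨a, ha⟩
  let B : PIr v0 := ⟨b, hb⟩
  have h1 : (p : PIr v0) ∣ A - B := by
    refine ⟨⟨C (p : K0)⁻¹ * (a - b), ?_⟩, Subtype.ext ?_⟩
    · have := (PI.const (v0 := v0) (p : K0)⁻¹).mul hab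
      rwa [map_inv₀, inv_mul_cancel₀ hv0] at this
    · show a - b = (p : K0⟦X⟧) * (C (p : K0)⁻¹ * (a - b))
      rw [← map_natCast (C : K0 →+* K0⟦X⟧), ← mul_assoc, ← map_mul, mul_inv_cancel₀ hp0, map_one,
        one_mul]
  have h2 := (dvd_sub_pow_of_dvd_sub h1 k).trans (sub_dvd_pow_sub_pow _ _ m)
  have h3 : v0 ((p : K0) ^ (k + 1)) ≤ 1 := by rw [map_pow]; exact pow_le_one' h.le _
  have h4 : ((p : PIr v0) ^ (k + 1)) = ⟨C ((p : K0) ^ (k + 1)), PI.const_le h3⟩ := by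
    apply Subtype.ext; simp
  rw [h4] at h2
  have h5 := pi_of_dvd h3 h2
  simp only [A, B, AddSubgroupClass.coe_sub, SubmonoidClass.coe_pow, ← pow_mul] at h5
  convert h5 using 1
  push_cast
  rw [map_mul, v_natCast_eq hp h hm, map_pow, map_pow, mul_one, pow_succ']

/-- the derivative is integral -/
def LI (v0 : Valuation K0 ℝ≥0) (l : K0⟦X⟧) : Prop := ∀ n : ℕ, v0 (n * coeff n l) ≤ 1

theorem log_congr (hp : p.Prime) (h : v0 p < 1) {l a b : K0⟦X⟧} (hl : LI v0 l) (ha : PI v0 1 a)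
    (hb : PI v0 1 b) (ha0 : constantCoeff a = 0) (hb0 : constantCoeff b = 0)
    (hab : PI v0 (v0 p) (a - b)) : PI v0 (v0 p) (l.subst a - l.subst b) := fun e => by
  rw [coeff_subst_sub ha0 hb0]
  refine v_finsum_le fun d => ?_
  rw [map_mul]
  calc v0 (coeff d l) * v0 (coeff e (a ^ d - b ^ d)) ≤ v0 (coeff d l) * (v0 p * v0 d) :=
        mul_le_mul_right (pow_congr hp h ha hb hab d e) _
    _ = v0 p * v0 (d * coeff d l) := by rw [map_mul]; ring
    _ ≤ v0 p := mul_le_of_le_one_right' (hl d)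

section fr

omit [CharZero K0]

theorem coeff_fr (σ : K0 →+* K0) {q : ℕ} (hq : q ≠ 0) (f : K0⟦X⟧) (n : ℕ) :
    coeff n (fr σ q hq f) = if q ∣ n then σ (coeff (n / q) f) else 0 := by
  show coeff n (expand q hq (map σ f)) = _
  rw [coeff_expand, coeff_map]

theorem constantCoeff_fr (σ : K0 →+* K0) {q : ℕ} (hq : q ≠ 0) (f : K0⟦X⟧) :
    constantCoeff (fr σ q hq f) = σ (constantCoeff f) := by
  rw [← coeff_zero_eq_constantCoeff_apply, coeff_fr]; simp

theorem fr_X (σ : K0 →+* K0) {q : ℕ} (hq : q ≠ 0) : fr σ q hq X = X ^ q := by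
  show expand q hq (map σ X) = _
  rw [map_X, expand_X]

theorem fr_C (σ : K0 →+* K0) {q : ℕ} (hq : q ≠ 0) (a : K0) : fr σ q hq (C a) = C (σ a) := by
  show expand q hq (map σ (C a)) = _
  rw [map_C, expand_C]

theorem PI.fr {σ : K0 →+* K0} (hσ : ∀ a, v0 (σ a) = v0 a) {q : ℕ} (hq : q ≠ 0) {c : ℝ≥0}
    {f : K0⟦X⟧} (hf : PI v0 c f) : PI v0 c (fr σ q hq f) := fun n => by
  rw [coeff_fr]
  split_ifs
  · rw [hσ]; exact hf _
  · simp

theorem fr_fr (σ σ' : K0 →+* K0) {q q' : ℕ} (hq : q ≠ 0) (hq' : q' ≠ 0) (f : K0⟦X⟧) :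
    fr σ q hq (fr σ' q' hq' f) = fr (σ.comp σ') (q * q') (mul_ne_zero hq hq') f := by
  ext n
  rw [coeff_fr, coeff_fr, coeff_fr]
  by_cases h : q ∣ n
  · obtain ⟨m, rfl⟩ := h
    rw [if_pos (dvd_mul_right _ _), Nat.mul_div_cancel_left _ (Nat.pos_of_ne_zero hq)]
    by_cases h' : q' ∣ m
    · rw [if_pos h', if_pos (mul_dvd_mul_left _ h'),
        Nat.mul_div_mul_left _ _ (Nat.pos_of_ne_zero hq)]
      rfl
    · rw [if_neg h', if_neg (fun h2 => h' ((Nat.mul_dvd_mul_iff_left (Nat.pos_of_ne_zero hq)).1 h2)),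
        map_zero]
  · rw [if_neg h, if_neg (fun h2 => h ((dvd_mul_right _ _).trans h2))]

theorem fr_pow (σ : K0 →+* K0) {q : ℕ} (hq : q ≠ 0) (k : ℕ) (f : K0⟦X⟧) :
    (fr σ q hq ^ k) f = fr (σ ^ k) (q ^ k) (pow_ne_zero k hq) f := by
  induction k with
  | zero => ext n; rw [coeff_fr]; simp
  | succ k ih =>
    rw [pow_succ', RingHom.mul_def, RingHom.comp_apply, ih, fr_fr]
    congr 2
    · rw [pow_succ', RingHom.mul_def]
    · rw [pow_succ']

theorem fr_subst (σ : K0 →+* K0) {q : ℕ} (hq : q ≠ 0) (l : K0⟦X⟧) {a : K0⟦X⟧}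
    (ha : constantCoeff a = 0) : fr σ q hq (l.subst a) = (map σ l).subst (fr σ q hq a) := by
  have h1 := HasSubst.of_constantCoeff_zero' ha
  have h2 : HasSubst (map σ a) := HasSubst.of_constantCoeff_zero' (by
    rw [← coeff_zero_eq_constantCoeff_apply, coeff_map, coeff_zero_eq_constantCoeff_apply, ha,
      map_zero])
  have h3 : map σ (l.subst a) = (map σ l).subst (map σ a) := map_subst h1 l
  show expand q hq (map σ (l.subst a)) = _
  rw [h3]
  exact expand_subst q hq h2 _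

theorem subst_fr (σ : K0 →+* K0) {q : ℕ} (hq : q ≠ 0) (l : K0⟦X⟧) {a : K0⟦X⟧}
    (ha : constantCoeff a = 0) : (fr σ q hq l).subst a = (map σ l).subst (a ^ q) := by
  have h1 := HasSubst.of_constantCoeff_zero' ha
  show (expand q hq (map σ l)).subst a = _
  rw [expand_apply, subst_comp_subst_apply (HasSubst.X_pow hq) h1, subst_pow h1, subst_X h1]

variable {σ : K0 →+* K0}

theorem Un.iso_pow (U : Un v0 p σ) (k : ℕ) (a : K0) : v0 ((σ ^ k) a) = v0 a := by
  induction k with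
  | zero => rfl
  | succ k ih => rw [pow_succ', RingHom.mul_def, RingHom.comp_apply, U.iso, ih]

theorem Un.fr_one (U : Un v0 p σ) (hp : p ≠ 0) {a : K0⟦X⟧} (ha : PI v0 1 a) :
    PI v0 (v0 p) (fr σ p hp a - a ^ p) := fun n => by
  apply U.disc
  let O := v0.valuationSubring
  let a' : O⟦X⟧ := PowerSeries.mk fun n => ⟨coeff n a, ha n⟩
  have h1 : map O.subtype a' = a := by ext n; simp [a']
  have hmem : ∀ x : O, IsLocalRing.residue O x = 0 ↔ v0 x < 1 := fun x => by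
    rw [IsLocalRing.residue_eq_zero_iff]; exact Valuation.mem_maximalIdeal_iff _ _
  haveI := Fact.mk U.prime
  haveI : CharP (IsLocalRing.ResidueField O) p := by
    apply (CharP.charP_iff_prime_eq_zero U.prime).2
    rw [← map_natCast (IsLocalRing.residue O), hmem]
    exact U.lt
  haveI : ExpChar (IsLocalRing.ResidueField O) p := ExpChar.prime U.prime
  have h2 : map (frobenius _ p) (expand p hp (map (IsLocalRing.residue O) a')) =
      map (IsLocalRing.residue O) a' ^ p := MvPowerSeries.map_frobenius_expand p hp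
  have h3 := congrArg (coeff n) h2
  rw [← map_pow, coeff_map, coeff_map, coeff_expand, coeff_map] at h3
  have h4 : coeff n (a ^ p) = (coeff n (a' ^ p) : O) := by
    rw [← h1, ← map_pow, coeff_map]; rfl
  rw [map_sub, coeff_fr, h4]
  split_ifs at h3 ⊢ with hd
  · rw [frobenius_def, ← map_pow, ← sub_eq_zero, ← map_sub, hmem] at h3
    have h5 := U.frob _ (ha (n / p))
    have h6 := v0.map_add_lt h5 h3
    convert h6 using 2
    simp [a']
  · rw [map_zero, eq_comm, hmem] at h3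
    rwa [zero_sub, Valuation.map_neg]

theorem pow_sub_pow_PI {c : ℝ≥0} {a b : K0⟦X⟧} (ha : PI v0 1 a) (hb : PI v0 1 b)
    (hab : PI v0 c (a - b)) (n : ℕ) : PI v0 c (a ^ n - b ^ n) := by
  rw [← (Commute.all a b).mul_geom_sum₂]
  exact hab.mul_right (PI.sum _ fun i _ => (ha.pow _).mul_left (hb.pow _))

theorem Un.fr_pow_congr (U : Un v0 p σ) (hp : p ≠ 0) {a : K0⟦X⟧} (ha : PI v0 1 a) (k : ℕ) :
    PI v0 (v0 p) (fr (σ ^ k) (p ^ k) (pow_ne_zero k hp) a - a ^ p ^ k) := by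
  induction k with
  | zero => rw [← fr_pow σ hp]; simpa using PI.zero _
  | succ k ih =>
    have h1 : PI v0 1 (fr (σ ^ k) (p ^ k) (pow_ne_zero k hp) a) := ha.fr (U.iso_pow k) _
    rw [← fr_pow σ hp, pow_succ', RingHom.mul_def, RingHom.comp_apply, fr_pow, pow_succ, pow_mul]
    exact (U.fr_one hp h1).trans_sub (pow_sub_pow_PI h1 (ha.pow _) ih p)

end fr

variable {σ : K0 →+* K0}

theorem Un.fr_subst_congr (U : Un v0 p σ) (hp : p ≠ 0) {l a : K0⟦X⟧} (hl : LI v0 l)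
    (ha : PI v0 1 a) (h0 : constantCoeff a = 0) (k : ℕ) :
    PI v0 (v0 p) ((fr σ p hp ^ k) (l.subst a) - ((fr σ p hp ^ k) l).subst a) := by
  rw [fr_pow, fr_pow, fr_subst _ _ _ h0, subst_fr _ _ _ h0]
  refine log_congr U.prime U.lt (fun n => ?_) (ha.fr (U.iso_pow k) _) (ha.pow _) ?_ ?_
    (U.fr_pow_congr hp ha k)
  · rw [coeff_map, ← map_natCast (σ ^ k), ← map_mul, U.iso_pow]; exact hl n
  · rw [constantCoeff_fr, h0, map_zero]
  · rw [map_pow, h0, zero_pow (pow_ne_zero k hp)]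

omit [CharZero K0] in
theorem coeff_subst_sub_of_dvd {a b : K0⟦X⟧} (ha : constantCoeff a = 0) (hb : constantCoeff b = 0)
    {n : ℕ} (hab : X ^ n ∣ a - b) (l : K0⟦X⟧) {e : ℕ} (he : e ≤ n) :
    coeff e (l.subst a - l.subst b) = coeff 1 l * coeff e (a - b) := by
  rw [coeff_subst_sub ha hb, finsum_eq_single _ 1, pow_one, pow_one]
  intro d hd
  rcases Nat.eq_zero_or_pos d with rfl | h0
  · simp
  have h1 : X ^ (n + 1) ∣ a ^ d - b ^ d := by
    rw [← (Commute.all a b).mul_geom_sum₂, pow_succ]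
    refine mul_dvd_mul hab (Finset.dvd_sum fun i hi => ?_)
    rcases Nat.eq_zero_or_pos i with rfl | hi0
    · exact Dvd.dvd.mul_left ((X_dvd_iff.2 hb).trans (dvd_pow_self _ (by omega))) _
    · exact Dvd.dvd.mul_right ((X_dvd_iff.2 ha).trans (dvd_pow_self _ hi0.ne')) _
  rw [(X_pow_dvd_iff.1 h1) e (by omega), mul_zero]

/-- the operator `p + ∑ B k T^(k+1)` -/
def uop {g : ℕ} (σ : K0 →+* K0) (p : ℕ) (hp : p ≠ 0) (r : ℕ) (B : ℕ → Fin g → Fin g → K0)
    (ψ : Fin g → K0⟦X⟧) (m : Fin g) : K0⟦X⟧ :=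
  C (p : K0) * ψ m + ∑ k ∈ Finset.range r, ∑ m', C (B k m m') * (fr σ p hp ^ (k + 1)) (ψ m')

omit [CharZero K0] in
theorem uop_sub_sum {g : ℕ} {hp : p ≠ 0} {r : ℕ} {B : ℕ → Fin g → Fin g → K0} {ι : Type*}
    (s : Finset ι) (Φ : Fin g → K0⟦X⟧) (ψ : ι → Fin g → K0⟦X⟧) (m : Fin g) :
    uop σ p hp r B (fun m => Φ m - ∑ i ∈ s, ψ i m) m =
      uop σ p hp r B Φ m - ∑ i ∈ s, uop σ p hp r B (ψ i) m := by
  simp only [uop, map_sub, map_sum, mul_sub, Finset.mul_sum, Finset.sum_sub_distrib,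
    Finset.sum_add_distrib]
  rw [Finset.sum_comm (s := s)]
  have : ∀ k, ∑ m', ∑ i ∈ s, C (B k m m') * (fr σ p hp ^ (k + 1)) (ψ i m') =
      ∑ i ∈ s, ∑ m', C (B k m m') * (fr σ p hp ^ (k + 1)) (ψ i m') := fun k => Finset.sum_comm
  simp only [this]
  ring

theorem Un.uop_subst (U : Un v0 p σ) (hp : p ≠ 0) {g r : ℕ} {B : ℕ → Fin g → Fin g → K0}
    (hB : ∀ k m m', v0 (B k m m') ≤ 1) {l : Fin g → K0⟦X⟧} (hl : ∀ m, LI v0 (l m)) {a : K0⟦X⟧}
    (ha : PI v0 1 a) (h0 : constantCoeff a = 0) {m : Fin g}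
    (hu : PI v0 (v0 p) (uop σ p hp r B l m)) :
    PI v0 (v0 p) (uop σ p hp r B (fun m => (l m).subst a) m) := by
  have h1 := HasSubst.of_constantCoeff_zero' h0
  refine PI.of_sub ?_ (hu.subst ha h0)
  have hC : ∀ (c : K0) (f : K0⟦X⟧), (C c * f).subst a = C c * f.subst a := fun c f => by
    rw [← smul_eq_C_mul, ← smul_eq_C_mul, subst_smul h1]
  have h2 : (uop σ p hp r B l m).subst a = C (p : K0) * (l m).subst a +
      ∑ k ∈ Finset.range r, ∑ m', C (B k m m') * ((fr σ p hp ^ (k + 1)) (l m')).subst a := by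
    rw [uop, subst_add h1, hC, ← coe_substAlgHom h1, map_sum]
    congr 1
    refine Finset.sum_congr rfl fun k _ => ?_
    rw [map_sum]
    refine Finset.sum_congr rfl fun m' _ => ?_
    rw [coe_substAlgHom, hC]
  rw [h2, uop, add_sub_add_left_eq_sub, ← Finset.sum_sub_distrib]
  refine PI.sum _ fun k _ => ?_
  rw [← Finset.sum_sub_distrib]
  refine PI.sum _ fun m' _ => ?_
  rw [← mul_sub]
  exact (PI.const_le (hB k m m')).mul_left (U.fr_subst_congr hp (hl m') ha h0 _)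

/-- **the functional equation lemma** -/
theorem Un.fe (U : Un v0 p σ) (hp : p ≠ 0) {g r : ℕ} {B : ℕ → Fin g → Fin g → K0}
    (hB : ∀ k m m', v0 (B k m m') ≤ 1) {ι : Type*} [Fintype ι] {l : ι → Fin g → K0⟦X⟧}
    (hl : ∀ i m, LI v0 (l i m)) (hu : ∀ i m, PI v0 (v0 p) (uop σ p hp r B (l i) m))
    (hJ : ∀ y : ι → K0, (∀ m, v0 (∑ i, coeff 1 (l i m) * y i) ≤ 1) → ∀ i, v0 (y i) ≤ 1)
    {Φ : Fin g → K0⟦X⟧} (hΦ : ∀ m, PI v0 (v0 p) (uop σ p hp r B Φ m))
    {τ : ι → K0⟦X⟧} (h0 : ∀ i, constantCoeff (τ i) = 0)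
    (hτ : ∀ m, ∑ i, (l i m).subst (τ i) = Φ m) (i : ι) : PI v0 1 (τ i) := by
  intro n
  induction n using Nat.strong_induction_on generalizing i with
  | _ n ih =>
  rcases Nat.eq_zero_or_pos n with rfl | hn
  · rw [coeff_zero_eq_constantCoeff_apply, h0]; simp
  let τ' : ι → K0⟦X⟧ := fun i => PowerSeries.mk fun e => if e < n then coeff e (τ i) else 0
  have h1 : ∀ i, PI v0 1 (τ' i) := fun i e => by
    simp only [τ', coeff_mk]
    split_ifs with h
    · exact ih e h i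
    · simp
  have h2 : ∀ i, constantCoeff (τ' i) = 0 := fun i => by
    rw [← coeff_zero_eq_constantCoeff_apply]
    simp only [τ', coeff_mk, if_pos hn]
    rw [coeff_zero_eq_constantCoeff_apply, h0]
  have h3 : ∀ i, X ^ n ∣ τ i - τ' i := fun i => X_pow_dvd_iff.2 fun e he => by
    simp only [τ', map_sub, coeff_mk, if_pos he, sub_self]
  let δ : Fin g → K0⟦X⟧ := fun m => Φ m - ∑ i, (l i m).subst (τ' i)
  have h4 : ∀ m e, e ≤ n → coeff e (δ m) = ∑ i, coeff 1 (l i m) * coeff e (τ i - τ' i) := by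
    intro m e he
    simp only [δ]
    rw [← hτ m, ← Finset.sum_sub_distrib, map_sum]
    exact Finset.sum_congr rfl fun i _ => coeff_subst_sub_of_dvd (h0 i) (h2 i) (h3 i) _ he
  have h5 : ∀ m e, e < n → coeff e (δ m) = 0 := fun m e he => by
    rw [h4 m e he.le]
    exact Finset.sum_eq_zero fun i _ => by rw [X_pow_dvd_iff.1 (h3 i) e he, mul_zero]
  have h6 : ∀ m, PI v0 (v0 p) (uop σ p hp r B δ m) := fun m => by
    rw [uop_sub_sum]
    exact (hΦ m).sub (PI.sum _ fun i _ => U.uop_subst hp hB (hl i) (h1 i) (h2 i) (hu i m))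
  have h7 : ∀ m, coeff n (uop σ p hp r B δ m) = p * coeff n (δ m) := fun m => by
    rw [uop, map_add, coeff_C_mul, map_sum, Finset.sum_eq_zero, add_zero]
    intro k _
    rw [map_sum]
    refine Finset.sum_eq_zero fun m' _ => ?_
    rw [coeff_C_mul, fr_pow, coeff_fr]
    split_ifs
    · rw [h5 _ _ (Nat.div_lt_self hn (Nat.one_lt_pow (by omega) U.prime.one_lt)), map_zero, mul_zero]
    · rw [mul_zero]
  have hv0 : 0 < v0 p := zero_lt_iff.2 ((Valuation.ne_zero_iff _).2 (Nat.cast_ne_zero.2 hp))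
  have h8 := hJ (fun i => coeff n (τ i - τ' i)) (fun m => by
    rw [← h4 m n le_rfl]
    have := h6 m n
    rw [h7, map_mul] at this
    exact (mul_le_iff_le_one_right hv0).1 this) i
  simpa [τ'] using h8

end Crest.Agent.T15.Hon
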