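import Mathlib
import Crest.Agent.T15.HonA_54

/-!
# Row 15, block Ht (helper54): approximate integration of an Abel sum
-/

set_option autoImplicit false
set_option linter.all false

noncomputable section

namespace Crest.Agent.T15.Hon

open scoped NNReal PowerSeries
open Polynomial

section val

variable {Ω : Type*} [Field Ω] {v : Valuation Ω ℝ≥0}

theorem v_pow_sub [CharZero Ω] {p : ℕ} (hp : p.Prime) (h : v p < 1) {a b : Ω} (ha : v a ≤ 1)
    (hb : v b ≤ 1) (hab : v (a - b) ≤ v p) (n : ℕ) : v (a ^ n - b ^ n) ≤ v p * v n := by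
  have := pow_congr hp h (PI.const_le ha) (PI.const_le hb)
    (by rw [← map_sub]; exact PI.const_le hab) n 0
  rw [← map_pow, ← map_pow, ← map_sub] at this
  simpa using this

theorem v_le_one_of_sub {a b : Ω} (hb : v b ≤ 1) (h : v (a - b) < 1) : v a ≤ 1 := by
  have := v.map_add (a - b) b
  rw [sub_add_cancel] at this
  exact this.trans (max_le h.le hb)

theorem v_eq_one_of_sub {a b : Ω} (hb : v b = 1) (h : v (a - b) < 1) : v a = 1 := by
  have := v.map_add_eq_of_lt_right (x := a - b) (y := b) (by rwa [hb])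
  rwa [sub_add_cancel, hb] at this

theorem v_prod_le_one {ι : Type*} (s : Finset ι) {f : ι → Ω} (h : ∀ i ∈ s, v (f i) ≤ 1) :
    v (∏ i ∈ s, f i) ≤ 1 := by
  rw [map_prod]; exact Finset.prod_le_one' h

theorem v_aeval_sub (O : Subring Ω) (hO : ∀ a ∈ O, v a ≤ 1) (R : O[X]) {a b : Ω} (ha : v a ≤ 1)
    (hb : v b ≤ 1) : v (aeval a R - aeval b R) ≤ v (a - b) := by
  rw [aeval_eq_sum_range, aeval_eq_sum_range, ← Finset.sum_sub_distrib]
  refine v.map_sum_le fun n _ => ?_
  rw [← smul_sub, Algebra.smul_def, map_mul, ← (Commute.all a b).mul_geom_sum₂, map_mul]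
  refine mul_le_of_le_one_left' (hO _ (R.coeff n).2) |>.trans (mul_le_of_le_one_right' ?_)
  refine v.map_sum_le fun i _ => ?_
  rw [map_mul, map_pow, map_pow]
  exact mul_le_one' (pow_le_one' ha _) (pow_le_one' hb _)

theorem v_aeval_le (O : Subring Ω) (hO : ∀ a ∈ O, v a ≤ 1) (R : O[X]) {a : Ω} (ha : v a ≤ 1) :
    v (aeval a R) ≤ 1 := by
  rw [aeval_eq_sum_range]
  refine v.map_sum_le fun n _ => ?_
  rw [Algebra.smul_def, map_mul, map_pow]
  exact mul_le_one' (hO _ (R.coeff n).2) (pow_le_one' ha _)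

/-- Newton's iteration for `1 / y` -/
theorem exists_inv (O : Subring Ω) (hO : ∀ a ∈ O, v a ≤ 1)
    (hO' : ∀ a ∈ O, v a = 1 → a⁻¹ ∈ O) (h2 : v 2 = 1) {ι : Type*} [Fintype ι] (F : O[X])
    {a b x y : ι → Ω} (haO : ∀ i, a i ∈ O) (hbO : ∀ i, b i ∈ O)
    (hab : ∀ i j, i ≠ j → v (a i - a j) = 1) (hb : ∀ i, v (b i) = 1)
    (hxy : ∀ i, y i ^ 2 = aeval (x i) F) {c : ℝ≥0} (hc : c ≤ 1) (hx : ∀ i, v (x i - a i) ≤ c)
    (hy : ∀ i, v (y i - b i) ≤ c) (N : ℕ) :
    ∃ R : O[X], ∀ i, v (1 - aeval (x i) R * y i) ≤ c ^ (N + 1) := by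
  classical
  have hx1 : ∀ i, v (x i) ≤ 1 := fun i => by
    have := v.map_add (x i - a i) (a i)
    rw [sub_add_cancel] at this
    exact this.trans (max_le ((hx i).trans hc) (hO _ (haO i)))
  have hy1 : ∀ i, v (y i) ≤ 1 := fun i => by
    have := v.map_add (y i - b i) (b i)
    rw [sub_add_cancel] at this
    exact this.trans (max_le ((hy i).trans hc) (hO _ (hbO i)))
  induction N with
  | zero =>
    let u : ι → Ω := fun i => b i * ∏ j ∈ Finset.univ.erase i, (a i - a j)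
    have hu : ∀ i, v (u i) = 1 := fun i => by
      simp only [u, map_mul, map_prod, hb, one_mul]
      exact Finset.prod_eq_one fun j hj => hab i j (Finset.ne_of_mem_erase hj).symm
    have huO : ∀ i, (u i)⁻¹ ∈ O := fun i =>
      hO' _ (mul_mem (hbO i) (prod_mem fun j _ => sub_mem (haO i) (haO j))) (hu i)
    let R : O[X] := ∑ i, C ⟨_, huO i⟩ * ∏ j ∈ Finset.univ.erase i, (X - C ⟨a j, haO j⟩)
    refine ⟨R, fun i => ?_⟩
    have h1 : aeval (a i) R * b i = 1 := by
      simp only [R, map_sum, map_mul, map_prod, map_sub, aeval_X, aeval_C]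
      rw [Finset.sum_eq_single i]
      · have h0 : u i ≠ 0 := by intro h0; have := hu i; rw [h0] at this; simp at this
        change (u i)⁻¹ * (∏ j ∈ Finset.univ.erase i, (a i - a j)) * b i = 1
        rw [mul_assoc, mul_comm _ (b i)]
        exact inv_mul_cancel₀ h0
      · intro j _ hj
        rw [Finset.prod_eq_zero (Finset.mem_erase.mpr ⟨hj.symm, Finset.mem_univ i⟩)
          (show a i - algebraMap O Ω ⟨a i, haO i⟩ = 0 from sub_self _), mul_zero]
      · simp
    have h3 : 1 - aeval (x i) R * y i =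
        -((aeval (x i) R - aeval (a i) R) * y i + aeval (a i) R * (y i - b i)) := by
      rw [← h1]; ring
    rw [h3, Valuation.map_neg, zero_add, pow_one]
    refine (v.map_add _ _).trans (max_le ?_ ?_) <;> rw [map_mul]
    · exact (mul_le_of_le_one_right' (hy1 i)).trans
        ((v_aeval_sub O hO R (hx1 i) (hO _ (haO i))).trans (hx i))
    · exact (mul_le_of_le_one_left' (v_aeval_le O hO R (hO _ (haO i)))).trans (hy i)
  | succ N ih =>
    obtain ⟨R, hR⟩ := ih
    have h2O : (2 : Ω)⁻¹ ∈ O := hO' _ (by exact_mod_cast natCast_mem O 2) h2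
    have h20 : (2 : Ω) ≠ 0 := by intro h0; rw [h0] at h2; simp at h2
    refine ⟨C ⟨_, h2O⟩ * R * (3 - F * R ^ 2), fun i => ?_⟩
    have h3 : 1 - aeval (x i) (C ⟨_, h2O⟩ * R * (3 - F * R ^ 2)) * y i =
        (1 - aeval (x i) R * y i) ^ 2 * (2⁻¹ * (2 + aeval (x i) R * y i)) := by
      simp only [map_mul, map_sub, map_pow, aeval_C, ← hxy i, map_ofNat]
      change 1 - 2⁻¹ * _ * _ * _ = _
      field_simp
      ring
    have h4 : v (2⁻¹ * (2 + aeval (x i) R * y i)) ≤ 1 := by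
      rw [map_mul, map_inv₀, h2, inv_one, one_mul]
      refine (v.map_add _ _).trans (max_le h2.le ?_)
      rw [map_mul]
      exact mul_le_one' (v_aeval_le O hO R (hx1 i)) (hy1 i)
    rw [h3, map_mul, map_pow]
    refine (mul_le_of_le_one_right' h4).trans ((pow_le_pow_left' (hR i) 2).trans ?_)
    rw [← pow_mul]
    exact pow_le_pow_right_of_le_one' hc (by omega)

theorem d_prod {C : Type*} [Field C] [Algebra C Ω] (d : Derivation C Ω Ω) {ι : Type*}
    [DecidableEq ι] (s : Finset ι) (f : ι → Ω) :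
    d (∏ i ∈ s, f i) = ∑ i ∈ s, (∏ j ∈ s.erase i, f j) * d (f i) := by
  induction s using Finset.induction_on with
  | empty => simp
  | insert a s ha ih =>
    rw [Finset.prod_insert ha, Finset.sum_insert ha, Derivation.leibniz, ih, Finset.erase_insert ha,
      smul_eq_mul, smul_eq_mul, add_comm, Finset.mul_sum]
    congr 1
    refine Finset.sum_congr rfl fun i hi => ?_
    rw [Finset.erase_insert_of_ne (by rintro rfl; exact ha hi),
      Finset.prod_insert (fun h => ha (Finset.mem_of_mem_erase h)), mul_assoc]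

end val

namespace Vs

variable {C : Type} [Field C] {K0 : Subfield C} {v0 : Valuation K0 ℝ≥0} {p : ℕ} {hp : p ≠ 0}
  {σ : K0 →+* K0} (X : Vs C K0 v0 p hp σ)

theorem v_nat (n : ℕ) : X.v n = v0 n := by
  have := X.v_K0 n
  simpa using this

/-- the integral constants of `L0` -/
def O : Subring X.Ω where
  carrier := {y | y ∈ X.L0 ∧ X.v y ≤ 1 ∧ X.d y = 0}
  mul_mem' := fun h h' => ⟨mul_mem h.1 h'.1, by rw [map_mul]; exact mul_le_one' h.2.1 h'.2.1,
    by rw [Derivation.leibniz, h.2.2, h'.2.2]; simp⟩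
  one_mem' := ⟨one_mem _, by simp, by simp⟩
  add_mem' := fun h h' => ⟨add_mem h.1 h'.1, (X.v.map_add _ _).trans (max_le h.2.1 h'.2.1),
    by rw [map_add, h.2.2, h'.2.2, add_zero]⟩
  zero_mem' := ⟨zero_mem _, by simp, by simp⟩
  neg_mem' := fun h => ⟨neg_mem h.1, by rw [Valuation.map_neg]; exact h.2.1,
    by rw [map_neg, h.2.2, neg_zero]⟩

theorem O_le (a : X.Ω) (h : a ∈ X.O) : X.v a ≤ 1 := h.2.1

theorem O_inv (a : X.Ω) (h : a ∈ X.O) (h1 : X.v a = 1) : a⁻¹ ∈ X.O :=
  ⟨inv_mem h.1, by rw [map_inv₀, h1, inv_one], by rw [Derivation.leibniz_inv, h.2.2, smul_zero]⟩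

theorem K0_mem_O (a : K0) (h : v0 a ≤ 1) : algebraMap C X.Ω a ∈ X.O :=
  ⟨X.K0_mem a, by rwa [X.v_K0], X.d.map_algebraMap _⟩

/-- approximate integration -/
theorem integ (U : Un v0 p σ) (h2 : v0 2 = 1) {ι : Type*} [Fintype ι] (F : X.O[X])
    {a b x y : ι → X.Ω} (haO : ∀ i, a i ∈ X.O) (hbO : ∀ i, b i ∈ X.O)
    (hab : ∀ i j, i ≠ j → X.v (a i - a j) = 1) (hb : ∀ i, X.v (b i) = 1)
    (hF : ∀ i, b i ^ 2 = aeval (a i) F) (hxy : ∀ i, y i ^ 2 = aeval (x i) F)
    (hx : ∀ i, X.v (x i - a i) < 1) (hy : ∀ i, X.v (y i - b i) < 1)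
    (hg : ∀ g : X.Ω ≃+* X.Ω, (∀ u ∈ X.L0, g u = u) → ∃ π : Equiv.Perm ι, ∀ i, g (x i) = x (π i))
    (m N : ℕ) : ∃ H ∈ X.L0, X.v H ≤ v0 p ∧
      X.v (∑ i, x i ^ m / y i * X.d (x i) - X.d H) ≤ v0 p ^ N := by
  classical
  have hv2 : X.v 2 = 1 := by have := X.v_nat 2; rw [← h2]; simpa using this
  have hx1 : ∀ i, X.v (x i) ≤ 1 := fun i => v_le_one_of_sub (X.O_le _ (haO i)) (hx i)
  have hy1 : ∀ i, X.v (y i) = 1 := fun i => v_eq_one_of_sub (hb i) (hy i)
  have hxa : ∀ i j, i ≠ j → X.v (x i - a j) = 1 := fun i j hij =>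
    v_eq_one_of_sub (hab i j hij) (by rw [sub_sub_sub_cancel_right]; exact hx i)
  -- symmetric functions
  have hu : ∀ j, ∏ i, (x i - a j) ∈ X.L0 := fun j => X.fixed _ fun g hg' => by
    obtain ⟨π, hπ⟩ := hg g hg'
    simp only [map_prod, map_sub, hπ, hg' _ (haO j).1]
    exact Equiv.prod_comp π fun i => x i - a j
  have hs : ∀ n : ℕ, ∑ i, x i ^ n ∈ X.L0 := fun n => X.fixed _ fun g hg' => by
    obtain ⟨π, hπ⟩ := hg g hg'
    simp only [map_sum, map_pow, hπ]
    exact Equiv.sum_comp π fun i => x i ^ n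
  have hvu : ∀ j, X.v (∏ i, (x i - a j)) = X.v (x j - a j) := fun j => by
    rw [map_prod, Finset.prod_eq_single j (fun i _ hi => hxa i j hi) (by simp)]
  have hxp : ∀ j, X.v (x j - a j) ≤ v0 p := fun j => by
    rw [← hvu]; exact X.disc _ (hu j) (by rw [hvu]; exact hx j)
  have hyp : ∀ j, X.v (y j - b j) ≤ v0 p := fun j => by
    have h1 : X.v (y j + b j) = 1 := v_eq_one_of_sub (b := 2 * b j) (by rw [map_mul, hv2, hb, one_mul])
      (by rw [show y j + b j - 2 * b j = y j - b j by ring]; exact hy j)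
    have h3 := (v_aeval_sub X.O X.O_le F (hx1 j) (X.O_le _ (haO j))).trans (hxp j)
    rwa [← hF, ← hxy, sq_sub_sq, map_mul, h1, one_mul] at h3
  -- the derivatives are integral
  have hd : ∀ j, X.v (X.d (x j)) ≤ 1 := by
    intro j0
    obtain ⟨j, -, hj⟩ := Finset.exists_max_image Finset.univ (fun j => X.v (X.d (x j)))
      ⟨j0, Finset.mem_univ _⟩
    refine (hj j0 (Finset.mem_univ _)).trans (not_lt.mp fun hlt => ?_)
    have h1 := (X.v_d _ (hu j)).trans (v_prod_le_one _ fun i _ =>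
      (X.v.map_sub _ _).trans (max_le (hx1 i) (X.O_le _ (haO j))))
    rw [d_prod, ← Finset.add_sum_erase _ _ (Finset.mem_univ j)] at h1
    simp only [map_sub, (haO j).2.2, sub_zero] at h1
    have h3 : X.v ((∏ i ∈ Finset.univ.erase j, (x i - a j)) * X.d (x j)) = X.v (X.d (x j)) := by
      rw [map_mul, map_prod, Finset.prod_eq_one fun i hi => hxa i j (Finset.ne_of_mem_erase hi),
        one_mul]
    rw [X.v.map_add_eq_of_lt_left, h3] at h1
    · exact absurd hlt (not_lt.mpr h1)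
    · rw [h3]
      refine X.v.map_sum_lt (ne_of_gt (lt_trans zero_lt_one hlt)) fun i hi => ?_
      rw [map_mul, ← Finset.mul_prod_erase _ _ (Finset.mem_erase.mpr
        ⟨(Finset.ne_of_mem_erase hi).symm, Finset.mem_univ j⟩), map_mul]
      refine lt_of_le_of_lt (mul_le_mul' (mul_le_of_le_one_right' (v_prod_le_one _ fun i _ =>
        (X.v.map_sub _ _).trans (max_le (hx1 i) (X.O_le _ (haO j))))) (hj i (Finset.mem_univ _))) ?_
      exact mul_lt_of_lt_one_left (lt_trans zero_lt_one hlt) (hx j)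
  obtain ⟨R, hR⟩ := exists_inv X.O X.O_le X.O_inv hv2 F haO hbO hab hb hxy U.lt.le hxp hyp N
  set G : X.O[X] := Polynomial.X ^ m * R with hG
  refine ⟨∑ n ∈ Finset.range (G.natDegree + 1), (G.coeff n : X.Ω) / (n + 1 : ℕ) *
    (∑ i, x i ^ (n + 1) - ∑ i, a i ^ (n + 1)), ?_, ?_, ?_⟩
  · exact sum_mem fun n _ => mul_mem (div_mem (G.coeff n).2.1 (natCast_mem _ _))
      (sub_mem (hs _) (sum_mem fun i _ => pow_mem (haO i).1 _))
  · refine X.v.map_sum_le fun n _ => ?_
    rw [← Finset.sum_sub_distrib, Finset.mul_sum]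
    refine X.v.map_sum_le fun i _ => ?_
    have h0 : X.v (n + 1 : ℕ) ≠ 0 := (Valuation.ne_zero_iff _).2 (Nat.cast_ne_zero.2 n.succ_ne_zero)
    have h1 := v_pow_sub U.prime (by rw [X.v_nat]; exact U.lt) (hx1 i) (X.O_le _ (haO i))
      (by rw [X.v_nat]; exact hxp i) (n + 1)
    rw [map_mul, map_div₀, X.v_nat p] at *
    calc _ ≤ 1 / X.v (n + 1 : ℕ) * (v0 p * X.v (n + 1 : ℕ)) :=
          mul_le_mul' (div_le_div_of_nonneg_right (G.coeff n).2.2.1 zero_le') h1
      _ = _ := by field_simp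
  · have h1 : X.d (∑ n ∈ Finset.range (G.natDegree + 1), (G.coeff n : X.Ω) / (n + 1 : ℕ) *
        (∑ i, x i ^ (n + 1) - ∑ i, a i ^ (n + 1))) = ∑ i, aeval (x i) G * X.d (x i) := by
      simp only [aeval_eq_sum_range, Finset.sum_mul]
      rw [Finset.sum_comm, map_sum]
      refine Finset.sum_congr rfl fun n _ => ?_
      have h0 : ((n + 1 : ℕ) : X.Ω) ≠ 0 := Nat.cast_ne_zero.2 n.succ_ne_zero
      have h3 : X.d ((G.coeff n : X.Ω) / (n + 1 : ℕ)) = 0 := by
        rw [Derivation.leibniz_div, (G.coeff n).2.2.2, Derivation.map_natCast]; simp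
      rw [Derivation.leibniz, h3, smul_zero, add_zero, map_sub, map_sum, map_sum]
      simp only [Derivation.leibniz_pow, (haO _).2.2, smul_zero, Finset.sum_const_zero, sub_zero]
      simp only [smul_eq_mul, Finset.mul_sum, nsmul_eq_mul, Nat.add_sub_cancel]
      refine Finset.sum_congr rfl fun i _ => ?_
      change _ = (G.coeff n : X.Ω) * _ * _
      field_simp
    rw [h1, ← Finset.sum_sub_distrib]
    refine X.v.map_sum_le fun i _ => ?_
    have h0 : y i ≠ 0 := by intro h0; have := hy1 i; rw [h0] at this; simp at this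
    have h3 : x i ^ m / y i * X.d (x i) - aeval (x i) G * X.d (x i) =
        (1 - aeval (x i) R * y i) * (x i ^ m / y i * X.d (x i)) := by
      rw [hG, map_mul, map_pow, aeval_X]; field_simp
    rw [h3, map_mul]
    refine (mul_le_of_le_one_right' ?_).trans ((hR i).trans
      (pow_le_pow_right_of_le_one' U.lt.le (by omega)))
    rw [map_mul, map_div₀, hy1, div_one, map_pow]
    exact mul_le_one' (pow_le_one' (hx1 i) _) (hd i)

end Vs

end Crest.Agent.T15.Hon
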