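import Mathlib
import Crest.Agent.T15.HonB_54
import Crest.Agent.T15.HonD_54
import Crest.Agent.T15.Inj_71

/-!
# Row 15, block Ht (helper54): classes with trivial reduction, the congruence
-/

set_option autoImplicit false
set_option linter.all false

noncomputable section

namespace Crest.Agent.T15.Hon

open scoped NNReal PowerSeries
open Polynomial WithZero
open Crest.Agent.R013.RR7_948 Crest.Agent.R013.RR8_948 Crest.Agent.R013.RR9_948
open Crest.Agent.R013.RR11_948 Crest.Agent.R013.RR12_948 Crest.Agent.R013.PicD_398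
open Crest.Agent.R013.GR2_921 Crest.Agent.R013.GR4_921 Crest.Agent.R013.Frob1_914
open Crest.Agent.T15.Disc Crest.Agent.T15.Hy

section ell

variable {k K : Type*} [Field k] [Field K] [Algebra k K] [Algebra (RatFunc k) K]
  [IsScalarTower k (RatFunc k) K] [FiniteDimensional (RatFunc k) K]
  [Algebra.IsSeparable (RatFunc k) K] [IsAlgClosed k]

/-- the divisor of a family of places -/
def sm {ι : Type*} [Fintype ι] {A : Type*} (P : ι → A) : A →₀ ℤ := ∑ i, Finsupp.single (P i) 1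

theorem sm_nonneg {ι : Type*} [Fintype ι] {A : Type*} (P : ι → A) : 0 ≤ sm P :=
  Finset.sum_nonneg fun i _ => Finsupp.single_nonneg.mpr zero_le_one

theorem sm_pos {ι : Type*} [Fintype ι] {A : Type*} (P : ι → A) (i : ι) : 1 ≤ sm P (P i) := by
  have := Finset.single_le_sum (f := fun i => Finsupp.single (P i) (1 : ℤ))
    (fun i _ => Finsupp.single_nonneg.mpr zero_le_one) (Finset.mem_univ i) (P i)
  simpa [sm] using this

theorem sm_ne {ι : Type*} [Fintype ι] {A : Type*} {P : ι → A} {Q : A} (h : sm P Q ≠ 0) :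
    ∃ i, P i = Q := by
  by_contra h1
  push Not at h1
  apply h
  rw [sm, Finsupp.finset_sum_apply]
  exact Finset.sum_eq_zero fun i _ => Finsupp.single_eq_of_ne (h1 i).symm

theorem sm_eq {ι : Type*} [Fintype ι] {A : Type*} {P : ι → A} (h : Function.Injective P) (i : ι) :
    sm P (P i) = 1 := by
  rw [sm, Finsupp.finset_sum_apply, Finset.sum_eq_single i, Finsupp.single_eq_same]
  · exact fun j _ hj => Finsupp.single_eq_of_ne fun e => hj (h e).symm
  · simp

theorem sm_map {ι : Type*} [Fintype ι] {A B : Type*} (P : ι → A) (f : A → B) :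
    (sm P).mapDomain f = sm fun i => f (P i) := by
  simp only [sm, Finsupp.mapDomain_finset_sum, Finsupp.mapDomain_single]

theorem sumD_image {ι : Type*} [Fintype ι] [DecidableEq (Pl k K)] {P : ι → Pl k K}
    (h : Function.Injective P) : sumD (Finset.univ.image P) = sm P := by
  rw [sumD, Finset.sum_image fun i _ j _ e => h e, sm]

theorem ell_pts {F : k[X]} {z w : K} (H : Hyp F z w) {ι : Type*} [Fintype ι]
    (hg : 2 * Fintype.card ι < F.natDegree) {a b : ι → k} (ha : Function.Injective a)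
    (hF : ∀ i, b i ^ 2 = F.eval (a i)) : ell (sm fun i => pt z w (a i) (b i)) ≤ 1 := by
  classical
  set D := sm fun i => pt z w (a i) (b i) with hD
  have h1 : (1 : K) ∈ LD D := by
    rw [mem_LD_iff one_ne_zero, divf_one, add_zero]; exact sm_nonneg _
  refine finrank_le_one (⟨1, h1⟩ : LD D) fun ⟨f, hf⟩ => ?_
  by_cases hf0 : f = 0
  · exact ⟨0, Subtype.ext (by simp [hf0])⟩
  set U : k[X] := ∏ i, (X - C (a i)) with hU
  have hUm : U.Monic := monic_prod_of_monic _ _ fun i _ => monic_X_sub_C _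
  have hUd : U.natDegree = Fintype.card ι := by
    rw [hU, natDegree_prod_of_monic _ _ fun i _ => monic_X_sub_C _]; simp
  have hU0 := H.aeval_ne hUm.ne_zero
  have hdiv : ∀ s : Finset ι, divf (k := k) (∏ i ∈ s, (z - algebraMap k K (a i))) =
      ∑ i ∈ s, (Finsupp.single (pt z w (a i) (b i)) 1 + Finsupp.single (pt z w (a i) (-b i)) 1 -
        Dinf k z) := by
    intro s
    induction s using Finset.induction_on with
    | empty => simp [divf_one]
    | insert i s hi ih =>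
      rw [Finset.prod_insert hi, Finset.sum_insert hi, divf_mul (H.x_sub_ne _)
        (Finset.prod_ne_zero_iff.mpr fun j _ => H.x_sub_ne _), ih, H.div_x (hF i)]
  have h2 : Fintype.card ι • Dinf k z + divf (k := k) (f * aeval z U) =
      (D + divf f) + sm fun i => pt z w (a i) (-b i) := by
    rw [divf_mul hf0 hU0, hU, map_prod]
    simp only [map_sub, aeval_X, aeval_C]
    rw [hdiv, Finset.sum_sub_distrib, Finset.sum_add_distrib, Finset.sum_const, Finset.card_univ,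
      hD, sm, sm]
    abel
  have h3 := (mem_LD_iff hf0).mp hf
  obtain ⟨A, B, he, hA, hB⟩ := H.of_mem_LD (f := f * aeval z U) (m := Fintype.card ι) (by
    rw [mem_LD_iff (mul_ne_zero hf0 hU0), h2]; exact add_nonneg h3 (sm_nonneg _))
  obtain rfl : B = 0 := hB.resolve_right (by omega)
  rw [el_zero] at he
  have h4 : U ∣ A := by
    refine Fintype.prod_dvd_of_coprime (pairwise_coprime_X_sub_C ha) fun i => dvd_iff_isRoot.mpr ?_
    have hP := H.at_pt (a := a i) (b := -b i) (by rw [neg_sq, hF])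
    apply hP.aeval_lt_iff.mp
    rw [← he, v_lt_one_iff (mul_ne_zero hf0 hU0)]
    have h5 := DFunLike.congr_fun h2 (pt z w (a i) (-b i))
    have h6 := sm_pos (fun i => pt z w (a i) (-b i)) i
    have h7 := h3 (pt z w (a i) (-b i))
    simp only [Finsupp.add_apply, Finsupp.smul_apply, Dinf_of_le H.x_ne hP.x_le, smul_zero,
      Finsupp.coe_zero, Pi.zero_apply] at h5 h7
    omega
  obtain ⟨c, rfl⟩ := h4
  have hc0 : c ≠ 0 := by
    rintro rfl; rw [mul_zero, map_zero] at he; exact mul_ne_zero hf0 hU0 he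
  rw [hUm.natDegree_mul' hc0, hUd] at hA
  obtain ⟨s, rfl⟩ := natDegree_eq_zero.mp (show c.natDegree = 0 by omega)
  refine ⟨s, Subtype.ext ?_⟩
  apply mul_right_cancel₀ hU0
  rw [he]
  simp [Algebra.smul_def, mul_comm]

end ell

section rep

variable {C : Type*} [Field C] [IsAlgClosed C] [CharZero C] {L : Type*} [Field L] [Algebra C L]
  [Algebra (RatFunc C) L] [IsScalarTower C (RatFunc C) L] [FiniteDimensional (RatFunc C) L]
  [Algebra.IsSeparable (RatFunc C) L]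
  {k κ : Type*} [Field k] [IsAlgClosed k] [Field κ] [Algebra k κ]
  [Algebra (RatFunc k) κ] [IsScalarTower k (RatFunc k) κ] [FiniteDimensional (RatFunc k) κ]
  [Algebra.IsSeparable (RatFunc k) κ]
  {v : Valuation C ℝ≥0} {ρ : C → k} {F : C[X]} {z w : L} {Fb : k[X]} {xb wb : κ}
  {W : Valuation L ℝ≥0} {res : L → κ} {sp : Pl C L → Pl k κ}

/-- a class with trivial reduction is a difference of points in the discs of the base points -/
theorem exists_rep (h : Ng.NG v ρ F z w Fb xb wb W res sp) {g : ℕ} (hg : Fb.natDegree = 2 * g + 1)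
    {a b : Fin g → C} (hF : ∀ i, b i ^ 2 = F.eval (a i)) (ha1 : ∀ i, v (a i) ≤ 1)
    (ha : ∀ i j, i ≠ j → v (a i - a j) = 1) {c : Pic C L} (hc : h.disc.spPic c = 0) :
    ∃ x y : Fin g → C, (∀ i, y i ^ 2 = F.eval (x i)) ∧ (∀ i, v (x i - a i) < 1) ∧
      (∀ i, v (y i - b i) < 1) ∧
      c = cls (sm (fun i => pt z w (x i) (y i)) - sm fun i => pt z w (a i) (b i)) ∧
      ∀ e : SI C L C L, e.f z = z → e.f w = w → (∀ i, e.s (a i) = a i) → (∀ i, e.s (b i) = b i) →
        e.pic c = c → ∃ π : Equiv.Perm (Fin g), ∀ i, e.s (x i) = x (π i) := by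
  classical
  have H := h.nr.hyp
  have Hb := h.nr.hyb
  have hG := h.disc
  have hr := h.nr.rd.resC
  obtain ⟨D, rfl⟩ := cls_surjective c
  rw [Good.spPic_cls] at hc
  obtain ⟨u, hu, hD⟩ := cls_eq_zero_iff.mp hc
  have hat := fun i => h.at_ _ _ _ (H.at_pt (hF i)) (ha1 i)
  have hFb : ∀ i, ρ (b i) ^ 2 = Fb.eval (ρ (a i)) := fun i => (hat i).2.sq Hb.sq
  have hinj : Function.Injective fun i => ρ (a i) := fun i j e => by
    by_contra hij
    exact absurd ((hr.eq_iff (ha1 i) (ha1 j)).mp e) (by rw [ha i j hij]; exact lt_irrefl _)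
  set Pb : Fin g → Pl k κ := fun i => pt xb wb (ρ (a i)) (ρ (b i)) with hPb
  have hPi : Function.Injective Pb := fun i j e =>
    hinj ((Hb.at_pt (hFb i)).eq (show At (Pb i) _ _ _ _ by rw [e]; exact Hb.at_pt (hFb j))).1
  have hT : sumD (Finset.univ.image Pb) = sm Pb := sumD_image hPi
  have hell : ell (sm Pb) ≤ 1 := ell_pts Hb (by simp; omega) hinj hFb
  have hQ : (sm fun i => pt z w (a i) (b i)).mapDomain sp = sm Pb := by
    rw [sm_map]; congr 1; funext i; exact (Hb.pt_eq (hat i).2).symm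
  obtain ⟨f, hf, hE, hE'⟩ := hG.exists_move (T := Finset.univ.image Pb) (by
    rw [Finset.card_image_of_injective _ hPi, Ng.gen_eq Hb (g := g) (by omega) (by omega)]; simp)
    (by rwa [hT]) (hQ.trans hT.symm) hu hD.symm
  rw [hT] at hE'
  set E := D + (sm fun i => pt z w (a i) (b i)) + divf (k := C) f with hEdef
  choose Q hQ1 hQ2 using fun i => fibre_single hE sp (b := Pb i) (by rw [hE', sm_eq hPi])
  have hQi : Function.Injective Q := fun i j e => hPi (by rw [← hQ1, e, hQ1])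
  have hEQ : E = sm Q := by
    ext R
    by_cases h1 : ∃ i, Pb i = sp R
    · obtain ⟨i, hi⟩ := h1
      rw [hQ2 i R hi.symm]
      split_ifs with h2
      · rw [h2, sm_eq hQi]
      · by_contra h3
        obtain ⟨j, rfl⟩ := sm_ne (Ne.symm h3)
        exact h2 (congrArg Q (hPi (by rw [← hQ1 j, hi])))
    · rw [fibre_zero hE sp (b := sp R) (by rw [hE']; by_contra h3; exact h1 (sm_ne h3)) rfl]
      by_contra h3
      obtain ⟨j, rfl⟩ := sm_ne (Ne.symm h3)
      exact h1 ⟨j, (hQ1 j).symm⟩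
  have hfin : ∀ i, (Q i).v z ≤ 1 ∧ v (ev (Q i) z) ≤ 1 := fun i => by
    by_contra h1
    have h2 := h.inf _ h1
    rw [hQ1] at h2
    exact absurd (Hb.at_pt (hFb i)).x_le (not_le.mpr h2)
  have hA := fun i => H.at_ev (hfin i).1
  have hA' := fun i => h.at_ _ _ _ (hA i) (hfin i).2
  have hab := fun i => ((hA' i).2.eq (show At (sp (Q i)) _ _ _ _ by
    rw [hQ1]; exact Hb.at_pt (hFb i)))
  have hQp : (fun i => pt z w (ev (Q i) z) (ev (Q i) w)) = Q := funext fun i => H.pt_eq (hA i)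
  have hcl : cls E = cls D + cls (sm fun i => pt z w (a i) (b i)) := by
    rw [hEdef, map_add, map_add, cls_divf hf, add_zero]
  refine ⟨fun i => ev (Q i) z, fun i => ev (Q i) w, fun i => (hA i).sq H.sq,
    fun i => (hr.eq_iff (hfin i).2 (ha1 i)).mp (hab i).1,
    fun i => (hr.eq_iff (hA' i).1 (hat i).1).mp (hab i).2, ?_, ?_⟩
  · rw [hQp, ← hEQ, map_sub, hcl, add_sub_cancel_right]
  intro e hz hw hea heb he
  have h1 : e.D (sm fun i => pt z w (a i) (b i)) = sm fun i => pt z w (a i) (b i) := by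
    rw [D_eq_mapDomain, sm_map]
    congr 1; funext i
    have := (H.at_pt (hF i)).SI e
    rw [hz, hw, hea, heb] at this
    exact (H.pt_eq this).symm
  have h2 : cls (e.D E - E) = 0 := by
    rw [map_sub, ← SI.pic_cls, hcl, map_add, he, SI.pic_cls, h1, sub_self]
  obtain ⟨f', hf', h3⟩ := cls_eq_zero_iff.mp h2
  obtain ⟨s, rfl⟩ := mem_range_of_LD hE ((hG.ell_le E).trans (by rwa [hE'])) (z := f') (by
    rw [mem_LD_iff hf', h3, add_sub_cancel]; exact e.D_nonneg hE)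
  rw [divf_const (by rintro rfl; simp at hf'), eq_comm, sub_eq_zero] at h3
  choose π hπ using fun i => sm_ne (P := Q) (Q := e.pl (Q i)) (by
    rw [← hEQ, ← h3, SI.D_pl, hEQ, sm_eq hQi]; exact one_ne_zero)
  have hπi : Function.Injective π := fun i j hij =>
    hQi (e.pl_injective (by rw [← hπ, ← hπ, hij]))
  refine ⟨Equiv.ofBijective π (Finite.injective_iff_bijective.mp hπi), fun i => ?_⟩
  have h4 := (hA i).SI e
  rw [hz, hw, ← hπ] at h4
  exact (h4.eq (hA (π i))).1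

end rep

section gen

theorem op_mem {A B : Type*} [AddCommGroup A] [AddCommGroup B] (R : AddSubgroup (A × B))
    {j e : A →+ A} {j' e' : B →+ B} (hj : ∀ a b, (a, b) ∈ R → (j a, j' b) ∈ R)
    (he : ∀ a b, (a, b) ∈ R → (e a, e' b) ∈ R) (Ψ : Fin 3 → ℤ[X]) {a : A} {b : B}
    (h : (a, b) ∈ R) : (op j e Ψ a, op j' e' Ψ b) ∈ R := by
  have h1 : ∀ {f : A →+ A} {f' : B →+ B}, (∀ a b, (a, b) ∈ R → (f a, f' b) ∈ R) →
      ∀ (n : ℕ) a b, (a, b) ∈ R → (f^[n] a, f'^[n] b) ∈ R := by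
    intro f f' hf n
    induction n with
    | zero => exact fun a b h => h
    | succ n ih => exact fun a b h => ih _ _ (hf a b h)
  rw [op, op, prod_mk_sum]
  refine sum_mem fun i _ => ?_
  rw [aeval_eq_sum_range, aeval_eq_sum_range, LinearMap.sum_apply, LinearMap.sum_apply,
    prod_mk_sum]
  refine sum_mem fun n _ => ?_
  rw [LinearMap.smul_apply, LinearMap.smul_apply, ← Prod.smul_mk, Module.End.pow_apply,
    Module.End.pow_apply]
  exact zsmul_mem (h1 hj n _ _ (h1 he i _ _ h)) _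

theorem exists_period {C : Type*} [Field C] [CharZero C] [Algebra.IsAlgebraic ℚ C] (s : C ≃+* C)
    (T : Finset C) : ∃ n : ℕ, ∀ a ∈ T, s^[n + 1] a = a := by
  classical
  have h1 : ∀ a : C, a ∈ Function.periodicPts s := fun a => by
    have hfin : (Set.range fun n : ℕ => s^[n] a).Finite := by
      refine ((minpoly ℚ a).rootSet_finite C).subset ?_
      rintro _ ⟨n, rfl⟩
      rw [mem_rootSet]
      refine ⟨minpoly.ne_zero (Algebra.IsIntegral.isIntegral a), ?_⟩
      induction n with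
      | zero => exact minpoly.aeval ℚ a
      | succ n ih =>
        dsimp only at ih ⊢
        rw [Function.iterate_succ_apply']
        have := aeval_algHom_apply (s.toRingHom.toRatAlgHom) (s^[n] a) (minpoly ℚ a)
        rw [ih, map_zero] at this
        exact this
    obtain ⟨m, n, hmn, he⟩ : ∃ m n : ℕ, m < n ∧ s^[m] a = s^[n] a := by
      obtain ⟨m, n, h2, h3⟩ := Function.not_injective_iff.mp fun h =>
        Set.infinite_range_of_injective h hfin
      rcases lt_or_gt_of_ne h3 with h4 | h4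
      · exact ⟨m, n, h4, h2⟩
      · exact ⟨n, m, h4, h2.symm⟩
    obtain ⟨d, rfl⟩ := Nat.exists_eq_add_of_lt hmn
    rw [add_assoc, Function.iterate_add_apply] at he
    exact ⟨d + 1, d.succ_pos, ((s.injective.iterate m) he).symm⟩
  choose n hn h2 using h1
  obtain ⟨m, hm⟩ := Nat.exists_eq_succ_of_ne_zero
    (Finset.prod_ne_zero_iff.mpr fun a (_ : a ∈ T) => (hn a).ne')
  exact ⟨m, fun a ha => by
    have := (h2 a).trans_dvd (Finset.dvd_prod_of_mem n ha)
    rwa [hm] at this⟩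

variable {K0 : Type*} [Field K0] {v0 : Valuation K0 ℝ≥0} {p : ℕ} {σ : K0 →+* K0}

theorem coeff_th (f : K0⟦X⟧) (n : ℕ) :
    PowerSeries.coeff n (th f) = n * PowerSeries.coeff n f := by
  cases n with
  | zero => simp [th]
  | succ n => rw [th, PowerSeries.coeff_succ_X_mul, PowerSeries.coeff_derivative]; push_cast; ring

theorem th_fr (hp : p ≠ 0) (f : K0⟦X⟧) : th (fr σ p hp f) = (p : ℤ) • fr σ p hp (th f) := by
  ext n
  rw [coeff_th, map_zsmul, coeff_fr, coeff_fr, coeff_th]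
  split_ifs with h
  · obtain ⟨m, rfl⟩ := h
    rw [Nat.mul_div_cancel_left _ (Nat.pos_of_ne_zero hp)]
    simp [mul_assoc]
  · simp

theorem th_add (f g : K0⟦X⟧) : th (f + g) = th f + th g := by simp [th, mul_add]

theorem th_zsmul (n : ℤ) (f : K0⟦X⟧) : th (n • f) = n • th f := by
  ext m; rw [coeff_th, map_zsmul, map_zsmul, coeff_th]; simp; ring

theorem th_sum {ι : Type*} (s : Finset ι) (f : ι → K0⟦X⟧) : th (∑ i ∈ s, f i) = ∑ i ∈ s, th (f i) := by
  simp [th, Finset.mul_sum]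

theorem AI.zsmul {f : K0⟦X⟧} (h : AI v0 f) (n : ℤ) : AI v0 (n • f) := by
  have := (AI.const (v_intCast_le v0 n)).mul h
  rwa [map_intCast, ← zsmul_eq_mul] at this

theorem AI.fr (U : Un v0 p σ) (hp : p ≠ 0) {f : K0⟦X⟧} (h : AI v0 f) : AI v0 (fr σ p hp f) := by
  refine ⟨h.1.fr U.iso hp, h.2.ringHom_of_comp_eq
    ((Polynomial.expand K0 p).toRingHom.comp (mapRingHom σ)) (Hon.fr σ p hp) ?_ ?_⟩
  · exact (expand_injective (Nat.pos_of_ne_zero hp)).comp (map_injective σ σ.injective)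
  · apply Polynomial.ringHom_ext
    · intro a
      simp only [RingHom.comp_apply, coe_mapRingHom, map_C, PowerSeries.algebraMap_apply']
      simp [fr_C]
    · simp only [RingHom.comp_apply, coe_mapRingHom, map_X, PowerSeries.algebraMap_apply']
      simp [fr_X]

theorem eS_iter {g : ℕ} (hp : p ≠ 0) (r : ℕ) (ψ : Fin g → K0⟦X⟧) (m : Fin g) :
    (eS g σ p hp)^[r] ψ m = (fr σ p hp ^ r) (ψ m) := by
  induction r with
  | zero => rfl
  | succ r ih =>
    rw [Function.iterate_succ_apply', pow_succ', RingHom.mul_def, RingHom.comp_apply, ← ih]; rfl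

theorem Un.of_sub_fr (U : Un v0 p σ) (hp : p ≠ 0) {f : K0⟦X⟧} (r : ℕ) {c : ℝ≥0}
    (h0 : PowerSeries.constantCoeff f = 0) (h : PI v0 c (f - (fr σ p hp ^ (r + 1)) f)) :
    PI v0 c f := by
  intro n
  induction n using Nat.strong_induction_on with
  | _ n ih =>
    rcases Nat.eq_zero_or_pos n with rfl | hn
    · simp [h0]
    have h1 := h n
    have h2 : v0 (PowerSeries.coeff n ((fr σ p hp ^ (r + 1)) f)) ≤ c := by
      rw [fr_pow, coeff_fr]
      split_ifs
      · rw [U.iso_pow]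
        exact ih _ (Nat.div_lt_self hn (Nat.one_lt_pow r.succ_ne_zero U.prime.one_lt))
      · simp
    have h3 := (v0.map_add _ _).trans (max_le h1 h2)
    rwa [map_sub, sub_add_cancel] at h3

end gen

theorem ev_at {k K : Type*} [Field k] [Field K] [Algebra k K] [Algebra (RatFunc k) K]
    [IsScalarTower k (RatFunc k) K] [FiniteDimensional (RatFunc k) K]
    [Algebra.IsSeparable (RatFunc k) K] [IsAlgClosed k] {P : Pl k K} {z w : K} {a b : k}
    (h : At P z w a b) (hb : b ≠ 0) (m : ℕ) : ev P (z ^ m / w) = a ^ m / b := by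
  have h1 : P.v w = 1 := Hy.v_eq_one_of_sub P h.2 hb
  have h0 : w ≠ 0 := by rintro rfl; simp at h1
  have h2 : P.v (z ^ m / w) ≤ 1 := by
    rw [map_div₀, h1, div_one, map_pow]; exact pow_le_one' h.x_le m
  have h3 := ev_mul P h2 h1.le
  rw [div_mul_cancel₀ _ h0, ev_pow P h.x_le, ev_eq P h.1, ev_eq P h.2] at h3
  rw [h3, mul_div_cancel_right₀ _ hb]

namespace Vs

variable {C : Type} [Field C] {K0 : Subfield C} {v0 : Valuation K0 ℝ≥0} {p : ℕ} {hp : p ≠ 0}
  {σ : K0 →+* K0} (X : Vs C K0 v0 p hp σ)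

theorem em_zero : X.em 0 = 0 := by simpa using X.em_C 0 (by simp)

theorem em_one : X.em 1 = 1 := by simpa using X.em_C 1 (by simp)

theorem em_zsmul {f : K0⟦X⟧} (h : AI v0 f) (n : ℤ) : X.em (n • f) = n • X.em f := by
  have := X.em_mul _ _ (AI.const (v_intCast_le v0 n)) h
  rw [X.em_C _ (v_intCast_le v0 n), map_intCast, ← zsmul_eq_mul] at this
  rw [this, zsmul_eq_mul]; simp

theorem em_sum {ι : Type*} (s : Finset ι) {f : ι → K0⟦X⟧} (h : ∀ i ∈ s, AI v0 (f i)) :
    X.em (∑ i ∈ s, f i) = ∑ i ∈ s, X.em (f i) := by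
  classical
  induction s using Finset.induction_on with
  | empty => simpa using X.em_zero
  | insert a s ha ih =>
    rw [Finset.sum_insert ha, Finset.sum_insert ha, X.em_add _ _ (h a (Finset.mem_insert_self _ _))
      (AI.sum _ fun i hi => h i (Finset.mem_insert_of_mem hi)),
      ih fun i hi => h i (Finset.mem_insert_of_mem hi)]

theorem em_pow {f : K0⟦X⟧} (h : AI v0 f) (n : ℕ) : X.em (f ^ n) = X.em f ^ n := by
  induction n with
  | zero => simpa using X.em_one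
  | succ n ih => rw [pow_succ, X.em_mul _ _ (h.pow n) h, ih, pow_succ]

theorem em_aeval {f : K0⟦X⟧} (h : AI v0 f) {F : K0[X]} (hF : ∀ n, v0 (F.coeff n) ≤ 1) :
    X.em (aeval f F) = (F.map ((algebraMap C X.Ω).comp K0.subtype)).eval (X.em f) := by
  rw [aeval_eq_sum_range, eval_map, eval₂_eq_sum_range]
  simp only [PowerSeries.smul_eq_C_mul]
  rw [X.em_sum _ fun n _ => (AI.const (hF n)).mul (h.pow n)]
  refine Finset.sum_congr rfl fun n _ => ?_
  rw [X.em_mul _ _ (AI.const (hF n)) (h.pow n), X.em_C _ (hF n), X.em_pow h]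
  rfl

/-- automorphisms which fix the integral series and `K0` -/
def G1 (s : X.Ω ≃+* X.Ω) : Prop :=
  (∀ f, AI v0 f → s (X.em f) = X.em f) ∧ ∀ a : K0, s (algebraMap C X.Ω a) = algebraMap C X.Ω a

theorem S_K0 (a : K0) : X.S (algebraMap C X.Ω a) = algebraMap C X.Ω (σ a) := by
  rw [X.S_C, X.s_K0]

end Vs

namespace Fm

variable {C : Type} [Field C] {K0 : Subfield C} {v0 : Valuation K0 ℝ≥0} {p : ℕ} {hp : p ≠ 0}
  {σ : K0 →+* K0} {X : Vs C K0 v0 p hp σ} {g : ℕ} {F : K0[X]} {N : Fin g → Fin g → K0}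
  {J : Matrix (Fin g) (Fin g) ℤ} (Y : Fm X g F N J)

/-- invariant classes -/
def Inv (c : Pic X.Ω Y.L) : Prop := ∀ e, Y.Fx e → X.G1 e.s → e.pic c = c

/-- classes and their logarithms -/
def R : AddSubgroup (Pic X.Ω Y.L × (Fin g → K0⟦X⟧)) where
  carrier := {q | Y.Inv q.1 ∧ ∀ m, AI v0 (th (q.2 m)) ∧ PowerSeries.constantCoeff (q.2 m) = 0 ∧
    Y.Λ q.1 m = X.em (th (q.2 m))}
  add_mem' := fun {q q'} h h' => ⟨fun e he hs => by
      rw [Prod.fst_add, map_add, h.1 e he hs, h'.1 e he hs], fun m => by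
    rw [Prod.snd_add, Prod.fst_add, Pi.add_apply, th_add, map_add, map_add, Pi.add_apply,
      (h.2 m).2.1, (h'.2 m).2.1, (h.2 m).2.2, (h'.2 m).2.2, X.em_add _ _ (h.2 m).1 (h'.2 m).1]
    exact ⟨(h.2 m).1.add (h'.2 m).1, add_zero _, rfl⟩⟩
  zero_mem' := ⟨fun e _ _ => map_zero _, fun m => by
    simp [th, X.em_zero, AI.zero]⟩
  neg_mem' := fun {q} h => ⟨fun e he hs => by rw [Prod.fst_neg, map_neg, h.1 e he hs], fun m => by
    rw [Prod.snd_neg, Prod.fst_neg, Pi.neg_apply, map_neg, map_neg, Pi.neg_apply, (h.2 m).2.1,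
      (h.2 m).2.2, ← neg_one_zsmul (q.2 m), th_zsmul, X.em_zsmul (h.2 m).1]
    exact ⟨(h.2 m).1.zsmul _, neg_zero, (neg_one_zsmul _).symm⟩⟩

theorem R_j (c : Pic X.Ω Y.L) (ψ : Fin g → K0⟦X⟧) (h : (c, ψ) ∈ Y.R) : (Y.j c, jS K0 J ψ) ∈ Y.R := by
  refine ⟨fun e he hs => ?_, fun m => ?_⟩
  · exact (Y.j_comm e he c).trans (congrArg Y.j (h.1 e he hs))
  · have h1 : jS K0 J ψ m = ∑ m', J m m' • ψ m' := rfl
    dsimp only
    rw [h1, th_sum, map_sum, Y.Λ_j]
    simp only [th_zsmul]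
    refine ⟨AI.sum _ fun i _ => (h.2 i).1.zsmul _, Finset.sum_eq_zero fun i _ => ?_, ?_⟩
    · rw [map_zsmul, (h.2 i).2.1, smul_zero]
    · rw [X.em_sum _ fun i _ => (h.2 i).1.zsmul _]
      exact Finset.sum_congr rfl fun i _ => by rw [X.em_zsmul (h.2 i).1, ← (h.2 i).2.2]

theorem R_e (U : Un v0 p σ) (c : Pic X.Ω Y.L) (ψ : Fin g → K0⟦X⟧) (h : (c, ψ) ∈ Y.R) :
    (Y.e.pic.toAddMonoidHom c, eS g σ p hp ψ) ∈ Y.R := by
  refine ⟨fun e he hs => ?_, fun m => ?_⟩
  · have h1 := h.1 _ (Y.Fx_trans _ _ (Y.Fx_trans _ _ Y.e_Fx he) (Y.Fx_symm _ Y.e_Fx)) ⟨?_, ?_⟩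
    · rw [SI.pic_trans, SI.pic_trans] at h1
      exact (Y.e.pic.symm_apply_eq).mp h1
    · intro f hf
      simp only [SI.trans_s, SI.symm_s, RingEquiv.trans_apply, Y.e_s]
      rw [RingEquiv.symm_apply_eq, X.S_em f hf, hs.1 _ (hf.fr U hp)]
    · intro a
      simp only [SI.trans_s, SI.symm_s, RingEquiv.trans_apply, Y.e_s]
      rw [RingEquiv.symm_apply_eq, X.S_K0, hs.2]
  · have h1 : eS g σ p hp ψ m = fr σ p hp (ψ m) := rfl
    have h2 := (h.2 m).1.fr U hp
    dsimp only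
    rw [h1, th_fr, constantCoeff_fr, (h.2 m).2.1, map_zero, X.em_zsmul h2, ← X.S_em _ (h.2 m).1,
      ← (h.2 m).2.2]
    exact ⟨h2.zsmul _, rfl, (Y.Λ_e c m).trans (by simp)⟩

theorem on_base {a b : K0} (h : GdP v0 F a b) : algebraMap C X.Ω b ^ 2 =
    (F.map ((algebraMap C X.Ω).comp K0.subtype)).eval (algebraMap C X.Ω a) := by
  have := eval_map_apply (p := F) ((algebraMap C X.Ω).comp K0.subtype) a
  rw [← h.on, map_pow] at this
  exact this.symm

theorem R_x [CharZero K0] (hN : ∀ m k, v0 (N m k) ≤ 1) {a b : K0} (h : GdP v0 F a b) :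
    (Y.x a b, lgN N F a b) ∈ Y.R := by
  have H := Y.ng.nr.hyp
  have hs := wt_spec h.two_ne h.b_ne h.on
  have h1 : X.em (wt F a b) ^ 2 = (F.map ((algebraMap C X.Ω).comp K0.subtype)).eval
      (X.em (PowerSeries.C a + PowerSeries.X)) := by
    rw [← X.em_pow h.ai_wt, hs.1, X.em_aeval h.ai_x h.cF]
  have h2 := on_base (X := X) h
  have h3 : X.em (wt F a b) * X.em (wt F a b)⁻¹ = 1 := by
    rw [← X.em_mul _ _ h.ai_wt h.ai_wt_inv, PowerSeries.mul_inv_cancel _ (by
      rw [hs.2]; exact h.b_ne), X.em_one]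
  have h4 : X.em (wt F a b) ≠ 0 := left_ne_zero_of_mul_eq_one h3
  refine ⟨fun e he hs => ?_, fun m => ⟨h.ai_th_lgN hN m, constantCoeff_lgN N m, ?_⟩⟩
  · obtain ⟨hz, hw⟩ := Y.Fx_zw e he fun a _ => hs.2 a
    have h5 := (H.at_pt h1).SI e
    have h6 := (H.at_pt h2).SI e
    rw [hz, hw, hs.1 _ h.ai_x, hs.1 _ h.ai_wt] at h5
    rw [hz, hw, hs.2, hs.2] at h6
    dsimp only
    rw [x, map_sub, SI.pic_cls, SI.pic_cls, SI.D_single, SI.D_single, ← H.pt_eq h5, ← H.pt_eq h6]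
  · dsimp only
    have h5 : th (PowerSeries.C a + PowerSeries.X : K0⟦X⟧) = PowerSeries.X := by simp [th]
    rw [x, map_sub, Pi.sub_apply, Y.Λ_cls, Y.Λ_cls]
    simp only [lam_single, ev_at (H.at_pt h1) h4, ev_eq _ (H.at_pt h1).1, ev_eq _ (H.at_pt h2).1,
      Derivation.map_algebraMap, mul_zero, Finset.sum_const_zero, sub_zero, X.d_em _ h.ai_x, h5]
    have h6 : ∀ k : Fin g, AI v0 (PowerSeries.C (N m k) * (PowerSeries.C a + PowerSeries.X) ^ (k : ℕ)) :=
      fun k => (AI.const (hN m k)).mul (h.ai_x.pow k)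
    rw [th, derivative_lgN, X.em_mul _ _ AI.X' ((AI.sum _ fun k _ => h6 k).mul h.ai_wt_inv),
      X.em_mul _ _ (AI.sum _ fun k _ => h6 k) h.ai_wt_inv, X.em_sum _ fun k _ => h6 k,
      eq_inv_of_mul_eq_one_right h3, Finset.sum_mul, Finset.mul_sum]
    refine Finset.sum_congr rfl fun k _ => ?_
    rw [X.em_mul _ _ (AI.const (hN m k)) (h.ai_x.pow k), X.em_C _ (hN m k), X.em_pow h.ai_x]
    push_cast
    ring

/-- FIN -/
theorem fin (U : Un v0 p σ) (hN : ∀ m k, v0 (N m k) ≤ 1) {a b : Fin g → K0}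
    (h : ∀ i, GdP v0 F (a i) (b i)) (hab : ∀ i i', i ≠ i' → v0 (a i - a i') = 1)
    {c : Pic X.Ω Y.L} (hc : Y.Inv c) (h0 : Y.spc c = 0) (m : Fin g) (n : ℕ) :
    ∃ H ∈ X.L0, X.v H ≤ v0 p ∧ X.v (Y.Λ c m - X.d H) ≤ v0 p ^ n := by
  have H := Y.ng.nr.hyp
  have hab' : ∀ i i', i ≠ i' → X.v (algebraMap C X.Ω (a i) - algebraMap C X.Ω (a i')) = 1 :=
    fun i i' hi => by rw [← map_sub, ← hab i i' hi, ← X.v_K0]; rfl
  have hb : ∀ i, X.v (algebraMap C X.Ω (b i)) = 1 := fun i => by rw [X.v_K0, (h i).vb]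
  obtain ⟨x, y, hxy, hx, hy, hc', hπ⟩ := exists_rep Y.ng Y.degb (fun i => on_base (h i))
    (fun i => by rw [X.v_K0]; exact (h i).va) hab' h0
  set F' := F.map ((algebraMap C X.Ω).comp K0.subtype) with hF'
  have hO : (F'.coeffs : Set X.Ω) ⊆ X.O := by
    intro u hu
    obtain ⟨i, -, rfl⟩ := mem_coeffs_iff.mp hu
    rw [hF', coeff_map]
    exact X.K0_mem_O _ ((h m).cF i)
  have hev : ∀ u, aeval u (F'.toSubring X.O hO) = F'.eval u := fun u => by
    conv_rhs => rw [← map_toSubring F' X.O hO]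
    exact (eval_map_algebraMap _ _).symm
  choose G hG1 hG2 hG3 using fun k : Fin g => X.integ U (h m).two (F'.toSubring X.O hO)
    (fun i => X.K0_mem_O _ (h i).va) (fun i => X.K0_mem_O _ (h i).vb.le) hab' hb
    (fun i => by rw [hev]; exact on_base (h i)) (fun i => by rw [hev]; exact hxy i) hx hy
    (fun s hs => by
      obtain ⟨e, he, rfl⟩ := Y.Fx_ex s
      have h1 : X.G1 e.s := ⟨fun f hf => hs _ (X.em_mem f hf), fun a => hs _ (X.K0_mem a)⟩
      obtain ⟨hz, hw⟩ := Y.Fx_zw e he fun a _ => h1.2 a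
      exact hπ e hz hw (fun i => h1.2 _) (fun i => h1.2 _) (hc e he h1)) k n
  have hN' : ∀ k, X.v (algebraMap C X.Ω (N m k)) ≤ 1 := fun k => by rw [X.v_K0]; exact hN m k
  refine ⟨∑ k, algebraMap C X.Ω (N m k) * G k, sum_mem fun k _ => mul_mem (X.K0_mem _) (hG1 k),
    X.v.map_sum_le fun k _ => ?_, ?_⟩
  · rw [map_mul]; exact (mul_le_of_le_one_left' (hN' k)).trans (hG2 k)
  · rw [hc', Y.Λ_cls, map_sum X.d, ← Finset.sum_sub_distrib]
    refine X.v.map_sum_le fun k _ => ?_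
    have h1 : ∀ i, y i ≠ 0 := fun i h1 => by
      have := v_eq_one_of_sub (hb i) (hy i); rw [h1] at this; simp at this
    rw [Derivation.leibniz, Derivation.map_algebraMap, smul_zero, add_zero, smul_eq_mul, ← mul_sub,
      map_mul, AddMonoidHom.map_sub, sm, sm, map_sum, map_sum]
    simp only [lam_single, fun i => ev_at (H.at_pt (hxy i)) (h1 i), fun i => ev_eq _ (H.at_pt (hxy i)).1,
      fun i => ev_eq _ (H.at_pt (on_base (X := X) (h i))).1, Derivation.map_algebraMap, mul_zero,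
      Finset.sum_const_zero, sub_zero, Int.cast_one, one_mul]
    exact (mul_le_of_le_one_left' (hN' k)).trans (hG3 k)

/-- the powers of the Frobenius lift -/
def E : ℕ → SI X.Ω Y.L X.Ω Y.L
  | 0 => Y.e
  | n + 1 => (E n).trans Y.e

theorem E_spec (n : ℕ) : Y.Fx (Y.E n) ∧ (∀ u, Y.W ((Y.E n).f u) = Y.W u) ∧
    (∀ a : C, (Y.E n).s (algebraMap C X.Ω a) = algebraMap C X.Ω (X.s^[n + 1] a)) ∧
    ∀ c, (Y.E n).pic c = (Y.e.pic.toAddMonoidHom)^[n + 1] c := by
  induction n with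
  | zero => exact ⟨Y.e_Fx, Y.e_iso, fun a => by rw [E, Y.e_s, X.S_C]; rfl, fun c => rfl⟩
  | succ n ih =>
    refine ⟨Y.Fx_trans _ _ ih.1 Y.e_Fx, fun u => (Y.e_iso _).trans (ih.2.1 u), fun a => ?_,
      fun c => ?_⟩
    · rw [E, SI.trans_s, RingEquiv.trans_apply, ih.2.2.1, Y.e_s, X.S_C,
        ← Function.iterate_succ_apply' X.s]
    · rw [E, SI.pic_trans, ih.2.2.2, Function.iterate_succ_apply' _ (n + 1)]; rfl

theorem per [CharZero C] [Algebra.IsAlgebraic ℚ C] {c : Pic X.Ω Y.L}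
    (h : Fa.ConC X.k Y.xb Y.wb (Y.spc c)) :
    ∃ r, Y.spc (c - (Y.e.pic.toAddMonoidHom)^[r + 1] c) = 0 := by
  classical
  obtain ⟨D, hD, hc⟩ := h
  have Hb := Y.ng.nr.hyb
  have h1 : ∀ P : Pl X.k' Y.κ, ∃ a b : C, D P ≠ 0 → 1 < P.v Y.xb ∨
      (X.v (algebraMap C X.Ω a) ≤ 1 ∧ X.v (algebraMap C X.Ω b) ≤ 1 ∧
        At P Y.xb Y.wb (X.ρ (algebraMap C X.Ω a)) (X.ρ (algebraMap C X.Ω b))) := fun P => by
    by_cases h0 : D P = 0
    · exact ⟨0, 0, fun h => absurd h0 h⟩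
    rcases hc P h0 with h2 | ⟨a, b, h2⟩
    · exact ⟨0, 0, fun _ => Or.inl h2⟩
    · obtain ⟨a, ha, rfl⟩ := X.resC.surj a
      obtain ⟨b, hb, rfl⟩ := X.resC.surj b
      exact ⟨a, b, fun _ => Or.inr ⟨ha, hb, by rwa [X.comp a ha, X.comp b hb]⟩⟩
  choose a b hab using h1
  obtain ⟨n, hn⟩ := exists_period X.s (Y.T.image (↑) ∪ (D.support.image a ∪ D.support.image b))
  obtain ⟨e1, e2, e3, e4⟩ := Y.E_spec n
  obtain ⟨hz, hw⟩ := Y.Fx_zw _ e1 fun t ht => by
    rw [e3, hn _ (Finset.mem_union_left _ (Finset.mem_image_of_mem _ ht))]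
  obtain ⟨eb, b1, b2, b3⟩ := Y.ng.disc.exists_bar _ e2
  have hxb : eb.f Y.xb = Y.xb := by rw [← Y.ng.nr.rx, ← b1 _ Y.ng.nr.wx, hz]
  have hwb : eb.f Y.wb = Y.wb := by rw [← Y.ng.rw, ← b1 _ Y.ng.nr.W_w.le, hw]
  refine ⟨n, ?_⟩
  rw [map_sub, ← e4, sub_eq_zero]
  refine Eq.trans ?_ (Y.ng.disc.spPic_pic _ b3 c).symm
  change _ = eb.pic (Y.spc c)
  rw [← hD, SI.pic_cls, D_eq_mapDomain]
  congr 1
  conv_lhs => rw [← Finsupp.mapDomain_id (v := D)]
  refine Finsupp.mapDomain_congr fun P hP => ?_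
  rcases hab P (Finsupp.mem_support_iff.mp hP) with h2 | ⟨h2, h3, h4⟩
  · exact Hb.inf_unique ⟨g, Y.degb⟩ h2 (by rw [← hxb, SI.pl_v_apply]; exact h2)
  · have h5 := h4.SI eb
    rw [hxb, hwb, ← b2 _ h2, ← b2 _ h3, e3, e3,
      hn _ (Finset.mem_union_right _ (Finset.mem_union_left _ (Finset.mem_image_of_mem _ hP))),
      hn _ (Finset.mem_union_right _ (Finset.mem_union_right _ (Finset.mem_image_of_mem _ hP)))] at h5
    exact Hb.at_unique h4 h5

theorem cong [CharZero C] [Algebra.IsAlgebraic ℚ C] (U : Un v0 p σ) (hN : ∀ m k, v0 (N m k) ≤ 1)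
    {a b : Fin g → K0} (h : ∀ i, GdP v0 F (a i) (b i)) (hab : ∀ i i', i ≠ i' → v0 (a i - a i') = 1)
    {c : Pic X.Ω Y.L} {ψ : Fin g → K0⟦X⟧} (hR : (c, ψ) ∈ Y.R)
    (hc : Fa.ConC X.k Y.xb Y.wb (Y.spc c)) (m : Fin g) : PI v0 (v0 p) (ψ m) := by
  obtain ⟨r, hr⟩ := Y.per hc
  have h1 : ∀ n : ℕ, ((Y.e.pic.toAddMonoidHom)^[n] c, (eS g σ p hp)^[n] ψ) ∈ Y.R := fun n => by
    induction n with
    | zero => exact hR
    | succ n ih =>
      rw [Function.iterate_succ_apply', Function.iterate_succ_apply']; exact Y.R_e U _ _ ih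
  have h2 := sub_mem hR (h1 (r + 1))
  have h3 := X.coef _ (h2.2 m).1 fun n => by
    rw [← (h2.2 m).2.2]; exact Y.fin U hN h hab h2.1 hr m n
  refine U.of_sub_fr hp r (hR.2 m).2.1 fun n => ?_
  rw [← eS_iter]
  rcases Nat.eq_zero_or_pos n with rfl | hn
  · have := (h2.2 m).2.1
    rw [PowerSeries.coeff_zero_eq_constantCoeff_apply]
    exact (congrArg v0 this).trans_le (by simp)
  · have h4 := h3 n
    rw [coeff_th, map_mul, mul_comm] at h4
    exact le_of_mul_le_mul_right h4 ((Valuation.pos_iff _).mpr (Nat.cast_ne_zero.mpr hn.ne'))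

end Fm

theorem congStmt : CongStmt := fun C _ _ _ _ K0 v0 p hp σ U X g F N J Y hN a0 b0 h0 hab a b h Ψ hc m =>
  Y.cong U hN h0 hab (op_mem Y.R Y.R_j (Y.R_e U) Ψ (Y.R_x hN h)) hc m

end Crest.Agent.T15.Hon
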