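import Crest.Agent.T15.HonT_74

/-!
# Row 15, block Ht (helper74): `HondaStmt` from `TriStmt`
-/

set_option autoImplicit false
set_option linter.all false

noncomputable section

namespace Crest.Agent.T15.Hon

open scoped NNReal PowerSeries
open Matrix Crest.Agent.R018.Placesx484
open Crest.Agent.T15.C (Om Gam In IsFr)
open Crest.Agent.T15.Mo (Par)
open Crest.Agent.R013.PicD_398 Crest.Agent.R013.Frob1_914
open Crest.Agent.T15.Ht (J3 ep pc)

/-! ## words -/

section words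

open Polynomial

/-- `j² (e² - n j^ε e + p)` -/
def wA (ε : ℕ) (n : ℤ) (p : ℕ) : Fin 3 → ℤ[X] := ![C (p : ℤ) * X ^ 2, -(C n * X ^ (2 + ε)), X ^ 2]

/-- `(j² - 3) (e² + p)` -/
def wEa (p : ℕ) : Fin 3 → ℤ[X] := ![C (p : ℤ) * (X ^ 2 - C 3), 0, X ^ 2 - C 3]

/-- `(j² - 3) e` -/
def wEb : Fin 3 → ℤ[X] := ![0, X ^ 2 - C 3, 0]

variable {A : Type*} [AddCommGroup A] (j e : A →+ A)

theorem op_three (Ψ : Fin 3 → ℤ[X]) (c : A) : op j e Ψ c =
    aeval (j.toIntLinearMap : Module.End ℤ A) (Ψ 0) c +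
      aeval (j.toIntLinearMap : Module.End ℤ A) (Ψ 1) (e c) +
      aeval (j.toIntLinearMap : Module.End ℤ A) (Ψ 2) (e (e c)) := by
  simp only [op, Fin.sum_univ_three]
  rfl

theorem pow_apply' (n : ℕ) (c : A) : ((j.toIntLinearMap : Module.End ℤ A) ^ n) c = j^[n] c := by
  rw [Module.End.pow_apply]; rfl

theorem op_A (ε : ℕ) (n : ℤ) (p : ℕ) (c : A) :
    op j e (wA ε n p) c = j (j (e (e c) - n • j^[ε] (e c) + p • c)) := by
  have h : j^[2 + ε] (e c) = j (j (j^[ε] (e c))) := by rw [Function.iterate_add_apply]; rfl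
  rw [op_three]
  simp only [wA, cons_val_zero, cons_val_one, cons_val, map_mul, map_neg, map_pow, aeval_X, aeval_C,
    Module.End.mul_apply, LinearMap.neg_apply, pow_apply', h, Module.algebraMap_end_apply,
    map_add, map_sub, map_zsmul, map_nsmul, natCast_zsmul]
  simp only [Function.iterate_succ, Function.iterate_zero, Function.comp_apply, id_eq]
  abel

theorem op_E (v u : ℤ) (p : ℕ) (c : A) :
    op j e (v • wEa p - u • wEb) c =
      j (j (v • (e (e c) + p • c) - u • e c)) - 3 • (v • (e (e c) + p • c) - u • e c) := by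
  rw [op_three]
  simp only [wEa, wEb, Pi.sub_apply, Pi.smul_apply, cons_val_zero, cons_val_one, cons_val, map_mul,
    map_pow, aeval_X, aeval_C, Module.End.mul_apply, pow_apply', Module.algebraMap_end_apply,
    map_add, map_sub, map_zsmul, map_nsmul, natCast_zsmul, smul_zero, sub_zero, zero_sub, map_neg,
    LinearMap.sub_apply, LinearMap.smul_apply, LinearMap.neg_apply]
  simp only [Function.iterate_succ, Function.iterate_zero, Function.comp_apply, id_eq]
  module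

end words

section series

open PowerSeries

variable {K0 : Type*} [Field K0] {v0 : Valuation K0 ℝ≥0}

theorem jS_J3 (ψ : Fin 3 → K0⟦X⟧) : jS K0 J3 ψ = ![(3 : ℤ) • ψ 1, ψ 0, 0] := by
  funext m
  change ∑ m', J3 m m' • ψ m' = _
  fin_cases m <;> simp [J3, Fin.sum_univ_three]

theorem jS_jS (ψ : Fin 3 → K0⟦X⟧) :
    jS K0 J3 (jS K0 J3 ψ) = ![(3 : ℤ) • ψ 0, (3 : ℤ) • ψ 1, 0] := by
  rw [jS_J3, jS_J3]; simp

theorem eS_apply {g p : ℕ} (σ : K0 →+* K0) (hp : p ≠ 0) (ψ : Fin g → K0⟦X⟧) (m : Fin g) :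
    eS g σ p hp ψ m = fr σ p hp (ψ m) := rfl

theorem PI.of_C_mul {c : ℝ≥0} {a : K0} {f : K0⟦X⟧} (ha : v0 a = 1) (h : PI v0 c (C a * f)) :
    PI v0 c f := fun n => by
  have := h n
  rwa [coeff_C_mul, map_mul, ha, one_mul] at this

variable [CharZero K0] {p : ℕ} {σ : K0 →+* K0}

/-- the matrices of the functional equation -/
def Bm (p : ℕ) (n : ℤ) (t : K0) : ℕ → Fin 3 → Fin 3 → K0 := fun k =>
  if k = 0 then
    (if p % 4 = 3 then !![0, -3 * (n : K0), 0; -(n : K0), 0, 0; 0, 0, -t]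
      else !![-(n : K0), 0, 0; 0, -(n : K0), 0; 0, 0, -t])
  else !![1, 0, 0; 0, 1, 0; 0, 0, 1]

theorem v_Bm (p : ℕ) (n : ℤ) {t : K0} (ht : v0 t ≤ 1) (k : ℕ) (m m' : Fin 3) :
    v0 (Bm p n t k m m') ≤ 1 := by
  have h1 := v_intCast_le v0 n
  have h3 : v0 3 * v0 n ≤ 1 := mul_le_one' (by simpa using v_natCast_le v0 3) h1
  unfold Bm
  split_ifs <;> fin_cases m <;> fin_cases m' <;> simp [h1, h3, ht]

theorem Un.three (U : Un v0 p σ) (h3 : p ≠ 3) : v0 3 = 1 := by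
  simpa using v_natCast_eq U.prime U.lt (n := 3) fun h =>
    h3 ((Nat.prime_dvd_prime_iff_eq U.prime Nat.prime_three).1 h)

/-- the congruence on the `E`-block -/
theorem Un.cong_E (U : Un v0 p σ) (hp : p ≠ 0) (h3 : p ≠ 3) {F : Polynomial K0}
    {N : Fin 3 → Fin 3 → K0} {a b : K0} {v u : ℤ}
    (h : Cong v0 p hp σ F N J3 a b (v • wEa p - u • wEb)) :
    PI v0 (v0 p) (C (v : K0) * (fr σ p hp (fr σ p hp (lgN N F a b 2)) + C (p : K0) * lgN N F a b 2) -
      C (u : K0) * fr σ p hp (lgN N F a b 2)) := by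
  have h1 := (h 2).neg
  rw [op_E, jS_jS] at h1
  refine PI.of_C_mul (U.three h3) ?_
  convert h1 using 1
  simp [eS_apply, map_ofNat, mul_add]

/-- the denominator is prime to `p` -/
theorem Un.not_dvd (U : Un v0 p σ) (hp : p ≠ 0) (h3 : p ≠ 3) {F : Polynomial K0}
    {N : Fin 3 → Fin 3 → K0} {a b : K0} (hG : GdP v0 F a b) (hN : ∀ m k, v0 (N m k) ≤ 1)
    {k : Fin 3} (hk : v0 (N 2 k) = 1) {v u : ℤ} (huv : IsCoprime u v)
    (h : Cong v0 p hp σ F N J3 a b (v • wEa p - u • wEb)) : ¬ (p : ℤ) ∣ v := by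
  intro hv
  have h2 : p ≠ 2 := by
    rintro rfl
    have := U.lt
    simp [hG.two] at this
  have h4 : 3 < p := by
    have := U.prime.two_le
    omega
  have hvz : ∀ z : ℤ, v0 z = v0 z.natAbs := fun z => by
    rw [Nat.cast_natAbs]; rcases abs_choice z with h | h <;> simp [h]
  have hu : v0 u = 1 := by
    rw [hvz]
    refine v_natCast_eq U.prime U.lt fun hu => U.prime.ne_one ?_
    have := huv.isUnit_of_dvd' (Int.natCast_dvd.2 hu) hv
    simpa [Int.isUnit_iff_natAbs_eq] using this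
  have hv' : v0 v ≤ v0 p := by
    obtain ⟨c, rfl⟩ := hv
    push_cast
    rw [map_mul]
    exact mul_le_of_le_one_right' (v_intCast_le v0 c)
  refine absurd (nz hG N 2 (c := v0 p) (fun n hn hn3 => ?_) k) (by rw [hk]; exact not_le.2 U.lt)
  have hpn : ¬ p ∣ n := fun h => by have := Nat.le_of_dvd hn h; omega
  have h1 := U.cong_E hp h3 h (p * n)
  simp only [map_sub, map_add, coeff_C_mul, coeff_fr, dvd_mul_right, if_true,
    Nat.mul_div_cancel_left n U.prime.pos, hpn, if_false, map_zero, zero_add] at h1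
  have h5 : v0 ((v : K0) * (p * coeff (p * n) (lgN N F a b 2))) ≤ v0 p := by
    have := hG.li_lgN hN 2 (p * n)
    push_cast at this
    rw [mul_right_comm, map_mul, v_natCast_eq U.prime U.lt hpn, mul_one] at this
    rw [map_mul]
    simpa using mul_le_mul' hv' this
  have h6 := v0.map_sub_le h5 h1
  rwa [sub_sub_cancel, map_mul, hu, one_mul, U.iso] at h6

/-- both blocks together -/
theorem Un.uop_Bm (U : Un v0 p σ) (hp : p ≠ 0) (h3 : p ≠ 3) {F : Polynomial K0}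
    {N : Fin 3 → Fin 3 → K0} {a b : K0} {n v u : ℤ} (hv : v0 v = 1)
    (hA : Cong v0 p hp σ F N J3 a b (wA (ep p) n p))
    (hE : Cong v0 p hp σ F N J3 a b (v • wEa p - u • wEb)) (m : Fin 3) :
    PI v0 (v0 p) (uop σ p hp 2 (Bm p n ((u : K0) / v)) (lgN N F a b) m) := by
  have hv0 : (v : K0) ≠ 0 := fun e => by simp [e] at hv
  have e1 : ∀ f, (fr σ p hp ^ (0 + 1)) f = fr σ p hp f := fun f => by simp
  have e2 : ∀ f, (fr σ p hp ^ (1 + 1)) f = fr σ p hp (fr σ p hp f) := fun f => by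
    simp [pow_succ]
  have hA0 := hA 0
  have hA1 := hA 1
  rw [op_A, jS_jS] at hA0 hA1
  simp only [uop, Finset.sum_range_succ, Finset.sum_range_zero, zero_add (M := K0⟦X⟧), e1, e2,
    Fin.sum_univ_three]
  fin_cases m
  · refine PI.of_C_mul (U.three h3) ?_
    convert hA0 using 1
    by_cases h4 : p % 4 = 3 <;> simp [Bm, ep, h4, jS_J3, eS_apply, map_ofNat, vecHead, vecTail] <;> ring
  · refine PI.of_C_mul (U.three h3) ?_
    convert hA1 using 1
    by_cases h4 : p % 4 = 3 <;> simp [Bm, ep, h4, jS_J3, eS_apply, map_ofNat, vecHead, vecTail] <;> ring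
  · refine PI.of_C_mul hv ?_
    convert U.cong_E hp h3 hE using 1
    have e : (C (v : K0) : K0⟦X⟧) * C ((u : K0) / v) = C (u : K0) := by
      rw [← map_mul, mul_div_cancel₀ _ hv0]
    by_cases h4 : p % 4 = 3 <;> simp only [Bm, h4, if_true, if_false, one_ne_zero] <;>
      simp only [Fin.reduceFinMk, of_apply, cons_val', cons_val, cons_val_zero, cons_val_one,
        cons_val_fin_one, map_zero, map_neg, map_one] <;> linear_combination (-fr σ p hp (lgN N F a b 2)) * e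

end series

/-- the coefficient vectors in the rational basis -/
def Vq (g : ℕ → ℤ) (n : ℕ) : Fin 3 → ℤ := ![pc 1 g n, pc 3 g n, 0]

theorem rec_Bm {K : Type*} [Field K] {L p : ℕ} {g : ℕ → ℤ} (h : Ht.Hk L g) (hp : p.Prime)
    (hL : ¬ p ∣ L) (t : K) : Rec p (Bm p (g p) t) (Vq g) := by
  have h2 : p % 2 = 1 := hp.eq_two_or_odd.resolve_left (by
    rintro rfl
    exact hL ((by norm_num : 2 ∣ 16).trans h.dvd))
  intro n m
  have e := congrArg (Int.cast : ℤ → K) (h.hrec p hp hL n)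
  have hm : ∀ n, p * n % 4 = p % 4 * (n % 4) % 4 := fun n => Nat.mul_mod p n 4
  by_cases hd : p ∣ n
  · obtain ⟨k, rfl⟩ := hd
    have h1 := hm k
    have h3 := hm (p * k)
    rw [h1] at h3
    simp only [dvd_mul_right, if_true, Nat.mul_div_cancel_left k hp.pos] at e ⊢
    have h4 : p % 4 = 1 ∨ p % 4 = 3 := by omega
    have h5 : k % 4 = 0 ∨ k % 4 = 1 ∨ k % 4 = 2 ∨ k % 4 = 3 := by omega
    rcases h4 with h4 | h4 <;> rcases h5 with h5 | h5 | h5 | h5 <;>
      simp only [h4, h5] at h1 h3 <;> fin_cases m <;>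
      simp [Bm, Vq, pc, ep, Fin.sum_univ_three, h1, h3, h4, h5] at e ⊢ <;> linear_combination e
  · have h1 := hm n
    simp only [hd, if_false] at e ⊢
    have h4 : p % 4 = 1 ∨ p % 4 = 3 := by omega
    have h5 : n % 4 = 0 ∨ n % 4 = 1 ∨ n % 4 = 2 ∨ n % 4 = 3 := by omega
    rcases h4 with h4 | h4 <;> rcases h5 with h5 | h5 | h5 | h5 <;>
      simp only [h4, h5] at h1 <;> fin_cases m <;>
      simp [Bm, Vq, pc, ep, Fin.sum_univ_three, h1, h4, h5] at e ⊢ <;> linear_combination e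

theorem mulVec_cv {P : Par Om} {M : Ht.Mdl P} {N : Matrix (Fin 3) (Fin 3) Om} (h : Ht.IsOm M N)
    (g : ℕ → ℤ) (n : ℕ) : N *ᵥ Ht.cv P g n = fun m => (Vq g n m : Om) := by
  have h3 : N *ᵥ Ht.v3 P = ![0, 1, 0] := by
    rw [Ht.v3, mulVec_mulVec, h.mx, ← mulVec_mulVec, h.v1]
    ext m; fin_cases m <;> simp [J3, mulVec, dotProduct, Fin.sum_univ_three]
  change N *ᵥ (_ • Ht.v1 P + _ • Ht.v3 P) = _
  rw [mulVec_add, mulVec_smul, mulVec_smul, h3, h.v1]
  ext m; fin_cases m <;> simp [Vq]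

theorem Vq_dep (B : ℕ) (g : ℕ → ℤ) (n : ℕ) : Vq (Ht.dep B g) n = dep B (Vq g) n := by
  by_cases h : n.Coprime B
  · simp [Vq, pc, Ht.dep, dep, if_pos h]
  · ext m; fin_cases m <;> simp [Vq, pc, Ht.dep, dep, if_neg h]

theorem eq_of_three_pow {x : ℤ} (h : ∀ m : ℕ, (3 : ℤ) ^ m ∣ x) : x = 0 := by
  by_contra h0
  have h1 := Int.le_of_dvd (abs_pos.2 h0) ((dvd_abs _ _).2 (h x.natAbs))
  have h2 : (x.natAbs : ℤ) < 3 ^ x.natAbs := by
    exact_mod_cast Nat.lt_pow_self (by norm_num : 1 < 3)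
  rw [Int.natCast_natAbs] at h2
  omega

/-- **HONDA** -/
theorem hondaStmt_of (hBad : BadStmt) (hO : Ht.OmStmt) (hT : TriStmt)
    (hE : ∀ (p1 p2 p3 t : ℤ) (P : Par Om) (M : Ht.Mdl P) (Q : Top.Plc) (e : SI Om M.Y Om M.Y),
      Ht.Is P p1 p2 p3 t → Q.rchar ≠ 3 → Ht.Fr M Q e → ∃ τ : ℕ → ℤ, M.RelE e Q.rchar τ) :
    Ht.HondaStmt := by
  intro p1 p2 p3 t P M L B0 g a b hI hH hB0 hb hR
  obtain ⟨N, hN⟩ := hO p1 p2 p3 t P M hI
  obtain ⟨k, hk⟩ : ∃ k, N 2 k ≠ 0 := by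
    by_contra h
    push Not at h
    exact hN.det (det_eq_zero_of_row_eq_zero 2 h)
  have hC : Ae (CongAt P.F a b N (Vq g)) := by
    refine (((hT p1 p2 p3 t P M N hI hN).and (ae_ne Nat.prime_three)).and
      (((Ae.not_dvd hB0.ne').and (Ae.not_dvd hH.pos.ne')).and (ae_unit hk))).mono ?_
    rintro Q0 ⟨⟨h1, h3⟩, ⟨h4, h5⟩, h6⟩ φ hφ F0 a0 b0 N0 eF ea eb eN hG hN0 -
    obtain ⟨Q, e, hQ, he, hTri⟩ := h1 φ hφ F0 N0 eF eN
    have U := un hφ
    have hc : Nat.Coprime 3 Q0.rchar :=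
      (Nat.coprime_primes Nat.prime_three Q0.rchar_prime).2 h3.symm
    have hk0 : vI Q0 (N0 2 k) = 1 := by rw [vI_apply, eN]; exact h6
    have hA := hR Q e (by rwa [hQ]) he
    obtain ⟨τ, hτ⟩ := hE p1 p2 p3 t P M Q e hI (by rwa [hQ]) he
    rw [hQ] at hA hτ
    have kA : ∀ m, Kill M.j e.pic.toAddMonoidHom (wA (ep Q0.rchar) (g Q0.rchar) Q0.rchar) m :=
      fun m c hc => by rw [op_A]; exact hA m c hc
    have kE : ∀ m, Kill M.j e.pic.toAddMonoidHom (wEa Q0.rchar - τ m • wEb) m := fun m c hc => by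
      have := op_E M.j e.pic.toAddMonoidHom 1 (τ m) Q0.rchar c
      rw [one_smul, one_smul] at this
      rw [this, sub_eq_zero]
      have h7 := hτ m c hc
      rw [sub_add_eq_add_sub] at h7
      exact h7
    have hD := fun i => ((hTri _ _ (hG i)).di le_add_self hc kE).resolve_left fun h =>
      U.not_dvd _ h3 (hG i) hN0 hk0 (v := 0) (u := -1) isCoprime_one_left.neg_left
        (by simpa using h.2) (dvd_zero _)
    choose u v hv hd hCg using hD
    obtain ⟨d, u', v', hd0, hcop, eu, ev⟩ := Int.exists_gcd_one' (Int.gcd_pos_of_ne_zero_right (u 0) (hv 0))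
    have hE' : ∀ i, Cong (vI Q0) Q0.rchar Q0.rchar_prime.ne_zero (sg hφ) F0 N0 J3 (a0 i) (b0 i)
        (v' • wEa Q0.rchar - u' • wEb) := fun i => hCg i u' v' (by
      have h7 : u 0 * v i - u i * v 0 = 0 := eq_of_three_pow fun m => by
        have := ((hd 0 m).mul_right (v i)).sub ((hd i m).mul_right (v 0))
        exact (by ring : (u 0 - τ m * v 0) * v i - (u i - τ m * v i) * v 0 =
          u 0 * v i - u i * v 0) ▸ this
      rw [eu, ev] at h7
      have h8 : (d : ℤ) ≠ 0 := by exact_mod_cast hd0.ne'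
      exact mul_right_cancel₀ h8 (by linear_combination h7))
    have hv' : vI Q0 v' = 1 := by
      have h7 := U.not_dvd _ h3 (hG 0) hN0 hk0 (Int.isCoprime_iff_gcd_eq_one.2 hcop) (hE' 0)
      have := v_natCast_eq U.prime U.lt (n := v'.natAbs) fun h => h7 (Int.natCast_dvd.2 h)
      rw [Nat.cast_natAbs] at this
      rcases abs_choice v' with h | h <;> simpa [h] using this
    refine ⟨Bm Q0.rchar (g Q0.rchar) ((u' : KI Q0) / v'), v_Bm _ _ ?_, rec_Bm hH U.prime h5 _,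
      fun i => U.uop_Bm _ h3 hv' ((hTri _ _ (hG i)).cg_of_kill le_add_self hc kA) (hE' i)⟩
    rw [map_div₀, hv', div_one]
    exact v_intCast_le _ _
  obtain ⟨B, h0, hB⟩ := glob hBad hb.inj hb.ne hN.det hC
  obtain ⟨m, hm, hI⟩ := hB B h0 dvd_rfl
  refine ⟨B, m, Nat.pos_of_ne_zero h0, Nat.pos_of_ne_zero hm, fun x w η => hI _ x w η fun j => ?_⟩
  ext n
  have e := congrFun (mulVec_cv hN (Ht.dep B g) n) j
  rw [Vq_dep] at e
  simp only [eich, map_sum, PowerSeries.coeff_C_mul, PowerSeries.coeff_mk, ← e, mulVec, dotProduct,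
    Pi.smul_apply, smul_eq_mul, Finset.mul_sum, Finset.sum_div]
  exact Finset.sum_congr rfl fun _ _ => by ring

end Crest.Agent.T15.Hon
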