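import Crest.Agent.T15.HtGA_4

/-!
# Row 15, block Ht (helper4): the final assembly `HtGlue`
-/

set_option autoImplicit false
set_option linter.all false

noncomputable section

namespace Crest.Agent.T15.HtG

open Polynomial Matrix CongruenceSubgroup
open scoped NNReal MatrixGroups UpperHalfPlane
open Crest.Agent.R013.PicD_398 Crest.Agent.R013.Frob1_914
open Crest.Agent.T15.Ht
open Crest.Agent.T15.C (Om Gam)
open Crest.Agent.T15.Top (Plc IsFr Mod)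
open Crest.Agent.T15.Mo (Par)
open Crest.Agent.T15.Esc (CS per)
open Crest.Agent.T15.Und (QS)
open Crest.Agent.T15.Ar (Cert)

/-- rationality of the traces at almost all primes -/
theorem rat_step (hI : IntStmt) (hR : RatStmt) {p1 p2 p3 t : ℤ} {P : Par Om} (M : Mdl P)
    (hP : Is P p1 p2 p3 t) {N N' : ℕ} {a : ℕ → ℂ} {s3 : ℂ} (hs : s3 ^ 2 = 3)
    (hL : ∀ (Q : Plc) (e : SI Om M.Y Om M.Y), ¬ Q.rchar ∣ 3 * N → Fr M Q e →
      ∃ τ : ℕ → ℤ, M.Rel e Q.rchar τ ∧ Lim τ (a Q.rchar) (s3 ^ ep Q.rchar))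
    (hN' : 0 < N') (hd : N ∣ N') (hM : Mod N' a) :
    ∃ B : ℕ, 0 < B ∧ 3 * N' ∣ B ∧ ∀ l : ℕ, l.Prime → ¬ l ∣ B → ∃ n : ℤ, a l = n * s3 ^ ep l ∧
      ∀ (Q : Plc) (e : SI Om M.Y Om M.Y), Q.rchar = l → Fr M Q e → M.Rel e l fun _ => n := by
  obtain ⟨B, hB, hR⟩ := hR p1 p2 p3 t P M hP
  refine ⟨3 * N' * B, by positivity, Dvd.intro _ rfl, fun l hl hQ => ?_⟩
  have h1 : ¬ l ∣ 3 * N' := fun h => hQ (h.mul_right _)
  refine hR l _ s3 hl (fun h => hQ (h.mul_left _)) hs (hI N' a _ hN' hM hl h1) ?_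
  rintro Q e rfl he
  exact hL Q e (fun h => h1 (h.trans (Nat.mul_dvd_mul_left 3 hd))) he

/-- the periods of the depleted pair are torsion -/
theorem tors_step (hB : BrStmt) (ι : Om →+* ℂ) {P : Par Om} (J : Jc (P.map ι)) {L m : ℕ}
    {g : ℕ → ℤ} {f : Fin 2 → ℍ → ℂ} {a b : Fin 3 → Om} (hL : 0 < L) (hm : 0 < m) (hf : Pair L g f)
    (hab : Base P.F a b) (hI : Integ P.F a b fun n => (m : Om) • cv P g n) :
    ∀ γ ∈ Gamma0 L, ∃ m : ℕ, 0 < m ∧ m • pv f γ ∈ J.Lam := by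
  intro γ hγ
  have key : ∀ (σ : Om →+* ℂ), Cf L (fun n k => σ (((m : Om) • cv P g n) k))
      (lin (fun k => m * σ (v1 P k)) (fun k => m * σ (v3 P k)) f) := fun σ => by
    convert cf_lin hf _ _ using 3 with n k
    simp only [cv, emb_apply, Pi.smul_apply, Pi.add_apply, smul_eq_mul, cons_val_zero, cons_val_one,
      map_mul, map_add, map_natCast, map_intCast]
    ring
  let K0 : IntermediateField ℚ Om :=
    IntermediateField.adjoin ℚ (Set.range (v1 P) ∪ Set.range (v3 P))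
  have : Finite ↑(Set.range (v1 P) ∪ Set.range (v3 P)) :=
    ((Set.finite_range _).union (Set.finite_range _)).to_subtype
  have : Algebra.IsAlgebraic ℚ Om := AlgebraicClosure.isAlgebraic ℚ
  have hK : FiniteDimensional ℚ K0 := IntermediateField.finiteDimensional_adjoin fun x _ =>
    Algebra.IsIntegral.isIntegral x
  obtain ⟨m', hm', h⟩ := hB ι P.F J.A J.cl J.ex L (fun n => (m : Om) • cv P g n) a b K0 _
    (by rw [← Par.map_F]; exact J.lt) hL hK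
    (fun n k => by
      simp only [cv, emb_apply, Pi.smul_apply, Pi.add_apply, smul_eq_mul, cons_val_zero,
        cons_val_one]
      exact mul_mem (natCast_mem _ _) (add_mem
        (mul_mem (intCast_mem _ _) (IntermediateField.subset_adjoin _ _ (Or.inl ⟨k, rfl⟩)))
        (mul_mem (intCast_mem _ _) (IntermediateField.subset_adjoin _ _ (Or.inr ⟨k, rfl⟩)))))
    hab hI (fun σ => ⟨_, key σ⟩) (key ι) γ hγ
  refine ⟨m' * m, by positivity, ?_⟩
  rw [mem_Lam, mul_smul, map_nsmul, map_nsmul, ← h, pv_lin hf]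
  congr 2
  ext k
  simp only [emb_apply, Pi.smul_apply, Pi.add_apply, smul_eq_mul, nsmul_eq_mul, map_v1, map_v3,
    Pi.mul_apply, Pi.natCast_apply]
  ring

theorem fix_v {P : Par ℂ} (s : Gs P) : P.map (s.1 : ℂ →+* ℂ) = P :=
  map_eq_self P _ s.2.1 s.2.2.1 s.2.2.2.1 s.2.2.2.2.1 s.2.2.2.2.2

/-- comparison of the two lattices -/
theorem lat_step (hS : StabStmt) {P : Par ℂ} (J : Jc P) (hI : Irr (Gs P) J.A)
    [Module.Finite ℤ J.Lam] (hr : Module.finrank ℤ J.Lam = 4) {L k : ℕ} {g : ℕ → ℤ}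
    {f : Fin 2 → ℍ → ℂ} (hL : 0 < L) (hf : Pair L g f) (hk : 0 < k)
    (hk1 : ∀ v ∈ I0 L f, (k : ℚ) • v ∈ J.Lam)
    (hk2 : ∀ x ∈ J.Lam, ∃ v ∈ I0 L f, ∃ w ∈ I0 L f, (k : ℚ) • x = v + J2 w) :
    ∃ a b : ℚ, (∀ v ∈ I0 L f, a • v + b • J2 v ∈ J.Lam) ∧
      ∀ x ∈ J.Lam, ∃ v ∈ I0 L f, ∃ w ∈ I0 L f,
        (64 : ℚ) • x = a • (v + J2 w) + b • J2 (v + J2 w) := by
  refine Lat.lat (Γ := Gs P) (J.ex.comp (emb P)) J.Lam (I0 L f) hr (fun v => Iff.rfl) J2 J2_J2 J.j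
    (fun v => ?_) J.act_j hk hk1 hk2 (fun a b s v hv => ?_) (fun l e hl => ?_)
  · rw [AddMonoidHom.comp_apply, AddMonoidHom.comp_apply, J.j_ex, emb_J2]
  · have hv1 : ∀ i, s.1 (v1 P i) = v1 P i := fun i => by
      have := map_v1 P (s.1 : ℂ →+* ℂ) i
      rw [fix_v] at this; exact this.symm
    have hv3 : ∀ i, s.1 (v3 P i) = v3 P i := fun i => by
      have := map_v3 P (s.1 : ℂ →+* ℂ) i
      rw [fix_v] at this; exact this.symm
    have st := hS P.F J.A J.cl J.ex s.1 (DistribSMul.toAddMonoidHom J.A s) L _ _ J.lt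
      (by rw [← Par.map_F, fix_v]) (fun x y h => J.act_cl s x y h) hL
      (cf_lin hf (c0 P a b) (c1 P a b))
      (fun n i => by simp [c0, c1, hv1, hv3, map_ofNat])
      (fun γ hγ => by
        refine ⟨a.den * b.den * k, by have := a.den_pos; have := b.den_pos; positivity, ?_⟩
        rw [pv_ab hf, ← map_nsmul, ← map_nsmul, ← mem_Lam]
        have h1 := hk1 _ (pv_mem f hγ)
        have e : (a.den * b.den * k) • (a • pv f γ + b • J2 (pv f γ)) =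
            (a.num * b.den : ℤ) • ((k : ℚ) • pv f γ) +
              (a.den * b.num : ℤ) • J2 ((k : ℚ) • pv f γ) := by
          rw [map_smul, ← Nat.cast_smul_eq_nsmul ℚ, ← Int.cast_smul_eq_zsmul ℚ,
            ← Int.cast_smul_eq_zsmul ℚ]
          push_cast
          rw [← Rat.mul_den_eq_num, ← Rat.mul_den_eq_num]
          module
        rw [e]
        exact add_mem (Submodule.smul_mem _ _ h1) (Submodule.smul_mem _ _ (J2_Lam J h1)))
    induction hv using Submodule.span_induction with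
    | mem v hv =>
      obtain ⟨γ, hγ, rfl⟩ := hv
      obtain ⟨γ', hγ', h⟩ := st γ hγ
      rw [pv_ab hf, pv_ab hf] at h
      exact ⟨_, pv_mem f hγ', h⟩
    | zero => exact ⟨0, zero_mem _, by simp⟩
    | add v w _ _ h1 h2 =>
      obtain ⟨v', hv', h1⟩ := h1
      obtain ⟨w', hw', h2⟩ := h2
      refine ⟨v' + w', add_mem hv' hw', ?_⟩
      have e : ∀ v w : Fin 2 → ℂ, a • (v + w) + b • J2 (v + w) =
          (a • v + b • J2 v) + (a • w + b • J2 w) := fun v w => by rw [map_add]; module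
      rw [e, e, map_add, smul_add, h1, h2, ← map_add]
    | smul n v _ h1 =>
      obtain ⟨v', hv', h1⟩ := h1
      refine ⟨n • v', Submodule.smul_mem _ _ hv', ?_⟩
      have e : ∀ v : Fin 2 → ℂ, a • (n • v) + b • J2 (n • v) = n • (a • v + b • J2 v) :=
        fun v => by rw [map_zsmul]; module
      rw [e, e, map_zsmul, map_zsmul, smul_comm, h1]
  · obtain ⟨σ, τ, h⟩ := hI l e hl
    refine ⟨σ, τ, fun x hx => h _ ?_⟩
    have : ((l : ℚ) ^ e) ≠ 0 := by have := hl.pos; positivity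
    rw [← map_nsmul, ← Nat.cast_smul_eq_nsmul ℚ, smul_smul, Nat.cast_pow, mul_inv_cancel₀ this,
      one_smul]
    exact hx

theorem nf {del : ℚ} {m p1 p2 p3 t D : ℤ} {P : Par ℂ} (hc : Cert del m p1 p2 p3 t D)
    (hP : Is P p1 p2 p3 t) :
    Sc3.Nf (p1 : ℂ) p2 p3 D t P.al P.be P.c P.a1 P.a2 P.a3 := by
  have h1 : (p1 : ℂ) * p2 * p3 * ((p2 - p3) * (p3 - p1) * (p1 - p2)) = D * t ^ 2 := by
    exact_mod_cast hc.prod
  have hD : (D : ℂ) ≠ 0 := by exact_mod_cast hc.D_ne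
  have ht : (t : ℂ) ≠ 0 := by exact_mod_cast hc.t_ne
  refine ⟨by exact_mod_cast hc.sum, by linear_combination h1, by positivity, ?_, ?_, ?_, ?_, ?_, ?_⟩
  · rw [P.hal, hP.h1, hP.h2, hP.h3]; ring
  · rw [P.hbe, hP.h1, hP.h2, hP.h3]
  · simp only [Par.c, Par.d3, Par.d2, hP.h1, hP.h2, hP.h3, hP.ht]
  · simp only [Par.a1, Par.d1, hP.h1, hP.h2, hP.h3]
  · simp only [Par.a2, Par.d1, hP.h1, hP.h2, hP.h3]
  · simp only [Par.a3, Par.d1, hP.h1, hP.h2, hP.h3]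

/-- one valuation, one form -/
theorem scal_one (hS : ScalStmt) {del : ℚ} {m p1 p2 p3 t D : ℤ} {P : Par ℂ}
    (hc : Cert del m p1 p2 p3 t D) (hP : Is P p1 p2 p3 t) (J : Jc P) {L : ℕ} {g : ℕ → ℤ}
    {f : Fin 2 → ℍ → ℂ} (hg : Hk L g) (hf : Pair L g f) {a b : ℚ}
    (hab : ∀ v ∈ I0 L f, a • v + b • J2 v ∈ J.Lam) (w : Valuation ℂ ℝ≥0) :
    w ((1944 * (((L * a : ℚ)) : ℂ)) ^ 4 / ((64 * D * (p1 * p2 * p3) ^ 2 : ℚ) : ℂ)) ≤ 1 := by
  have hL : 3 ≤ L := le_trans (by norm_num) (Nat.le_of_dvd hg.pos hg.dvd)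
  have hκ : Sc3.kap P.p2 P.p3 P.al P.be ≠ 0 := mul_ne_zero (by norm_num) P.sub_ne2
  obtain ⟨h1, h2⟩ := hS P.c P.a1 P.a2 P.a3 J.A J.cl J.ex L _ _ J.lt hL
    (cf_lin hf (c0 P a b) (c1 P a b))
    ⟨Submodule.span ℤ {c0 P a b 1, c1 P a b 1}, Submodule.fg_span (by simp), fun n => by
      rw [mul_comm (c0 P a b 1), mul_comm (c1 P a b 1), ← zsmul_eq_mul, ← zsmul_eq_mul]
      exact add_mem (Submodule.smul_mem _ _ (Submodule.subset_span (by simp)))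
        (Submodule.smul_mem _ _ (Submodule.subset_span (by simp)))⟩
    (fun γ hγ => by rw [pv_ab hf, ← mem_Lam]; exact hab _ (pv_mem f hγ)) w 1
  have h := Sc3.Nf.comb w (nf hc hP) (hc.cop12.mul_right hc.cop13) h1 h2
  convert h using 4
  · rw [← hP.h2, ← hP.h3]
    simp only [pc, hg.one, c0, Pi.add_apply, Pi.smul_apply, v1_one, v3_one, smul_eq_mul]
    norm_num
    field_simp
  · push_cast; rfl

/-- the finite places -/
theorem fin_step (hS : ScalStmt) (hV : ValStmt) {del : ℚ} {m p1 p2 p3 t D : ℤ} {P : Par ℂ}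
    (hc : Cert del m p1 p2 p3 t D) (hP : Is P p1 p2 p3 t) (J : Jc P) {L : ℕ} {g : ℕ → ℤ}
    {f : Fin 2 → ℍ → ℂ} (hg : Hk L g) (hf : Pair L g f) {a b : ℚ}
    (hab : ∀ v ∈ I0 L f, a • v + b • J2 v ∈ J.Lam) (hne : a ^ 2 - 3 * b ^ 2 ≠ 0) :
    |(64 * D * (p1 * p2 * p3) ^ 2 : ℚ)| ≤ 1944 ^ 4 * (3 * L ^ 2 * (a ^ 2 - 3 * b ^ 2)) ^ 2 := by
  have hab' : ∀ v ∈ I0 L f, (3 * b) • v + a • J2 v ∈ J.Lam := fun v hv => by
    have := J2_Lam J (hab v hv)
    rw [map_add, map_smul, map_smul, J2_J2, smul_smul, add_comm, mul_comm] at this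
    exact this
  have e : 3 * (L * a) ^ 2 - (L * (3 * b)) ^ 2 = 3 * L ^ 2 * (a ^ 2 - 3 * b ^ 2) := by ring
  have hL : (L : ℚ) ≠ 0 := by exact_mod_cast hg.pos.ne'
  have h1 : (p1 : ℚ) ≠ 0 := by exact_mod_cast hc.p1_ne
  have h2 : (p2 : ℚ) ≠ 0 := by exact_mod_cast hc.p2_ne
  have h3 : (p3 : ℚ) ≠ 0 := by exact_mod_cast hc.p3_ne
  have hD : (D : ℚ) ≠ 0 := by exact_mod_cast hc.D_ne
  rw [← e]
  refine Sc3.fin_bound (K := ℂ) (Γ := ℝ≥0) (by positivity) (by rw [e]; positivity) fun l hl => ?_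
  obtain ⟨w, hw⟩ := hV l hl
  exact ⟨w, hw, scal_one hS hc hP J hg hf hab w, scal_one hS hc hP J hg hf hab' w⟩

/-- **final assembly of block Ht** -/
theorem htGlue : HtGlue := by
  intro del hG hI hR hSm hHo hJ hDep hBr hPer hSt hSc hV hCov hAr
  obtain ⟨C1, k1, hSm⟩ := hSm
  obtain ⟨C0, hCov⟩ := hCov
  obtain ⟨C2, k2, hAr⟩ := hAr
  refine ⟨(Real.log 21547 + (1944 ^ 4 * |C0| + 4 + |C2|)) * |C1| ^ (k2 + 1), k1 * (k2 + 1), ?_⟩
  rintro y N N' a ⟨m, p1, p2, p3, t, D, P, M, s3, hc, rfl, hP, hs, hL⟩ hN' hd - hM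
  -- rationality
  obtain ⟨B1, hB1, hd1, hrat⟩ := rat_step hI hR M hP hs hL hN' hd (hM (RingEquiv.refl ℂ))
  obtain ⟨L, g, f, hLe, hg, hf, hag⟩ := hSm N' B1 a s3 hN' hB1 hs hM fun l hl hlB => by
    obtain ⟨n, hn, -⟩ := hrat l hl hlB
    exact ⟨n, hn⟩
  -- integrality
  have hs0 : s3 ≠ 0 := by rintro rfl; norm_num at hs
  obtain ⟨α, β, hαβ⟩ := exists_base (F_ne P)
  obtain ⟨B, m0, hB, hm0, hInt⟩ := hHo p1 p2 p3 t P M L (B1 * L) g α β hP hg
    (Nat.mul_pos hB1 hg.pos) hαβ fun Q e hQ he => by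
      obtain ⟨n, hn, h⟩ := hrat _ Q.rchar_prime fun h => hQ (h.mul_right _)
      have := hag _ Q.rchar_prime fun h => hQ (h.trans (Nat.mul_dvd_mul_right hd1 _))
      rw [hn] at this
      have e1 : n = g Q.rchar := by exact_mod_cast mul_right_cancel₀ (pow_ne_zero _ hs0) this
      rw [← e1]
      exact h Q e rfl he
  -- the complex side
  have : Algebra.IsAlgebraic ℚ Om := AlgebraicClosure.isAlgebraic ℚ
  let ι : Om →+* ℂ := (IsAlgClosed.lift (R := ℚ) (S := Om) (M := ℂ)).toRingHom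
  have hPc := Is.map hP ι
  obtain ⟨J, hirr⟩ := hJ del m p1 p2 p3 t D _ hc hPc
  obtain ⟨L', f', hL', hf'⟩ := hDep L B g f hg.pos hB hf
  obtain ⟨hfin, hrk, x, hx, hx0, hxle⟩ := hCov m p1 p2 p3 t D _ J hc hPc
  obtain ⟨k, hk, hk1, hk2⟩ := hPer L L' B g f f' J.Lam hg hf hB hL' hf' hrk
    (fun x hx => J2_Lam J hx) (tors_step hBr ι J hL' hm0 hf' hαβ hInt)
  obtain ⟨u, v, huv1, huv2⟩ := lat_step hSt J hirr hrk hg.pos hf hk hk1 hk2
  obtain ⟨hne, harch⟩ := hAr L g f u v x hg hf (fun i => huv2 _ (hx i)) hx0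
  have hfs := fin_step hSc hV hc hPc J hg hf huv1 hne
  -- the count
  have hL1 : (1 : ℝ) ≤ L := by exact_mod_cast hg.pos
  have hlog := last_ineq (p1 := p1) (p2 := p2) (p3 := p3) (D := D)
    (N := ((u ^ 2 - 3 * v ^ 2 : ℚ) : ℝ)) (by exact_mod_cast hc.pos)
    (by exact_mod_cast hc.size.1.1) (by exact_mod_cast hc.size.2.1.1) (by exact_mod_cast hc.D_ne)
    hL1 (by exact_mod_cast hfs) harch hxle
  have hl0 : 0 ≤ Real.log 21547 := Real.log_nonneg (by norm_num)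
  have h1 : 1 ≤ (L : ℝ) ^ (k2 + 1) := one_le_pow₀ hL1
  have h2 : (L : ℝ) ≤ |C1| * (N' : ℝ) ^ k1 := hLe.trans (by gcongr; exact le_abs_self _)
  calc _ ≤ Real.log 21547 + Real.log p2 := hc.height
    _ ≤ (Real.log 21547 + (1944 ^ 4 * |C0| + 4 + |C2|)) * (L : ℝ) ^ (k2 + 1) := by nlinarith
    _ ≤ (Real.log 21547 + (1944 ^ 4 * |C0| + 4 + |C2|)) * (|C1| * (N' : ℝ) ^ k1) ^ (k2 + 1) := by
      gcongr
    _ = _ := by rw [mul_pow, ← pow_mul]; ring

end Crest.Agent.T15.HtG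

/-- **final assembly of block Ht** -/
theorem Crest.Agent.T15.Ht.htGlue : Crest.Agent.T15.Ht.HtGlue := Crest.Agent.T15.HtG.htGlue
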