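import Crest.Agent.T15.CgD_84

/-!
# Row 15, block T: the Gauss norm on `FF` under `Aut ℂ` and upper triangular matrices (helper84)

For any `w` with `IsG v qx w`: `w_aut`, `w_upper`, `w_inert`, `w_frob`, `w_up`.
-/

set_option autoImplicit false
set_option linter.unusedSectionVars false

noncomputable section

namespace Crest.Agent.T15.Cg

open HahnSeries
open scoped NNReal MatrixGroups
open Crest.Agent.R013.GR4_921 Crest.Agent.T15.Hs Crest.Agent.T15.Mf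

section gen

variable {K : Type*} [Field K] {v : Valuation K ℝ≥0} {L : Type*} [Field L] {qx : L →+* HS K}
  {w : Valuation L ℝ≥0}

lemma v_eq_of_mul {c c' : K} {a a' : HS K} (ha : UnS v a) (ha' : UnS v a')
    (e : C c * a = C c' * a') : v c = v c' := by
  have key : ∀ {c c' : K} {a a' : HS K}, UnS v a → IntS v a' → C c * a = C c' * a' →
      v c ≤ v c' := fun {c c' a a'} ha ha' e => by
    obtain ⟨g, hg⟩ := ha.2
    have := congrArg (fun z : HS K => v (z.coeff g)) e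
    simp only [C_mul_eq_smul, coeff_smul, smul_eq_mul, map_mul, hg, mul_one] at this
    rw [this]
    exact mul_le_of_le_one_right' (ha' g)
  exact le_antisymm (key ha ha'.1 e) (key ha' ha.1 e.symm)

lemma IsG.w_eq (h : IsG v qx w) {f : L} {c : K} {a b : HS K} (ha : UnS v a) (hb : UnS v b)
    (e : qx f * b = C c * a) : w f = v c := by
  by_cases hf : f = 0
  · rw [hf, map_zero, zero_mul, eq_comm, mul_eq_zero, or_iff_left ha.ne_zero] at e
    rw [hf, map_zero, C_injective (e.trans (map_zero C).symm), map_zero]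
  obtain ⟨c', a', b', ha', hb', e', hw⟩ := h f hf
  rw [hw]
  exact v_eq_of_mul (ha'.mul hb) (ha.mul hb') (by linear_combination b' * e - b * e')

/-- two Gauss norms agree -/
lemma IsG.unique (h : IsG v qx w) {w' : Valuation L ℝ≥0} (h' : IsG v qx w') : w = w' := by
  ext f
  by_cases hf : f = 0
  · simp [hf]
  obtain ⟨c, a, b, ha, hb, e, hw⟩ := h f hf
  rw [hw, h'.w_eq ha hb e]

lemma IntS.C_mul {c : K} (hc : v c ≤ 1) {a : HS K} (ha : IntS v a) : IntS v (C c * a) := fun g => by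
  rw [C_mul_eq_smul, coeff_smul, smul_eq_mul, map_mul]
  exact mul_le_one' hc (ha g)

lemma IsG.int_rep (h : IsG v qx w) {f : L} (hf : w f ≤ 1) :
    ∃ a b : HS K, IntS v a ∧ UnS v b ∧ qx f * b = a := by
  by_cases h0 : f = 0
  · exact ⟨0, 1, fun g => by simp, UnS.one, by simp [h0]⟩
  obtain ⟨c, a, b, ha, hb, e, hw⟩ := h f h0
  exact ⟨_, b, ha.1.C_mul (hw ▸ hf), hb, e⟩

lemma IsG.sub_lt (h : IsG v qx w) {x y : L} {a b a' b' : HS K} (ha' : IntS v a') (hb' : UnS v b')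
    (ha : Cgr v a a') (hb : Cgr v b b') (e : qx x * b = a) (e' : qx y * b' = a') :
    w (x - y) < 1 := by
  refine h.lt_one ((hb.un hb').mul hb') (a := a * b' - a' * b) (fun g => ?_) ?_
  · rw [coeff_sub]
    exact ha.mul hb.symm ha' (hb.un hb').1 g
  · rw [map_sub]
    linear_combination b' * e - b * e'

lemma v_root {m : ℕ} (hm : m ≠ 0) {z : K} (hz : z ^ m = 1) : v z = 1 := by
  have := congrArg v hz
  rwa [map_pow, map_one, pow_eq_one_iff_left hm] at this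

end gen

variable {v : Valuation ℂ ℝ≥0} {w : Valuation FF ℝ≥0}

lemma v_ex (r b : ℚ) : v (ex r (b : ℂ)) = 1 := by
  refine v_root (r * b).den_ne_zero ?_
  rw [ex, ← Complex.exp_nat_mul, ← Complex.exp_int_mul_two_pi_mul_I (r * b).num]
  congr 1
  have h : ((r * b).num : ℂ) = (r : ℂ) * b * (r * b).den := by
    exact_mod_cast (Rat.mul_den_eq_num (r * b)).symm
  rw [h]
  ring

lemma UnS.sc {a : HS ℂ} (ha : UnS v a) {t : ℚ} (ht : 0 < t) : UnS v (sc t a) := by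
  obtain ⟨g, hg⟩ := ha.2
  exact ⟨fun r => by rw [coeff_sc ht]; exact ha.1 _, t * g, by rw [coeff_sc_mul ht, hg]⟩

lemma UnS.tw {a : HS ℂ} (ha : UnS v a) (b : ℚ) : UnS v (tw (ee b) a) :=
  ha.of_eq fun g => by rw [coeff_tw, map_mul, ee_apply, v_ex, one_mul]

theorem w_aut (h : IsG v qx w) {σ : ℂ ≃+* ℂ} (hσv : ∀ c, v (σ c) = v c) (f : FF) :
    w (σ • f) = w f := by
  by_cases h0 : f = 0
  · simp [h0]
  obtain ⟨c, a, b, ha, hb, e, hw⟩ := h f h0
  rw [hw, ← hσv c]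
  refine h.w_eq (a := Hs.hm (σ : ℂ →+* ℂ) a) (b := Hs.hm (σ : ℂ →+* ℂ) b)
    (ha.of_eq fun g => hσv _) (hb.of_eq fun g => hσv _) ?_
  rw [qx_aut, ← map_mul, e, map_mul, hm_C]
  rfl

theorem w_upper (h : IsG v qx w) {g : GQ} (hg : (g : GL (Fin 2) ℚ) 1 0 = 0) (f : FF) :
    w (g⁻¹ • f) = w f := by
  by_cases h0 : f = 0
  · simp [h0]
  obtain ⟨c, a, b, ha, hb, e, hw⟩ := h f h0
  have hp := upper_pos hg
  rw [hw]
  refine h.w_eq ((ha.tw ((g : GL (Fin 2) ℚ) 0 1 / (g : GL (Fin 2) ℚ) 1 1)).sc hp)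
    ((hb.tw ((g : GL (Fin 2) ℚ) 0 1 / (g : GL (Fin 2) ℚ) 1 1)).sc hp) ?_
  rw [qx_upper hg, ← map_mul, ← map_mul, e, map_mul, map_mul, tw_C, sc_C hp]

theorem w_inert (h : IsG v qx w) {τ : ℂ ≃+* ℂ} (hτ : ∀ c, v c ≤ 1 → v (τ c - c) < 1) {f : FF}
    (hf : w f ≤ 1) : w (τ • f - f) < 1 := by
  obtain ⟨a, b, ha, hb, e⟩ := h.int_rep hf
  refine h.sub_lt ha hb (a := Hs.hm (τ : ℂ →+* ℂ) a) (b := Hs.hm (τ : ℂ →+* ℂ) b)
    (fun g => hτ _ (ha g)) (fun g => hτ _ (hb.1 g)) ?_ e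
  rw [qx_aut, ← map_mul, e]

/-- `σ (f (l z)) ≡ f ^ l` -/
theorem w_frob (h : IsG v qx w) {l : ℕ} (hl : l.Prime) (hv : v (l : ℂ) < 1) {σ : ℂ ≃+* ℂ}
    (hσ : ∀ c, v c ≤ 1 → v (σ c - c ^ l) < 1) {β : GQ} (h10 : (β : GL (Fin 2) ℚ) 1 0 = 0)
    (h00 : (β : GL (Fin 2) ℚ) 0 0 / (β : GL (Fin 2) ℚ) 1 1 = l)
    (h01 : (β : GL (Fin 2) ℚ) 0 1 = 0) {f : FF} (hf : w f ≤ 1) :
    w (σ • β⁻¹ • f - f ^ l) < 1 := by
  obtain ⟨a, b, ha, hb, e⟩ := h.int_rep hf
  have hp : (0 : ℚ) < l := Nat.cast_pos.2 hl.pos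
  have ht : ∀ y : HS ℂ, tw (ee 0) y = y := fun y => by
    ext g
    rw [coeff_tw, ee_zero, MonoidHom.one_apply, one_mul]
  have key : ∀ {y : HS ℂ}, IntS v y → Cgr v (Hs.hm (σ : ℂ →+* ℂ) (sc l y)) (y ^ l) := fun hy =>
    cgr_V hl hv hy fun g => by rw [coeff_hm, coeff_sc hp]; exact hσ _ (hy _)
  refine h.sub_lt (ha.pow l) (hb.pow l) (key ha) (key hb.1) ?_ (by rw [map_pow, ← mul_pow, e])
  rw [qx_aut, qx_upper h10, h00, h01, zero_div, ht, ← map_mul, ← map_mul, e]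

end Crest.Agent.T15.Cg

end
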