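import Mathlib
import Crest.Agent.T15.CgF_84
import Crest.Agent.R007.Wp8
import Crest.Agent.R007.RatL1

/-!
# Row 15, block T (helper71), Igusa part I: the inertia group of the Gauss norm is trivial

`inert` : an element of `SL(2,ℤ)` acting trivially on the residues of the functions of level `M`
lies in `±Γ(M)`.  Also `intS_qf`, `unS_e4`, `unS_e6`, `unS_dl`, `IsG.le_one`.
-/

set_option autoImplicit false
set_option linter.all false

noncomputable section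

namespace Crest.Agent.T15.Ig

open UpperHalfPlane ModularForm CongruenceSubgroup
open scoped MatrixGroups NNReal Matrix
open Crest.Agent.R007 Crest.Agent.R007.Rat Crest.Agent.T15.Mf Crest.Agent.T15.Hs
open Crest.Agent.T15.Cg

variable {v : Valuation ℂ ℝ≥0} {w : Valuation FF ℝ≥0}

theorem intS_qf {M : ℕ} (hM : M ≠ 0) {k : ℤ} {F : ℍ → ℂ} (hF : IsF M k F)
    (h : CoeffIn v.integer (qe M F)) : IntS v (qf F) := by
  intro r
  by_cases hr : (qf F).coeff r = 0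
  · rw [hr]; simp
  obtain ⟨n, rfl⟩ := lev_qf hM hF r hr
  rw [coeff_qf hM hF]
  exact h n

theorem unS_qf {M : ℕ} (hM : M ≠ 0) {k : ℤ} {F : ℍ → ℂ} (hF : IsF M k F)
    (h : CoeffIn v.integer (qe M F)) {n : ℕ} (hn : v ((qe M F).coeff n) = 1) : UnS v (qf F) :=
  ⟨intS_qf hM hF h, (n : ℚ) / M, by rw [coeff_qf hM hF]; exact hn⟩

theorem unS_e4 : UnS v (qf e4) :=
  unS_qf one_ne_zero isF_e4 coeffIn_e4 (n := 0) (by rw [coeff_zero_e4, map_one])

theorem unS_e6 : UnS v (qf e6) :=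
  unS_qf one_ne_zero isF_e6 coeffIn_e6 (n := 0) (by rw [coeff_zero_e6, map_one])

theorem unS_dl : UnS v (qf dl) :=
  unS_qf one_ne_zero isF_dl coeffIn_dl (n := 1) (by rw [coeff_one_dl, map_one])

theorem isG_le_one {K L : Type*} [Field K] [Field L] {v : Valuation K ℝ≥0} {qx : L →+* HS K}
    {w : Valuation L ℝ≥0} (h : IsG v qx w) {f : L} {a b : HS K} (ha : IntS v a) (hb : UnS v b)
    (e : qx f * b = a) : w f ≤ 1 := by
  by_cases hf : f = 0
  · simp [hf]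
  obtain ⟨c, a', b', ha', hb', e', hw⟩ := h f hf
  obtain ⟨g, hg⟩ := (ha'.mul hb).2
  have h1 : a * b' = HahnSeries.C c * (a' * b) := by
    rw [← e, mul_right_comm, e', mul_assoc]
  have h2 := (ha.mul hb'.1) g
  rwa [h1, HahnSeries.C_mul_eq_smul, HahnSeries.coeff_smul, smul_eq_mul, map_mul, hg, mul_one,
    ← hw] at h2

section level

variable {M : ℕ} (hM : v (M : ℂ) = 1)
include hM

theorem lev_ne : M ≠ 0 := by rintro rfl; simp at hM

theorem zeta_int : Wp.zeta M ∈ v.integer :=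
  (v_root (lev_ne hM) (Wp.zeta_pow M (lev_ne hM))).le

theorem inv_int : ((M : ℂ))⁻¹ ∈ v.integer := by
  show v _ ≤ 1
  rw [map_inv₀, hM, inv_one]

theorem chi_int (s : ℕ) (a b : ℤ) (d e : ℕ) : Wp.chi M s a b d e ∈ v.integer := by
  unfold Wp.chi
  have h1 : ∀ n : ℤ, Wp.zeta M ^ n ∈ v.integer :=
    Wp.zeta_zpow_mem_sub (lev_ne hM) (zeta_int hM)
  refine add_mem ?_ (mul_mem (pow_mem (neg_mem (one_mem _)) _) ?_)
  · split_ifs
    · exact mul_mem (pow_mem (natCast_mem _ _) _) (pow_mem (h1 _) _)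
    · exact zero_mem _
  · split_ifs
    · exact mul_mem (pow_mem (natCast_mem _ _) _) (pow_mem (h1 _) _)
    · exact zero_mem _

theorem cP_int {x : Fin 2 → ℤ} (hx : (x 0 : ZMod M) ≠ 0 ∨ (x 1 : ZMod M) ≠ 0) (n : ℕ) :
    Wp.cP M x n - (if n = 0 then 1 / 12 else 0) ∈ v.integer := by
  unfold Wp.cP
  rw [add_sub_right_comm]
  refine add_mem ?_ (sum_mem fun p _ => sub_mem (chi_int hM _ _ _ _ _) (chi_int hM _ _ _ _ _))
  split_ifs
  · rw [Wp.cP0_eq (lev_ne hM) hx, add_sub_cancel_left]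
    split_ifs with h
    · rw [div_eq_mul_inv, ← inv_pow]
      exact mul_mem (Wp.zeta_zpow_mem_sub (lev_ne hM) (zeta_int hM) _)
        (pow_mem (Wp.inv_one_sub_mem (lev_ne hM) (zeta_int hM) (inv_int hM)
          (hx.resolve_left (not_not.mpr h))) _)
    · exact zero_mem _
  · rw [sub_zero]; exact zero_mem _

theorem coeff_PP (x y : Fin 2 → ℤ) (n : ℕ) :
    (qf (Wp.P M x - Wp.P M y)).coeff ((n : ℚ) / M) = Wp.cP M x n - Wp.cP M y n := by
  have h0 := lev_ne hM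
  haveI : NeZero M := ⟨h0⟩
  rw [qf_sub h0 (Wp.isF_P h0 x) (Wp.isF_P h0 y), HahnSeries.coeff_sub, coeff_qf h0 (Wp.isF_P h0 x),
    coeff_qf h0 (Wp.isF_P h0 y), Wp.qe_P, Wp.qe_P, PowerSeries.coeff_mk, PowerSeries.coeff_mk]

theorem intS_PP {x y : Fin 2 → ℤ} (hx : (x 0 : ZMod M) ≠ 0 ∨ (x 1 : ZMod M) ≠ 0)
    (hy : (y 0 : ZMod M) ≠ 0 ∨ (y 1 : ZMod M) ≠ 0) : IntS v (qf (Wp.P M x - Wp.P M y)) := by
  have h0 := lev_ne hM
  have hF := (Wp.isF_P h0 x).sub (Wp.isF_P h0 y)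
  refine intS_qf h0 hF fun n => ?_
  rw [← coeff_qf h0 hF, coeff_PP hM, ← sub_sub_sub_cancel_right _ _ (if n = 0 then 1 / 12 else 0)]
  exact sub_mem (cP_int hM hx n) (cP_int hM hy n)

theorem zeta_cong {b c : ℤ} (h : v (Wp.zeta M ^ b - Wp.zeta M ^ c) < 1) : (b : ZMod M) = c := by
  by_contra hne
  obtain ⟨h1, h2⟩ := Wp.sub_unit (lev_ne hM) (zeta_int hM) (inv_int hM) hne
  have h3 : v (Wp.zeta M ^ b - Wp.zeta M ^ c)⁻¹ ≤ 1 := h2
  have h4 := mul_lt_one_of_lt_of_le h h3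
  rw [← map_mul, mul_inv_cancel₀ h1, map_one] at h4
  exact lt_irrefl _ h4

end level

theorem cP_one_sub (M : ℕ) (x y : Fin 2 → ℤ) : Wp.cP M x 1 - Wp.cP M y 1 =
    Wp.chi M 1 (x 0) (x 1) 1 1 - Wp.chi M 1 (y 0) (y 1) 1 1 := by
  simp [Wp.cP]

theorem chi_one (M : ℕ) (a b : ℤ) : Wp.chi M 1 a b 1 1 =
    (if (1 : ZMod M) = a then Wp.zeta M ^ b else 0) +
      if (-1 : ZMod M) = a then Wp.zeta M ^ (-b) else 0 := by
  simp [Wp.chi]

theorem neg_one_ne {M : ℕ} (h4 : 4 ∣ M) : (-1 : ZMod M) ≠ 1 := by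
  intro h
  have := congrArg (ZMod.castHom h4 (ZMod 4)) h
  rw [map_neg, map_one] at this
  revert this; decide

theorem two_ne_zero' {M : ℕ} (h4 : 4 ∣ M) : ((2 : ℤ) : ZMod M) ≠ 0 := by
  intro h
  have := congrArg (ZMod.castHom h4 (ZMod 4)) h
  rw [map_intCast, map_zero] at this
  revert this; decide

theorem chi_even {M : ℕ} (h4 : 4 ∣ M) (a b : ℤ) : Wp.chi M 1 (2 * a) b 1 1 = 0 := by
  have h2 : 2 ∣ M := Dvd.dvd.trans (by norm_num) h4
  have h0 : ((2 * a : ℤ) : ZMod 2) = 0 := by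
    rw [ZMod.intCast_zmod_eq_zero_iff_dvd]; exact Dvd.intro _ rfl
  rw [chi_one, if_neg, if_neg, add_zero]
  · intro h
    have := congrArg (ZMod.castHom h2 (ZMod 2)) h
    rw [map_neg, map_one, map_intCast, h0] at this
    revert this; decide
  · intro h
    have := congrArg (ZMod.castHom h2 (ZMod 2)) h
    rw [map_one, map_intCast, h0] at this
    revert this; decide

theorem chi_cong {M : ℕ} (h4 : 4 ∣ M) (hM : v (M : ℂ) = 1) {a b e : ℤ}
    (h : v (Wp.chi M 1 a b 1 1 - Wp.zeta M ^ e) < 1) :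
    ((a : ZMod M) = 1 ∧ (b : ZMod M) = e) ∨ ((a : ZMod M) = -1 ∧ (b : ZMod M) = -e) := by
  rw [chi_one] at h
  by_cases h1 : (1 : ZMod M) = a
  · rw [if_pos h1, if_neg (by rw [← h1]; exact neg_one_ne h4), add_zero] at h
    exact Or.inl ⟨h1.symm, zeta_cong hM h⟩
  by_cases h2 : (-1 : ZMod M) = a
  · rw [if_neg h1, if_pos h2, zero_add] at h
    refine Or.inr ⟨h2.symm, ?_⟩
    have := zeta_cong hM h
    rw [← this]; simp
  · rw [if_neg h1, if_neg h2, add_zero, zero_sub, Valuation.map_neg, map_zpow₀,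
      v_root (lev_ne hM) (Wp.zeta_pow M (lev_ne hM)), one_zpow] at h
    exact absurd h (lt_irrefl _)

theorem inert_row (h : IsG v qx w) {M : ℕ} (h4 : 4 ∣ M) (hM : v (M : ℂ) = 1) (g : SL(2, ℤ))
    (hg : ∀ f : FF, (∀ d ∈ Gamma M, d • f = f) → w f ≤ 1 → w (g⁻¹ • f - f) < 1) (e : ℤ) :
    (((g 0 0 + e * g 1 0 : ℤ) : ZMod M) = 1 ∧ ((g 0 1 + e * g 1 1 : ℤ) : ZMod M) = e) ∨
      (((g 0 0 + e * g 1 0 : ℤ) : ZMod M) = -1 ∧ ((g 0 1 + e * g 1 1 : ℤ) : ZMod M) = -e) := by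
  have h0 := lev_ne hM
  have hone : (1 : ZMod M) ≠ 0 := fun h1 => two_ne_zero' h4 (by
    rw [← mul_one ((2 : ℤ) : ZMod M), h1, mul_zero])
  have hu : (((![1, e] : Fin 2 → ℤ) 0 : ℤ) : ZMod M) ≠ 0 ∨ (((![1, e] : Fin 2 → ℤ) 1 : ℤ) : ZMod M) ≠ 0 :=
    Or.inl (by simpa using hone)
  have h2 : (((![2, 0] : Fin 2 → ℤ) 0 : ℤ) : ZMod M) ≠ 0 ∨ (((![2, 0] : Fin 2 → ℤ) 1 : ℤ) : ZMod M) ≠ 0 :=
    Or.inl (two_ne_zero' h4)
  have hE : IsF M (4 + 6) (e4 * e6) := (isF_e4.mul isF_e6).mono (one_dvd M)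
  have hD : IsF M (2 + (4 + 6)) dl := (isF_dl.mono (one_dvd M)).cast (by norm_num)
  have hUE : UnS v (qf (e4 * e6)) := by
    rw [qf_mul one_ne_zero isF_e4 isF_e6]; exact unS_e4.mul unS_e6
  have hA : ∀ x y, IsF M 2 (Wp.P M x - Wp.P M y) := fun x y => (Wp.isF_P h0 x).sub (Wp.isF_P h0 y)
  have hq : ∀ {A : ℍ → ℂ}, IsF M 2 A → qx (quo (A * (e4 * e6)) dl) * qf dl = qf A * qf (e4 * e6) := by
    intro A hA
    rw [qx_quo h0 (hA.mul hE) hD, div_mul_cancel₀ _ (unS_dl (v := v)).ne_zero, qf_mul h0 hA hE]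
  have h3 := hg (quo ((Wp.P M ![1, e] - Wp.P M ![2, 0]) * (e4 * e6)) dl)
    (fun d hd => gamma_smul_quo h0 ((hA _ _).mul hE) hD hd)
    (isG_le_one h ((intS_PP hM hu h2).mul hUE.1) unS_dl (hq (hA _ _)))
  have hdl : dl ∣[(2 + (4 + 6) : ℤ)] g = dl := (isF_dl.cast (by norm_num)).slash_one_level g
  rw [inv_sl_smul_quo h0 ((hA _ _).mul hE) hD, hdl, mul_slash_SL2,
    (isF_e4.mul isF_e6).slash_one_level g, sub_eq_add_neg (Wp.P M ![1, e]), SlashAction.add_slash,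
    SlashAction.neg_slash, Wp.P_slash, Wp.P_slash, ← sub_eq_add_neg, ← sub_eq_add_neg,
    ← quo_sub h0 ((hA _ _).mul hE) ((hA _ _).mul hE) hD, ← sub_mul] at h3
  have hB := (hA (![1, e] ᵥ* (g : Matrix (Fin 2) (Fin 2) ℤ)) (![2, 0] ᵥ* (g : Matrix (Fin 2) (Fin 2) ℤ))).sub
    (hA ![1, e] ![2, 0])
  have hI : IntS v (qf (Wp.P M (![1, e] ᵥ* (g : Matrix (Fin 2) (Fin 2) ℤ)) -
      Wp.P M (![2, 0] ᵥ* (g : Matrix (Fin 2) (Fin 2) ℤ)) - (Wp.P M ![1, e] - Wp.P M ![2, 0]))) := by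
    rw [qf_sub h0 (hA _ _) (hA _ _)]
    exact (intS_PP hM (Wp.vecMul_ne hu g) (Wp.vecMul_ne h2 g)).sub (intS_PP hM hu h2)
  have h5 := lt_of_le_of_ne (hI (((1 : ℕ) : ℚ) / M)) fun h6 => by
    have h7 := h.w_eq (c := 1) (UnS.mul ⟨hI, _, h6⟩ hUE) unS_dl (by rw [hq hB, map_one, one_mul])
    rw [h7, map_one] at h3
    exact lt_irrefl _ h3
  rw [qf_sub h0 (hA _ _) (hA _ _), HahnSeries.coeff_sub, coeff_PP hM, coeff_PP hM, cP_one_sub,
    cP_one_sub] at h5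
  have e1 : (![2, 0] ᵥ* (g : Matrix (Fin 2) (Fin 2) ℤ)) 0 = 2 * g 0 0 := by
    simp [Matrix.vecMul, dotProduct, Fin.sum_univ_two]
  have e2 : (![1, e] ᵥ* (g : Matrix (Fin 2) (Fin 2) ℤ)) 0 = g 0 0 + e * g 1 0 := by
    simp [Matrix.vecMul, dotProduct, Fin.sum_univ_two]
  have e3 : (![1, e] ᵥ* (g : Matrix (Fin 2) (Fin 2) ℤ)) 1 = g 0 1 + e * g 1 1 := by
    simp [Matrix.vecMul, dotProduct, Fin.sum_univ_two]
  have e4' : Wp.chi M 1 ((![2, 0] : Fin 2 → ℤ) 0) ((![2, 0] : Fin 2 → ℤ) 1) 1 1 = 0 :=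
    chi_even h4 1 0
  have e5 : Wp.chi M 1 ((![1, e] : Fin 2 → ℤ) 0) ((![1, e] : Fin 2 → ℤ) 1) 1 1 = Wp.zeta M ^ e := by
    show Wp.chi M 1 1 e 1 1 = _
    rw [chi_one, if_pos (by simp), if_neg (by simpa using neg_one_ne h4), add_zero]
  rw [e1, e2, e3, chi_even h4, e4', e5, sub_zero, sub_zero] at h5
  exact chi_cong h4 hM h5

/-- **trivial inertia** -/
theorem inert (h : IsG v qx w) {M : ℕ} (h4 : 4 ∣ M) (hM : v (M : ℂ) = 1) (g : SL(2, ℤ))
    (hg : ∀ f : FF, (∀ d ∈ Gamma M, d • f = f) → w f ≤ 1 → w (g • f - f) < 1) :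
    g ∈ Gamma M ∨ -g ∈ Gamma M := by
  have key : ∀ γ : SL(2, ℤ),
      (∀ f : FF, (∀ d ∈ Gamma M, d • f = f) → w f ≤ 1 → w (γ⁻¹ • f - f) < 1) →
      γ ∈ Gamma M ∨ -γ ∈ Gamma M := by
    intro γ hγ
    have h1 := inert_row h h4 hM γ hγ 0
    have h2 := inert_row h h4 hM γ hγ 1
    have hd : (γ 0 0 : ZMod M) * γ 1 1 - γ 0 1 * γ 1 0 = 1 := by
      have := γ.det_coe
      rw [Matrix.det_fin_two] at this
      exact_mod_cast congrArg (Int.cast : ℤ → ZMod M) this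
    have hne := neg_one_ne h4
    simp only [zero_mul, add_zero, one_mul, Int.cast_zero, neg_zero, Int.cast_one, Int.cast_add]
      at h1 h2
    rcases h1 with ⟨a1, b1⟩ | ⟨a1, b1⟩ <;> rcases h2 with ⟨a2, b2⟩ | ⟨a2, b2⟩
    · left
      rw [Gamma_mem]
      exact ⟨a1, b1, by linear_combination a2 - a1, by linear_combination b2 - b1⟩
    · exfalso; apply hne
      rw [b1, zero_add] at b2
      rw [a1, b1, b2] at hd
      linear_combination hd
    · exfalso; apply hne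
      rw [b1, zero_add] at b2
      rw [a1, b1, b2] at hd
      linear_combination hd
    · right
      rw [Gamma_mem]
      simp only [Matrix.SpecialLinearGroup.coe_neg, Matrix.neg_apply, Int.cast_neg]
      exact ⟨by linear_combination -a1, by linear_combination -b1, by linear_combination a1 - a2,
        by linear_combination b1 - b2⟩
  rcases key g⁻¹ (by simpa only [inv_inv] using hg) with h1 | h1
  · exact Or.inl (by simpa using inv_mem h1)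
  · right
    have := inv_mem h1
    rwa [inv_neg, inv_inv] at this

end Crest.Agent.T15.Ig
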