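import Mathlib
import Crest.Agent.R013.GR9_921

/-!
# Row 15, block T (helper61), Igusa part A: decomposition groups of a norm

* `exists_sep` : approximation; `descent` : an element fixed by the decomposition group has the
  residue of an element of the base field;
* `res_ratFunc` : the residue field of the Gauss norm of `C(x)` is `k(x̄)`;
* `const_of_unit` : an element fixed by the decomposition group which is, together with its inverse,
  integral over `O[x]`, has a constant residue;
* `bar` : the automorphism of the residue field; `finrank_res_le`; `isGalois_res`.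
-/

set_option autoImplicit false
set_option linter.unusedSectionVars false

namespace Crest.Agent.T15.Ig

open Polynomial Module
open scoped NNReal
open Crest.Agent.R013.RR8_948 Crest.Agent.R013.RR20_948
open Crest.Agent.R013.GR4_921 Crest.Agent.R013.GR6_921 Crest.Agent.R013.GR9_921

section approx

variable {T : Type*} [Field T]

theorem w_eq_one_of_lt (w : Valuation T ℝ≥0) {u : T} (h : w (u - 1) < 1) : w u = 1 := by
  have := w.map_one_add_of_lt h
  rwa [add_sub_cancel] at this

theorem w_mul_sub_one (w : Valuation T ℝ≥0) {u v : T} (hu : w (u - 1) < 1) (hv : w (v - 1) < 1) :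
    w (u * v - 1) < 1 := by
  have e : u * v - 1 = u * (v - 1) + (u - 1) := by ring
  rw [e]
  refine w.map_add_lt ?_ hu
  rwa [map_mul, w_eq_one_of_lt w hu, one_mul]

theorem w_pow_sub_one (w : Valuation T ℝ≥0) {u : T} (hu : w (u - 1) < 1) (n : ℕ) :
    w (u ^ n - 1) < 1 := by
  induction n with
  | zero => simp
  | succ n ih => rw [pow_succ]; exact w_mul_sub_one w ih hu

theorem w_prod_sub_one (w : Valuation T ℝ≥0) {ι : Type*} (s : Finset ι) {u : ι → T}
    (hu : ∀ i ∈ s, w (u i - 1) < 1) : w (∏ i ∈ s, u i - 1) < 1 := by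
  classical
  induction s using Finset.induction_on with
  | empty => simp
  | insert a s ha ih =>
    rw [Finset.prod_insert ha]
    exact w_mul_sub_one w (hu a (by simp)) (ih fun i hi => hu i (by simp [hi]))

theorem exists_pow_mul_lt {ι : Type*} (s : Finset ι) (a b : ι → ℝ≥0) (ha : ∀ i ∈ s, a i < 1) :
    ∃ N : ℕ, ∀ i ∈ s, a i ^ N * b i < 1 := by
  have h : ∀ i ∈ s, ∀ᶠ N : ℕ in Filter.atTop, a i ^ N * b i < 1 := by
    intro i hi
    have h1 := (NNReal.tendsto_pow_atTop_nhds_zero_of_lt_one (ha i hi)).mul_const (b i)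
    rw [zero_mul] at h1
    exact h1.eventually (gt_mem_nhds zero_lt_one)
  exact ((Filter.eventually_all_finset s).2 h).exists

/-- approximation -/
theorem exists_sep {ι : Type*} (w : Valuation T ℝ≥0) (v : ι → Valuation T ℝ≥0) (s : Finset ι)
    (h : ∀ i ∈ s, ∃ y, w (y - 1) < 1 ∧ v i y < 1) :
    ∃ u, w (u - 1) < 1 ∧ ∀ i ∈ s, v i u < 1 := by
  classical
  induction s using Finset.induction_on with
  | empty => exact ⟨1, by simp, by simp⟩
  | insert j s hj ih =>
    obtain ⟨u, hu, hus⟩ := ih fun i hi => h i (by simp [hi])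
    obtain ⟨y, hy, hyj⟩ := h j (by simp)
    by_cases hju : v j u ≤ 1
    · obtain ⟨N, hN⟩ := exists_pow_mul_lt s (fun i => v i u) (fun i => v i y) hus
      refine ⟨u ^ N * y, w_mul_sub_one w (w_pow_sub_one w hu N) hy, fun i hi => ?_⟩
      rw [map_mul, map_pow]
      rcases Finset.mem_insert.1 hi with rfl | hi
      · exact (mul_le_of_le_one_left' (pow_le_one' hju N)).trans_lt hyj
      · exact hN i hi
    · rw [not_le] at hju
      have hd : w ((1 - u + u ^ 2) - 1) < 1 := by
        have e : (1 - u + u ^ 2) - 1 = u * (u - 1) := by ring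
        rwa [e, map_mul, w_eq_one_of_lt w hu, one_mul]
      have hd1 := w_eq_one_of_lt w hd
      have hd0 : (1 - u + u ^ 2) ≠ 0 := fun e => by simp [e] at hd1
      refine ⟨u / (1 - u + u ^ 2), ?_, fun i hi => ?_⟩
      · have e : u / (1 - u + u ^ 2) - 1 = -((u - 1) * (u - 1)) / (1 - u + u ^ 2) := by
          field_simp
          ring
        rw [e, map_div₀, hd1, div_one, Valuation.map_neg, map_mul]
        exact (mul_le_of_le_one_left' hu.le).trans_lt hu
      · rcases Finset.mem_insert.1 hi with rfl | hi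
        · have h1 : v i (1 - u) < v i (u ^ 2) := by
            rw [map_pow]
            have h2 : v i u < v i u ^ 2 := by
              rw [sq]; exact lt_mul_of_one_lt_left (zero_lt_one.trans hju) hju
            refine (v i).map_sub_lt ?_ h2
            rw [map_one]
            exact hju.trans h2
          rw [map_div₀, (v i).map_add_eq_of_lt_right h1, map_pow, div_lt_one (by positivity), sq]
          exact lt_mul_of_one_lt_left (zero_lt_one.trans hju) hju
        · have h1 : v i ((1 - u + u ^ 2) - 1) < 1 := by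
            have e : (1 - u + u ^ 2) - 1 = u * u - u := by ring
            rw [e]
            refine (v i).map_sub_lt ?_ (hus i hi)
            rw [map_mul]
            exact (mul_le_of_le_one_left' (hus i hi).le).trans_lt (hus i hi)
          rw [map_div₀, w_eq_one_of_lt _ h1, div_one]
          exact hus i hi

end approx

section red

variable {C T k κ : Type*} [Field C] [Field T] [Algebra C T] [Field k] [Field κ] [Algebra k κ]
  {vC : Valuation C ℝ≥0} {ρC : C → k} {w : Valuation T ℝ≥0} {ρ : T → κ}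

/-- an automorphism that keeps the valuation ring keeps the norm -/
theorem w_eq_of_le (h : Red vC ρC w ρ) (g : T ≃ₐ[C] T) (hg : ∀ a, w a ≤ 1 → w (g a) ≤ 1) (f : T) :
    w (g f) = w f := by
  by_cases hf : f = 0
  · simp [hf]
  obtain ⟨c, hc0, hc, h1⟩ := h.normalise hf
  set z := f * algebraMap C T c⁻¹ with hz
  have hz0 : z ≠ 0 := fun e => by simp [e] at h1
  have h2 := hg z h1.le
  have h3 := hg z⁻¹ (by rw [map_inv₀, h1, inv_one])
  have hgz : w (g z) ≠ 0 := by simpa using hz0
  rw [map_inv₀, map_inv₀, inv_le_one₀ (pos_iff_ne_zero.2 hgz)] at h3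
  have h4 : w (g z) = 1 := le_antisymm h2 h3
  have hvc : vC c ≠ 0 := by simpa using hc0
  rw [hz, map_mul, AlgEquiv.commutes, map_mul, h.norm, map_inv₀, mul_inv_eq_one₀ hvc] at h4
  rw [h4, hc]

theorem exists_sep_one (h : Red vC ρC w ρ) (g : T ≃ₐ[C] T) (hg : ¬ ∀ f, w (g f) = w f) :
    ∃ y, w (y - 1) < 1 ∧ w (g y) < 1 := by
  have h1 : ¬ ∀ a, w a ≤ 1 → w (g a) ≤ 1 := fun e => hg (w_eq_of_le h g e)
  have h2 : ¬ ∀ a, w a ≤ 1 → w (g.symm a) ≤ 1 := fun e => hg fun f => by
    rw [← w_eq_of_le h g.symm e (g f), g.symm_apply_apply]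
  push Not at h1 h2
  obtain ⟨a, ha, ha'⟩ := h1
  obtain ⟨b, hb, hb'⟩ := h2
  have ha0 : a ≠ 0 := by rintro rfl; simp at ha'
  have hwa : 0 < w a := pos_iff_ne_zero.2 (by simpa using ha0)
  set x := g.symm b / a with hx
  have hx1 : 1 < w x := by
    rw [hx, map_div₀, one_lt_div hwa]
    exact ha.trans_lt hb'
  have hx2 : w (g x) < 1 := by
    rw [hx, map_div₀, map_div₀, g.apply_symm_apply, div_lt_one (zero_lt_one.trans ha')]
    exact hb.trans_lt ha'
  have hx3 : w (1 + x) = w x := w.map_add_eq_of_lt_right (by rwa [map_one])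
  have hx0 : 1 + x ≠ 0 := fun e => by
    rw [e, map_zero] at hx3
    exact absurd (hx3 ▸ hx1) (by simp)
  refine ⟨x / (1 + x), ?_, ?_⟩
  · have e : x / (1 + x) - 1 = -(1 + x)⁻¹ := by field_simp; ring
    rw [e, Valuation.map_neg, map_inv₀, hx3]
    exact inv_lt_one_of_one_lt₀ hx1
  · rw [map_div₀, map_div₀, map_add, map_one, w.map_one_add_of_lt hx2, div_one]
    exact hx2

variable {K : Type*} [Field K] [Algebra C K] [Algebra K T] [IsScalarTower C K T]

/-- the decomposition group -/
def stab (K : Type*) [Field K] [Algebra K T] (w : Valuation T ℝ≥0) : Subgroup (T ≃ₐ[K] T) where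
  carrier := {g | ∀ f, w (g f) = w f}
  mul_mem' := fun {a b} ha hb f => by rw [AlgEquiv.mul_apply, ha, hb]
  one_mem' := fun f => rfl
  inv_mem' := fun {a} ha f => by
    rw [← ha (a⁻¹ f)]
    exact congrArg w (a.apply_symm_apply f)

theorem mem_stab {K : Type*} [Field K] [Algebra K T] {g : T ≃ₐ[K] T} :
    g ∈ stab K w ↔ ∀ f, w (g f) = w f := Iff.rfl

/-- **descent**: the residue of an element fixed by the decomposition group comes from the base -/
theorem descent [FiniteDimensional K T] [IsGalois K T] (h : Red vC ρC w ρ) {y : T} (hy : w y ≤ 1)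
    (hfix : ∀ g : T ≃ₐ[K] T, (∀ f, w (g f) = w f) → g y = y) :
    ∃ a : K, w (algebraMap K T a) ≤ 1 ∧ ρ (algebraMap K T a) = ρ y := by
  classical
  set D := stab K w with hD
  let s : Finset (T ≃ₐ[K] T) := Finset.univ.filter fun g => g ∉ D
  obtain ⟨u, hu, hus⟩ := exists_sep w (fun g : T ≃ₐ[K] T => w.comap (g : T →+* T)) s fun g hg => by
    have hg' : g ∉ D := (Finset.mem_filter.1 hg).2
    exact exists_sep_one h (g.restrictScalars C) hg'
  have hus' : ∀ g : T ≃ₐ[K] T, g ∉ D → w (g u) < 1 := fun g hg =>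
    hus g (Finset.mem_filter.2 ⟨Finset.mem_univ _, hg⟩)
  let U : T := ∏ d : D, (d : T ≃ₐ[K] T) u
  have hU1 : w (U - 1) < 1 := w_prod_sub_one w _ fun d _ => by
    have := d.2 (u - 1)
    rw [map_sub, map_one] at this
    rwa [this]
  have hUD : ∀ d ∈ D, d U = U := fun d hd => by
    simp only [U, map_prod]
    exact Fintype.prod_equiv (Equiv.mulLeft (⟨d, hd⟩ : D)) _ _ fun e => rfl
  have hUs : ∀ g ∈ s, w (g U) < 1 := fun g hg => by
    have hg' : g ∉ D := (Finset.mem_filter.1 hg).2
    have hlt : ∀ d : D, w (g ((d : T ≃ₐ[K] T) u)) < 1 := fun d =>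
      hus' (g * d) fun e => hg' (by simpa using D.mul_mem e (D.inv_mem d.2))
    simp only [U, map_prod]
    rw [← Finset.mul_prod_erase _ _ (Finset.mem_univ (1 : D))]
    exact (mul_le_of_le_one_right' (Finset.prod_le_one' fun d _ => (hlt d).le)).trans_lt (hlt 1)
  obtain ⟨N, hN⟩ := exists_pow_mul_lt s (fun g => w (g U)) (fun g => w (g y)) hUs
  set Y := U ^ N * y with hY
  have hYD : ∀ d ∈ D, d Y = Y := fun d hd => by rw [hY, map_mul, map_pow, hUD d hd, hfix d hd]
  have hYs : ∀ g : T ≃ₐ[K] T, g ∉ D → w (g Y) < 1 := fun g hg => by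
    rw [hY, map_mul, map_pow, map_mul, map_pow]
    exact hN g (Finset.mem_filter.2 ⟨Finset.mem_univ _, hg⟩)
  have hUN := w_pow_sub_one w hU1 N
  have hY1 : w Y ≤ 1 := by rw [hY, map_mul, w_eq_one_of_lt w hUN, one_mul]; exact hy
  have hYy : w (Y - y) < 1 := by
    have e : Y - y = (U ^ N - 1) * y := by rw [hY]; ring
    rw [e, map_mul]
    exact (mul_le_of_le_one_right' hy).trans_lt hUN
  let F : (T ≃ₐ[K] T) ⧸ D → T := fun c => c.out Y
  have hF : ∀ g : T ≃ₐ[K] T, F (g : (T ≃ₐ[K] T) ⧸ D) = g Y := fun g => by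
    obtain ⟨d, hd⟩ := QuotientGroup.mk_out_eq_mul D g
    simp only [F]
    rw [hd, AlgEquiv.mul_apply, hYD _ d.2]
  have hinv : ∀ g : T ≃ₐ[K] T, g (∑ c, F c) = ∑ c, F c := fun g => by
    rw [map_sum]
    refine Fintype.sum_equiv (MulAction.toPerm g) _ _ fun c => ?_
    obtain ⟨a, rfl⟩ := QuotientGroup.mk_surjective c
    rw [hF, MulAction.toPerm_apply, MulAction.Quotient.smul_mk, smul_eq_mul, hF, AlgEquiv.mul_apply]
  obtain ⟨a, ha⟩ := (IsGalois.mem_range_algebraMap_iff_fixed (F := K) (∑ c, F c)).2 hinv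
  have hsum : w (∑ c, F c - Y) < 1 := by
    rw [← Finset.add_sum_erase _ _ (Finset.mem_univ ((1 : T ≃ₐ[K] T) : (T ≃ₐ[K] T) ⧸ D)), hF,
      AlgEquiv.one_apply, add_sub_cancel_left]
    refine w.map_sum_lt one_ne_zero fun c hc => ?_
    obtain ⟨g, rfl⟩ := QuotientGroup.mk_surjective c
    rw [hF]
    refine hYs g fun hg => (Finset.mem_erase.1 hc).1 ?_
    rw [QuotientGroup.eq]
    simpa using hg
  have hay : w (algebraMap K T a - y) < 1 := by
    have e : algebraMap K T a - y = (∑ c, F c - Y) + (Y - y) := by rw [ha]; ring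
    rw [e]
    exact w.map_add_lt hsum hYy
  have ha1 : w (algebraMap K T a) ≤ 1 := by
    have e : algebraMap K T a = (algebraMap K T a - y) + y := by ring
    rw [e]
    exact (w.map_add _ _).trans (max_le hay.le hy)
  exact ⟨a, ha1, (h.res.eq_iff ha1 hy).2 hay⟩

/-! ### the residue automorphism -/

theorem res_congr (h : IsRes w ρ) (g : T ≃+* T) (hg : ∀ f, w (g f) = w f) {a b : T} (ha : w a ≤ 1)
    (hb : w b ≤ 1) (e : ρ a = ρ b) : ρ (g a) = ρ (g b) := by
  rw [h.eq_iff ha hb] at e
  rwa [h.eq_iff (by rwa [hg]) (by rwa [hg]), ← map_sub, hg]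

/-- the map of residue fields as a function -/
noncomputable def barF (h : IsRes w ρ) (g : T ≃+* T) (z : κ) : κ := ρ (g (h.surj z).choose)

theorem barF_res (h : IsRes w ρ) (g : T ≃+* T) (hg : ∀ f, w (g f) = w f) {a : T} (ha : w a ≤ 1) :
    barF h g (ρ a) = ρ (g a) :=
  res_congr h g hg (h.surj (ρ a)).choose_spec.1 ha (h.surj (ρ a)).choose_spec.2

/-- the automorphism of the residue field induced by an isometric automorphism -/
noncomputable def bar (h : Red vC ρC w ρ) (g : T ≃ₐ[C] T) (hg : ∀ f, w (g f) = w f) : κ ≃ₐ[k] κ where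
  toFun := barF h.res g.toRingEquiv
  invFun := barF h.res g.symm.toRingEquiv
  left_inv z := by
    obtain ⟨a, ha, rfl⟩ := h.res.surj z
    have hg' : ∀ f, w (g.symm f) = w f := fun f => by rw [← hg, g.apply_symm_apply]
    rw [barF_res h.res _ hg ha, barF_res h.res g.symm.toRingEquiv hg' (by rwa [← hg a] at ha)]
    exact congrArg ρ (g.symm_apply_apply a)
  right_inv z := by
    obtain ⟨a, ha, rfl⟩ := h.res.surj z
    have hg' : ∀ f, w (g.symm f) = w f := fun f => by rw [← hg, g.apply_symm_apply]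
    rw [barF_res h.res g.symm.toRingEquiv hg' ha, barF_res h.res _ hg (by rwa [← hg' a] at ha)]
    exact congrArg ρ (g.apply_symm_apply a)
  map_mul' z z' := by
    obtain ⟨a, ha, rfl⟩ := h.res.surj z
    obtain ⟨b, hb, rfl⟩ := h.res.surj z'
    rw [← h.res.mul a b ha hb, barF_res h.res _ hg ha, barF_res h.res _ hg hb,
      barF_res h.res _ hg (by rw [map_mul]; exact mul_le_one' ha hb), map_mul,
      h.res.mul _ _ (by rwa [← hg a] at ha) (by rwa [← hg b] at hb)]
  map_add' z z' := by
    obtain ⟨a, ha, rfl⟩ := h.res.surj z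
    obtain ⟨b, hb, rfl⟩ := h.res.surj z'
    rw [← h.res.add a b ha hb, barF_res h.res _ hg ha, barF_res h.res _ hg hb,
      barF_res h.res _ hg ((w.map_add _ _).trans (max_le ha hb)), map_add,
      h.res.add _ _ (by rwa [← hg a] at ha) (by rwa [← hg b] at hb)]
  commutes' c := by
    obtain ⟨a, ha, rfl⟩ := h.resC.surj c
    rw [← h.comp a ha, barF_res h.res _ hg (by rwa [h.norm])]
    exact congrArg ρ (g.commutes a)

theorem bar_res (h : Red vC ρC w ρ) (g : T ≃ₐ[C] T) (hg : ∀ f, w (g f) = w f) {a : T}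
    (ha : w a ≤ 1) : bar h g hg (ρ a) = ρ (g a) := barF_res h.res _ hg ha

theorem bar_ext (h : Red vC ρC w ρ) {s s' : κ ≃ₐ[k] κ} (e : ∀ a, w a ≤ 1 → s (ρ a) = s' (ρ a)) :
    s = s' := by
  ext z
  obtain ⟨a, ha, rfl⟩ := h.res.surj z
  exact e a ha

/-! ### degrees of residue fields -/

theorem card_le_of_li {L κL : Type*} [Field L] [Field κL] [Algebra L T] [Algebra κL κ]
    [FiniteDimensional L T] (h : IsRes w ρ)
    (hL : ∀ a : L, w (algebraMap L T a) ≤ 1 → ρ (algebraMap L T a) ∈ Set.range (algebraMap κL κ))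
    {ι : Type*} [Fintype ι] {z : ι → κ} (hz : LinearIndependent κL z) :
    Fintype.card ι ≤ finrank L T := by
  classical
  choose t ht hρ using fun i => h.surj (z i)
  refine LinearIndependent.fintype_card_le_finrank (b := t) ?_
  rw [Fintype.linearIndependent_iff]
  intro a ha
  by_contra hne
  push Not at hne
  obtain ⟨i1, hi1⟩ := hne
  obtain ⟨i0, -, hi0⟩ := Finset.exists_max_image Finset.univ (fun i => w (algebraMap L T (a i)))
    ⟨i1, Finset.mem_univ _⟩
  have hpos : 0 < w (algebraMap L T (a i0)) :=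
    lt_of_lt_of_le (pos_iff_ne_zero.2 (by simpa using hi1)) (hi0 i1 (Finset.mem_univ _))
  have h0 : a i0 ≠ 0 := by rintro e; simp [e] at hpos
  have hb : ∀ i, w (algebraMap L T (a i / a i0)) ≤ 1 := fun i => by
    rw [map_div₀, map_div₀, div_le_one hpos]
    exact hi0 i (Finset.mem_univ _)
  choose b hbρ using fun i => hL _ (hb i)
  have hsum : ∑ i, algebraMap L T (a i / a i0) * t i = 0 := by
    have := congrArg (fun x => (a i0)⁻¹ • x) ha
    simp only [Finset.smul_sum, smul_smul, smul_zero] at this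
    rw [← this]
    exact Finset.sum_congr rfl fun i _ => by rw [Algebra.smul_def, div_eq_inv_mul]
  have hsum' : ∑ i, b i • z i = 0 := by
    have := congrArg ρ hsum
    rw [h.sum _ _ fun i _ => by rw [map_mul]; exact mul_le_one' (hb i) (ht i), h.zero] at this
    rw [← this]
    exact Finset.sum_congr rfl fun i _ => by
      rw [Algebra.smul_def, h.mul _ _ (hb i) (ht i), hbρ, hρ]
  have := Fintype.linearIndependent_iff.1 hz b hsum' i0
  have h1 := hbρ i0
  rw [this, div_self h0, map_one, map_zero, h.one] at h1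
  exact zero_ne_one h1

theorem finrank_res_le {L κL : Type*} [Field L] [Field κL] [Algebra L T] [Algebra κL κ]
    [FiniteDimensional L T] (h : IsRes w ρ)
    (hL : ∀ a : L, w (algebraMap L T a) ≤ 1 → ρ (algebraMap L T a) ∈ Set.range (algebraMap κL κ)) :
    FiniteDimensional κL κ ∧ finrank κL κ ≤ finrank L T := by
  have hr : Module.rank κL κ ≤ finrank L T := rank_le fun s hs => by
    simpa using card_le_of_li h hL hs
  have hfin : FiniteDimensional κL κ :=
    Module.rank_lt_aleph0_iff.1 (hr.trans_lt Cardinal.natCast_lt_aleph0)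
  exact ⟨hfin, finrank_le_of_rank_le hr⟩

/-- The homomorphism of Galois groups when the norm is invariant. -/
noncomputable def barHom {L κL : Type*} [Field L] [Field κL] [Algebra L T] [Algebra κL κ]
    [Algebra C L] [IsScalarTower C L T] (h : Red vC ρC w ρ)
    (hw : ∀ (g : T ≃ₐ[L] T) f, w (g f) = w f)
    (hL : ∀ z : κL, ∃ a : L, w (algebraMap L T a) ≤ 1 ∧ ρ (algebraMap L T a) = algebraMap κL κ z) :
    (T ≃ₐ[L] T) →* (κ ≃ₐ[κL] κ) :=
  MonoidHom.mk' (fun g => AlgEquiv.ofRingEquiv (f := (bar h (g.restrictScalars C) (hw g)).toRingEquiv)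
    fun z => by
      obtain ⟨a, ha, e⟩ := hL z
      rw [← e]
      exact (bar_res h _ (hw g) ha).trans (congrArg ρ (g.commutes a)))
    fun g g' => by
      ext z
      obtain ⟨a, ha, rfl⟩ := h.res.surj z
      refine (bar_res h _ (hw (g * g')) ha).trans ?_
      change _ = bar h (g.restrictScalars C) (hw g) (bar h (g'.restrictScalars C) (hw g') (ρ a))
      rw [bar_res h _ (hw g') ha, bar_res h _ (hw g) (by rw [← hw g' a] at ha; exact ha)]
      rfl

theorem barHom_res {L κL : Type*} [Field L] [Field κL] [Algebra L T] [Algebra κL κ]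
    [Algebra C L] [IsScalarTower C L T] (h : Red vC ρC w ρ)
    (hw : ∀ (g : T ≃ₐ[L] T) f, w (g f) = w f)
    (hL : ∀ z : κL, ∃ a : L, w (algebraMap L T a) ≤ 1 ∧ ρ (algebraMap L T a) = algebraMap κL κ z)
    (g : T ≃ₐ[L] T) {a : T} (ha : w a ≤ 1) : barHom h hw hL g (ρ a) = ρ (g a) :=
  bar_res h _ (hw g) ha

/-- **Trivial inertia and full decomposition group**: the residue extension is Galois with the same
group. -/
theorem isGalois_res {L κL : Type*} [Field L] [Field κL] [Algebra L T] [Algebra κL κ]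
    [Algebra C L] [IsScalarTower C L T] [FiniteDimensional L T] [IsGalois L T] (h : Red vC ρC w ρ)
    (hw : ∀ (g : T ≃ₐ[L] T) f, w (g f) = w f)
    (hL : ∀ z : κL, ∃ a : L, w (algebraMap L T a) ≤ 1 ∧ ρ (algebraMap L T a) = algebraMap κL κ z)
    (hL' : ∀ a : L, w (algebraMap L T a) ≤ 1 → ρ (algebraMap L T a) ∈ Set.range (algebraMap κL κ))
    (hI : ∀ g : T ≃ₐ[L] T, (∀ f, w f ≤ 1 → w (g f - f) < 1) → g = 1) :
    FiniteDimensional κL κ ∧ IsGalois κL κ ∧ finrank κL κ = finrank L T ∧
      Function.Bijective (barHom h hw hL) := by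
  classical
  obtain ⟨hfin, hle⟩ := finrank_res_le (κL := κL) h.res hL'
  have hinj : Function.Injective (barHom h hw hL) := (injective_iff_map_eq_one _).2 fun g hg =>
    hI g fun f hf => by
      rw [← h.res.eq_iff (by rwa [hw]) hf, ← barHom_res h hw hL g hf, hg]
      rfl
  have h1 : Nat.card (T ≃ₐ[L] T) ≤ Nat.card (κ ≃ₐ[κL] κ) := Nat.card_le_card_of_injective _ hinj
  have h2 : Nat.card (κ ≃ₐ[κL] κ) ≤ finrank κL κ := by
    rw [Nat.card_eq_fintype_card]
    exact AlgEquiv.card_le
  have h3 := IsGalois.card_aut_eq_finrank L T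
  exact ⟨hfin, IsGalois.of_card_aut_eq_finrank κL κ (by omega), by omega,
    (Nat.bijective_iff_injective_and_card _).2 ⟨hinj, by omega⟩⟩

end red

section gauss

variable {C T k κ : Type*} [Field C] [Field T] [Algebra C T] [Field k] [IsAlgClosed k] [Field κ]
  [Algebra k κ] {vC : Valuation C ℝ≥0} {ρC : C → k} {w : Valuation T ℝ≥0} {ρ : T → κ}

theorem transcendental_of_notMem {z : κ} (hz : z ∉ Set.range (algebraMap k κ)) :
    Transcendental k z := fun ha => hz
  (minpoly.mem_range_of_degree_eq_one k z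
    (IsAlgClosed.degree_eq_one_of_irreducible k (minpoly.irreducible ha.isIntegral)))

/-- polynomials of norm `≤ 1` reduce to polynomials -/
theorem res_poly (h : Red vC ρC w ρ) {x : T} (hx : w x ≤ 1)
    (hρ : ρ x ∉ Set.range (algebraMap k κ)) {p : C[X]} (hp : w (aeval x p) ≤ 1) :
    ρ (aeval x p) = aeval (ρ x) (redP ρC p) :=
  res_aeval h (fun n => (gauss_of_res h hx hρ p n).trans hp) hx

/-- every polynomial lifts -/
theorem lift_poly (h : Red vC ρC w ρ) {x : T} (hx : w x ≤ 1) (q : k[X]) :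
    ∃ p : C[X], w (aeval x p) ≤ 1 ∧ ρ (aeval x p) = aeval (ρ x) q := by
  induction q using Polynomial.induction_on' with
  | add q q' hq hq' =>
    obtain ⟨p, h1, h2⟩ := hq
    obtain ⟨p', h1', h2'⟩ := hq'
    refine ⟨p + p', ?_, ?_⟩
    · rw [map_add]; exact (w.map_add _ _).trans (max_le h1 h1')
    · rw [map_add, map_add, h.res.add _ _ h1 h1', h2, h2']
  | monomial n c =>
    obtain ⟨a, ha, rfl⟩ := h.resC.surj c
    have h1 : w (algebraMap C T a) ≤ 1 := by rwa [h.norm]
    have h2 : w (x ^ n) ≤ 1 := by rw [map_pow]; exact pow_le_one' hx n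
    refine ⟨monomial n a, ?_, ?_⟩
    · rw [aeval_monomial, map_mul]; exact mul_le_one' h1 h2
    · rw [aeval_monomial, aeval_monomial, h.res.mul _ _ h1 h2, h.comp a ha, h.res.pow hx]

variable [Algebra (RatFunc C) T] [IsScalarTower C (RatFunc C) T]

theorem algebraMap_poly (p : C[X]) :
    algebraMap (RatFunc C) T (algebraMap C[X] (RatFunc C) p) = aeval (xK C T) p := by
  have h1 : aeval (RatFunc.X : RatFunc C) p = algebraMap C[X] (RatFunc C) p := by
    rw [← RatFunc.algebraMap_X, aeval_algebraMap_apply, aeval_X_left_apply]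
  rw [← h1, xK, aeval_algebraMap_apply]

theorem ratHom_poly {z : κ} (hz : Transcendental k z) (p : k[X]) :
    ratHom z hz (algebraMap k[X] (RatFunc k) p) = aeval z p := by
  have h1 : aeval (RatFunc.X : RatFunc k) p = algebraMap k[X] (RatFunc k) p := by
    rw [← RatFunc.algebraMap_X, aeval_algebraMap_apply, aeval_X_left_apply]
  rw [← h1, ← aeval_algHom_apply, ratHom_X]

/-- the residue field of the Gauss norm is the rational function field -/
theorem res_ratFunc (h : Red vC ρC w ρ) (hx : w (xK C T) ≤ 1)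
    (hρ : ρ (xK C T) ∉ Set.range (algebraMap k κ)) {a : RatFunc C}
    (ha : w (algebraMap (RatFunc C) T a) ≤ 1) :
    ρ (algebraMap (RatFunc C) T a) ∈ Set.range (ratHom _ (transcendental_of_notMem hρ)) := by
  have hd : aeval (xK C T) a.denom ≠ 0 := by
    rw [← algebraMap_poly]
    simpa using a.denom_ne_zero
  obtain ⟨c, hc0, -, h1⟩ := h.normalise hd
  have e1 : aeval (xK C T) a.denom * algebraMap C T c⁻¹ = aeval (xK C T) (a.denom * Polynomial.C c⁻¹) := by
    simp
  have e2 : algebraMap (RatFunc C) T a * aeval (xK C T) (a.denom * Polynomial.C c⁻¹) =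
      aeval (xK C T) (a.num * Polynomial.C c⁻¹) := by
    have e3 : a * algebraMap C[X] (RatFunc C) a.denom = algebraMap C[X] (RatFunc C) a.num := by
      rw [← eq_div_iff (by simpa using a.denom_ne_zero), RatFunc.num_div_denom]
    rw [map_mul, map_mul, ← mul_assoc, ← algebraMap_poly a.denom, ← algebraMap_poly a.num,
      ← map_mul, e3]
  rw [e1] at h1
  have h2 : w (aeval (xK C T) (a.num * Polynomial.C c⁻¹)) ≤ 1 := by rw [← e2, map_mul, h1, mul_one]; exact ha
  have h3 := congrArg ρ e2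
  rw [h.res.mul _ _ ha h1.le, res_poly h hx hρ h2] at h3
  have h4 := (h.res.ne_zero_iff h1.le).2 h1
  rw [← eq_div_iff h4, res_poly h hx hρ h1.le] at h3
  exact ⟨algebraMap k[X] _ (redP ρC (a.num * Polynomial.C c⁻¹)) /
    algebraMap k[X] _ (redP ρC (a.denom * Polynomial.C c⁻¹)),
    by rw [map_div₀, ratHom_poly, ratHom_poly, h3]⟩

/-- every rational function lifts -/
theorem lift_ratFunc (h : Red vC ρC w ρ) (hx : w (xK C T) ≤ 1)
    (hρ : ρ (xK C T) ∉ Set.range (algebraMap k κ)) (r : RatFunc k) :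
    ∃ a : RatFunc C, w (algebraMap (RatFunc C) T a) ≤ 1 ∧
      ρ (algebraMap (RatFunc C) T a) = ratHom _ (transcendental_of_notMem hρ) r := by
  obtain ⟨p, h1, h2⟩ := lift_poly h hx r.num
  obtain ⟨q, h3, h4⟩ := lift_poly h hx r.denom
  have h5 : ρ (aeval (xK C T) q) ≠ 0 := by
    rw [h4, ← ratHom_poly (transcendental_of_notMem hρ)]
    simpa using r.denom_ne_zero
  have h6 := (h.res.ne_zero_iff h3).1 h5
  refine ⟨algebraMap C[X] _ p / algebraMap C[X] _ q, ?_, ?_⟩
  · rw [map_div₀, algebraMap_poly, algebraMap_poly, map_div₀, h6, div_one]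
    exact h1
  · rw [map_div₀, algebraMap_poly, algebraMap_poly, h.res.div h1 h6, h2, h4,
      ← ratHom_poly (transcendental_of_notMem hρ), ← ratHom_poly (transcendental_of_notMem hρ),
      ← map_div₀, RatFunc.num_div_denom]

variable [FiniteDimensional (RatFunc C) T] [IsGalois (RatFunc C) T]

/-- An element of a stable ring `A` whose invariants are polynomials, fixed by the decomposition
group, with all conjugates of norm `≤ 1`, reduces to a polynomial. -/
theorem poly_of_integral (h : Red vC ρC w ρ) (hx : w (xK C T) ≤ 1)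
    (hρ : ρ (xK C T) ∉ Set.range (algebraMap k κ)) (A : Subring T)
    (hA : ∀ (g : T ≃ₐ[RatFunc C] T), ∀ a ∈ A, g a ∈ A)
    (hA' : ∀ a ∈ A, (∀ g : T ≃ₐ[RatFunc C] T, g a = a) → ∃ p : C[X], a = aeval (xK C T) p)
    {y : T} (hyA : y ∈ A) (hy : ∀ g : T ≃ₐ[RatFunc C] T, w (g y) ≤ 1)
    (hfix : ∀ g : T ≃ₐ[RatFunc C] T, (∀ f, w (g f) = w f) → g y = y) :
    ∃ q : k[X], ρ y = aeval (ρ (xK C T)) q := by
  classical
  have hy1 : w y ≤ 1 := hy 1
  have ht := transcendental_of_notMem hρ
  obtain ⟨a, ha, e⟩ := descent (K := RatFunc C) h hy1 hfix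
  obtain ⟨r, hr⟩ := res_ratFunc h hx hρ ha
  rw [e] at hr
  -- the characteristic polynomial
  let B : Subring T := A ⊓ w.integer
  let P : T[X] := MulSemiringAction.charpoly (T ≃ₐ[RatFunc C] T) y
  have hPm : P.Monic := MulSemiringAction.monic_charpoly _ y
  have hPl : P ∈ lifts B.subtype := by
    simp only [P, MulSemiringAction.charpoly_eq]
    refine Subsemiring.prod_mem _ fun g _ => ?_
    exact ⟨X - Polynomial.C ⟨g • y, hA g y hyA, hy g⟩, by simp⟩
  have hPc : ∀ n, P.coeff n ∈ B := fun n => by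
    obtain ⟨b, hb⟩ := (lifts_iff_coeff_lifts P).1 hPl n
    rw [← hb]; exact b.2
  have hq : ∀ n, ∃ q : k[X], ρ (P.coeff n) = aeval (ρ (xK C T)) q := fun n => by
    obtain ⟨p, hp⟩ := hA' _ (hPc n).1 fun g => MulSemiringAction.smul_coeff_charpoly y n g
    have h2 : w (P.coeff n) ≤ 1 := (hPc n).2
    rw [hp] at h2 ⊢
    exact ⟨_, res_poly h hx hρ h2⟩
  choose q hq using hq
  have hev : y ^ P.natDegree + ∑ i ∈ Finset.range P.natDegree, P.coeff i * y ^ i = 0 := by
    have := MulSemiringAction.eval_charpoly (T ≃ₐ[RatFunc C] T) y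
    change P.eval y = 0 at this
    rw [eval_eq_sum_range, Finset.sum_range_succ, hPm.coeff_natDegree, one_mul, add_comm] at this
    exact this
  have hyi : ∀ i : ℕ, w (y ^ i) ≤ 1 := fun i => by rw [map_pow]; exact pow_le_one' hy1 i
  have hci : ∀ i : ℕ, w (P.coeff i * y ^ i) ≤ 1 := fun i => by
    rw [map_mul]; exact mul_le_one' (hPc i).2 (hyi i)
  have hev' := congrArg ρ hev
  rw [h.res.add _ _ (hyi _) (w.map_sum_le fun i _ => hci i), h.res.sum _ _ fun i _ => hci i,
    h.res.zero, h.res.pow hy1] at hev'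
  have hint : IsIntegral k[X] r := by
    refine ⟨X ^ P.natDegree + ∑ i ∈ Finset.range P.natDegree, Polynomial.C (q i) * X ^ i, ?_, ?_⟩
    · refine monic_X_pow_add ?_
      refine (degree_sum_le _ _).trans_lt ?_
      rw [Finset.sup_lt_iff (by exact WithBot.bot_lt_coe _)]
      intro i hi
      exact (degree_C_mul_X_pow_le i _).trans_lt (by exact_mod_cast Finset.mem_range.1 hi)
    · have hinj : Function.Injective (ratHom _ ht) := (ratHom _ ht).injective
      apply hinj
      rw [eval₂_add, eval₂_finsetSum, map_add, map_sum, map_zero, ← hev', eval₂_X_pow, map_pow, hr]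
      congr 1
      refine Finset.sum_congr rfl fun i _ => ?_
      rw [eval₂_mul, eval₂_C, eval₂_X_pow, map_mul, map_pow, hr, ratHom_poly,
        h.res.mul _ _ (hPc i).2 (hyi i), hq, h.res.pow hy1]
  obtain ⟨p, hp⟩ := IsIntegrallyClosed.isIntegral_iff.1 hint
  exact ⟨p, by rw [← hr, ← hp, ratHom_poly]⟩

/-- **units have constant residues** -/
theorem const_of_unit (h : Red vC ρC w ρ) (hx : w (xK C T) ≤ 1)
    (hρ : ρ (xK C T) ∉ Set.range (algebraMap k κ)) (A : Subring T)
    (hA : ∀ (g : T ≃ₐ[RatFunc C] T), ∀ a ∈ A, g a ∈ A)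
    (hA' : ∀ a ∈ A, (∀ g : T ≃ₐ[RatFunc C] T, g a = a) → ∃ p : C[X], a = aeval (xK C T) p)
    {y : T} (hyA : y ∈ A) (hyA' : y⁻¹ ∈ A)
    (hy : ∀ g : T ≃ₐ[RatFunc C] T, w (g y) = 1)
    (hfix : ∀ g : T ≃ₐ[RatFunc C] T, (∀ f, w (g f) = w f) → g y = y) :
    ρ y ∈ Set.range (algebraMap k κ) := by
  have h1 : w y = 1 := hy 1
  obtain ⟨q, hq⟩ := poly_of_integral h hx hρ A hA hA' hyA (fun g => (hy g).le) hfix
  obtain ⟨q', hq'⟩ := poly_of_integral h hx hρ A hA hA' hyA'
    (fun g => by rw [map_inv₀, map_inv₀, hy, inv_one]) (fun g hg => by rw [map_inv₀, hfix g hg])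
  have h0 := (h.res.ne_zero_iff h1.le).2 h1
  have h2 : q * q' = 1 := by
    apply transcendental_iff_injective.1 (transcendental_of_notMem hρ)
    rw [map_mul, ← hq, ← hq', h.res.inv h1, mul_inv_cancel₀ h0, map_one]
  obtain ⟨c, -, hc⟩ := Polynomial.isUnit_iff.1 (IsUnit.of_mul_eq_one _ h2)
  exact ⟨c, by rw [hq, ← hc, aeval_C]⟩

end gauss

end Crest.Agent.T15.Ig
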