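import Mathlib
import Crest.Agent.T15.IgA_61
import Crest.Agent.R013.RR28_948

/-!
# Row 15, block T (helper61), Igusa part B: the genus of a cover branched at `0, 1, ∞`

* `Zr u` the zeros of `u`, `ncusp k K` the number of places over `0, 1, ∞`;
* `gen_ge` : `[K : k(x)] - ncusp ≤ 2 g - 2`; `gen_le_of_unr` : equality in characteristic zero when
  there is no other ramification;
* `card_above_le` : comparison of the numbers of places in two Galois situations;
* `mem_zpowers_of_fix` : the stabiliser of a place.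
-/

set_option autoImplicit false
set_option linter.unusedSectionVars false

namespace Crest.Agent.T15.Ig

open Polynomial Module WithZero
open scoped NNReal
open Crest.Agent.R013.RR7_948 Crest.Agent.R013.RR8_948 Crest.Agent.R013.RR9_948
open Crest.Agent.R013.RR11_948 Crest.Agent.R013.RR12_948 Crest.Agent.R013.RR13_948
open Crest.Agent.R013.RR14_948
open Crest.Agent.R013.RR18_948 Crest.Agent.R013.RR19_948 Crest.Agent.R013.RR20_948
open Crest.Agent.R013.RR21_948 Crest.Agent.R013.RR22_948
open Crest.Agent.R013.GR2_921 (exists_const degP_eq_one hc_of_isAlgClosed)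
open Crest.Agent.R013.Car5_700 (v_del_eq v_del_le v_del_le')
open Crest.Agent.R013.RR28_948 (ratFunc_finite ratFunc_infinite v_C v_C_le)

section count

variable {k : Type*} [Field k] [IsAlgClosed k] {K : Type*} [Field K] [Algebra k K]
  [Algebra (RatFunc k) K] [IsScalarTower k (RatFunc k) K] [FiniteDimensional (RatFunc k) K]
  [Algebra.IsSeparable (RatFunc k) K]

variable (k) in
/-- the zeros of `u` -/
noncomputable def Zr (u : K) : Finset (Pl k K) :=
  (divf (k := k) u).support.filter fun P => 0 < divf (k := k) u P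

theorem mem_Zr' {u : K} {P : Pl k K} : P ∈ Zr k u ↔ 0 < divf (k := k) u P := by
  simp only [Zr, Finset.mem_filter, Finsupp.mem_support_iff]
  exact ⟨fun h => h.2, fun h => ⟨h.ne', h⟩⟩

theorem mem_Zr {u : K} (hu : u ≠ 0) {P : Pl k K} : P ∈ Zr k u ↔ P.v u < 1 := by
  rw [mem_Zr', v_eq hu, ← exp_zero, exp_lt_exp]
  omega

/-- the reduced divisor of a finite set of places -/
noncomputable def indD (S : Finset (Pl k K)) : Pl k K →₀ ℤ := ∑ P ∈ S, Finsupp.single P 1

open Classical in
theorem indD_apply (S : Finset (Pl k K)) (P : Pl k K) : indD S P = if P ∈ S then 1 else 0 := by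
  simp [indD, Finsupp.finsetSum_apply, Finsupp.single_apply]

theorem degD_indD (S : Finset (Pl k K)) : degD (indD S) = S.card := by
  rw [indD, degD_sum]
  simp [degD_single, degP_eq_one]

variable (k K) in
/-- the number of places over `0, 1, ∞` -/
noncomputable def ncusp : ℕ :=
  (Zr k (xK k K)).card + (Zr k (1 - xK k K)).card + (Zr k (xK k K)⁻¹).card

theorem one_sub_xK_ne : 1 - xK k K ≠ 0 := fun h =>
  transcendental_xK (k := k) (K := K) (by
    rw [sub_eq_zero] at h
    rw [← h]
    exact isAlgebraic_one)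

variable (k K) in
/-- the auxiliary divisor -/
noncomputable def auxD : Pl k K →₀ ℤ :=
  canD k K - divf (xK k K) - divf (1 - xK k K) - poles (xK k K) + indD (Zr k (xK k K)) +
    indD (Zr k (1 - xK k K)) + indD (Zr k (xK k K)⁻¹)

theorem degD_auxD : degD (auxD k K) =
    2 * gen k K - 2 - finrank (RatFunc k) K + ncusp k K := by
  simp only [auxD, degD_add, degD_sub, degD_indD, degD_divf (xK_ne_zero (k := k) (K := K)),
    degD_divf (one_sub_xK_ne (k := k) (K := K)), degD_poles_xK, degD_canD hc_of_isAlgClosed, ncusp]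
  push_cast
  ring

theorem auxD_apply (P : Pl k K) : auxD k K P =
    canD k K P - divf (k := k) (xK k K) P - divf (k := k) (1 - xK k K) P -
      max (-divf (k := k) (xK k K) P) 0 + (if 0 < divf (k := k) (xK k K) P then 1 else 0) +
      (if 0 < divf (k := k) (1 - xK k K) P then 1 else 0) +
      (if 0 < -divf (k := k) (xK k K) P then 1 else 0) := by
  simp only [auxD, Finsupp.add_apply, Finsupp.sub_apply, indD_apply, mem_Zr', poles_apply,
    divf_inv (xK_ne_zero (k := k) (K := K)), Finsupp.neg_apply]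

theorem ord_cases (P : Pl k K) :
    (0 < divf (k := k) (xK k K) P → divf (k := k) (1 - xK k K) P = 0) ∧
    (divf (k := k) (xK k K) P < 0 → divf (k := k) (1 - xK k K) P = divf (k := k) (xK k K) P) ∧
    (divf (k := k) (xK k K) P = 0 → 0 ≤ divf (k := k) (1 - xK k K) P) := by
  have h1 := v_eq (xK_ne_zero (k := k) (K := K)) P
  have h2 := v_eq (one_sub_xK_ne (k := k) (K := K)) P
  refine ⟨fun h => ?_, fun h => ?_, fun h => ?_⟩
  · have : P.v (xK k K) < 1 := by rw [h1, ← exp_zero, exp_lt_exp]; omega
    rw [P.v.map_one_sub_of_lt this, ← exp_zero, exp_inj] at h2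
    omega
  · have : P.v 1 < P.v (xK k K) := by rw [h1, map_one, ← exp_zero, exp_lt_exp]; omega
    rw [P.v.map_sub_eq_of_lt_right this, h1, exp_inj] at h2
    omega
  · have : P.v (1 - xK k K) ≤ 1 := (P.v.map_sub _ _).trans (by rw [map_one, h1, h]; simp)
    rw [h2, ← exp_zero, exp_le_exp] at this
    omega

theorem del_one_sub : del k K (1 - xK k K) = -1 := by
  rw [map_sub, del_xK, Derivation.map_one_eq_zero, zero_sub]

theorem auxD_nonneg (P : Pl k K) : 0 ≤ auxD k K P := by
  have h1 := v_del_le' P (xK k K)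
  rw [del_xK, map_one, v_eq xK_ne_zero, ← exp_add, ← exp_zero, exp_le_exp] at h1
  have h2 := v_del_le' P (1 - xK k K)
  rw [del_one_sub, Valuation.map_neg, map_one, v_eq one_sub_xK_ne, ← exp_add, ← exp_zero,
    exp_le_exp] at h2
  have h3 : divf (k := k) (xK k K) P = 0 → 0 ≤ canD k K P := fun h => by
    have := v_del_le P (f := xK k K) (by rw [v_eq xK_ne_zero, h]; simp)
    rwa [del_xK, map_one, ← exp_zero, exp_le_exp] at this
  obtain ⟨c1, c2, c3⟩ := ord_cases P
  rw [auxD_apply]
  split_ifs <;> omega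

/-- **lower bound for the genus** -/
theorem gen_ge : (finrank (RatFunc k) K : ℤ) - ncusp k K ≤ 2 * gen k K - 2 := by
  have h := Crest.Agent.R013.PicD_398.degD_nonneg (D := auxD k K) fun P => auxD_nonneg P
  rw [degD_auxD] at h
  linarith

theorem v_del_tame (P : Pl k K) {f : K} {n : ℤ} (hf : P.v f = exp (-n)) (hn : (n : k) ≠ 0) :
    P.v (del k K f) = exp (-n + canD k K P + 1) := by
  obtain ⟨s, hs0, hs⟩ := exists_v_eq P (-1)
  set u := f * s ^ (-n) with hu
  have hvu : P.v u = 1 := by
    rw [hu, map_mul, map_zpow₀, hf, hs, ← exp_zsmul, ← exp_add]; simp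
  have hf' : f = s ^ n * u := by
    rw [hu, mul_comm f, ← mul_assoc, ← zpow_add₀ hs0]; simp
  have h3 : del k K f = s ^ n * del k K u + u * ((n : K) * (s ^ (n - 1) * del k K s)) := by
    conv_lhs => rw [hf']
    rw [Derivation.leibniz, Derivation.leibniz_zpow, smul_eq_mul, smul_eq_mul, smul_eq_mul,
      zsmul_eq_mul]
  have hve : P.v (n : K) = 1 := by
    have h4 : (n : K) = algebraMap k K (n : k) := by simp
    rw [h4, P.const _ hn]
  have hA : P.v (u * ((n : K) * (s ^ (n - 1) * del k K s))) = exp (-n + canD k K P + 1) := by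
    rw [map_mul, hvu, one_mul, map_mul, hve, one_mul, map_mul, map_zpow₀, hs, ← exp_zsmul,
      v_del_eq P hs, ← exp_add]
    congr 1
    simp only [smul_eq_mul]
    ring
  have hB : P.v (s ^ n * del k K u) < exp (-n + canD k K P + 1) := by
    rw [map_mul, map_zpow₀, hs, ← exp_zsmul]
    calc exp (n • (-1)) * P.v (del k K u) ≤ exp (n • (-1)) * exp (canD k K P) :=
        mul_le_mul_right (v_del_le P hvu.le) _
      _ < _ := by rw [← exp_add, exp_lt_exp, smul_eq_mul]; omega
  rw [h3, Valuation.map_add_eq_of_lt_right, hA]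
  rw [hA]; exact hB

/-- **upper bound for the genus** in characteristic zero, no ramification outside `0, 1, ∞` -/
theorem gen_le_of_unr [CharZero k]
    (hunr : ∀ P : Pl k K, P.v (xK k K) = 1 → P.v (1 - xK k K) = 1 →
      ∃ c : k, P.v (xK k K - algebraMap k K c) = exp (-1)) :
    2 * (gen k K : ℤ) - 2 ≤ finrank (RatFunc k) K - ncusp k K := by
  have h0 : auxD k K = 0 := by
    ext P
    have h1 : divf (k := k) (xK k K) P ≠ 0 → canD k K P + 1 = divf (k := k) (xK k K) P := fun h => by
      have := v_del_tame P (v_eq xK_ne_zero P) (Int.cast_ne_zero.2 h)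
      rw [del_xK, map_one, ← exp_zero, exp_inj] at this
      omega
    have h2 : divf (k := k) (1 - xK k K) P ≠ 0 →
        canD k K P + 1 = divf (k := k) (1 - xK k K) P := fun h => by
      have := v_del_tame P (v_eq one_sub_xK_ne P) (Int.cast_ne_zero.2 h)
      rw [del_one_sub, Valuation.map_neg, map_one, ← exp_zero, exp_inj] at this
      omega
    have h3 : divf (k := k) (xK k K) P = 0 → divf (k := k) (1 - xK k K) P = 0 →
        canD k K P = 0 := fun h h' => by
      obtain ⟨c, hc⟩ := hunr P (by rw [v_eq xK_ne_zero, h]; simp)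
        (by rw [v_eq one_sub_xK_ne, h']; simp)
      have := v_del_eq P hc
      rw [map_sub, del_xK, Derivation.map_algebraMap, sub_zero, map_one, ← exp_zero, exp_inj] at this
      exact this.symm
    obtain ⟨c1, c2, c3⟩ := ord_cases P
    rw [auxD_apply, Finsupp.zero_apply]
    split_ifs <;> omega
  have h := degD_auxD (k := k) (K := K)
  rw [h0, degD_zero] at h
  linarith

end count

section rat

variable {k : Type*} [Field k] [IsAlgClosed k]

/-- the three functions `X`, `1 - X`, `1 / X` -/
noncomputable def tri (k : Type*) [Field k] (i : Fin 3) : RatFunc k :=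
  ![RatFunc.X, 1 - RatFunc.X, RatFunc.X⁻¹] i

theorem eq_of_lt_fin (a : k) {P P' : Pl k (RatFunc k)} (h : P.v (RatFunc.X - RatFunc.C a) < 1)
    (h' : P'.v (RatFunc.X - RatFunc.C a) < 1) : P = P' := by
  have hle : ∀ R : Pl k (RatFunc k), R.v (RatFunc.X - RatFunc.C a) < 1 → R.v RatFunc.X ≤ 1 :=
    fun R hR => by
      have e : (RatFunc.X : RatFunc k) = (RatFunc.X - RatFunc.C a) + RatFunc.C a := by ring
      rw [e]
      exact (R.v.map_add _ _).trans (max_le hR.le (v_C_le R a))
  obtain ⟨b, hb, hb'⟩ := ratFunc_finite P (hle P h)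
  have hab : a = b := by
    by_contra hne
    have h1 : P.v (RatFunc.C (b - a)) < 1 := by
      have e : RatFunc.C (b - a) = (RatFunc.X - RatFunc.C a) - (RatFunc.X - RatFunc.C b) := by
        rw [map_sub]; ring
      rw [e]
      refine P.v.map_sub_lt h ?_
      rw [hb, ← exp_zero, exp_lt_exp]; norm_num
    rw [v_C P (sub_ne_zero.2 (Ne.symm hne))] at h1
    exact lt_irrefl _ h1
  subst hab
  by_contra hne
  rw [hb' P' (Ne.symm hne) (hle P' h')] at h'
  exact lt_irrefl _ h'

theorem eq_of_tri (i : Fin 3) {P P' : Pl k (RatFunc k)} (h : P.v (tri k i) < 1)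
    (h' : P'.v (tri k i) < 1) : P = P' := by
  fin_cases i
  · exact eq_of_lt_fin 0 (by simpa [tri] using h) (by simpa [tri] using h')
  · refine eq_of_lt_fin 1 ?_ ?_
    · rw [← Valuation.map_neg]; simpa [tri] using h
    · rw [← Valuation.map_neg]; simpa [tri] using h'
  · have key : ∀ R : Pl k (RatFunc k), R.v (tri k 2) < 1 → 1 < R.v RatFunc.X := fun R hR => by
      have h0 : R.v RatFunc.X ≠ 0 := by simpa using RatFunc.X_ne_zero
      have : R.v (RatFunc.X⁻¹) < 1 := by simpa [tri] using hR
      rwa [map_inv₀, inv_lt_one₀ (pos_iff_ne_zero.2 h0)] at this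
    exact ((ratFunc_infinite P' (key P' h')).2 P (key P h))

theorem tri_ne_zero (i : Fin 3) : tri k i ≠ 0 := by
  fin_cases i
  · simpa [tri] using RatFunc.X_ne_zero
  · have := Crest.Agent.R013.RR28_948.X_sub_C_ne (1 : k)
    intro h
    apply this
    have h' : (1 - RatFunc.X : RatFunc k) = 0 := by simpa [tri] using h
    rw [map_one, ← neg_sub, h', neg_zero]
  · simpa [tri] using RatFunc.X_ne_zero

variable {K : Type*} [Field K] [Algebra k K]
  [Algebra (RatFunc k) K] [IsScalarTower k (RatFunc k) K] [FiniteDimensional (RatFunc k) K]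
  [Algebra.IsSeparable (RatFunc k) K]

theorem ncusp_eq : ncusp k K = ∑ i, (Zr k (algebraMap (RatFunc k) K (tri k i))).card := by
  simp [ncusp, Fin.sum_univ_three, tri, xK]

theorem Zr_eq_above (i : Fin 3) {P : Pl k (RatFunc k)} (h : P.v (tri k i) < 1) :
    Zr k (algebraMap (RatFunc k) K (tri k i)) = above K P := by
  ext Q
  rw [mem_Zr (by simpa using tri_ne_zero i), mem_above, ← under_lt_one_iff]
  exact ⟨fun h' => eq_of_tri i h' h, fun h' => h' ▸ h⟩

end rat

section compare

variable {C : Type*} [Field C] {K L T : Type*} [Field K] [Field L] [Field T]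
  [Algebra C K] [Algebra (RatFunc C) K] [IsScalarTower C (RatFunc C) K]
  [FiniteDimensional (RatFunc C) K] [Algebra.IsSeparable (RatFunc C) K]
  [Algebra C L] [Algebra (RatFunc C) L] [IsScalarTower C (RatFunc C) L]
  [FiniteDimensional (RatFunc C) L] [Algebra.IsSeparable (RatFunc C) L]
  [Algebra C T] [Algebra (RatFunc C) T] [IsScalarTower C (RatFunc C) T]
  [FiniteDimensional (RatFunc C) T] [Algebra.IsSeparable (RatFunc C) T]
  [Algebra K L] [Algebra K T] [Algebra L T] [IsScalarTower C K L] [IsScalarTower C K T]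
  [IsScalarTower C L T] [IsScalarTower K L T] [IsScalarTower (RatFunc C) K L]
  [IsScalarTower (RatFunc C) K T] [IsScalarTower (RatFunc C) L T]
  [FiniteDimensional K L] [FiniteDimensional K T] [FiniteDimensional L T]
  [Algebra.IsSeparable K L] [IsGalois L T]
  {k : Type*} [Field k] {K' L' T' : Type*} [Field K'] [Field L'] [Field T']
  [Algebra k K'] [Algebra (RatFunc k) K'] [IsScalarTower k (RatFunc k) K']
  [FiniteDimensional (RatFunc k) K'] [Algebra.IsSeparable (RatFunc k) K']
  [Algebra k L'] [Algebra (RatFunc k) L'] [IsScalarTower k (RatFunc k) L']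
  [FiniteDimensional (RatFunc k) L'] [Algebra.IsSeparable (RatFunc k) L']
  [Algebra k T'] [Algebra (RatFunc k) T'] [IsScalarTower k (RatFunc k) T']
  [FiniteDimensional (RatFunc k) T'] [Algebra.IsSeparable (RatFunc k) T']
  [Algebra K' L'] [Algebra K' T'] [Algebra L' T'] [IsScalarTower k K' L'] [IsScalarTower k K' T']
  [IsScalarTower k L' T'] [IsScalarTower K' L' T'] [IsScalarTower (RatFunc k) K' L']
  [IsScalarTower (RatFunc k) K' T'] [IsScalarTower (RatFunc k) L' T']
  [FiniteDimensional K' L'] [FiniteDimensional K' T'] [FiniteDimensional L' T']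
  [Algebra.IsSeparable K' L'] [Algebra.IsSeparable L' T'] [IsGalois K' T']

/-- fewer places downstairs -/
theorem card_above_le (θ : (T ≃ₐ[K] T) →* (T' ≃ₐ[K'] T')) (hθ : Function.Surjective θ)
    (hH : ∀ (g : T ≃ₐ[L] T) (z : L'),
      θ (g.restrictScalars K) (algebraMap L' T' z) = algebraMap L' T' z)
    (Q : Pl C T) (Q' : Pl k T')
    (hst : ∀ g : T ≃ₐ[K] T, mapPl (g.restrictScalars C) Q = Q →
      mapPl ((θ g).restrictScalars k) Q' = Q') :
    (above L' (under K' Q')).card ≤ (above L (under K Q)).card := by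
  classical
  have hex : ∀ P' : Pl k L', ∃ g : T ≃ₐ[K] T, P' ∈ above L' (under K' Q') →
      under L' (mapPl ((θ g).restrictScalars k) Q') = P' := by
    intro P'
    by_cases hP : P' ∈ above L' (under K' Q')
    · obtain ⟨R, hR⟩ := above_nonempty (L := T') P'
      rw [mem_above] at hR hP
      have h1 : under K' Q' = under K' R := by rw [← under_under (L := L') R, hR, hP]
      obtain ⟨s, hs⟩ := exists_mapPl_eq h1
      obtain ⟨g, rfl⟩ := hθ s
      exact ⟨g, fun _ => by rw [hs, hR]⟩
    · exact ⟨1, fun h => absurd h hP⟩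
  choose γ hγ using hex
  refine Finset.card_le_card_of_injOn (fun P' => under L (mapPl ((γ P').restrictScalars C) Q))
    (fun P' _ => ?_) (fun P₁ h₁ P₂ h₂ e => ?_)
  · rw [Finset.mem_coe, mem_above, under_under, under_mapPl]
  · obtain ⟨h, hh⟩ := exists_mapPl_eq (K := L) e
    have h1 : mapPl (((γ P₂)⁻¹ * h.restrictScalars K * γ P₁).restrictScalars C) Q = Q := by
      have : mapPl (((γ P₂).restrictScalars C).symm) (mapPl (h.restrictScalars C)
        (mapPl ((γ P₁).restrictScalars C) Q)) = Q := by rw [hh, mapPl_symm_mapPl]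
      exact this
    have h2 := hst _ h1
    rw [map_mul, map_mul, map_inv] at h2
    let hb : T' ≃ₐ[L'] T' := AlgEquiv.ofRingEquiv (f := (θ (h.restrictScalars K)).toRingEquiv) (hH h)
    have h3 : mapPl (hb.restrictScalars k) (mapPl ((θ (γ P₁)).restrictScalars k) Q') =
        mapPl ((θ (γ P₂)).restrictScalars k) Q' := by
      conv_rhs => rw [← h2]
      exact (mapPl_mapPl_symm ((θ (γ P₂)).restrictScalars k) _).symm
    rw [← hγ P₁ h₁, ← hγ P₂ h₂, ← h3, under_mapPl]

end compare

section stab

variable {C : Type*} [Field C] [IsAlgClosed C] {K T : Type*} [Field K] [Field T]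
  [Algebra C K] [Algebra (RatFunc C) K] [IsScalarTower C (RatFunc C) K]
  [FiniteDimensional (RatFunc C) K] [Algebra.IsSeparable (RatFunc C) K]
  [Algebra C T] [Algebra (RatFunc C) T] [IsScalarTower C (RatFunc C) T]
  [FiniteDimensional (RatFunc C) T] [Algebra.IsSeparable (RatFunc C) T]
  [Algebra K T] [IsScalarTower C K T] [IsScalarTower (RatFunc C) K T] [FiniteDimensional K T]
  [IsGalois K T]

open Classical in
theorem card_stab (Q : Pl C T) :
    (Finset.univ.filter fun g : T ≃ₐ[K] T => mapPl (g.restrictScalars C) Q = Q).card = eR K Q := by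
  have h := sum_galois (K := K) Q fun R => if R = Q then 1 else 0
  rw [Finset.sum_ite_eq' , if_pos (mem_above.2 rfl), degP_eq_one, degP_eq_one, Finset.sum_boole] at h
  simp only [Nat.cast_one, mul_one, one_mul] at h
  exact_mod_cast h.symm

/-- the stabiliser of a place is generated by an element whose order is the ramification index -/
theorem mem_zpowers_of_fix (Q : Pl C T) (t : T ≃ₐ[K] T) (ht : mapPl (t.restrictScalars C) Q = Q)
    (he : eR K Q ≤ orderOf t) {g : T ≃ₐ[K] T} (hg : mapPl (g.restrictScalars C) Q = Q) :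
    g ∈ Submonoid.powers t := by
  classical
  have hpow : ∀ n : ℕ, mapPl ((t ^ n).restrictScalars C) Q = Q := fun n => by
    induction n with
    | zero => exact mapPl_one Q
    | succ n ih =>
      rw [pow_succ]
      change mapPl ((t ^ n).restrictScalars C) (mapPl (t.restrictScalars C) Q) = Q
      rw [ht, ih]
  have hsub : (Finset.range (orderOf t)).image (t ^ ·) ⊆
      Finset.univ.filter fun g : T ≃ₐ[K] T => mapPl (g.restrictScalars C) Q = Q := by
    intro x hx
    obtain ⟨n, -, rfl⟩ := Finset.mem_image.1 hx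
    exact Finset.mem_filter.2 ⟨Finset.mem_univ _, hpow n⟩
  have hc : ((Finset.range (orderOf t)).image (t ^ ·)).card = orderOf t := by
    rw [Finset.card_image_of_injOn, Finset.card_range]
    rw [Finset.coe_range]
    exact pow_injOn_Iio_orderOf
  have heq := Finset.eq_of_subset_of_card_le hsub (by rw [hc]; convert he using 1; exact card_stab Q)
  have : g ∈ (Finset.range (orderOf t)).image (t ^ ·) := by
    rw [heq]; exact Finset.mem_filter.2 ⟨Finset.mem_univ _, hg⟩
  obtain ⟨n, -, rfl⟩ := Finset.mem_image.1 this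
  exact ⟨n, rfl⟩

end stab

end Crest.Agent.T15.Ig
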