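import Mathlib
import Crest.Agent.T15.IgB_61
import Crest.Agent.R013.GR7_921

/-!
# Row 15, block T (helper61), Igusa part C: the abstract good reduction theorem

`C(x) ⊆ L ⊆ T`, `T / C(x)` Galois, `w` an invariant norm with trivial inertia over the Gauss norm,
`L / C(x)` unramified outside `0, 1, ∞`, and over each of these three points a place of `T` whose
stabiliser fixes a place of the residue field over the same point. Then the residue field of `L` has
the genus of `L` (`hasGen_res`).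
-/

set_option autoImplicit false
set_option linter.unusedSectionVars false

namespace Crest.Agent.T15.Ig

open Polynomial Module WithZero
open scoped NNReal
open Crest.Agent.R013.RR7_948 Crest.Agent.R013.RR8_948 Crest.Agent.R013.RR9_948
open Crest.Agent.R013.RR11_948 Crest.Agent.R013.RR12_948 Crest.Agent.R013.RR13_948
open Crest.Agent.R013.RR18_948 Crest.Agent.R013.RR19_948 Crest.Agent.R013.RR20_948
open Crest.Agent.R013.RR21_948 Crest.Agent.R013.RR22_948
open Crest.Agent.R013.GR3_921 Crest.Agent.R013.GR4_921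

theorem algebraMap_eq_ratHom {k κ : Type*} [Field k] [Field κ] [Algebra k κ]
    [Algebra (RatFunc k) κ] [IsScalarTower k (RatFunc k) κ] {z : κ} (hz : Transcendental k z)
    (e : xK k κ = z) (r : RatFunc k) : algebraMap (RatFunc k) κ r = ratHom z hz r := by
  have h1 : ∀ p : k[X], aeval (RatFunc.X : RatFunc k) p = algebraMap k[X] (RatFunc k) p := fun p => by
    rw [← RatFunc.algebraMap_X, aeval_algebraMap_apply, aeval_X_left_apply]
  rw [← RatFunc.num_div_denom r, map_div₀, map_div₀, algebraMap_poly, algebraMap_poly, e, ← h1, ← h1,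
    ← aeval_algHom_apply, ← aeval_algHom_apply, ratHom_X]

universe u

variable {C : Type*} [Field C] [IsAlgClosed C] [CharZero C] {L : Type u} {T : Type*} [Field L]
  [Field T] [Algebra C L] [Algebra (RatFunc C) L] [IsScalarTower C (RatFunc C) L]
  [FiniteDimensional (RatFunc C) L]
  [Algebra C T] [Algebra (RatFunc C) T] [IsScalarTower C (RatFunc C) T]
  [FiniteDimensional (RatFunc C) T] [IsGalois (RatFunc C) T]
  [Algebra L T] [IsScalarTower C L T] [IsScalarTower (RatFunc C) L T]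
  {k κL κ : Type*} [Field k] [IsAlgClosed k] [Field κL] [Field κ] [Algebra k κL] [Algebra k κ]
  [Algebra κL κ] [IsScalarTower k κL κ]
  {vC : Valuation C ℝ≥0} {ρC : C → k} {w : Valuation T ℝ≥0} {ρ : T → κ}
  {wL : Valuation L ℝ≥0} {ρL : L → κL}

/-- the residue extension of `T / L` -/
theorem isGalois_res' (hT : Red vC ρC w ρ) (hL : Red vC ρC wL ρL)
    (hw : ∀ a, w (algebraMap L T a) = wL a)
    (hρ : ∀ a, wL a ≤ 1 → ρ (algebraMap L T a) = algebraMap κL κ (ρL a))
    [FiniteDimensional L T] [IsGalois L T]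
    (hinv : ∀ (g : T ≃ₐ[L] T) f, w (g f) = w f)
    (hI : ∀ g : T ≃ₐ[L] T, (∀ f, w f ≤ 1 → w (g f - f) < 1) → g = 1) :
    FiniteDimensional κL κ ∧ IsGalois κL κ ∧ finrank κL κ = finrank L T ∧
      ∀ s : κ ≃ₐ[κL] κ, ∃ g : T ≃ₐ[L] T, ∀ f, w f ≤ 1 → s (ρ f) = ρ (g f) := by
  have h1 : ∀ z : κL, ∃ a : L, w (algebraMap L T a) ≤ 1 ∧
      ρ (algebraMap L T a) = algebraMap κL κ z := fun z => by
    obtain ⟨a, ha, rfl⟩ := hL.res.surj z
    exact ⟨a, by rwa [hw], hρ a ha⟩
  obtain ⟨a, b, c, d⟩ := isGalois_res hT hinv h1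
    (fun a ha => ⟨_, (hρ a (by rwa [hw] at ha)).symm⟩) hI
  refine ⟨a, b, c, fun s => ?_⟩
  obtain ⟨g, rfl⟩ := d.2 s
  exact ⟨g, fun f hf => barHom_res hT hinv h1 g hf⟩

theorem hasGen_res_aux [Algebra (RatFunc k) κL] [IsScalarTower k (RatFunc k) κL]
    [Algebra (RatFunc k) κ] [IsScalarTower k (RatFunc k) κ] [IsScalarTower (RatFunc k) κL κ]
    (hT : Red vC ρC w ρ) (hL : Red vC ρC wL ρL)
    (hw : ∀ a, w (algebraMap L T a) = wL a)
    (hρ : ∀ a, wL a ≤ 1 → ρ (algebraMap L T a) = algebraMap κL κ (ρL a))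
    (hx : wL (xK C L) ≤ 1) (hxx : xK k κL = ρL (xK C L))
    (hinv : ∀ (g : T ≃ₐ[RatFunc C] T) f, w (g f) = w f)
    (hI : ∀ g : T ≃ₐ[RatFunc C] T, (∀ f, w f ≤ 1 → w (g f - f) < 1) → g = 1)
    (hunr : ∀ P : Pl C L, P.v (xK C L) = 1 → P.v (1 - xK C L) = 1 →
      ∃ c : C, P.v (xK C L - algebraMap C L c) = exp (-1))
    (hcusp : ∀ i : Fin 3, ∃ (Q : Pl C T) (Q' : Pl k κ),
      Q.v (algebraMap (RatFunc C) T (tri C i)) < 1 ∧
      Q'.v (ρ (algebraMap (RatFunc C) T (tri C i))) < 1 ∧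
      ∀ g : T ≃ₐ[RatFunc C] T, mapPl (g.restrictScalars C) Q = Q →
        mapPl (bar hT (g.restrictScalars C) (hinv g)) Q' = Q')
    (p : ℕ) [Fact p.Prime] (hp : vC (p : C) < 1) : HasGen k κL (gen C L) := by
  have hxT : xK C T = algebraMap L T (xK C L) := IsScalarTower.algebraMap_apply _ _ _ _
  have hxκ : xK k κ = ρ (xK C T) := by
    rw [hxT, hρ _ hx, ← hxx]
    exact IsScalarTower.algebraMap_apply _ _ _ _
  have hx' : w (xK C T) ≤ 1 := by rwa [hxT, hw]
  have hnm : ρ (xK C T) ∉ Set.range (algebraMap k κ) := by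
    rintro ⟨c, hc⟩
    exact transcendental_xK (k := k) (K := κ) (by rw [hxκ, ← hc]; exact isAlgebraic_algebraMap c)
  have hnmL : ρL (xK C L) ∉ Set.range (algebraMap k κL) := by
    rintro ⟨c, hc⟩
    exact transcendental_xK (k := k) (K := κL) (by rw [hxx, ← hc]; exact isAlgebraic_algebraMap c)
  have halg := algebraMap_eq_ratHom (transcendental_of_notMem hnm) hxκ
  have hlift : ∀ z : RatFunc k, ∃ a : RatFunc C, w (algebraMap (RatFunc C) T a) ≤ 1 ∧
      ρ (algebraMap (RatFunc C) T a) = algebraMap (RatFunc k) κ z := fun z => by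
    rw [halg]; exact lift_ratFunc hT hx' hnm z
  obtain ⟨f1, g1, r1, b1⟩ := isGalois_res (κL := RatFunc k) hT hinv hlift (fun a ha => by
    obtain ⟨r, hr⟩ := res_ratFunc hT hx' hnm ha
    exact ⟨r, by rw [halg, hr]⟩) hI
  have : FiniteDimensional L T := Module.Finite.right (RatFunc C) L T
  have : IsGalois L T := IsGalois.tower_top_of_isGalois (RatFunc C) L T
  obtain ⟨f2, g2, r2, -⟩ := isGalois_res' hT hL hw hρ
    (fun g => hinv (g.restrictScalars (RatFunc C))) fun g hg => by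
      have := hI (g.restrictScalars (RatFunc C)) hg
      ext f
      exact DFunLike.congr_fun this f
  have : FiniteDimensional (RatFunc k) κL := Module.Finite.left (RatFunc k) κL κ
  have : Algebra.IsSeparable (RatFunc k) κL :=
    Algebra.isSeparable_tower_bot_of_isSeparable (RatFunc k) κL κ
  have hrank : finrank (RatFunc k) κL = finrank (RatFunc C) L := by
    have e1 := Module.finrank_mul_finrank (RatFunc k) κL κ
    have e2 := Module.finrank_mul_finrank (RatFunc C) L T
    rw [r1, r2, ← e2] at e1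
    exact Nat.eq_of_mul_eq_mul_right Module.finrank_pos e1
  have hw1 : w (xK C T) = 1 := (hT.res.ne_zero_iff hx').1 fun e => hnm ⟨0, by rw [e, map_zero]⟩
  have htri : ∀ i, ρ (algebraMap (RatFunc C) T (tri C i)) = algebraMap (RatFunc k) κ (tri k i) := by
    intro i
    fin_cases i
    · exact hxκ.symm
    · change ρ (algebraMap (RatFunc C) T (1 - RatFunc.X)) = algebraMap (RatFunc k) κ (1 - RatFunc.X)
      rw [map_sub, map_sub, map_one, map_one]
      change ρ (1 - xK C T) = 1 - xK k κ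
      rw [hT.res.sub (by simp) hx', hT.res.one, hxκ]
    · change ρ (algebraMap (RatFunc C) T RatFunc.X⁻¹) = algebraMap (RatFunc k) κ RatFunc.X⁻¹
      rw [map_inv₀, map_inv₀]
      change ρ (xK C T)⁻¹ = (xK k κ)⁻¹
      rw [hT.res.inv hw1, hxκ]
  have hc : ncusp k κL ≤ ncusp C L := by
    rw [ncusp_eq, ncusp_eq]
    refine Finset.sum_le_sum fun i _ => ?_
    obtain ⟨Q, Q', h1, h2, h3⟩ := hcusp i
    rw [htri, ← under_lt_one_iff] at h2
    rw [← under_lt_one_iff] at h1
    rw [Zr_eq_above i h1, Zr_eq_above i h2]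
    refine card_above_le (barHom hT hinv hlift) b1.2 (fun g z => ?_) Q Q' h3
    obtain ⟨a, ha, rfl⟩ := hL.res.surj z
    rw [← hρ a ha, barHom_res hT hinv hlift _ (by rwa [hw])]
    exact congrArg ρ (g.commutes a)
  have h1 := gen_ge (k := k) (K := κL)
  have h2 := gen_le_of_unr hunr
  have h3 := Crest.Agent.R013.GR7_921.gen_le hL
    (Crest.Agent.R013.GR9_921.orth hL ⟨_, hnmL⟩ p hp)
  have h4 : gen k κL = gen C L := by
    rw [hrank] at h1
    omega
  rw [← h4]
  exact hasGen_gen k κL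

/-- **good reduction** -/
theorem hasGen_res (hT : Red vC ρC w ρ) (hL : Red vC ρC wL ρL)
    (hw : ∀ a, w (algebraMap L T a) = wL a)
    (hρ : ∀ a, wL a ≤ 1 → ρ (algebraMap L T a) = algebraMap κL κ (ρL a))
    (hx : wL (xK C L) ≤ 1) (hxb : ρL (xK C L) ∉ Set.range (algebraMap k κL))
    (hinv : ∀ (g : T ≃ₐ[RatFunc C] T) f, w (g f) = w f)
    (hI : ∀ g : T ≃ₐ[RatFunc C] T, (∀ f, w f ≤ 1 → w (g f - f) < 1) → g = 1)
    (hunr : ∀ P : Pl C L, P.v (xK C L) = 1 → P.v (1 - xK C L) = 1 →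
      ∃ c : C, P.v (xK C L - algebraMap C L c) = exp (-1))
    (hcusp : ∀ i : Fin 3, ∃ (Q : Pl C T) (Q' : Pl k κ),
      Q.v (algebraMap (RatFunc C) T (tri C i)) < 1 ∧
      Q'.v (ρ (algebraMap (RatFunc C) T (tri C i))) < 1 ∧
      ∀ g : T ≃ₐ[RatFunc C] T, mapPl (g.restrictScalars C) Q = Q →
        mapPl (bar hT (g.restrictScalars C) (hinv g)) Q' = Q')
    (p : ℕ) [Fact p.Prime] (hp : vC (p : C) < 1) : HasGen k κL (gen C L) := by
  have ht := transcendental_of_notMem hxb
  let _ := ratAlg _ ht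
  have := ratAlg_tower _ ht
  let _ : Algebra (RatFunc k) κ := ((algebraMap κL κ).comp (algebraMap (RatFunc k) κL)).toAlgebra
  have : IsScalarTower (RatFunc k) κL κ := IsScalarTower.of_algebraMap_eq fun _ => rfl
  have : IsScalarTower k (RatFunc k) κ := IsScalarTower.of_algebraMap_eq fun c => by
    rw [IsScalarTower.algebraMap_apply k κL κ, IsScalarTower.algebraMap_apply k (RatFunc k) κL]
    rfl
  exact hasGen_res_aux hT hL hw hρ hx (ratAlg_xK _ ht) hinv hI hunr hcusp p hp

end Crest.Agent.T15.Ig
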