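import Mathlib
import Crest.Agent.T15.IgC_61

/-!
# Row 15, block T (helper61), Igusa part D: good reduction over the `j`-line

`x = j`, `t ∈ L` with `j t (t - 1) = 16 (16 t² - 16 t + 1)³`, `L / C(t)` unramified outside the poles
of `j`; `hasGen_j`.
-/

set_option autoImplicit false
set_option linter.unusedSectionVars false

namespace Crest.Agent.T15.Ig

open Polynomial Module WithZero
open scoped NNReal
open Crest.Agent.R013.RR7_948 Crest.Agent.R013.RR8_948 Crest.Agent.R013.RR9_948
open Crest.Agent.R013.RR11_948 Crest.Agent.R013.RR12_948 Crest.Agent.R013.RR13_948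
open Crest.Agent.R013.RR14_948
open Crest.Agent.R013.RR18_948 Crest.Agent.R013.RR19_948 Crest.Agent.R013.RR20_948
open Crest.Agent.R013.RR21_948 Crest.Agent.R013.RR22_948
open Crest.Agent.R013.GR3_921 Crest.Agent.R013.GR4_921
open Crest.Agent.R013.GR2_921 (exists_const degP_eq_one hc_of_isAlgClosed)
open Crest.Agent.R013.Car5_700 (v_del_eq v_del_le v_del_le')

/-- the modular equation of level four -/
def RelJ {K : Type*} [CommRing K] (j t : K) : Prop :=
  j * (t * (t - 1)) = 16 * (16 * t ^ 2 - 16 * t + 1) ^ 3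

theorem RelJ.map {K K' F : Type*} [CommRing K] [CommRing K'] [FunLike F K K'] [RingHomClass F K K']
    (f : F) {j t : K} (h : RelJ j t) : RelJ (f j) (f t) := by
  have := congrArg f h
  unfold RelJ
  simpa only [map_mul, map_sub, map_add, map_pow, map_one, map_ofNat] using this

section val

variable {K Γ : Type*} [Field K] [LinearOrderedCommGroupWithZero Γ] (v : Valuation K Γ)

theorem RelJ.val (h16 : v 16 = 1) {j t : K} (h : RelJ j t) :
    v j * (v t * v (1 - t)) = v (16 * (t * (t - 1)) + 1) ^ 3 := by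
  have := congrArg v h
  rw [map_mul, map_mul, map_mul, map_pow, h16, one_mul, Valuation.map_sub_swap,
    show 16 * t ^ 2 - 16 * t + 1 = 16 * (t * (t - 1)) + 1 by ring] at this
  exact this

/-- the four cases -/
theorem RelJ.cases (h16 : v 16 = 1) {j t : K} (h : RelJ j t) :
    (v t < 1 ∧ v (1 - t) = 1 ∧ v j * v t = 1) ∨ (v t = 1 ∧ v (1 - t) < 1 ∧ v j * v (1 - t) = 1) ∨
    (1 < v t ∧ v (1 - t) = v t ∧ v j = v t ^ 4) ∨ (v t = 1 ∧ v (1 - t) = 1 ∧ v j ≤ 1) := by
  have h1 := h.val v h16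
  have h2 : v (16 * (t * (t - 1))) = v t * v (1 - t) := by
    rw [map_mul, map_mul, h16, one_mul, Valuation.map_sub_swap]
  rcases lt_trichotomy (v t) 1 with a | a | a
  · have b := v.map_one_sub_of_lt a
    rw [b, mul_one] at h1 h2
    rw [v.map_add_eq_of_lt_right (by rwa [h2, map_one]), map_one, one_pow] at h1
    exact Or.inl ⟨a, b, h1⟩
  · have b : v (1 - t) ≤ 1 := (v.map_sub _ _).trans (by rw [map_one, a, max_self])
    rw [a, one_mul] at h1 h2
    rcases b.lt_or_eq with b | b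
    · rw [v.map_add_eq_of_lt_right (by rwa [h2, map_one]), map_one, one_pow] at h1
      exact Or.inr (Or.inl ⟨a, b, h1⟩)
    · refine Or.inr (Or.inr (Or.inr ⟨a, b, ?_⟩))
      rw [b, mul_one] at h1
      rw [h1]
      exact pow_le_one' ((v.map_add _ _).trans (by rw [h2, b, map_one, max_self])) 3
  · have b : v (1 - t) = v t := v.map_sub_eq_of_lt_right (by rwa [map_one])
    rw [b] at h1 h2
    rw [v.map_add_eq_of_lt_left (by rw [h2, map_one]; exact one_lt_mul'' a a), h2] at h1
    refine Or.inr (Or.inr (Or.inl ⟨a, b, ?_⟩))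
    have h0 : v t * v t ≠ 0 := mul_ne_zero (zero_lt_one.trans a).ne' (zero_lt_one.trans a).ne'
    apply mul_right_cancel₀ h0
    rw [h1, ← pow_two, ← pow_mul, ← pow_add]

end val

section count

variable {k : Type*} [Field k] [IsAlgClosed k] {K : Type*} [Field K] [Algebra k K]
  [Algebra (RatFunc k) K] [IsScalarTower k (RatFunc k) K] [FiniteDimensional (RatFunc k) K]
  [Algebra.IsSeparable (RatFunc k) K] {t : K}

theorem v_sixteen (h2 : (2 : k) ≠ 0) (P : Pl k K) : P.v 16 = 1 := by
  rw [show (16 : K) = algebraMap k K (2 ^ 4) by rw [map_pow, map_ofNat]; norm_num]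
  exact P.const _ (pow_ne_zero 4 h2)

theorem RelJ.mul_ne (h2 : (2 : k) ≠ 0) (h : RelJ (xK k K) t) : t * (t - 1) ≠ 0 := fun e => by
  have h1 : (16 : K) = 0 := by
    unfold RelJ at h
    rw [show 16 * t ^ 2 - 16 * t + 1 = 16 * (t * (t - 1)) + 1 by ring, e] at h
    simpa using h.symm
  rw [show (16 : K) = algebraMap k K (2 ^ 4) by rw [map_pow, map_ofNat]; norm_num,
    map_eq_zero] at h1
  exact pow_ne_zero 4 h2 h1

theorem RelJ.del_ne (h2 : (2 : k) ≠ 0) (h : RelJ (xK k K) t) : del k K t ≠ 0 := fun e => by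
  have h16 : del k K 16 = 0 := by exact_mod_cast (del k K).map_natCast 16
  have := congrArg (del k K) h
  simp only [Derivation.leibniz, Derivation.leibniz_pow, map_sub, map_add, e, del_xK, h16,
    Derivation.map_one_eq_zero, smul_zero, add_zero, sub_zero, smul_eq_mul, mul_one, mul_zero,
    zero_add] at this
  exact h.mul_ne h2 this

theorem RelJ.ord (h2 : (2 : k) ≠ 0) (h : RelJ (xK k K) t) (P : Pl k K) :
    (0 < divf (k := k) t P ∧ divf (k := k) (1 - t) P = 0 ∧
      divf (k := k) (xK k K) P = -divf (k := k) t P) ∨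
    (divf (k := k) t P = 0 ∧ 0 < divf (k := k) (1 - t) P ∧
      divf (k := k) (xK k K) P = -divf (k := k) (1 - t) P) ∨
    (divf (k := k) t P < 0 ∧ divf (k := k) (1 - t) P = divf (k := k) t P ∧
      divf (k := k) (xK k K) P = 4 * divf (k := k) t P) ∨
    (divf (k := k) t P = 0 ∧ divf (k := k) (1 - t) P = 0 ∧ 0 ≤ divf (k := k) (xK k K) P) := by
  have h0 := left_ne_zero_of_mul (h.mul_ne h2)
  have h1 : 1 - t ≠ 0 := fun e => right_ne_zero_of_mul (h.mul_ne h2) (by linear_combination -e)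
  have hc := h.cases P.v (v_sixteen h2 P)
  rw [v_eq h0, v_eq h1, v_eq xK_ne_zero, ← exp_zero] at hc
  simp only [← exp_add, ← exp_nsmul, exp_lt_exp, exp_le_exp, exp_inj, nsmul_eq_mul] at hc
  push_cast at hc
  omega

variable (k) in
/-- the auxiliary divisor -/
noncomputable def auxJ (t : K) : Pl k K →₀ ℤ :=
  canD k K + divf (del k K t) - divf t - divf (1 - t) - poles t + indD (Zr k (xK k K)⁻¹)

theorem degD_auxJ (h2 : (2 : k) ≠ 0) (h : RelJ (xK k K) t) : 6 * degD (auxJ k t) =
    6 * (2 * gen k K - 2) - finrank (RatFunc k) K + 6 * (Zr k (xK k K)⁻¹).card := by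
  have h0 := left_ne_zero_of_mul (h.mul_ne h2)
  have h1 : 1 - t ≠ 0 := fun e => right_ne_zero_of_mul (h.mul_ne h2) (by linear_combination -e)
  have e : poles (k := k) (xK k K) = poles t + poles t + poles t + poles t + poles t + poles t +
      divf t + divf (1 - t) := by
    ext P
    have := h.ord h2 P
    simp only [Finsupp.add_apply, poles_apply]
    omega
  have e' := congrArg degD e
  simp only [degD_add, degD_divf h0, degD_divf h1, degD_poles_xK] at e'
  simp only [auxJ, degD_add, degD_sub, degD_indD, degD_divf h0, degD_divf h1,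
    degD_divf (h.del_ne h2), degD_canD hc_of_isAlgClosed]
  linarith

theorem auxJ_apply (P : Pl k K) : auxJ k t P =
    canD k K P + divf (k := k) (del k K t) P - divf (k := k) t P - divf (k := k) (1 - t) P -
      max (-divf (k := k) t P) 0 + (if 0 < -divf (k := k) (xK k K) P then 1 else 0) := by
  simp only [auxJ, Finsupp.add_apply, Finsupp.sub_apply, indD_apply, mem_Zr', poles_apply,
    divf_inv (xK_ne_zero (k := k) (K := K)), Finsupp.neg_apply]

theorem del_one_sub' : del k K (1 - t) = -del k K t := by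
  rw [map_sub, Derivation.map_one_eq_zero, zero_sub]

/-- **lower bound for the genus** -/
theorem gen_ge_j (h2 : (2 : k) ≠ 0) (h : RelJ (xK k K) t) :
    (finrank (RatFunc k) K : ℤ) - 6 * (Zr k (xK k K)⁻¹).card ≤ 6 * (2 * gen k K - 2) := by
  have h0 := left_ne_zero_of_mul (h.mul_ne h2)
  have h1 : 1 - t ≠ 0 := fun e => right_ne_zero_of_mul (h.mul_ne h2) (by linear_combination -e)
  have hd := h.del_ne h2
  have hn : 0 ≤ degD (auxJ k t) := Crest.Agent.R013.PicD_398.degD_nonneg fun P => by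
    have a1 := v_del_le' P t
    rw [v_eq hd, v_eq h0, ← exp_add, exp_le_exp] at a1
    have a2 := v_del_le' P (1 - t)
    rw [del_one_sub', Valuation.map_neg, v_eq hd, v_eq h1, ← exp_add, exp_le_exp] at a2
    have a3 : divf (k := k) t P = 0 → -divf (k := k) (del k K t) P ≤ canD k K P := fun e => by
      have := v_del_le P (f := t) (by rw [v_eq h0, e]; simp)
      rwa [v_eq hd, exp_le_exp] at this
    have := h.ord h2 P
    show 0 ≤ auxJ k t P
    rw [auxJ_apply]
    split_ifs <;> omega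
  have := degD_auxJ h2 h
  linarith

/-- **the genus in characteristic zero** -/
theorem gen_eq_j [CharZero k] (h : RelJ (xK k K) t)
    (hunr : ∀ P : Pl k K, P.v (xK k K) ≤ 1 → ∃ c : k, P.v (t - algebraMap k K c) = exp (-1)) :
    6 * (2 * (gen k K : ℤ) - 2) = finrank (RatFunc k) K - 6 * (Zr k (xK k K)⁻¹).card := by
  have h2 : (2 : k) ≠ 0 := two_ne_zero
  have h0 := left_ne_zero_of_mul (h.mul_ne h2)
  have h1 : 1 - t ≠ 0 := fun e => right_ne_zero_of_mul (h.mul_ne h2) (by linear_combination -e)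
  have hd := h.del_ne h2
  have hz : auxJ k t = 0 := by
    ext P
    have a1 : divf (k := k) t P ≠ 0 → -divf (k := k) (del k K t) P =
        -divf (k := k) t P + canD k K P + 1 := fun e => by
      have := v_del_tame P (v_eq h0 P) (Int.cast_ne_zero.2 e)
      rwa [v_eq hd, exp_inj] at this
    have a2 : divf (k := k) (1 - t) P ≠ 0 → -divf (k := k) (del k K t) P =
        -divf (k := k) (1 - t) P + canD k K P + 1 := fun e => by
      have := v_del_tame P (v_eq h1 P) (Int.cast_ne_zero.2 e)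
      rwa [del_one_sub', Valuation.map_neg, v_eq hd, exp_inj] at this
    have a3 : 0 ≤ divf (k := k) (xK k K) P → -divf (k := k) (del k K t) P = canD k K P := fun e => by
      obtain ⟨c, hc⟩ := hunr P (by rw [v_eq xK_ne_zero, ← exp_zero, exp_le_exp]; omega)
      have := v_del_eq P hc
      rwa [map_sub, Derivation.map_algebraMap, sub_zero, v_eq hd, exp_inj] at this
    have := h.ord h2 P
    rw [auxJ_apply, Finsupp.zero_apply]
    split_ifs <;> omega
  have := degD_auxJ h2 h
  rw [hz, degD_zero] at this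
  linarith

end count

section res

variable {L κ : Type*} [Field L] [Field κ] {w : Valuation L ℝ≥0} {ρ : L → κ}

/-- the residue map as a ring homomorphism -/
def resHom (h : IsRes w ρ) : w.valuationSubring →+* κ where
  toFun x := ρ x
  map_one' := h.one
  map_mul' x y := h.mul _ _ x.2 y.2
  map_zero' := h.zero
  map_add' x y := h.add _ _ x.2 y.2

theorem RelJ.res (h : IsRes w ρ) {j t : L} (hj : w j ≤ 1) (ht : w t ≤ 1) (e : RelJ j t) :
    RelJ (ρ j) (ρ t) :=
  RelJ.map (resHom h) (j := ⟨j, hj⟩) (t := ⟨t, ht⟩) (w.valuationSubring.subtype_injective (by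
    simp only [map_mul, map_sub, map_add, map_pow, map_one, map_ofNat]
    exact e))

theorem RelJ.w_eq (h16 : w 16 = 1) {j t : L} (hj : w j = 1) (e : RelJ j t) :
    w t = 1 ∧ w (1 - t) = 1 := by
  rcases e.cases w h16 with ⟨a, -, c⟩ | ⟨-, b, c⟩ | ⟨a, -, c⟩ | ⟨a, b, -⟩
  · rw [hj, one_mul] at c; exact absurd c a.ne
  · rw [hj, one_mul] at c; exact absurd c b.ne
  · rw [hj] at c; exact absurd c (one_lt_pow' a (by norm_num)).ne
  · exact ⟨a, b⟩

/-- the universal property of the residue field -/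
theorem exists_resLift (h : IsRes w ρ) {R : Type*} [CommRing R] (φ : L → R)
    (hadd : ∀ x y, w x ≤ 1 → w y ≤ 1 → φ (x + y) = φ x + φ y)
    (hmul : ∀ x y, w x ≤ 1 → w y ≤ 1 → φ (x * y) = φ x * φ y) (h1 : φ 1 = 1)
    (h0 : ∀ x, w x < 1 → φ x = 0) : ∃ ψ : κ →+* R, ∀ x, w x ≤ 1 → ψ (ρ x) = φ x := by
  choose s hs hs' using h.surj
  have key : ∀ x, w x ≤ 1 → φ (s (ρ x)) = φ x := fun x hx => by
    have e := (h.eq_iff (hs _) hx).1 (hs' (ρ x))
    rw [← sub_add_cancel (s (ρ x)) x, hadd _ _ e.le hx, h0 _ e, zero_add]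
  refine ⟨⟨⟨⟨fun y => φ (s y), ?_⟩, fun a b => ?_⟩, ?_, fun a b => ?_⟩, key⟩
  · rw [← h.one, key 1 (by simp), h1]
  · show φ (s (a * b)) = φ (s a) * φ (s b)
    rw [← hmul _ _ (hs a) (hs b), ← key (s a * s b) (by
      rw [map_mul]; exact mul_le_one' (hs a) (hs b)), h.mul _ _ (hs a) (hs b), hs', hs']
  · show φ (s 0) = 0
    rw [← h.zero, key 0 (by simp), h0 0 (by simp)]
  · show φ (s (a + b)) = φ (s a) + φ (s b)
    rw [← hadd _ _ (hs a) (hs b), ← key (s a + s b)
      ((w.map_add _ _).trans (max_le (hs a) (hs b))), h.add _ _ (hs a) (hs b), hs', hs']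

end res

universe u

variable {C : Type*} [Field C] [IsAlgClosed C] [CharZero C] {L : Type u} {T : Type*} [Field L]
  [Field T] [Algebra C L] [Algebra (RatFunc C) L] [IsScalarTower C (RatFunc C) L]
  [FiniteDimensional (RatFunc C) L]
  [Algebra C T] [Algebra (RatFunc C) T] [IsScalarTower C (RatFunc C) T]
  [FiniteDimensional (RatFunc C) T] [IsGalois (RatFunc C) T]
  [Algebra L T] [IsScalarTower C L T] [IsScalarTower (RatFunc C) L T]
  {k κL κ : Type*} [Field k] [IsAlgClosed k] [Field κL] [Field κ] [Algebra k κL] [Algebra k κ]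
  [Algebra κL κ] [IsScalarTower k κL κ]
  {vC : Valuation C ℝ≥0} {ρC : C → k} {w : Valuation T ℝ≥0} {ρ : T → κ}
  {wL : Valuation L ℝ≥0} {ρL : L → κL}

theorem gen_res_j [Algebra (RatFunc k) κL] [IsScalarTower k (RatFunc k) κL]
    [Algebra (RatFunc k) κ] [IsScalarTower k (RatFunc k) κ] [IsScalarTower (RatFunc k) κL κ]
    (hT : Red vC ρC w ρ) (hL : Red vC ρC wL ρL)
    (hw : ∀ a, w (algebraMap L T a) = wL a)
    (hρ : ∀ a, wL a ≤ 1 → ρ (algebraMap L T a) = algebraMap κL κ (ρL a))
    (hx : wL (xK C L) ≤ 1) (hxx : xK k κL = ρL (xK C L))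
    (hinv : ∀ (g : T ≃ₐ[RatFunc C] T) f, w (g f) = w f)
    (hI : ∀ g : T ≃ₐ[RatFunc C] T, (∀ f, w f ≤ 1 → w (g f - f) < 1) → g = 1)
    (h2 : vC 2 = 1) {t : L} (ht : RelJ (xK C L) t)
    (hunr : ∀ P : Pl C L, P.v (xK C L) ≤ 1 → ∃ c : C, P.v (t - algebraMap C L c) = exp (-1))
    (hcusp : [FiniteDimensional (RatFunc k) κ] → [Algebra.IsSeparable (RatFunc k) κ] →
      ∃ (Q : Pl C T) (Q' : Pl k κ), 1 < Q.v (xK C T) ∧ 1 < Q'.v (xK k κ) ∧
      ∀ g : T ≃ₐ[RatFunc C] T, mapPl (g.restrictScalars C) Q = Q →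
        mapPl (bar hT (g.restrictScalars C) (hinv g)) Q' = Q')
    (p : ℕ) [Fact p.Prime] (hp : vC (p : C) < 1) :
    ∃ (_ : FiniteDimensional (RatFunc k) κL) (_ : Algebra.IsSeparable (RatFunc k) κL),
      gen k κL = gen C L ∧ finrank (RatFunc k) κL = finrank (RatFunc C) L ∧
      (Zr k (xK k κL)⁻¹).card = (Zr C (xK C L)⁻¹).card := by
  have hxT : xK C T = algebraMap L T (xK C L) := IsScalarTower.algebraMap_apply _ _ _ _
  have hxκ : xK k κ = ρ (xK C T) := by
    rw [hxT, hρ _ hx, ← hxx]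
    exact IsScalarTower.algebraMap_apply _ _ _ _
  have hx' : w (xK C T) ≤ 1 := by rwa [hxT, hw]
  have hnm : ρ (xK C T) ∉ Set.range (algebraMap k κ) := by
    rintro ⟨c, hc⟩
    exact transcendental_xK (k := k) (K := κ) (by rw [hxκ, ← hc]; exact isAlgebraic_algebraMap c)
  have hnmL : ρL (xK C L) ∉ Set.range (algebraMap k κL) := by
    rintro ⟨c, hc⟩
    exact transcendental_xK (k := k) (K := κL) (by rw [hxx, ← hc]; exact isAlgebraic_algebraMap c)
  have halg := algebraMap_eq_ratHom (transcendental_of_notMem hnm) hxκ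
  have hlift : ∀ z : RatFunc k, ∃ a : RatFunc C, w (algebraMap (RatFunc C) T a) ≤ 1 ∧
      ρ (algebraMap (RatFunc C) T a) = algebraMap (RatFunc k) κ z := fun z => by
    rw [halg]; exact lift_ratFunc hT hx' hnm z
  obtain ⟨f1, g1, r1, b1⟩ := isGalois_res (κL := RatFunc k) hT hinv hlift (fun a ha => by
    obtain ⟨r, hr⟩ := res_ratFunc hT hx' hnm ha
    exact ⟨r, by rw [halg, hr]⟩) hI
  have : FiniteDimensional L T := Module.Finite.right (RatFunc C) L T
  have : IsGalois L T := IsGalois.tower_top_of_isGalois (RatFunc C) L T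
  obtain ⟨f2, g2, r2, -⟩ := isGalois_res' hT hL hw hρ
    (fun g => hinv (g.restrictScalars (RatFunc C))) fun g hg => by
      have := hI (g.restrictScalars (RatFunc C)) hg
      ext f
      exact DFunLike.congr_fun this f
  have i1 : FiniteDimensional (RatFunc k) κL := Module.Finite.left (RatFunc k) κL κ
  have i2 : Algebra.IsSeparable (RatFunc k) κL :=
    Algebra.isSeparable_tower_bot_of_isSeparable (RatFunc k) κL κ
  have hrank : finrank (RatFunc k) κL = finrank (RatFunc C) L := by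
    have e1 := Module.finrank_mul_finrank (RatFunc k) κL κ
    have e2 := Module.finrank_mul_finrank (RatFunc C) L T
    rw [r1, r2, ← e2] at e1
    exact Nat.eq_of_mul_eq_mul_right Module.finrank_pos e1
  have hw1 : wL (xK C L) = 1 := (hL.res.ne_zero_iff hx).1 fun e => hnmL ⟨0, by rw [e, map_zero]⟩
  have h16 : wL 16 = 1 := by
    rw [show (16 : L) = algebraMap C L (2 ^ 4) by rw [map_pow, map_ofNat]; norm_num, hL.norm,
      map_pow, h2, one_pow]
  have hk2 : (2 : k) ≠ 0 := by
    have := (hL.resC.ne_zero_iff h2.le).2 h2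
    rwa [← one_add_one_eq_two, hL.resC.add _ _ (by simp) (by simp), hL.resC.one,
      one_add_one_eq_two] at this
  have ht' : RelJ (xK k κL) (ρL t) := hxx ▸ ht.res hL.res hx (ht.w_eq h16 hw1).1.le
  have hc : (Zr k (xK k κL)⁻¹).card ≤ (Zr C (xK C L)⁻¹).card := by
    obtain ⟨Q, Q', h1, h2, h3⟩ := hcusp
    have a1 : (under (RatFunc C) Q).v (tri C 2) < 1 := by
      rw [under_lt_one_iff]
      change Q.v (algebraMap (RatFunc C) T RatFunc.X⁻¹) < 1
      rw [map_inv₀, map_inv₀]
      exact inv_lt_one_of_one_lt₀ h1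
    have a2 : (under (RatFunc k) Q').v (tri k 2) < 1 := by
      rw [under_lt_one_iff]
      change Q'.v (algebraMap (RatFunc k) κ RatFunc.X⁻¹) < 1
      rw [map_inv₀, map_inv₀]
      exact inv_lt_one_of_one_lt₀ h2
    have e1 : (xK C L)⁻¹ = algebraMap (RatFunc C) L (tri C 2) := (map_inv₀ _ _).symm
    have e2 : (xK k κL)⁻¹ = algebraMap (RatFunc k) κL (tri k 2) := (map_inv₀ _ _).symm
    rw [e1, e2, Zr_eq_above 2 a1, Zr_eq_above 2 a2]
    refine card_above_le (barHom hT hinv hlift) b1.2 (fun g z => ?_) Q Q' h3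
    obtain ⟨a, ha, rfl⟩ := hL.res.surj z
    rw [← hρ a ha, barHom_res hT hinv hlift _ (by rwa [hw])]
    exact congrArg ρ (g.commutes a)
  have h1 := gen_ge_j hk2 ht'
  have h2 := gen_eq_j ht hunr
  have h3 := Crest.Agent.R013.GR7_921.gen_le hL
    (Crest.Agent.R013.GR9_921.orth hL ⟨_, hnmL⟩ p hp)
  rw [hrank] at h1
  exact ⟨i1, i2, by omega, hrank, by omega⟩

end Crest.Agent.T15.Ig
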