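import Mathlib
import Crest.Agent.T15.IgD_61
import Crest.Agent.T15.IgT_61
import Crest.Agent.T15.CgF_84

/-!
# Row 15, block T (helper61), Igusa part L: the field of level `Γ(M)` as an interface
-/

set_option autoImplicit false
set_option linter.unusedSectionVars false

noncomputable section

namespace Crest.Agent.T15.Ig

open UpperHalfPlane ModularForm CongruenceSubgroup Polynomial
open scoped MatrixGroups NNReal
open Crest.Agent.R007 Crest.Agent.R007.Rat Crest.Agent.T15.Mf Crest.Agent.T15.Bet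
open Crest.Agent.T15.Hs Crest.Agent.T15.Cg
open Crest.Agent.R013.RR7_948 Crest.Agent.R013.RR8_948 Crest.Agent.R013.RR9_948
open Crest.Agent.R013.GR4_921

/-- the modular invariant -/
def jF : FF := quo (e4 ^ 3) dl

theorem smul_jF (γ : SL(2, ℤ)) : γ • jF = jF :=
  gamma_smul_quo one_ne_zero isF_e43 isF_dl (by simp [Gamma_one_top])

theorem relJ_tt : RelJ jF tt := tt_rel

/-- `ι` identifies `T` with the functions of level `Γ(M)`, `x = j`, and the Galois group over the
`j`-line is induced by `SL(2, ℤ)` -/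
structure Lvl (M : ℕ) {T : Type*} [Field T] [Algebra ℂ T] [Algebra (RatFunc ℂ) T]
    (ι : T →ₐ[ℂ] FF) : Prop where
  mem : ∀ x : FF, (∃ y, ι y = x) ↔ ∀ γ ∈ Gamma M, γ • x = x
  xj : ι (xK ℂ T) = jF
  gal : ∀ g : T ≃ₐ[RatFunc ℂ] T, ∃ γ : SL(2, ℤ), ∀ x, ι (g x) = γ • ι x

variable {M : ℕ} {T : Type*} [Field T] [Algebra ℂ T] [Algebra (RatFunc ℂ) T]
  [IsScalarTower ℂ (RatFunc ℂ) T] {ι : T →ₐ[ℂ] FF}

theorem smul_aeval_jF (γ : SL(2, ℤ)) (p : ℂ[X]) : γ • aeval jF p = aeval jF p := by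
  have := aeval_algHom_apply (MulSemiringAction.toAlgHom ℂ FF γ) jF p
  rw [MulSemiringAction.toAlgHom_apply, MulSemiringAction.toAlgHom_apply, smul_jF] at this
  exact this.symm

theorem smul_rat (hj : ι (xK ℂ T) = jF) (γ : SL(2, ℤ)) (r : RatFunc ℂ) :
    γ • ι (algebraMap (RatFunc ℂ) T r) = ι (algebraMap (RatFunc ℂ) T r) := by
  rw [← RatFunc.num_div_denom r, map_div₀, algebraMap_poly, algebraMap_poly, map_div₀,
    ← aeval_algHom_apply, ← aeval_algHom_apply, hj]
  have := map_div₀ (MulSemiringAction.toRingHom SL(2, ℤ) FF γ) (aeval jF r.num) (aeval jF r.denom)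
  simp only [MulSemiringAction.toRingHom_apply] at this
  rw [this, smul_aeval_jF, smul_aeval_jF]

theorem Lvl.lev (h : Lvl M ι) (x : T) {γ : SL(2, ℤ)} (hγ : γ ∈ Gamma M) : γ • ι x = ι x :=
  (h.mem _).1 ⟨x, rfl⟩ γ hγ

theorem Lvl.exists_smul (h : Lvl M ι) (γ : SL(2, ℤ)) (x : T) : ∃ y, ι y = γ • ι x :=
  (h.mem _).2 fun δ hδ => by
    have := h.lev x ((Gamma_normal M).conj_mem' δ hδ γ)
    rw [mul_smul, mul_smul, inv_smul_eq_iff] at this
    exact this

/-- the automorphism induced by a matrix -/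
theorem Lvl.exists_act (h : Lvl M ι) (γ : SL(2, ℤ)) :
    ∃ g : T ≃ₐ[RatFunc ℂ] T, ∀ x, ι (g x) = γ • ι x := by
  choose f hf using h.exists_smul
  have hi : Function.Injective ι := (ι : T →+* FF).injective
  exact ⟨{
    toFun := f γ
    invFun := f γ⁻¹
    left_inv := fun x => hi (by rw [hf, hf, inv_smul_smul])
    right_inv := fun x => hi (by rw [hf, hf, smul_inv_smul])
    map_mul' := fun x y => hi (by rw [hf, map_mul, map_mul, hf, hf, smul_mul'])
    map_add' := fun x y => hi (by rw [hf, map_add, map_add, hf, hf, smul_add])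
    commutes' := fun r => hi (by rw [hf, smul_rat h.xj]) }, hf γ⟩

/-- the residue field embeds into the Hahn series over `k` -/
theorem exists_psi {v : Valuation ℂ ℝ≥0} {w : Valuation FF ℝ≥0} (hG : IsG v qx w)
    {k κ : Type*} [Field k] [Field κ] {r : ℂ → k} (hr : IsRes v r) {wT : Valuation T ℝ≥0}
    (hw : ∀ x, wT x = w (ι x)) {ρ : T → κ} (hρ : IsRes wT ρ) :
    ∃ ψ : κ →+* HS k, ∀ (x : T) (a b : HS ℂ), IntS v a → UnS v b → qx (ι x) * b = a →
      wT x ≤ 1 ∧ ψ (ρ x) * rd hr b = rd hr a := by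
  classical
  have hex : ∀ x : T, ∃ y : HS k, ∀ a b : HS ℂ, IntS v a → UnS v b → qx (ι x) * b = a →
      y * rd hr b = rd hr a := fun x => by
    by_cases h : ∃ a b : HS ℂ, IntS v a ∧ UnS v b ∧ qx (ι x) * b = a
    · obtain ⟨a, b, ha, hb, e⟩ := h
      have hb0 := ((unS_iff hr).1 hb).2
      refine ⟨rd hr a / rd hr b, fun a' b' ha' hb' e' => ?_⟩
      rw [div_mul_eq_mul_div, div_eq_iff hb0, ← rd_mul hr ha hb'.1, ← rd_mul hr ha' hb.1]
      congr 1
      rw [← e, ← e']; ring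
    · exact ⟨0, fun a b ha hb e => absurd ⟨a, b, ha, hb, e⟩ h⟩
  choose φ hφ using hex
  have hadd : ∀ {a b : HS ℂ}, IntS v a → IntS v b → IntS v (a + b) ∧
      rd hr (a + b) = rd hr a + rd hr b := fun {a b} ha hb =>
    ⟨fun g => (v.map_add _ _).trans (max_le (ha g) (hb g)), by
      ext g; exact hr.add _ _ (ha g) (hb g)⟩
  have hle : ∀ (x : T) (a b : HS ℂ), IntS v a → UnS v b → qx (ι x) * b = a → wT x ≤ 1 := by
    intro x a b ha hb e
    by_contra hlt
    rw [not_le, hw] at hlt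
    have hx0 : ι x ≠ 0 := fun h0 => by simp [h0] at hlt
    obtain ⟨c, a', b', ha', hb', e', hc⟩ := hG _ hx0
    obtain ⟨g, hg⟩ := (ha'.mul hb).2
    have h1 : HahnSeries.C c * (a' * b) = a * b' := by linear_combination b' * e - b * e'
    have h2 := (ha.mul hb'.1) g
    rw [← h1, HahnSeries.C_mul_eq_smul, HahnSeries.coeff_smul, smul_eq_mul, map_mul, hg,
      mul_one, ← hc] at h2
    exact absurd h2 (not_le.2 hlt)
  obtain ⟨ψ, hψ⟩ := exists_resLift hρ φ (fun x y hx hy => by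
      obtain ⟨a, b, ha, hb, e⟩ := hG.int_rep (hw x ▸ hx)
      obtain ⟨a', b', ha', hb', e'⟩ := hG.int_rep (hw y ▸ hy)
      obtain ⟨s1, s2⟩ := hadd (ha.mul hb'.1) (ha'.mul hb.1)
      have := hφ (x + y) _ _ s1 (hb.mul hb') (by
        rw [map_add, map_add]; linear_combination b' * e + b * e')
      rw [s2, rd_mul hr hb.1 hb'.1, rd_mul hr ha hb'.1, rd_mul hr ha' hb.1, ← hφ x a b ha hb e,
        ← hφ y a' b' ha' hb' e'] at this
      apply mul_right_cancel₀ (mul_ne_zero ((unS_iff hr).1 hb).2 ((unS_iff hr).1 hb').2)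
      rw [this]; ring)
    (fun x y hx hy => by
      obtain ⟨a, b, ha, hb, e⟩ := hG.int_rep (hw x ▸ hx)
      obtain ⟨a', b', ha', hb', e'⟩ := hG.int_rep (hw y ▸ hy)
      have := hφ (x * y) _ _ (ha.mul ha') (hb.mul hb') (by
        rw [map_mul, map_mul, ← e, ← e']; ring)
      rw [rd_mul hr hb.1 hb'.1, rd_mul hr ha ha', ← hφ x a b ha hb e,
        ← hφ y a' b' ha' hb' e'] at this
      apply mul_right_cancel₀ (mul_ne_zero ((unS_iff hr).1 hb).2 ((unS_iff hr).1 hb').2)
      rw [this]; ring)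
    (by
      have := hφ 1 1 1 IntS.one UnS.one (by simp)
      rwa [rd_one, mul_one] at this)
    (fun x hx => by
      by_cases h0 : x = 0
      · have := hφ x 0 1 (fun g => by simp) UnS.one (by simp [h0])
        rw [rd_one, mul_one] at this
        rw [this]; ext g; exact hr.zero
      obtain ⟨c, a, b, ha, hb, e, hc⟩ := hG (ι x) (by simpa using h0)
      rw [hw, hc] at hx
      have := hφ x _ _ (ha.1.C_mul hx.le) hb e
      refine (mul_eq_zero.1 (this.trans ?_)).resolve_right ((unS_iff hr).1 hb).2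
      ext g
      rw [rd_coeff, HahnSeries.C_mul_eq_smul, HahnSeries.coeff_smul, smul_eq_mul]
      have : v (c * a.coeff g) < 1 := by
        rw [map_mul]; exact mul_lt_one_of_lt_of_le hx (ha.1 g)
      exact (hr.zero_iff _ this.le).2 this)
  exact ⟨ψ, fun x a b ha hb e => ⟨hle x a b ha hb e, by
    rw [hψ x (hle x a b ha hb e), hφ x a b ha hb e]⟩⟩

end Crest.Agent.T15.Ig
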