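import Mathlib
import Crest.Agent.T15.IgL_61
import Crest.Agent.T15.IgI_71
import Crest.Agent.T15.Lv_10
import Crest.Agent.R007.DGrp

/-!
# Row 15, block T (helper61), Igusa part E: the decomposition group is everything

`w_sl` : for a level `M` which is a `v`-unit, the Gauss norm on functions of level `Γ(M)` is
invariant under `SL(2, ℤ)`.
-/

set_option autoImplicit false
set_option linter.unusedSectionVars false

noncomputable section

namespace Crest.Agent.T15.Ig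

open UpperHalfPlane ModularForm CongruenceSubgroup Polynomial WithZero
open scoped MatrixGroups NNReal
open Crest.Agent.R007 Crest.Agent.R007.Rat Crest.Agent.T15.Mf Crest.Agent.T15.Bet
open Crest.Agent.T15.Hs Crest.Agent.T15.Cg Crest.Agent.T15.Lv
open Crest.Agent.R013.RR7_948 Crest.Agent.R013.RR8_948 Crest.Agent.R013.RR9_948
open Crest.Agent.R013.GR4_921

section qexp

variable {v : Valuation ℂ ℝ≥0}

theorem coeff_qf_one {k : ℤ} {F : ℍ → ℂ} (hF : IsF 1 k F) (n : ℕ) :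
    (qf F).coeff (n : ℚ) = PowerSeries.coeff n (qe 1 F) := by
  rw [← coeff_qf one_ne_zero hF, Nat.cast_one, div_one]

theorem qf_dl_zero : (qf dl).coeff 0 = 0 := (coeff_qf_one isF_dl 0).trans coeff_zero_dl

theorem qf_dl_one : (qf dl).coeff 1 = 1 := (coeff_qf_one isF_dl 1).trans coeff_one_dl

theorem qf_e43_zero : (qf (e4 ^ 3)).coeff 0 = 1 := by
  have := coeff_zero_mon 3 0
  simp only [mon, pow_zero, mul_one] at this
  exact (coeff_qf_one isF_e43 0).trans this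

theorem unS_e43 : UnS v (qf (e4 ^ 3)) :=
  ⟨by rw [qf_pow one_ne_zero isF_e4]; exact unS_e4.1.pow 3, 0,
    by rw [qf_e43_zero, map_one]⟩

theorem qx_jF : qx jF * qf dl = qf (e4 ^ 3) := by
  rw [jF, qx_quo one_ne_zero isF_e43 isF_dl,
    div_mul_cancel₀ _ (qf_ne_zero one_ne_zero isF_dl dl_ne_zero)]

theorem w_jF {w : Valuation FF ℝ≥0} (hG : IsG v qx w) : w jF = 1 := by
  rw [← map_one v]
  exact hG.w_eq unS_e43 unS_dl (by rw [map_one, one_mul, qx_jF])

end qexp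

/-- `Δ (g z) / Δ (z)` -/
def UU (g : GQ) : FF := quo (dl ∣[(12 : ℤ)] rr g) dl

theorem isF_UU (g : GQ) : ∃ N : ℕ, N ≠ 0 ∧ IsF N 12 (dl ∣[(12 : ℤ)] rr g) ∧ IsF N 12 dl := by
  obtain ⟨N, hN, h⟩ := exists_level 1 one_ne_zero g
  exact ⟨N, hN, h _ _ isF_dl, isF_dl.mono (one_dvd N)⟩

theorem inv_smul_UU (g : GQ) (γ : SL(2, ℤ)) : γ⁻¹ • UU g = UU (g * Mf.sq γ) := by
  obtain ⟨N, hN, h1, h2⟩ := isF_UU g
  rw [UU, UU, inv_sl_smul_quo hN h1 h2, isF_dl.slash_one_level, map_mul, SlashAction.slash_mul,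
    slash_sq]

theorem UU_sq_mul (γ : SL(2, ℤ)) (g : GQ) : UU (Mf.sq γ * g) = UU g := by
  rw [UU, UU, map_mul, SlashAction.slash_mul, slash_sq, isF_dl.slash_one_level]

theorem vM_UU (g : GQ) (z : ℍ) : vM z (UU g : Mer) = 1 := by
  obtain ⟨N, hN, h1, h2⟩ := isF_UU g
  rw [UU, coe_quo hN h1 h2, map_div₀, (vM_mer_eq_one h2.holo).2 (dl_ne z),
    (vM_mer_eq_one h1.holo).2, div_one]
  rw [slash_eq]
  exact mul_ne_zero (dl_ne _) (jf_ne _ _ _)

theorem qx_UU {g : GQ} (hg : (g : GL (Fin 2) ℚ) 1 0 = 0) :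
    qx (UU g) * qf dl = HahnSeries.C (jf 12 g UpperHalfPlane.I) *
      sc ((g : GL (Fin 2) ℚ) 0 0 / (g : GL (Fin 2) ℚ) 1 1)
        (tw (ee ((g : GL (Fin 2) ℚ) 0 1 / (g : GL (Fin 2) ℚ) 1 1)) (qf dl)) := by
  obtain ⟨N, hN, h1, h2⟩ := isF_UU g
  rw [UU, qx_quo hN h1 h2, div_mul_cancel₀ _ (qf_ne_zero one_ne_zero isF_dl dl_ne_zero),
    qf_slash_upper hg one_ne_zero isF_dl]

theorem gm_apply {a b c d : ℤ} (h : 0 < a * d - b * c) (i j : Fin 2) :
    (gm a b c d : GL (Fin 2) ℚ) i j = !![(a : ℚ), b; c, d] i j :=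
  congrFun (congrFun (gm_val h) i) j

theorem jf_gm {a b d : ℤ} (h : 0 < a * d) :
    jf 12 (gm a b 0 d) UpperHalfPlane.I = ((a : ℂ) * d) ^ (11 : ℤ) * (d : ℂ) ^ (-12 : ℤ) := by
  have h' : 0 < a * d - b * 0 := by simpa using h
  have e1 : (rr (gm a b 0 d)).det.val = ((a * d : ℤ) : ℝ) := by
    simp only [Matrix.GeneralLinearGroup.val_det_apply, Matrix.det_fin_two, rr_apply, gm_apply h']
    simp
  have e2 : denom (rr (gm a b 0 d)) UpperHalfPlane.I = d := by
    simp only [denom, rr_apply, gm_apply h']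
    simp
  rw [jf, e1, e2, abs_of_pos (by exact_mod_cast h)]
  simp

variable {v : Valuation ℂ ℝ≥0} {w : Valuation FF ℝ≥0}

theorem v_int (n : ℤ) : v (n : ℂ) ≤ 1 := intCast_mem v.valuationSubring n

theorem v_eq_one_of_dvd {a b : ℤ} (h : a ∣ b) (hb : v (b : ℂ) = 1) : v (a : ℂ) = 1 := by
  obtain ⟨c, rfl⟩ := h
  rw [Int.cast_mul, map_mul] at hb
  exact le_antisymm (v_int a) (hb ▸ mul_le_of_le_one_right' (v_int c))

theorem v_jf {a b d : ℤ} (h : 0 < a * d) (hv : v ((a * d : ℤ) : ℂ) = 1) :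
    v (jf 12 (gm a b 0 d) UpperHalfPlane.I) = 1 := by
  rw [jf_gm h, map_mul, map_zpow₀, map_zpow₀, ← Int.cast_mul, hv,
    v_eq_one_of_dvd (Dvd.intro_left a rfl) hv, one_zpow, one_zpow, one_mul]

theorem w_UU (hG : IsG v qx w) {a b c d : ℤ} (h : 0 < a * d - b * c)
    (hv : v ((a * d - b * c : ℤ) : ℂ) = 1) : w (UU (gm a b c d)) = 1 := by
  have h0 : 0 < Int.gcd a c := Int.gcd_pos_iff.2 (by
    by_contra hc
    push Not at hc
    simp [hc.1, hc.2] at h)
  obtain ⟨a', c', hco, ha, hc⟩ := Int.exists_gcd_one h0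
  obtain ⟨s, t, hst⟩ := Int.isCoprime_iff_gcd_eq_one.2 hco
  let γ : SL(2, ℤ) := ⟨!![s, t; -c', a'], by rw [Matrix.det_fin_two_of]; linear_combination hst⟩
  have e : Mf.sq γ * gm a b c d = gm (s * a + t * c) (s * b + t * d) 0 (-c' * b + a' * d) := by
    rw [sq_eq_gm, gm_mul (by rw [det_eq]; exact one_pos) h]
    congr 1
    change -c' * a + a' * c = 0
    linear_combination -c' * ha + a' * hc
  have e' : (s * a + t * c) * (-c' * b + a' * d) = a * d - b * c := by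
    generalize (Int.gcd a c : ℤ) = g at ha hc
    subst ha hc
    linear_combination (g * (a' * d - c' * b)) * hst
  have h1 : 0 < (s * a + t * c) * (-c' * b + a' * d) - (s * b + t * d) * 0 := by
    rw [mul_zero, sub_zero, e']; exact h
  have hg : (gm (s * a + t * c) (s * b + t * d) 0 (-c' * b + a' * d) : GL (Fin 2) ℚ) 1 0 = 0 := by
    rw [gm_apply h1]; simp
  rw [← UU_sq_mul γ, e, hG.w_eq ((unS_dl.tw _).sc (upper_pos hg)) unS_dl (qx_UU hg)]
  exact v_jf (e' ▸ h) (e' ▸ hv)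

theorem smul_UU_dg {p : ℕ} (hp : 0 < p) {γ : SL(2, ℤ)} (h : (p : ℤ) ∣ γ 1 0) :
    γ • UU (dg p) = UU (dg p) := by
  obtain ⟨c, hc⟩ := h
  have hd := det_eq γ
  let δ : SL(2, ℤ) := ⟨!![γ 0 0, p * γ 0 1; c, γ 1 1], by
    rw [Matrix.det_fin_two_of]; rw [hc] at hd; linear_combination hd⟩
  have hp' : 0 < (p : ℤ) * 1 - 0 * 0 := by simpa using hp
  rw [smul_eq_iff_eq_inv_smul, inv_smul_UU, ← UU_sq_mul δ, dg, sq_eq_gm, sq_eq_gm,
    gm_mul hp' (by rw [det_eq]; exact one_pos), gm_mul (by rw [det_eq]; exact one_pos) hp', hc]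
  congr 2 <;> simp [δ, mul_comm]

theorem w_smul_UU (hG : IsG v qx w) {p : ℕ} (hp : 0 < p) (hv : v (p : ℂ) = 1) (γ : SL(2, ℤ)) :
    w (γ • UU (dg p)) = 1 := by
  have hp' : 0 < (p : ℤ) * 1 - 0 * 0 := by simpa using hp
  have hd := det_eq γ⁻¹
  rw [← inv_inv γ, inv_smul_UU, dg, sq_eq_gm, gm_mul hp' (by rw [hd]; exact one_pos)]
  have e : ((p : ℤ) * γ⁻¹ 0 0 + 0 * γ⁻¹ 1 0) * (0 * γ⁻¹ 0 1 + 1 * γ⁻¹ 1 1) -
      (p * γ⁻¹ 0 1 + 0 * γ⁻¹ 1 1) * (0 * γ⁻¹ 0 0 + 1 * γ⁻¹ 1 0) = p := by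
    linear_combination (p : ℤ) * hd
  exact w_UU hG (by rw [e]; exact_mod_cast hp) (by rw [e]; exact_mod_cast hv)

variable {M : ℕ} {T : Type*} [Field T] [Algebra ℂ T] [Algebra (RatFunc ℂ) T]
  [IsScalarTower ℂ (RatFunc ℂ) T] {ι : T →ₐ[ℂ] FF}

theorem vM_jF (z : ℍ) : vM z (jF : Mer) ≤ 1 := by
  rw [jF, coe_quo one_ne_zero isF_e43 isF_dl, map_div₀, (vM_mer_eq_one isF_dl.holo).2 (dl_ne z),
    div_one]
  exact vM_mer_le z isF_e43.holo

theorem exists_vM_jF (c : ℂ) : ∃ z : ℍ, vM z ((jF - algebraMap ℂ FF c : FF) : Mer) < 1 := by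
  obtain ⟨z, hz⟩ := j_onto c
  refine ⟨z, ?_⟩
  have e : jF - algebraMap ℂ FF c = quo (jn c) dl := by
    rw [jn, quo_sub one_ne_zero isF_e43 (isF_dl.smul c) isF_dl, quo_smul one_ne_zero isF_dl isF_dl,
      quo_self one_ne_zero isF_dl dl_ne_zero, mul_one, jF]
  rw [e, coe_quo one_ne_zero (isF_jn c) isF_dl, map_div₀, (vM_mer_eq_one isF_dl.holo).2 (dl_ne z),
    div_one, vM_mer_lt_one (isF_jn c).holo]
  simp [jn, hz]

theorem val_aeval_sub {K Γ : Type*} [Field K] [Algebra ℂ K] [LinearOrderedCommGroupWithZero Γ]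
    (V : Valuation K Γ) (hV : ∀ c : ℂ, V (algebraMap ℂ K c) ≤ 1) {x : K} {c : ℂ}
    (hx : V (x - algebraMap ℂ K c) < 1) (p : ℂ[X]) :
    V (aeval x p - algebraMap ℂ K (p.eval c)) < 1 := by
  have hx1 : V x ≤ 1 := by
    rw [← sub_add_cancel x (algebraMap ℂ K c)]
    exact (V.map_add _ _).trans (max_le hx.le (hV c))
  have h1 : ∀ q : ℂ[X], V (aeval x q) ≤ 1 := fun q => by
    rw [aeval_eq_sum_range]
    refine V.map_sum_le fun i _ => ?_
    rw [Algebra.smul_def, map_mul, map_pow]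
    exact mul_le_one' (hV _) (pow_le_one' hx1 i)
  obtain ⟨q, hq⟩ := X_sub_C_dvd_sub_C_eval (p := p) (a := c)
  have := congrArg (aeval x) hq
  rw [map_sub, map_mul, map_sub, aeval_C, aeval_C, aeval_X] at this
  rw [this, map_mul]
  exact mul_lt_one_of_lt_of_le hx (h1 q)

/-- rational functions of `j` without poles on `ℍ` are polynomials -/
theorem poly_of_hol (hj : ι (xK ℂ T) = jF) (r : RatFunc ℂ)
    (hr : ∀ z, vM z (ι (algebraMap (RatFunc ℂ) T r) : Mer) ≤ 1) :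
    ∃ p : ℂ[X], algebraMap (RatFunc ℂ) T r = aeval (xK ℂ T) p := by
  by_cases hd : r.denom.degree = 0
  · refine ⟨r.num, ?_⟩
    rw [← algebraMap_poly]
    congr 1
    conv_lhs => rw [← RatFunc.num_div_denom r, (r.monic_denom.degree_le_zero_iff_eq_one).1 hd.le]
    simp
  exfalso
  obtain ⟨c, hc⟩ := IsAlgClosed.exists_root r.denom hd
  obtain ⟨z, hz⟩ := exists_vM_jF c
  let V : Valuation FF ℤᵐ⁰ := (vM z).comap FF.subtype
  have hV1 : ∀ c : ℂ, c ≠ 0 → V (algebraMap ℂ FF c) = 1 := fun c hc => vM_const z hc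
  have hV : ∀ c : ℂ, V (algebraMap ℂ FF c) ≤ 1 := fun c => by
    by_cases h : c = 0
    · simp [h]
    · exact (hV1 c h).le
  have h1 := val_aeval_sub V hV hz r.denom
  rw [hc.eq_zero, map_zero, sub_zero] at h1
  have hn : r.num.eval c ≠ 0 := fun e => by
    obtain ⟨a, b, hab⟩ := r.isCoprime_num_denom
    have := congrArg (eval c) hab
    simp [e, hc.eq_zero] at this
  have h2 : V (aeval jF r.num) = 1 := by
    rw [← hV1 _ hn]
    exact Valuation.map_eq_of_sub_lt _ (by rw [hV1 _ hn]; exact val_aeval_sub V hV hz r.num)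
  have h3 : V (ι (algebraMap (RatFunc ℂ) T r)) ≤ 1 := hr z
  have h4 : ι (algebraMap (RatFunc ℂ) T r) * aeval jF r.denom = aeval jF r.num := by
    rw [← hj, aeval_algHom_apply, aeval_algHom_apply, ← map_mul, ← algebraMap_poly,
      ← algebraMap_poly, ← map_mul]
    congr 2
    exact ((div_eq_iff (by simpa using r.denom_ne_zero)).1 r.num_div_denom).symm
  have h5 := mul_lt_one_of_lt_of_le h1 h3
  rw [← map_mul, mul_comm, h4, h2] at h5
  exact lt_irrefl _ h5

variable {k κ : Type*} [Field k] [IsAlgClosed k] [Field κ] [Algebra k κ] {r : ℂ → k}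
  {wT : Valuation T ℝ≥0} {ρ : T → κ}

theorem rd_C' (hr : IsRes v r) (c : ℂ) : rd hr (HahnSeries.C c) = HahnSeries.C (r c) := by
  ext g
  rw [rd_coeff, HahnSeries.C_apply, HahnSeries.C_apply, HahnSeries.coeff_single,
    HahnSeries.coeff_single]
  split_ifs
  · rfl
  · exact hr.zero

/-- `exists_psi` with constants -/
theorem exists_psi' (hG : IsG v qx w) (hw : ∀ x, wT x = w (ι x)) (hT : Red v r wT ρ) :
    ∃ ψ : κ →+* HS k, (∀ c, ψ (algebraMap k κ c) = HahnSeries.C c) ∧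
      ∀ (x : T) (a b : HS ℂ), IntS v a → UnS v b → qx (ι x) * b = a →
      ψ (ρ x) * rd hT.resC b = rd hT.resC a := by
  obtain ⟨ψ, hψ⟩ := exists_psi hG hT.resC hw hT.res
  refine ⟨ψ, fun c => ?_, fun x a b ha hb e => (hψ x a b ha hb e).2⟩
  obtain ⟨c, hc, rfl⟩ := hT.resC.surj c
  have := (hψ (algebraMap ℂ T c) _ 1 (IntS.one.C_mul hc) UnS.one (by
    rw [AlgHom.commutes, qx_algebraMap])).2
  rwa [hT.comp c hc, rd_one, mul_one, mul_one, rd_C'] at this

theorem res_j_notMem (hj : ι (xK ℂ T) = jF) (hG : IsG v qx w) (hw : ∀ x, wT x = w (ι x))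
    (hT : Red v r wT ρ) : ρ (xK ℂ T) ∉ Set.range (algebraMap k κ) := by
  rintro ⟨c, hc⟩
  obtain ⟨ψ, h1, h2⟩ := exists_psi' hG hw hT
  have := h2 _ _ _ unS_e43.1 unS_dl (by rw [hj, qx_jF])
  rw [← hc, h1] at this
  have := congrArg (fun y : HS k => y.coeff 0) this
  simp only [HahnSeries.C_mul_eq_smul, HahnSeries.coeff_smul, rd_coeff, qf_dl_zero, qf_e43_zero,
    hT.resC.zero, hT.resC.one, smul_zero] at this
  exact zero_ne_one this

/-- **the decomposition group is everything** -/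
theorem w_sl [FiniteDimensional (RatFunc ℂ) T] [IsGalois (RatFunc ℂ) T] (hM : M ≠ 0)
    (hv : v (M : ℂ) = 1) (h : Lvl M ι) (hG : IsG v qx w) (hw : ∀ x, wT x = w (ι x))
    (hT : Red v r wT ρ) (γ : SL(2, ℤ)) (x : T) : w (γ • ι x) = w (ι x) := by
  let S : Subgroup SL(2, ℤ) :=
    { carrier := {γ | ∀ x : T, w (γ • ι x) = w (ι x)}
      one_mem' := fun x => by rw [one_smul]
      mul_mem' := fun {a b} ha hb x => by
        obtain ⟨y, hy⟩ := h.exists_smul b x
        rw [mul_smul, ← hy, ha, hy, hb]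
      inv_mem' := fun {a} ha x => by
        obtain ⟨y, hy⟩ := h.exists_smul a⁻¹ x
        rw [← hy, ← ha, hy, smul_inv_smul] }
  have hS : S = ⊤ := by
    refine DGrp.eq_top M (Nat.pos_of_ne_zero hM) S (fun δ hδ y => by rw [h.lev y hδ])
      (S.inv_mem_iff.1 fun y => ?_) fun p hp hpM => ?_
    · rw [sl_smul, map_inv]
      exact w_upper hG (by rw [sq_apply]; simp [ModularGroup.T]) _
    by_contra hc
    push Not at hc
    have hvp : v (p : ℂ) = 1 := by
      have := v_eq_one_of_dvd (v := v) (Int.natCast_dvd_natCast.2 hpM) (by exact_mod_cast hv)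
      exact_mod_cast this
    obtain ⟨u, hu⟩ := (h.mem (UU (dg p))).2 fun δ hδ => smul_UU_dg hp.pos
      ((Int.natCast_dvd_natCast.2 hpM).trans
        ((ZMod.intCast_zmod_eq_zero_iff_dvd _ M).1 (Gamma_mem.1 hδ).2.2.1))
    let A : Subring T :=
      { carrier := {x | ∀ z, vM z (ι x : Mer) ≤ 1}
        one_mem' := fun z => by simp
        zero_mem' := fun z => by simp
        mul_mem' := fun {a b} ha hb z => by
          rw [map_mul, IntermediateField.coe_mul, map_mul]; exact mul_le_one' (ha z) (hb z)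
        add_mem' := fun {a b} ha hb z => by
          rw [map_add, IntermediateField.coe_add]
          exact (Valuation.map_add _ _ _).trans (max_le (ha z) (hb z))
        neg_mem' := fun {a} ha z => by
          rw [map_neg, IntermediateField.coe_neg, Valuation.map_neg]; exact ha z }
    have hcon : ∀ g : T ≃ₐ[RatFunc ℂ] T, wT (g u) = 1 := fun g => by
      obtain ⟨δ, hδ⟩ := h.gal g
      rw [hw, hδ, hu, w_smul_UU hG hp.pos hvp]
    obtain ⟨c, hc'⟩ := const_of_unit hT (by rw [hw, h.xj, w_jF hG]) (res_j_notMem h.xj hG hw hT) A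
      (fun g a ha z => by
        obtain ⟨δ, hδ⟩ := h.gal g
        rw [hδ, ← inv_inv δ, sl_smul, map_inv, Mf.coe_smul, vM_inv_smul]
        exact ha _)
      (fun a ha hfix => by
        obtain ⟨s, rfl⟩ := (IsGalois.mem_range_algebraMap_iff_fixed (F := RatFunc ℂ) a).2 hfix
        exact poly_of_hol h.xj s ha)
      (y := u) (fun z => by rw [hu, vM_UU])
      (fun z => by rw [map_inv₀, IntermediateField.coe_inv, map_inv₀, hu, vM_UU, inv_one]) hcon
      (fun g hg => by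
        obtain ⟨δ, hδ⟩ := h.gal g
        apply (ι : T →+* FF).injective
        change ι (g u) = ι u
        rw [hδ, hu]
        exact smul_UU_dg hp.pos (hc δ fun y => by rw [← hδ, ← hw, ← hw, hg]))
    obtain ⟨ψ, h1, h2⟩ := exists_psi' hG hw hT
    have hp' : 0 < (p : ℤ) * 1 - 0 * 0 := by simpa using hp.pos
    have hg : (dg p : GL (Fin 2) ℚ) 1 0 = 0 := by rw [dg, gm_apply hp']; simp
    have hj : v (jf 12 (dg p) UpperHalfPlane.I) = 1 := v_jf (by simpa using hp.pos) (by simpa using hvp)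
    have h3 := h2 u _ _ (((unS_dl.tw _).sc (upper_pos hg)).1.C_mul hj.le) unS_dl
      (by rw [hu]; exact qx_UU hg)
    have h4 : (qf dl).coeff (1 / ((dg p : GL (Fin 2) ℚ) 0 0 / (dg p : GL (Fin 2) ℚ) 1 1)) = 0 := by
      by_contra hne
      obtain ⟨n, hn⟩ := lev_qf one_ne_zero isF_dl _ hne
      rw [dg, gm_apply hp', gm_apply hp'] at hn
      have hp0 : (p : ℚ) ≠ 0 := Nat.cast_ne_zero.2 hp.ne_zero
      have : (p : ℚ) * n = 1 := by
        simp at hn
        rw [← hn, mul_inv_cancel₀ hp0]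
      exact hp.ne_one (Nat.eq_one_of_mul_eq_one_right (by exact_mod_cast this))
    rw [← hc', h1] at h3
    have h5 := congrArg (fun y : HS k => y.coeff 1) h3
    simp only [HahnSeries.C_mul_eq_smul, HahnSeries.coeff_smul, rd_coeff, qf_dl_one,
      coeff_sc (upper_pos hg), coeff_tw, h4, hT.resC.zero, hT.resC.one, smul_eq_mul, mul_zero,
      mul_one] at h5
    have h6 := (hT.res.ne_zero_iff (hcon 1).le).2 (hcon 1)
    rw [AlgEquiv.one_apply, ← hc', h5, map_zero] at h6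
    exact h6 rfl
  exact (show γ ∈ S from hS ▸ Subgroup.mem_top γ) x

end Crest.Agent.T15.Ig
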