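import Mathlib
import Crest.Agent.T15.IgL_61
import Crest.Agent.T15.MfC_79
import Crest.Agent.T15.Lv_10

/-!
# Row 15, block T (helper61), Igusa part M: `F (Γ₁(4)) = ℂ(t)`
-/

set_option autoImplicit false
set_option linter.unusedSectionVars false

noncomputable section

namespace Crest.Agent.T15.Ig

open UpperHalfPlane ModularForm CongruenceSubgroup Polynomial WithZero Module
open scoped MatrixGroups NNReal IntermediateField
open Crest.Agent.T15.Mf
open Crest.Agent.R013.RR7_948 Crest.Agent.R013.RR8_948 Crest.Agent.R013.RR9_948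
open Crest.Agent.R013.RR11_948 Crest.Agent.R013.RR12_948 Crest.Agent.R013.RR20_948
open Crest.Agent.R013.GR2_921 (exists_const)

section general

variable {k : Type*} [Field k] [IsAlgClosed k] {K : Type*} [Field K] [Algebra k K]
  [Algebra (RatFunc k) K] [IsScalarTower k (RatFunc k) K] [FiniteDimensional (RatFunc k) K]
  [Algebra.IsSeparable (RatFunc k) K] {t : K}

theorem RelJ.finrank_eq (h2 : (2 : k) ≠ 0) (h : RelJ (xK k K) t) :
    (finrank (RatFunc k) K : ℤ) = 6 * degD (poles (k := k) t) := by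
  have h0 := left_ne_zero_of_mul (h.mul_ne h2)
  have h1 : 1 - t ≠ 0 := fun e => right_ne_zero_of_mul (h.mul_ne h2) (by linear_combination -e)
  have e : poles (k := k) (xK k K) = poles t + poles t + poles t + poles t + poles t + poles t +
      divf t + divf (1 - t) := by
    ext P
    have := h.ord h2 P
    simp only [Finsupp.add_apply, poles_apply]
    omega
  have e' := congrArg degD e
  simp only [degD_add, degD_divf h0, degD_divf h1, degD_poles_xK] at e'
  linarith

theorem RelJ.six_le (h2 : (2 : k) ≠ 0) (h : RelJ (xK k K) t) : 6 ≤ finrank (RatFunc k) K := by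
  have h1 := h.finrank_eq h2
  have h3 : 0 < finrank (RatFunc k) K := Module.finrank_pos
  omega

/-- if a rational function of `t` is a uniformiser at a place where `t` is finite, so is `t - c` -/
theorem unif_of_rat (P : Pl k K) (ht : P.v t ≤ 1) {p q : k[X]}
    (h : P.v (aeval t p / aeval t q) = exp (-1)) :
    ∃ c : k, P.v (t - algebraMap k K c) = exp (-1) := by
  obtain ⟨c, hc⟩ := exists_const P ht
  refine ⟨c, ?_⟩
  have hle : ∀ a : k, P.v (algebraMap k K a) ≤ 1 := fun a => by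
    by_cases ha : a = 0
    · simp [ha]
    · exact (P.const a ha).le
  have h1 : ∀ q : k[X], P.v (aeval t q) ≤ 1 := fun q => by
    rw [aeval_eq_sum_range]
    refine P.v.map_sum_le fun i _ => ?_
    rw [Algebra.smul_def, map_mul, map_pow]
    exact mul_le_one' (hle _) (pow_le_one' ht i)
  have key : ∀ p : k[X], p ≠ 0 → ∃ n : ℕ, P.v (aeval t p) = P.v (t - algebraMap k K c) ^ n := by
    intro p hp
    obtain ⟨s, hs, hs'⟩ := exists_eq_pow_rootMultiplicity_mul_and_not_dvd p hp c
    refine ⟨p.rootMultiplicity c, ?_⟩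
    have hv : P.v (aeval t s) = 1 := by
      have hn : s.eval c ≠ 0 := fun e => hs' (dvd_iff_isRoot.2 e)
      obtain ⟨u, hu⟩ := X_sub_C_dvd_sub_C_eval (p := s) (a := c)
      have := congrArg (aeval t) hu
      rw [map_sub, map_mul, map_sub, aeval_C, aeval_C, aeval_X] at this
      rw [← P.const _ hn]
      refine Valuation.map_eq_of_sub_lt _ ?_
      rw [this, map_mul, P.const _ hn]
      exact mul_lt_one_of_lt_of_le hc (h1 u)
    conv_lhs => rw [hs]
    rw [map_mul, map_mul, hv, mul_one, map_pow, map_pow, map_sub, aeval_X, aeval_C]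
  have hp : p ≠ 0 := by rintro rfl; simp at h; exact exp_ne_zero h.symm
  have hq : q ≠ 0 := by rintro rfl; simp at h; exact exp_ne_zero h.symm
  obtain ⟨m, hm⟩ := key p hp
  obtain ⟨n, hn⟩ := key q hq
  rw [map_div₀, hm, hn] at h
  by_cases h0 : t - algebraMap k K c = 0
  · exfalso
    rw [h0, map_zero] at h
    rcases Nat.eq_zero_or_pos m with rfl | hm0
    · rcases Nat.eq_zero_or_pos n with rfl | hn0
      · rw [pow_zero, div_one, ← exp_zero, exp_inj] at h
        omega
      · rw [zero_pow hn0.ne', div_zero] at h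
        exact exp_ne_zero h.symm
    · rw [zero_pow hm0.ne', zero_div] at h
      exact exp_ne_zero h.symm
  rw [v_eq h0, ← exp_zero, exp_lt_exp] at hc
  rw [v_eq h0, ← exp_nsmul, ← exp_nsmul, ← exp_sub, exp_inj, nsmul_eq_mul, nsmul_eq_mul] at h
  rw [v_eq h0, exp_inj, neg_inj]
  exact Int.eq_one_of_mul_eq_one_right (b := (m : ℤ) - n) (by omega) (by linarith)

end general

theorem mem_pm_G4 {γ : SL(2, ℤ)} (h : ((γ 1 0 : ℤ) : ZMod 4) = 0) : γ ∈ pm (Gamma1 4) := by
  have hd := γ.det_coe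
  rw [Matrix.det_fin_two] at hd
  have h1 := congrArg (Int.cast : ℤ → ZMod 4) hd
  push_cast at h1
  rw [h, mul_zero, sub_zero] at h1
  have key : ∀ a d : ZMod 4, a * d = 1 → (a = 1 ∧ d = 1) ∨ (-a = 1 ∧ -d = 1) := by decide
  rw [mem_pm, Gamma1_mem, Gamma1_mem]
  rcases key _ _ h1 with ⟨a, b⟩ | ⟨a, b⟩
  · exact Or.inl ⟨a, b, h⟩
  · exact Or.inr ⟨by simpa using a, by simpa using b, by simpa using h⟩

theorem index_G4 : (pm (Gamma1 4)).index ≤ 6 := by
  let r : Fin 6 → SL(2, ℤ) :=
    ![⟨!![1, 0; 0, 1], by simp⟩, ⟨!![1, 0; 1, 1], by simp⟩, ⟨!![1, 0; 2, 1], by simp⟩,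
      ⟨!![1, 0; 3, 1], by simp⟩, ⟨!![0, -1; 1, 0], by simp⟩, ⟨!![2, -1; 1, 0], by simp⟩]
  have hs : Function.Surjective fun i => (r i : SL(2, ℤ) ⧸ pm (Gamma1 4)) := by
    intro x
    obtain ⟨γ, rfl⟩ := QuotientGroup.mk_surjective x
    have hd := γ.det_coe
    rw [Matrix.det_fin_two] at hd
    have h1 := congrArg (Int.cast : ℤ → ZMod 4) hd
    push_cast at h1
    have key : ∀ a b c d : ZMod 4, a * d - b * c = 1 → c = 0 ∨ -a + c = 0 ∨ -(2 * a) + c = 0 ∨
        -(3 * a) + c = 0 ∨ a = 0 ∨ -a + 2 * c = 0 := by decide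
    have h2 : ∀ i, -((r i 1 0 : ℤ) * (γ 0 0 : ℤ) : ZMod 4) + (r i 0 0 : ℤ) * (γ 1 0 : ℤ) = 0 →
        ∃ i, (r i : SL(2, ℤ) ⧸ pm (Gamma1 4)) = γ := fun i hi =>
      ⟨i, QuotientGroup.eq.2 (mem_pm_G4 (by
        rw [← hi, Lv.mul_apply, (Lv.inv_apply (r i)).2.2.1, (Lv.inv_apply (r i)).2.2.2]
        push_cast; ring))⟩
    rcases key _ _ _ _ h1 with h | h | h | h | h | h
    · exact h2 0 (by simpa [r] using h)
    · exact h2 1 (by simpa [r] using h)
    · exact h2 2 (by simpa [r] using h)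
    · exact h2 3 (by simpa [r] using h)
    · exact h2 4 (by simpa [r] using h)
    · exact h2 5 (by simpa [r] using h)
  simpa [Subgroup.index] using Nat.card_le_card_of_surjective _ hs

theorem jF_eq : jF = jj := rfl

theorem tt_mem {Γ : Subgroup SL(2, ℤ)} (h : Γ ≤ Gamma1 4) : tt ∈ F Γ := fun _ hγ => tt_inv (h hγ)

theorem coe_xK (K : IntermediateField (RatFunc ℂ) FF) : ((xK ℂ K : K) : FF) = jF := algebraMap_X

theorem relJ_of_mem {K : IntermediateField (RatFunc ℂ) FF} (h : tt ∈ K) :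
    RelJ (xK ℂ K) (⟨tt, h⟩ : K) := K.subtype.injective (by
  simp only [map_mul, map_sub, map_add, map_pow, map_one, map_ofNat]
  have := relJ_tt
  rw [← coe_xK K] at this
  exact this)

theorem adjoin_tt : (RatFunc ℂ)⟮tt⟯ = F (Gamma1 4) := by
  have hle : (RatFunc ℂ)⟮tt⟯ ≤ F (Gamma1 4) :=
    IntermediateField.adjoin_simple_le_iff.2 (tt_mem le_rfl)
  have : FiniteDimensional (RatFunc ℂ) (RatFunc ℂ)⟮tt⟯ := FiniteDimensional.of_injective
    (IntermediateField.inclusion hle).toLinearMap (IntermediateField.inclusion_injective hle)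
  refine IntermediateField.eq_of_le_of_finrank_le hle ?_
  rw [finrank_F (Gamma1_is_congruence 4)]
  exact index_G4.trans ((relJ_of_mem (IntermediateField.mem_adjoin_simple_self _ tt)).six_le
    two_ne_zero)

/-- **`t` is a Hauptmodul** -/
theorem mem_adjoin_tt {x : FF} (hx : x ∈ F (Gamma1 4)) : x ∈ ℂ⟮tt⟯ := by
  rw [← adjoin_tt] at hx
  have ht := IntermediateField.mem_adjoin_simple_self ℂ tt
  have hj : jj ∈ ℂ⟮tt⟯ := by
    have h0 : tt * (tt - 1) ≠ 0 := fun e =>
      (relJ_of_mem (tt_mem le_rfl)).mul_ne (k := ℂ) two_ne_zero (Subtype.ext e)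
    rw [← jF_eq, eq_div_of_mul_eq h0 relJ_tt]
    refine div_mem (mul_mem (ofNat_mem _ 16) (pow_mem (add_mem (sub_mem (mul_mem (ofNat_mem _ 16)
      (pow_mem ht 2)) (mul_mem (ofNat_mem _ 16) ht)) (one_mem _)) 3))
      (mul_mem ht (sub_mem ht (one_mem _)))
  have hp : ∀ p : ℂ[X], aeval jj p ∈ ℂ⟮tt⟯ := fun p => by
    rw [aeval_eq_sum_range]
    exact sum_mem fun i _ => IntermediateField.smul_mem _ (pow_mem hj i)
  induction hx using IntermediateField.adjoin_induction with
  | mem x hx => rw [Set.mem_singleton_iff.1 hx]; exact ht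
  | algebraMap r => rw [algebraMap_RatFunc_eq]; exact div_mem (hp _) (hp _)
  | add x y _ _ hx hy => exact add_mem hx hy
  | inv x _ hx => exact inv_mem hx
  | mul x y _ _ hx hy => exact mul_mem hx hy

theorem exists_rat_tt {x : FF} (hx : x ∈ F (Gamma1 4)) :
    ∃ p q : ℂ[X], x = aeval tt p / aeval tt q :=
  (IntermediateField.mem_adjoin_simple_iff ℂ x).1 (mem_adjoin_tt hx)

end Crest.Agent.T15.Ig
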