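import Mathlib
import Crest.Agent.T15.IgE_61
import Crest.Agent.T15.IgM_61
import Crest.Agent.T15.Gw_84
import Crest.Agent.T15.Disc_71

/-!
# Row 15, block T (helper61), Igusa part F: assembly from the cusp statement
-/

set_option autoImplicit false
set_option linter.unusedSectionVars false

noncomputable section

namespace Crest.Agent.T15.Ig

open UpperHalfPlane ModularForm CongruenceSubgroup Polynomial WithZero Module
open scoped MatrixGroups NNReal IntermediateField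
open Crest.Agent.T15.Mf Crest.Agent.T15.Cg Crest.Agent.T15.Bet
open Crest.Agent.R013.RR7_948 Crest.Agent.R013.RR8_948 Crest.Agent.R013.RR9_948
open Crest.Agent.R013.RR11_948 Crest.Agent.R013.RR12_948 Crest.Agent.R013.RR13_948
open Crest.Agent.R013.RR18_948 Crest.Agent.R013.RR19_948 Crest.Agent.R013.RR20_948
open Crest.Agent.R013.RR21_948 Crest.Agent.R013.RR22_948
open Crest.Agent.R013.GR3_921 Crest.Agent.R013.GR4_921
open Crest.Agent.R013.GR2_921 (exists_const)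
open Crest.Agent.R013.RR28_948 (ratFunc_finite)

instance tower_F (Γ : Subgroup SL(2, ℤ)) : IsScalarTower ℂ (F Γ) FF :=
  IsScalarTower.of_algebraMap_eq fun _ => rfl

/-- the valuation at a point of `ℍ` -/
def vZ (Γ : Subgroup SL(2, ℤ)) (z : ℍ) : Valuation (F Γ) ℤᵐ⁰ :=
  (vM z).comap ((algebraMap FF Mer).comp (algebraMap (F Γ) FF))

theorem vZ_apply (Γ : Subgroup SL(2, ℤ)) (z : ℍ) (x : F Γ) : vZ Γ z x = vM z ((x : FF) : Mer) := rfl

theorem le_exp_neg_one {x : ℤᵐ⁰} (h : x < 1) : x ≤ exp (-1) := by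
  by_cases h0 : x = 0
  · simp [h0]
  · rw [← exp_log h0, ← exp_zero, exp_lt_exp] at h
    rw [← exp_log h0, exp_le_exp]
    omega

/-- the inclusion of `F Γ` -/
def iF (Γ : Subgroup SL(2, ℤ)) : F Γ →ₐ[ℂ] FF := IsScalarTower.toAlgHom ℂ (F Γ) FF

theorem iF_apply (Γ : Subgroup SL(2, ℤ)) (x : F Γ) : iF Γ x = x := rfl

theorem lvl_F (M : ℕ) [NeZero M] : Lvl M (iF (Gamma M)) where
  mem x := ⟨fun ⟨y, hy⟩ => hy ▸ y.2, fun h => ⟨⟨x, h⟩, rfl⟩⟩
  xj := coe_xK (F (Gamma M))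
  gal g := by
    obtain ⟨γ, rfl⟩ := act_surjective (Gamma M) g
    exact ⟨γ, fun x => coe_act _ γ x⟩

/-- the places of `F (Γ(M))` where `j` is finite come from points of `ℍ` -/
theorem exists_point (M : ℕ) [NeZero M] (R : Pl ℂ (F (Gamma M)))
    (hR : R.v (xK ℂ (F (Gamma M))) ≤ 1) :
    ∃ z : ℍ, R.v.IsEquiv (vZ (Gamma M) z) := by
  obtain ⟨c, hc⟩ := exists_const R hR
  obtain ⟨z, hz⟩ := exists_vM_jF c
  have h0 : xK ℂ (F (Gamma M)) - algebraMap ℂ _ c ≠ 0 := fun e =>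
    transcendental_xK (k := ℂ) (K := F (Gamma M)) (by
      rw [sub_eq_zero.1 e]; exact isAlgebraic_algebraMap c)
  have hz' : (vZ (Gamma M) z)
      (xK ℂ (F (Gamma M)) - algebraMap ℂ _ c) < 1 := by
    rw [vZ_apply, AddSubgroupClass.coe_sub, coe_xK]
    exact hz
  obtain ⟨Q, hQ⟩ := exists_place (k := ℂ) (vZ (Gamma M) z)
    (fun c hc => vM_const z hc) ⟨_, (Valuation.ne_zero_iff _).2 h0, hz'.ne⟩
  have e : ∀ S : Pl ℂ (F (Gamma M)), S.v (xK ℂ (F (Gamma M)) - algebraMap ℂ _ c) < 1 →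
      (under (RatFunc ℂ) S).v (RatFunc.X - RatFunc.C c) < 1 := fun S hS => by
    rw [under_lt_one_iff, map_sub, ← RatFunc.algebraMap_eq_C, ← IsScalarTower.algebraMap_apply]
    exact hS
  obtain ⟨g, hg⟩ := exists_mapPl_eq (eq_of_lt_fin c (e Q (hQ.lt_one_iff_lt_one.2 hz')) (e R hc))
  obtain ⟨γ, rfl⟩ := act_surjective (Gamma M) g⁻¹ |>.imp fun γ h => inv_eq_iff_eq_inv.1 h.symm
  refine ⟨rr (Mf.sq γ)⁻¹ • z, fun x y => ?_⟩
  have key : ∀ x : F (Gamma M), vZ (Gamma M) (rr (Mf.sq γ)⁻¹ • z) x =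
      vZ (Gamma M) z (act (Gamma M) γ x) := fun x => by
    rw [vZ_apply, vZ_apply, ← vM_inv_smul, inv_inv, coe_act, sl_smul, Mf.coe_smul]
  rw [key, key, ← hg]
  exact hQ _ _

/-- **`F Γ / ℂ(t)` is unramified outside the cusps** -/
theorem hunr_F {Γ : Subgroup SL(2, ℤ)} {M : ℕ} [NeZero M] [Γ.FiniteIndex] (hle : Gamma M ≤ Γ)
    (h4 : Γ ≤ Gamma1 4) (P : Pl ℂ (F Γ)) (hP : P.v (xK ℂ (F Γ)) ≤ 1) :
    ∃ c : ℂ, P.v ((⟨tt, tt_mem h4⟩ : F Γ) - algebraMap ℂ _ c) = exp (-1) := by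
  have : Fact (Gamma M ≤ Γ) := ⟨hle⟩
  obtain ⟨R, hR⟩ := above_nonempty (L := F (Gamma M)) P
  rw [mem_above] at hR
  obtain ⟨z, hz⟩ := exists_point M R (by
    rw [← hR, under_le_one_iff] at hP
    exact hP)
  obtain ⟨x, hx, hxz⟩ := exists_unif z
  obtain ⟨p, q, hpq⟩ := exists_rat_tt (x := x) hx
  let x' : F Γ := ⟨x, fun γ hγ => hx γ (h4 hγ)⟩
  have h1 : P.v x' = exp (-1) := by
    obtain ⟨s, hs0, hs⟩ := exists_v_eq P (-1)
    have a1 : R.v (algebraMap _ _ s) < 1 := by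
      rw [← under_lt_one_iff, hR, hs, ← exp_zero, exp_lt_exp]; norm_num
    have a2 := hz.lt_one_iff_lt_one.1 a1
    have a3 : R.v (algebraMap _ _ s) ≤ R.v (algebraMap _ _ x') := by
      rw [hz]
      change _ ≤ vM z (x : Mer)
      rw [hxz]
      exact le_exp_neg_one a2
    have a4 : R.v (algebraMap _ _ x') < 1 := by
      rw [hz.lt_one_iff_lt_one]
      change vM z (x : Mer) < 1
      rw [hxz, ← exp_zero, exp_lt_exp]; norm_num
    rw [← under_lt_one_iff, hR] at a4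
    have a5 : P.v s ≤ P.v x' := by
      rw [← hR]; exact ((under_isEquiv R) _ _).2 a3
    exact le_antisymm (le_exp_neg_one a4) (hs ▸ a5)
  have ht : P.v (⟨tt, tt_mem h4⟩ : F Γ) ≤ 1 := by
    rcases (relJ_of_mem (tt_mem h4)).cases P.v (v_sixteen two_ne_zero P) with h | h | h | h
    · exact h.1.le
    · exact h.1.le
    · exact absurd (h.2.2 ▸ hP) (not_le.2 (one_lt_pow' h.1 (by norm_num)))
    · exact h.1.le
  refine unif_of_rat P ht (p := p) (q := q) ?_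
  rw [← h1]
  congr 1
  apply (iF Γ : F Γ →+* FF).injective
  change iF Γ _ = x
  rw [map_div₀, ← aeval_algHom_apply, ← aeval_algHom_apply, hpq]
  rfl

/-- the statement about the cusp `∞` -/
def CuspAt (M : ℕ) [NeZero M] {v : Valuation ℂ ℝ≥0} {k κ : Type*} [Field k] [IsAlgClosed k] [Field κ]
    [Algebra k κ] [Algebra (RatFunc k) κ] {r : ℂ → k} {ρ : F (Gamma M) → κ}
    (hT : Red v r (gwK v (F (Gamma M))) ρ)
    (hinv : ∀ (g : F (Gamma M) ≃ₐ[RatFunc ℂ] F (Gamma M)) f,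
      gwK v (F (Gamma M)) (g f) = gwK v (F (Gamma M)) f) : Prop :=
  ∃ (Q : Pl ℂ (F (Gamma M))) (Q' : Pl k κ), 1 < Q.v (xK ℂ (F (Gamma M))) ∧ 1 < Q'.v (xK k κ) ∧
    ∀ g : F (Gamma M) ≃ₐ[RatFunc ℂ] F (Gamma M), mapPl (g.restrictScalars ℂ) Q = Q →
      mapPl (bar hT (g.restrictScalars ℂ) (hinv g)) Q' = Q'

universe u

/-- the cusp statement -/
def CuspStmt (k : Type u) [Field k] [IsAlgClosed k] : Prop :=
  ∀ (M : ℕ) [NeZero M] (v : Valuation ℂ ℝ≥0) (r : ℂ → k) (κ : Type u) [Field κ] [Algebra k κ]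
    [Algebra (RatFunc k) κ] [IsScalarTower k (RatFunc k) κ] [FiniteDimensional (RatFunc k) κ]
    [Algebra.IsSeparable (RatFunc k) κ] (ρ : F (Gamma M) → κ)
    (hT : Red v r (gwK v (F (Gamma M))) ρ) (_ : xK k κ = ρ (xK ℂ (F (Gamma M))))
    (hinv : ∀ (g : F (Gamma M) ≃ₐ[RatFunc ℂ] F (Gamma M)) f,
      gwK v (F (Gamma M)) (g f) = gwK v (F (Gamma M)) f),
    CuspAt M hT hinv

attribute [-instance] HahnSeries.powerSeriesAlgebra in
theorem exists_red (Γ : Subgroup SL(2, ℤ)) {v : Valuation ℂ ℝ≥0} {k : Type u} [Field k] {r : ℂ → k}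
    (hr : IsRes v r) : ∃ (κ : Type u) (_ : Field κ) (_ : Algebra k κ) (ρ : F Γ → κ),
      Red v r (gwK v (F Γ)) ρ := ⟨kapF (F Γ) hr, _, _, _, redF (F Γ) hr⟩

variable {v : Valuation ℂ ℝ≥0} {k : Type u} {κL : Type*} [Field k] [IsAlgClosed k] [Field κL] [Algebra k κL]
  {r : ℂ → k} {Γ : Subgroup SL(2, ℤ)} [Γ.FiniteIndex] {M : ℕ} {ρL : F Γ → κL}

theorem gwK_xK (Γ : Subgroup SL(2, ℤ)) : gwK v (F Γ) (xK ℂ (F Γ)) = 1 := by
  rw [gwK_apply]
  exact (congrArg (gw v) (coe_xK (F Γ))).trans (w_jF (isG v))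

theorem res_xK_notMem (hL : Red v r (gwK v (F Γ)) ρL) :
    ρL (xK ℂ (F Γ)) ∉ Set.range (algebraMap k κL) :=
  res_j_notMem (ι := iF Γ) (coe_xK (F Γ)) (isG v) (fun _ => rfl) hL

theorem gwK_inv [NeZero M] (hv : v (M : ℂ) = 1) (hr : IsRes v r)
    (g : F (Gamma M) ≃ₐ[RatFunc ℂ] F (Gamma M)) (f : F (Gamma M)) :
    gwK v (F (Gamma M)) (g f) = gwK v (F (Gamma M)) f := by
  obtain ⟨γ, hγ⟩ := (lvl_F M).gal g
  obtain ⟨κ, _, _, ρ, hT⟩ := exists_red (Gamma M) hr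
  exact (congrArg (gw v) (hγ f)).trans
    (w_sl (NeZero.ne M) hv (lvl_F M) (isG v) (fun _ => rfl) hT γ f)

theorem gen_F_of (hC : CuspStmt k) [Algebra (RatFunc k) κL] [IsScalarTower k (RatFunc k) κL]
    (h4 : 4 ∣ M) (hv : v (M : ℂ) = 1) (hle : Gamma M ≤ Γ) (hΓ : Γ ≤ Gamma1 4)
    (hL : Red v r (gwK v (F Γ)) ρL) (hx : xK k κL = ρL (xK ℂ (F Γ)))
    {l : ℕ} (hl : l.Prime) (hvl : v (l : ℂ) < 1) :
    ∃ (_ : FiniteDimensional (RatFunc k) κL) (_ : Algebra.IsSeparable (RatFunc k) κL),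
      gen k κL = gen ℂ (F Γ) ∧ finrank (RatFunc k) κL = finrank (RatFunc ℂ) (F Γ) ∧
      (Zr k (xK k κL)⁻¹).card = (Zr ℂ (xK ℂ (F Γ))⁻¹).card := by
  have : NeZero M := ⟨lev_ne hv⟩
  have : Fact (Gamma M ≤ Γ) := ⟨hle⟩
  have : Fact l.Prime := ⟨hl⟩
  have hr := hL.resC
  obtain ⟨κ, _, _, ρ, hT⟩ := exists_red (Gamma M) hr
  have hw : ∀ a : F Γ, gwK v (F (Gamma M)) (algebraMap _ _ a) = gwK v (F Γ) a := fun _ => rfl
  obtain ⟨ψ, hψ⟩ := exists_resLift hL.res (fun a => ρ (algebraMap _ _ a))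
    (fun x y hx hy => by rw [map_add]; exact hT.res.add _ _ hx hy)
    (fun x y hx hy => by rw [map_mul]; exact hT.res.mul _ _ hx hy)
    (by rw [map_one]; exact hT.res.one) (fun x hx => (hT.res.zero_iff _ hx.le).2 hx)
  let _ : Algebra κL κ := ψ.toAlgebra
  have : IsScalarTower k κL κ := IsScalarTower.of_algebraMap_eq fun c => by
    obtain ⟨c, hc, rfl⟩ := hr.surj c
    rw [← hL.comp c hc, ← hT.comp c hc]
    exact (hψ _ (by rwa [hL.norm])).symm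
  let _ : Algebra (RatFunc k) κ :=
    (ψ.comp (algebraMap (RatFunc k) κL)).toAlgebra
  have : IsScalarTower (RatFunc k) κL κ :=
    IsScalarTower.of_algebraMap_eq fun _ => rfl
  have : IsScalarTower k (RatFunc k) κ :=
    IsScalarTower.of_algebraMap_eq fun c => by
      rw [IsScalarTower.algebraMap_apply k κL, IsScalarTower.algebraMap_apply k (RatFunc k) κL]
      rfl
  have h2 : v 2 = 1 := by
    have := v_eq_one_of_dvd (v := v) (a := 2) (b := M)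
      ((by norm_num : (2 : ℤ) ∣ (4 : ℕ)).trans (Int.natCast_dvd_natCast.2 h4)) (by exact_mod_cast hv)
    exact_mod_cast this
  refine gen_res_j hT hL hw (fun a ha => (hψ a ha).symm) (gwK_xK Γ).le hx (gwK_inv hv hr)
    (fun g hg => ?_) h2 (relJ_of_mem (tt_mem hΓ)) (hunr_F hle hΓ) ?_ l hvl
  · obtain ⟨γ, rfl⟩ := act_surjective (Gamma M) g
    rw [← MonoidHom.mem_ker, ker_act (Gamma_is_cong_sub M)]
    exact inert (isG v) h4 hv γ fun f hf hf1 => hg ⟨f, hf⟩ hf1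
  · intro _ _
    refine hC M v r κ ρ hT ?_ (gwK_inv hv hr)
    change ψ (xK k κL) = _
    rw [hx, hψ _ (gwK_xK Γ).le]
    rfl

theorem good_F_of (hC : CuspStmt k) [Algebra (RatFunc k) κL] [IsScalarTower k (RatFunc k) κL]
    (h4 : 4 ∣ M) (hv : v (M : ℂ) = 1) (hle : Gamma M ≤ Γ) (hΓ : Γ ≤ Gamma1 4)
    (hL : Red v r (gwK v (F Γ)) ρL) (hx : xK k κL = ρL (xK ℂ (F Γ)))
    {l : ℕ} (hl : l.Prime) (hvl : v (l : ℂ) < 1) :
    ∃ (_ : FiniteDimensional (RatFunc k) κL) (_ : Algebra.IsSeparable (RatFunc k) κL)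
      (sp : Pl ℂ (F Γ) → Pl k κL), Disc.Good v r (gwK v (F Γ)) ρL sp := by
  obtain ⟨i1, i2, h, -⟩ := gen_F_of hC h4 hv hle hΓ hL hx hl hvl
  have : Fact l.Prime := ⟨hl⟩
  exact ⟨i1, i2, Disc.exists_good hL
    (Crest.Agent.R013.GR9_921.orth hL ⟨_, res_xK_notMem hL⟩ l hvl) h⟩

end Crest.Agent.T15.Ig
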