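import Mathlib
import Crest.Agent.T15.IgE_61

/-!
# Row 15, block T (helper61), Igusa part Q: the cusp `∞` and its reduction
-/

set_option autoImplicit false
set_option linter.unusedSectionVars false

noncomputable section

namespace Crest.Agent.T15.Ig

open UpperHalfPlane ModularForm CongruenceSubgroup Polynomial WithZero
open scoped MatrixGroups NNReal
open Crest.Agent.R007 Crest.Agent.R007.Rat Crest.Agent.T15.Mf Crest.Agent.T15.Bet
open Crest.Agent.T15.Hs Crest.Agent.T15.Cg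
open Crest.Agent.R013.RR7_948 Crest.Agent.R013.RR8_948 Crest.Agent.R013.RR9_948
open Crest.Agent.R013.RR11_948 Crest.Agent.R013.RR12_948 Crest.Agent.R013.RR13_948
open Crest.Agent.R013.RR18_948 Crest.Agent.R013.RR21_948
open Crest.Agent.R013.GR4_921
open Crest.Agent.R013.RR28_948 (ratFunc_infinite)

section order

variable {K : Type*} [Field K]

/-- the order valuation of Hahn series -/
def vO (K : Type*) [Field K] : Valuation (HS K) (Multiplicative (WithTop ℚ)ᵒᵈ) :=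
  AddValuation.toValuation (HahnSeries.addVal ℚ K)

theorem vO_le {x y : HS K} : vO K x ≤ vO K y ↔ y.orderTop ≤ x.orderTop := Iff.rfl

theorem vO_eq {x y : HS K} : vO K x = vO K y ↔ x.orderTop = y.orderTop := by
  rw [le_antisymm_iff, vO_le, vO_le, le_antisymm_iff, and_comm]

theorem vO_C {c : K} (hc : c ≠ 0) : vO K (HahnSeries.C c) = 1 := by
  rw [← map_one (vO K), vO_eq, HahnSeries.C_apply, HahnSeries.orderTop_single hc,
    HahnSeries.orderTop_one]
  rfl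

theorem one_lt_vO {x : HS K} (hx : x ≠ 0) : 1 < vO K x ↔ x.order < 0 := by
  rw [← map_one (vO K), ← not_le, vO_le, HahnSeries.orderTop_one,
    ← HahnSeries.order_eq_orderTop_of_ne_zero hx, WithTop.coe_nonneg, not_le]

theorem vO_lt_one {x : HS K} (hx : x ≠ 0) : vO K x < 1 ↔ 0 < x.order := by
  rw [← map_one (vO K), ← not_le, vO_le, HahnSeries.orderTop_one,
    ← HahnSeries.order_eq_orderTop_of_ne_zero hx, not_le, WithTop.coe_pos]

theorem vO_congr {x y : HS K} (h : ∀ g, x.coeff g = 0 ↔ y.coeff g = 0) : vO K x = vO K y := by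
  have key : ∀ {x y : HS K}, (∀ g, x.coeff g = 0 ↔ y.coeff g = 0) → vO K x ≤ vO K y := by
    intro x y h
    rw [vO_le]
    by_cases hx : x = 0
    · simp [hx]
    rw [← HahnSeries.order_eq_orderTop_of_ne_zero hx]
    exact HahnSeries.orderTop_le_of_coeff_ne_zero fun e =>
      hx (HahnSeries.coeff_order_eq_zero.1 ((h _).2 e))
  exact le_antisymm (key h) (key fun g => (h g).symm)

theorem Lev_order {M : ℕ} {x : HS K} (h : Lev M x) (hx : x ≠ 0) : ∃ n : ℕ, x.order = n / M :=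
  h _ fun e => hx (HahnSeries.coeff_order_eq_zero.1 e)

theorem order_j {x a b : HS K} (e : x * b = a) (ha : Lev 1 a) (hb : Lev 1 b) (a0 : a.coeff 0 ≠ 0)
    (b0 : b.coeff 0 = 0) (b1 : b.coeff 1 ≠ 0) : x ≠ 0 ∧ -1 ≤ x.order ∧ x.order < 0 := by
  have ha0 : a ≠ 0 := fun h => a0 (by simp [h])
  have hb0 : b ≠ 0 := fun h => b1 (by simp [h])
  have hx : x ≠ 0 := fun h => ha0 (by rw [← e, h, zero_mul])
  have h1 := HahnSeries.order_mul hx hb0
  rw [e] at h1
  obtain ⟨m, hm⟩ := Lev_order ha ha0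
  obtain ⟨n, hn⟩ := Lev_order hb hb0
  have h2 := HahnSeries.order_le_of_coeff_ne_zero a0
  have h3 := HahnSeries.order_le_of_coeff_ne_zero b1
  have h4 : b.order ≠ 0 := fun h => hb0 (HahnSeries.coeff_order_eq_zero.1 (h ▸ b0))
  have h5 : 0 ≤ a.order := by rw [hm]; positivity
  have h6 : 0 < b.order := lt_of_le_of_ne (by rw [hn]; positivity) h4.symm
  exact ⟨hx, by linarith, by linarith⟩

end order

theorem order_qx {M : ℕ} (hM : M ≠ 0) {x : FF} (hx : ∀ γ ∈ Gamma M, γ • x = x) (h0 : x ≠ 0) :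
    ∃ n : ℤ, (qx x).order * M = n := by
  obtain ⟨k, A, B, hA, hB, hB0, rfl⟩ := exists_quo_level hx
  have hB' := hB.mono (one_dvd M)
  have hA0 : A ≠ 0 := fun e => h0 ((quo_eq_zero hM hA hB' hB0).2 e)
  have b0 := qf_ne_zero hM hB' hB0
  obtain ⟨m, hm⟩ := Lev_order (lev_qf hM hA) (qf_ne_zero hM hA hA0)
  obtain ⟨n, hn⟩ := Lev_order (lev_qf hM hB') b0
  have h1 := HahnSeries.order_mul (x := qx (quo A B)) (by simpa using h0) b0
  rw [qx_quo hM hA hB', div_mul_cancel₀ _ b0, ← qx_quo hM hA hB', hm, hn] at h1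
  have hM' : (M : ℚ) ≠ 0 := Nat.cast_ne_zero.2 hM
  refine ⟨m - n, ?_⟩
  rw [← sub_eq_iff_eq_add.2 h1]
  push_cast
  field_simp

theorem qx_T (x : FF) : qx (ModularGroup.T⁻¹ • x) = tw (ee 1) (qx x) := by
  rw [sl_smul, map_inv, qx_upper (by rw [sq_apply]; simp [ModularGroup.T]), sq_apply, sq_apply,
    sq_apply]
  simp [ModularGroup.T, sc_one]

theorem mapPl_eq_of {k K : Type*} [Field k] [Field K] [Algebra k K] {σ : K ≃ₐ[k] K} {P : Pl k K}
    (h : ∀ f, P.v (σ f) = P.v f) : mapPl σ P = P := by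
  ext f
  rw [mapPl_v, ← h, σ.apply_symm_apply]

variable {v : Valuation ℂ ℝ≥0} {w : Valuation FF ℝ≥0} {M : ℕ} {T : Type*} [Field T] [Algebra ℂ T]
  [Algebra (RatFunc ℂ) T] [IsScalarTower ℂ (RatFunc ℂ) T] [FiniteDimensional (RatFunc ℂ) T]
  [IsGalois (RatFunc ℂ) T] {ι : T →ₐ[ℂ] FF}

/-- the cusp `∞` : its stabiliser is generated by `T` -/
theorem exists_cusp (hM : M ≠ 0) (h : Lvl M ι)
    (hf : ∀ γ : SL(2, ℤ), (∀ x, γ • ι x = ι x) → γ ∈ Gamma M ∨ -γ ∈ Gamma M)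
    {t : T ≃ₐ[RatFunc ℂ] T} (ht : ∀ x, ι (t x) = ModularGroup.T⁻¹ • ι x) :
    ∃ Q : Pl ℂ T, 1 < Q.v (xK ℂ T) ∧ ∀ g : T ≃ₐ[RatFunc ℂ] T,
      mapPl (g.restrictScalars ℂ) Q = Q → g ∈ Submonoid.powers t := by
  obtain ⟨j0, j1, j2⟩ := order_j qx_jF (lev_qf one_ne_zero isF_e43) (lev_qf one_ne_zero isF_dl)
    (by rw [qf_e43_zero]; exact one_ne_zero) qf_dl_zero (by rw [qf_dl_one]; exact one_ne_zero)
  let V := (vO ℂ).comap (qx.comp (ι : T →+* FF))
  have hV : ∀ x, V x = vO ℂ (qx (ι x)) := fun _ => rfl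
  have hj : 1 < V (xK ℂ T) := by rw [hV, h.xj]; exact (one_lt_vO j0).2 j2
  obtain ⟨Q, hQ⟩ := exists_place (k := ℂ) V
    (fun c hc => by rw [hV, AlgHom.commutes, qx_algebraMap, vO_C hc])
    ⟨_, (zero_lt_one.trans hj).ne', hj.ne'⟩
  have hQj : 1 < Q.v (xK ℂ T) := hQ.one_lt_iff_one_lt.2 hj
  refine ⟨Q, hQj, fun g hg => mem_zpowers_of_fix Q t (mapPl_eq_of fun f => ?_) ?_ hg⟩
  · refine hQ.eq_iff.2 ?_
    change V (t f) = V f
    rw [hV, hV, ht, qx_T]
    exact vO_congr fun g => by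
      rw [coeff_tw, mul_eq_zero, or_iff_right]
      exact Complex.exp_ne_zero _
  have hle : M ≤ orderOf t := by
    have h1 : ∀ (n : ℕ) x, ι ((t ^ n) x) = (ModularGroup.T ^ (-(n : ℤ))) • ι x := fun n => by
      induction n with
      | zero => simp
      | succ n ih =>
        intro x
        rw [pow_succ, AlgEquiv.mul_apply, ih, ht, ← mul_smul, ← zpow_sub_one]
        congr 2
        push_cast; ring
    have h2 := hf _ fun x => by rw [← h1, pow_orderOf_eq_one, AlgEquiv.one_apply]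
    have h3 : ((orderOf t : ℕ) : ZMod M) = 0 := by
      have e : (ModularGroup.T ^ (-(orderOf t : ℤ))) 0 1 = -(orderOf t : ℤ) :=
        congrFun (congrFun (ModularGroup.coe_T_zpow _) 0) 1
      rcases h2 with h2 | h2
      · have := (Gamma_mem.1 h2).2.1
        rw [e] at this
        simpa using this
      · have := (Gamma_mem.1 h2).2.1
        rw [Matrix.SpecialLinearGroup.coe_neg, Matrix.neg_apply, e] at this
        simpa using this
    exact Nat.le_of_dvd (orderOf_pos t) ((ZMod.natCast_eq_zero_iff _ _).1 h3)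
  refine le_trans ?_ hle
  obtain ⟨s, hs0, hs⟩ := exists_v_eq Q (-1)
  have hs1 : qx (ι s) ≠ 0 := by simpa using hs0
  have a1 : 0 < (qx (ι s)).order := (vO_lt_one hs1).1 (hQ.lt_one_iff_lt_one.1 (by
    rw [hs, ← exp_zero, exp_lt_exp]; norm_num))
  obtain ⟨n, hn⟩ := order_qx hM (fun γ hγ => h.lev s hγ) (by simpa using hs0)
  have a2 := v_algebraMap_exp Q (ratFunc_infinite (under (RatFunc ℂ) Q) (by
    rw [← not_le, under_le_one_iff, not_le]; exact hQj)).1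
  have a3 : Q.v (s ^ eR (RatFunc ℂ) Q * xK ℂ T) = Q.v 1 := by
    rw [map_inv₀, map_inv₀, inv_eq_iff_eq_inv] at a2
    rw [map_mul, map_pow, hs, xK, a2, ← exp_nsmul, ← exp_neg, ← exp_add, map_one]
    simp
  have a4 : (qx (ι s) ^ eR (RatFunc ℂ) Q * qx jF).order = 0 := by
    have := hQ.eq_iff.1 a3
    rw [hV, hV, vO_eq, map_mul, map_mul, map_pow, map_pow, h.xj, map_one, map_one,
      HahnSeries.orderTop_one,
      ← HahnSeries.order_eq_orderTop_of_ne_zero (mul_ne_zero (pow_ne_zero _ hs1) j0)] at this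
    exact_mod_cast this
  rw [HahnSeries.order_mul (pow_ne_zero _ hs1) j0, HahnSeries.order_pow, nsmul_eq_mul] at a4
  have hM' : (0 : ℚ) < M := Nat.cast_pos.2 (Nat.pos_of_ne_zero hM)
  have a5 : (1 : ℚ) ≤ n := by
    have : (0 : ℚ) < n := hn ▸ mul_pos a1 hM'
    exact_mod_cast this
  have a6 : (0 : ℚ) ≤ eR (RatFunc ℂ) Q := Nat.cast_nonneg _
  have : (eR (RatFunc ℂ) Q : ℚ) ≤ M := by nlinarith
  exact_mod_cast this

variable {k κ : Type*} [Field k] [IsAlgClosed k] [Field κ] [Algebra k κ] [Algebra (RatFunc k) κ]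
  [IsScalarTower k (RatFunc k) κ] [FiniteDimensional (RatFunc k) κ]
  [Algebra.IsSeparable (RatFunc k) κ] {r : ℂ → k} {wT : Valuation T ℝ≥0} {ρ : T → κ}

theorem lev_rd (hr : IsRes v r) {x : HS ℂ} (h : Lev M x) : Lev M (rd hr x) :=
  fun g hg => h g fun e => hg (by rw [rd_coeff, e, hr.zero])

theorem vO_rd_tw (hr : IsRes v r) {a : HS ℂ} (ha : IntS v a) (b : ℚ) :
    IntS v (tw (ee b) a) ∧ vO k (rd hr (tw (ee b) a)) = vO k (rd hr a) := by
  have e : ∀ g, v ((tw (ee b) a).coeff g) = v (a.coeff g) := fun g => by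
    rw [coeff_tw, map_mul, ee_apply, v_ex, one_mul]
  refine ⟨fun g => (e g).trans_le (ha g), vO_congr fun g => ?_⟩
  rw [rd_coeff, rd_coeff, hr.zero_iff _ (ha g), hr.zero_iff _ ((e g).trans_le (ha g)), e]

/-- **the cusp `∞` and its reduction** -/
theorem cusp (hM : M ≠ 0) (h : Lvl M ι) (hG : IsG v qx w) (hw : ∀ x, wT x = w (ι x))
    (hT : Red v r wT ρ) (hx : xK k κ = ρ (xK ℂ T))
    (hinv : ∀ (g : T ≃ₐ[RatFunc ℂ] T) f, wT (g f) = wT f)
    (hf : ∀ γ : SL(2, ℤ), (∀ x, γ • ι x = ι x) → γ ∈ Gamma M ∨ -γ ∈ Gamma M) :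
    ∃ (Q : Pl ℂ T) (Q' : Pl k κ), 1 < Q.v (xK ℂ T) ∧ 1 < Q'.v (xK k κ) ∧
      ∀ g : T ≃ₐ[RatFunc ℂ] T, mapPl (g.restrictScalars ℂ) Q = Q →
        mapPl (bar hT (g.restrictScalars ℂ) (hinv g)) Q' = Q' := by
  obtain ⟨t, ht⟩ := h.exists_act ModularGroup.T⁻¹
  obtain ⟨Q, hQ, hQ'⟩ := exists_cusp hM h hf ht
  obtain ⟨ψ, h1, h2⟩ := exists_psi' hG hw hT
  have hr := hT.resC
  obtain ⟨j0, -, j2⟩ := order_j (h2 _ _ _ unS_e43.1 unS_dl (by rw [h.xj, qx_jF]))
    (lev_rd _ (lev_qf one_ne_zero isF_e43)) (lev_rd _ (lev_qf one_ne_zero isF_dl))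
    (by rw [rd_coeff, qf_e43_zero, hr.one]; exact one_ne_zero)
    (by rw [rd_coeff, qf_dl_zero, hr.zero]) (by rw [rd_coeff, qf_dl_one, hr.one]; exact one_ne_zero)
  let V := (vO k).comap ψ
  have hV : ∀ x, V x = vO k (ψ x) := fun _ => rfl
  have hj : 1 < V (xK k κ) := by rw [hV, hx]; exact (one_lt_vO j0).2 j2
  obtain ⟨Q', hE⟩ := exists_place (k := k) V (fun c hc => by rw [hV, h1, vO_C hc])
    ⟨_, (zero_lt_one.trans hj).ne', hj.ne'⟩
  have key : ∀ x, wT x ≤ 1 → V (ρ (t x)) = V (ρ x) := fun x hx => by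
    obtain ⟨a, b, ha, hb, e⟩ := hG.int_rep (hw x ▸ hx)
    have e1 := congrArg (vO k) (h2 x a b ha hb e)
    have e2 := congrArg (vO k) (h2 (t x) _ _ (vO_rd_tw hr ha 1).1 (hb.tw 1)
      (by rw [ht, qx_T, ← map_mul, e]))
    rw [map_mul, (vO_rd_tw hr ha 1).2, (vO_rd_tw hr hb.1 1).2, ← e1, map_mul] at e2
    exact mul_right_cancel₀ ((Valuation.ne_zero_iff _).2 ((unS_iff hr).1 hb).2) e2
  refine ⟨Q, Q', hQ, hE.one_lt_iff_one_lt.2 hj, fun g hg => mapPl_eq_of fun z => ?_⟩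
  obtain ⟨n, rfl⟩ := hQ' g hg
  obtain ⟨x, hx, rfl⟩ := hT.res.surj z
  refine (congrArg Q'.v (bar_res hT _ (hinv _) hx)).trans (hE.eq_iff.2 ?_)
  change V (ρ ((t ^ n) x)) = V (ρ x)
  clear hg
  induction n with
  | zero => rfl
  | succ n ih => rw [pow_succ', AlgEquiv.mul_apply, key _ (by rwa [hinv]), ih]

end Crest.Agent.T15.Ig
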