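import Mathlib
import Crest.Agent.T15.IgF_61
import Crest.Agent.T15.IgQ_61
import Crest.Agent.T15.CgJ_84

/-!
# Row 15, block T (helper61): Igusa's theorem on good reduction of modular curves

`gen_F`, `good_F` for `Γ(M) ≤ Γ ≤ Γ₁(4)`, `4 ∣ M`, `M` a `v`-unit; `igStmt`.
-/

set_option autoImplicit false
set_option linter.unusedSectionVars false

noncomputable section

namespace Crest.Agent.T15.Ig

open CongruenceSubgroup Module
open scoped MatrixGroups NNReal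
open Crest.Agent.T15.Mf Crest.Agent.T15.Cg Crest.Agent.T15.Lv
open Crest.Agent.R013.RR7_948 Crest.Agent.R013.RR8_948 Crest.Agent.R013.RR9_948
open Crest.Agent.R013.RR11_948 Crest.Agent.R013.RR12_948 Crest.Agent.R013.RR14_948
open Crest.Agent.R013.RR19_948 Crest.Agent.R013.RR20_948
open Crest.Agent.R013.GR3_921 Crest.Agent.R013.GR4_921

universe u

theorem cuspStmt (k : Type u) [Field k] [IsAlgClosed k] : CuspStmt k :=
  fun M _ v _ _ _ _ _ _ _ _ _ hT hx hinv =>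
    cusp (NeZero.ne M) (lvl_F M) (isG v) (fun _ => rfl) hT hx hinv fun γ hγ =>
      (fix_iff (Gamma_is_cong_sub M) γ).1 fun x hx => hγ ⟨x, hx⟩

variable {v : Valuation ℂ ℝ≥0} {k : Type u} {κ : Type*} [Field k] [IsAlgClosed k] [Field κ]
  [Algebra k κ] {r : ℂ → k} {Γ : Subgroup SL(2, ℤ)} [Γ.FiniteIndex] {M : ℕ} {ρ : F Γ → κ}

/-- **Igusa**: genus, degree over the `j`-line and number of cusps are preserved -/
theorem gen_F [Algebra (RatFunc k) κ] [IsScalarTower k (RatFunc k) κ]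
    (h4 : 4 ∣ M) (hv : v (M : ℂ) = 1) (hle : Gamma M ≤ Γ) (hΓ : Γ ≤ Gamma1 4)
    (hL : Red v r (gwK v (F Γ)) ρ) (hx : xK k κ = ρ (xK ℂ (F Γ)))
    {l : ℕ} (hl : l.Prime) (hvl : v (l : ℂ) < 1) :
    ∃ (_ : FiniteDimensional (RatFunc k) κ) (_ : Algebra.IsSeparable (RatFunc k) κ),
      gen k κ = gen ℂ (F Γ) ∧ finrank (RatFunc k) κ = finrank (RatFunc ℂ) (F Γ) ∧
      (Zr k (xK k κ)⁻¹).card = (Zr ℂ (xK ℂ (F Γ))⁻¹).card :=
  gen_F_of (cuspStmt k) h4 hv hle hΓ hL hx hl hvl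

/-- **Igusa**: good reduction, for any residue map and the `j`-line structure on the residue field -/
theorem good_F [Algebra (RatFunc k) κ] [IsScalarTower k (RatFunc k) κ]
    (h4 : 4 ∣ M) (hv : v (M : ℂ) = 1) (hle : Gamma M ≤ Γ) (hΓ : Γ ≤ Gamma1 4)
    (hL : Red v r (gwK v (F Γ)) ρ) (hx : xK k κ = ρ (xK ℂ (F Γ)))
    {l : ℕ} (hl : l.Prime) (hvl : v (l : ℂ) < 1) :
    ∃ (_ : FiniteDimensional (RatFunc k) κ) (_ : Algebra.IsSeparable (RatFunc k) κ)
      (sp : Pl ℂ (F Γ) → Pl k κ), Disc.Good v r (gwK v (F Γ)) ρ sp :=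
  good_F_of (cuspStmt k) h4 hv hle hΓ hL hx hl hvl

/-- **Igusa**: the `j`-line structure is part of the conclusion -/
theorem good_F' (h4 : 4 ∣ M) (hv : v (M : ℂ) = 1) (hle : Gamma M ≤ Γ) (hΓ : Γ ≤ Gamma1 4)
    (hL : Red v r (gwK v (F Γ)) ρ) {l : ℕ} (hl : l.Prime) (hvl : v (l : ℂ) < 1) :
    ∃ (_ : Algebra (RatFunc k) κ) (_ : IsScalarTower k (RatFunc k) κ)
      (_ : FiniteDimensional (RatFunc k) κ) (_ : Algebra.IsSeparable (RatFunc k) κ)
      (sp : Pl ℂ (F Γ) → Pl k κ), Disc.Good v r (gwK v (F Γ)) ρ sp ∧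
        xK k κ = ρ (xK ℂ (F Γ)) := by
  have ht := transcendental_of_notMem (res_xK_notMem hL)
  let i := ratAlg _ ht
  have j := ratAlg_tower _ ht
  obtain ⟨a, b, sp, h⟩ := good_F h4 hv hle hΓ hL (ratAlg_xK _ ht) hl hvl
  exact ⟨i, j, a, b, sp, h, ratAlg_xK _ ht⟩

theorem v_eq_one_of_not_dvd {l : ℕ} (hl : l.Prime) (hvl : v (l : ℂ) < 1) (hM : ¬ l ∣ M) :
    v (M : ℂ) = 1 := by
  obtain ⟨a, b, hab⟩ := Nat.isCoprime_iff_coprime.2 ((Nat.Prime.coprime_iff_not_dvd hl).2 hM)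
  have h1 := v_int (v := v) M
  rw [Int.cast_natCast] at h1
  by_contra hne
  have h2 : (a : ℂ) * l + b * M = 1 := by exact_mod_cast congrArg (Int.cast : ℤ → ℂ) hab
  have h3 : v ((a : ℂ) * l + b * M) < 1 := v.map_add_lt
    (by rw [map_mul, mul_comm]; exact mul_lt_one_of_lt_of_le hvl (v_int a))
    (by rw [map_mul, mul_comm]; exact mul_lt_one_of_lt_of_le (h1.lt_of_ne hne) (v_int b))
  rw [h2, map_one] at h3
  exact lt_irrefl _ h3

/-- the residue field of an algebraically closed field is algebraically closed -/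
theorem isAlgClosed_res {C k : Type*} [Field C] [IsAlgClosed C] [Field k] {v : Valuation C ℝ≥0}
    {r : C → k} (h : IsRes v r) : IsAlgClosed k := by
  refine IsAlgClosed.of_exists_root k fun p hp hirr => ?_
  have hs : Function.Surjective (resHom h) := fun y => by
    obtain ⟨x, hx, rfl⟩ := h.surj y
    exact ⟨⟨x, hx⟩, rfl⟩
  obtain ⟨q, hq, hd, hm⟩ := Polynomial.lifts_and_degree_eq_and_monic
    (Polynomial.mem_lifts (f := resHom h) p |>.2 (Polynomial.map_surjective _ hs p)) hp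
  obtain ⟨x, hx⟩ := IsAlgClosed.exists_aeval_eq_zero C q (by
    rw [hd]; exact (Polynomial.degree_pos_of_irreducible hirr).ne')
  obtain ⟨y, rfl⟩ := IsIntegrallyClosed.isIntegral_iff.1 (show IsIntegral _ x from ⟨q, hm, hx⟩)
  refine ⟨resHom h y, ?_⟩
  rw [Polynomial.aeval_algebraMap_apply, map_eq_zero_iff _ (IsFractionRing.injective _ C)] at hx
  rw [← hq, Polynomial.eval_map, Polynomial.eval₂_hom, ← Polynomial.coe_aeval_eq_eval, hx, map_zero]

/-- **Igusa's theorem** -/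
theorem igStmt : IgStmt := fun M _ H h4 hH v l hl hvl hM => by
  obtain ⟨r, hr, -⟩ := exists_isRes v
  have hk := isAlgClosed_res hr
  obtain ⟨κ, _, _, ρ, hL⟩ := exists_red (GH M H) hr
  obtain ⟨i, j, a, b, sp, h, hx⟩ := good_F' h4 (v_eq_one_of_not_dvd hl hvl hM) Gamma_le_GH
    (GH_le_G4 h4 hH) hL hl hvl
  exact ⟨_, κ, _, hk, _, _, i, j, a, b, r, ρ, sp, h, by
    rw [← hx, del_xK]; exact one_ne_zero⟩

end Crest.Agent.T15.Ig
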