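import Crest.Agent.T15.IrrB_66
import Crest.Agent.T15.HtDef_95

/-!
# Row 15, block Ht (helper66): the leaf IRR
-/

namespace Crest.Agent.T15.Ht

theorem irrStmt : IrrStmt := fun _ _ _ _ _ _ _ P _ _ _ _ _ _ _ _ _ hC hI hy _ n hl =>
  Irr.irr_cert hC P hI.h1 hI.h2 hI.ht hy hl n

end Crest.Agent.T15.Ht
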