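import Crest.Agent.T15.HtDef_95
import Crest.Agent.T15.AjC_55
import Crest.Agent.T15.AxC_14

/-!
# Row 15, block Ht (helper28): the glue `JcGlue`
-/

set_option autoImplicit false
set_option linter.all false

noncomputable section

namespace Crest.Agent.T15.Ht

open Polynomial Matrix
open Crest.Agent.R013.PicD_398 Crest.Agent.R013.Frob1_914
open Crest.Agent.T15.Mo (Par Eqs)

section si

variable {k K : Type*} [Field k] [Field K] [Algebra k K]

theorem si_aeval_28 (e : SI k K k K) (x : K) (p : k[X]) :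
    e.f (aeval x p) = aeval (e.f x) (p.map (e.s : k →+* k)) := by
  induction p using Polynomial.induction_on' with
  | add p q hp hq => simp [hp, hq]
  | monomial n a => simp [aeval_monomial, e.comm]

theorem si_ext_28 {F : k[X]} {x w : K} (h : Hy.Hyp F x w) {e e' : SI k K k K} (hs : e.s = e'.s)
    (hx : e.f x = e'.f x) (hw : e.f w = e'.f w) : e = e' := by
  have hf : e.f = e'.f := by
    ext f
    obtain ⟨A, B, c, hc, hf⟩ := h.gen f
    have h1 := congrArg e.f hf
    have h2 := congrArg e'.f hf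
    have h3 : e'.f (aeval x c) ≠ 0 := (map_ne_zero e'.f).mpr (h.aeval_ne hc)
    have h4 : ∀ p : k[X], e.f (aeval x p) = e'.f (aeval x p) := fun p => by
      rw [si_aeval_28, si_aeval_28, hs, hx]
    simp only [Hy.el, map_mul, map_add] at h1 h2
    rw [h4, h4, h4, hw, ← h2] at h1
    exact mul_right_cancel₀ h3 h1
  obtain ⟨s, f, _⟩ := e
  obtain ⟨s', f', _⟩ := e'
  simp only at hs hf
  subst hs hf
  rfl

end si

namespace Mdl

variable {P : Par ℂ} (M : Mdl P)

theorem fx_zw_28 {e : SI ℂ M.Y ℂ M.Y} (he : M.Fx e) (hs : e.s ∈ Gs P) :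
    e.f M.z = M.z ∧ e.f M.w = M.w := by
  obtain ⟨h1, h2, ht, ha, hb⟩ := hs
  obtain ⟨hA, hB, hu, -⟩ := he
  have h3 : e.s P.p3 = P.p3 := by rw [P.p3_eq, map_sub, map_neg, h1, h2]
  have hz : e.f M.z = M.z := by
    simp only [z, Par.z, Par.V', Par.R', Par.V, Par.R, Par.d2, Par.d3, Par.map_p1, Par.map_p2,
      Par.map_p3, Par.map_t, Par.map_al, Par.map_be, map_add, map_mul, map_div₀, map_sub, map_pow,
      map_ofNat, e.comm, h1, h2, h3, ht, ha, hb, hA, hB, hu]
  refine ⟨hz, ?_⟩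
  have hw : M.w = M.A * M.z * (M.z ^ 2 - (P.map (algebraMap ℂ M.Y)).a1) *
    (M.z ^ 2 - (P.map (algebraMap ℂ M.Y)).a2) / (M.z ^ 2 - (P.map (algebraMap ℂ M.Y)).b) := rfl
  rw [hw]
  simp only [Par.a1, Par.a2, Par.b, Par.d1, Par.map_p1, Par.map_p2,
    Par.map_p3, Par.map_t, Par.map_al, Par.map_be, map_add, map_mul, map_div₀, map_sub, map_pow,
    map_neg, map_ofNat, e.comm, h1, h2, h3, ht, ha, hb, hA, hz]

end Mdl

/-- **the glue JC** -/
theorem jcGlue : JcGlue := by
  intro hEx hGal hMo hMat hEnd hIrr del m p1 p2 p3 t D P hC hI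
  obtain ⟨M⟩ := hEx ℂ P
  obtain ⟨hG1, hG2, hG3⟩ := hGal ℂ P M
  obtain ⟨hy, hdeg, hY⟩ := hMo ℂ P M
  have hdeg' : P.F.natDegree = 2 * 3 + 1 := hdeg
  have ho : Odd P.F.natDegree := ⟨3, hdeg'⟩
  choose E hE hEs using fun s : Gs P => hG1 s.1 s.2.1 s.2.2.1 s.2.2.2.1
  have hzw : ∀ s, (E s).f M.z = M.z ∧ (E s).f M.w = M.w := fun s =>
    M.fx_zw_28 (hE s) (by rw [hEs]; exact s.2)
  have hmul : ∀ s s', E (s * s') = (E s').trans (E s) := fun s s' =>
    si_ext_28 hy (by rw [SI.trans_s, hEs, hEs, hEs]; rfl)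
      (by rw [SI.trans_f, RingEquiv.trans_apply, (hzw _).1, (hzw _).1, (hzw _).1])
      (by rw [SI.trans_f, RingEquiv.trans_apply, (hzw _).2, (hzw _).2, (hzw _).2])
  have hone : ∀ x, (E 1).pic x = x := fun x => by
    apply (E 1).pic.injective
    rw [← SI.pic_trans, ← hmul, mul_one]
  letI act : DistribMulAction (Gs P) (Pic ℂ M.Y) :=
    { smul := fun s x => (E s).pic x
      one_smul := hone
      mul_smul := fun s s' x => by
        show (E (s * s')).pic x = (E s).pic ((E s').pic x)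
        rw [hmul, SI.pic_trans]
      smul_zero := fun s => map_zero (E s).pic
      smul_add := fun s => map_add (E s).pic }
  have hsm : ∀ (s : Gs P) (x : Pic ℂ M.Y), s • x = (E s).pic x := fun _ _ => rfl
  obtain ⟨ex, hex⟩ := (Aj.dat0 hy hdeg').exists_exp
  obtain ⟨y, hyz, hyw⟩ := hY (-Complex.I) (by simp)
  let ey : SI ℂ M.Y ℂ M.Y := ⟨RingEquiv.refl ℂ, y.toRingEquiv, fun c => y.commutes c⟩
  have hII : algebraMap ℂ M.Y Complex.I * algebraMap ℂ M.Y Complex.I = -1 := by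
    rw [← map_mul, Complex.I_mul_I, map_neg, map_one]
  have hycl : ∀ a b : ℂ, b ^ 2 = P.F.eval a →
      ey.pic (Aj.cl0 M.z M.w (a, b)) = Aj.cl0 M.z M.w (-a, Complex.I * b) := by
    intro a b hb
    have h1 := (hy.at_pt hb).SI ey
    have e1 : ey.f M.z = -M.z := hyz
    have e2 : ey.f M.w = algebraMap ℂ M.Y (-Complex.I) * M.w := hyw
    have e3 : ∀ c, ey.s c = c := fun _ => rfl
    rw [e1, e2, e3, e3] at h1
    have h2 : Hy.At (ey.pl (Hy.pt M.z M.w a b)) M.z M.w (-a) (Complex.I * b) := by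
      constructor
      · have : M.z - algebraMap ℂ M.Y (-a) = -(-M.z - algebraMap ℂ M.Y a) := by
          rw [map_neg]; ring
        rw [this, Valuation.map_neg]; exact h1.1
      · have : M.w - algebraMap ℂ M.Y (Complex.I * b) = algebraMap ℂ M.Y Complex.I *
            (algebraMap ℂ M.Y (-Complex.I) * M.w - algebraMap ℂ M.Y b) := by
          rw [map_neg, map_mul]; linear_combination M.w * hII
        rw [this, map_mul, (ey.pl _).const _ Complex.I_ne_zero, one_mul]; exact h1.2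
    have h3 : ey.pl (Aj.inf ℂ M.z) = Aj.inf ℂ M.z := by
      apply Aj.eq_inf hy ho
      have h4 := Aj.inf_spec hy
      rw [← SI.pl_v_apply ey, e1, Valuation.map_neg] at h4
      exact h4
    rw [Aj.cl0, Aj.cl0, Aj.cl, Aj.cl, Aj.sp, Aj.sp, map_sub, SI.pic_cls, SI.pic_cls, SI.D_single,
      SI.D_single, h3, hy.pt_eq h2]
  refine ⟨{ A := Pic ℂ M.Y
            act := act
            cl := Aj.cl0 M.z M.w
            ex := ex
            j := M.j
            y := ey.pic.toAddMonoidHom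
            lt := ⟨Aj.mumCls hy hdeg', Aj.dat0 hy hdeg', hex⟩
            act_cl := fun s a b hb => by
              rw [hsm, Aj.pic_cl0 hy hy (E s) (hzw s).1 ho (hzw s).2 hb, hEs]
            act_j := fun s x => hG3 (E s) (hE s) x
            j_ex := hEnd P M (Mx P) (Aj.cl M.z M.w) ex hy (hMat ℂ P M) (fun _ _ => rfl)
              (Aj.isExp_cl0.mp hex)
            y_cl := hycl }, ?_⟩
  intro l n hl
  obtain ⟨e, e', hs, hs', hz, hw, hz', hw', hx⟩ := hIrr del m p1 p2 p3 t D P M.Y M.z M.w hC hI hy l n hl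
  have k1 : E ⟨e.s, hs⟩ = e := si_ext_28 hy (hEs _) (by rw [(hzw _).1, hz]) (by rw [(hzw _).2, hw])
  have k2 : E ⟨e'.s, hs'⟩ = e' :=
    si_ext_28 hy (hEs _) (by rw [(hzw _).1, hz']) (by rw [(hzw _).2, hw'])
  refine ⟨⟨e.s, hs⟩, ⟨e'.s, hs'⟩, fun x h0 => ?_⟩
  have := hx x h0
  rw [← k1, ← k2] at this
  exact this

end Crest.Agent.T15.Ht
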