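import Crest.Agent.T15.KfU_23
import Crest.Agent.T15.HtDef_95

/-!
# Row 15, block Ht (helper23): leaf EX, models exist
-/

set_option autoImplicit false
set_option linter.all false

namespace Crest.Agent.T15.KfJ

open Polynomial Module
open Crest.Agent.R013.RR20_948 (ratAlg ratAlg_tower)

/-- the parameters in the words of `Kf` -/
def kp {C : Type*} [Field C] [CharZero C] (P : Mo.Par C) : Kf.Par C :=
  ⟨P.p1, P.p2, P.p3, P.t, P.sum, two_ne_zero, P.h1, P.h2, P.h3, P.k1, P.k2, P.k3, P.ht⟩

theorem kp_rt {C : Type*} [Field C] [CharZero C] (P : Mo.Par C) : Mo.Rt (kp P) P.al P.be :=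
  ⟨P.hal, P.hbe⟩

theorem exStmt : Ht.ExStmt := by
  intro C _ _ _ P
  obtain ⟨Y, _, _, A, B2, u, h⟩ := exists_Y (kp P)
  obtain ⟨K, _, _, _, _, B, hB, gK⟩ := exists_K (C := C) B2
  obtain ⟨r, H⟩ := exists_r h hB gK
  have hy := (kp_rt P).hyp h
  letI : Algebra (RatFunc C) Y := ratAlg _ (hyp_tr hy)
  haveI : IsScalarTower C (RatFunc C) Y := ratAlg_tower _ _
  haveI : FiniteDimensional (RatFunc C) Y := hyp_finite hy
  haveI : FiniteDimensional Y K :=
    Module.finite_of_finrank_pos (by rw [Jm.finrank_two hB gK H.nB]; norm_num)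
  haveI : CharZero Y := charZero_of_injective_algebraMap (algebraMap C Y).injective
  letI : Algebra (RatFunc C) K := ((algebraMap Y K).comp (algebraMap (RatFunc C) Y)).toAlgebra
  haveI : IsScalarTower (RatFunc C) Y K := IsScalarTower.of_algebraMap_eq fun _ => rfl
  haveI : IsScalarTower C (RatFunc C) K := IsScalarTower.of_algebraMap_eq fun c => by
    rw [IsScalarTower.algebraMap_apply (RatFunc C) Y K, ← IsScalarTower.algebraMap_apply C _ Y,
      ← IsScalarTower.algebraMap_apply]
  haveI : FiniteDimensional (RatFunc C) K := Module.Finite.trans Y K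
  exact ⟨{ Y := Y, K := K, A := A, B2 := B2, u := u, B := B
           eqs := ((kp_rt P).isY h).eqs, tr := h.tr, gen := h.gen, hB := hB, genK := gK
           nB := H.nB, r := r, rA := H.rA, rB := H.rB
           ru := H.ru }⟩

end Crest.Agent.T15.KfJ
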