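import Crest.Agent.T15.OmB_46
import Crest.Agent.T15.Jm_16

/-!
# Row 15, block Ht (helper16): `Ht.MatStmt` from the field-level identity of `OmB_46`
-/

set_option autoImplicit false
set_option linter.all false

noncomputable section

namespace Crest.Agent.T15.Jm

open Crest.Agent.T15.Mo Crest.Agent.T15.Ht

theorem eqs_map {Y L : Type*} [Field Y] [Field L] (f : Y →+* L) {Q : Par Y} {A B2 u : Y}
    (h : Eqs Q A B2 u) : Eqs (Q.map f) (f A) (f B2) (f u) := by
  refine ⟨?_, ?_, ?_, ?_, ?_⟩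
  · simpa [map_ofNat] using (map_ne_zero f).2 h.two
  · simpa [map_ofNat] using congrArg f h.k0
  · simpa [map_ofNat, Par.Xc, Par.V] using congrArg f h.cub
  · simpa only [map_add, map_mul, Par.map_p1, Par.map_p2] using (map_ne_zero f).2 h.n3
  · simpa only [map_add, map_mul, Par.map_p1, Par.map_p3] using (map_ne_zero f).2 h.n2

variable {C : Type} [Field C] [IsAlgClosed C] [CharZero C] {P : Par C} (M : Mdl P)

theorem up_YK : (P.map (algebraMap C M.Y)).map (algebraMap M.Y M.K) = P.map (algebraMap C M.K) := by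
  simp only [Par.map, ← IsScalarTower.algebraMap_apply]

theorem up_aut (ψ : M.K ≃ₐ[C] M.K) :
    (P.map (algebraMap C M.K)).map (ψ : M.K →+* M.K) = P.map (algebraMap C M.K) := by
  simp only [Par.map, RingHom.coe_coe, ψ.commutes]

theorem alg_z : algebraMap M.Y M.K M.z = (P.map (algebraMap C M.K)).z (algebraMap M.Y M.K M.A)
    (M.B ^ 2) (algebraMap M.Y M.K M.u) := by
  rw [Mdl.z, map_z, up_YK, M.hB]

theorem alg_w : algebraMap M.Y M.K M.w = (P.map (algebraMap C M.K)).w (algebraMap M.Y M.K M.A)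
    (M.B ^ 2) (algebraMap M.Y M.K M.u) := by
  rw [Mdl.w, map_w, up_YK, M.hB]

theorem aut_z (ψ : M.K ≃ₐ[C] M.K) (a b v : M.K) : ψ ((P.map (algebraMap C M.K)).z a b v) =
    (P.map (algebraMap C M.K)).z (ψ a) (ψ b) (ψ v) := by
  have := map_z (ψ : M.K →+* M.K) (P.map (algebraMap C M.K)) a b v
  rwa [up_aut] at this

theorem aut_w (ψ : M.K ≃ₐ[C] M.K) (a b v : M.K) : ψ ((P.map (algebraMap C M.K)).w a b v) =
    (P.map (algebraMap C M.K)).w (ψ a) (ψ b) (ψ v) := by
  have := map_w (ψ : M.K →+* M.K) (P.map (algebraMap C M.K)) a b v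
  rwa [up_aut] at this

theorem rs_A : M.r.symm (algebraMap M.Y M.K M.A) = M.B := by
  rw [AlgEquiv.symm_apply_eq, M.rB]

theorem rs_B : M.r.symm M.B = -algebraMap M.Y M.K M.A := by
  rw [AlgEquiv.symm_apply_eq, map_neg, M.rA, neg_neg]

theorem rs_u : M.r.symm (algebraMap M.Y M.K M.u) = Om.nu (P.map (algebraMap C M.K))
    (algebraMap M.Y M.K M.A) (-M.B) (algebraMap M.Y M.K M.u) := by
  rw [AlgEquiv.symm_apply_eq]
  exact (md M).rrru.symm.trans (congrArg M.r (md M).rru)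

theorem r_u : M.r (algebraMap M.Y M.K M.u) = Om.nu (P.map (algebraMap C M.K))
    (algebraMap M.Y M.K M.A) M.B (algebraMap M.Y M.K M.u) := M.ru

theorem tri : Om.Tri (P.map (algebraMap C M.K)) (algebraMap M.Y M.K M.A) M.B
    (algebraMap M.Y M.K M.u) := by
  have h0 : Eqs (P.map (algebraMap C M.K)) (algebraMap M.Y M.K M.A) (M.B ^ 2)
      (algebraMap M.Y M.K M.u) := by
    have := eqs_map (algebraMap M.Y M.K) M.eqs
    rwa [up_YK, ← M.hB] at this
  have h1 : ∀ ψ : M.K ≃ₐ[C] M.K, Eqs (P.map (algebraMap C M.K)) (ψ (algebraMap M.Y M.K M.A))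
      (ψ M.B ^ 2) (ψ (algebraMap M.Y M.K M.u)) := fun ψ => by
    have := eqs_map (ψ : M.K →+* M.K) h0
    rwa [up_aut, map_pow] at this
  have s : ∀ ψ : M.K ≃ₐ[C] M.K, ψ (algebraMap M.Y M.K M.u) + (P.map (algebraMap C M.K)).p2 *
      (P.map (algebraMap C M.K)).p3 ≠ 0 := fun ψ => by
    have := (map_ne_zero ψ).2 ((md M).add_ne (P.p2 * P.p3))
    rwa [map_add, ψ.commutes, map_mul] at this
  have b : ∀ ψ : M.K ≃ₐ[C] M.K, (P.map (algebraMap C M.K)).z (ψ (algebraMap M.Y M.K M.A))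
      (ψ M.B ^ 2) (ψ (algebraMap M.Y M.K M.u)) ^ 2 - (P.map (algebraMap C M.K)).b ≠ 0 := fun ψ => by
    have := (map_ne_zero ψ).2 ((map_ne_zero (algebraMap M.Y M.K)).2 ((moY M).sq_sub_ne P.b))
    rw [map_sub, map_sub, map_pow, map_pow, ← IsScalarTower.algebraMap_apply, ψ.commutes] at this
    rw [← map_pow ψ M.B, ← aut_z, ← alg_z, Par.map_b]
    exact this
  have hp := h1 M.r
  have hm := h1 M.r.symm
  have bp := b M.r
  have bm := b M.r.symm
  have sp := s M.r
  have sm := s M.r.symm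
  rw [M.rA, M.rB, r_u] at hp bp
  rw [rs_A, rs_B, rs_u, neg_sq] at hm bm
  rw [r_u] at sp
  rw [rs_u] at sm
  refine ⟨h0, hp, hm, s 1, sp, sm, ?_, (md M).B_ne, fun h => ?_, b 1, bp, bm⟩
  · rw [← M.rB]; exact (map_ne_zero M.r).2 (md M).B_ne
  · have h2 := h0.R'_sq
    rw [Par.R', h, zero_div] at h2
    refine (md M).add_ne (-(2 * P.p2 ^ 2)) ?_
    rw [map_neg, map_mul, map_pow, map_ofNat]
    rw [Par.map_p2] at h2
    linear_combination h2

end Crest.Agent.T15.Jm

namespace Crest.Agent.T15.Ht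

open Crest.Agent.T15.Jm

/-- **leaf MAT** -/
theorem matStmt : MatStmt := by
  intro C _ _ _ P M D k
  have hD : Om.Kill (P.map (algebraMap C M.K)) D :=
    ⟨D.map_algebraMap _, D.map_algebraMap _, D.map_algebraMap _, D.map_algebraMap _⟩
  have h := Om.mat hD (tri M) k
  rw [alg_z, alg_w, aut_z, aut_w, aut_z, aut_w, map_pow, map_pow, M.rA, M.rB, r_u, rs_A, rs_B, rs_u,
    neg_sq, h]
  refine Finset.sum_congr rfl fun m _ => ?_
  congr 1
  fin_cases k <;> fin_cases m <;> simp [Om.Mx, Mx, map_ofNat]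

end Crest.Agent.T15.Ht
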