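import Crest.Agent.T15.UndB_98

/-!
# Row 15, block Ht (helper98): the period module of the pair `(g₁, g₃)` is commensurable with `Λ`
-/

set_option autoImplicit false
set_option maxHeartbeats 400000

noncomputable section

namespace Crest.Agent.T15.Und

open UpperHalfPlane hiding I
open Complex hiding Gamma
open ModularForm CongruenceSubgroup Matrix Crest.Agent.T15.Esc
open scoped MatrixGroups Manifold Real

instance : Group.FG SL(2, ℤ) :=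
  Group.fg_iff.2 ⟨{ModularGroup.S, ModularGroup.T}, SpecialLinearGroup.SL2Z_generators,
    Set.toFinite _⟩

/-- the Hecke recursion at `l` -/
def Hk (l : ℕ) (c : ℕ → ℂ) (n : ℕ) : ℂ := c (l * n) + if l ∣ n then (l : ℂ) * c (n / l) else 0

/-- depletion of a sequence at the primes of `S` -/
def dep (S : Finset ℕ) (c : ℕ → ℂ) (n : ℕ) : ℂ := if ∀ l ∈ S, ¬ l ∣ n then c n else 0

/-- `T_l` acts on the pair by an integer or by an integer multiple of `J` -/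
def PairEig (l : ℕ) (c1 c3 : ℕ → ℂ) : Prop := ∃ t : ℤ,
  (∀ n, Hk l c1 n = t * c1 n ∧ Hk l c3 n = t * c3 n) ∨
  (∀ n, Hk l c1 n = 3 * t * c3 n ∧ Hk l c3 n = t * c1 n)

variable {V : Type*} [AddCommGroup V] [Module ℂ V]

/-- the period of `G₁ v + G₃ J v` -/
def pv (g1 g3 : ℍ → ℂ) (v w : V) (γ : SL(2, ℤ)) : V := per g1 γ • v + per g3 γ • w

/-- the period module -/
def I0 (Γ : Subgroup SL(2, ℤ)) (g1 g3 : ℍ → ℂ) (v w : V) : Submodule ℤ V :=
  Submodule.span ℤ (pv g1 g3 v w '' Γ)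

lemma per_mul_SL {Γ : Subgroup SL(2, ℤ)} {g : ℍ → ℂ} (hg : g ∈ CS Γ 2) {γ : SL(2, ℤ)} (hγ : γ ∈ Γ)
    (δ : SL(2, ℤ)) : per g (γ * δ : SL(2, ℤ)) = per g γ + per g δ := by
  rw [per_eq g (γ * δ), per_eq g δ, mul_smul, per_SL (isPrim_prim hg.1) (hg.2.1 γ hγ)]
  ring

lemma three_mul_sq_ne (t m : ℤ) (hm : m ≠ 0) : 3 * t ^ 2 ≠ m ^ 2 := fun h => by
  have ht : t ≠ 0 := by rintro rfl; exact hm (pow_eq_zero_iff two_ne_zero |>.1 (by linarith))
  have h1 : IsSquare ((3 : ℕ) : ℚ) := ⟨m / t, by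
    have : (3 : ℚ) * t ^ 2 = m ^ 2 := by exact_mod_cast h
    have ht' : (t : ℚ) ≠ 0 := by exact_mod_cast ht
    field_simp
    push_cast
    linarith⟩
  exact Nat.prime_three.not_isSquare (Rat.isSquare_natCast_iff.1 h1)

/-- one multiplier for all periods -/
lemma exists_mult {Γ : Subgroup SL(2, ℤ)} [Γ.FiniteIndex] {g1 g3 : ℍ → ℂ} (h1 : g1 ∈ CS Γ 2)
    (h3 : g3 ∈ CS Γ 2) (v w : V) (Λ : Submodule ℤ V)
    (h : ∀ γ ∈ Γ, ∃ k : ℕ, 0 < k ∧ k • pv g1 g3 v w γ ∈ Λ) :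
    ∃ k : ℕ, 0 < k ∧ ∀ x ∈ I0 Γ g1 g3 v w, k • x ∈ Λ := by
  obtain ⟨T, hT, hfin⟩ := Group.fg_iff.1 (inferInstance : Group.FG Γ)
  choose κ hκ hκ' using fun γ : Γ => h γ γ.2
  have hadd : ∀ γ δ : Γ, pv g1 g3 v w (γ * δ : Γ) = pv g1 g3 v w γ + pv g1 g3 v w δ := fun γ δ => by
    simp only [pv, Subgroup.coe_mul, per_mul_SL h1 γ.2, per_mul_SL h3 γ.2, add_smul]
    abel
  have hone : pv g1 g3 v w ((1 : Γ) : SL(2, ℤ)) = 0 := by
    have := hadd 1 1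
    rw [mul_one] at this
    simpa using this
  refine ⟨∏ t ∈ hfin.toFinset, κ t, Finset.prod_pos fun t _ => hκ t, fun x hx => ?_⟩
  generalize hk : ∏ t ∈ hfin.toFinset, κ t = k
  have key : ∀ γ : Γ, k • pv g1 g3 v w γ ∈ Λ := fun γ => by
    have hγ : γ ∈ Subgroup.closure T := hT ▸ Subgroup.mem_top γ
    induction hγ using Subgroup.closure_induction with
    | mem t ht =>
      obtain ⟨m, hm⟩ : κ t ∣ k := hk ▸ Finset.dvd_prod_of_mem κ (hfin.mem_toFinset.2 ht)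
      rw [hm, mul_comm, mul_smul]
      exact nsmul_mem (hκ' t) m
    | one => rw [hone, smul_zero]; exact Λ.zero_mem
    | mul a b _ _ ha hb => rw [hadd, smul_add]; exact Λ.add_mem ha hb
    | inv a _ ha =>
      have := hadd a a⁻¹
      rw [mul_inv_cancel, hone] at this
      rw [eq_neg_of_add_eq_zero_right this.symm, smul_neg]
      exact Λ.neg_mem ha
  induction hx using Submodule.span_induction with
  | mem x hx => obtain ⟨γ, hγ, rfl⟩ := hx; exact key ⟨γ, hγ⟩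
  | zero => rw [smul_zero]; exact Λ.zero_mem
  | add x y _ _ ha hb => rw [smul_add]; exact Λ.add_mem ha hb
  | smul a x _ ha => rw [smul_comm]; exact Λ.smul_mem a ha

/-- **(U2), pair form**: `k I₀ ≤ Λ` -/
theorem pair_le {L : ℕ} [NeZero L] {S : Finset ℕ} (hS : ∀ l ∈ S, l.Prime ∧ ¬ l ∣ L)
    {g1 g3 h1 h3 : ℍ → ℂ} {c1 c3 : ℕ → ℂ} (hg1 : g1 ∈ CS (Gamma0 L) 2) (hg3 : g3 ∈ CS (Gamma0 L) 2)
    (h0 : g1 ≠ 0) (q1 : QS c1 g1) (q3 : QS c3 g3) (he : ∀ l ∈ S, PairEig l c1 c3)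
    (m1 : MDiff h1) (m3 : MDiff h3) (r1 : QS (dep S c1) h1) (r3 : QS (dep S c3) h3)
    (J : V →ₗ[ℂ] V) (v : V) (hJ : J (J v) = (3 : ℂ) • v) (Λ : Submodule ℤ V)
    (hΛ : ∀ x ∈ Λ, J x ∈ Λ) (Γ : Subgroup SL(2, ℤ)) [Γ.FiniteIndex]
    (hper : ∀ γ ∈ Γ, ∃ k : ℕ, 0 < k ∧ k • pv h1 h3 v (J v) γ ∈ Λ) :
    ∃ k : ℕ, 0 < k ∧ ∀ x ∈ I0 (Gamma0 L) g1 g3 v (J v), k • x ∈ Λ := by
  classical
  let W : AddSubgroup (Fin 2 → ℂ) :=
    { carrier := {x | ∃ k : ℕ, 0 < k ∧ k • (x 0 • v + x 1 • J v) ∈ Λ}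
      zero_mem' := ⟨1, one_pos, by simp⟩
      add_mem' := by
        rintro x y ⟨k, hk, hx⟩ ⟨m, hm, hy⟩
        refine ⟨k * m, Nat.mul_pos hk hm, ?_⟩
        have := Λ.add_mem (nsmul_mem hx m) (nsmul_mem hy k)
        simp only [Pi.add_apply]
        convert this using 1
        module
      neg_mem' := by
        rintro x ⟨k, hk, hx⟩
        refine ⟨k, hk, ?_⟩
        simp only [Pi.neg_apply]
        convert Λ.neg_mem hx using 1
        module }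
  have hW : Sat W := by
    rintro k hk x ⟨m, hm, hx⟩
    refine ⟨m * k.natAbs, Nat.mul_pos hm (Int.natAbs_pos.2 hk), ?_⟩
    have e : m • ((k • x) 0 • v + (k • x) 1 • J v) = k • m • (x 0 • v + x 1 • J v) := by
      simp only [Pi.smul_apply, zsmul_eq_mul, mul_smul, Int.cast_smul_eq_zsmul]
      module
    rw [e] at hx
    rw [mul_comm, mul_smul, ← natCast_zsmul, Int.natCast_natAbs]
    rcases abs_choice k with h | h
    · rwa [h]
    · rw [h, _root_.neg_smul]; exact Λ.neg_mem hx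
  have hWz : ∀ (t : ℤ), ∀ x ∈ W, (t : ℂ) • x ∈ W := fun t x hx => by
    rw [Int.cast_smul_eq_zsmul]; exact W.zsmul_mem hx t
  have hb : ∀ l, ∃ (b : Matrix (Fin 2) (Fin 2) ℂ) (β : ℤ), l ∈ S →
      (b * b = (β : ℂ) • 1 ∧ β ≠ (l + 1) ^ 2 ∧ ∀ x ∈ W, b *ᵥ x ∈ W) ∧
      ∀ n, ![c1 (l * n), c3 (l * n)] +
        (if l ∣ n then (l : ℂ) • ![c1 (n / l), c3 (n / l)] else 0) = b *ᵥ ![c1 n, c3 n] := by
    intro l
    by_cases hl : l ∈ S
    swap
    · exact ⟨0, 0, fun h => absurd h hl⟩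
    have hk : ∀ n, ![c1 (l * n), c3 (l * n)] +
        (if l ∣ n then (l : ℂ) • ![c1 (n / l), c3 (n / l)] else 0) = ![Hk l c1 n, Hk l c3 n] :=
      fun n => by
        unfold Hk
        split_ifs <;> simp
    obtain ⟨t, ht | ht⟩ := he l hl
    · refine ⟨(t : ℂ) • 1, t ^ 2, fun _ => ⟨⟨by simp [smul_smul, sq], fun h => ?_, fun x hx => ?_⟩,
        fun n => ?_⟩⟩
      · have h2 := eig_lt hg1 h0 q1 (hS l hl).1.two_le (a := t) fun n => (ht n).1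
        rw [Complex.norm_intCast] at h2
        have h4 : |t| < l + 1 := by exact_mod_cast h2
        have h5 := sq_lt_sq' (abs_lt.1 h4).1 (abs_lt.1 h4).2
        omega
      · rw [smul_mulVec, one_mulVec]; exact hWz t x hx
      · rw [hk, (ht n).1, (ht n).2, smul_mulVec, one_mulVec]; simp
    · refine ⟨(t : ℂ) • !![0, 3; 1, 0], 3 * t ^ 2, fun _ => ⟨⟨?_,
        three_mul_sq_ne t _ (by omega), fun x hx => ?_⟩, fun n => ?_⟩⟩
      · ext i j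
        fin_cases i <;> fin_cases j <;> simp [Matrix.mul_apply, Fin.sum_univ_two] <;> ring
      · rw [smul_mulVec]
        refine hWz t _ ?_
        obtain ⟨k, hk, hx⟩ := hx
        refine ⟨k, hk, ?_⟩
        convert hΛ _ hx using 1
        simp [mulVec, dotProduct, Fin.sum_univ_two, hJ, smul_smul, add_comm, mul_comm]
      · rw [hk, (ht n).1, (ht n).2]
        ext i
        fin_cases i
        · simp [mulVec, dotProduct, Fin.sum_univ_two, mul_comm]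
        · simp [mulVec, dotProduct, Fin.sum_univ_two]
  choose b β hb using hb
  refine exists_mult hg1 hg3 v (J v) Λ fun γ hγ => ?_
  exact undep hW hS b β (fun l hl => (hb l hl).1) (g := ![g1, g3]) (h := ![h1, h3])
    (c := fun n => ![c1 n, c3 n]) (Fin.forall_fin_two.2 ⟨hg1.1, hg3.1⟩)
    (Fin.forall_fin_two.2 ⟨hg1.2.1, hg3.2.1⟩) (Fin.forall_fin_two.2 ⟨q1, q3⟩)
    (fun l hl => (hb l hl).2) (Fin.forall_fin_two.2 ⟨m1, m3⟩) (Fin.forall_fin_two.2 ⟨r1, r3⟩)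
    Γ hper γ hγ

/-- the periods of the pair and of its image under `J` span `ℂ²` over `ℝ` -/
lemma span_top {Γ : Subgroup SL(2, ℤ)} [Γ.FiniteIndex] {g1 g3 : ℍ → ℂ} (h1 : g1 ∈ CS Γ 2)
    (h3 : g3 ∈ CS Γ 2) (hind : ∀ c : ℂ, g1 ≠ c • g3) :
    Submodule.span ℝ (Set.range fun p : Γ × Bool => if p.2 then
      ((per g1 (p.1 : SL(2, ℤ)), per g3 (p.1 : SL(2, ℤ))) : ℂ × ℂ) else
      (3 * per g3 (p.1 : SL(2, ℤ)), per g1 (p.1 : SL(2, ℤ)))) = ⊤ := by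
  by_contra hne
  obtain ⟨φ, hφ0, hφ⟩ := Submodule.exists_le_ker_of_lt_top _ (lt_top_iff_ne_top.2 hne)
  obtain ⟨α, hα⟩ : ∃ α : ℂ, α = ⟨φ (1, 0), -φ (I, 0)⟩ := ⟨_, rfl⟩
  obtain ⟨β, hβ⟩ : ∃ β : ℂ, β = ⟨φ (0, 1), -φ (0, I)⟩ := ⟨_, rfl⟩
  have hf : ∀ x y : ℂ, φ (x, y) = (α * x + β * y).re := fun x y => by
    have e : ((x, y) : ℂ × ℂ) = x.re • ((1, 0) : ℂ × ℂ) + x.im • ((I, 0) : ℂ × ℂ) +
        y.re • ((0, 1) : ℂ × ℂ) + y.im • ((0, I) : ℂ × ℂ) := by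
      ext <;> simp
    rw [e]
    simp only [map_add, map_smul, smul_eq_mul, hα, hβ, Complex.add_re, Complex.mul_re]
    ring
  have key : ∀ a b : ℂ, (∀ γ ∈ Γ, (a * per g1 γ + b * per g3 γ).re = 0) → a • g1 + b • g3 = 0 :=
    fun a b h => re_per_inj ((CS Γ 2).add_mem ((CS Γ 2).smul_mem a h1) ((CS Γ 2).smul_mem b h3))
      fun γ hγ => by
        rw [per_add (h1.1.const_smul a) (h3.1.const_smul b), per_smul a h1.1, per_smul b h3.1]
        exact h γ hγ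
  have zero : ∀ a b : ℂ, a • g1 + b • g3 = 0 → a = 0 := fun a b h => by
    by_contra ha
    refine hind (-(b / a)) (funext fun z => ?_)
    have := congrFun h z
    simp only [Pi.add_apply, Pi.smul_apply, smul_eq_mul, Pi.zero_apply] at this ⊢
    field_simp
    linear_combination this
  have k1 := zero α β (key α β fun γ hγ => by
    rw [← hf]; exact hφ (Submodule.subset_span ⟨(⟨γ, hγ⟩, true), rfl⟩))
  have k2 := zero β (3 * α) (key β (3 * α) fun γ hγ => by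
    have := hφ (Submodule.subset_span ⟨(⟨γ, hγ⟩, false), rfl⟩)
    rw [LinearMap.mem_ker] at this
    simp only [Bool.false_eq_true, if_false, hf] at this
    rw [← this]
    congr 1
    ring)
  exact hφ0 (LinearMap.ext fun p => by rw [show p = (p.1, p.2) from rfl, hf, k1, k2]; simp)

/-- **(U3)**: `k Λ ≤ I₀ + J I₀` -/
theorem pair_ge {Γ : Subgroup SL(2, ℤ)} [Γ.FiniteIndex] {g1 g3 : ℍ → ℂ} (h1 : g1 ∈ CS Γ 2)
    (h3 : g3 ∈ CS Γ 2) (hind : ∀ c : ℂ, g1 ≠ c • g3) (J : V →ₗ[ℂ] V) (v : V)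
    (hJ : J (J v) = (3 : ℂ) • v) (hv : ∀ x y : ℂ, x • v + y • J v = 0 → x = 0 ∧ y = 0)
    (Λ : Submodule ℤ V) [Module.Finite ℤ Λ] (hrk : Module.finrank ℤ Λ ≤ 4)
    (hΛ : ∀ x ∈ Λ, J x ∈ Λ) {k : ℕ} (hk : 0 < k) (hle : ∀ x ∈ I0 Γ g1 g3 v (J v), k • x ∈ Λ) :
    ∃ m : ℕ, 0 < m ∧ ∀ x ∈ Λ, ∃ a ∈ I0 Γ g1 g3 v (J v), ∃ b ∈ I0 Γ g1 g3 v (J v),
      m • x = a + J b := by
  classical
  let I1 : Submodule ℤ V := I0 Γ g1 g3 v (J v) ⊔ (I0 Γ g1 g3 v (J v)).map (J.restrictScalars ℤ)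
  obtain ⟨κ, a, -, hsp, hli⟩ := exists_linearIndependent' ℝ (fun p : Γ × Bool => if p.2 then
      ((per g1 (p.1 : SL(2, ℤ)), per g3 (p.1 : SL(2, ℤ))) : ℂ × ℂ) else
      (3 * per g3 (p.1 : SL(2, ℤ)), per g1 (p.1 : SL(2, ℤ))))
  rw [span_top h1 h3 hind] at hsp
  obtain ⟨e, he⟩ : ∃ e : κ → ℂ × ℂ, e = (fun p : Γ × Bool => if p.2 then
      ((per g1 (p.1 : SL(2, ℤ)), per g3 (p.1 : SL(2, ℤ))) : ℂ × ℂ) else
      (3 * per g3 (p.1 : SL(2, ℤ)), per g1 (p.1 : SL(2, ℤ)))) ∘ a := ⟨_, rfl⟩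
  rw [← he] at hsp hli
  haveI : Finite κ := hli.finite
  haveI := Fintype.ofFinite κ
  have hcard : Fintype.card κ = 4 := by
    rw [← Module.finrank_eq_card_basis (Module.Basis.mk hli hsp.ge)]
    simp
  have hmem : ∀ i, (e i).1 • v + (e i).2 • J v ∈ I1 ∧ k • ((e i).1 • v + (e i).2 • J v) ∈ Λ := by
    intro i
    have hp : pv g1 g3 v (J v) (a i).1 ∈ I0 Γ g1 g3 v (J v) :=
      Submodule.subset_span ⟨_, (a i).1.2, rfl⟩
    rw [he, Function.comp]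
    split_ifs
    · exact ⟨Submodule.mem_sup_left hp, hle _ hp⟩
    · have e1 : (3 * per g3 ((a i).1 : SL(2, ℤ))) • v + per g1 ((a i).1 : SL(2, ℤ)) • J v =
          J (pv g1 g3 v (J v) (a i).1) := by
        simp only [pv, map_add, map_smul, hJ]
        module
      simp only [e1]
      exact ⟨Submodule.mem_sup_right ⟨_, hp, rfl⟩, by rw [← map_nsmul]; exact hΛ _ (hle _ hp)⟩
  let y : κ → Λ := fun i => ⟨_, (hmem i).2⟩
  have each : ∀ x : Λ, ∃ n : ℤ, n ≠ 0 ∧ n • (x : V) ∈ I1 := fun x => by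
    have hdep : ¬ LinearIndependent ℤ (fun o : Option κ => o.elim x y) := fun h => by
      have := h.fintype_card_le_finrank
      rw [Fintype.card_option, hcard] at this
      omega
    obtain ⟨n, hn, o, ho⟩ := Fintype.not_linearIndependent_iff.1 hdep
    rw [Fintype.sum_option] at hn
    have hn' : n none • (x : V) + ∑ i, n (some i) • k • ((e i).1 • v + (e i).2 • J v) = 0 := by
      have := congrArg Subtype.val hn
      simpa [y] using this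
    refine ⟨n none, fun h0 => ?_, ?_⟩
    · rw [h0, zero_smul, zero_add] at hn'
      have h4 := hv (∑ i, ((n (some i) * k : ℝ) • e i).1) (∑ i, ((n (some i) * k : ℝ) • e i).2) (by
        rw [← hn', Finset.sum_smul, Finset.sum_smul, ← Finset.sum_add_distrib]
        refine Finset.sum_congr rfl fun i _ => ?_
        simp only [Prod.smul_fst, Prod.smul_snd, mul_smul, Int.cast_smul_eq_zsmul,
          Nat.cast_smul_eq_nsmul, smul_add, smul_assoc])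
      have h5 := Fintype.linearIndependent_iff.1 hli (fun i => n (some i) * k)
        (Prod.ext (by rw [Prod.fst_sum]; exact h4.1) (by rw [Prod.snd_sum]; exact h4.2))
      cases o with
      | none => exact ho h0
      | some i =>
        have h6 : (k : ℝ) ≠ 0 := by exact_mod_cast hk.ne'
        exact ho (by exact_mod_cast (mul_eq_zero.1 (h5 i)).resolve_right h6)
    · rw [eq_neg_of_add_eq_zero_left hn']
      exact I1.neg_mem (I1.sum_mem fun i _ => I1.smul_mem _ (nsmul_mem (hmem i).1 k))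
  choose ν hν hν' using each
  obtain ⟨T, hT⟩ := Module.Finite.fg_top (R := ℤ) (M := Λ)
  refine ⟨(∏ t ∈ T, ν t).natAbs, Int.natAbs_pos.2 (Finset.prod_ne_zero_iff.2 fun t _ => hν t),
    fun x hx => ?_⟩
  have key : ∀ x : Λ, (∏ t ∈ T, ν t) • (x : V) ∈ I1 := fun x => by
    have hx : x ∈ Submodule.span ℤ (T : Set Λ) := hT ▸ Submodule.mem_top
    induction hx using Submodule.span_induction with
    | mem t ht =>
      obtain ⟨m, hm⟩ := Finset.dvd_prod_of_mem ν (Finset.mem_coe.1 ht)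
      rw [hm, mul_comm, mul_smul]
      exact I1.smul_mem m (hν' t)
    | zero => simp
    | add x y _ _ ha hb => rw [Submodule.coe_add, smul_add]; exact I1.add_mem ha hb
    | smul c x _ ha => rw [Submodule.coe_smul, smul_comm]; exact I1.smul_mem c ha
  have h7 : (∏ t ∈ T, ν t).natAbs • x ∈ I1 := by
    rw [← natCast_zsmul, Int.natCast_natAbs]
    rcases abs_choice (∏ t ∈ T, ν t) with h | h
    · rw [h]; exact key ⟨x, hx⟩
    · rw [h, _root_.neg_smul]; exact I1.neg_mem (key ⟨x, hx⟩)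
  obtain ⟨p, hp, _, ⟨q, hq, rfl⟩, h8⟩ := Submodule.mem_sup.1 h7
  exact ⟨p, hp, q, hq, h8.symm⟩

/-- the first coefficients separate the pair -/
lemma ind_of_coeff {g1 g3 : ℍ → ℂ} {c1 c3 : ℕ → ℂ} (q1 : QS c1 g1) (q3 : QS c3 g3)
    (a1 : c1 1 ≠ 0) (a3 : c3 1 = 0) (c : ℂ) : g1 ≠ c • g3 := fun h => by
  have := congrFun (q1.coeff_eq (h ▸ q3.smul c)) 1
  simp [a3, a1] at this

/-- **both inputs of the lattice comparison, with one multiplier** -/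
theorem pair {L : ℕ} [NeZero L] {S : Finset ℕ} (hS : ∀ l ∈ S, l.Prime ∧ ¬ l ∣ L)
    {g1 g3 h1 h3 : ℍ → ℂ} {c1 c3 : ℕ → ℂ} (hg1 : g1 ∈ CS (Gamma0 L) 2) (hg3 : g3 ∈ CS (Gamma0 L) 2)
    (q1 : QS c1 g1) (q3 : QS c3 g3) (a1 : c1 1 ≠ 0) (a3 : c3 1 = 0)
    (he : ∀ l ∈ S, PairEig l c1 c3)
    (m1 : MDiff h1) (m3 : MDiff h3) (r1 : QS (dep S c1) h1) (r3 : QS (dep S c3) h3)
    (J : V →ₗ[ℂ] V) (v : V) (hJ : J (J v) = (3 : ℂ) • v)
    (hv : ∀ x y : ℂ, x • v + y • J v = 0 → x = 0 ∧ y = 0) (Λ : Submodule ℤ V)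
    [Module.Finite ℤ Λ] (hrk : Module.finrank ℤ Λ ≤ 4)
    (hΛ : ∀ x ∈ Λ, J x ∈ Λ) (Γ : Subgroup SL(2, ℤ)) [Γ.FiniteIndex]
    (hper : ∀ γ ∈ Γ, ∃ k : ℕ, 0 < k ∧ k • pv h1 h3 v (J v) γ ∈ Λ) :
    ∃ k : ℕ, 0 < k ∧ (∀ x ∈ I0 (Gamma0 L) g1 g3 v (J v), (k : ℂ) • x ∈ Λ) ∧
      ∀ x ∈ Λ, ∃ a ∈ I0 (Gamma0 L) g1 g3 v (J v), ∃ b ∈ I0 (Gamma0 L) g1 g3 v (J v),
        (k : ℂ) • x = a + J b := by
  have hind := ind_of_coeff q1 q3 a1 a3
  obtain ⟨k, hk, hle⟩ := pair_le hS hg1 hg3 (by simpa using hind 0) q1 q3 he m1 m3 r1 r3 J v hJ Λ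
    hΛ Γ hper
  obtain ⟨m, hm, hge⟩ := pair_ge hg1 hg3 hind J v hJ hv Λ hrk hΛ hk hle
  refine ⟨k * m, Nat.mul_pos hk hm, fun x hx => ?_, fun x hx => ?_⟩
  · rw [Nat.cast_smul_eq_nsmul, mul_comm, mul_smul]
    exact nsmul_mem (hle x hx) m
  · obtain ⟨a, ha, b, hb, h⟩ := hge x hx
    refine ⟨k • a, nsmul_mem ha k, k • b, nsmul_mem hb k, ?_⟩
    rw [Nat.cast_smul_eq_nsmul, mul_smul, h, smul_add, map_nsmul]

end Crest.Agent.T15.Und
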