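import Crest.Agent.T15.HtDef_95
import Crest.Agent.T15.UndC_98

/-!
# Row 15, block Ht (helper98): the leaf `PerStmt`
-/

set_option autoImplicit false
set_option maxHeartbeats 400000

noncomputable section

namespace Crest.Agent.T15.Ht

open Matrix CongruenceSubgroup
open scoped MatrixGroups UpperHalfPlane

/-- `J2` is `ℂ`-linear -/
def J2c : (Fin 2 → ℂ) →ₗ[ℂ] (Fin 2 → ℂ) where
  toFun x := ![3 * x 1, x 0]
  map_add' x y := by ext i; fin_cases i <;> simp [mul_add]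
  map_smul' c x := by ext i; fin_cases i <;> simp [mul_left_comm]

/-- the first period direction -/
def per0 : Fin 2 → ℂ := ![2 * Real.pi * Complex.I, 0]

lemma per_pv_eq (f : Fin 2 → ℍ → ℂ) :
    Und.pv (f 0) (f 1) per0 (J2c per0) = pv f := by
  funext γ
  ext i
  fin_cases i <;> simp [Und.pv, pv, per0, J2c] <;> ring

lemma per_pc_rec {L : ℕ} {g : ℕ → ℤ} (h : Hk L g) {l : ℕ} (hl : l.Prime) (hL : ¬ l ∣ L)
    (h4 : l % 4 = 1 ∨ l % 4 = 3) (i n : ℕ) :
    Und.Hk l (fun n => (pc i g n : ℂ)) n =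
      if (l * n) % 4 = i then ((3 ^ (ep l * ep n) * g l * g n : ℤ) : ℂ) else 0 := by
  rw [← h.hrec l hl hL n]
  unfold Und.Hk pc
  by_cases hd : l ∣ n
  · obtain ⟨m, rfl⟩ := hd
    have e : (l * (l * m)) % 4 = m % 4 := by
      rw [← mul_assoc, Nat.mul_mod, Nat.mul_mod l l]
      rcases h4 with h4 | h4 <;> simp [h4]
    simp only [Nat.mul_div_cancel_left m hl.pos, e, dvd_mul_right, if_true]
    split_ifs <;> simp
  · simp only [hd, if_false]
    split_ifs <;> simp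

lemma per_pairEig {L : ℕ} {g : ℕ → ℤ} (h : Hk L g) {l : ℕ} (hl : l.Prime) (hL : ¬ l ∣ L) :
    Und.PairEig l (fun n => (pc 1 g n : ℂ)) (fun n => (pc 3 g n : ℂ)) := by
  have h2 : l % 2 = 1 := by
    rcases hl.eq_two_or_odd with rfl | h2
    · exact absurd (Dvd.dvd.trans (by norm_num) h.dvd) hL
    · exact h2
  have h4 : l % 4 = 1 ∨ l % 4 = 3 := by omega
  refine ⟨g l, ?_⟩
  simp only [per_pc_rec h hl hL h4]
  rcases h4 with h4 | h4
  · left
    intro n
    have e : (l * n) % 4 = n % 4 := by rw [Nat.mul_mod, h4]; simp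
    have e0 : ep l = 0 := by simp [ep, h4]
    simp only [e, e0, pc]
    constructor <;> split_ifs <;> simp
  · right
    intro n
    have e : (l * n) % 4 = (3 * (n % 4)) % 4 := by rw [Nat.mul_mod, h4]
    have hn : n % 4 = 0 ∨ n % 4 = 1 ∨ n % 4 = 2 ∨ n % 4 = 3 := by omega
    simp only [e, pc, ep]
    rcases hn with hn | hn | hn | hn <;> simp [hn, h4]

lemma per_dep_eq {L B : ℕ} {g : ℕ → ℤ} (h : Hk L g) (hB : 0 < B) (i : ℕ) :
    Und.dep (B.primeFactors.filter fun l => ¬ l ∣ L) (fun n => (pc i g n : ℂ)) =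
      fun n => (pc i (dep B g) n : ℂ) := by
  funext n
  unfold Und.dep pc dep
  by_cases hc : n.Coprime B
  · rw [if_pos, if_pos hc]
    intro l hl hn
    have hl' := Nat.mem_primeFactors.1 (Finset.mem_filter.1 hl).1
    exact hl'.1.one_lt.ne' (Nat.eq_one_of_dvd_coprimes hc hn hl'.2.1)
  · obtain ⟨p, hp, hn, hpB⟩ := Nat.Prime.not_coprime_iff_dvd.1 hc
    by_cases hL : p ∣ L
    · have : g n = 0 := h.sup n (Nat.Prime.not_coprime_iff_dvd.2 ⟨p, hp, hn, hL⟩)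
      simp [this]
    · rw [if_neg, if_neg hc]
      · simp
      · exact fun H => H p (Finset.mem_filter.2 ⟨Nat.mem_primeFactors.2 ⟨hp, hpB, hB.ne'⟩, hL⟩) hn

/-- **leaf PER** -/
theorem perStmt : PerStmt := by
  intro L L' B g f f' Λ _ hk hf hB hL' hf' hrk hΛ hper
  have : NeZero L := ⟨hk.pos.ne'⟩
  have : NeZero L' := ⟨hL'.ne'⟩
  have hπ : (2 * Real.pi * Complex.I : ℂ) ≠ 0 := Complex.two_pi_I_ne_zero
  obtain ⟨k, hk0, h1, h2⟩ := Und.pair (L := L) (S := B.primeFactors.filter fun l => ¬ l ∣ L)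
    (fun l hl => ⟨(Nat.mem_primeFactors.1 (Finset.mem_filter.1 hl).1).1, (Finset.mem_filter.1 hl).2⟩)
    (hf.cs 0) (hf.cs 1) hf.q1 hf.q3 (by simp [pc, hk.one]) (by simp [pc])
    (fun l hl => per_pairEig hk (Nat.mem_primeFactors.1 (Finset.mem_filter.1 hl).1).1
      (Finset.mem_filter.1 hl).2)
    (hf'.cs 0).1 (hf'.cs 1).1 (by rw [per_dep_eq hk hB]; exact hf'.q1)
    (by rw [per_dep_eq hk hB]; exact hf'.q3) J2c per0
    (by ext i; fin_cases i <;> simp [J2c, per0])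
    (fun x y hxy => ⟨by simpa [J2c, per0, hπ] using congrFun hxy 0,
      by simpa [J2c, per0, hπ] using congrFun hxy 1⟩)
    Λ hrk.le hΛ (Gamma0 L') (by rw [per_pv_eq]; exact hper)
  have hI : Und.I0 (Gamma0 L) (f 0) (f 1) per0 (J2c per0) = I0 L f := by
    rw [Und.I0, per_pv_eq]; rfl
  rw [hI] at h1 h2
  refine ⟨k, hk0, fun v hv => ?_, fun x hx => ?_⟩
  · have := h1 v hv
    rwa [Nat.cast_smul_eq_nsmul, ← Nat.cast_smul_eq_nsmul ℚ] at this
  · obtain ⟨a, ha, b, hb, e⟩ := h2 x hx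
    refine ⟨a, ha, b, hb, ?_⟩
    rw [Nat.cast_smul_eq_nsmul, ← Nat.cast_smul_eq_nsmul ℂ, e]
    rfl

end Crest.Agent.T15.Ht
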