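import Crest.Agent.T15.RDef_20
import Crest.Agent.T15.TopB_88

/-!
# Row 15, block R (helper20): arithmetic lemmas for the modularity lifting step
-/

set_option autoImplicit false

noncomputable section

namespace Crest.Agent.T15.R

open Matrix IsLocalRing Function NumberField
open Crest.Agent.T15.Ps Crest.Agent.T15.Pat Crest.Agent.T15.Hk
open Crest.Agent.T15.C (Gam Om In De Hyp IsEig TWStmt)
open Crest.Agent.T15.Top (Lc Plc IsFr Coef Cn Mod Loc mp DetCyc IsTr Res Lift Op)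
open Crest.Agent.R018.Placesx484

/-! ### places, Frobenius elements, complex conjugation -/

theorem exists_plc {l : ℕ} (hl : l.Prime) : ∃ P : Plc, P.rchar = l := by
  have hp : Prime (l : 𝓞 ℚ) := by
    have := (MulEquiv.prime_iff Rat.ringOfIntegersEquiv.symm).2 (Nat.prime_iff_prime_int.1 hl)
    rwa [map_natCast] at this
  let R : Place ℚ := ⟨Ideal.span {(l : 𝓞 ℚ)}, (Ideal.span_singleton_prime hp.ne_zero).2 hp,
    by simpa using hp.ne_zero⟩
  obtain ⟨P, hP⟩ := Place.exists_res_eq (E := Om) ℚ R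
  refine ⟨P, ?_⟩
  rw [← Place.rchar_res ℚ P, hP]
  exact Place.rchar_eq_of_mem _ hl (Ideal.mem_span_singleton_self _)

theorem exists_fr {l : ℕ} (hl : l.Prime) : ∃ (P : Plc) (s : Gam), P.rchar = l ∧ IsFr P s := by
  obtain ⟨P, hP⟩ := exists_plc hl
  obtain ⟨s, -, hs⟩ := Crest.Agent.R018.FDEx389.exists_frobQ P
  exact ⟨P, s, hP, hs⟩

theorem exists_root {n : ℕ} (hn : n ≠ 0) : ∃ ζ : Om, IsPrimitiveRoot ζ n := by
  have : NeZero n := ⟨hn⟩
  exact HasEnoughRootsOfUnity.exists_primitiveRoot Om n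

/-- complex conjugation -/
theorem exists_cc : ∃ c : Gam, c * c = 1 ∧ ∀ (n : ℕ) (ζ : Om), n ≠ 0 → ζ ^ n = 1 → c ζ = ζ⁻¹ := by
  let ι : Om →+* ℂ := (IsAlgClosed.lift (R := ℚ) (S := Om) (M := ℂ)).toRingHom
  obtain ⟨σ, hσ⟩ := ComplexEmbedding.exists_comp_symm_eq_of_comp_eq (k := ℚ) ι
    (ComplexEmbedding.conjugate ι) (Subsingleton.elim _ _)
  have h : ∀ x, ι (σ.symm x) = starRingEnd ℂ (ι x) := fun x => DFunLike.congr_fun hσ x
  refine ⟨σ.symm, AlgEquiv.ext fun x => ι.injective ?_, fun n ζ hn hζ => ι.injective ?_⟩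
  · rw [AlgEquiv.mul_apply, h, h, Complex.conj_conj, AlgEquiv.one_apply]
  · rw [h, map_inv₀, Complex.inv_eq_conj]
    exact Complex.norm_eq_one_of_pow_eq_one (by rw [← map_pow, hζ, map_one]) hn

/-! ### the coefficient ring -/

variable {O : Type} [CommRing O] [IsDomain O] [IsDiscreteValuationRing O] [hO : Coef O]

theorem cpt : Cpt (maximalIdeal O) :=
  haveI := hO.cpl
  haveI : Finite (O ⧸ maximalIdeal O) := hO.fin
  cpt_of _

theorem charP_res : CharP (ResidueField O) 3 := by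
  have h : ((3 : ℕ) : ResidueField O) = 0 := by
    rw [← map_natCast (residue O), residue_eq_zero_iff]; exact_mod_cast hO.h3
  exact (CharP.charP_iff_prime_eq_zero Nat.prime_three).2 h

theorem span_le (n : ℕ) : Ideal.span {(3 : O) ^ n} ≤ maximalIdeal O ^ n :=
  (Ideal.span_singleton_le_iff_mem _).2 (Ideal.pow_mem_pow hO.h3 n)

theorem finite_Cn (n : ℕ) : Finite (Cn O n) := by
  have := hO.cz
  obtain ⟨ϖ, hϖ⟩ := IsDiscreteValuationRing.exists_irreducible O
  obtain ⟨m, hm⟩ := IsDiscreteValuationRing.ideal_eq_span_pow_irreducible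
    (s := Ideal.span {(3 : O) ^ n}) (by simp) hϖ
  have h := (cpt (O := O)).fin m
  rw [hϖ.maximalIdeal_eq, Ideal.span_singleton_pow, ← hm] at h
  exact h

theorem eq_of_three {x y : O} (h : ∀ n : ℕ, x - y ∈ Ideal.span {(3 : O) ^ n}) : x = y :=
  sub_eq_zero.1 ((cpt (O := O)).eq_zero fun n => span_le n (h n))

variable {ρ : Gam →* M2 O}

theorem det_fr (h : DetCyc ρ) {P : Plc} {s : Gam} (hP : P.rchar ≠ 3) (hs : IsFr P s) :
    (ρ s).det = P.rchar :=
  eq_of_three fun n => by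
    obtain ⟨ζ, hζ⟩ := exists_root (pow_ne_zero n three_ne_zero)
    refine h s n _ ζ hζ (Place.frob_root P hs (fun h3 => hP ?_) hζ.pow_eq_one)
    exact (Nat.prime_dvd_prime_iff_eq P.rchar_prime Nat.prime_three).1
      (P.rchar_prime.dvd_of_dvd_pow h3)

theorem exists_odd (h : DetCyc ρ) : ∃ c : Gam, c * c = 1 ∧ (ρ c).det = -1 := by
  obtain ⟨c, h1, h2⟩ := exists_cc
  refine ⟨c, h1, eq_of_three fun n => ?_⟩
  have h0 : 3 ^ n ≠ 0 := pow_ne_zero n three_ne_zero
  obtain ⟨ζ, hζ⟩ := exists_root h0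
  have h3 := h c n (3 ^ n - 1) ζ hζ (by
    rw [h2 _ ζ h0 hζ.pow_eq_one]
    refine inv_eq_of_mul_eq_one_left ?_
    rw [← pow_succ, Nat.sub_add_cancel (Nat.pos_of_ne_zero h0), hζ.pow_eq_one])
  rw [Nat.cast_sub (Nat.pos_of_ne_zero h0)] at h3
  have h4 := Ideal.add_mem _ h3 (Ideal.mem_span_singleton_self ((3 : O) ^ n))
  convert h4 using 1
  push_cast
  ring

/-! ### the residual representation -/

section res
variable {k : Type} [Field k] {ρ : Gam →* M2 k}

theorem irr_of_hyp (h : Hyp ρ) : Irr ρ := fun v hv => by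
  have h1 : ∀ A : M2 k, ∃ t : k, A *ᵥ v = t • v := fun A => by
    have hA : A ∈ Submodule.span k (ρ '' {g | g C.om = C.om}) := h.span ▸ Submodule.mem_top
    induction hA using Submodule.span_induction with
    | mem x hx => obtain ⟨g, -, rfl⟩ := hx; exact hv g
    | zero => exact ⟨0, by simp⟩
    | add x y _ _ hx hy =>
      obtain ⟨a, ha⟩ := hx
      obtain ⟨b, hb⟩ := hy
      exact ⟨a + b, by rw [add_mulVec, ha, hb, add_smul]⟩
    | smul c x _ hx =>
      obtain ⟨a, ha⟩ := hx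
      exact ⟨c * a, by rw [smul_mulVec, ha, mul_smul]⟩
  obtain ⟨a, ha⟩ := h1 !![0, 1; 0, 0]
  obtain ⟨b, hb⟩ := h1 !![0, 0; 1, 0]
  have a0 := congrFun ha 0
  have a1 := congrFun ha 1
  have b0 := congrFun hb 0
  have b1 := congrFun hb 1
  simp [mulVec, dotProduct, Fin.sum_univ_two] at a0 a1 b0 b1
  ext i
  fin_cases i
  · rcases b0 with h | h
    · simpa [h] using b1
    · simpa using h
  · rcases a1 with h | h
    · simpa [h] using a0
    · simpa using h

theorem exists_noncomm (h : Hyp ρ) : ∃ x y : Gam, ρ x * ρ y ≠ ρ y * ρ x := by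
  by_contra hc
  push Not at hc
  have hA : ∀ A : M2 k, A ∈ Submodule.span k (ρ '' {g | g C.om = C.om}) := fun A =>
    h.span ▸ Submodule.mem_top
  have h1 : ∀ (A : M2 k) (y : Gam), A * ρ y = ρ y * A := fun A y => by
    have hA := hA A
    induction hA using Submodule.span_induction with
    | mem x hx => obtain ⟨g, -, rfl⟩ := hx; exact hc g y
    | zero => simp
    | add x y _ _ hx hy => rw [add_mul, mul_add, hx, hy]
    | smul c x _ hx => rw [smul_mul_assoc, mul_smul_comm, hx]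
  have h2 : ∀ A B : M2 k, A * B = B * A := fun A B => by
    have hB := hA B
    induction hB using Submodule.span_induction with
    | mem x hx => obtain ⟨g, -, rfl⟩ := hx; exact h1 A g
    | zero => simp
    | add x y _ _ hx hy => rw [add_mul, mul_add, hx, hy]
    | smul c x _ hx => rw [smul_mul_assoc, mul_smul_comm, hx]
  have := congrFun (congrFun (h2 !![0, 1; 0, 0] !![0, 0; 1, 0]) 0) 0
  simp [mul_apply, Fin.sum_univ_two] at this

/-- there is no unipotent element in the image -/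
theorem eq_one_of_unip [CharP k 3] (h : Hyp ρ) {g : Gam} (hd : (ρ g).det = 1)
    (ht : (ρ g).trace = 2) : ρ g = 1 := by
  have h3 : (3 : k) = 0 := CharP.cast_eq_zero k 3
  have e := Inert.sq_eq (ρ g)
  rw [hd, ht, one_smul] at e
  have e3 : ρ g ^ 3 = 1 := by
    rw [pow_three, e, mul_sub, mul_smul_comm, e, mul_one, smul_sub, smul_smul, sub_sub, add_comm,
      ← sub_sub]
    nth_rewrite 2 [← one_smul k (ρ g)]
    rw [← sub_smul, show (2 * 2 - 1 : k) = 0 by linear_combination h3, zero_smul, zero_sub,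
      ← neg_smul, show (-2 : k) = 1 by linear_combination -h3, one_smul]
  have em : ρ g ^ ρ.ker.index = 1 := by
    rw [← map_pow]; exact Subgroup.pow_index_mem ρ.ker g
  have := pow_gcd_eq_one.2 ⟨e3, em⟩
  rwa [(Nat.Prime.coprime_iff_not_dvd Nat.prime_three).2 h.idx, pow_one] at this

theorem isOpen_fibre {M : Type*} [Monoid M] {f : Gam →* M} (h : IsOpen (f.ker : Set Gam)) (g : Gam) :
    IsOpen {s : Gam | f (g⁻¹ * s) = 1} := h.preimage (continuous_const.mul continuous_id)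

end res

variable {N L : ℕ} {a : ℕ → O}

theorem nEis (hd : DetCyc ρ) (h : Hyp (mp (residue O) ρ)) (hL : L ≠ 0) (hT : IsTr ρ (3 * L) a) :
    NEis a := fun M B hM => by
  have := charP_res (O := O)
  set ρ₀ := mp (residue O) ρ with hρ₀
  obtain ⟨x, y, hxy⟩ := exists_noncomm h
  obtain ⟨ζ, hζ⟩ := exists_root hM
  have : NeZero M := ⟨hM⟩
  set g := x * y * x⁻¹ * y⁻¹ with hg
  have g1 : g ζ = ζ := by
    have e : hζ.autToPow ℚ g = 1 := by
      rw [hg]; simp only [map_mul, map_inv]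
      rw [mul_inv_cancel_comm, mul_inv_cancel]
    have := hζ.autToPow_spec ℚ g
    rw [e] at this
    rw [← this]
    rcases Nat.lt_or_ge 1 M with h1 | h1
    · have : Fact (1 < M) := ⟨h1⟩
      simp [ZMod.val_one]
    · obtain rfl : M = 1 := by omega
      simp [IsPrimitiveRoot.one_right_iff.1 hζ]
  have g2 : (ρ₀ g).det = 1 := by
    have e := map_one (detMonoidHom.comp ρ₀)
    have e1 := map_mul (detMonoidHom.comp ρ₀) x x⁻¹
    have e2 := map_mul (detMonoidHom.comp ρ₀) y y⁻¹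
    rw [mul_inv_cancel, e] at e1 e2
    change (detMonoidHom.comp ρ₀) g = 1
    rw [hg, map_mul, map_mul, map_mul]
    linear_combination -((detMonoidHom.comp ρ₀) y * (detMonoidHom.comp ρ₀) y⁻¹) * e1 - e2
  have g3 : (ρ₀ g).trace ≠ 2 := fun ht => hxy (by
    have e := eq_one_of_unip h g2 ht
    rw [← map_mul, ← map_mul, show x * y = g * (y * x) by rw [hg]; group, map_mul, e, one_mul])
  have ho : IsOpen ({s : Gam | ρ₀ (g⁻¹ * s) = 1} ∩ (MulAction.stabilizer Gam ζ : Set Gam)) :=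
    (isOpen_fibre h.opn g).inter (stabilizer_isOpen_of_isIntegral ζ)
  obtain ⟨s, ⟨P, hP, hs⟩, s1, s2⟩ := (Cheb.dense_frob (E := Om) (B + 3 * L + M)).exists_mem_open ho
    ⟨g, by rw [Set.mem_ofPred_eq, inv_mul_cancel, map_one], g1⟩
  have s3 : ρ₀ s = ρ₀ g := by
    rw [← mul_inv_cancel_left g s, map_mul, show ρ₀ (g⁻¹ * s) = 1 from s1, mul_one]
  have hM' : ¬ P.rchar ∣ M := fun hh => by have := Nat.le_of_dvd (by omega) hh; omega
  have hL' : ¬ P.rchar ∣ 3 * L := fun hh => by have := Nat.le_of_dvd (by omega) hh; omega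
  refine ⟨P.rchar, P.rchar_prime, by omega, ?_, ?_⟩
  · have e := Place.frob_root P hs hM' hζ.pow_eq_one
    rw [show s • ζ = ζ from s2] at e
    rw [hζ.eq_orderOf, ← (hζ.isOfFinOrder hM).pow_eq_pow_iff_modEq, pow_one]
    exact e.symm
  · rw [← residue_ne_zero_iff_isUnit, ← hT P s hL' hs, ← det_fr hd (by omega) hs, map_sub, map_sub,
      ← Top.trace_mp, ← Top.det_mp, ← hρ₀, s3, g2, map_one]
    exact fun hh => g3 (by linear_combination hh)

theorem tWa (hd : DetCyc ρ) (h : Res (mp (residue O) ρ) N) (hT : IsTr ρ (3 * L) a) {n q : ℕ}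
    (hq : Gd L q) (h3 : 3 ^ (n + 1) ∣ q - 1)
    (hs : ∀ (P : Plc) (s : Gam), P.rchar = q → IsFr P s →
      (mp (residue O) ρ s).trace ^ 2 ≠ 4 * (mp (residue O) ρ s).det) : TWa L a n q := by
  obtain ⟨P, s, rfl, hs'⟩ := exists_fr hq.1
  have e1 := hT P s hq.2 hs'
  have e2 := det_fr hd (fun hh => hq.2 (hh ▸ dvd_mul_right 3 L)) hs'
  refine ⟨hq, h3, ?_, ?_⟩
  · rw [← residue_ne_zero_iff_isUnit, ← e1, ← e2, map_sub, map_pow, map_mul, ← Top.trace_mp,
      ← Top.det_mp, map_ofNat]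
    exact sub_ne_zero.2 (hs P s rfl hs')
  · obtain ⟨x, y, h1, h2⟩ := h.split s
    obtain ⟨α, rfl⟩ := residue_surjective x
    refine ⟨α, ?_⟩
    rw [← residue_eq_zero_iff, ← e1, ← e2, map_add, map_sub, map_pow, map_mul, ← Top.trace_mp,
      ← Top.det_mp, ← h1, ← h2]
    ring

theorem exists_glob {X : Lc} (h : Res (mp (residue O) ρ) N) (hl : Lift X ρ) :
    ∃ Pl : N.primeFactors → Plc, (∀ l, (Pl l).rchar = l) ∧ RT.Glob 3 ρ Pl := by
  choose Pl hPl using fun l : N.primeFactors => exists_plc (Nat.prime_of_mem_primeFactors l.2)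
  have hd : ∀ l, (Pl l).rchar ∣ N := fun l => hPl l ▸ Nat.dvd_of_mem_primeFactors l.2
  have h3 : ∀ l, (Pl l).rchar ≠ 3 := fun l hh => h.three (hh ▸ hd l)
  refine ⟨Pl, hPl, Nat.prime_three, by norm_num, by exact_mod_cast hO.h3, cpt, irr_of_hyp h.hyp,
    exists_odd hl.det, h3, fun l => hl.min _ (h3 l), fun l => ?_⟩
  obtain ⟨s, hs, hs'⟩ := h.ram _ (hd l)
  refine ⟨s, hs, ?_⟩
  rw [← residue_ne_zero_iff_isUnit, map_sub, map_pow, map_mul, ← Top.trace_mp, ← Top.det_mp,
    map_ofNat]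
  exact hs'

end Crest.Agent.T15.R

end
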