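import Crest.Agent.T15.RL_78
import Crest.Agent.T15.RG_20

/-!
# Row 15, block R (helper78): the assembly `RStmt`
-/

set_option autoImplicit false

noncomputable section

namespace Crest.Agent.T15.R

open Matrix IsLocalRing Function NumberField
open Crest.Agent.T15.Ps Crest.Agent.T15.Pat Crest.Agent.T15.Hk Crest.Agent.T15.Eig
open Crest.Agent.T15.C (Gam Om In De)
open Crest.Agent.T15.Top

lemma exists_supp_78 {ι : Type*} (p : FreeAlgebra ℤ ι) :
    ∃ S : Set ι, S.Finite ∧ p ∈ Algebra.adjoin ℤ (FreeAlgebra.ι ℤ '' S) := by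
  have hm : ∀ {S S' : Set ι} {q : FreeAlgebra ℤ ι}, S ⊆ S' →
      q ∈ Algebra.adjoin ℤ (FreeAlgebra.ι ℤ '' S) →
      q ∈ Algebra.adjoin ℤ (FreeAlgebra.ι ℤ '' S') := fun h hq =>
    Algebra.adjoin_mono (Set.image_mono h) hq
  induction p using FreeAlgebra.induction with
  | grade0 r => exact ⟨∅, Set.finite_empty, Subalgebra.algebraMap_mem _ r⟩
  | grade1 x => exact ⟨{x}, Set.finite_singleton x, Algebra.subset_adjoin ⟨x, rfl, rfl⟩⟩
  | mul a b ha hb =>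
    obtain ⟨S, hS, ha⟩ := ha
    obtain ⟨S', hS', hb⟩ := hb
    exact ⟨S ∪ S', hS.union hS',
      mul_mem (hm Set.subset_union_left ha) (hm Set.subset_union_right hb)⟩
  | add a b ha hb =>
    obtain ⟨S, hS, ha⟩ := ha
    obtain ⟨S', hS', hb⟩ := hb
    exact ⟨S ∪ S', hS.union hS',
      add_mem (hm Set.subset_union_left ha) (hm Set.subset_union_right hb)⟩

lemma isTr_level_78 {R : Type*} [CommRing R] {ρ : Gam →* M2 R} {N L : ℕ} {a : ℕ → R}
    (h : IsTr ρ (3 * N) a) (hNL : N ∣ L) : IsTr ρ (3 * L) a := fun P g hP hg =>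
  h P g (fun h' => hP (h'.trans (Nat.mul_dvd_mul_left 3 hNL))) hg

lemma lift_aeval_78 {ι κ O : Type*} [CommRing O] (a : ι → O) (f : ι → κ) (t : κ → O)
    (h : ∀ i, a i = t (f i)) (p : FreeAlgebra ℤ ι) : FreeAlgebra.lift ℤ a p = MvPolynomial.aeval t
      (FreeAlgebra.lift ℤ (fun i => (MvPolynomial.X (f i) : MvPolynomial κ O)) p) := by
  induction p using FreeAlgebra.induction with
  | grade0 r => simp
  | grade1 x => simp [h]
  | mul a b ha hb => simp only [map_mul, ha, hb]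
  | add a b ha hb => simp only [map_add, ha, hb]

theorem rStmt_78 : RStmt := by
  intro X G _ 𝓛 hRT hW hθ h3 hT hE
  classical
  obtain ⟨e, hθ⟩ := hθ
  refine ⟨1, e, fun O _ _ _ _ N ρ a hi hR hD hL ha => ?_⟩
  obtain ⟨L, θ, hL0, hLe, h16, hNL, hLN, hθe, hθt, hσ⟩ :=
    hθ (ResidueField O) (mp (residue O) ρ) N hR.pos hD
  refine ⟨L, hL0, by rw [one_mul]; exact_mod_cast hLe, hNL, hLN, fun j => ?_⟩
  have hcz := (inferInstance : Coef O).cz
  have hfin := (inferInstance : Coef O).fin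
  have hch : CharP (ResidueField O) 3 := Sel.charP_coef O
  have h4 : 4 ∣ L := (by norm_num : 4 ∣ 16).trans h16
  have h3L : ¬ 3 ∣ L := fun h => hR.three (hLN 3 Nat.prime_three h)
  have hLN' : ∀ l : ℕ, l.Prime → (l ∣ L ↔ l ∣ N) := fun l hl =>
    ⟨hLN l hl, fun h => h.trans hNL⟩
  obtain ⟨hG, hA⟩ := hT L hL0 h4 h3L
  have := hG.fg
  have := hG.free
  have ha' : IsTr ρ (3 * L) a := isTr_level_78 ha hNL
  have hne : NEis a := nEis hL.det hR.hyp hL0.ne' ha'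
  have hc : ∀ i i' : {p // Gd L p}, T ℚ (𝓛.c L i.1) * T ℚ (𝓛.c L i'.1) =
      T ℚ (𝓛.c L i'.1) * T ℚ (𝓛.c L i.1) := fun i i' => hG.comm _ _ i.2 i'.2
  obtain ⟨φ, hφ0, hφ⟩ := (hE L _ hL0 h4).1 hθe
  obtain ⟨v₀, γ, hv, hv₀⟩ := theta_point (c := fun i : {p // Gd L p} => 𝓛.c L i.1) hc
    (Int.castRingHom ℂ) Int.cast_injective (Int.castRingHom O) (b₀ := fun i => θ i.1) hφ0
    (fun i => hφ i.1 i.2)
  have hfr' : ∀ i : {p // Gd L p}, ∃ (s : Gam) (P : Plc), P.rchar = i.1 ∧ IsFr P s := fun i => by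
    obtain ⟨P, s, h1, h2⟩ := exists_fr i.2.1
    exact ⟨s, P, h1, h2⟩
  choose fr hfr using hfr'
  have hb : ∀ p, Gd L p → (θ p : O) - a p ∈ maximalIdeal O ∧
      T O (𝓛.c L p) v₀ = (θ p : O) • v₀ := fun p hp => by
    refine ⟨?_, hv₀ ⟨p, hp⟩⟩
    obtain ⟨P, s, h1, h2⟩ := exists_fr hp.1
    have e1 := isTr_level_78 hθt hNL P s (h1 ▸ hp.2) h2
    have e2 := ha' P s (h1 ▸ hp.2) h2
    rw [trace_mp, e2, h1] at e1
    rw [← residue_eq_zero_iff, map_sub, e1, map_intCast, sub_self]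
  obtain ⟨Pl, hPl, hGl⟩ := exists_glob hR hL
  obtain ⟨s, hs⟩ := exists_card_le (𝓛.Γ L)
  obtain ⟨r, hr⟩ := Sel.tw_bound hW hR.hyp
  obtain ⟨i₀, hi₀⟩ := hi
  have key : ∀ p, W ℚ (fun i : {p // Gd L p} => 𝓛.c L i.1) p = 0 →
      FreeAlgebra.lift ℤ (fun i : {p // Gd L p} => a i.1) p = 0 := fun p hp => by
    obtain ⟨S, hS, hpS⟩ := exists_supp_78 p
    obtain ⟨B, hB⟩ := (hS.image Subtype.val).bddAbove
    have h0 := RT.rt_ex hRT (J' := maximalIdeal O) (O' := O) (r := r) (e := 1) (s := s) hGl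
      (Sel.cpt_coef O)
      (P := FreeAlgebra.lift ℤ (fun i => (MvPolynomial.X (fr i) : MvPolynomial Gam O)) p)
      fun n => ?_
    · rw [← h0]
      refine lift_aeval_78 _ _ _ (fun i => ?_) p
      obtain ⟨P, h1, h2⟩ := hfr i
      rw [ha' P _ (h1 ▸ i.2.2) h2, h1]
    obtain ⟨Q, hQr, hQ, hBd⟩ := hr (n + 1) (B + 3 * L)
    let q : Fin r → ℕ := fun i => (Q.equivFinOfCardEq hQr).symm i
    have hqi : Injective q := Subtype.val_injective.comp (Equiv.injective _)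
    have hqQ : ∀ i, q i ∈ Q := fun i => Subtype.property _
    have hQq : Finset.univ.image q = Q := by
      ext x
      simp only [Finset.mem_image, Finset.mem_univ, true_and]
      exact ⟨fun ⟨i, hi⟩ => hi ▸ hqQ i, fun hx => ⟨Q.equivFinOfCardEq hQr ⟨x, hx⟩, by simp [q]⟩⟩
    have hq : ∀ i, Gd L (q i) := fun i => ⟨(hQ _ (hqQ i)).1, fun h => by
      have := Nat.le_of_dvd (by omega) h
      have := (hQ _ (hqQ i)).2.1
      omega⟩
    obtain ⟨Δ, _, _, del, δ, H, _, _, _, _, ρH, Tp, dia, kap, lam, Y⟩ :=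
      hA O a hne n r q hqi fun i => tWa hL.det hR ha' (hq i) (hQ _ (hqQ i)).2.2.1
        fun P s h1 h2 => ((hQ _ (hqQ i)).2.2.2 P h1).2 s (h1 ▸ h2)
    have := Sel.finite_Cn O (n + 1)
    obtain ⟨σ, hσo, hσt, hσI⟩ := hσ (Cn O (n + 1)) (algebraMap O _ i₀)
      (by rw [← map_pow, hi₀, map_neg, map_one])
      ⟨n + 1, by
        rw [← map_ofNat (algebraMap O (Cn O (n + 1))) 3, ← map_pow]
        exact Ideal.Quotient.eq_zero_iff_mem.2 (Ideal.subset_span rfl)⟩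
    have k1 : ∀ l : ℕ, l.Prime → l ∣ N → ∃ j, (Pl j).rchar = l := fun l hl hlN =>
      ⟨⟨l, Nat.mem_primeFactors.2 ⟨hl, hlN, hR.pos.ne'⟩⟩, hPl _⟩
    have k2 : ∀ j, (Pl j).rchar ≠ 3 := fun l h => by
      rw [hPl] at h
      exact hR.three (h ▸ Nat.dvd_of_mem_primeFactors l.2)
    have k3 : S ⊆ {i | ∀ j, i.1 ≠ q j} := fun i hi j hij => by
      have h1 : i.1 ≤ B := hB ⟨i, hi, rfl⟩
      have h2 := (hQ _ (hqQ j)).2.1
      omega
    exact levE_of hR hL ha' hL0 hLN' k1 k2 h3 (hQq ▸ hBd) hq (hs _) hv hb hσo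
      (by simpa only [map_intCast] using isTr_level_78 hσt hNL) hσI hfr
      (Algebra.adjoin_mono (Set.image_mono k3) hpS) hp Y
  obtain ⟨ψ, hψ0, hψ⟩ := last_step (A := ℚ) (c := fun i : {p // Gd L p} => 𝓛.c L i.1) hc
    (RingHom.id O) injective_id j (fun i : {p // Gd L p} => a i.1) key
  refine (hE L _ hL0 h4).2 ⟨ψ, hψ0, fun p hp => hψ ⟨p, hp⟩⟩ ?_
  obtain ⟨p, hp, hpB, hp1, hu⟩ := hne L (3 * L) hL0.ne'
  refine ⟨p, ⟨hp, fun h => ?_⟩, hp1, fun h => (hu.map j).ne_zero ?_⟩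
  · have := Nat.le_of_dvd (by omega) h
    omega
  · rw [map_sub, map_sub, map_natCast, map_one, h]
    ring

end Crest.Agent.T15.R

end
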