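import Crest.Agent.T15.HonF_74
import Crest.Agent.T15.RbA_67
import Crest.Agent.T15.CgB_84

/-!
# Row 15, block Ht (helper74): the inertia field, globalisation of the Honda integrality
-/

set_option autoImplicit false
set_option linter.all false

noncomputable section

namespace Crest.Agent.T15.Hon

open scoped NNReal PowerSeries
open PowerSeries NumberField Crest.Agent.R018.Placesx484
open Crest.Agent.T15.C (Om Gam In IsFr)

/-! ## the norm of a place -/

/-- the normalised norm of a place of `ℚ̄` -/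
def vO (P : Place Om) : Valuation Om ℝ≥0 :=
  (NormedField.valuation (K := Cg.CP P)).comap (Cg.emb P)

section place

variable (P : Place Om)

theorem coe_vO (x : Om) : (vO P x : ℝ) = Cg.av P x := Cg.norm_emb P x

theorem vO_le_one (x : Om) : vO P x ≤ 1 ↔ P.v x ≤ 1 := by
  rw [← NNReal.coe_le_coe, coe_vO, ← Cg.av_le_one_iff']; rfl

theorem vO_lt_one (x : Om) : vO P x < 1 ↔ P.v x < 1 := by
  rw [← NNReal.coe_lt_coe, coe_vO, ← Cg.av_lt_one_iff]; rfl

theorem vO_eq_one (x : Om) : vO P x = 1 ↔ P.v x = 1 := by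
  rw [le_antisymm_iff, le_antisymm_iff, vO_le_one, ← not_lt (a := vO P x), ← not_lt (a := P.v x),
    vO_lt_one]

theorem vO_int (x : 𝓞 Om) : vO P (algebraMap _ _ x) ≤ 1 := (vO_le_one P _).2 (P.v_int_le_one x)

theorem vO_int_lt (x : 𝓞 Om) : vO P (algebraMap _ _ x) < 1 ↔ x ∈ P.ideal :=
  (vO_lt_one P _).trans (P.v_int_lt_one_iff x)

theorem vO_of_isIntegral {x : Om} (h : IsIntegral ℤ x) : vO P x ≤ 1 := vO_int P ⟨x, h⟩

theorem vO_smul {g : Gam} (hg : g • P = P) (x : Om) : vO P (g x) = vO P x := by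
  ext; rw [coe_vO, coe_vO, Cg.av_smul P hg]

theorem vO_natCast_eq_one (n : ℕ) : vO P n = 1 ↔ ¬ P.rchar ∣ n :=
  (vO_eq_one P _).trans (P.v_natCast_eq_one_iff n)

theorem vO_natCast_lt_one (n : ℕ) : vO P n < 1 ↔ P.rchar ∣ n := by
  rw [(v_natCast_le (vO P) n).lt_iff_ne, ne_eq, vO_natCast_eq_one, not_not]

theorem vO_rchar_lt : vO P P.rchar < 1 := (vO_natCast_lt_one P _).2 dvd_rfl

theorem vO_rchar_ne : vO P P.rchar ≠ 0 := by simpa using P.rchar_prime.ne_zero

variable {P}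

theorem isFr_smul {φ : Gam} (h : IsFr P P.rchar φ) : φ • P = P :=
  Cg.frob_mem P P.rchar_prime.ne_zero h

theorem vO_frob {φ : Gam} {q : ℕ} (h0 : φ • P = P) (h : IsFr P q φ) {x : Om} (hx : vO P x ≤ 1) :
    vO P (φ x - x ^ q) < 1 := by
  obtain ⟨a, s, hs, e⟩ := (P.mem_val x).1 ((P.v_le_one_iff x).1 ((vO_le_one P x).1 hx))
  have h1 : vO P (algebraMap _ _ s) = 1 :=
    le_antisymm (vO_int P s) (not_lt.1 fun h => hs ((vO_int_lt P s).1 h))
  have hf : ∀ y : 𝓞 Om, vO P (φ (algebraMap _ _ y) - algebraMap _ _ y ^ q) < 1 := fun y => by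
    have := (vO_int_lt P _).2 (h y)
    rwa [map_sub, map_pow, Place.smul_coe] at this
  have e2 : (φ x - x ^ q) * (φ (algebraMap _ _ s) * algebraMap _ _ s ^ q) =
      (φ (algebraMap _ _ a) - algebraMap _ _ a ^ q) * algebraMap _ _ s ^ q -
        algebraMap _ _ a ^ q * (φ (algebraMap _ _ s) - algebraMap _ _ s ^ q) := by
    rw [← e, map_mul]; ring
  have e3 := congrArg (vO P) e2
  rw [map_mul, map_mul, vO_smul P h0, map_pow, h1, one_pow, mul_one, mul_one] at e3
  rw [e3]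
  refine (vO P).map_sub_lt ?_ ?_ <;> rw [map_mul, map_pow]
  · rw [h1, one_pow, mul_one]; exact hf a
  · exact mul_lt_one_of_nonneg_of_lt_one_right (pow_le_one' (vO_int P a) _) zero_le (hf s)

theorem vO_inertia {g : Gam} (hg : g ∈ In P) {x : Om} (hx : vO P x ≤ 1) : vO P (g x - x) < 1 :=
  (vO_lt_one P _).2 (P.v_smul_sub_lt_one hg x ((vO_le_one P x).1 hx))

end place

/-- an element which is integral at every place is an algebraic integer -/
theorem isIntegral_of_forall {x : Om} (h : ∀ P : Place Om, vO P x ≤ 1) : IsIntegral ℤ x := by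
  let J : Ideal (𝓞 Om) :=
    { carrier := {s | IsIntegral ℤ (x * algebraMap _ _ s)}
      add_mem' := fun {s t} hs ht => by
        simpa only [Set.mem_setOf_eq, map_add, mul_add] using IsIntegral.add hs ht
      zero_mem' := by simpa using isIntegral_zero
      smul_mem' := fun c s hs => by
        simp only [Set.mem_setOf_eq, smul_eq_mul, map_mul, mul_left_comm x]
        exact IsIntegral.mul c.2 hs }
  by_cases hJ : J = ⊤
  · have : (1 : 𝓞 Om) ∈ J := hJ ▸ Submodule.mem_top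
    simpa [J] using this
  obtain ⟨m, hm, hle⟩ := Ideal.exists_le_maximal J hJ
  obtain ⟨a, b, hb, e⟩ := Place.exists_div x
  have hb' : b ∈ J := by
    change IsIntegral ℤ (x * algebraMap _ _ b)
    rw [e]; exact a.2
  obtain ⟨a', s, hs, e'⟩ := (Place.mem_val _ x).1 ((Place.v_le_one_iff _ x).1 ((vO_le_one _ x).1
    (h ⟨m, hm.isPrime, fun h0 => hb (by simpa [h0] using hle hb')⟩)))
  refine absurd (hle ?_) hs
  change IsIntegral ℤ (x * algebraMap _ _ s)
  rw [e']; exact a'.2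

/-! ## the inertia field -/

/-- the inertia field -/
def KI (P : Place Om) : Subfield Om := (IntermediateField.fixedField (In P)).toSubfield

theorem mem_KI {P : Place Om} {x : Om} : x ∈ KI P ↔ ∀ g ∈ In P, g x = x :=
  IntermediateField.mem_fixedField_iff (In P) x

/-- the norm of the inertia field -/
def vI (P : Place Om) : Valuation (KI P) ℝ≥0 := (vO P).comap (KI P).subtype

theorem vI_apply (P : Place Om) (a : KI P) : vI P a = vO P a := rfl

theorem vI_natCast (P : Place Om) (n : ℕ) : vI P n = vO P n := by rw [vI_apply]; simp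

theorem smul_mem_KI {P : Place Om} {φ : Gam} (h : φ • P = P) {x : Om} (hx : x ∈ KI P) :
    φ x ∈ KI P := by
  refine mem_KI.2 fun g hg => ?_
  have h1 : φ⁻¹ * g * φ ∈ In P := by
    intro y
    have h2 := hg (φ • y)
    change _ ∈ P.ideal at h2
    rw [← h, Place.mem_smul_ideal, smul_sub, inv_smul_smul] at h2
    rw [mul_smul, mul_smul]
    exact h2
  have := congrArg φ (mem_KI.1 hx _ h1)
  simpa using this

/-- the Frobenius of the inertia field -/
def sg {P : Place Om} {φ : Gam} (h : IsFr P P.rchar φ) : KI P →+* KI P :=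
  (φ : Om →+* Om).restrict (KI P) (KI P) fun _ hx => smul_mem_KI (isFr_smul h) hx

theorem coe_sg {P : Place Om} {φ : Gam} (h : IsFr P P.rchar φ) (a : KI P) :
    (sg h a : Om) = φ a := rfl

theorem un {P : Place Om} {φ : Gam} (h : IsFr P P.rchar φ) : Un (vI P) P.rchar (sg h) where
  prime := P.rchar_prime
  lt := by rw [vI_natCast]; exact vO_rchar_lt P
  disc a ha := by
    rw [vI_natCast]
    rw [vI_apply] at ha ⊢
    by_cases h0 : (a : Om) = 0
    · simp [h0]
    obtain ⟨m, hm⟩ := Rb.val_fixed P h0 (mem_KI.1 a.2)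
    rw [← vO_eq_one, map_mul, map_zpow₀] at hm
    have hp := vO_rchar_ne P
    have e : vO P a = vO P P.rchar ^ (-m) := by
      rw [zpow_neg]; exact eq_inv_of_mul_eq_one_left hm
    rw [e] at ha ⊢
    have h1 : 0 < -m := (zpow_lt_one_iff_right_of_lt_one₀ (pos_iff_ne_zero.2 hp)
      (vO_rchar_lt P)).1 ha
    simpa using zpow_le_zpow_right_of_le_one₀ (pos_iff_ne_zero.2 hp) (vO_rchar_lt P).le
      (show (1 : ℤ) ≤ -m from h1)
  iso a := vO_smul P (isFr_smul h) a
  frob a ha := vO_frob (isFr_smul h) h ha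

theorem mem_In_of_fix {P : Place Om} {g : Gam} (h : ∀ x ∈ KI P, g x = x) : g ∈ In P := by
  have := InfiniteGalois.fixingSubgroup_fixedField
    (⟨In P, P.isClosed_inertia⟩ : ClosedSubgroup Gam)
  change g ∈ (⟨In P, P.isClosed_inertia⟩ : ClosedSubgroup Gam).1
  rw [← this]
  exact fun x => h x x.2

/-- an automorphism which agrees with a Frobenius on the inertia field is a Frobenius -/
theorem isFr_of_agree {P : Place Om} {φ s : Gam} {q : ℕ} (h0 : φ • P = P) (h : IsFr P q φ)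
    (hs : ∀ x ∈ KI P, s x = φ x) : IsFr P q s := by
  have h1 : φ⁻¹ * s ∈ In P := mem_In_of_fix fun x hx => by simp [hs x hx]
  intro x
  have h2 : (φ⁻¹ * s) • x - x ∈ P.ideal := h1 x
  have h3 := (Place.smul_mem_smul_ideal φ P _).2 h2
  rw [h0, smul_sub, ← mul_smul, mul_inv_cancel_left] at h3
  simpa using P.ideal.add_mem h3 (h x)

/-- the norm of the inertia field extends uniquely -/
theorem val_unique {P : Place Om} (v : Valuation Om ℝ≥0) (h : ∀ a ∈ KI P, v a = vO P a) :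
    v = vO P := by
  have hp : v P.rchar = vO P P.rchar := h _ (natCast_mem _ _)
  have hO : v.valuationSubring ≠ ⊤ := fun e => by
    have : ((P.rchar : Om)⁻¹) ∈ v.valuationSubring := e ▸ ValuationSubring.mem_top _
    rw [Valuation.mem_valuationSubring_iff, map_inv₀, hp,
      inv_le_one₀ (pos_iff_ne_zero.2 (vO_rchar_ne P))] at this
    exact absurd (vO_rchar_lt P) (not_lt.2 this)
  let M := IntermediateField.fixedField (In P)
  have e1 : P.res M = (Place.ofVal _ hO).res M := by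
    refine Place.ext_of_ideal_le' fun x hx => ?_
    rw [Place.mem_res] at hx ⊢
    rw [Place.mem_ofVal, ← (Valuation.isEquiv_valuation_valuationSubring v).lt_one_iff_lt_one]
    rw [← vO_int_lt] at hx
    exact lt_of_eq_of_lt (h _ (x : M).2) hx
  obtain ⟨g, hg⟩ := Place.exists_smul_eq_of_res_eq P _ e1
  have h1 : g.restrictScalars ℚ ∈ In P := mem_In_of_fix fun x hx => g.commutes ⟨x, hx⟩
  have h2 : g • P = P := by
    rw [Place.smul_eq_iff]
    exact (Place.smul_eq_iff P _).1 (P.smul_eq_of_mem_inertia h1)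
  have h3 : ∀ x, v x ≤ 1 ↔ vO P x ≤ 1 := fun x => by
    rw [vO_le_one, P.v_le_one_iff, ← h2, hg, Place.val_ofVal, Valuation.mem_valuationSubring_iff]
  have h4 : ∀ x, vO P x = 1 → v x = 1 := fun x hx => by
    have h0 : x ≠ 0 := fun e => by simp [e] at hx
    have a1 := (h3 x).2 hx.le
    have a2 := (h3 x⁻¹).2 (by rw [map_inv₀, hx, inv_one])
    rw [map_inv₀, inv_le_one₀ (by simpa [pos_iff_ne_zero] using h0)] at a2
    exact le_antisymm a1 a2
  ext x
  by_cases h0 : x = 0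
  · simp [h0]
  obtain ⟨m, n, hmn, e⟩ := P.exists_zpow_eq x P.rchar h0
    (Nat.cast_ne_zero.2 P.rchar_prime.ne_zero)
  rw [← vO_eq_one] at e
  have e' := h4 _ e
  rw [map_mul, map_zpow₀, map_zpow₀] at e e'
  have hm : m ≠ 0 := by
    rintro rfl
    rw [zpow_zero, one_mul, ← one_zpow n,
      zpow_left_inj₀ zero_le zero_le (by simpa using hmn)] at e
    exact (vO_rchar_lt P).ne e
  rw [hp, ← e, mul_left_inj' (zpow_ne_zero _ (vO_rchar_ne P)),
    zpow_left_inj₀ zero_le zero_le hm] at e'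
  rw [e']

/-! ## almost all places -/

/-- at the places off a finite set of primes -/
def Ae (Q : Place Om → Prop) : Prop := ∃ B : ℕ, B ≠ 0 ∧ ∀ P : Place Om, ¬ P.rchar ∣ B → Q P

namespace Ae

variable {Q Q' : Place Om → Prop}

theorem of_forall (h : ∀ P, Q P) : Ae Q := ⟨1, one_ne_zero, fun P _ => h P⟩

theorem mono (h : Ae Q) (h' : ∀ P, Q P → Q' P) : Ae Q' :=
  let ⟨B, h0, hB⟩ := h; ⟨B, h0, fun P hP => h' P (hB P hP)⟩

theorem and (h : Ae Q) (h' : Ae Q') : Ae fun P => Q P ∧ Q' P :=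
  let ⟨B, h0, hB⟩ := h
  let ⟨B', h0', hB'⟩ := h'
  ⟨B * B', mul_ne_zero h0 h0', fun P hP =>
    ⟨hB P fun e => hP (e.mul_right _), hB' P fun e => hP (e.mul_left _)⟩⟩

theorem all {ι : Type*} [Finite ι] {Q : ι → Place Om → Prop} (h : ∀ i, Ae (Q i)) :
    Ae fun P => ∀ i, Q i P := by
  haveI := Fintype.ofFinite ι
  choose B h0 hB using h
  exact ⟨∏ i, B i, Finset.prod_ne_zero_iff.2 fun i _ => h0 i, fun P hP i =>
    hB i P fun e => hP (e.trans (Finset.dvd_prod_of_mem _ (Finset.mem_univ i)))⟩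

theorem not_dvd {B : ℕ} (h : B ≠ 0) : Ae fun P => ¬ P.rchar ∣ B := ⟨B, h, fun _ hP => hP⟩

end Ae

theorem ae_int {y : 𝓞 Om} (hy : y ≠ 0) : Ae fun P => vO P (algebraMap _ _ y) = 1 := by
  obtain ⟨z, d, hd, e⟩ := Algebra.IsAlgebraic.exists_smul_eq_mul ℤ (1 : 𝓞 Om) hy
  refine ⟨d.natAbs, by simpa using hd, fun P hP => le_antisymm (vO_int P y) ?_⟩
  have h1 : vO P (d : Om) = 1 := by
    rw [← vO_natCast_eq_one, Nat.cast_natAbs] at hP
    rcases abs_choice d with h | h <;> simpa [h] using hP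
  have e' : (d : Om) = algebraMap _ _ y * algebraMap _ _ z := by
    rw [← map_mul, ← e]; simp
  rw [e', map_mul] at h1
  rw [← h1]
  exact mul_le_of_le_one_right' (vO_int P z)

theorem ae_unit {x : Om} (hx : x ≠ 0) : Ae fun P => vO P x = 1 := by
  obtain ⟨a, b, hb, e⟩ := Place.exists_div x
  have ha : a ≠ 0 := by
    rintro rfl
    simp [hx, hb] at e
  refine ((ae_int ha).and (ae_int hb)).mono fun P ⟨h1, h2⟩ => ?_
  rwa [← e, map_mul, h2, mul_one] at h1

theorem ae_le (x : Om) : Ae fun P => vO P x ≤ 1 := by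
  by_cases hx : x = 0
  · exact Ae.of_forall fun P => by simp [hx]
  · exact (ae_unit hx).mono fun P h => h.le

theorem ae_mem (x : Om) : Ae fun P => x ∈ KI P := by
  classical
  have hi : IsIntegral ℚ x := Algebra.IsIntegral.isIntegral x
  have h1 : Ae fun P => ∀ c : (minpoly ℚ x).rootSet Om, c.1 ≠ x → vO P (c.1 - x) = 1 :=
    Ae.all fun c => by
      by_cases hc : c.1 = x
      · exact Ae.of_forall fun P h => absurd hc h
      · exact (ae_unit (sub_ne_zero.2 hc)).mono fun P h _ => h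
  refine (h1.and (ae_le x)).mono fun P ⟨h2, h3⟩ => mem_KI.2 fun g hg => ?_
  by_contra hne
  have hm : g x ∈ (minpoly ℚ x).rootSet Om := by
    rw [Polynomial.mem_rootSet]
    exact ⟨minpoly.ne_zero hi, by rw [Polynomial.aeval_algHom_apply, minpoly.aeval, map_zero]⟩
  exact (vO_inertia hg h3).ne (h2 ⟨_, hm⟩ hne)

theorem ae_coeff {Q : Om → Place Om → Prop} (h0 : ∀ P, Q 0 P) (h : ∀ x, Ae (Q x))
    (F : Polynomial Om) : Ae fun P => ∀ n, Q (F.coeff n) P :=
  (Ae.all fun n : F.support => h (F.coeff n)).mono fun P hP n => by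
    by_cases hn : n ∈ F.support
    · exact hP ⟨n, hn⟩
    · rw [Polynomial.notMem_support_iff.1 hn]; exact h0 P

theorem exists_den {ι : Type*} [Finite ι] (x : ι → Om) :
    ∃ d : ℕ, d ≠ 0 ∧ ∀ i (P : Place Om), vO P (d * x i) ≤ 1 := by
  classical
  haveI := Fintype.ofFinite ι
  haveI : Algebra.IsAlgebraic ℤ Om := (IsFractionRing.comap_isAlgebraic_iff (A := ℤ) (K := ℚ)).2
    inferInstance
  obtain ⟨y, hy, h⟩ := Algebra.IsAlgebraic.exists_integral_multiples ℤ (Finset.univ.image x)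
  refine ⟨y.natAbs, by simpa using hy, fun i P => ?_⟩
  have := vO_of_isIntegral P (h (x i) (by simp))
  rw [Nat.cast_natAbs]
  rcases abs_choice y with h | h <;> simpa [h] using this

/-! ## descent -/

theorem exists_map {K : Type*} [Field K] (S : Subfield K) {f : K⟦X⟧} (h : ∀ n, coeff n f ∈ S) :
    ∃ f0 : S⟦X⟧, PowerSeries.map S.subtype f0 = f :=
  ⟨mk fun n => ⟨_, h n⟩, by ext n; simp⟩

theorem exists_pmap {K : Type*} [Field K] (S : Subfield K) {F : Polynomial K}
    (h : ∀ n, F.coeff n ∈ S) : ∃ F0 : Polynomial S, F0.map S.subtype = F :=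
  (Polynomial.mem_lifts _).1 ((Polynomial.lifts_iff_coeff_lifts _).2 fun n => ⟨⟨_, h n⟩, rfl⟩)

theorem solve_lin {K : Type*} [Field K] {g : ℕ} {N : Matrix (Fin g) (Fin g) K} (hN : N.det ≠ 0)
    (y : Fin g → K) (k : Fin g) : y k = ∑ m, N⁻¹ k m * ∑ j, N m j * y j := by
  have : N⁻¹.mulVec (N.mulVec y) = y := by
    rw [Matrix.mulVec_mulVec, Matrix.nonsing_inv_mul _ (Ne.isUnit hN), Matrix.one_mulVec]
  exact (congrFun this k).symm

/-- a formal solution whose data are fixed by `s` is fixed by `s` -/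
theorem Sol.fixed {K : Type*} [Field K] [CharZero K] {g : ℕ} {F : Polynomial K} {a b : Fin g → K}
    {Φ x w η : Fin g → K⟦X⟧} (h : Sol F a b Φ x w η) (ha : Function.Injective a)
    (hb : ∀ i, b i ≠ 0) (s : K →+* K) (sF : F.map s = F) (sa : ∀ i, s (a i) = a i)
    (sb : ∀ i, s (b i) = b i) (sΦ : ∀ m, PowerSeries.map s (Φ m) = Φ m) (i : Fin g) (n : ℕ) :
    s (coeff n (x i)) = coeff n (x i) ∧ s (coeff n (w i)) = coeff n (w i) ∧
      s (coeff n (η i)) = coeff n (η i) := by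
  have h1 := (sol_map_iff s).2 h
  simp only [sF, sa, sb, sΦ] at h1
  obtain ⟨e1, e2, e3⟩ := h1.unique h ha hb
  refine ⟨?_, ?_, ?_⟩ <;> rw [← coeff_map]
  · rw [congrFun e1 i]
  · rw [congrFun e2 i]
  · rw [congrFun e3 i]

/-! ## globalisation -/

variable {g : ℕ}

/-- depletion -/
def dep (B : ℕ) (V : ℕ → Fin g → ℤ) : ℕ → Fin g → ℤ := fun n => if n.Coprime B then V n else 0

theorem Rec.dep {K : Type*} [Field K] {p B' : ℕ} (hp : p.Prime) (h' : ¬ p ∣ B')
    {B : ℕ → Fin g → Fin g → K} {V : ℕ → Fin g → ℤ} (h : Rec p B V) : Rec p B (dep B' V) := by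
  have hc : ∀ n, (p * n).Coprime B' ↔ n.Coprime B' := fun n => by
    rw [Nat.coprime_mul_iff_left]
    exact and_iff_right ((Nat.Prime.coprime_iff_not_dvd hp).2 h')
  intro n m
  have e := h n m
  by_cases hd : p ∣ n
  · obtain ⟨n, rfl⟩ := hd
    rw [Nat.mul_div_cancel_left n hp.pos] at e ⊢
    by_cases hn : n.Coprime B'
    · simpa only [Hon.dep, hc, if_pos hn] using e
    · simp [Hon.dep, hc, if_neg hn]
  · by_cases hn : n.Coprime B'
    · simpa only [Hon.dep, hc, if_pos hn, hd, if_false] using e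
    · simp [Hon.dep, hc, if_neg hn, hd]

/-- the Honda congruence at `P` -/
def CongAt (F : Polynomial Om) (a b : Fin g → Om) (N : Matrix (Fin g) (Fin g) Om)
    (V : ℕ → Fin g → ℤ) (P : Place Om) : Prop :=
  ∀ (φ : Gam) (hφ : IsFr P P.rchar φ) (F0 : Polynomial (KI P)) (a0 b0 : Fin g → KI P)
    (N0 : Fin g → Fin g → KI P), F0.map (KI P).subtype = F → (∀ i, (a0 i : Om) = a i) →
    (∀ i, (b0 i : Om) = b i) → (∀ m k, (N0 m k : Om) = N m k) →
    (∀ i, GdP (vI P) F0 (a0 i) (b0 i)) → (∀ m k, vI P (N0 m k) ≤ 1) →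
    (∀ y : Fin g → KI P, (∀ m, vI P (∑ k, N0 m k * y k) ≤ 1) → ∀ k, vI P (y k) ≤ 1) →
    ∃ B : ℕ → Fin g → Fin g → KI P, (∀ k m m', vI P (B k m m') ≤ 1) ∧ Rec P.rchar B V ∧
      ∀ i m, PI (vI P) (vI P P.rchar)
        (uop (sg hφ) P.rchar P.rchar_prime.ne_zero 2 B (lgN N0 F0 (a0 i) (b0 i)) m)

theorem exists_isFr (P : Place Om) : ∃ s : Gam, IsFr P P.rchar s := by
  obtain ⟨s, -, h⟩ := Place.exists_frob (F := ℚ) P
  exact ⟨s, by rwa [R018.FDEx389.qv_rat] at h⟩

theorem good {F : Polynomial Om} {a b : Fin g → Om} {N : Matrix (Fin g) (Fin g) Om}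
    {V : ℕ → Fin g → ℤ} (ha : Function.Injective a) (hb : ∀ i, b i ≠ 0) (hN : N.det ≠ 0)
    (hC : Ae (CongAt F a b N V)) : Ae fun P => ∀ (B' M : ℕ), ¬ P.rchar ∣ B' →
      ∀ Φ x w η : Fin g → Om⟦X⟧, (∀ m, ∑ k, C (N m k) * Φ k = eich Om M (dep B' V) m) →
        Sol F a b Φ x w η → ∀ i, PI (vO P) 1 (x i) ∧ PI (vO P) 1 (w i) := by
  have h1 := (ae_coeff (Q := fun x P => x ∈ KI P ∧ vO P x ≤ 1) (fun P => ⟨zero_mem _, by simp⟩)
    (fun x => (ae_mem x).and (ae_le x)) F)
  have h2 := Ae.all fun i => ((ae_mem (a i)).and (ae_le (a i))).and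
    ((ae_mem (b i)).and (ae_unit (hb i)))
  have h3 := Ae.all fun m => Ae.all fun k => ((ae_mem (N m k)).and (ae_le (N m k))).and
    (ae_le (N⁻¹ m k))
  have h4 : Ae fun P => ∀ i j, i ≠ j → vO P (a i - a j) = 1 := Ae.all fun i => Ae.all fun j => by
    by_cases hij : i = j
    · exact Ae.of_forall fun P h => absurd hij h
    · exact (ae_unit (sub_ne_zero.2 (ha.ne hij))).mono fun P h _ => h
  refine ((((hC.and h1).and h2).and h3).and (h4.and (ae_unit two_ne_zero))).mono ?_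
  rintro P ⟨⟨⟨⟨hC, h1⟩, h2⟩, h3⟩, h4, h5⟩ B' M hB' Φ x w η hΦ hS
  obtain ⟨φ, hφ⟩ := exists_isFr P
  obtain ⟨F0, hF0⟩ := exists_pmap (KI P) fun n => (h1 n).1
  let a0 : Fin g → KI P := fun i => ⟨a i, (h2 i).1.1⟩
  let b0 : Fin g → KI P := fun i => ⟨b i, (h2 i).2.1⟩
  let N0 : Fin g → Fin g → KI P := fun m k => ⟨N m k, (h3 m k).1.1⟩
  have fΦ : ∀ s ∈ In P, ∀ k n, s (coeff n (Φ k)) = coeff n (Φ k) := fun s hs k n => by
    have e : ∀ m, ∑ j, N m j * coeff n (Φ j) = (M : Om) * dep B' V n m / n := fun m => by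
      simpa [eich] using congrArg (coeff n) (hΦ m)
    rw [solve_lin hN (fun j => s (coeff n (Φ j))) k, solve_lin hN (fun j => coeff n (Φ j)) k]
    refine Finset.sum_congr rfl fun m _ => ?_
    have e2 := congrArg s (e m)
    simp only [map_sum, map_mul, map_div₀, map_natCast, map_intCast,
      mem_KI.1 (h3 _ _).1.1 s hs] at e2
    rw [e2, e]
  have fS := fun (s : Gam) (hs : s ∈ In P) => hS.fixed ha hb (s : Om →+* Om)
    (by ext n; simpa using mem_KI.1 (h1 n).1 s hs) (fun i => mem_KI.1 (h2 i).1.1 s hs)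
    (fun i => mem_KI.1 (h2 i).2.1 s hs) (fun m => by ext n; simpa using fΦ s hs m n)
  choose Φ0 eΦ using fun k => exists_map (KI P) fun n => mem_KI.2 fun s hs => fΦ s hs k n
  choose x0 ex using fun i => exists_map (KI P) fun n => mem_KI.2 fun s hs => (fS s hs i n).1
  choose w0 ew using fun i => exists_map (KI P) fun n => mem_KI.2 fun s hs => (fS s hs i n).2.1
  choose η0 eη using fun i => exists_map (KI P) fun n => mem_KI.2 fun s hs => (fS s hs i n).2.2
  have hS0 : Sol F0 a0 b0 Φ0 x0 w0 η0 := (sol_map_iff (KI P).subtype).1 (by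
    simp only [hF0, eΦ, ex, ew, eη]
    exact hS)
  have hG : ∀ i, GdP (vI P) F0 (a0 i) (b0 i) := fun i =>
    ⟨h5, fun n => by have := (h1 n).2; rwa [← hF0, Polynomial.coeff_map] at this, (h2 i).1.2,
      (h2 i).2.2, hS0.on i⟩
  have hN' : ∀ y : Fin g → KI P, (∀ m, vI P (∑ k, N0 m k * y k) ≤ 1) → ∀ k, vI P (y k) ≤ 1 :=
    fun y hy k => by
      rw [vI_apply, solve_lin hN (fun j => (y j : Om)) k]
      refine (vO P).map_sum_le fun m _ => ?_
      rw [map_mul]
      refine mul_le_one' (h3 k m).2 ?_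
      have := hy m
      rw [vI_apply] at this
      simpa [N0] using this
  obtain ⟨B, hB, hR, hu⟩ := hC φ hφ F0 a0 b0 N0 hF0 (fun _ => rfl) (fun _ => rfl) (fun _ _ => rfl)
    hG (fun m k => (h3 m k).1.2) hN'
  intro i
  have key := (un hφ).fe_sol P.rchar_prime.ne_zero hB hG (fun i j hij => h4 i j hij)
    (fun m k => (h3 m k).1.2) hN' hu (Ψ := eich (KI P) M (dep B' V)) (Φ := Φ0)
    (fun m => PowerSeries.map_injective _ (KI P).subtype.injective (by
      simp only [map_sum, map_mul, map_C, eΦ]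
      refine (hΦ m).trans ?_
      ext n; simp [eich]))
    (constantCoeff_eich M _) ((un hφ).hecke _ (hR.dep P.rchar_prime hB') M) hS0 i
  exact ⟨fun n => by rw [← ex, coeff_map]; exact key.1 n, fun n => by
    rw [← ew, coeff_map]; exact key.2 n⟩

/-- **integrality of the formal solution** -/
theorem glob (hBad : BadStmt) {F : Polynomial Om} {a b : Fin g → Om}
    {N : Matrix (Fin g) (Fin g) Om} {V : ℕ → Fin g → ℤ} (ha : Function.Injective a)
    (hb : ∀ i, b i ≠ 0) (hN : N.det ≠ 0) (hC : Ae (CongAt F a b N V)) :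
    ∃ B : ℕ, B ≠ 0 ∧ ∀ B' : ℕ, B' ≠ 0 → B ∣ B' → ∃ M : ℕ, M ≠ 0 ∧
      ∀ Φ x w η : Fin g → Om⟦X⟧, (∀ m, ∑ k, C (N m k) * Φ k = eich Om M (dep B' V) m) →
        Sol F a b Φ x w η → ∀ i n, 0 < n →
          IsIntegral ℤ (coeff n (x i)) ∧ IsIntegral ℤ (coeff n (w i)) := by
  obtain ⟨B, h0, hB⟩ := good ha hb hN hC
  refine ⟨B, h0, fun B' h0' hd => ?_⟩
  obtain ⟨M, hM, hbad⟩ := hBad Om g F a b ha hb B' h0'
  obtain ⟨d, hd0, hden⟩ := exists_den fun km : Fin g × Fin g => N⁻¹ km.1 km.2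
  refine ⟨M * d, mul_ne_zero hM hd0, fun Φ x w η hΦ hS i n hn => ?_⟩
  have key : ∀ P : Place Om, vO P (coeff n (x i)) ≤ 1 ∧ vO P (coeff n (w i)) ≤ 1 := fun P => by
    by_cases hP : P.rchar ∣ B'
    · refine hbad (vO P) ((vO_natCast_lt_one P _).2 hP) Φ x w η (fun k j => ?_) hS i n hn
      rw [solve_lin hN (fun k => coeff j (Φ k)) k]
      refine (vO P).map_sum_le fun m _ => ?_
      have e : ∑ k, N m k * coeff j (Φ k) = ((M * d : ℕ) : Om) * dep B' V j m / j := by
        simpa [eich] using congrArg (coeff j) (hΦ m)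
      have e2 : N⁻¹ k m * (((M * d : ℕ) : Om) * dep B' V j m / j) =
          M * ((d * N⁻¹ k m) * (dep B' V j m / j)) := by push_cast; ring
      rw [e, e2, map_mul, map_mul]
      refine mul_le_of_le_one_right' (mul_le_one' (hden (k, m) P) ?_)
      by_cases hc : j.Coprime B'
      · have : ¬ P.rchar ∣ j := fun h =>
          P.rchar_prime.ne_one (Nat.eq_one_of_dvd_coprimes hc h hP)
        rw [map_div₀, (vO_natCast_eq_one P j).2 this, div_one]
        exact v_intCast_le _ _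
      · simp [dep, hc]
    · have := hB P (fun h => hP (h.trans hd)) B' (M * d) hP Φ x w η hΦ hS i
      exact ⟨this.1 n, this.2 n⟩
  exact ⟨isIntegral_of_forall fun P => (key P).1, isIntegral_of_forall fun P => (key P).2⟩

end Crest.Agent.T15.Hon
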