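import Crest.Agent.T15.Ps_28

/-!
# Row 15, block R (helper28): tangent space of a trace ring

* `phi σ D`: the cocycle attached to a derivation `D : R → k` and `σ : G → M₂(R)`;
* `tan_injective`: on a ring generated by traces, `D` is determined by `phi σ D` on `ker σ̄`;
* `exists_gens`: `dim Der_O(R, k) ≤ r` gives `R = O[x₁, …, x_r]` with `x_i` in the maximal ideal.
-/

set_option autoImplicit false

noncomputable section

namespace Crest.Agent.T15.Ps

open Matrix

section cocycle

variable {G : Type*} [Group G] {O R k : Type*} [CommRing O] [CommRing R] [CommRing k]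
  [Algebra O R] [Algebra R k] [Algebra O k]

/-- the residual representation -/
def bar (k : Type*) [CommRing k] [Algebra R k] (σ : G →* M2 R) : G →* M2 k :=
  (algebraMap R k).mapMatrix.toMonoidHom.comp σ

lemma bar_apply (σ : G →* M2 R) (g : G) : bar k σ g = (σ g).map (algebraMap R k) := rfl

lemma trace_bar (σ : G →* M2 R) (g : G) : (bar k σ g).trace = algebraMap R k (σ g).trace := by
  simp [bar_apply, trace_fin_two]

/-- the cocycle of a tangent vector -/
def phi (σ : G →* M2 R) (D : Derivation O R k) (g : G) : M2 k := (σ g).map D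

variable (σ : G →* M2 R) (D : Derivation O R k)

lemma phi_mul (g h : G) :
    phi σ D (g * h) = phi σ D g * bar k σ h + bar k σ g * phi σ D h := by
  ext i j
  simp [phi, bar_apply, mul_apply, Fin.sum_univ_two, Algebra.smul_def]
  ring

lemma phi_one : phi σ D 1 = 0 := by
  ext i j
  fin_cases i <;> fin_cases j <;> simp [phi]

lemma phi_eq_zero_of {n : G} (hn : σ n = 1) : phi σ D n = 0 := by
  rw [← phi_one σ D, phi, phi, hn, map_one]

lemma phi_mul_ker {n n' : G} (hn : bar k σ n = 1) (hn' : bar k σ n' = 1) :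
    phi σ D (n * n') = phi σ D n + phi σ D n' := by
  rw [phi_mul, hn, hn', mul_one, one_mul]

lemma phi_conj (g : G) {n : G} (hn : bar k σ n = 1) :
    phi σ D (g * n * g⁻¹) = bar k σ g * phi σ D n * bar k σ g⁻¹ := by
  have h := phi_mul σ D g g⁻¹
  rw [mul_inv_cancel, phi_one] at h
  rw [phi_mul, phi_mul, map_mul, hn, mul_one, mul_one, add_mul, add_right_comm, ← h, zero_add]

lemma trace_phi (g : G) : (phi σ D g).trace = D (σ g).trace := by
  simp [phi, trace_fin_two]

lemma trace_phi_ker {n : G} (hn : bar k σ n = 1) : (phi σ D n).trace = D (σ n).det := by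
  have h : ∀ i j, algebraMap R k (σ n i j) = (1 : M2 k) i j := fun i j => by rw [← hn]; rfl
  simp [phi, trace_fin_two, det_fin_two, Algebra.smul_def, h, add_comm]

/-- with a determinant defined over `O` the values on the kernel have trace zero -/
lemma trace_phi_ker_eq_zero {n : G} (hn : bar k σ n = 1) {d : O}
    (hd : (σ n).det = algebraMap O R d) : (phi σ D n).trace = 0 := by
  rw [trace_phi_ker σ D hn, hd, Derivation.map_algebraMap]

lemma trace_bar_mul_phi (s : G) {n : G} (hn : bar k σ n = 1) :
    (bar k σ s * phi σ D n).trace = D (σ (s * n)).trace - D (σ s).trace := by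
  rw [← trace_phi, ← trace_phi, phi_mul, hn, mul_one, trace_add]; ring

lemma trace_phi_pow (g : G) (j i : ℕ) : (phi σ D (g ^ j) * bar k σ (g ^ (i + 1))).trace =
    j * (phi σ D g * bar k σ (g ^ (j + i))).trace := by
  induction j generalizing i with
  | zero => simp [phi_one]
  | succ j ih =>
    rw [pow_succ g j, phi_mul, add_mul, trace_add, mul_assoc, ← map_mul, ← pow_succ', ih,
      mul_assoc, trace_mul_comm (bar k σ (g ^ j)), mul_assoc, ← map_mul, ← pow_add,
      show i + 1 + j = j + (i + 1) by ring, show j + 1 + i = j + (i + 1) by ring]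
    push_cast; ring

lemma trace_eq_zero_of_pow {g : G} {m : ℕ} (hm : IsUnit (m : k)) (h1 : bar k σ (g ^ m) = 1)
    (h2 : phi σ D (g ^ m) = 0) : D (σ g).trace = 0 := by
  have h := trace_phi_pow σ D g m 0
  rw [h2, zero_mul, trace_zero, add_zero, h1, mul_one, trace_phi] at h
  exact (hm.mul_right_eq_zero).1 h.symm

/-- **injectivity of the tangent map** on a ring generated by the traces -/
theorem eq_zero_of_phi (hgen : Algebra.adjoin O (Set.range fun g => (σ g).trace) = ⊤)
    (hord : ∀ g, ∃ m : ℕ, IsUnit (m : k) ∧ bar k σ (g ^ m) = 1)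
    (h : ∀ n, bar k σ n = 1 → phi σ D n = 0) : D = 0 := by
  refine Derivation.ext_of_adjoin_eq_top _ hgen ?_
  rintro _ ⟨g, rfl⟩
  obtain ⟨m, hm, h1⟩ := hord g
  exact trace_eq_zero_of_pow σ D hm h1 (h _ h1)

/-- the tangent map -/
def tan (O k : Type*) [CommRing O] [CommRing k] [Algebra O R] [Algebra R k] [Algebra O k]
    (σ : G →* M2 R) : Derivation O R k →ₗ[k] ({n : G // bar k σ n = 1} → M2 k) where
  toFun D n := phi σ D n
  map_add' D D' := by ext n i j; simp [phi]
  map_smul' a D := by ext n i j; simp [phi]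

lemma tan_apply (n : {n : G // bar k σ n = 1}) : tan O k σ D n = phi σ D n := rfl

theorem tan_injective (hgen : Algebra.adjoin O (Set.range fun g => (σ g).trace) = ⊤)
    (hord : ∀ g, ∃ m : ℕ, IsUnit (m : k) ∧ bar k σ (g ^ m) = 1) :
    Function.Injective (tan O k σ) :=
  (injective_iff_map_eq_zero _).2 fun D hD =>
    eq_zero_of_phi σ D hgen hord fun n hn => congrFun hD ⟨n, hn⟩

/-- the `k[ε]`-point of a tangent vector -/
def pt (D : Derivation O R k) : R →+* DualNumber k where
  toFun r := TrivSqZeroExt.inl (algebraMap R k r) + TrivSqZeroExt.inr (D r)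
  map_one' := by ext <;> simp
  map_mul' a b := by
    have e : D (a * b) = algebraMap R k a * D b + D a * algebraMap R k b := by
      rw [D.leibniz, Algebra.smul_def, Algebra.smul_def, mul_comm (D a)]
    ext
    · simp
    · rw [e]; simp
  map_zero' := by ext <;> simp
  map_add' a b := by ext <;> simp

@[simp] lemma fst_pt (r : R) : (pt D r).fst = algebraMap R k r := by simp [pt]
@[simp] lemma snd_pt (r : R) : (pt D r).snd = D r := by simp [pt]

end cocycle

section gens

open IsLocalRing TensorProduct Module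

variable {O R : Type*} [CommRing O] [IsLocalRing O] [CommRing R] [Algebra O R]
  [Algebra R (ResidueField O)] [IsScalarTower O R (ResidueField O)]

lemma exists_sub_mem_ker (r : R) :
    ∃ o : O, r - algebraMap O R o ∈ RingHom.ker (algebraMap R (ResidueField O)) := by
  obtain ⟨o, ho⟩ := residue_surjective (algebraMap R (ResidueField O) r)
  refine ⟨o, ?_⟩
  rw [RingHom.mem_ker, map_sub, ← IsScalarTower.algebraMap_apply, ← ho]
  exact sub_self _

/-- an `O`-linear form killing `O` and `m²` is a derivation -/
def derOf (l : R →ₗ[O] ResidueField O) (h1 : l 1 = 0)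
    (h2 : ∀ x ∈ RingHom.ker (algebraMap R (ResidueField O)) ^ 2, l x = 0) :
    Derivation O R (ResidueField O) :=
  Derivation.mk' l fun a b => by
    obtain ⟨o, ho⟩ := exists_sub_mem_ker (O := O) a
    obtain ⟨o', ho'⟩ := exists_sub_mem_ker (O := O) b
    have h3 := h2 _ (by rw [sq]; exact Ideal.mul_mem_mul ho ho')
    have e : (a - algebraMap O R o) * (b - algebraMap O R o') =
        a * b - o • b - o' • a + (o * o') • (1 : R) := by
      simp only [Algebra.smul_def, map_mul]; ring
    rw [RingHom.mem_ker, map_sub, sub_eq_zero, ← IsScalarTower.algebraMap_apply] at ho ho'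
    simp only [e, map_add, map_sub, map_smul, h1, smul_zero, add_zero] at h3
    simp only [Algebra.smul_def] at h3 ⊢
    rw [ho, ho']
    linear_combination h3

/-- generators of the cotangent space -/
theorem exists_cot_gens [Module.Finite O R] {r : ℕ}
    (hr : finrank (ResidueField O) (Derivation O R (ResidueField O)) ≤ r) :
    ∃ x : Fin r → R, (∀ i, algebraMap R (ResidueField O) (x i) = 0) ∧
      ∀ y : R, ∃ a ∈ Algebra.adjoin O (Set.range x),
        y - a ∈ RingHom.ker (algebraMap R (ResidueField O)) ^ 2 := by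
  classical
  set m := RingHom.ker (algebraMap R (ResidueField O)) with hm
  set J : Submodule O R := (m ^ 2).restrictScalars O ⊔ Submodule.span O {1} with hJ
  have h1 : (1 : R) ∈ J := Submodule.mem_sup_right (Submodule.subset_span rfl)
  have h2 : ∀ x ∈ m ^ 2, x ∈ J := fun x hx => Submodule.mem_sup_left hx
  let F : Dual (ResidueField O) (ResidueField O ⊗[O] (R ⧸ J)) →ₗ[ResidueField O]
      Derivation O R (ResidueField O) :=
    { toFun := fun l => derOf (((LinearMap.liftBaseChangeEquiv (ResidueField O)).symm l).comp J.mkQ)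
        (by simp [(Submodule.Quotient.mk_eq_zero J).2 h1])
        (fun x hx => by simp [(Submodule.Quotient.mk_eq_zero J).2 (h2 x hx)])
      map_add' := fun l l' => by ext y; rfl
      map_smul' := fun a l => by ext y; rfl }
  have hF : Function.Injective F := (injective_iff_map_eq_zero _).2 fun l hl => by
    have h3 : (LinearMap.liftBaseChangeEquiv (ResidueField O)).symm l = 0 := by
      refine Submodule.linearMap_qext _ (LinearMap.ext fun y => ?_)
      exact DFunLike.congr_fun hl y
    exact (LinearEquiv.map_eq_zero_iff _).1 h3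
  have hfin : Module.Finite (ResidueField O) (Derivation O R (ResidueField O)) := by
    let E : Derivation O R (ResidueField O) →ₗ[ResidueField O]
        Dual (ResidueField O) (ResidueField O ⊗[O] R) :=
      { toFun := fun D => LinearMap.liftBaseChangeEquiv (ResidueField O) D.toLinearMap
        map_add' := fun D D' => by rw [← map_add]; rfl
        map_smul' := fun a D => by rw [RingHom.id_apply, ← map_smul]; rfl }
    refine Module.Finite.of_injective E fun D D' h => ?_
    have := (LinearMap.liftBaseChangeEquiv (ResidueField O)).injective h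
    exact Derivation.ext fun y => DFunLike.congr_fun this y
  have hle := (LinearMap.finrank_le_finrank_of_injective hF).trans hr
  rw [Subspace.dual_finrank_eq] at hle
  set s := finrank (ResidueField O) (ResidueField O ⊗[O] (R ⧸ J)) with hs
  let b := Module.finBasis (ResidueField O) (ResidueField O ⊗[O] (R ⧸ J))
  have hw : ∀ i, ∃ y : R, algebraMap R (ResidueField O) y = 0 ∧
      (1 : ResidueField O) ⊗ₜ[O] J.mkQ y = b i := fun i => by
    obtain ⟨w, hw⟩ := TensorProduct.mk_surjective O (R ⧸ J) (ResidueField O)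
      Ideal.Quotient.mk_surjective (b i)
    obtain ⟨y, rfl⟩ := J.mkQ_surjective w
    obtain ⟨o, ho⟩ := exists_sub_mem_ker (O := O) y
    refine ⟨_, ho, ?_⟩
    have : J.mkQ (algebraMap O R o) = 0 := (Submodule.Quotient.mk_eq_zero J).2 (by
      rw [Algebra.algebraMap_eq_smul_one]; exact J.smul_mem _ h1)
    rw [map_sub, this, sub_zero]
    exact hw
  choose y hy0 hy using hw
  have hspan := span_eq_top_of_tmul_eq_basis (fun i => J.mkQ (y i)) b hy
  refine ⟨fun i => if h : (i : ℕ) < s then y ⟨i, h⟩ else 0, fun i => ?_, fun z => ?_⟩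
  · dsimp only; split_ifs <;> simp [hy0]
  set A := Algebra.adjoin O (Set.range fun i : Fin r => if h : (i : ℕ) < s then y ⟨i, h⟩ else 0)
  have hyA : ∀ i, y i ∈ A := fun i =>
    Algebra.subset_adjoin ⟨⟨i, lt_of_lt_of_le i.2 hle⟩, dif_pos i.2⟩
  obtain ⟨c, hc⟩ := (Submodule.mem_span_range_iff_exists_fun O).1
    (hspan ▸ Submodule.mem_top : J.mkQ z ∈ Submodule.span O (Set.range fun i => J.mkQ (y i)))
  have h3 : z - ∑ i, c i • y i ∈ J := by
    rw [← Submodule.Quotient.eq J]
    change J.mkQ z = J.mkQ _
    rw [← hc, map_sum]; simp only [map_smul]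
  obtain ⟨u, hu, v, hv, huv⟩ := Submodule.mem_sup.1 h3
  obtain ⟨o, rfl⟩ := Submodule.mem_span_singleton.1 hv
  refine ⟨∑ i, c i • y i + o • 1, A.add_mem (A.sum_mem fun i _ => A.smul_mem (hyA i) _)
    (A.smul_mem A.one_mem _), ?_⟩
  have : z - (∑ i, c i • y i + o • 1) = u := by rw [← sub_sub, ← huv]; simp
  rw [this]; exact hu

lemma exists_sub_mem_pow {S : Type*} [CommRing S] (A : Subring S) (m : Ideal S)
    (h : ∀ y : S, ∃ a ∈ A, y - a ∈ m ^ 2) (n : ℕ) : ∀ y : S, ∃ a ∈ A, y - a ∈ m ^ n := by
  have key : ∀ n : ℕ, ∀ y ∈ m ^ (n + 1), ∃ a ∈ A, a ∈ m ^ (n + 1) ∧ y - a ∈ m ^ (n + 2) := by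
    intro n
    induction n with
    | zero =>
      intro y hy
      obtain ⟨a, ha, h1⟩ := h y
      refine ⟨a, ha, ?_, h1⟩
      have := (m ^ (0 + 1)).sub_mem hy (Ideal.pow_le_pow_right (by norm_num) h1)
      simpa using this
    | succ n ih =>
      intro y hy
      rw [pow_succ' m (n + 1)] at hy
      refine Submodule.mul_induction_on hy (fun p hp q hq => ?_) ?_
      · obtain ⟨a, ha, h1⟩ := h p
        obtain ⟨b, hb, h2, h3⟩ := ih q hq
        have h4 : a ∈ m := by
          have := m.sub_mem hp (Ideal.pow_le_self two_ne_zero h1)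
          simpa using this
        refine ⟨a * b, A.mul_mem ha hb, by rw [pow_succ' m (n + 1)]; exact Ideal.mul_mem_mul h4 h2,
          ?_⟩
        have e : p * q - a * b = a * (q - b) + (p - a) * q := by ring
        rw [e]
        refine Ideal.add_mem _ ?_ ?_
        · rw [show n + 1 + 2 = 1 + (n + 2) by ring, pow_add, pow_one]
          exact Ideal.mul_mem_mul h4 h3
        · rw [show n + 1 + 2 = 2 + (n + 1) by ring, pow_add]
          exact Ideal.mul_mem_mul h1 hq
      · rintro p q ⟨a, ha, h1, h2⟩ ⟨b, hb, h3, h4⟩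
        refine ⟨a + b, A.add_mem ha hb, Ideal.add_mem _ h1 h3, ?_⟩
        rw [show p + q - (a + b) = p - a + (q - b) by ring]
        exact Ideal.add_mem _ h2 h4
  induction n with
  | zero => exact fun y => ⟨0, A.zero_mem, by simp⟩
  | succ n ih =>
    intro y
    rcases Nat.eq_zero_or_pos n with rfl | hn
    · obtain ⟨a, ha, h1⟩ := h y
      exact ⟨a, ha, Ideal.pow_le_pow_right (by norm_num) h1⟩
    obtain ⟨n, rfl⟩ : ∃ n', n = n' + 1 := ⟨n - 1, by omega⟩
    obtain ⟨a, ha, h1⟩ := ih y
    obtain ⟨b, hb, -, h2⟩ := key n _ h1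
    exact ⟨a + b, A.add_mem ha hb, by rwa [← sub_sub]⟩

/-- **generators**: a finite `O`-algebra whose augmentation ideal is nilpotent modulo `m_O` is
generated by `dim Der_O(R, k)` elements of the augmentation ideal -/
theorem exists_gens' [Module.Finite O R] {r N : ℕ}
    (hN : RingHom.ker (algebraMap R (ResidueField O)) ^ N ≤ (maximalIdeal O).map (algebraMap O R))
    (hr : finrank (ResidueField O) (Derivation O R (ResidueField O)) ≤ r) :
    ∃ x : Fin r → R, (∀ i, algebraMap R (ResidueField O) (x i) = 0) ∧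
      Algebra.adjoin O (Set.range x) = ⊤ := by
  obtain ⟨x, h0, h1⟩ := exists_cot_gens hr
  refine ⟨x, h0, ?_⟩
  have h2 := exists_sub_mem_pow (Algebra.adjoin O (Set.range x)).toSubring _ h1 N
  have h3 : (⊤ : Submodule O R) ≤ Subalgebra.toSubmodule (Algebra.adjoin O (Set.range x)) := by
    refine Submodule.le_of_le_smul_of_le_jacobson_bot (I := maximalIdeal O) Module.Finite.fg_top
      (jacobson_eq_maximalIdeal _ bot_ne_top).ge fun y _ => ?_
    obtain ⟨a, ha, h4⟩ := h2 y
    refine Submodule.mem_sup.2 ⟨a, ha, y - a, ?_, by ring⟩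
    rw [Ideal.smul_top_eq_map]
    exact hN h4
  exact top_le_iff.1 fun y _ => h3 Submodule.mem_top

theorem exists_gens [Module.Finite O R] [IsLocalRing R] {r : ℕ}
    (hr : finrank (ResidueField O) (Derivation O R (ResidueField O)) ≤ r) :
    ∃ x : Fin r → R, (∀ i, x i ∈ maximalIdeal R) ∧ Algebra.adjoin O (Set.range x) = ⊤ := by
  have hm : RingHom.ker (algebraMap R (ResidueField O)) ≤ maximalIdeal R :=
    le_maximalIdeal (RingHom.ker_ne_top _)
  have hsurj : Function.Surjective (algebraMap R (ResidueField O)) := fun z => by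
    obtain ⟨o, rfl⟩ := residue_surjective z
    exact ⟨algebraMap O R o, (IsScalarTower.algebraMap_apply O R _ o).symm⟩
  have hm' : RingHom.ker (algebraMap R (ResidueField O)) = maximalIdeal R :=
    eq_maximalIdeal (RingHom.ker_isMaximal_of_surjective _ hsurj)
  have : IsArtinianRing (R ⧸ (maximalIdeal O).map (algebraMap O R)) := by
    let _ := Ideal.Quotient.field (maximalIdeal O)
    have : Module.Finite (O ⧸ maximalIdeal O) (R ⧸ (maximalIdeal O).map (algebraMap O R)) :=
      Module.Finite.of_restrictScalars_finite O _ _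
    exact IsArtinianRing.of_finite (O ⧸ maximalIdeal O) _
  obtain ⟨N, hN⟩ := exists_maximalIdeal_pow_le_of_isArtinianRing_quotient
    ((maximalIdeal O).map (algebraMap O R))
  obtain ⟨x, h0, h1⟩ := exists_gens' (hm' ▸ hN) hr
  exact ⟨x, fun i => hm (h0 i), h1⟩

end gens

/-- from a cardinality bound to a dimension bound -/
lemma finrank_le_of_card_le {k V : Type*} [Field k] [Finite k] [AddCommGroup V] [Module k V]
    [Finite V] {r : ℕ} (h : Nat.card V ≤ Nat.card k ^ r) : Module.finrank k V ≤ r := by
  rw [Module.natCard_eq_pow_finrank (K := k)] at h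
  exact (Nat.pow_le_pow_iff_right Finite.one_lt_card).1 h

end Crest.Agent.T15.Ps

end
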