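import Crest.Agent.T15.EscB_99
import Crest.Agent.T15.LvT_10
import Crest.Agent.T15.UndA_98
import Crest.Agent.T15.TopH_88

/-!
# Row 15 (helper42): Hecke eigenvalues of weight two cusp forms are algebraic integers
-/

set_option autoImplicit false
set_option linter.all false

noncomputable section

namespace Crest.Agent.T15.Int

open UpperHalfPlane hiding I
open Complex hiding Gamma
open ModularForm CongruenceSubgroup Matrix Finset
open Crest.Agent.T15.Esc Crest.Agent.T15.Hk Crest.Agent.T15.Mf Crest.Agent.T15.Lv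
open Crest.Agent.T15.Und (QS sc coe_sc)
open scoped MatrixGroups Manifold Real

/-- an eigenvalue of an integral correspondence on a non-zero homomorphism is integral -/
theorem isIntegral_of_eig {G : Type*} [Group G] {Γ : Subgroup G} [Group.FG Γ] (c : Corr ℤ Γ Γ)
    (φ : HH Γ ℂ) (hφ : φ ≠ 0) (a : ℂ) (h : T ℂ c φ = a • φ) : IsIntegral ℤ a := by
  have hfg : (AddSubgroup.toIntSubmodule φ.range).FG := by
    have h1 : AddGroup.FG φ.range := AddGroup.fg_range φ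
    have h2 : Module.Finite ℤ φ.range := Module.Finite.iff_addGroup_fg.mpr h1
    exact Module.Finite.iff_fg.mp h2
  refine isIntegral_of_smul_mem_submodule (AddSubgroup.toIntSubmodule φ.range) ?_ hfg a ?_
  · intro h0
    apply hφ
    ext γ
    have : φ γ ∈ AddSubgroup.toIntSubmodule φ.range := ⟨γ, rfl⟩
    rw [h0] at this
    exact this
  · rintro _ ⟨γ, rfl⟩
    have h1 := T_comp c φ.range.subtype.toIntLinearMap φ.rangeRestrict
    have h2 : φ.range.subtype.toIntLinearMap.toAddMonoidHom.comp φ.rangeRestrict = φ := rfl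
    rw [h2, h] at h1
    have h3 := DFunLike.congr_fun h1 γ
    show a • φ γ ∈ φ.range
    rw [show a • φ γ = (a • φ) γ from rfl, h3]
    exact Subtype.prop _

instance : Group.FG SL(2, ℤ) :=
  Group.fg_iff.2 ⟨_, SpecialLinearGroup.SL2Z_generators, Set.toFinite _⟩

theorem fg_map (Γ : Subgroup SL(2, ℤ)) [Γ.FiniteIndex] : Group.FG (Γ.map sq) :=
  have : Group.FG Γ := Subgroup.fg_of_index_ne_zero Γ
  Group.fg_of_surjective (sq.subgroupMap_surjective Γ)

theorem isIntegral_of_hk {Γ : Subgroup SL(2, ℤ)} [Γ.FiniteIndex] {f : ℍ → ℂ} (hf : f ∈ CS Γ 2)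
    (h0 : f ≠ 0) {c : MonoidAlgebra ℤ GQ} (hc : c ∈ Corr ℤ (Γ.map sq) (Γ.map sq)) (a : ℂ)
    (h : hk 2 c f = a • f) : IsIntegral ℤ a := by
  haveI := fg_map Γ
  refine isIntegral_of_eig ⟨c, hc⟩ (P _ ⟨f, CS_le_Inv hf⟩) ?_ a ?_
  · intro h1
    refine h0 (re_per_inj hf fun γ hγ => ?_)
    have h2 := val_P (Λ := Γ.map sq) ⟨f, CS_le_Inv hf⟩ (g := sq γ) ⟨γ, hγ, rfl⟩
    rw [h1, val_eq (Γ := Γ.map sq) _ (Subgroup.mem_map_of_mem sq hγ), rr_sq] at h2
    have h3 : per f γ = 0 := h2.symm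
    rw [h3, zero_re]
  · rw [T_P, ← map_smul]
    congr 1
    exact Subtype.ext h

lemma rr_gm {a b c d : ℤ} (h : 0 < a * d - b * c) :
    rr (gm a b c d) 0 0 = a ∧ rr (gm a b c d) 0 1 = b ∧ rr (gm a b c d) 1 0 = c ∧
      rr (gm a b c d) 1 1 = d := by
  have e : ∀ i j, rr (gm a b c d) i j = ((!![(a : ℚ), b; c, d] i j : ℚ) : ℝ) := fun i j => by
    rw [rr_apply, ← gm_val h]
  refine ⟨?_, ?_, ?_, ?_⟩ <;> rw [e] <;> simp

lemma coe_gm {a b d : ℤ} (h : 0 < a * d - b * 0) (z : ℍ) :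
    ((rr (gm a b 0 d) • z : ℍ) : ℂ) = (a * z + b) / d := by
  obtain ⟨h1, h2, h3, h4⟩ := rr_gm h
  rw [coe_smul_of_det_pos (rr_pos _), num, denom, h1, h2, h3, h4]
  simp

lemma slash_gm (f : ℍ → ℂ) {a b d : ℤ} (h : 0 < a * d - b * 0) (z : ℍ) :
    (f ∣[(2 : ℤ)] rr (gm a b 0 d)) z = (a / d) * f (rr (gm a b 0 d) • z) := by
  obtain ⟨h1, h2, h3, h4⟩ := rr_gm h
  have hd : (d : ℂ) ≠ 0 := by
    have : d ≠ 0 := by rintro rfl; simp at h
    exact_mod_cast this
  rw [slash_eq, Pi.mul_apply, jf, abs_of_pos (rr_pos _), Matrix.GeneralLinearGroup.val_det_apply,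
    Matrix.det_fin_two, denom, h1, h2, h3, h4]
  push_cast
  norm_num
  field_simp

lemma sum_exp {l : ℕ} (hl : 0 < l) (n : ℕ) :
    ∑ i ∈ range l, Complex.exp (2 * π * I * n * (i / l)) = if l ∣ n then (l : ℂ) else 0 := by
  have hp := Complex.isPrimitiveRoot_exp l hl.ne'
  have e : ∀ i : ℕ, Complex.exp (2 * π * I * n * (i / l)) =
      (Complex.exp (2 * π * I / l) ^ n) ^ i := fun i => by
    rw [← Complex.exp_nat_mul, ← Complex.exp_nat_mul]; congr 1; ring
  simp only [e]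
  split_ifs with h
  · rw [(hp.pow_eq_one_iff_dvd n).2 h]; simp
  · have h1 : Complex.exp (2 * π * I / l) ^ n - 1 ≠ 0 :=
      sub_ne_zero.2 fun h2 => h ((hp.pow_eq_one_iff_dvd n).1 h2)
    have h2 := geom_sum_mul (Complex.exp (2 * π * I / l) ^ n) l
    rw [← pow_mul, mul_comm n l, pow_mul, hp.pow_eq_one, one_pow, sub_self] at h2
    exact (mul_eq_zero.1 h2).resolve_right h1

/-- `q`-expansion of `U_l f` -/
theorem qs_U {c : ℕ → ℂ} {f : ℍ → ℂ} (h : QS c f) {l : ℕ} (hl : 0 < l) (O : Type*) [CommRing O]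
    [Algebra O ℂ] : QS (fun n => c (l * n)) (hk 2 (U O l) f) := fun z => by
  have hl' : (l : ℂ) ≠ 0 := by exact_mod_cast hl.ne'
  have hpos : ∀ i : ℕ, 0 < (1 : ℤ) * l - i * 0 := fun i => by simpa using hl
  rw [U, hk_sum, Finset.sum_apply]
  have h1 : HasSum (fun n : ℕ => ∑ i ∈ range l, (((1 : ℤ) : ℂ) / ((l : ℤ) : ℂ)) *
      (c n * Complex.exp (2 * π * I * n * ((rr (up l i) • z : ℍ) : ℂ))))
      (∑ i ∈ range l, (f ∣[(2 : ℤ)] rr (up l i)) z) :=
    hasSum_sum fun i _ => by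
      rw [up, slash_gm f (hpos i)]
      exact (h _).mul_left _
  have h2 : ∀ n : ℕ, ∑ i ∈ range l, (((1 : ℤ) : ℂ) / ((l : ℤ) : ℂ)) *
      (c n * Complex.exp (2 * π * I * n * ((rr (up l i) • z : ℍ) : ℂ))) =
      if l ∣ n then c n * Complex.exp (2 * π * I * n * (z / l)) else 0 := fun n => by
    have e : ∀ i : ℕ, Complex.exp (2 * π * I * n * ((rr (up l i) • z : ℍ) : ℂ)) =
        Complex.exp (2 * π * I * n * (z / l)) * Complex.exp (2 * π * I * n * (i / l)) := fun i => by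
      rw [up, coe_gm (hpos i), ← Complex.exp_add]; congr 1; push_cast; ring
    simp only [e, ← mul_assoc]
    rw [← Finset.mul_sum]
    rw [sum_exp hl n]
    split_ifs
    · push_cast; field_simp
    · simp
  simp only [h2] at h1
  have h3 := (Function.Injective.hasSum_iff (g := fun n => l * n)
    (fun a b e => Nat.eq_of_mul_eq_mul_left hl e) fun m hm => by
      show (if l ∣ m then c m * Complex.exp (2 * π * I * m * (z / l)) else 0) = 0
      rw [if_neg]
      rintro ⟨k, rfl⟩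
      exact hm ⟨k, rfl⟩).2 h1
  convert h3 using 2 with n
  simp only [Function.comp, dvd_mul_right, if_true]
  congr 2
  push_cast
  field_simp

/-- `q`-expansion of `T_l f` for `f` invariant under `Γ₀(L)` -/
theorem qs_Tp {c : ℕ → ℂ} {f : ℍ → ℂ} (h : QS c f) {L l : ℕ} (hl : 0 < l) (hL : ¬ l ∣ L)
    (hf : ∀ γ ∈ Gamma0 L, f ∣[(2 : ℤ)] γ = f) (O : Type*) [CommRing O] [Algebra O ℂ] :
    QS (fun n => c (l * n) + if l ∣ n then (l : ℂ) * c (n / l) else 0) (hk 2 (Tp O L l) f) := by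
  intro z
  have hpos : 0 < (l : ℤ) * 1 - 0 * 0 := by simpa using hl
  rw [Tp, if_neg hL, hk_add_left, hk_e, map_mul, SlashAction.slash_mul, sg, slash_sq,
    hf _ (GH_top (L := L) ▸ sgZ_mem L l), Pi.add_apply, dg, slash_gm f hpos]
  have e : rr (gm l 0 0 1) • z = sc l z := by
    ext1; rw [coe_gm hpos, coe_sc hl]; simp
  rw [e]
  convert (qs_U h hl O z).add ((h.sc hl z).mul_left ((((l : ℤ) : ℂ)) / ((1 : ℤ) : ℂ))) using 2 with n
  beta_reduce
  split_ifs <;> simp <;> ring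

/-- the recursion of the coefficients means `T_l f = a f` -/
theorem hk_Tp_eq {c : ℕ → ℂ} {f : ℍ → ℂ} (h : QS c f) {L l : ℕ} (hl : 0 < l) (hL : ¬ l ∣ L)
    (hf : ∀ γ ∈ Gamma0 L, f ∣[(2 : ℤ)] γ = f) (O : Type*) [CommRing O] [Algebra O ℂ] {a : ℂ}
    (hr : ∀ n, c (l * n) + (if l ∣ n then (l : ℂ) * c (n / l) else 0) = a * c n) :
    hk 2 (Tp O L l) f = a • f := by
  refine (qs_Tp h hl hL hf O).unique fun z => ?_
  have e : (fun n : ℕ => (c (l * n) + if l ∣ n then (l : ℂ) * c (n / l) else 0) *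
      Complex.exp (2 * π * I * n * z)) = fun n : ℕ => a * (c n * Complex.exp (2 * π * I * n * z)) :=
    funext fun n => by rw [hr, mul_assoc]
  exact e ▸ (h z).mul_left a

/-- **(INT)**, `QS` words -/
theorem isIntegral_of_qs {c : ℕ → ℂ} {f : ℍ → ℂ} (h : QS c f) {L l : ℕ} [NeZero L] (hl : l.Prime)
    (hL : ¬ l ∣ L) (hf : f ∈ CS (Gamma0 L) 2) (h0 : f ≠ 0) {a : ℂ}
    (hr : ∀ n, c (l * n) + (if l ∣ n then (l : ℂ) * c (n / l) else 0) = a * c n) :
    IsIntegral ℤ a := by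
  have hc : Tp ℤ L l ∈ Corr ℤ ((Gamma0 L).map sq) ((Gamma0 L).map sq) := by
    have := cen_corr₀ (Gq_mono bot_le) (Tp_cen (O := ℤ) (L := L) hl)
    rwa [Gq, GH_top] at this
  exact isIntegral_of_hk hf h0 hc a (hk_Tp_eq h hl.pos hL hf.2.1 ℤ hr)

/-- a Mathlib cusp form lies in `CS` -/
theorem mem_CS {Γ : Subgroup SL(2, ℤ)} [Γ.FiniteIndex] {k : ℤ} (f : CuspForm Γ k) :
    (f : ℍ → ℂ) ∈ CS Γ k :=
  ⟨f.holo', fun γ hγ => SlashInvariantForm.slash_action_eqn f _ ⟨γ, hγ, rfl⟩,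
    fun s => CuspFormClass.zero_at_infty_slash f s⟩

/-- the `q`-expansion of a Mathlib cusp form of level `Γ₀(N)` -/
theorem qs_qExpansion {N : ℕ} [NeZero N] {k : ℤ} (f : CuspForm (Gamma0 N) k) :
    QS (fun n => (qExpansion 1 f).coeff n) f := fun z => by
  have h := ModularForm.hasSum_qExpansion f (h := 1) one_pos (by simp) z
  convert h using 3 with n
  rw [Function.Periodic.qParam, ← Complex.exp_nat_mul]
  congr 1
  push_cast
  ring

/-- **(INT)** -/
theorem isIntegral_of_mod {N : ℕ} {a : ℕ → ℂ} (hN : 0 < N) (h : Top.Mod N a) {l : ℕ} (hl : l.Prime)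
    (hL : ¬ l ∣ 3 * N) : IsIntegral ℤ (a l) := by
  obtain ⟨f, h0, hf⟩ := h
  haveI : NeZero N := ⟨hN.ne'⟩
  exact isIntegral_of_qs (qs_qExpansion f) hl (fun h => hL (h.mul_left 3)) (mem_CS f)
    (fun h => h0 (DFunLike.coe_injective h)) (hf l hl hL)

/-- **(INT)**, `IsEig` words -/
theorem isIntegral_of_isEig {N : ℕ} {a : ℕ → ℂ} (hN : 0 < N) (h : C.IsEig N a) {l : ℕ}
    (hl : l.Prime) (hL : ¬ l ∣ N) : IsIntegral ℤ (a l) := by
  obtain ⟨⟨f, hf⟩, -, h1, hr⟩ := h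
  haveI : NeZero N := ⟨hN.ne'⟩
  by_cases h0 : (f : ℍ → ℂ) = 0
  · exfalso
    have hq : QS a f := hf
    have h2 := ModularFormClass.qExpansion_coeff_unique (h := 1) (f := f) (c := a) one_pos (by simp) (fun z => by
      convert hq z using 2 with n
      rw [Function.Periodic.qParam, ← Complex.exp_nat_mul, smul_eq_mul]
      congr 2
      push_cast
      ring) 1
    rw [h1, h0, qExpansion_zero] at h2
    simp at h2
  · exact isIntegral_of_qs hf hl hL (mem_CS f) h0 (hr l hl hL)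

end Crest.Agent.T15.Int
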