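import Crest.Agent.T15.HonD_54
import Crest.Agent.T15.RatB_42

/-!
# Row 15, block Ht (helper42): operator words in `j` and the Frobenius, their logarithms

* `Wd`, `op j e Ψ = ∑ i, (Ψ i)(j) e ^ i`, `Kill`;
* `ser` : the action of a word on a vector of power series, `Cgr` : the congruence;
* `lam_op` : `Λ (Ψ x) = em (th (ser Ψ l))`.
-/

set_option autoImplicit false
set_option linter.all false

noncomputable section

namespace Crest.Agent.T15.Lp

open scoped NNReal PowerSeries Polynomial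
open PowerSeries Matrix Crest.Agent.R013.PicD_398
open Crest.Agent.T15.Hon hiding op Kill

/-- words -/
abbrev Wd : Type := Fin 3 → ℤ[X]

section op

variable {A : Type*} [AddCommGroup A]

/-- the operator of a word -/
def op (j e : Module.End ℤ A) : Wd →+ Module.End ℤ A where
  toFun Ψ := ∑ i : Fin 3, Polynomial.aeval j (Ψ i) * e ^ (i : ℕ)
  map_zero' := by simp
  map_add' Ψ Ψ' := by simp [add_mul, Finset.sum_add_distrib]

theorem op_apply (j e : Module.End ℤ A) (Ψ : Wd) (x : A) :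
    op j e Ψ x = ∑ i : Fin 3, Polynomial.aeval j (Ψ i) ((e ^ (i : ℕ)) x) := by
  show (∑ i : Fin 3, Polynomial.aeval j (Ψ i) * e ^ (i : ℕ)) x = _
  rw [LinearMap.sum_apply]; rfl

theorem op_apply' (j e : Module.End ℤ A) (Ψ : Wd) (x : A) :
    op j e Ψ x = Polynomial.aeval j (Ψ 0) x + Polynomial.aeval j (Ψ 1) (e x) +
      Polynomial.aeval j (Ψ 2) (e (e x)) := by
  rw [op_apply, Fin.sum_univ_three]; simp [pow_two]

/-- evaluation of words at a class -/
def opAt (j e : Module.End ℤ A) (x : A) : Wd →+ A where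
  toFun Ψ := op j e Ψ x
  map_zero' := by simp
  map_add' Ψ Ψ' := by simp

theorem opAt_apply (j e : Module.End ℤ A) (x : A) (Ψ : Wd) : opAt j e x Ψ = op j e Ψ x := rfl

/-- the word kills the `3 ^ m`-torsion -/
def Kill (j e : Module.End ℤ A) (Ψ : Wd) (m : ℕ) : Prop := ∀ x : A, 3 ^ m • x = 0 → op j e Ψ x = 0

/-- `q (l + S ^ 2)` -/
def wa (q : ℤ[X]) (l : ℕ) : Wd := ![Polynomial.C (l : ℤ) * q, 0, q]
/-- `q S` -/
def wb (q : ℤ[X]) : Wd := ![0, q, 0]

theorem op_wa (j e : Module.End ℤ A) (q : ℤ[X]) (l : ℕ) (x : A) :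
    op j e (wa q l) x = Polynomial.aeval j q (e (e x) + l • x) := by
  rw [op_apply']
  simp [wa, add_comm]

theorem op_wb (j e : Module.End ℤ A) (q : ℤ[X]) (x : A) :
    op j e (wb q) x = Polynomial.aeval j q (e x) := by
  rw [op_apply']
  simp [wb]

/-- transport of polynomials along an intertwiner -/
theorem map_aeval {B : Type*} [AddCommGroup B] (f : A →+ B) {j : Module.End ℤ A}
    {j' : Module.End ℤ B} (h : ∀ x, f (j x) = j' (f x)) (q : ℤ[X]) (x : A) :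
    f (Polynomial.aeval j q x) = Polynomial.aeval j' q (f x) := by
  induction q using Polynomial.induction_on generalizing x with
  | C a => simp
  | add p q hp hq => simp [hp, hq]
  | monomial n a ih =>
    rw [pow_succ, ← mul_assoc, map_mul, map_mul (Polynomial.aeval j'), Polynomial.aeval_X,
      Polynomial.aeval_X, Module.End.mul_apply, Module.End.mul_apply, ih, h]

theorem map_pow' {B : Type*} [AddCommGroup B] (f : A →+ B) {e : Module.End ℤ A}
    {e' : Module.End ℤ B} (h : ∀ x, f (e x) = e' (f x)) (i : ℕ) (x : A) :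
    f ((e ^ i) x) = (e' ^ i) (f x) := by
  induction i generalizing x with
  | zero => simp
  | succ i ih => rw [pow_succ, pow_succ, Module.End.mul_apply, Module.End.mul_apply, ih, h]

theorem map_op {B : Type*} [AddCommGroup B] (f : A →+ B) {j e : Module.End ℤ A}
    {j' e' : Module.End ℤ B} (hj : ∀ x, f (j x) = j' (f x)) (he : ∀ x, f (e x) = e' (f x))
    (Ψ : Wd) (x : A) : f (op j e Ψ x) = op j' e' Ψ (f x) := by
  rw [op_apply, op_apply, map_sum]
  exact Finset.sum_congr rfl fun i _ => by rw [map_aeval f hj, map_pow' f he]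

/-- transport of `Kill` along a map which is onto on the torsion -/
theorem Kill.map {B : Type*} [AddCommGroup B] (f : A →+ B) {j e : Module.End ℤ A}
    {j' e' : Module.End ℤ B} (hj : ∀ x, f (j x) = j' (f x)) (he : ∀ x, f (e x) = e' (f x)) {m : ℕ}
    (hs : ∀ y : B, 3 ^ m • y = 0 → ∃ x, 3 ^ m • x = 0 ∧ f x = y) {Ψ : Wd} (h : Kill j e Ψ m) :
    Kill j' e' Ψ m := fun y hy => by
  obtain ⟨x, hx, rfl⟩ := hs y hy
  rw [← map_op f hj he, h x hx, map_zero]

/-- an integral matrix acting on vectors -/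
def mE {g : ℕ} (R : Type*) [Ring R] (J : Matrix (Fin g) (Fin g) ℤ) : Module.End ℤ (Fin g → R) where
  toFun y m := ∑ m', (J m m' : R) * y m'
  map_add' y y' := by ext m; simp [mul_add, Finset.sum_add_distrib]
  map_smul' c y := by
    ext m
    simp only [Pi.smul_apply, RingHom.id_apply, Finset.smul_sum, mul_smul_comm]

theorem mE_apply {g : ℕ} {R : Type*} [Ring R] (J : Matrix (Fin g) (Fin g) ℤ) (y : Fin g → R)
    (m : Fin g) : mE R J y m = ∑ m', (J m m' : R) * y m' := rfl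

theorem aeval_mE {g : ℕ} {R : Type*} [Ring R] (J : Matrix (Fin g) (Fin g) ℤ) (q : ℤ[X]) :
    Polynomial.aeval (mE R J) q = mE R (Polynomial.aeval J q) := by
  induction q using Polynomial.induction_on with
  | C a =>
    refine LinearMap.ext fun y => funext fun m => ?_
    simp [mE_apply, Matrix.algebraMap_matrix_apply, Matrix.intCast_apply, Matrix.diagonal_apply,
      Matrix.one_apply]
  | add p q hp hq =>
    refine LinearMap.ext fun y => funext fun m => ?_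
    simp [hp, hq, mE_apply, add_mul, Finset.sum_add_distrib]
  | monomial n a ih =>
    refine LinearMap.ext fun y => funext fun m => ?_
    rw [pow_succ, ← mul_assoc, map_mul, map_mul (Polynomial.aeval J), Polynomial.aeval_X,
      Polynomial.aeval_X, Module.End.mul_apply, ih]
    simp only [mE_apply, Matrix.mul_apply, Int.cast_sum, Int.cast_mul, Finset.sum_mul,
      Finset.mul_sum, mul_assoc]
    exact Finset.sum_comm

end op

section ser

variable {K0 : Type*} [Field K0] {g : ℕ}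

/-- the Frobenius on vectors of series -/
def fE (g : ℕ) (σ : K0 →+* K0) (p : ℕ) (hp : p ≠ 0) : Module.End ℤ (Fin g → K0⟦X⟧) where
  toFun l m := fr σ p hp (l m)
  map_add' y y' := by ext1 m; simp
  map_smul' c y := by ext1 m; simp

theorem fE_pow (σ : K0 →+* K0) (p : ℕ) (hp : p ≠ 0) (i : ℕ) (l : Fin g → K0⟦X⟧) (m : Fin g) :
    (fE g σ p hp ^ i) l m = (fr σ p hp ^ i) (l m) := by
  induction i with
  | zero => simp
  | succ i ih => rw [pow_succ', pow_succ', Module.End.mul_apply, RingHom.mul_def,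
      RingHom.comp_apply, ← ih]; rfl

/-- a word applied to a vector of series -/
def ser (σ : K0 →+* K0) (p : ℕ) (hp : p ≠ 0) (J : Matrix (Fin g) (Fin g) ℤ) (Ψ : Wd)
    (l : Fin g → K0⟦X⟧) : Fin g → K0⟦X⟧ := op (mE K0⟦X⟧ J) (fE g σ p hp) Ψ l

variable {σ : K0 →+* K0} {p : ℕ} {hp : p ≠ 0} {J : Matrix (Fin g) (Fin g) ℤ} {l : Fin g → K0⟦X⟧}
  {v0 : Valuation K0 ℝ≥0}

theorem ser_apply (Ψ : Wd) (m : Fin g) : ser σ p hp J Ψ l m =
    ∑ i : Fin 3, ∑ m', ((Polynomial.aeval J (Ψ i) m m' : ℤ) : K0⟦X⟧) * (fr σ p hp ^ (i : ℕ)) (l m') := by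
  rw [ser, op_apply, Finset.sum_apply]
  simp only [aeval_mE, mE_apply, fE_pow]

theorem ser_add (Ψ Ψ' : Wd) : ser σ p hp J (Ψ + Ψ') l = ser σ p hp J Ψ l + ser σ p hp J Ψ' l := by
  simp [ser]

theorem ser_sub (Ψ Ψ' : Wd) : ser σ p hp J (Ψ - Ψ') l = ser σ p hp J Ψ l - ser σ p hp J Ψ' l := by
  simp [ser]

theorem ser_smul (c : ℤ) (Ψ : Wd) : ser σ p hp J (c • Ψ) l = c • ser σ p hp J Ψ l := by
  rw [ser, map_zsmul]; rfl

theorem ser_wa (q : ℤ[X]) (n : ℕ) (m : Fin g) : ser σ p hp J (wa q n) l m =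
    ∑ m', ((Polynomial.aeval J q m m' : ℤ) : K0⟦X⟧) *
      (fr σ p hp (fr σ p hp (l m')) + (n : K0⟦X⟧) * l m') := by
  rw [ser, op_wa, aeval_mE, mE_apply]
  simp [fE]

theorem ser_wb (q : ℤ[X]) (m : Fin g) : ser σ p hp J (wb q) l m =
    ∑ m', ((Polynomial.aeval J q m m' : ℤ) : K0⟦X⟧) * fr σ p hp (l m') := by
  rw [ser, op_wb, aeval_mE, mE_apply]
  simp [fE]

theorem constantCoeff_ser (h : ∀ m, constantCoeff (l m) = 0) (Ψ : Wd) (m : Fin g) :
    constantCoeff (ser σ p hp J Ψ l m) = 0 := by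
  simp [ser_apply, fr_pow, constantCoeff_fr, h]

/-- the congruence -/
def Cgr (v0 : Valuation K0 ℝ≥0) (σ : K0 →+* K0) (p : ℕ) (hp : p ≠ 0) (J : Matrix (Fin g) (Fin g) ℤ)
    (l : Fin g → K0⟦X⟧) (Ψ : Wd) : Prop := ∀ m, PI v0 (v0 p) (ser σ p hp J Ψ l m)

theorem PI_int (v0 : Valuation K0 ℝ≥0) (c : ℤ) : PI v0 1 (c : K0⟦X⟧) := by
  rw [← map_intCast (C : K0 →+* K0⟦X⟧)]; exact PI.const_le (v_intCast_le v0 c)

theorem AI_int (v0 : Valuation K0 ℝ≥0) (c : ℤ) : AI v0 (c : K0⟦X⟧) := by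
  rw [← map_intCast (C : K0 →+* K0⟦X⟧)]; exact AI.const (v_intCast_le v0 c)

theorem Cgr.add {Ψ Ψ' : Wd} (h : Cgr v0 σ p hp J l Ψ) (h' : Cgr v0 σ p hp J l Ψ') :
    Cgr v0 σ p hp J l (Ψ + Ψ') := fun m => by rw [ser_add]; exact (h m).add (h' m)

theorem Cgr.sub {Ψ Ψ' : Wd} (h : Cgr v0 σ p hp J l Ψ) (h' : Cgr v0 σ p hp J l Ψ') :
    Cgr v0 σ p hp J l (Ψ - Ψ') := fun m => by rw [ser_sub]; exact (h m).sub (h' m)

theorem Cgr.smul {Ψ : Wd} (h : Cgr v0 σ p hp J l Ψ) (c : ℤ) : Cgr v0 σ p hp J l (c • Ψ) :=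
  fun m => by
    rw [ser_smul, Pi.smul_apply, zsmul_eq_mul]; exact (PI_int v0 c).mul_left (h m)

theorem coeff_th (f : K0⟦X⟧) (n : ℕ) : coeff n (th f) = n * coeff n f := by
  cases n with
  | zero => simp [th]
  | succ n => rw [th, coeff_succ_X_mul, coeff_derivative]; push_cast; ring

theorem th_add (f f' : K0⟦X⟧) : th (f + f') = th f + th f' := by simp [th, mul_add]

theorem th_sub (f f' : K0⟦X⟧) : th (f - f') = th f - th f' := by simp [th, mul_sub]

theorem th_int (c : ℤ) (f : K0⟦X⟧) : th ((c : K0⟦X⟧) * f) = c * th f := by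
  rw [← zsmul_eq_mul, ← zsmul_eq_mul, th, th, map_zsmul, mul_smul_comm]

theorem th_sum {ι : Type*} (s : Finset ι) (f : ι → K0⟦X⟧) : th (∑ i ∈ s, f i) = ∑ i ∈ s, th (f i) := by
  simp [th, Finset.mul_sum]

theorem th_fr (f : K0⟦X⟧) : th (fr σ p hp f) = (p : K0⟦X⟧) * fr σ p hp (th f) := by
  ext n
  rw [← map_natCast (C : K0 →+* K0⟦X⟧), coeff_C_mul, coeff_th, coeff_fr, coeff_fr]
  split_ifs with h
  · obtain ⟨k, rfl⟩ := h
    rw [Nat.mul_div_cancel_left _ (Nat.pos_of_ne_zero hp), coeff_th]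
    simp; ring
  · simp

theorem map_aeval_poly (s : K0 →+* K0) (a : K0[X]) :
    fr s p hp (algebraMap K0[X] K0⟦X⟧ a) =
      algebraMap K0[X] K0⟦X⟧ (Polynomial.expand K0 p (a.map s)) := by
  show fr s p hp (a : K0⟦X⟧) = ((Polynomial.expand K0 p (a.map s) : K0[X]) : K0⟦X⟧)
  ext n
  rw [coeff_fr, Polynomial.coeff_coe, Polynomial.coeff_coe,
    Polynomial.coeff_expand (Nat.pos_of_ne_zero hp), Polynomial.coeff_map]

theorem AI_fr (hσ : ∀ a, v0 (σ a) = v0 a) {f : K0⟦X⟧} (hf : AI v0 f) : AI v0 (fr σ p hp f) := by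
  refine ⟨hf.1.fr hσ hp, ?_⟩
  let φ : K0[X] →+* K0[X] := (Polynomial.expand K0 p).toRingHom.comp (Polynomial.mapRingHom σ)
  have hφ : Function.Injective φ :=
    (Polynomial.expand_injective (Nat.pos_of_ne_zero hp)).comp (Polynomial.map_injective σ σ.injective)
  exact hf.2.ringHom_of_comp_eq φ (fr σ p hp) hφ (RingHom.ext fun a => (map_aeval_poly (hp := hp) σ a).symm)

theorem AI_th_fr (hσ : ∀ a, v0 (σ a) = v0 a) {f : K0⟦X⟧} (hf : AI v0 (th f)) :
    AI v0 (th (fr σ p hp f)) := by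
  rw [th_fr]
  exact (by simpa using AI_int v0 p : AI v0 (p : K0⟦X⟧)).mul (AI_fr hσ hf)

theorem AI_th_fr_pow (hσ : ∀ a, v0 (σ a) = v0 a) {f : K0⟦X⟧} (hf : AI v0 (th f)) (i : ℕ) :
    AI v0 (th ((fr σ p hp ^ i) f)) := by
  induction i with
  | zero => simpa using hf
  | succ i ih => rw [pow_succ', RingHom.mul_def, RingHom.comp_apply]; exact AI_th_fr hσ ih

theorem AI_th_ser (hσ : ∀ a, v0 (σ a) = v0 a) (hl : ∀ m, AI v0 (th (l m))) (Ψ : Wd) (m : Fin g) :
    AI v0 (th (ser σ p hp J Ψ l m)) := by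
  rw [ser_apply, th_sum]
  refine AI.sum _ fun i _ => ?_
  rw [th_sum]
  refine AI.sum _ fun m' _ => ?_
  rw [th_int]
  exact (AI_int v0 _).mul (AI_th_fr_pow hσ (hl m') i)

/-- from the logarithmic derivative to the series -/
theorem PI_of_th [CharZero K0] {c : ℝ≥0} {s : K0⟦X⟧} (h0 : constantCoeff s = 0)
    (h : ∀ n, v0 (coeff n (th s)) ≤ c * v0 n) : PI v0 c s := fun n => by
  rcases Nat.eq_zero_or_pos n with rfl | hn
  · rw [coeff_zero_eq_constantCoeff_apply, h0, map_zero]; exact zero_le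
  · have h1 := h n
    rw [coeff_th, map_mul, mul_comm] at h1
    have h2 : 0 < v0 n := (v0.pos_iff).2 (by exact_mod_cast hn.ne')
    exact le_of_mul_le_mul_right h1 h2

/-- removing the factor `1 - S ^ r` -/
theorem PI_of_sub_fr (hσ : ∀ a, v0 (σ a) = v0 a) {q : ℕ} (hq : q ≠ 0) (hq1 : 1 < q) {c : ℝ≥0}
    {s : K0⟦X⟧} (h0 : constantCoeff s = 0) (h : PI v0 c (s - fr σ q hq s)) : PI v0 c s := by
  intro n
  induction n using Nat.strong_induction_on with
  | _ n ih =>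
    rcases Nat.eq_zero_or_pos n with rfl | hn
    · rw [coeff_zero_eq_constantCoeff_apply, h0, map_zero]; exact zero_le
    have h1 : v0 (coeff n (fr σ q hq s)) ≤ c := by
      rw [coeff_fr]
      split_ifs
      · rw [hσ]; exact ih _ (Nat.div_lt_self hn hq1)
      · simp
    have h2 := v0.map_add (coeff n (s - fr σ q hq s)) (coeff n (fr σ q hq s))
    rw [← map_add, sub_add_cancel] at h2
    exact h2.trans (max_le (h n) h1)

end ser

section vs

variable {C : Type} [Field C] {K0 : Subfield C} {v0 : Valuation K0 ℝ≥0} {p : ℕ} {hp : p ≠ 0}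
  {σ : K0 →+* K0} (V : Vs C K0 v0 p hp σ)

theorem em_zero : V.em 0 = 0 := by
  have := V.em_add 0 0 AI.zero AI.zero
  rw [add_zero] at this
  exact left_eq_add.mp this

theorem em_int (c : ℤ) : V.em (c : K0⟦X⟧) = c := by
  rw [← map_intCast (PowerSeries.C : K0 →+* K0⟦X⟧), V.em_C _ (v_intCast_le v0 c)]
  simp

theorem em_sub {f f' : K0⟦X⟧} (h : AI v0 f) (h' : AI v0 f') : V.em (f - f') = V.em f - V.em f' := by
  have := V.em_add _ _ (h.sub h') h'
  rw [sub_add_cancel] at this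
  rw [this, add_sub_cancel_right]

theorem em_sum {ι : Type*} (s : Finset ι) {f : ι → K0⟦X⟧} (h : ∀ i ∈ s, AI v0 (f i)) :
    V.em (∑ i ∈ s, f i) = ∑ i ∈ s, V.em (f i) := by
  classical
  induction s using Finset.induction_on with
  | empty => simpa using em_zero V
  | insert a s ha ih =>
    rw [Finset.sum_insert ha, Finset.sum_insert ha, V.em_add _ _ (h a (Finset.mem_insert_self _ _))
      (AI.sum _ fun i hi => h i (Finset.mem_insert_of_mem hi)),
      ih fun i hi => h i (Finset.mem_insert_of_mem hi)]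

theorem em_th_fr (hσ : ∀ a, v0 (σ a) = v0 a) {f : K0⟦X⟧} (hf : AI v0 (th f)) :
    V.em (th (fr σ p hp f)) = p * V.S (V.em (th f)) := by
  rw [th_fr, V.em_mul _ _ (by simpa using AI_int v0 p) (AI_fr hσ hf), V.S_em _ hf]
  have := em_int V p
  simp only [Int.cast_natCast] at this
  rw [this]

variable {A : Type*} [AddCommGroup A] {g : ℕ} {Λ : Fin g → A →+ V.Ω} {j e : Module.End ℤ A}
  {J : Matrix (Fin g) (Fin g) ℤ}

/-- `l` is the logarithm of `x` -/
def Lg (Λ : Fin g → A →+ V.Ω) (x : A) (l : Fin g → K0⟦X⟧) : Prop :=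
  ∀ m, AI v0 (th (l m)) ∧ Λ m x = V.em (th (l m))

variable {V}

theorem Lg.sub {x x' : A} {l l' : Fin g → K0⟦X⟧} (h : Lg V Λ x l) (h' : Lg V Λ x' l') :
    Lg V Λ (x - x') (l - l') := fun m => by
  rw [Pi.sub_apply, th_sub, em_sub V (h m).1 (h' m).1, map_sub, (h m).2, (h' m).2]
  exact ⟨(h m).1.sub (h' m).1, rfl⟩

theorem Lg.frob (hσ : ∀ a, v0 (σ a) = v0 a) (he : ∀ m c, Λ m (e c) = p * V.S (Λ m c)) {x : A}
    {l : Fin g → K0⟦X⟧} (h : Lg V Λ x l) (i : ℕ) :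
    Lg V Λ ((e ^ i) x) fun m => (fr σ p hp ^ i) (l m) := by
  induction i with
  | zero => simpa using h
  | succ i ih =>
    intro m
    refine ⟨AI_th_fr_pow hσ (h m).1 _, ?_⟩
    beta_reduce
    rw [pow_succ', pow_succ', Module.End.mul_apply, he, (ih m).2, RingHom.mul_def,
      RingHom.comp_apply, em_th_fr V hσ (ih m).1]

/-- **(LAMPSI)** -/
theorem Lg.op (hσ : ∀ a, v0 (σ a) = v0 a) (hj : ∀ m c, Λ m (j c) = ∑ m', (J m m' : V.Ω) * Λ m' c)
    (he : ∀ m c, Λ m (e c) = p * V.S (Λ m c)) {x : A} {l : Fin g → K0⟦X⟧} (h : Lg V Λ x l)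
    (Ψ : Wd) : Lg V Λ (op j e Ψ x) (ser σ p hp J Ψ l) := fun m => by
  refine ⟨AI_th_ser hσ (fun m => (h m).1) Ψ m, ?_⟩
  have h1 : ∀ (q : ℤ[X]) (c : A), Λ m (Polynomial.aeval j q c) =
      ∑ m', ((Polynomial.aeval J q m m' : ℤ) : V.Ω) * Λ m' c := fun q c => by
    have := congrFun (map_aeval (AddMonoidHom.pi Λ) (j := j) (j' := mE V.Ω J)
      (fun c => funext fun m => hj m c) q c) m
    rw [aeval_mE] at this
    exact this
  have h2 : ∀ (i : ℕ) (c : ℤ) m', AI v0 (th ((c : K0⟦X⟧) * (fr σ p hp ^ i) (l m'))) := fun i c m' => by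
    rw [th_int]; exact (AI_int v0 _).mul (AI_th_fr_pow hσ (h m').1 i)
  rw [op_apply, ser_apply, map_sum, th_sum, em_sum V _ fun i _ => by
    rw [th_sum]; exact AI.sum _ fun m' _ => h2 _ _ _]
  refine Finset.sum_congr rfl fun i _ => ?_
  rw [h1, th_sum, em_sum V _ fun m' _ => h2 _ _ _]
  refine Finset.sum_congr rfl fun m' _ => ?_
  rw [th_int, V.em_mul _ _ (AI_int v0 _) (AI_th_fr_pow hσ (h m').1 i), em_int,
    (h.frob hσ he i m').2]

/-- **from the core congruence to `Cgr`**: `Z` = "invariant with trivial specialisation" -/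
theorem cgr_of [CharZero K0] (U : Un v0 p σ)
    (hj : ∀ m c, Λ m (j c) = ∑ m', (J m m' : V.Ω) * Λ m' c)
    (he : ∀ m c, Λ m (e c) = p * V.S (Λ m c)) {x : A} {l : Fin g → K0⟦X⟧} (h : Lg V Λ x l)
    (h0 : ∀ m, constantCoeff (l m) = 0) {Z : A → Prop}
    (hZ : ∀ c m f, Z c → AI v0 f → Λ m c = V.em f → ∀ n, v0 (coeff n f) ≤ v0 p * v0 n)
    {Ψ : Wd} {r : ℕ} (hr : 0 < r) (hc : Z (op j e Ψ x - (e ^ r) (op j e Ψ x))) :
    Cgr v0 σ p hp J l Ψ := fun m => by
  have h1 := h.op U.iso hj he Ψ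
  have h2 := h1.sub (h1.frob U.iso he r) m
  have h3 := hZ _ m _ hc h2.1 h2.2
  have h4 := constantCoeff_ser (σ := σ) (p := p) (hp := hp) (J := J) h0 Ψ m
  rw [Pi.sub_apply, fr_pow] at h3
  refine PI_of_sub_fr (σ := σ ^ r) (U.iso_pow r) (pow_ne_zero r hp)
    (Nat.one_lt_pow hr.ne' U.prime.one_lt) h4 (PI_of_th ?_ h3)
  rw [map_sub, constantCoeff_fr, h4, map_zero, sub_zero]

end vs

/-! ## bridge to the words of `HonD_54` -/

theorem hon_op {A : Type*} [AddCommGroup A] (j e : A →+ A) (Ψ : Wd) (c : A) :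
    Hon.op j e Ψ c = op j.toIntLinearMap e.toIntLinearMap Ψ c := by
  rw [op_apply, Hon.op]
  exact Finset.sum_congr rfl fun i _ => by rw [Module.End.pow_apply]; rfl

theorem hon_kill {A : Type*} [AddCommGroup A] (j e : A →+ A) (Ψ : Wd) (m : ℕ) :
    Hon.Kill j e Ψ m ↔ Kill j.toIntLinearMap e.toIntLinearMap Ψ m := by
  simp only [Hon.Kill, Kill, hon_op]

theorem hon_ser {K0 : Type*} [Field K0] {g : ℕ} (σ : K0 →+* K0) (p : ℕ) (hp : p ≠ 0)
    (J : Matrix (Fin g) (Fin g) ℤ) (Ψ : Wd) (l : Fin g → K0⟦X⟧) :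
    Hon.op (jS K0 J) (eS g σ p hp) Ψ l = ser σ p hp J Ψ l := by
  have h : (jS K0 J).toIntLinearMap = mE K0⟦X⟧ J := by
    refine LinearMap.ext fun y => funext fun m => ?_
    show ∑ m', J m m' • y m' = _
    simp [mE_apply]
  rw [hon_op, ser, h]
  rfl

theorem cong_iff {K0 : Type*} [Field K0] {g : ℕ} (v0 : Valuation K0 ℝ≥0) (p : ℕ) (hp : p ≠ 0)
    (σ : K0 →+* K0) (F : K0[X]) (N : Fin g → Fin g → K0) (J : Matrix (Fin g) (Fin g) ℤ) (a b : K0)
    (Ψ : Wd) : Cong v0 p hp σ F N J a b Ψ ↔ Cgr v0 σ p hp J (lgN N F a b) Ψ := by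
  simp only [Cong, Cgr, hon_ser]

/-- **LAMPSI on the frame**: the congruence from the core statement for invariant classes with
trivial reduction -/
theorem cong_of {C : Type} [Field C] [CharZero C] {K0 : Subfield C} {v0 : Valuation K0 ℝ≥0} {p : ℕ}
    {hp : p ≠ 0} {σ : K0 →+* K0} {V : Vs C K0 v0 p hp σ} {g : ℕ} {F : K0[X]}
    {N : Fin g → Fin g → K0} {J : Matrix (Fin g) (Fin g) ℤ} (Y : Fm V g F N J) (U : Un v0 p σ)
    (hN : ∀ m k, v0 (N m k) ≤ 1) {a b : K0} (h : GdP v0 F a b)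
    (hx : ∀ m, Y.Λ (Y.x a b) m = V.em (th (lgN N F a b m))) {Z : Pic V.Ω Y.L → Prop}
    (hZ : ∀ c m f, Z c → AI v0 f → Y.Λ c m = V.em f → ∀ n, v0 (coeff n f) ≤ v0 p * v0 n)
    {Ψ : Wd} {r : ℕ} (hr : 0 < r)
    (hc : Z (Hon.op Y.j Y.e.pic.toAddMonoidHom Ψ (Y.x a b) -
      Y.e.pic^[r] (Hon.op Y.j Y.e.pic.toAddMonoidHom Ψ (Y.x a b)))) :
    Cong v0 p hp σ F N J a b Ψ := by
  rw [cong_iff]
  refine cgr_of (V := V) (Λ := fun m => (Pi.evalAddMonoidHom (fun _ => V.Ω) m).comp Y.Λ)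
    (j := Y.j.toIntLinearMap) (e := Y.e.pic.toAddMonoidHom.toIntLinearMap) U
    (fun m c => by simpa using Y.Λ_j c m) (fun m c => Y.Λ_e c m)
    (fun m => ⟨h.ai_th_lgN hN m, hx m⟩) (constantCoeff_lgN N) (Z := Z) hZ hr ?_
  rw [← hon_op, Module.End.pow_apply]
  exact hc

end Crest.Agent.T15.Lp
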