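import Crest.Agent.T15.HonH_54
import Crest.Agent.T15.HonGl_74
import Crest.Agent.T15.Lp_42
import Crest.Agent.T15.Int_42

/-!
# Row 15, block Ht (helper42): the leaves `IntStmt` and `RatStmt`
-/

set_option autoImplicit false
set_option linter.all false

noncomputable section

namespace Crest.Agent.T15.RatZ

open scoped NNReal PowerSeries Polynomial
open Matrix NumberField Crest.Agent.R018.Placesx484 Crest.Agent.R013.PicD_398
open Crest.Agent.R013.Frob1_914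
open Crest.Agent.T15.C (Om Gam)
open Crest.Agent.T15.Top (Plc)
open Crest.Agent.T15.Mo (Par)
open Crest.Agent.T15.Hon Crest.Agent.T15.Ht Crest.Agent.T15.Lp

theorem intStmt : IntStmt := fun _ _ _ hN h hl hL => Int.isIntegral_of_mod hN h hl hL

theorem exists_place {p : ℕ} (hp : p.Prime) : ∃ P : Place Om, P.rchar = p := by
  have h1 : Ideal.span {(p : 𝓞 Om)} ≠ ⊤ := fun h => by
    have hu := Ideal.span_singleton_eq_top.1 h
    have : IsUnit (algebraMap ℤ (𝓞 Om) p) := by simpa using hu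
    have h2 := (isUnit_map_iff (algebraMap ℤ (𝓞 Om)) (p : ℤ)).1 this
    exact hp.ne_one (by simpa using Int.isUnit_iff_natAbs_eq.1 h2)
  obtain ⟨M, hM, hle⟩ := Ideal.exists_le_maximal _ h1
  have hm : (p : 𝓞 Om) ∈ M := hle (Ideal.mem_span_singleton_self _)
  refine ⟨⟨M, hM.isPrime, fun h0 => ?_⟩, Place.rchar_eq_of_mem _ hp hm⟩
  rw [h0, Ideal.mem_bot] at hm
  exact hp.ne_zero (by exact_mod_cast hm)

section words

variable {A : Type*} [AddCommGroup A] (j e : A →+ A)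

theorem aeval_X_pow (n : ℕ) (x : A) :
    Polynomial.aeval (j.toIntLinearMap : Module.End ℤ A) ((Polynomial.X : ℤ[X]) ^ n) x = j^[n] x := by
  rw [map_pow, Polynomial.aeval_X, Module.End.pow_apply]; rfl

theorem op_rel (l ε : ℕ) (c : ℤ) (x : A) :
    Hon.op j e (wa (Polynomial.X ^ 2) l - c • wb (Polynomial.X ^ (2 + ε))) x =
      j (j (e (e x) - c • j^[ε] (e x) + l • x)) := by
  rw [hon_op, map_sub, map_zsmul, LinearMap.sub_apply, LinearMap.smul_apply, op_wa, op_wb,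
    aeval_X_pow, aeval_X_pow, Function.iterate_add_apply]
  simp only [Function.iterate_succ, Function.iterate_zero, Function.comp, id, map_add, map_sub,
    map_zsmul, map_nsmul, AddMonoidHom.coe_toIntLinearMap]
  abel

end words

theorem rel_iff {C : Type} [Field C] [IsAlgClosed C] {P : Par C} (M : Mdl P) (e : SI C M.Y C M.Y)
    (l : ℕ) (τ : ℕ → ℤ) : M.Rel e l τ ↔ ∀ m, Hon.Kill M.j e.pic.toAddMonoidHom
      (wa (Polynomial.X ^ 2) l - τ m • wb (Polynomial.X ^ (2 + ep l))) m := by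
  simp only [Mdl.Rel, Hon.Kill, op_rel]
  rfl

theorem rel_of_dvd {C : Type} [Field C] [IsAlgClosed C] {P : Par C} (M : Mdl P)
    {e : SI C M.Y C M.Y} {l : ℕ} {τ : ℕ → ℤ} (h : M.Rel e l τ) {n : ℤ}
    (hn : ∀ m, (3 : ℤ) ^ m ∣ n - τ m) : M.Rel e l fun _ => n := fun m x hx => by
  obtain ⟨c, hc⟩ := hn m
  have h1 : (3 : ℤ) ^ m • M.j^[ep l] (e.pic x) = 0 := by
    have h2 : (3 : ℤ) ^ m • x = 0 := by exact_mod_cast hx
    rw [← iterate_map_zsmul, ← map_zsmul, h2, map_zero, iterate_map_zero]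
  have h3 : n • M.j^[ep l] (e.pic x) = τ m • M.j^[ep l] (e.pic x) := by
    rw [← sub_eq_zero, ← sub_smul, hc, mul_comm, mul_smul, h1, smul_zero]
  show M.j (M.j (e.pic (e.pic x) - n • _ + l • x)) = 0
  rw [h3]
  exact h m x hx

theorem coeff_one_lgN {K0 : Type*} [Field K0] [CharZero K0] {g : ℕ} (N : Fin g → Fin g → K0)
    {F : K0[X]} {a b : K0} (hb : b ≠ 0) (h : b ^ 2 = F.eval a) (m : Fin g) :
    PowerSeries.coeff 1 (lgN N F a b m) = (∑ k, N m k * a ^ (k : ℕ)) / b := by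
  simp only [lgN, map_sum, PowerSeries.coeff_C_mul, coeff_one_lg hb h, Finset.sum_div, mul_div_assoc]

/-- **NZ** : the word `j ^ (2 + ε) S` does not satisfy the congruence -/
theorem not_cong {K0 : Type*} [Field K0] [CharZero K0] {v0 : Valuation K0 ℝ≥0} {p : ℕ} (hp : p ≠ 0)
    {σ : K0 →+* K0} (U : Un v0 p σ) (h3 : v0 3 = 1) {F : K0[X]} {N : Fin 3 → Fin 3 → K0} {a b : K0}
    (h : GdP v0 F a b) (ha : v0 (∑ k, N 0 k * a ^ (k : ℕ)) = 1) {ε : ℕ} (hε : ε ≤ 1) :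
    ¬ Cong v0 p hp σ F N J3 a b (wb (Polynomial.X ^ (2 + ε))) := by
  rw [cong_iff]
  intro hc
  have key : ∃ m, ser σ p hp J3 (wb (Polynomial.X ^ (2 + ε))) (lgN N F a b) m =
      PowerSeries.C (3 : K0) * fr σ p hp (lgN N F a b 0) := by
    have e2 : J3 ^ 2 = !![3, 0, 0; 0, 3, 0; 0, 0, 0] := by decide
    have e3 : J3 ^ 3 = !![0, 9, 0; 3, 0, 0; 0, 0, 0] := by decide
    interval_cases ε
    · refine ⟨0, ?_⟩
      rw [ser_wb, map_pow, Polynomial.aeval_X, add_zero, e2, Fin.sum_univ_three]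
      simp [map_ofNat]
    · refine ⟨1, ?_⟩
      rw [ser_wb, map_pow, Polynomial.aeval_X, show 2 + 1 = 3 from rfl, e3, Fin.sum_univ_three]
      simp [map_ofNat]
  obtain ⟨m, hm⟩ := key
  have h1 := hc m p
  rw [hm, PowerSeries.coeff_C_mul, coeff_fr, if_pos dvd_rfl, Nat.div_self (Nat.pos_of_ne_zero hp),
    map_mul, h3, one_mul, U.iso, coeff_one_lgN N h.b_ne h.on, map_div₀, ha, h.vb, div_one] at h1
  exact absurd U.lt (not_lt.2 h1)

/-- a base divisor avoiding the zeros of `R` -/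
theorem exists_base {k : Type*} [Field k] [IsAlgClosed k] {F R : k[X]} (hF : F ≠ 0) (hR : R ≠ 0)
    (g : ℕ) : ∃ a b : Fin g → k, Function.Injective a ∧ (∀ i, b i ≠ 0) ∧
      (∀ i, b i ^ 2 = F.eval (a i)) ∧ ∀ i, R.eval (a i) ≠ 0 := by
  have h1 : {x : k | (F * R).IsRoot x}ᶜ.Infinite :=
    (Polynomial.finite_setOf_isRoot (mul_ne_zero hF hR)).infinite_compl
  let a : Fin g → k := fun i => (h1.natEmbedding _ i : k)
  have ha : ∀ i, F.eval (a i) ≠ 0 ∧ R.eval (a i) ≠ 0 := fun i => by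
    have := (h1.natEmbedding _ i).2
    simpa [not_or] using this
  choose b hb using fun i => IsAlgClosed.exists_pow_nat_eq (F.eval (a i)) two_pos
  refine ⟨a, b, fun i j h => Fin.ext ((h1.natEmbedding _).injective (Subtype.ext h)), fun i h0 => ?_,
    hb, fun i => (ha i).2⟩
  exact (ha i).1 (by rw [← hb, h0]; simp)

/-- **leaf RAT** -/
theorem ratStmt_of (hV : VsStmt) (hO : OmStmt) (hF : FrmStmt) (hC : CongStmt) : RatStmt := by
  intro p1 p2 p3 t P M hI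
  obtain ⟨N, hN⟩ := hO p1 p2 p3 t P M hI
  obtain ⟨S, hS0, hS⟩ := hF p1 p2 p3 t P M N hI hN
  have hF0 : P.F ≠ 0 := by
    have h : ∀ c : Om, (Polynomial.X ^ 2 - Polynomial.C c : Om[X]) ≠ 0 := fun c =>
      (Polynomial.monic_X_pow_sub_C c two_ne_zero).ne_zero
    exact mul_ne_zero (mul_ne_zero (mul_ne_zero (mul_ne_zero (Polynomial.C_ne_zero.2 P.c_ne)
      Polynomial.X_ne_zero) (h _)) (h _)) (h _)
  have hR : (∑ k : Fin 3, Polynomial.C (N 0 k) * Polynomial.X ^ (k : ℕ) : Om[X]) ≠ 0 := by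
    intro h0
    have h1 : ∀ k : Fin 3, N 0 k = 0 := fun k => by
      have := congrArg (fun q : Om[X] => q.coeff k) h0
      fin_cases k <;> simpa [Fin.sum_univ_three, Polynomial.coeff_X, Polynomial.coeff_one,
        Polynomial.coeff_X_pow] using this
    have h2 := congrFun hN.v1 0
    simp [Matrix.mulVec, dotProduct, h1] at h2
  obtain ⟨a, b, ha, hb, hon, hRa⟩ := exists_base hF0 hR 3
  have h1 := (ae_coeff (Q := fun x P => x ∈ KI P ∧ vO P x ≤ 1) (fun P => ⟨zero_mem _, by simp⟩)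
    (fun x => (ae_mem x).and (ae_le x)) P.F)
  have h2 := Ae.all fun i => ((ae_mem (a i)).and (ae_le (a i))).and
    ((ae_mem (b i)).and (ae_unit (hb i)))
  have h3 := Ae.all fun m => Ae.all fun k => (ae_mem (N m k)).and (ae_le (N m k))
  have h4 : Ae fun P => ∀ i j, i ≠ j → vO P (a i - a j) = 1 := Ae.all fun i => Ae.all fun j => by
    by_cases hij : i = j
    · exact Ae.of_forall fun P h => absurd hij h
    · exact (ae_unit (sub_ne_zero.2 (ha.ne hij))).mono fun P h _ => h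
  have h5 := Ae.all fun s : S => (ae_mem s.1).and (ae_unit (x := s.1) fun h => hS0 (h ▸ s.2))
  have h6 := ((ae_unit (two_ne_zero (α := Om))).and (ae_unit (three_ne_zero (α := Om)))).and
    (ae_unit (hRa 0))
  obtain ⟨B, hB0, hB⟩ := ((((h1.and h2).and h3).and h4).and h5).and h6
  refine ⟨B, Nat.pos_of_ne_zero hB0, fun l a' s3 hl hlB hs3 hint hrel => ?_⟩
  obtain ⟨P0, rfl⟩ := exists_place hl
  obtain ⟨⟨⟨⟨⟨h1, h2⟩, h3⟩, h4⟩, h5⟩, ⟨h6, h7⟩, h8⟩ := hB P0 hlB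
  obtain ⟨φ, hφ⟩ := exists_isFr P0
  obtain ⟨F0, hF0'⟩ := exists_pmap (KI P0) fun n => (h1 n).1
  let a0 : Fin 3 → KI P0 := fun i => ⟨a i, (h2 i).1.1⟩
  let b0 : Fin 3 → KI P0 := fun i => ⟨b i, (h2 i).2.1⟩
  let N0 : Fin 3 → Fin 3 → KI P0 := fun m k => ⟨N m k, (h3 m k).1⟩
  have hG : ∀ i, GdP (vI P0) F0 (a0 i) (b0 i) := fun i =>
    ⟨h6, fun n => by have := (h1 n).2; rwa [← hF0', Polynomial.coeff_map] at this, (h2 i).1.2,
      (h2 i).2.2, (KI P0).subtype.injective (by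
        rw [map_pow, ← Polynomial.eval₂_at_apply, ← Polynomial.eval_map, hF0']; exact hon i)⟩
  have h3l : P0.rchar ≠ 3 := fun h => by
    have := vO_rchar_lt P0
    rw [h, Nat.cast_ofNat, h7] at this
    exact lt_irrefl _ this
  obtain ⟨X⟩ := hV Om (KI P0) (vI P0) P0.rchar hl.ne_zero (sg hφ) (un hφ)
  obtain ⟨Q, e, hQ, hFr, Y, hT⟩ := hS (KI P0) (vI P0) P0.rchar hl.ne_zero (sg hφ) (un hφ) h3l
    (fun s hs => ⟨(h5 ⟨s, hs⟩).1, (h5 ⟨s, hs⟩).2⟩) X F0 N0 hF0' (fun _ _ => rfl)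
  have hε : ep P0.rchar ≤ 1 := by unfold ep; split_ifs <;> simp
  obtain ⟨τ, hτ, hL⟩ := hrel Q e hQ hFr
  have hT' := (hT _ _ (hG 0)).mono (fun _ _ h => h) fun Ψ h =>
    hC Om (KI P0) (vI P0) P0.rchar hl.ne_zero (sg hφ) (un hφ) X 3 F0 N0 J3 Y (fun m k => (h3 m k).2)
      a0 b0 hG (fun i j hij => h4 i j hij) _ _ (hG 0) Ψ h
  rcases hT'.di (by norm_num) ((Nat.coprime_primes Nat.prime_three hl).2 h3l.symm)
    ((rel_iff M e _ τ).1 hτ) with ⟨-, hc⟩ | ⟨u, v, hv, hd, -⟩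
  · refine absurd hc (not_cong _ (un hφ) h7 (hG 0) ?_ hε)
    rw [← h8, vI_apply]
    simp [N0, a0, Polynomial.eval_finset_sum]
  · obtain ⟨n, hn, -⟩ := Rat.eq_int_mul hε hs3 hint hv ((hL u v).1 (by exact_mod_cast hd))
    refine ⟨n, hn, fun Q' e' hQ' hFr' => ?_⟩
    obtain ⟨τ', hτ', hL'⟩ := hrel Q' e' hQ' hFr'
    exact rel_of_dvd M hτ' fun m => by simpa using (hL' n 1).2 (by simpa using hn) m

end Crest.Agent.T15.RatZ
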