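import Mathlib
import Crest.Agent.R013.GR7_921

/-!
# Row 15, block F (helper92): several norms on a function field, part A

* `bg` : Birkhoff-Grothendieck basis of `L` over `C(z)` in polynomial words;
* `sep_one`, `exists_e`, `approx1`, `approx` : independence of distinct norms;
* `deg_le` : the degrees of the reductions add up to at most the degree.
-/

set_option autoImplicit false
set_option linter.all false

namespace Crest.Agent.T15.Ct

open Polynomial WithZero Module IsDedekindDomain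
open scoped NNReal
open Crest.Agent.R013.RR2_948 Crest.Agent.R013.RR4_948 Crest.Agent.R013.RR5_948
open Crest.Agent.R013.RR6_948
open Crest.Agent.R013.RR7_948 Crest.Agent.R013.RR8_948 Crest.Agent.R013.RR9_948
open Crest.Agent.R013.RR11_948 Crest.Agent.R013.RR12_948
open Crest.Agent.R013.RR18_948 Crest.Agent.R013.RR19_948 Crest.Agent.R013.RR20_948
open Crest.Agent.R013.GR2_921 Crest.Agent.R013.GR4_921
open Crest.Agent.R013.GR5_921 Crest.Agent.R013.GR6_921 Crest.Agent.R013.GR7_921

section bg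

variable {C L : Type*} [Field C] [Field L] [Algebra C L]

/-- a Birkhoff-Grothendieck basis for the function `z` -/
structure BG (C : Type*) {L : Type*} [Field C] [Field L] [Algebra C L] (z : L) {d : ℕ}
    (β : Fin d → L) (δ : Fin d → ℤ) : Prop where
  ind : ∀ p : Fin d → C[X], ∑ j, aeval z (p j) * β j = 0 → ∀ j, p j = 0
  span : ∀ u : L, ∃ s : C[X], s ≠ 0 ∧ ∃ p : Fin d → C[X],
    aeval z s * u = ∑ j, aeval z (p j) * β j
  fin : ∀ u : L, (∀ P : Pl C L, P.v z ≤ 1 → P.v u ≤ 1) ↔
    ∃ p : Fin d → C[X], u = ∑ j, aeval z (p j) * β j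
  inf : ∀ (m : ℕ) (u : L) (p : Fin d → C[X]), z ^ m * u = ∑ j, aeval z (p j) * β j →
    ((∀ P : Pl C L, 1 < P.v z → P.v u ≤ 1) ↔
      ∀ j (n : ℕ), (m : ℤ) + δ j < n → (p j).coeff n = 0)

theorem alg_poly [Algebra (RatFunc C) L] [IsScalarTower C (RatFunc C) L] (p : C[X]) :
    algebraMap (RatFunc C) L (algebraMap C[X] (RatFunc C) p) = aeval (xK C L) p := by
  have h1 : algebraMap C[X] (RatFunc C) p = aeval (RatFunc.X : RatFunc C) p := by
    rw [RatFunc.aeval_X_left_eq_algebraMap]
  rw [h1]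
  exact (aeval_algHom_apply (IsScalarTower.toAlgHom C (RatFunc C) L) RatFunc.X p).symm

theorem bg0 [Algebra (RatFunc C) L] [IsScalarTower C (RatFunc C) L]
    [FiniteDimensional (RatFunc C) L] [Algebra.IsSeparable (RatFunc C) L] :
    ∃ (d : ℕ) (β : Fin d → L) (δ : Fin d → ℤ), BG C (xK C L) β δ := by
  classical
  use_charts C, L
  obtain ⟨b0, hb0⟩ := exists_basis_fid C[X] (RatFunc C) L
    (cut (integralClosure C[X] L) (0 : Pl C L →₀ ℤ))
  obtain ⟨c, hc⟩ := exists_basis_fid (Rinf C) (RatFunc C) L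
    (cut (integralClosure (Rinf C) L) (0 : Pl C L →₀ ℤ))
  obtain ⟨b, δ, h1, h2⟩ := exists_common_basis b0 c
  have H0 : ∀ u : L, (∀ P : Pl C L, P.v (xK C L) ≤ 1 → P.v u ≤ 1) ↔
      ∀ j, b.repr u j ∈ polyS C := by
    intro u
    rw [← h1]
    have h3 : u ∈ NA (integralClosure C[X] L) (0 : Pl C L →₀ ℤ) ↔
        u ∈ Submodule.span C[X] (Set.range b0) := by
      rw [hb0]; rfl
    rw [b0.mem_span_iff_repr_mem C[X], mem_NA] at h3
    simp only [mem_polyS]
    rw [← h3]
    constructor
    · intro h w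
      rw [Finsupp.zero_apply, exp_zero]
      exact h _ (ofH₀_le w)
    · intro h P hP
      obtain ⟨w, rfl⟩ := exists_ofH₀ (A₀ := integralClosure C[X] L) P hP
      have := h w
      rwa [Finsupp.zero_apply, exp_zero] at this
  have H1 : ∀ u : L, (∀ P : Pl C L, 1 < P.v (xK C L) → P.v u ≤ 1) ↔
      ∀ j, vinf C (b.repr u j) ≤ exp (δ j) := by
    intro u
    rw [← h2]
    have h3 : u ∈ NA (integralClosure (Rinf C) L) (0 : Pl C L →₀ ℤ) ↔
        u ∈ Submodule.span (Rinf C) (Set.range c) := by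
      rw [hc]; rfl
    rw [c.mem_span_iff_repr_mem (Rinf C), mem_NA] at h3
    have h4 : (∀ i, vinf C (c.repr u i) ≤ 1) ↔
        ∀ i, c.repr u i ∈ Set.range (algebraMap (Rinf C) (RatFunc C)) := by
      refine forall_congr' fun j => ?_
      constructor
      · intro h; exact ⟨⟨_, h⟩, rfl⟩
      · rintro ⟨s, hs⟩; rw [← hs]; exact s.2
    rw [h4, ← h3]
    constructor
    · intro h w
      rw [Finsupp.zero_apply, exp_zero]
      exact h _ (ofH₁_lt w)
    · intro h P hP
      obtain ⟨w, rfl⟩ := exists_ofH₁ (A₁ := integralClosure (Rinf C) L) P hP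
      have := h w
      rwa [Finsupp.zero_apply, exp_zero] at this
  have hsum : ∀ p : Fin (finrank (RatFunc C) L) → C[X], ∑ j, aeval (xK C L) (p j) * b j =
      ∑ j, algebraMap C[X] (RatFunc C) (p j) • b j := by
    intro p
    refine Finset.sum_congr rfl fun j _ => ?_
    rw [Algebra.smul_def, alg_poly]
  have hrepr : ∀ (p : Fin (finrank (RatFunc C) L) → C[X]) j,
      b.repr (∑ j, aeval (xK C L) (p j) * b j) j = algebraMap C[X] (RatFunc C) (p j) := by
    intro p j
    rw [hsum, b.repr_sum_self]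
  refine ⟨_, b, δ, ?_, ?_, ?_, ?_⟩
  · intro p hp j
    have h3 := hrepr p j
    rw [hp, map_zero, Finsupp.zero_apply] at h3
    exact (FaithfulSMul.algebraMap_injective C[X] (RatFunc C)) (by rw [← h3, map_zero])
  · intro u
    obtain ⟨s, hs⟩ := IsLocalization.exist_integer_multiples_of_finite (nonZeroDivisors C[X])
      (fun j => b.repr u j)
    choose p hp using hs
    refine ⟨s, nonZeroDivisors.ne_zero s.2, p, ?_⟩
    rw [hsum]
    conv_lhs => rw [← b.sum_repr u]
    rw [← alg_poly, ← Algebra.smul_def, Finset.smul_sum]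
    refine Finset.sum_congr rfl fun j _ => ?_
    rw [hp j, smul_smul, Algebra.smul_def (s : C[X])]
  · intro u
    rw [H0]
    constructor
    · intro h
      simp only [mem_polyS] at h
      choose p hp using h
      refine ⟨p, ?_⟩
      rw [hsum]
      conv_lhs => rw [← b.sum_repr u]
      exact Finset.sum_congr rfl fun j _ => by rw [hp j]
    · rintro ⟨p, rfl⟩ j
      rw [hrepr, mem_polyS]
      exact ⟨_, rfl⟩
  · intro m u p hp
    rw [H1]
    refine forall_congr' fun j => ?_
    have h3 : RatFunc.X ^ m * b.repr u j = algebraMap C[X] (RatFunc C) (p j) := by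
      rw [← hrepr, ← hp]
      have h4 : xK C L ^ m * u = (RatFunc.X ^ m : RatFunc C) • u := by
        rw [Algebra.smul_def, map_pow]; rfl
      rw [h4, map_smul, Finsupp.smul_apply, smul_eq_mul]
    have h5 : exp (m : ℤ) * vinf C (b.repr u j) = vinf C (algebraMap C[X] (RatFunc C) (p j)) := by
      rw [← h3, map_mul, map_pow, vinf_X, ← exp_nsmul]; simp
    have h6 : vinf C (b.repr u j) ≤ exp (δ j) ↔
        vinf C (algebraMap C[X] (RatFunc C) (p j)) ≤ exp ((m : ℤ) + δ j) := by
      rw [← h5, exp_add, mul_le_mul_iff_right₀ (by simp)]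
    rw [h6]
    by_cases h0 : p j = 0
    · rw [h0, map_zero, map_zero]
      simp
    · rw [vinf_poly C h0, exp_le_exp]
      constructor
      · intro h n hn
        exact coeff_eq_zero_of_natDegree_lt (by omega)
      · intro h
        by_contra hcon
        exact h0 (leadingCoeff_eq_zero.mp (h _ (not_le.mp hcon)))

theorem bg [CharZero C] [Algebra (RatFunc C) L] [IsScalarTower C (RatFunc C) L]
    [FiniteDimensional (RatFunc C) L] (z : L) (hz : Transcendental C z) :
    ∃ (d : ℕ) (β : Fin d → L) (δ : Fin d → ℤ), BG C z β δ := by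
  have hfin := ratAlg_finite (k := C) z hz
  have hsep := ratAlg_isSeparable (k := C) z hz
  have hx := ratAlg_xK (k := C) z hz
  letI := ratAlg z hz
  haveI := ratAlg_tower z hz
  haveI : FiniteDimensional (RatFunc C) L := hfin
  haveI : Algebra.IsSeparable (RatFunc C) L := hsep
  have h := bg0 (C := C) (L := L)
  rw [hx] at h
  exact h

/-- common denominators -/
theorem common {z : L} {d : ℕ} {β : Fin d → L}
    (hs : ∀ u : L, ∃ s : C[X], s ≠ 0 ∧ ∃ p : Fin d → C[X],
      aeval z s * u = ∑ j, aeval z (p j) * β j) {A : Type*} [Fintype A] (v : A → L) :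
    ∃ Q : C[X], Q ≠ 0 ∧ ∃ P : A → Fin d → C[X], ∀ a,
      aeval z Q * v a = ∑ j, aeval z (P a j) * β j := by
  classical
  choose s hs0 p hp using fun a => hs (v a)
  refine ⟨∏ a, s a, Finset.prod_ne_zero_iff.mpr fun a _ => hs0 a,
    fun a j => (∏ a' ∈ Finset.univ.erase a, s a') * p a j, fun a => ?_⟩
  rw [← Finset.prod_erase_mul _ _ (Finset.mem_univ a), map_mul, mul_assoc, hp, Finset.mul_sum]
  refine Finset.sum_congr rfl fun j _ => ?_
  rw [map_mul, mul_assoc]

end bg

section approx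

variable {C L k : Type*} [Field C] [Field L] [Algebra C L] [Field k]
  {ι : Type*} [Fintype ι] {κ : ι → Type*} [∀ i, Field (κ i)] [∀ i, Algebra k (κ i)]
  {vC : Valuation C ℝ≥0} {ρC : C → k} {w : ι → Valuation L ℝ≥0} {ρ : ∀ i, L → κ i}

theorem sep_one (h : ∀ i, Red vC ρC (w i) (ρ i)) (hw : Function.Injective w) {i j : ι}
    (hij : i ≠ j) : ∃ x : L, w i x = 1 ∧ w j x < 1 := by
  have hne : ∃ f, w i f ≠ w j f := by
    by_contra hcon
    push Not at hcon
    exact hij (hw (Valuation.ext hcon))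
  obtain ⟨f, hf⟩ := hne
  have hf0 : f ≠ 0 := by rintro rfl; simp at hf
  obtain ⟨c, hc0, hc1, hc2⟩ := (h i).normalise hf0
  have hvc : vC c ≠ 0 := (Valuation.ne_zero_iff _).mpr hc0
  have hxj : w j (f * algebraMap C L c⁻¹) ≠ 1 := by
    intro h1
    apply hf
    rw [hc1]
    rw [map_mul, (h j).norm, map_inv₀, mul_inv_eq_one₀ hvc] at h1
    exact h1.symm
  rcases lt_or_gt_of_ne hxj with h1 | h1
  · exact ⟨_, hc2, h1⟩
  · refine ⟨(f * algebraMap C L c⁻¹)⁻¹, by rw [map_inv₀, hc2, inv_one], ?_⟩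
    rw [map_inv₀]; exact inv_lt_one_of_one_lt₀ h1

theorem bound [Infinite k] (h : ∀ i, Red vC ρC (w i) (ρ i)) (x : L) :
    ∃ x' : L, ∀ m, (w m x ≤ 1 → w m x' = w m x) ∧ w m x' ≤ 1 := by
  classical
  by_cases hι : Nonempty ι
  swap
  · exact ⟨0, fun m => absurd ⟨m⟩ hι⟩
  obtain ⟨i0⟩ := hι
  have hfin : (⋃ m, {c : k | algebraMap k (κ m) c = ρ m x}).Finite := by
    refine Set.finite_iUnion fun m => Set.Subsingleton.finite ?_
    intro a ha b hb
    exact (algebraMap k (κ m)).injective (ha.trans hb.symm)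
  obtain ⟨cb, hcb⟩ := hfin.infinite_compl.nonempty
  obtain ⟨c, hc1, hc2⟩ := (h i0).resC.surj cb
  refine ⟨x / (x - algebraMap C L c), fun m => ?_⟩
  have hcw : w m (algebraMap C L c) ≤ 1 := by rw [(h m).norm]; exact hc1
  have key : w m x ≤ 1 → w m (x / (x - algebraMap C L c)) = w m x := by
    intro hx
    have h1 : ρ m (x - algebraMap C L c) ≠ 0 := by
      rw [(h m).res.sub hx hcw, (h m).comp c hc1, hc2, sub_ne_zero]
      intro h2
      exact hcb (Set.mem_iUnion.mpr ⟨m, h2.symm⟩)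
    rw [(h m).res.ne_zero_iff ((Valuation.map_sub _ _ _).trans (max_le hx hcw))] at h1
    rw [map_div₀, h1, div_one]
  refine ⟨key, ?_⟩
  by_cases hx : w m x ≤ 1
  · rw [key hx]; exact hx
  · rw [not_le] at hx
    rw [map_div₀, Valuation.map_sub_eq_of_lt_left _ (hcw.trans_lt hx)]
    exact div_self_le_one _

theorem exists_e [Infinite k] (h : ∀ i, Red vC ρC (w i) (ρ i)) (hw : Function.Injective w)
    (i : ι) : ∃ e : L, w i (e - 1) < 1 ∧ ∀ j, j ≠ i → w j e < 1 := by
  classical
  have h1 : ∀ j, ∃ x : L, (∀ m, w m x ≤ 1) ∧ w i x = 1 ∧ (j ≠ i → w j x < 1) := by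
    intro j
    by_cases hj : j = i
    · exact ⟨1, fun m => by simp, by simp, fun h => absurd hj h⟩
    · obtain ⟨x, hx1, hx2⟩ := sep_one h hw (Ne.symm hj)
      obtain ⟨x', hx'⟩ := bound h x
      exact ⟨x', fun m => (hx' m).2, ((hx' i).1 hx1.le).trans hx1,
        fun _ => by rw [(hx' j).1 hx2.le]; exact hx2⟩
  choose x hx1 hx2 hx3 using h1
  set y := ∏ j, x j with hy
  have hyi : w i y = 1 := by
    rw [hy, map_prod]; exact Finset.prod_eq_one fun j _ => hx2 j
  have hyj : ∀ j, j ≠ i → w j y < 1 := by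
    intro j hj
    rw [hy, ← Finset.mul_prod_erase _ _ (Finset.mem_univ j), map_mul, map_prod]
    exact mul_lt_one_of_lt_of_le (hx3 j hj) (Finset.prod_le_one' fun m _ => hx1 m j)
  have hy0 : y ≠ 0 := by rintro h0; rw [h0] at hyi; simp at hyi
  by_cases hne : (Finset.univ.filter fun j => j ≠ i).Nonempty
  swap
  · refine ⟨1, by simp, fun j hj => absurd ⟨j, by simp [hj]⟩ hne⟩
  obtain ⟨j0, hj0, hmax⟩ := Finset.exists_max_image _ (fun j => w j y) hne
  have hj0' : j0 ≠ i := (Finset.mem_filter.mp hj0).2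
  obtain ⟨c, hc0, hc⟩ := (h j0).val_ne hy0
  have hθ1 : vC c < 1 := by rw [← hc]; exact hyj j0 hj0'
  have hθ0 : 0 < vC c := by rw [Valuation.pos_iff]; exact hc0
  have hden : w i (y ^ 2 + algebraMap C L c) = 1 := by
    rw [Valuation.map_add_eq_of_lt_left, map_pow, hyi, one_pow]
    rw [map_pow, hyi, one_pow, (h i).norm]; exact hθ1
  have hden0 : y ^ 2 + algebraMap C L c ≠ 0 := by
    intro h0; rw [h0] at hden; simp at hden
  refine ⟨y ^ 2 / (y ^ 2 + algebraMap C L c), ?_, fun j hj => ?_⟩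
  · have e : y ^ 2 / (y ^ 2 + algebraMap C L c) - 1 =
        -(algebraMap C L c) / (y ^ 2 + algebraMap C L c) := by
      field_simp; ring
    rw [e, map_div₀, hden, div_one, Valuation.map_neg, (h i).norm]; exact hθ1
  · have h2 : w j y ≤ vC c := by
      rw [← hc]; exact hmax j (by simp [hj])
    have h3 : w j (y ^ 2) < vC c := by
      rw [map_pow, pow_two]
      calc w j y * w j y ≤ vC c * vC c := mul_le_mul' h2 h2
        _ < vC c := mul_lt_of_lt_one_right hθ0 hθ1
    rw [map_div₀, Valuation.map_add_eq_of_lt_right, (h j).norm, div_lt_one hθ0]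
    · exact h3
    · rw [(h j).norm]; exact h3

theorem approx1 [Infinite k] (h : ∀ i, Red vC ρC (w i) (ρ i)) (hw : Function.Injective w)
    (i : ι) (a : κ i) : ∃ u : L, (∀ m, w m u ≤ 1) ∧ ρ i u = a ∧ ∀ j, j ≠ i → ρ j u = 0 := by
  classical
  obtain ⟨e, he1, he2⟩ := exists_e h hw i
  obtain ⟨g, hg1, hg2⟩ := (h i).res.surj a
  have hei : w i e = 1 := by
    have : e = 1 + (e - 1) := by ring
    rw [this, Valuation.map_add_eq_of_lt_left, map_one]
    rw [map_one]; exact he1
  have hρe : ρ i e = 1 := by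
    rw [← (h i).res.one, (h i).res.eq_iff hei.le (by simp)]; exact he1
  have h1 : ∀ j, ∃ M : ℕ, j ≠ i → w j g * w j e ^ M < 1 := by
    intro j
    by_cases hj : j = i
    · exact ⟨0, fun h => absurd hj h⟩
    · obtain ⟨M, hM⟩ := exists_pow_lt_of_lt_one
        (show (0 : ℝ≥0) < (w j g + 1)⁻¹ by positivity) (he2 j hj)
      refine ⟨M, fun _ => ?_⟩
      calc w j g * w j e ^ M ≤ (w j g + 1) * w j e ^ M := mul_le_mul_left (by simp) _
        _ < (w j g + 1) * (w j g + 1)⁻¹ := mul_lt_mul_of_pos_left hM (by positivity)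
        _ = 1 := mul_inv_cancel₀ (by positivity)
  choose M hM using h1
  set N := Finset.univ.sup M with hN
  have hlt : ∀ j, j ≠ i → w j (g * e ^ N) < 1 := by
    intro j hj
    rw [map_mul, map_pow]
    refine lt_of_le_of_lt (mul_le_mul_right ?_ _) (hM j hj)
    exact pow_le_pow_of_le_one zero_le (he2 j hj).le (Finset.le_sup (f := M) (Finset.mem_univ j))
  have hpow : w i (e ^ N) ≤ 1 := by rw [map_pow, hei, one_pow]
  refine ⟨g * e ^ N, fun m => ?_, ?_, fun j hj => ?_⟩
  · by_cases hm : m = i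
    · subst hm
      rw [map_mul]; exact mul_le_one' hg1 hpow
    · exact (hlt m hm).le
  · rw [(h i).res.mul _ _ hg1 hpow, (h i).res.pow hei.le, hρe, one_pow, mul_one, hg2]
  · rw [(h j).res.zero_iff _ (hlt j hj).le]; exact hlt j hj

theorem approx [Infinite k] (h : ∀ i, Red vC ρC (w i) (ρ i)) (hw : Function.Injective w)
    (a : ∀ i, κ i) : ∃ u : L, (∀ m, w m u ≤ 1) ∧ ∀ i, ρ i u = a i := by
  classical
  choose u h1 h2 h3 using fun i => approx1 h hw i (a i)
  refine ⟨∑ i, u i, fun m => Valuation.map_sum_le _ fun i _ => h1 i m, fun i => ?_⟩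
  rw [(h i).res.sum _ _ fun j _ => h1 j i, Finset.sum_eq_single i, h2]
  · intro j _ hj; exact h3 j i (Ne.symm hj)
  · intro h'; exact absurd (Finset.mem_univ i) h'

/-- normalisation of a family of polynomials -/
theorem norm_fam (vC : Valuation C ℝ≥0) {J : Type*} [Fintype J] (Φ : J → C[X]) {i1 : J}
    (hi1 : Φ i1 ≠ 0) : ∃ (c : C) (i0 : J) (n0 : ℕ), c ≠ 0 ∧
      (∀ i n, vC ((Polynomial.C c * Φ i).coeff n) ≤ 1) ∧ (Polynomial.C c * Φ i0).coeff n0 = 1 := by
  classical
  let N := Finset.univ.sup fun i => (Φ i).natDegree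
  have hN : ∀ i, (Φ i).natDegree ≤ N := fun i =>
    Finset.le_sup (f := fun i => (Φ i).natDegree) (Finset.mem_univ i)
  obtain ⟨⟨i0, n0⟩, _, hmax⟩ := Finset.exists_max_image
    (Finset.univ ×ˢ Finset.range (N + 1) : Finset (J × ℕ)) (fun x => vC ((Φ x.1).coeff x.2))
    ⟨(i1, 0), by simp⟩
  have hmax' : ∀ i n, vC ((Φ i).coeff n) ≤ vC ((Φ i0).coeff n0) := by
    intro i n
    by_cases hn : n < N + 1
    · exact hmax (i, n) (by simp; omega)
    · rw [coeff_eq_zero_of_natDegree_lt (by have := hN i; omega), map_zero]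
      exact zero_le
  set c := (Φ i0).coeff n0 with hc
  have hc0 : c ≠ 0 := by
    intro h0
    have h1 := hmax' i1 (Φ i1).natDegree
    rw [h0, map_zero] at h1
    have h2 := (Valuation.zero_iff vC).mp (le_antisymm h1 zero_le)
    exact hi1 (leadingCoeff_eq_zero.mp h2)
  have hvc : 0 < vC c := by rw [Valuation.pos_iff]; exact hc0
  refine ⟨c⁻¹, i0, n0, inv_ne_zero hc0, fun i n => ?_, ?_⟩
  · rw [coeff_C_mul, map_mul, map_inv₀, inv_mul_le_iff₀ hvc, mul_one]
    exact hmax' i n
  · rw [coeff_C_mul, ← hc, inv_mul_cancel₀ hc0]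

end approx

section deg

variable {C : Type*} [Field C] [IsAlgClosed C] [CharZero C] {L : Type*} [Field L] [Algebra C L]
  [Algebra (RatFunc C) L] [IsScalarTower C (RatFunc C) L] [FiniteDimensional (RatFunc C) L]
  {k : Type*} [Field k] [IsAlgClosed k]
  {ι : Type*} [Fintype ι] {κ : ι → Type*} [∀ i, Field (κ i)] [∀ i, Algebra k (κ i)]
  [∀ i, Algebra (RatFunc k) (κ i)] [∀ i, IsScalarTower k (RatFunc k) (κ i)]
  [∀ i, FiniteDimensional (RatFunc k) (κ i)] [∀ i, Algebra.IsSeparable (RatFunc k) (κ i)]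
  {vC : Valuation C ℝ≥0} {ρC : C → k} {w : ι → Valuation L ℝ≥0} {ρ : ∀ i, L → κ i}

theorem card_le_deg {t : L} (htr : Transcendental C t) {J : Type*} [Fintype J] (g : J → L)
    (hind : ∀ Φ : J → C[X], ∑ i, aeval t (Φ i) * g i = 0 → ∀ i, Φ i = 0) :
    (Fintype.card J : ℤ) ≤ degD (poles (k := C) t) := by
  have hfin := ratAlg_finite (k := C) t htr
  have hsep := ratAlg_isSeparable (k := C) t htr
  have hdeg := degD_poles_eq (k := C) t htr hsep
  have hx := ratAlg_xK (k := C) t htr
  have hle : Fintype.card J ≤ @finrank (RatFunc C) L _ _ (ratAlg t htr).toModule := by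
    letI := ratAlg t htr
    haveI := ratAlg_tower t htr
    haveI : FiniteDimensional (RatFunc C) L := hfin
    letI : Algebra C[X] L :=
      ((algebraMap (RatFunc C) L).comp (algebraMap C[X] (RatFunc C))).toAlgebra
    haveI : IsScalarTower C[X] (RatFunc C) L := IsScalarTower.of_algebraMap_eq fun _ => rfl
    have hmap : ∀ f : C[X], algebraMap C[X] L f = aeval t f := by
      intro f
      have h1 := alg_poly (C := C) (L := L) f
      rw [hx] at h1
      exact h1
    have hli : LinearIndependent C[X] g := by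
      rw [Fintype.linearIndependent_iff]
      intro Φ hΦ
      apply hind Φ
      rw [← hΦ]
      refine Finset.sum_congr rfl fun i _ => ?_
      rw [Algebra.smul_def, hmap]
    have hli2 : LinearIndependent (RatFunc C) g :=
      (LinearIndependent.iff_fractionRing C[X] (RatFunc C)).mp hli
    exact hli2.fintype_card_le_finrank
  rw [hdeg]
  exact_mod_cast hle

/-- **(DEG)** for several norms -/
theorem deg_le (h : ∀ i, Red vC ρC (w i) (ρ i)) (hw : Function.Injective w) {u : L}
    (htr : Transcendental C u) (hu : ∀ i, w i u = 1) :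
    ∑ i, degD (poles (k := k) (ρ i u)) ≤ degD (poles (k := C) u) := by
  classical
  haveI : Infinite k := IsAlgClosed.instInfinite
  have hu0 : u ≠ 0 := by rintro rfl; exact htr isAlgebraic_zero
  have hρu0 : ∀ i, ρ i u ≠ 0 := fun i => by rw [(h i).res.ne_zero_iff (hu i).le]; exact hu i
  set t := u⁻¹ with ht
  have hwt : ∀ i, w i t = 1 := fun i => by rw [ht, map_inv₀, hu, inv_one]
  have hρt : ∀ i, ρ i t = (ρ i u)⁻¹ := fun i => (h i).res.inv (hu i)
  have hρt0 : ∀ i, ρ i t ≠ 0 := fun i => by rw [hρt]; exact inv_ne_zero (hρu0 i)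
  have htt : Transcendental C t := fun ha => htr (by simpa [ht] using ha.inv)
  choose J instJ η hcard hη using fun i => exists_indep (k := k) (hρt0 i)
  choose g hg1 hg2 hg3 using fun x : (Σ i, J i) => approx1 h hw x.1 (η x.1 x.2)
  have hind : ∀ Φ : (Σ i, J i) → C[X], ∑ x, aeval t (Φ x) * g x = 0 → ∀ x, Φ x = 0 := by
    intro Φ hΦ
    by_contra hcon
    push Not at hcon
    obtain ⟨x1, hx1⟩ := hcon
    obtain ⟨c, ⟨i0, a0⟩, n0, hc0, hΨ, hone⟩ := norm_fam vC Φ hx1
    have hsum : ∑ x, aeval t (Polynomial.C c * Φ x) * g x = 0 := by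
      have h1 : ∑ x, aeval t (Polynomial.C c * Φ x) * g x =
          algebraMap C L c * ∑ x, aeval t (Φ x) * g x := by
        rw [Finset.mul_sum]
        refine Finset.sum_congr rfl fun i _ => ?_
        rw [map_mul, aeval_C]; ring
      rw [h1, hΦ, mul_zero]
    have hle : ∀ x, w i0 (aeval t (Polynomial.C c * Φ x)) ≤ 1 := fun x =>
      w_aeval_le (h i0) (hΨ x) (hwt i0).le
    have hred := hη i0 (fun a => redP ρC (Polynomial.C c * Φ ⟨i0, a⟩)) (by
      have h1 := congrArg (ρ i0) hsum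
      rw [(h i0).res.zero, (h i0).res.sum _ _ fun x _ => by
        rw [map_mul]; exact mul_le_one' (hle x) (hg1 x i0), Fintype.sum_sigma,
        Finset.sum_eq_single i0] at h1
      · rw [← h1]
        refine Finset.sum_congr rfl fun a _ => ?_
        rw [(h i0).res.mul _ _ (hle _) (hg1 _ i0), res_aeval (h i0) (hΨ _) (hwt i0).le,
          hg2 ⟨i0, a⟩]
      · intro i _ hi
        refine Finset.sum_eq_zero fun a _ => ?_
        rw [(h i0).res.mul _ _ (hle _) (hg1 _ i0), hg3 ⟨i, a⟩ i0 (Ne.symm hi), mul_zero]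
      · intro h'; exact absurd (Finset.mem_univ i0) h') a0
    have h1 := congrArg (fun q => Polynomial.coeff q n0) hred
    simp only [coeff_redP (h i0), coeff_zero] at h1
    rw [hone, (h i0).resC.one] at h1
    exact one_ne_zero h1
  have hle := card_le_deg htt g hind
  have h2 : degD (poles (k := C) u) = degD (poles (k := C) t) := by
    rw [ht, poles_inv hu0]; exact (degD_zeros_eq_poles hu0).symm
  rw [h2]
  refine le_trans (le_of_eq ?_) hle
  rw [Fintype.card_sigma]
  push_cast
  refine Finset.sum_congr rfl fun i _ => ?_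
  rw [hcard i, ← poles_inv (hρt0 i), hρt, inv_inv]

end deg

end Crest.Agent.T15.Ct
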