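import Mathlib
import Crest.Agent.R013.GR9_921
import Crest.Agent.T15.CtA_92

/-!
# Row 15, block F (helper92): several norms on a function field, part B

`ON w z g` : `g` is an orthonormal basis of `L` over `C(z)` for the maximum of the norms `w i`.
* `ON.exists_on` orthonormal bases of finite dimensional `C`-subspaces;
* `bt` bounded torsion of `H^1`, `conn` connectedness of the special fibre;
* `mg0` : `∑ gen (κ i) ≤ gen L`.
-/

set_option autoImplicit false
set_option linter.all false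

namespace Crest.Agent.T15.Ct

open Polynomial WithZero Module
open scoped NNReal
open Crest.Agent.R013.RR2_948
open Crest.Agent.R013.RR7_948 Crest.Agent.R013.RR8_948 Crest.Agent.R013.RR9_948
open Crest.Agent.R013.RR11_948 Crest.Agent.R013.RR12_948
open Crest.Agent.R013.RR18_948 Crest.Agent.R013.RR19_948 Crest.Agent.R013.RR20_948
open Crest.Agent.R013.GR2_921 Crest.Agent.R013.GR4_921
open Crest.Agent.R013.GR5_921 Crest.Agent.R013.GR6_921 Crest.Agent.R013.GR7_921
open Crest.Agent.R013.GR9_921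

section on

variable {C L k : Type*} [Field C] [Field L] [Algebra C L] [Field k] [IsAlgClosed k]
  {ι : Type*} [Fintype ι] {κ : ι → Type*} [∀ i, Field (κ i)] [∀ i, Algebra k (κ i)]
  {vC : Valuation C ℝ≥0} {ρC : C → k} {w : ι → Valuation L ℝ≥0} {ρ : ∀ i, L → κ i}

/-- orthonormal basis over `C(z)` for the maximum of the norms -/
structure ON (C : Type*) {L : Type*} [Field C] [Field L] [Algebra C L] {ι : Type*}
    (w : ι → Valuation L ℝ≥0) (z : L) {d : ℕ} (g : Fin d → L) : Prop where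
  le : ∀ i j, w i (g j) ≤ 1
  span : ∀ u : L, ∃ s : C[X], s ≠ 0 ∧ ∃ r : Fin d → C[X],
    aeval z s * u = ∑ l, aeval z (r l) * g l
  ge : ∀ (r : Fin d → C[X]) l, ∃ i, w i (aeval z (r l)) ≤ w i (∑ l, aeval z (r l) * g l)

/-- all norms lie over the Gauss norm of `z` -/
structure Ga (k : Type*) {L : Type*} [Field k] [Field L] {ι : Type*} {κ : ι → Type*}
    [∀ i, Field (κ i)] [∀ i, Algebra k (κ i)] (w : ι → Valuation L ℝ≥0) (ρ : ∀ i, L → κ i)
    (z : L) : Prop where
  le : ∀ i, w i z ≤ 1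
  nc : ∀ i, ρ i z ∉ Set.range (algebraMap k (κ i))

theorem aeval_shift (z : L) (a : C) (p : C[X]) :
    aeval (z - algebraMap C L a) (p.comp (X + Polynomial.C a)) = aeval z p := by
  rw [aeval_comp]; simp

theorem aeval_shift' (z : L) (a : C) (p : C[X]) :
    aeval z (p.comp (X - Polynomial.C a)) = aeval (z - algebraMap C L a) p := by
  rw [aeval_comp]; simp

theorem ON.shift {z : L} {d : ℕ} {g : Fin d → L} (o : ON C w z g) (a : C) :
    ON C w (z - algebraMap C L a) g where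
  le := o.le
  span u := by
    obtain ⟨s, hs, r, hr⟩ := o.span u
    refine ⟨s.comp (X + Polynomial.C a), ?_, fun l => (r l).comp (X + Polynomial.C a), ?_⟩
    · intro h0
      rw [comp_X_add_C_eq_zero_iff] at h0
      exact hs h0
    · simp only [aeval_shift]; exact hr
  ge r l := by
    have h := o.ge (fun l => (r l).comp (X - Polynomial.C a)) l
    simp only [aeval_shift'] at h
    exact h

theorem Ga.shift (h : ∀ i, Red vC ρC (w i) (ρ i)) {z : L} (G : Ga k w ρ z) {a : C}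
    (ha : vC a ≤ 1) : Ga k w ρ (z - algebraMap C L a) where
  le i := (Valuation.map_sub _ _ _).trans (max_le (G.le i) (by rw [(h i).norm]; exact ha))
  nc i := by
    rintro ⟨c, hc⟩
    rw [(h i).res.sub (G.le i) (by rw [(h i).norm]; exact ha), (h i).comp a ha] at hc
    exact G.nc i ⟨c + ρC a, by rw [map_add, hc]; ring⟩

theorem Ga.eq_one (h : ∀ i, Red vC ρC (w i) (ρ i)) {z : L} (G : Ga k w ρ z) (i : ι) :
    w i z = 1 := by
  rw [← (h i).res.ne_zero_iff (G.le i)]
  intro h0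
  exact G.nc i ⟨0, by rw [h0, map_zero]⟩

theorem Ga.coeff_le (h : ∀ i, Red vC ρC (w i) (ρ i)) {z : L} (G : Ga k w ρ z) (i : ι) (p : C[X])
    (n : ℕ) : vC (p.coeff n) ≤ w i (aeval z p) := gauss_of_res (h i) (G.le i) (G.nc i) p n

theorem Ga.le_of_coeff (h : ∀ i, Red vC ρC (w i) (ρ i)) {z : L} (G : Ga k w ρ z) (i : ι)
    {p : C[X]} {M : ℝ≥0} (hp : ∀ n, vC (p.coeff n) ≤ M) : w i (aeval z p) ≤ M := by
  rw [aeval_eq_sum_range]
  refine Valuation.map_sum_le _ fun n _ => ?_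
  rw [Algebra.smul_def, map_mul, map_pow, (h i).norm, G.eq_one h i, one_pow, mul_one]
  exact hp n

theorem Ga.eq (h : ∀ i, Red vC ρC (w i) (ρ i)) {z : L} (G : Ga k w ρ z) (i j : ι) (p : C[X]) :
    w i (aeval z p) = w j (aeval z p) :=
  le_antisymm (G.le_of_coeff h i (G.coeff_le h j p)) (G.le_of_coeff h j (G.coeff_le h i p))

theorem Ga.ne_zero (h : ∀ i, Red vC ρC (w i) (ρ i)) {z : L} (G : Ga k w ρ z) (i : ι) {p : C[X]}
    (hp : p ≠ 0) : 0 < w i (aeval z p) := by
  refine lt_of_lt_of_le ?_ (G.coeff_le h i p p.natDegree)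
  rw [Valuation.pos_iff]
  exact leadingCoeff_ne_zero.mpr hp

theorem Ga.transcendental (h : ∀ i, Red vC ρC (w i) (ρ i)) {z : L} (G : Ga k w ρ z) (i : ι) :
    Transcendental C z := by
  rw [transcendental_iff]
  intro p hp
  by_contra h0
  have := G.ne_zero h i h0
  rw [hp, map_zero] at this
  exact lt_irrefl _ this

/-- primitive multiples -/
theorem Ga.prim (h : ∀ i, Red vC ρC (w i) (ρ i)) {z : L} (G : Ga k w ρ z) {s : C[X]}
    (hs : s ≠ 0) : ∃ c : C, c ≠ 0 ∧ (∀ n, vC ((Polynomial.C c * s).coeff n) ≤ 1) ∧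
      (∃ n, (Polynomial.C c * s).coeff n = 1) ∧ ∀ i, w i (aeval z (Polynomial.C c * s)) = 1 := by
  obtain ⟨c, _, n0, hc, h1, h2⟩ := norm_fam vC (fun _ : Unit => s) (i1 := ()) hs
  refine ⟨c, hc, h1 (), ⟨n0, h2⟩, fun i => le_antisymm (G.le_of_coeff h i (h1 ())) ?_⟩
  have := G.coeff_le h i (Polynomial.C c * s) n0
  rwa [h2, map_one] at this

/-- orthonormal bases of finite dimensional subspaces -/
theorem ON.exists_on (h : ∀ i, Red vC ρC (w i) (ρ i)) {z : L} (G : Ga k w ρ z) {d : ℕ}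
    {g : Fin d → L} (o : ON C w z g) (i0 : ι) (V : Submodule C L) [FiniteDimensional C V] :
    ∃ (m : ℕ) (b : Fin m → L), (∀ j, b j ∈ V) ∧ V ≤ Submodule.span C (Set.range b) ∧
      (∀ i j, w i (b j) ≤ 1) ∧ ∀ (c : Fin m → C) j, ∃ i, vC (c j) ≤ w i (∑ l, c l • b l) := by
  classical
  let B := Module.finBasis C V
  obtain ⟨Q, hQ, P, hP⟩ := common o.span (fun a => (B a : L))
  obtain ⟨c, hc0, -, -, hc⟩ := G.prim h hQ
  obtain ⟨s, hs⟩ : ∃ s, s = aeval z (Polynomial.C c * Q) := ⟨_, rfl⟩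
  rw [← hs] at hc
  obtain ⟨N, hN0⟩ := Finite.exists_le
    (fun x : Fin (finrank C V) × Fin d => (Polynomial.C c * P x.1 x.2).natDegree)
  have hN : ∀ a l, (Polynomial.C c * P a l).natDegree ≤ N := fun a l => by
    have h1 := hN0 (a, l)
    dsimp only at h1
    exact h1
  clear hN0
  obtain ⟨Θ, hΘ0⟩ : ∃ Θ : (Fin d × Fin (N + 1) → C) →ₗ[C] L,
      ∀ y, Θ y = ∑ x, y x • (s⁻¹ * (z ^ (x.2 : ℕ) * g x.1)) :=
    ⟨Fintype.linearCombination C fun x => s⁻¹ * (z ^ (x.2 : ℕ) * g x.1), fun y => by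
      rw [Fintype.linearCombination_apply]⟩
  obtain ⟨pl, hpl0⟩ : ∃ pl : (Fin d × Fin (N + 1) → C) → Fin d → C[X],
      ∀ y l, pl y l = ∑ n : Fin (N + 1), monomial n (y (l, n)) := ⟨_, fun _ _ => rfl⟩
  have hpl : ∀ y l (n : Fin (N + 1)), (pl y l).coeff n = y (l, n) := by
    intro y l n
    rw [hpl0, finsetSum_coeff, Finset.sum_eq_single n, coeff_monomial, if_pos rfl]
    · intro m _ hm
      rw [coeff_monomial, if_neg fun h' => hm (Fin.ext h')]
    · intro h'; exact absurd (Finset.mem_univ n) h'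
  have hΘ : ∀ y, Θ y = s⁻¹ * ∑ l, aeval z (pl y l) * g l := by
    intro y
    rw [hΘ0, Fintype.sum_prod_type, Finset.mul_sum]
    refine Finset.sum_congr rfl fun l _ => ?_
    rw [hpl0, map_sum, Finset.sum_mul, Finset.mul_sum]
    refine Finset.sum_congr rfl fun n _ => ?_
    rw [aeval_monomial, Algebra.smul_def]
    ring
  have hsi : ∀ i, w i s⁻¹ = 1 := fun i => by rw [map_inv₀, hc i, inv_one]
  have hge : ∀ y x, ∃ i, vC (y x) ≤ w i (Θ y) := by
    rintro y ⟨l, n⟩
    obtain ⟨i, hi⟩ := o.ge (pl y) l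
    refine ⟨i, ?_⟩
    rw [hΘ, map_mul, hsi, one_mul, ← hpl y l n]
    exact (G.coeff_le h i _ _).trans hi
  have hle : ∀ y, (∀ x, vC (y x) ≤ 1) → ∀ i, w i (Θ y) ≤ 1 := by
    intro y hy i
    rw [hΘ0]
    refine Valuation.map_sum_le _ fun x _ => ?_
    rw [Algebra.smul_def, map_mul, (h i).norm]
    refine mul_le_one' (hy x) ?_
    rw [map_mul, hsi, one_mul, map_mul, map_pow, G.eq_one h i, one_pow, one_mul]
    exact o.le i _
  have hrange : V ≤ LinearMap.range Θ := by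
    have h1 : ∀ a, (B a : L) ∈ LinearMap.range Θ := by
      intro a
      have hs0 : s ≠ 0 := by
        intro h0
        have := hc i0
        rw [h0] at this; simp at this
      refine ⟨fun x => (Polynomial.C c * P a x.1).coeff x.2, ?_⟩
      rw [hΘ, inv_mul_eq_iff_eq_mul₀ hs0, hs, map_mul, mul_assoc, hP, Finset.mul_sum]
      refine Finset.sum_congr rfl fun l _ => ?_
      rw [← mul_assoc, ← map_mul]
      have h3 : pl (fun x => (Polynomial.C c * P a x.1).coeff x.2) l = Polynomial.C c * P a l := by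
        rw [hpl0]
        show ∑ n : Fin (N + 1), monomial (n : ℕ) ((Polynomial.C c * P a l).coeff n) = _
        rw [Fin.sum_univ_eq_sum_range (fun n => monomial n ((Polynomial.C c * P a l).coeff n))]
        exact (as_sum_range' _ _ (Nat.lt_succ_of_le (hN a l))).symm
      rw [h3]
    intro v hv
    have h2 : v = ∑ a, B.repr ⟨v, hv⟩ a • (B a : L) := by
      have h3 := congrArg Subtype.val (B.sum_repr ⟨v, hv⟩)
      rw [Submodule.coe_sum] at h3
      exact h3.symm
    rw [h2]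
    exact Submodule.sum_mem _ fun a _ => Submodule.smul_mem _ _ (h1 a)
  obtain ⟨m, y, hy1, hy2, hy3, hy4⟩ := echelon vC _ (V.comap Θ) le_rfl
  refine ⟨m, fun j => Θ (y j), hy1, ?_, fun i j => hle _ (hy3 j) i, fun c j => ?_⟩
  · intro v hv
    obtain ⟨x, rfl⟩ := hrange hv
    have h1 := Submodule.mem_map_of_mem (f := Θ) (hy2 (show x ∈ V.comap Θ from hv))
    rw [Submodule.map_span, ← Set.range_comp] at h1
    exact h1
  · obtain ⟨x, hx⟩ := hy4 c j
    obtain ⟨i, hi⟩ := hge (∑ l, c l • y l) x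
    refine ⟨i, hx.trans (hi.trans (le_of_eq ?_))⟩
    rw [map_sum]
    simp only [map_smul]

/-- coordinates in any basis are bounded by the norm -/
theorem ON.bd (h : ∀ i, Red vC ρC (w i) (ρ i)) {z : L} (G : Ga k w ρ z) {d : ℕ}
    {g : Fin d → L} (o : ON C w z g) (i0 : ι) {e : ℕ} {β : Fin e → L} {δ : Fin e → ℤ}
    (b : BG C z β δ) : ∃ M : ℝ≥0, ∀ (p : Fin e → C[X]) (ε : ℝ≥0),
      (∀ i, w i (∑ j, aeval z (p j) * β j) ≤ ε) → ∀ j n, vC ((p j).coeff n) ≤ M * ε := by
  classical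
  obtain ⟨Q, hQ, P, hP⟩ := common b.span g
  let B : ℝ≥0 := Finset.univ.sup fun x : Fin d × Fin e => w i0 (aeval z (P x.1 x.2))
  have hB : ∀ l j, w i0 (aeval z (P l j)) ≤ B := fun l j =>
    Finset.le_sup (f := fun x : Fin d × Fin e => w i0 (aeval z (P x.1 x.2))) (Finset.mem_univ (l, j))
  have hQ0 := G.ne_zero h i0 hQ
  refine ⟨B / w i0 (aeval z Q), fun p ε hp j n => ?_⟩
  obtain ⟨s, hs, r, hr⟩ := o.span (∑ j, aeval z (p j) * β j)
  have hs0 := G.ne_zero h i0 hs
  have h1 : ∀ l, w i0 (aeval z (r l)) ≤ w i0 (aeval z s) * ε := by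
    intro l
    obtain ⟨i, hi⟩ := o.ge r l
    rw [← hr, map_mul] at hi
    rw [G.eq h i0 i, G.eq h i0 i s]
    exact hi.trans (mul_le_mul_right (hp i) _)
  have h2 : Q * s * p j - ∑ l, r l * P l j = 0 := by
    refine b.ind (fun j => Q * s * p j - ∑ l, r l * P l j) ?_ j
    have h3 : aeval z Q * (aeval z s * ∑ j, aeval z (p j) * β j) =
        ∑ l, aeval z (r l) * ∑ j, aeval z (P l j) * β j := by
      rw [hr, Finset.mul_sum]
      refine Finset.sum_congr rfl fun l _ => ?_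
      rw [← hP]; ring
    simp only [map_sub, map_mul, map_sum, sub_mul, Finset.sum_sub_distrib]
    rw [sub_eq_zero]
    simp only [Finset.mul_sum, Finset.sum_mul] at h3 ⊢
    rw [Finset.sum_comm] at h3
    simp only [mul_assoc]
    exact h3
  rw [sub_eq_zero] at h2
  have h3 : w i0 (aeval z Q) * w i0 (aeval z s) * w i0 (aeval z (p j)) ≤
      w i0 (aeval z s) * ε * B := by
    rw [← map_mul, ← map_mul, ← map_mul, ← map_mul, h2, map_sum]
    refine Valuation.map_sum_le _ fun l _ => ?_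
    rw [map_mul, map_mul]
    exact mul_le_mul' (h1 l) (hB l j)
  refine (G.coeff_le h i0 _ n).trans ?_
  rw [div_mul_eq_mul_div, le_div_iff₀ hQ0]
  refine le_of_mul_le_mul_left (a := w i0 (aeval z s)) ?_ hs0
  calc _ = w i0 (aeval z Q) * w i0 (aeval z s) * w i0 (aeval z (p j)) := by ring
    _ ≤ _ := h3
    _ = _ := by ring

end on

section reg

variable {C L : Type*} [Field C] [Field L] [Algebra C L]

/-- functions regular on a set of places -/
def Rg (T : Set (Pl C L)) : Subalgebra C L where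
  carrier := {u | ∀ P ∈ T, P.v u ≤ 1}
  mul_mem' ha hb P hP := by rw [map_mul]; exact mul_le_one' (ha P hP) (hb P hP)
  add_mem' ha hb P hP := (Valuation.map_add _ _ _).trans (max_le (ha P hP) (hb P hP))
  algebraMap_mem' c P _ := by
    by_cases hc : c = 0
    · simp [hc]
    · rw [P.const c hc]

variable {k : Type*} [Field k]
  {ι : Type*} {κ : ι → Type*} [∀ i, Field (κ i)] [∀ i, Algebra k (κ i)]
  {vC : Valuation C ℝ≥0} {ρC : C → k} {w : ι → Valuation L ℝ≥0} {ρ : ∀ i, L → κ i}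

/-- the joint reduction of a subalgebra -/
def redA (h : ∀ i, Red vC ρC (w i) (ρ i)) (hC : IsRes vC ρC) (R : Subalgebra C L) :
    Subalgebra k (∀ i, κ i) where
  carrier := {a | ∃ u ∈ R, (∀ i, w i u ≤ 1) ∧ ∀ i, ρ i u = a i}
  mul_mem' := by
    rintro a b ⟨u, hu, hu1, hu2⟩ ⟨v, hv, hv1, hv2⟩
    refine ⟨u * v, mul_mem hu hv, fun i => by rw [map_mul]; exact mul_le_one' (hu1 i) (hv1 i),
      fun i => ?_⟩
    rw [(h i).res.mul _ _ (hu1 i) (hv1 i), hu2, hv2, Pi.mul_apply]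
  add_mem' := by
    rintro a b ⟨u, hu, hu1, hu2⟩ ⟨v, hv, hv1, hv2⟩
    refine ⟨u + v, add_mem hu hv, fun i => (Valuation.map_add _ _ _).trans (max_le (hu1 i) (hv1 i)),
      fun i => ?_⟩
    rw [(h i).res.add _ _ (hu1 i) (hv1 i), hu2, hv2, Pi.add_apply]
  algebraMap_mem' r := by
    obtain ⟨c, hc, rfl⟩ := hC.surj r
    exact ⟨algebraMap C L c, R.algebraMap_mem c, fun i => by rw [(h i).norm]; exact hc,
      fun i => by rw [(h i).comp c hc]; rfl⟩

end reg

section conn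

variable {C : Type*} [Field C] [IsAlgClosed C] [CharZero C] {L : Type*} [Field L] [Algebra C L]
  [Algebra (RatFunc C) L] [IsScalarTower C (RatFunc C) L] [FiniteDimensional (RatFunc C) L]
  {k : Type*} [Field k] [IsAlgClosed k]
  {ι : Type*} [Fintype ι] {κ : ι → Type*} [∀ i, Field (κ i)] [∀ i, Algebra k (κ i)]
  {vC : Valuation C ℝ≥0} {ρC : C → k} {w : ι → Valuation L ℝ≥0} {ρ : ∀ i, L → κ i}

theorem exists_pow_mul {z u : L} (hu : u ∈ Rg {P : Pl C L | 1 ≤ P.v z}) :
    ∃ m : ℕ, z ^ m * u ∈ Rg {P : Pl C L | P.v z ≤ 1} := by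
  classical
  by_cases hu0 : u = 0
  · exact ⟨0, by rw [hu0, mul_zero]; exact zero_mem _⟩
  let D := poles (k := C) u
  let m := D.support.sup fun P => (D P).toNat
  refine ⟨m, fun P hP => ?_⟩
  rw [map_mul, map_pow]
  rcases eq_or_lt_of_le (show P.v z ≤ 1 from hP) with h1 | h1
  · rw [h1, one_pow, one_mul]; exact hu P h1.ge
  · rw [lt_one_iff] at h1
    have h2 : P.v u ≤ exp (D P) := mem_LD.mp (mem_LD_poles hu0) P
    have h3 : D P ≤ m := by
      by_cases hP : P ∈ D.support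
      · have h4 : (D P).toNat ≤ m := Finset.le_sup (f := fun P => (D P).toNat) hP
        omega
      · rw [Finsupp.notMem_support_iff.mp hP]; omega
    calc P.v z ^ m * P.v u ≤ exp (-1) ^ m * exp (D P) := mul_le_mul' (pow_le_pow_left' h1 m) h2
      _ = exp (-(m : ℤ) + D P) := by rw [← exp_nsmul, ← exp_add]; simp
      _ ≤ 1 := by rw [← exp_zero, exp_le_exp]; omega

/-- **bounded torsion** -/
theorem bt (h : ∀ i, Red vC ρC (w i) (ρ i)) {z : L} (G : Ga k w ρ z) {d : ℕ}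
    {g : Fin d → L} (o : ON C w z g) (i0 : ι) : ∃ M : ℝ≥0, ∀ (u0 u1 : L) (ε : ℝ≥0),
      u0 ∈ Rg {P : Pl C L | P.v z ≤ 1} → u1 ∈ Rg {P : Pl C L | 1 ≤ P.v z} →
      (∀ i, w i (u0 - u1) ≤ ε) → ∃ c : C, ∀ i, w i (u0 - algebraMap C L c) ≤ M * ε := by
  classical
  obtain ⟨e, β, δ, b⟩ := bg z (G.transcendental h i0)
  obtain ⟨M, hM⟩ := o.bd h G i0 b
  let B : ℝ≥0 := Finset.univ.sup fun x : ι × Fin e => w x.1 (β x.2)
  have hB : ∀ i j, w i (β j) ≤ B := fun i j =>
    Finset.le_sup (f := fun x : ι × Fin e => w x.1 (β x.2)) (Finset.mem_univ (i, j))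
  refine ⟨M * B, fun u0 u1 ε h0 h1 hε => ?_⟩
  obtain ⟨p, hp⟩ := (b.fin u0).mp h0
  obtain ⟨m, hm⟩ := exists_pow_mul h1
  obtain ⟨q, hq⟩ := (b.fin _).mp hm
  have hq0 := (b.inf m u1 q hq).mp fun P hP => h1 P hP.le
  have h2 := hM (fun j => X ^ m * p j - q j) ε (by
    intro i
    have h3 : ∑ j, aeval z (X ^ m * p j - q j) * β j = z ^ m * (u0 - u1) := by
      rw [mul_sub, hq, hp, Finset.mul_sum, ← Finset.sum_sub_distrib]
      refine Finset.sum_congr rfl fun j _ => ?_
      rw [map_sub, map_mul, map_pow, aeval_X]; ring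
    rw [h3, map_mul, map_pow, G.eq_one h i, one_pow, one_mul]
    exact hε i)
  have h3 : ∀ j (n : ℕ), δ j < n → vC ((p j).coeff n) ≤ M * ε := by
    intro j n hn
    have h4 := h2 j (n + m)
    rwa [coeff_sub, coeff_X_pow_mul, hq0 j (n + m) (by push_cast; omega), sub_zero] at h4
  let lo : Fin e → C[X] := fun j => ∑ n ∈ Finset.range ((p j).natDegree + 1),
    monomial n (if (n : ℤ) ≤ δ j then (p j).coeff n else 0)
  have hlo : ∀ j n, (lo j).coeff n = if (n : ℤ) ≤ δ j then (p j).coeff n else 0 := by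
    intro j n
    show (∑ n ∈ Finset.range ((p j).natDegree + 1),
      monomial n (if (n : ℤ) ≤ δ j then (p j).coeff n else 0)).coeff n = _
    rw [finsetSum_coeff, Finset.sum_eq_single n, coeff_monomial, if_pos rfl]
    · intro m _ hm
      rw [coeff_monomial, if_neg hm]
    · intro hn
      rw [Finset.mem_range, not_lt] at hn
      rw [coeff_eq_zero_of_natDegree_lt (p := p j) (by omega)]
      simp
  have hU : ∑ j, aeval z (lo j) * β j ∈ LD (0 : Pl C L →₀ ℤ) := by
    rw [mem_LD]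
    intro P
    rw [Finsupp.zero_apply, exp_zero]
    rcases le_or_gt (P.v z) 1 with hP | hP
    · exact (b.fin _).mpr ⟨lo, rfl⟩ P hP
    · refine (b.inf 0 _ lo (by rw [pow_zero, one_mul])).mpr (fun j n hn => ?_) P hP
      rw [hlo, if_neg (by omega)]
  rw [LD_zero hc_of_isAlgClosed, Submodule.mem_one] at hU
  obtain ⟨c, hc⟩ := hU
  refine ⟨c, fun i => ?_⟩
  rw [hc, hp, ← Finset.sum_sub_distrib]
  refine Valuation.map_sum_le _ fun j _ => ?_
  rw [← sub_mul, ← map_sub, map_mul, mul_right_comm]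
  refine mul_le_mul' (G.le_of_coeff h i fun n => ?_) (hB i j)
  rw [coeff_sub, hlo]
  split_ifs with hn
  · rw [sub_self, map_zero]; exact zero_le
  · rw [sub_zero]; exact h3 j n (by omega)

theorem idem (v : Valuation L ℝ≥0) {u : L} {θ : ℝ≥0} (a : ℕ) :
    (v (u - 1) ≤ θ → θ ≤ 1 → 0 < a → v ((1 - (1 - u ^ a) ^ a) - 1) ≤ θ ^ a) ∧
    (v u ≤ θ → θ ≤ 1 → v (1 - (1 - u ^ a) ^ a) ≤ θ ^ a) := by
  have aux : ∀ (x : L) (t : ℝ≥0), v (x - 1) ≤ t → t ≤ 1 → v (x ^ a - 1) ≤ t := by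
    intro x t hx ht
    rw [← mul_geom_sum, map_mul]
    have hx1 : v x ≤ 1 := by
      have : x = (x - 1) + 1 := by ring
      rw [this]
      exact (Valuation.map_add _ _ _).trans (max_le (hx.trans ht) (by rw [map_one]))
    refine (mul_le_mul' hx (Valuation.map_sum_le _ fun j _ => ?_)).trans (mul_one t).le
    rw [map_pow]
    exact pow_le_one' hx1 j
  constructor
  · intro h1 h2 _
    have e : (1 - (1 - u ^ a) ^ a) - 1 = -(1 - u ^ a) ^ a := by ring
    rw [e, Valuation.map_neg, map_pow, Valuation.map_sub_swap]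
    exact pow_le_pow_left' (aux u θ h1 h2) a
  · intro h1 h2
    rw [Valuation.map_sub_swap]
    refine aux _ _ ?_ (pow_le_one' h2 a)
    have e : (1 - u ^ a) - 1 = -u ^ a := by ring
    rw [e, Valuation.map_neg, map_pow]
    exact pow_le_pow_left' h1 a

/-- **connectedness** -/
theorem conn (h : ∀ i, Red vC ρC (w i) (ρ i)) {z : L} (G : Ga k w ρ z) {d : ℕ}
    {g : Fin d → L} (o : ON C w z g) (hC : IsRes vC ρC) (e : ι → k)
    (h0 : (fun i => algebraMap k (κ i) (e i)) ∈ redA h hC (Rg {P : Pl C L | P.v z ≤ 1}))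
    (h1 : (fun i => algebraMap k (κ i) (e i)) ∈ redA h hC (Rg {P : Pl C L | 1 ≤ P.v z}))
    (i1 i2 : ι) : e i1 = e i2 := by
  classical
  by_contra hne
  obtain ⟨M, hM⟩ := bt h G o i1
  -- the idempotent
  let χ : ∀ i, κ i := fun i => if e i = e i1 then 1 else 0
  have hχ : ∀ R : Subalgebra k (∀ i, κ i), (fun i => algebraMap k (κ i) (e i)) ∈ R → χ ∈ R := by
    intro R hR
    have h2 : χ = ∏ j ∈ Finset.univ.filter (fun j => e j ≠ e i1), (e i1 - e j)⁻¹ •
        ((fun i => algebraMap k (κ i) (e i)) - algebraMap k (∀ i, κ i) (e j)) := by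
      funext i
      rw [Finset.prod_apply]
      show (if e i = e i1 then 1 else 0) = _
      split_ifs with hi
      · refine (Finset.prod_eq_one fun j hj => ?_).symm
        rw [Pi.smul_apply, Pi.sub_apply, Pi.algebraMap_apply, ← map_sub, Algebra.smul_def,
          ← map_mul, hi, inv_mul_cancel₀ (sub_ne_zero.mpr (Finset.mem_filter.mp hj).2.symm),
          map_one]
      · refine (Finset.prod_eq_zero (i := i) (by simp [hi]) ?_).symm
        rw [Pi.smul_apply, Pi.sub_apply, Pi.algebraMap_apply, sub_self, smul_zero]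
    rw [h2]
    exact prod_mem fun j _ => R.smul_mem (sub_mem hR (R.algebraMap_mem _)) _
  obtain ⟨u0, hu0, hu01, hu02⟩ := hχ _ h0
  obtain ⟨u1, hu1, hu11, hu12⟩ := hχ _ h1
  -- distance to the idempotent
  let t : ι → L := fun i => if e i = e i1 then 1 else 0
  have hlt : ∀ u : L, (∀ i, w i u ≤ 1) → (∀ i, ρ i u = χ i) → ∀ i, w i (u - t i) < 1 := by
    intro u h2 h3 i
    have h4 := h3 i
    simp only [χ, t] at h4 ⊢
    split_ifs at h4 ⊢ with hi
    · rw [← (h i).res.eq_iff (h2 i) (by simp), h4, (h i).res.one]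
    · rw [sub_zero, ← (h i).res.zero_iff _ (h2 i), h4]
  let θ : ℝ≥0 := Finset.univ.sup fun i => max (w i (u0 - t i)) (w i (u1 - t i))
  have hθ : θ < 1 := by
    rw [Finset.sup_lt_iff (by simp)]
    exact fun i _ => max_lt (hlt u0 hu01 hu02 i) (hlt u1 hu11 hu12 i)
  have hθ' : ∀ i, max (w i (u0 - t i)) (w i (u1 - t i)) ≤ θ := fun i =>
    Finset.le_sup (f := fun i => max (w i (u0 - t i)) (w i (u1 - t i))) (Finset.mem_univ i)
  obtain ⟨a0, ha0⟩ := exists_pow_lt_of_lt_one (show (0 : ℝ≥0) < (M + 1)⁻¹ by positivity) hθ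
  set a := a0 + 1 with ha
  have ha1 : θ ^ a < (M + 1)⁻¹ :=
    lt_of_le_of_lt (pow_le_pow_of_le_one zero_le hθ.le (by omega)) ha0
  have hθa : θ ^ a < 1 := pow_lt_one₀ zero_le hθ (by omega)
  have hU : ∀ u : L, (∀ i, w i (u - t i) ≤ θ) → ∀ i,
      w i ((1 - (1 - u ^ a) ^ a) - t i) ≤ θ ^ a := by
    intro u hu i
    have h2 := hu i
    simp only [t] at h2 ⊢
    split_ifs at h2 ⊢ with hi
    · exact (idem (w i) a).1 h2 hθ.le (by omega)
    · rw [sub_zero] at h2 ⊢
      exact (idem (w i) a).2 h2 hθ.le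
  have hU0 := hU u0 fun i => (le_max_left _ _).trans (hθ' i)
  have hU1 := hU u1 fun i => (le_max_right _ _).trans (hθ' i)
  obtain ⟨c, hc⟩ := hM (1 - (1 - u0 ^ a) ^ a) (1 - (1 - u1 ^ a) ^ a) (θ ^ a)
    (sub_mem (one_mem _) (pow_mem (sub_mem (one_mem _) (pow_mem hu0 a)) a))
    (sub_mem (one_mem _) (pow_mem (sub_mem (one_mem _) (pow_mem hu1 a)) a)) (by
      intro i
      have e : (1 - (1 - u0 ^ a) ^ a) - (1 - (1 - u1 ^ a) ^ a) =
          ((1 - (1 - u0 ^ a) ^ a) - t i) - ((1 - (1 - u1 ^ a) ^ a) - t i) := by ring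
      rw [e]
      exact (Valuation.map_sub _ _ _).trans (max_le (hU0 i) (hU1 i)))
  have hMθ : M * θ ^ a < 1 := by
    calc M * θ ^ a ≤ (M + 1) * θ ^ a := mul_le_mul_left (by simp) _
      _ < (M + 1) * (M + 1)⁻¹ := mul_lt_mul_of_pos_left ha1 (by positivity)
      _ = 1 := mul_inv_cancel₀ (by positivity)
  have hct : ∀ i, w i (algebraMap C L c - t i) < 1 := by
    intro i
    have e : algebraMap C L c - t i =
        ((1 - (1 - u0 ^ a) ^ a) - t i) - ((1 - (1 - u0 ^ a) ^ a) - algebraMap C L c) := by ring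
    rw [e]
    exact (Valuation.map_sub _ _ _).trans_lt
      (max_lt ((hU0 i).trans_lt hθa) ((hc i).trans_lt hMθ))
  have h2 := hct i1
  have h3 := hct i2
  simp only [t, if_pos rfl, if_neg (Ne.symm hne)] at h2 h3
  rw [sub_zero, (h i2).norm] at h3
  rw [← map_one (algebraMap C L), ← map_sub, (h i1).norm] at h2
  have h4 : vC (1 : C) < 1 := by
    have e : (1 : C) = c - (c - 1) := by ring
    rw [e]
    exact (Valuation.map_sub _ _ _).trans_lt (max_lt h3 h2)
  rw [map_one] at h4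
  exact lt_irrefl _ h4

end conn

end Crest.Agent.T15.Ct
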