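import Mathlib
import Crest.Agent.R013.GR3_921
import Crest.Agent.R013.Ins3_240
import Crest.Agent.T15.CtB_92

/-!
# Row 15, block F (helper92): the genus inequality for several norms

* `mg0` : all norms over one Gauss norm, with an orthonormal basis;
* `mg` : any finite set of distinct norms, `∑ gen (κ i) ≤ gen L`.
-/

set_option autoImplicit false
set_option linter.all false

namespace Crest.Agent.T15.Ct

open Polynomial WithZero Module
open scoped NNReal
open Crest.Agent.R013.RR2_948
open Crest.Agent.R013.RR7_948 Crest.Agent.R013.RR8_948 Crest.Agent.R013.RR9_948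
open Crest.Agent.R013.RR11_948 Crest.Agent.R013.RR12_948
open Crest.Agent.R013.RR18_948 Crest.Agent.R013.RR19_948 Crest.Agent.R013.RR20_948
open Crest.Agent.R013.GR2_921 Crest.Agent.R013.GR3_921 Crest.Agent.R013.GR4_921
open Crest.Agent.R013.GR5_921 Crest.Agent.R013.GR6_921 Crest.Agent.R013.GR7_921
open Crest.Agent.R013.GR9_921

section main

variable {C : Type*} [Field C] [IsAlgClosed C] [CharZero C] {L : Type*} [Field L] [Algebra C L]
  [Algebra (RatFunc C) L] [IsScalarTower C (RatFunc C) L] [FiniteDimensional (RatFunc C) L]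
  {k : Type*} [Field k] [IsAlgClosed k]
  {ι : Type*} [Fintype ι] {κ : ι → Type*} [∀ i, Field (κ i)] [∀ i, Algebra k (κ i)]
  {vC : Valuation C ℝ≥0} {ρC : C → k} {w : ι → Valuation L ℝ≥0} {ρ : ∀ i, L → κ i}

/-- the conductor is not zero -/
theorem exists_cond (h : ∀ i, Red vC ρC (w i) (ρ i)) (hw : Function.Injective w) {z : L}
    (G : Ga k w ρ z) (hC : IsRes vC ρC) (i0 : ι) :
    ∃ q : k[X], q ≠ 0 ∧ ∀ e : ι → k, (fun i => algebraMap k (κ i) (e i) * aeval (ρ i z) q) ∈
      redA h hC (Rg {P : Pl C L | P.v z ≤ 1}) := by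
  classical
  haveI : Infinite k := IsAlgClosed.instInfinite
  obtain ⟨d, β, δ, b⟩ := bg z (G.transcendental h i0)
  choose u hu1 hu2 hu3 using fun i => approx1 h hw i (1 : κ i)
  obtain ⟨Q, hQ, P, hP⟩ := common b.span u
  obtain ⟨c, hc0, hc1, ⟨n0, hn0⟩, hc2⟩ := G.prim h hQ
  refine ⟨redP ρC (Polynomial.C c * Q), ?_, fun e => ?_⟩
  · intro h0
    have h1 := congrArg (fun q => Polynomial.coeff q n0) h0
    simp only [coeff_redP (h i0), coeff_zero] at h1
    rw [hn0, hC.one] at h1
    exact one_ne_zero h1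
  · have h1 : ∀ j, (fun i => if i = j then aeval (ρ i z) (redP ρC (Polynomial.C c * Q)) else 0) ∈
        redA h hC (Rg {P : Pl C L | P.v z ≤ 1}) := by
      intro j
      refine ⟨aeval z (Polynomial.C c * Q) * u j, ?_, fun i => ?_, fun i => ?_⟩
      · rw [map_mul, mul_assoc, hP, aeval_C]
        exact mul_mem (Subalgebra.algebraMap_mem _ c) ((b.fin _).mpr ⟨P j, rfl⟩)
      · rw [map_mul, hc2, one_mul]; exact hu1 j i
      · rw [(h i).res.mul _ _ (hc2 i).le (hu1 j i), res_aeval (h i) hc1 (G.le i)]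
        by_cases hij : i = j
        · subst hij
          rw [hu2, mul_one]; simp
        · rw [hu3 j i hij, mul_zero]; simp [hij]
    have h2 : (fun i => algebraMap k (κ i) (e i) * aeval (ρ i z) (redP ρC (Polynomial.C c * Q))) =
        ∑ j, e j • (fun i => if i = j then aeval (ρ i z) (redP ρC (Polynomial.C c * Q)) else 0) := by
      funext i
      rw [Finset.sum_apply, Finset.sum_eq_single i]
      · rw [Pi.smul_apply, if_pos rfl, Algebra.smul_def]
      · intro j _ hj
        rw [Pi.smul_apply, if_neg (Ne.symm hj), smul_zero]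
      · intro h'; exact absurd (Finset.mem_univ i) h'
    rw [h2]
    exact sum_mem fun j _ => Subalgebra.smul_mem _ (h1 j) _

/-- constants times `z ^ n` in the reduction of `L(n (z)_∞)` -/
theorem const_of (h : ∀ i, Red vC ρC (w i) (ρ i)) {z : L} (G : Ga k w ρ z) {d : ℕ}
    {g : Fin d → L} (o : ON C w z g) (hC : IsRes vC ρC) {q : k[X]} (hq : q.eval 0 ≠ 0)
    (hcond : ∀ e : ι → k, (fun i => algebraMap k (κ i) (e i) * aeval (ρ i z) q) ∈
      redA h hC (Rg {P : Pl C L | P.v z ≤ 1})) (n : ℕ) (e : ι → k) {v : L}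
    (hv : v ∈ LD (n • poles (k := C) z)) (hv1 : ∀ i, w i v ≤ 1)
    (hv2 : ∀ i, ρ i v = algebraMap k (κ i) (e i) * ρ i z ^ n) (i1 i2 : ι) : e i1 = e i2 := by
  have hz1 := G.eq_one h
  have hz0 : z ≠ 0 := by
    intro h0
    have := hz1 i1
    rw [h0] at this; simp at this
  have hρz : ∀ i, ρ i z ≠ 0 := fun i => by rw [(h i).res.ne_zero_iff (G.le i)]; exact hz1 i
  rw [mem_LD] at hv
  refine conn h G o hC e ?_ ?_ i1 i2
  · set R := redA h hC (Rg {P : Pl C L | P.v z ≤ 1}) with hR
    have hzR : (fun i => ρ i z) ∈ R := ⟨z, fun P hP => hP, G.le, fun i => rfl⟩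
    have hpR : ∀ p : k[X], (fun i => aeval (ρ i z) p) ∈ R := by
      intro p
      induction p using Polynomial.induction_on' with
      | add p q hp hq =>
        have := add_mem hp hq
        simp only [map_add]
        exact this
      | monomial n a =>
        have := R.smul_mem (pow_mem hzR n) a
        simp only [aeval_monomial, ← Algebra.smul_def]
        exact this
    have hvR : (fun i => algebraMap k (κ i) (e i) * ρ i z ^ n) ∈ R := by
      refine ⟨v, fun P hP => ?_, hv1, hv2⟩
      have h1 := hv P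
      have h2 : poles (k := C) z P = 0 := by
        have h3 : P.v z ≤ 1 := hP
        rw [v_eq hz0, ← exp_zero, exp_le_exp] at h3
        rw [poles_apply]; omega
      rwa [Finsupp.smul_apply, h2, smul_zero, exp_zero] at h1
    have hcop : IsCoprime (X ^ n : k[X]) q := by
      refine IsCoprime.pow_left ?_
      rw [(irreducible_X (R := k)).coprime_iff_not_dvd, X_dvd_iff, coeff_zero_eq_eval_zero]
      exact hq
    obtain ⟨α, β, hαβ⟩ := hcop
    have h1 := add_mem (mul_mem (hpR α) hvR) (mul_mem (hpR β) (hcond e))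
    convert h1 using 1
    funext i
    have h2 := congrArg (aeval (ρ i z)) hαβ
    rw [map_add, map_mul, map_mul, map_pow, aeval_X, map_one] at h2
    simp only [Pi.add_apply, Pi.mul_apply]
    linear_combination (-(algebraMap k (κ i) (e i))) * h2
  · refine ⟨v / z ^ n, fun P hP => ?_, fun i => ?_, fun i => ?_⟩
    · have h1 := hv P
      have h3 : 1 ≤ P.v z := hP
      rw [map_div₀, map_pow]
      rw [v_eq hz0, ← exp_zero, exp_le_exp] at h3
      have h2 : poles (k := C) z P = -divf (k := C) z P := by rw [poles_apply]; omega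
      rw [Finsupp.smul_apply, h2] at h1
      rw [v_eq hz0, ← exp_nsmul, div_le_one₀ (by simp)]
      exact h1
    · rw [map_div₀, map_pow, hz1, one_pow, div_one]; exact hv1 i
    · rw [(h i).res.div (hv1 i) (by rw [map_pow, hz1, one_pow]), (h i).res.pow (G.le i), hv2,
        mul_div_assoc, div_self (pow_ne_zero n (hρz i)), mul_one]

variable [∀ i, Algebra (RatFunc k) (κ i)] [∀ i, IsScalarTower k (RatFunc k) (κ i)]
  [∀ i, FiniteDimensional (RatFunc k) (κ i)] [∀ i, Algebra.IsSeparable (RatFunc k) (κ i)]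

theorem mg1 (h : ∀ i, Red vC ρC (w i) (ρ i)) (hw : Function.Injective w) {z : L}
    (G : Ga k w ρ z) {d : ℕ} {g : Fin d → L} (o : ON C w z g) (i0 : ι) {q : k[X]}
    (hq : q.eval 0 ≠ 0)
    (hcond : ∀ e : ι → k, (fun i => algebraMap k (κ i) (e i) * aeval (ρ i z) q) ∈
      redA h (h i0).resC (Rg {P : Pl C L | P.v z ≤ 1})) :
    ∑ i, gen k (κ i) ≤ gen C L := by
  classical
  haveI : Infinite k := IsAlgClosed.instInfinite
  have hC := (h i0).resC
  have hz1 := G.eq_one h
  have hz0 : z ≠ 0 := by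
    intro h0
    have := hz1 i0
    rw [h0] at this; simp at this
  have hρz : ∀ i, ρ i z ≠ 0 := fun i => by rw [(h i).res.ne_zero_iff (G.le i)]; exact hz1 i
  set n : ℕ := 2 * ∑ i, gen k (κ i) + 1 with hn
  set D : Pl C L →₀ ℤ := n • poles (k := C) z with hD
  have hD0 : ∀ P, 0 ≤ D P := fun P => by
    rw [hD, Finsupp.smul_apply, poles_apply, nsmul_eq_mul]; positivity
  haveI := LD_finite D
  obtain ⟨m, b, hb1, hb2, hb3, hb4⟩ := o.exists_on h G i0 (LD D)
  have hm : ell D ≤ m := by
    haveI := FiniteDimensional.span_of_finite C (Set.finite_range b)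
    refine (Submodule.finrank_mono hb2).trans ?_
    exact (finrank_range_le_card (R := C) b).trans (Fintype.card_fin m).le
  -- reductions
  have hsm : ∀ (c : Fin m → C), (∀ j, vC (c j) ≤ 1) → ∀ i, w i (∑ j, c j • b j) ≤ 1 ∧
      ρ i (∑ j, c j • b j) = ∑ j, ρC (c j) • ρ i (b j) := by
    intro c hc i
    have hw1 : ∀ j, w i (c j • b j) ≤ 1 := fun j => by
      rw [Algebra.smul_def, map_mul, (h i).norm]; exact mul_le_one' (hc j) (hb3 i j)
    refine ⟨Valuation.map_sum_le _ fun j _ => hw1 j, ?_⟩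
    rw [(h i).res.sum _ _ fun j _ => hw1 j]
    refine Finset.sum_congr rfl fun j _ => ?_
    rw [Algebra.smul_def, (h i).res.mul _ _ (by rw [(h i).norm]; exact hc j) (hb3 i j),
      (h i).comp _ (hc j), ← Algebra.smul_def]
  let A : (Fin m → k) →ₗ[k] (∀ i, κ i) := Fintype.linearCombination k fun j i => ρ i (b j)
  have hA : ∀ r i, A r i = ∑ j, r j • ρ i (b j) := by
    intro r i
    show (Fintype.linearCombination k (fun j i => ρ i (b j)) r) i = _
    rw [Fintype.linearCombination_apply, Finset.sum_apply]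
    rfl
  have hlift : ∀ r, ∃ v ∈ LD D, (∀ i, w i v ≤ 1) ∧ (∀ i, ρ i v = A r i) ∧
      ((∀ i, w i v < 1) → r = 0) := by
    intro r
    choose c hc1 hc2 using fun j => hC.surj (r j)
    refine ⟨∑ j, c j • b j, Submodule.sum_mem _ fun j _ => Submodule.smul_mem _ _ (hb1 j),
      fun i => (hsm c hc1 i).1, fun i => ?_, fun hlt => ?_⟩
    · rw [(hsm c hc1 i).2, hA]
      simp only [hc2]
    · funext j
      obtain ⟨i, hi⟩ := hb4 c j
      rw [← hc2 j, Pi.zero_apply, hC.zero_iff _ (hc1 j)]
      exact hi.trans_lt (hlt i)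
  have hred : ∀ v ∈ LD D, (∀ i, w i v ≤ 1) → ∃ r, ∀ i, ρ i v = A r i := by
    intro v hv hv1
    have h1 := hb2 hv
    rw [← Fintype.range_linearCombination, LinearMap.mem_range] at h1
    obtain ⟨c, hc⟩ := h1
    rw [Fintype.linearCombination_apply] at hc
    have hc1 : ∀ j, vC (c j) ≤ 1 := fun j => by
      obtain ⟨i, hi⟩ := hb4 c j
      exact hi.trans (by rw [hc]; exact hv1 i)
    exact ⟨fun j => ρC (c j), fun i => by rw [← hc, (hsm c hc1 i).2, hA]⟩
  -- the supremum divisors
  let F : ∀ i, Submodule k (κ i) := fun i => LinearMap.range ((LinearMap.proj i).comp A)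
  have hF : ∀ v ∈ LD D, (∀ i, w i v ≤ 1) → ∀ i, ρ i v ∈ F i := by
    intro v hv hv1 i
    obtain ⟨r, hr⟩ := hred v hv hv1
    exact ⟨r, (hr i).symm⟩
  have h1D : (1 : L) ∈ LD D := by
    rw [mem_LD]; intro P
    rw [map_one, ← exp_zero, exp_le_exp]; exact hD0 P
  have hzD : z ^ n ∈ LD D := by
    rw [mem_LD]; intro P
    rw [map_pow, hD, Finsupp.smul_apply, exp_nsmul]
    exact pow_le_pow_left' (mem_LD.mp (mem_LD_poles hz0) P) n
  have h1F : ∀ i, (1 : κ i) ∈ F i := fun i => by
    have := hF 1 h1D (fun i => by simp) i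
    rwa [(h i).res.one] at this
  have hzF : ∀ i, ρ i z ^ n ∈ F i := fun i => by
    have := hF _ hzD (fun i => by rw [map_pow, hz1, one_pow]) i
    rwa [(h i).res.pow (G.le i)] at this
  have hsup : ∀ i, ∃ E, IsSup (F i) E := fun i => exists_isSup inferInstance (by
    intro h0
    have := h1F i
    rw [h0, Submodule.mem_bot] at this
    exact one_ne_zero this)
  choose E hE using hsup
  have hE0 : ∀ i P, 0 ≤ E i P := by
    intro i P
    have h3 := mem_LD.mp ((hE i).1 (h1F i)) P
    rwa [map_one, ← exp_zero, exp_le_exp] at h3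
  have hpole : ∀ i, ∃ P, (n : ℤ) ≤ E i P := by
    intro i
    obtain ⟨P, hP⟩ := exists_pole (G.nc i)
    refine ⟨P, ?_⟩
    have h3 := mem_LD.mp ((hE i).1 (hzF i)) P
    have h4 := divf_neg_of_pole hP
    rw [map_pow, v_eq (hρz i), ← exp_nsmul, exp_le_exp, nsmul_eq_mul] at h3
    nlinarith
  have hEn : ∀ i, (n : ℤ) ≤ degD (E i) := by
    intro i
    obtain ⟨P, hP⟩ := hpole i
    have h3 : degD (Finsupp.single P (n : ℤ)) ≤ degD (E i) := by
      refine degD_mono fun Q => ?_
      rw [Finsupp.single_apply]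
      split_ifs with h4
      · rw [← h4]; exact hP
      · exact hE0 i Q
    rwa [degD_single, degP_eq_one, Nat.cast_one, mul_one] at h3
  -- a generic element
  have hgen : ∃ r, ∀ i, ∀ P ∈ (E i).support, ¬ P.v (A r i) ≤ exp (E i P - 1) := by
    let Gs : (Σ i, Pl k (κ i)) → Submodule k (Fin m → k) := fun x =>
      (ball x.2 (E x.1 x.2 - 1)).comap ((LinearMap.proj x.1).comp A)
    let s : Finset (Subspace k (Fin m → k)) := (Finset.univ.sigma fun i => (E i).support).image Gs
    have hs : ⊤ ∉ s := by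
      intro ht
      rw [Finset.mem_image] at ht
      obtain ⟨⟨i, P⟩, _, hb⟩ := ht
      obtain ⟨_, ⟨r, rfl⟩, hzb⟩ := (hE i).2 P
      have h1 : r ∈ Gs ⟨i, P⟩ := by rw [hb]; trivial
      have h2 : P.v (((LinearMap.proj i).comp A) r) ≤ exp (E i P - 1) := h1
      rw [hzb, exp_le_exp] at h2
      omega
    have hne := Subspace.biUnion_ne_univ_of_top_notMem hs
    obtain ⟨r, hr⟩ := (Set.ne_univ_iff_exists_notMem _).mp hne
    refine ⟨r, fun i P hP hcon => hr ?_⟩
    rw [Set.mem_iUnion₂]
    exact ⟨Gs ⟨i, P⟩, Finset.mem_image_of_mem Gs (by simp [hP]), hcon⟩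
  obtain ⟨r, hr⟩ := hgen
  obtain ⟨u, hu, hu1, hu2, -⟩ := hlift r
  have hsupp : ∀ i, ∃ P ∈ (E i).support, (n : ℤ) ≤ E i P := fun i => by
    obtain ⟨P, hP⟩ := hpole i
    exact ⟨P, Finsupp.mem_support_iff.mpr (by omega), hP⟩
  have hρu0 : ∀ i, ρ i u ≠ 0 := by
    intro i h0
    obtain ⟨P, hP, -⟩ := hsupp i
    exact hr i P hP (by rw [← hu2, h0, map_zero]; exact zero_le)
  have hwu : ∀ i, w i u = 1 := fun i => ((h i).res.ne_zero_iff (hu1 i)).mp (hρu0 i)
  have hEle : ∀ i P, E i P ≤ poles (k := k) (ρ i u) P := by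
    intro i P
    rw [poles_apply]
    by_cases hP : P ∈ (E i).support
    · have h3 := hr i P hP
      rw [← hu2, v_eq (hρu0 i), exp_le_exp] at h3
      omega
    · rw [Finsupp.notMem_support_iff.mp hP]; exact le_max_right _ _
  have hu0 : u ≠ 0 := by
    intro h0
    have := hwu i0
    rw [h0] at this; simp at this
  have htr : Transcendental C u := by
    intro halg
    have h1 : u ∈ algebraicClosure C L := mem_algebraicClosure_iff.mpr halg
    rw [hc_of_isAlgClosed (k := C) (K := L), IntermediateField.mem_bot] at h1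
    obtain ⟨c, hc⟩ := h1
    have hc1 : vC c = 1 := by rw [← (h i0).norm, hc, hwu]
    have h2 : ρ i0 u = algebraMap k (κ i0) (ρC c) := by rw [← hc, (h i0).comp c hc1.le]
    obtain ⟨P, -, hP⟩ := hsupp i0
    have h3 := hEle i0 P
    have h4 : ρC c ≠ 0 := by rw [hC.ne_zero_iff hc1.le]; exact hc1
    have h5 := P.const _ h4
    rw [← h2, v_eq (hρu0 i0), ← exp_zero, exp_inj] at h5
    rw [poles_apply] at h3
    omega
  have hdeg : ∑ i, degD (E i) ≤ degD D := by
    refine (Finset.sum_le_sum fun i _ => degD_mono (hEle i)).trans ((deg_le h hw htr hwu).trans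
      (degD_mono (k := C) (κ := L) fun P => ?_))
    rw [mem_LD_iff hu0] at hu
    rw [poles_apply]
    have h3 : 0 ≤ D P + divf (k := C) u P := hu P
    exact max_le (by linarith) (hD0 P)
  -- the dimension count
  haveI : ∀ i, Module.Finite k (LD (E i)) := fun i => LD_finite (E i)
  let Ψ : (∀ i, LD (E i)) →ₗ[k] (∀ i, κ i) :=
    LinearMap.pi fun i => (LD (E i)).subtype.comp (LinearMap.proj i)
  let Z : (ι → k) →ₗ[k] (∀ i, κ i) :=
    LinearMap.pi fun i => (LinearMap.toSpanSingleton k (κ i) (ρ i z ^ n)).comp (LinearMap.proj i)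
  have hZ : ∀ e i, Z e i = e i • ρ i z ^ n := fun e i => rfl
  let T : ((Fin m → k) × (ι → k)) →ₗ[k] (∀ i, κ i) := A.coprod (-Z)
  have hT : ∀ x i, T x i = A x.1 i - x.2 i • ρ i z ^ n := fun x i => by
    show (A x.1 + (-Z) x.2) i = _
    rw [LinearMap.neg_apply, Pi.add_apply, Pi.neg_apply, hZ, sub_eq_add_neg]
  have hrange : LinearMap.range T ≤ LinearMap.range Ψ := by
    rintro _ ⟨x, rfl⟩
    refine ⟨fun i => ⟨T x i, (hE i).1 ?_⟩, rfl⟩
    rw [hT]
    exact sub_mem ⟨x.1, rfl⟩ (Submodule.smul_mem _ _ (hzF i))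
  have hker : finrank k (LinearMap.ker T) ≤ 1 := by
    let ev : LinearMap.ker T →ₗ[k] k :=
      ((LinearMap.proj i0).comp (LinearMap.snd k (Fin m → k) (ι → k))).comp
        (LinearMap.ker T).subtype
    have hinj : Function.Injective ev := by
      rw [injective_iff_map_eq_zero]
      rintro ⟨⟨r, e⟩, hx⟩ h0
      have h0' : e i0 = 0 := h0
      have hx' : ∀ i, A r i = e i • ρ i z ^ n := fun i => by
        have h1 := congrFun (LinearMap.mem_ker.mp hx) i
        rw [hT, Pi.zero_apply, sub_eq_zero] at h1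
        exact h1
      obtain ⟨v, hv, hv1, hv2, hv3⟩ := hlift r
      have he : ∀ i, e i = 0 := fun i => by
        rw [← h0']
        exact const_of h G o hC hq hcond n e hv hv1
          (fun i => by rw [hv2, hx', Algebra.smul_def]) i i0
      have hr0 : r = 0 := hv3 fun i => by
        rw [← (h i).res.zero_iff _ (hv1 i), hv2, hx', he, zero_smul]
      apply Subtype.ext
      exact Prod.ext hr0 (funext he)
    simpa using LinearMap.finrank_le_finrank_of_injective hinj
  have h1 := LinearMap.finrank_range_add_finrank_ker T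
  rw [Module.finrank_prod, Module.finrank_fintype_fun_eq_card, Module.finrank_fintype_fun_eq_card,
    Fintype.card_fin] at h1
  have h2 : finrank k (LinearMap.range T) ≤ ∑ i, ell (E i) := by
    refine (Submodule.finrank_mono hrange).trans ((LinearMap.finrank_range_le Ψ).trans ?_)
    rw [Module.finrank_pi_fintype]
    rfl
  have h3 : ∀ i, (ell (E i) : ℤ) = degD (E i) + 1 - gen k (κ i) := by
    intro i
    have h4 : gen k (κ i) ≤ ∑ i, gen k (κ i) :=
      Finset.single_le_sum (f := fun i => gen k (κ i)) (fun _ _ => Nat.zero_le _) (Finset.mem_univ i)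
    have h5 := hEn i
    rw [ell_eq_of_lt hc_of_isAlgClosed (by omega)]
  have h4 := ell_ge (k := C) (K := L) hc_of_isAlgClosed D
  have h5 : ((∑ i, ell (E i) : ℕ) : ℤ) =
      ∑ i, degD (E i) + Fintype.card ι - ((∑ i, gen k (κ i) : ℕ) : ℤ) := by
    push_cast
    rw [Finset.sum_congr rfl fun i _ => h3 i, Finset.sum_sub_distrib, Finset.sum_add_distrib]
    simp
  omega

/-- **genus inequality**, all norms over a Gauss norm -/
theorem mg0 (h : ∀ i, Red vC ρC (w i) (ρ i)) (hw : Function.Injective w) {z : L}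
    (G : Ga k w ρ z) {d : ℕ} {g : Fin d → L} (o : ON C w z g) (i0 : ι) :
    ∑ i, gen k (κ i) ≤ gen C L := by
  classical
  haveI : Infinite k := IsAlgClosed.instInfinite
  have hC := (h i0).resC
  obtain ⟨q, hq, hcond⟩ := exists_cond h hw G hC i0
  obtain ⟨ab, hab⟩ := Infinite.exists_notMem_finset q.roots.toFinset
  rw [Multiset.mem_toFinset, mem_roots hq] at hab
  obtain ⟨a, ha, rfl⟩ := hC.surj ab
  refine mg1 h hw (G.shift h ha) (o.shift a) i0 (q := q.comp (X + Polynomial.C (ρC a))) ?_
    fun e => ?_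
  · rw [eval_comp]; simpa using hab
  · have h1 : {P : Pl C L | P.v (z - algebraMap C L a) ≤ 1} = {P : Pl C L | P.v z ≤ 1} := by
      ext P
      have hPa : P.v (algebraMap C L a) ≤ 1 := (Rg {P}).algebraMap_mem a P rfl
      constructor
      · intro h1
        have e : z = (z - algebraMap C L a) + algebraMap C L a := by ring
        show P.v z ≤ 1
        rw [e]
        exact (Valuation.map_add _ _ _).trans (max_le h1 hPa)
      · intro h1
        exact (Valuation.map_sub _ _ _).trans (max_le h1 hPa)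
    rw [h1]
    convert hcond e using 3 with i
    rw [(h i).res.sub (G.le i) (by rw [(h i).norm]; exact ha), (h i).comp a ha, aeval_shift]

end main

end Crest.Agent.T15.Ct
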