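import Mathlib
import Crest.Agent.T15.CtC_92

/-!
# Row 15, block F (helper92): the genus inequality for any finite set of norms

* `exists_red` : a norm over a Gauss norm has a function field as residue field;
* `red_equiv` : uniqueness of residue fields;
* `mg` : `∑ gen (κ i) ≤ gen L` for distinct norms.
-/

set_option autoImplicit false
set_option linter.all false

namespace Crest.Agent.T15.Ct

open Polynomial WithZero Module
open scoped NNReal
open Crest.Agent.R013.RR2_948
open Crest.Agent.R013.RR7_948 Crest.Agent.R013.RR8_948 Crest.Agent.R013.RR9_948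
open Crest.Agent.R013.RR11_948 Crest.Agent.R013.RR12_948
open Crest.Agent.R013.RR18_948 Crest.Agent.R013.RR19_948 Crest.Agent.R013.RR20_948
open Crest.Agent.R013.GR2_921 Crest.Agent.R013.GR3_921 Crest.Agent.R013.GR4_921
open Crest.Agent.R013.GR5_921 Crest.Agent.R013.GR6_921 Crest.Agent.R013.GR7_921
open Crest.Agent.R013.GR8_921 Crest.Agent.R013.GR9_921

section equiv

variable {C L k κ κ' : Type*} [Field C] [Field L] [Algebra C L] [Field k] [Field κ] [Algebra k κ]
  [Field κ'] [Algebra k κ'] {vC : Valuation C ℝ≥0} {ρC : C → k} {w : Valuation L ℝ≥0}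
  {ρ : L → κ} {ρ' : L → κ'}

theorem res_hom (h : IsRes w ρ) (h' : IsRes w ρ') :
    ∃ e : κ →+* κ', ∀ x, w x ≤ 1 → e (ρ x) = ρ' x := by
  choose s hs1 hs2 using h.surj
  have key : ∀ x, w x ≤ 1 → ρ' (s (ρ x)) = ρ' x := fun x hx => by
    rw [h'.eq_iff (hs1 _) hx, ← h.eq_iff (hs1 _) hx, hs2]
  refine ⟨{ toFun := fun a => ρ' (s a), map_one' := ?_, map_mul' := fun a b => ?_,
            map_zero' := ?_, map_add' := fun a b => ?_ }, key⟩
  · rw [← h.one, key 1 (by simp), h'.one]
  · rw [← h'.mul _ _ (hs1 a) (hs1 b), ← key (s a * s b) (by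
      rw [map_mul]; exact mul_le_one' (hs1 a) (hs1 b)), h.mul _ _ (hs1 a) (hs1 b), hs2, hs2]
  · rw [← h.zero, key 0 (by simp), h'.zero]
  · rw [← h'.add _ _ (hs1 a) (hs1 b), ← key (s a + s b)
      ((Valuation.map_add _ _ _).trans (max_le (hs1 a) (hs1 b))), h.add _ _ (hs1 a) (hs1 b),
      hs2, hs2]

/-- uniqueness of the residue field -/
theorem red_equiv (h : Red vC ρC w ρ) (h' : Red vC ρC w ρ') :
    ∃ e : κ ≃+* κ', (∀ x, w x ≤ 1 → e (ρ x) = ρ' x) ∧
      ∀ c : k, e (algebraMap k κ c) = algebraMap k κ' c := by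
  obtain ⟨e, he⟩ := res_hom h.res h'.res
  have hs : Function.Surjective e := fun y => by
    obtain ⟨x, hx, rfl⟩ := h'.res.surj y
    exact ⟨ρ x, he x hx⟩
  refine ⟨RingEquiv.ofBijective e ⟨e.injective, hs⟩, he, fun c => ?_⟩
  obtain ⟨a, ha, rfl⟩ := h.resC.surj c
  rw [← h.comp a ha, ← h'.comp a ha]
  exact he _ (by rw [h.norm]; exact ha)

theorem hasGen_of_red [IsAlgClosed k] (h : Red vC ρC w ρ) (h' : Red vC ρC w ρ') {g : ℕ}
    (hg : HasGen k κ g) : HasGen k κ' g := by
  obtain ⟨e, -, he⟩ := red_equiv h h'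
  exact HasGen.transport (RingEquiv.refl k) e he hg

end equiv

section red

universe u

variable {C : Type*} [Field C] [IsAlgClosed C] [CharZero C] {L : Type u} [Field L] [Algebra C L]
  [Algebra (RatFunc C) L] [IsScalarTower C (RatFunc C) L] [FiniteDimensional (RatFunc C) L]
  {k : Type*} [Field k] [IsAlgClosed k] {vC : Valuation C ℝ≥0} {ρC : C → k}

theorem gauss_val' {W : Valuation L ℝ≥0} (hn : ∀ c, W (algebraMap C L c) = vC c) {z : L}
    (hz : W z ≤ 1) (hga : ∀ (p : C[X]) n, vC (p.coeff n) ≤ W (aeval z p)) (p : C[X]) :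
    ∃ n, W (aeval z p) = vC (p.coeff n) := by
  obtain ⟨n, -, hn'⟩ := Finset.exists_max_image (Finset.range (p.natDegree + 1))
    (fun n => vC (p.coeff n)) ⟨0, by simp⟩
  refine ⟨n, le_antisymm ?_ (hga p n)⟩
  rw [aeval_eq_sum_range]
  refine Valuation.map_sum_le _ fun i hi => ?_
  rw [Algebra.smul_def, map_mul, map_pow, hn]
  exact (mul_le_mul' (hn' i hi) (pow_le_one' hz i)).trans (mul_one _).le

theorem transc_of_gauss {W : Valuation L ℝ≥0} {z : L}
    (hga : ∀ (p : C[X]) n, vC (p.coeff n) ≤ W (aeval z p)) : Transcendental C z := by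
  rw [transcendental_iff]
  intro f hf
  ext i
  have h1 := hga f i
  rw [hf, map_zero] at h1
  rw [coeff_zero]
  exact (Valuation.zero_iff vC).mp (le_antisymm h1 zero_le)

/-- the value group does not grow -/
theorem val_of_gauss {W : Valuation L ℝ≥0} (hn : ∀ c, W (algebraMap C L c) = vC c) {z : L}
    (hz : W z ≤ 1) (hga : ∀ (p : C[X]) n, vC (p.coeff n) ≤ W (aeval z p)) (f : L) (hf : f ≠ 0) :
    ∃ c : C, W f = vC c := by
  classical
  have htr := transc_of_gauss hga
  obtain ⟨N, hN⟩ : ∃ N : ℕ, degD (poles (k := C) z) < N := ⟨(degD (poles (k := C) z)).toNat + 1, by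
    push_cast; omega⟩
  have h1 : ∃ Φ : Fin N → C[X], ∑ i, aeval z (Φ i) * f ^ (i : ℕ) = 0 ∧ ∃ i, Φ i ≠ 0 := by
    by_contra hcon
    push Not at hcon
    have := card_le_deg htr (fun i : Fin N => f ^ (i : ℕ)) hcon
    rw [Fintype.card_fin] at this
    omega
  obtain ⟨Φ, hΦ, i1, hi1⟩ := h1
  have hWf : W f ≠ 0 := (Valuation.ne_zero_iff _).mpr hf
  have hne : ∀ i, Φ i ≠ 0 → W (aeval z (Φ i) * f ^ (i : ℕ)) ≠ 0 := fun i hi =>
    (Valuation.ne_zero_iff _).mpr (mul_ne_zero (fun h0 => hi (transcendental_iff.mp htr _ h0))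
      (pow_ne_zero _ hf))
  obtain ⟨i0, -, hmax⟩ := Finset.exists_max_image Finset.univ
    (fun i : Fin N => W (aeval z (Φ i) * f ^ (i : ℕ))) ⟨i1, Finset.mem_univ _⟩
  have h0 : W (aeval z (Φ i0) * f ^ (i0 : ℕ)) ≠ 0 := fun h0 =>
    hne i1 hi1 (le_antisymm (h0 ▸ hmax i1 (Finset.mem_univ _)) zero_le)
  have h2 : ∃ j, j ≠ i0 ∧ W (aeval z (Φ j) * f ^ (j : ℕ)) = W (aeval z (Φ i0) * f ^ (i0 : ℕ)) := by
    by_contra hcon
    push Not at hcon
    have h3 := Valuation.map_sum_eq_of_lt W (s := Finset.univ)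
      (f := fun i : Fin N => aeval z (Φ i) * f ^ (i : ℕ)) (Finset.mem_univ i0) (fun i hi =>
        lt_of_le_of_ne (hmax i (Finset.mem_univ _)) (hcon i (by simpa using hi)))
    rw [hΦ, map_zero] at h3
    exact h0 h3.symm
  obtain ⟨j, hj, hj2⟩ := h2
  have key : ∀ (i j : Fin N), (i : ℕ) < j → W (aeval z (Φ j) * f ^ (j : ℕ)) ≠ 0 →
      W (aeval z (Φ j) * f ^ (j : ℕ)) = W (aeval z (Φ i) * f ^ (i : ℕ)) → ∃ c : C, W f = vC c := by
    intro i j hij h3 h4
    obtain ⟨n, hn1⟩ := gauss_val' hn hz hga (Φ i)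
    obtain ⟨m, hm1⟩ := gauss_val' hn hz hga (Φ j)
    rw [map_mul, map_pow, hm1] at h3
    rw [map_mul, map_mul, map_pow, map_pow, hn1, hm1] at h4
    obtain ⟨t, ht⟩ := Nat.exists_eq_add_of_lt hij
    obtain ⟨c, hc⟩ := IsAlgClosed.exists_pow_nat_eq ((Φ i).coeff n / (Φ j).coeff m) (Nat.succ_pos t)
    refine ⟨c, (pow_left_inj₀ zero_le zero_le (Nat.succ_ne_zero t)).mp ?_⟩
    rw [← map_pow vC, hc, map_div₀, eq_div_iff (left_ne_zero_of_mul h3)]
    rw [ht, add_assoc, pow_add] at h4
    refine mul_right_cancel₀ (pow_ne_zero (i : ℕ) hWf) ?_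
    rw [← h4, Nat.succ_eq_add_one]; ring
  rcases lt_or_gt_of_ne hj with h3 | h3
  · exact key j i0 h3 h0 hj2.symm
  · exact key i0 j h3 (hj2 ▸ h0) hj2

/-- **a norm over a Gauss norm has a function field as residue field** -/
theorem exists_red (hC : IsRes vC ρC) {W : Valuation L ℝ≥0}
    (hn : ∀ c, W (algebraMap C L c) = vC c) {z : L} (hz : W z ≤ 1)
    (hga : ∀ (p : C[X]) n, vC (p.coeff n) ≤ W (aeval z p)) :
    ∃ (κ : Type u) (_ : Field κ) (_ : Algebra k κ) (ρ : L → κ) (g : ℕ),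
      Red vC ρC W ρ ∧ HasGen k κ g ∧ ρ z ∉ Set.range (algebraMap k κ) := by
  classical
  obtain ⟨κ, iκ, ρ, hρ⟩ : ∃ (κ : Type u) (_ : Field κ) (ρ : L → κ), IsRes W ρ := by
    obtain ⟨ρ, hρ, -⟩ := exists_isRes W
    exact ⟨_, inferInstance, ρ, hρ⟩
  choose s hs1 hs2 using hC.surj
  have hw1 : ∀ c, vC c ≤ 1 → W (algebraMap C L c) ≤ 1 := fun c hc => by rw [hn]; exact hc
  have key : ∀ c, vC c ≤ 1 → ρ (algebraMap C L (s (ρC c))) = ρ (algebraMap C L c) := fun c hc => by
    rw [hρ.eq_iff (hw1 _ (hs1 _)) (hw1 _ hc), ← map_sub, hn, ← hC.eq_iff (hs1 _) hc, hs2]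
  let φ : k →+* κ :=
    { toFun := fun a => ρ (algebraMap C L (s a))
      map_one' := by rw [← hC.one, key 1 (by simp), map_one, hρ.one]
      map_mul' := fun a b => by
        rw [← hρ.mul _ _ (hw1 _ (hs1 a)) (hw1 _ (hs1 b)), ← map_mul, ← key (s a * s b) (by
          rw [map_mul]; exact mul_le_one' (hs1 a) (hs1 b)), hC.mul _ _ (hs1 a) (hs1 b), hs2, hs2]
      map_zero' := by rw [← hC.zero, key 0 (by simp), map_zero, hρ.zero]
      map_add' := fun a b => by
        rw [← hρ.add _ _ (hw1 _ (hs1 a)) (hw1 _ (hs1 b)), ← map_add, ← key (s a + s b)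
          ((Valuation.map_add _ _ _).trans (max_le (hs1 a) (hs1 b))), hC.add _ _ (hs1 a) (hs1 b),
          hs2, hs2] }
  letI : Algebra k κ := φ.toAlgebra
  have hR : Red vC ρC W ρ :=
    ⟨hC, hρ, hn, fun c hc => (key c hc).symm, val_of_gauss hn hz hga⟩
  have hnc : ρ z ∉ Set.range (algebraMap k κ) := by
    rintro ⟨c, hc⟩
    have h1 : W (z - algebraMap C L (s c)) < 1 := by
      rw [← hρ.eq_iff hz (hw1 _ (hs1 _))]; exact hc.symm
    have h2 := hga (X - Polynomial.C (s c)) 1
    rw [map_sub, aeval_X, aeval_C] at h2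
    simp only [coeff_sub, coeff_X_one, coeff_C_succ, sub_zero, map_one] at h2
    exact absurd h1 (not_lt.mpr h2)
  have htr : Transcendental k (ρ z) := by
    intro halg
    have h2 : ρ z ∈ algebraicClosure k κ := mem_algebraicClosure_iff.mpr halg
    rw [hc_of_isAlgClosed (k := k) (K := κ), IntermediateField.mem_bot] at h2
    exact hnc h2
  have hx := ratAlg_xK (k := k) (ρ z) htr
  letI := ratAlg (ρ z) htr
  haveI := ratAlg_tower (ρ z) htr
  haveI : FiniteDimensional (RatFunc k) κ := by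
    have h1 : Module.rank (RatFunc k) κ ≤ (degD (poles (k := C) z)).toNat := by
      refine rank_le fun t ht => ?_
      choose g hg1 hg2 using fun x : t => hρ.surj x
      have h2 := card_le_deg (transc_of_gauss hga) g (by
        intro Φ hΦ
        by_contra hcon
        push Not at hcon
        obtain ⟨x1, hx1⟩ := hcon
        obtain ⟨c, x0, n0, hc0, hΨ, hone⟩ := norm_fam vC Φ hx1
        have hsum : ∑ x, aeval z (Polynomial.C c * Φ x) * g x = 0 := by
          have h1 : ∑ x, aeval z (Polynomial.C c * Φ x) * g x =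
              algebraMap C L c * ∑ x, aeval z (Φ x) * g x := by
            rw [Finset.mul_sum]
            refine Finset.sum_congr rfl fun i _ => ?_
            rw [map_mul, aeval_C]; ring
          rw [h1, hΦ, mul_zero]
        have hle : ∀ x, W (aeval z (Polynomial.C c * Φ x)) ≤ 1 := fun x =>
          w_aeval_le hR (hΨ x) hz
        have h3 := Fintype.linearIndependent_iff.mp ht
          (fun x => algebraMap k[X] (RatFunc k) (redP ρC (Polynomial.C c * Φ x))) (by
            have h1 := congrArg ρ hsum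
            rw [hρ.zero, hρ.sum _ _ fun x _ => by
              rw [map_mul]; exact mul_le_one' (hle x) (hg1 x)] at h1
            rw [← h1]
            refine Finset.sum_congr rfl fun x _ => ?_
            rw [hρ.mul _ _ (hle x) (hg1 x), res_aeval hR (hΨ x) hz, hg2, Algebra.smul_def,
              alg_poly, hx]) x0
        have h4 : redP ρC (Polynomial.C c * Φ x0) = 0 :=
          (FaithfulSMul.algebraMap_injective k[X] (RatFunc k)) (by rw [h3, map_zero])
        have h5 := congrArg (fun q => Polynomial.coeff q n0) h4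
        simp only [coeff_redP hR, coeff_zero] at h5
        rw [hone, hC.one] at h5
        exact one_ne_zero h5)
      rw [Fintype.card_coe] at h2
      omega
    exact Module.rank_lt_aleph0_iff.mp (h1.trans_lt (Cardinal.natCast_lt_aleph0))
  obtain ⟨y, hy, h1, h2⟩ := Crest.Agent.R013.Ins_240.exists_separating (k := k) (K := κ)
  exact ⟨κ, inferInstance, inferInstance, ρ, _, hR,
    ⟨ratAlg y hy, ratAlg_tower y hy, h1, h2, rfl⟩, hnc⟩

open Crest.Agent.R013.StabF_83 Crest.Agent.R013.StabR_460 in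
/-- all norms over the Gauss norm of `z`, with an orthonormal basis -/
theorem exists_all {W : Valuation L ℝ≥0} (hn : ∀ c, W (algebraMap C L c) = vC c) {z : L}
    (hz : W z ≤ 1) (hga : ∀ (p : C[X]) n, vC (p.coeff n) ≤ W (aeval z p))
    (p : ℕ) [hpp : Fact p.Prime] (hp : vC (p : C) < 1) :
    ∃ (I : Type u) (_ : Fintype I) (w : I → Valuation L ℝ≥0) (d : ℕ) (g : Fin d → L),
      Function.Injective w ∧ ON C w z g ∧ (∀ i q, w i (aeval z q) = W (aeval (R := C) z q)) ∧
      ∀ W' : Valuation L ℝ≥0, (∀ q : C[X], W' (aeval z q) = W (aeval z q)) → ∃ i, W' = w i := by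
  classical
  have hxt := transc_of_gauss hga
  have hfd : FiniteDimensional (IntermediateField.adjoin C {z}) L :=
    Crest.Agent.R013.CLiftN_903.fd_adjoin z hxt
  let F := IntermediateField.adjoin C {z}
  let xF : F := ⟨z, IntermediateField.subset_adjoin C {z} rfl⟩
  let w0 : Valuation F ℝ≥0 := W.comap (algebraMap F L)
  have hval : ∀ f : C[X], algebraMap F L (aeval xF f) = aeval z f := fun f =>
    (aeval_algebraMap_apply L xF f).symm
  have hfrac : ∀ y : F, ∃ f g : C[X], g ≠ 0 ∧ y = aeval xF f / aeval xF g := by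
    rintro ⟨y, hy⟩
    obtain ⟨f, g, hfg⟩ := IntermediateField.mem_adjoin_simple_iff C y |>.mp hy
    by_cases hg : g = 0
    · refine ⟨0, 1, one_ne_zero, ?_⟩
      apply Subtype.ext
      rw [map_zero, zero_div]
      show y = 0
      rw [hfg, hg, map_zero, div_zero]
    · refine ⟨f, g, hg, (algebraMap F L).injective ?_⟩
      rw [map_div₀, hval, hval]
      exact hfg
  have hinj : ∀ g : C[X], g ≠ 0 → aeval xF g ≠ 0 := by
    intro g hg h0
    refine hg (transcendental_iff.mp hxt _ ?_)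
    rw [← hval, h0, map_zero]
  obtain ⟨E, i1, i2, i3, i4, hd, hE, I, i5, ⟨o⟩⟩ := out_of_gauss (C := C) F w0 p
    (by
      show W (algebraMap F L (p : F)) < 1
      rw [map_natCast, ← map_natCast (algebraMap C L), hn]; exact hp)
    xF hz
    (by
      intro f i
      show W (algebraMap F L (algebraMap C F (f.coeff i))) ≤ W (algebraMap F L (aeval xF f))
      rw [← IsScalarTower.algebraMap_apply, hn, hval]; exact hga f i)
    hfrac L
  let e := Fintype.equivFin (Σ i, Fin (o.d i))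
  refine ⟨I, i5, o.w, _, fun l => o.b (e.symm l), ?_, ⟨fun i j => o.b_le i _, fun u => ?_,
    fun r l => ?_⟩, fun i q => ?_, fun W' hW' => ?_⟩
  · intro i j hij
    by_contra hne
    obtain ⟨y, hy⟩ := o.approx (fun m => if m = i then 1 else 0) 1 one_pos
    have h1 := hy i
    have h2 := hy j
    rw [if_pos rfl] at h1
    rw [if_neg (Ne.symm hne), sub_zero, ← hij] at h2
    have h3 : o.w i 1 < 1 := by
      have e : (1 : L) = y - (y - 1) := by ring
      rw [e]
      exact (Valuation.map_sub _ _ _).trans_lt (max_lt h2 h1)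
    rw [map_one] at h3
    exact lt_irrefl _ h3
  · obtain ⟨q, r, hq, hr⟩ := common_den (C := C) (x := xF) (fun y => by
      obtain ⟨f, g, hg, hfg⟩ := hfrac y
      exact ⟨f, g, hinj g hg, by rw [hfg, div_mul_cancel₀ _ (hinj g hg)]⟩)
      (fun j => o.b.repr u j)
    refine ⟨q, fun h0 => hq (by rw [h0, map_zero]), fun l => r (e.symm l), ?_⟩
    rw [Equiv.sum_comp e.symm (fun j => aeval z (r j) * o.b j)]
    conv_lhs => rw [← o.b.sum_repr u, Finset.mul_sum]
    refine Finset.sum_congr rfl fun j _ => ?_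
    rw [← hval, ← hval, ← hr, Algebra.smul_def, map_mul]; ring
  · obtain ⟨i, hi⟩ := o.ge (fun j => aeval xF (r (e j))) (e.symm l)
    refine ⟨i, ?_⟩
    rw [← o.w_alg i, hval, e.apply_symm_apply] at hi
    refine hi.trans (le_of_eq ?_)
    congr 1
    rw [← Equiv.sum_comp e.symm]
    refine Finset.sum_congr rfl fun j _ => ?_
    rw [e.apply_symm_apply, Algebra.smul_def, hval]
  · rw [← hval, o.w_alg, hE]; rfl
  · refine o.complete W' fun f => ?_
    obtain ⟨a, b, -, rfl⟩ := hfrac f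
    rw [hE]
    show _ = W (algebraMap F L _)
    rw [map_div₀, map_div₀, map_div₀, hval, hval, hW', hW']

/-- **genus inequality for several norms** -/
theorem mg {ι : Type*} [Fintype ι] {κ : ι → Type*} [∀ i, Field (κ i)] [∀ i, Algebra k (κ i)]
    {w : ι → Valuation L ℝ≥0} {ρ : ∀ i, L → κ i} (h : ∀ i, Red vC ρC (w i) (ρ i))
    (hw : Function.Injective w) {g : ι → ℕ} (hg : ∀ i, HasGen k (κ i) (g i))
    (p : ℕ) [hpp : Fact p.Prime] (hp : vC (p : C) < 1) : ∑ i, g i ≤ gen C L := by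
  classical
  haveI : Infinite k := IsAlgClosed.instInfinite
  rcases isEmpty_or_nonempty ι with hι | ⟨⟨i0⟩⟩
  · simp
  have h1 : ∀ i, ∃ a : κ i, a ∉ Set.range (algebraMap k (κ i)) := fun i => by
    obtain ⟨i1, i2, i3, i4, -⟩ := hg i
    exact exists_notMem_range
  choose a ha using h1
  obtain ⟨z, hz1, hz2⟩ := approx h hw a
  have G : Ga k w ρ z := ⟨hz1, fun i => by rw [hz2]; exact ha i⟩
  obtain ⟨I, i5, w', d, b, hw', o, hq, hall⟩ :=
    exists_all (h i0).norm (hz1 i0) (G.coeff_le h i0) p hp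
  have h2 : ∀ j, ∃ (κ : Type u) (_ : Field κ) (_ : Algebra k κ) (ρ : L → κ) (g : ℕ),
      Red vC ρC (w' j) ρ ∧ HasGen k κ g ∧ ρ z ∉ Set.range (algebraMap k κ) := fun j => by
    refine exists_red (h i0).resC (fun c => ?_) ?_ fun q n => ?_
    · rw [← aeval_C z, hq, aeval_C, (h i0).norm]
    · have := hq j X
      rw [aeval_X] at this
      rw [this]; exact hz1 i0
    · rw [hq]; exact G.coeff_le h i0 q n
  choose κ' f1 f2 ρ' g' h' hg' hnc using h2
  choose j hj using fun i => hall (w i) (G.eq h i i0)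
  have hjinj : Function.Injective j := fun i i' hii => hw (by rw [hj, hj, hii])
  have hgg : ∀ i, g i = g' (j i) := fun i =>
    HasGen.unique (hasGen_of_red (h i) (by rw [hj]; exact h' (j i)) (hg i)) (hg' (j i))
  choose i1 i2 i3 i4 i6 using hg'
  have h3 := mg0 h' hw' (z := z) ⟨fun j => by
    have := hq j X
    rw [aeval_X] at this
    rw [this]; exact hz1 i0, hnc⟩ o (j i0)
  refine le_trans ?_ h3
  simp only [i6, hgg]
  rw [← Finset.sum_image (s := Finset.univ) (g := j) (f := g') fun x _ y _ h => hjinj h]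
  exact Finset.sum_le_sum_of_subset (Finset.subset_univ _)

end red

end Crest.Agent.T15.Ct
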