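import Mathlib
import Crest.Agent.R013.Kumv_275
import Crest.Agent.R013.Frob1_914
import Crest.Agent.T15.CtD_92

/-!
# Row 15, block F (helper92): Neron-Ogg-Shafarevich for several norms (compact type)

`w i` distinct norms of `K / C` with `gen K ≤ ∑ gen (κ i)`, `n` prime to the residue characteristic.
* `inj_pow` : `n ∣ div f`, `f` an `n`-th power modulo every `w i` ⇒ `f` is an `n`-th power;
* `nos` : a semilinear automorphism which is trivial on all residue fields is trivial on `Pic[n]`.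
-/

set_option autoImplicit false
set_option linter.all false

namespace Crest.Agent.T15.Ct

open Polynomial WithZero Module
open scoped NNReal IntermediateField
open Crest.Agent.R013.RR7_948 Crest.Agent.R013.RR8_948 Crest.Agent.R013.RR9_948
open Crest.Agent.R013.RR11_948 Crest.Agent.R013.RR12_948
open Crest.Agent.R013.RR18_948 Crest.Agent.R013.RR19_948 Crest.Agent.R013.RR20_948
open Crest.Agent.R013.GR2_921 Crest.Agent.R013.GR3_921 Crest.Agent.R013.GR4_921
open Crest.Agent.R013.Kumv_275 Crest.Agent.R013.PicD_398 Crest.Agent.R013.Frob1_914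

universe u

section dense

variable {C K L k κ : Type*} [Field C] [Field K] [Field L] [Algebra C K] [Algebra C L] [Algebra K L]
  [IsScalarTower C K L] [Field k] [Field κ] [Algebra k κ]
  {vC : Valuation C ℝ≥0} {ρC : C → k} {w : Valuation K ℝ≥0} {ρ : K → κ}

/-- immediate extensions have the same residue field -/
theorem red_of_dense (h : Red vC ρC w ρ) {W : Valuation L ℝ≥0}
    (hW : ∀ x, W (algebraMap K L x) = w x)
    (hd : ∀ z : L, z ≠ 0 → ∃ c : K, W (z - algebraMap K L c) < W z ∧ w c = W z) :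
    ∃ ρ' : L → κ, Red vC ρC W ρ' ∧ ∀ x, w x ≤ 1 → ρ' (algebraMap K L x) = ρ x := by
  have h1 : ∀ z : L, ∃ c : K, W z ≤ 1 → w c ≤ 1 ∧ W (z - algebraMap K L c) < 1 := by
    intro z
    by_cases hz : z = 0
    · exact ⟨0, fun _ => by simp [hz]⟩
    · obtain ⟨c, h1, h2⟩ := hd z hz
      exact ⟨c, fun h3 => ⟨h2.trans_le h3, h1.trans_le h3⟩⟩
  choose s hs using h1
  have key : ∀ (z : L) (c : K), W z ≤ 1 → W (z - algebraMap K L c) < 1 → ρ (s z) = ρ c := by
    intro z c hz hc
    have hc1 : w c ≤ 1 := by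
      have e : algebraMap K L c = z - (z - algebraMap K L c) := by ring
      rw [← hW, e]
      exact (Valuation.map_sub _ _ _).trans (max_le hz hc.le)
    rw [h.res.eq_iff (hs z hz).1 hc1, ← hW, map_sub]
    have e : algebraMap K L (s z) - algebraMap K L c =
        (z - algebraMap K L c) - (z - algebraMap K L (s z)) := by ring
    rw [e]
    exact (Valuation.map_sub _ _ _).trans_lt (max_lt hc (hs z hz).2)
  have key2 : ∀ x, w x ≤ 1 → ρ (s (algebraMap K L x)) = ρ x := fun x hx =>
    key _ x (by rw [hW]; exact hx) (by simp)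
  refine ⟨fun z => ρ (s z), ⟨h.resC, ⟨fun x y hx hy => ?_, fun x y hx hy => ?_, ?_, fun x hx => ?_,
    fun y => ?_⟩, fun c => ?_, fun c hc => ?_, fun f hf => ?_⟩, key2⟩
  · rw [← h.res.add _ _ (hs x hx).1 (hs y hy).1]
    refine key _ _ ((Valuation.map_add _ _ _).trans (max_le hx hy)) ?_
    rw [map_add, add_sub_add_comm]
    exact (Valuation.map_add _ _ _).trans_lt (max_lt (hs x hx).2 (hs y hy).2)
  · rw [← h.res.mul _ _ (hs x hx).1 (hs y hy).1]
    refine key _ _ (by rw [map_mul]; exact mul_le_one' hx hy) ?_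
    have e : x * y - algebraMap K L (s x * s y) =
        (y - algebraMap K L (s y)) * x + (x - algebraMap K L (s x)) * algebraMap K L (s y) := by
      rw [map_mul]; ring
    rw [e]
    refine (Valuation.map_add _ _ _).trans_lt (max_lt ?_ ?_)
    · rw [map_mul]; exact mul_lt_one_of_lt_of_le (hs y hy).2 hx
    · rw [map_mul, hW]; exact mul_lt_one_of_lt_of_le (hs x hx).2 (hs y hy).1
  · rw [← h.res.one]
    exact key 1 1 (by simp) (by simp)
  · show ρ (s x) = 0 ↔ _
    rw [h.res.zero_iff _ (hs x hx).1, ← hW]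
    constructor
    · intro h1
      have e : x = (x - algebraMap K L (s x)) + algebraMap K L (s x) := by ring
      rw [e]
      exact (Valuation.map_add _ _ _).trans_lt (max_lt (hs x hx).2 h1)
    · intro h1
      have e : algebraMap K L (s x) = x - (x - algebraMap K L (s x)) := by ring
      rw [e]
      exact (Valuation.map_sub _ _ _).trans_lt (max_lt h1 (hs x hx).2)
  · obtain ⟨x, hx, rfl⟩ := h.res.surj y
    exact ⟨algebraMap K L x, by rw [hW]; exact hx, key2 x hx⟩
  · rw [IsScalarTower.algebraMap_apply C K L, hW, h.norm]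
  · rw [IsScalarTower.algebraMap_apply C K L]
    exact (key2 _ (by rw [h.norm]; exact hc)).trans (h.comp c hc)
  · obtain ⟨c, h1, h2⟩ := hd f hf
    have hc0 : c ≠ 0 := by
      rintro rfl
      rw [map_zero] at h2
      exact hf ((Valuation.zero_iff W).mp h2.symm)
    obtain ⟨a, ha⟩ := h.val c hc0
    exact ⟨a, by rw [← h2, ha]⟩

end dense

section prime

variable {C : Type*} [Field C] [IsAlgClosed C] [CharZero C] {K : Type u} [Field K] [Algebra C K]
  [Algebra (RatFunc C) K] [IsScalarTower C (RatFunc C) K] [FiniteDimensional (RatFunc C) K]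
  {k : Type*} [Field k] [IsAlgClosed k]
  {ι : Type*} [Fintype ι] {κ : ι → Type*} [∀ i, Field (κ i)] [∀ i, Algebra k (κ i)]
  {vC : Valuation C ℝ≥0} {ρC : C → k} {w : ι → Valuation K ℝ≥0} {ρ : ∀ i, K → κ i}

/-- Kummer extensions of prime degree with divisible divisor are unramified -/
theorem eR_kummer {L : Type*} [Field L] [Algebra C L] [Algebra K L] [IsScalarTower C K L]
    [FiniteDimensional K L] [Algebra.IsSeparable K L] {l : ℕ} (hl : l.Prime) {f : K} (hf : f ≠ 0)
    (hdiv : ∀ P : Pl C K, (l : ℤ) ∣ divf (k := C) f P) {y : L} (hy : y ^ l = algebraMap K L f)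
    (htop : K⟮y⟯ = ⊤) (Q : Pl C L) : eR K Q = 1 := by
  haveI : NeZero l := ⟨hl.ne_zero⟩
  obtain ⟨ζ, hζ⟩ := HasEnoughRootsOfUnity.exists_primitiveRoot C l
  have hζK := hζ.map_of_injective (algebraMap C K).injective
  have h2 : (1 : ℝ≥0) < 2 := one_lt_two
  have hsm := WithZeroMulInt.toNNReal_strictMono h2
  let W : Valuation L ℝ≥0 := Q.v.map (WithZeroMulInt.toNNReal two_ne_zero) hsm.monotone
  have hWv : ∀ x, W x = WithZeroMulInt.toNNReal two_ne_zero (Q.v x) := fun x => rfl
  obtain ⟨m, hm⟩ := hdiv (under K Q)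
  obtain ⟨t, ht0, ht⟩ := exists_v_eq (under K Q) (-m)
  have hu : (under K Q).v (f / t ^ l) = 1 := by
    rw [map_div₀, map_pow, v_eq hf, hm, ht, ← exp_nsmul, nsmul_eq_mul, mul_neg,
      div_self exp_ne_zero]
  obtain ⟨c, hc⟩ := exists_const (under K Q) hu.le
  have hc0 : c ≠ 0 := by
    rintro rfl
    rw [map_zero, sub_zero, hu] at hc
    exact lt_irrefl _ hc
  obtain ⟨d, hd⟩ := IsAlgClosed.exists_pow_nat_eq c hl.pos
  have h1 : (W.comap (algebraMap K L)) (f / (t * algebraMap C K d) ^ l - 1) < 1 := by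
    have e2 : f / (t * algebraMap C K d) ^ l - 1 =
        (f / t ^ l - algebraMap C K c) / algebraMap C K c := by
      rw [mul_pow, ← map_pow, hd]
      have : algebraMap C K c ≠ 0 := (_root_.map_ne_zero _).2 hc0
      field_simp
    rw [Valuation.comap_apply, hWv, ← map_one (WithZeroMulInt.toNNReal two_ne_zero),
      hsm.lt_iff_lt, ← under_lt_one_iff, e2, map_div₀, (under K Q).const c hc0, div_one]
    exact hc
  have hvl : (W.comap (algebraMap K L)) (l : K) = 1 := by
    rw [Valuation.comap_apply, hWv, map_natCast, ← map_natCast (algebraMap C L),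
      Q.const _ (Nat.cast_ne_zero.mpr hl.ne_zero), map_one]
  obtain ⟨z, hz⟩ := Q.surj (exp (-1))
  have hz0 : z ≠ 0 := by
    rintro rfl
    rw [map_zero] at hz
    exact exp_ne_zero hz.symm
  obtain ⟨a, -, ha⟩ := split_val _ hl hvl hζK hy htop h1 W rfl z hz0
  rw [Valuation.comap_apply, hWv, hWv, hsm.injective.eq_iff, hz] at ha
  have ha0 : a ≠ 0 := by
    rintro rfl
    rw [map_zero, map_zero] at ha
    exact exp_ne_zero ha.symm
  have h3 := v_algebraMap_exp (K := K) Q (v_eq ha0 (under K Q))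
  rw [ha, exp_inj] at h3
  have h4 : ((eR K Q : ℕ) : ℤ) ∣ 1 := ⟨divf (k := C) a (under K Q), by linarith⟩
  exact Nat.dvd_one.mp (by exact_mod_cast h4)

theorem inj_aux (h : ∀ i, Red vC ρC (w i) (ρ i)) (hw : Function.Injective w) {g : ι → ℕ}
    (hg : ∀ i, HasGen k (κ i) (g i)) (p : ℕ) [Fact p.Prime] (hp : vC (p : C) < 1)
    (hsum : gen C K ≤ ∑ i, g i) {l : ℕ} (hl : l.Prime) (hvl : vC (l : C) = 1) {f : K}
    (hf : f ≠ 0) (hdiv : ∀ P : Pl C K, (l : ℤ) ∣ divf (k := C) f P)
    (hpow : ∀ i, ∃ a : K, w i (f / a ^ l - 1) < 1) (hh : ∀ a : K, a ^ l ≠ f)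
    {L : Type u} [Field L] [Algebra C L] [Algebra K L] [IsScalarTower C K L]
    [Algebra (RatFunc C) L] [IsScalarTower C (RatFunc C) L] [IsScalarTower (RatFunc C) K L]
    {y : L} (hy : y ^ l = algebraMap K L f) (htop : K⟮y⟯ = ⊤) : False := by
  classical
  haveI : NeZero l := ⟨hl.ne_zero⟩
  haveI := finDim hl hy htop
  haveI : FiniteDimensional (RatFunc C) L := FiniteDimensional.trans (RatFunc C) K L
  haveI : CharZero K := charZero_of_injective_algebraMap (algebraMap C K).injective
  obtain ⟨ζ, hζ⟩ := HasEnoughRootsOfUnity.exists_primitiveRoot C l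
  have hζK := hζ.map_of_injective (algebraMap C K).injective
  have hvl' : ∀ i, w i (l : K) = 1 := fun i => by
    rw [← map_natCast (algebraMap C K), (h i).norm, hvl]
  choose a ha using hpow
  choose W hW1 hW2 using fun x : ι × Fin l =>
    split_exists (w x.1) hl (hvl' x.1) hζK hy htop hh (ha x.1) x.2.2
  have hWv : ∀ x f, W x (algebraMap K L f) = w x.1 f := fun x f => by rw [← hW1 x]; rfl
  choose ρ' h' _ using fun x : ι × Fin l => red_of_dense (h x.1) (hWv x)
    (split_val (w x.1) hl (hvl' x.1) hζK hy htop (ha x.1) (W x) (hW1 x))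
  have hinj : Function.Injective W := by
    rintro ⟨i, r⟩ ⟨j, s⟩ hij
    have h1 : i = j := hw (by rw [← hW1 (i, r), ← hW1 (j, s), hij])
    subst h1
    have h2 := hW2 (i, s)
    rw [← hij] at h2
    exact Prod.ext rfl (Fin.ext (split_idx_unique (w i) hl (hvl' i) hζK (W (i, r)) (hW1 (i, r))
      r.2 s.2 (hW2 (i, r)) h2))
  have h1 := mg (κ := fun x : ι × Fin l => κ x.1) h' hinj (g := fun x => g x.1)
    (fun x => hg x.1) p hp
  rw [Fintype.sum_prod_type] at h1
  simp only [Finset.sum_const, Finset.card_univ, Fintype.card_fin, smul_eq_mul] at h1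
  rw [← Finset.mul_sum] at h1
  have h2 := hurwitz_unramified (k := C) (K := K) (L := L) hc_of_isAlgClosed hc_of_isAlgClosed
    (eR_kummer hl hf hdiv hy htop)
  rw [finrank_L hl hy htop hh] at h2
  have h3 : l * gen C K ≤ gen C L := (Nat.mul_le_mul_left l hsum).trans h1
  have h4 : (l : ℤ) * gen C K ≤ gen C L := by exact_mod_cast h3
  have h5 : (2 : ℤ) ≤ l := by exact_mod_cast hl.two_le
  nlinarith

theorem inj_prime (h : ∀ i, Red vC ρC (w i) (ρ i)) (hw : Function.Injective w) {g : ι → ℕ}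
    (hg : ∀ i, HasGen k (κ i) (g i)) (p : ℕ) [Fact p.Prime] (hp : vC (p : C) < 1)
    (hsum : gen C K ≤ ∑ i, g i) {l : ℕ} (hl : l.Prime) (hvl : vC (l : C) = 1) {f : K}
    (hf : f ≠ 0) (hdiv : ∀ P : Pl C K, (l : ℤ) ∣ divf (k := C) f P)
    (hpow : ∀ i, ∃ a : K, w i (f / a ^ l - 1) < 1) : ∃ a : K, a ^ l = f := by
  by_contra hh
  push Not at hh
  haveI : Fact (Irreducible (X ^ l - Polynomial.C f : K[X])) :=
    ⟨X_pow_sub_C_irreducible_of_prime hl hh⟩
  refine inj_aux h hw hg p hp hsum hl hvl hf hdiv hpow hh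
    (L := AdjoinRoot (X ^ l - Polynomial.C f : K[X])) (y := AdjoinRoot.root _) ?_
    (IntermediateField.adjoin_root_eq_top _)
  exact root_X_pow_sub_C_pow l f

/-- **(INJ)** -/
theorem inj_pow (h : ∀ i, Red vC ρC (w i) (ρ i)) (hw : Function.Injective w) {g : ι → ℕ}
    (hg : ∀ i, HasGen k (κ i) (g i)) (p : ℕ) [Fact p.Prime] (hp : vC (p : C) < 1)
    (hsum : gen C K ≤ ∑ i, g i) {n : ℕ} (hn : vC (n : C) = 1) {f : K}
    (hf : f ≠ 0) (hdiv : ∀ P : Pl C K, (n : ℤ) ∣ divf (k := C) f P)
    (hpow : ∀ i, ∃ a : K, w i (f / a ^ n - 1) < 1) : ∃ a : K, a ^ n = f := by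
  have hle : ∀ m : ℕ, vC (m : C) ≤ 1 := by
    intro m
    induction m with
    | zero => simp
    | succ m ih =>
      rw [Nat.cast_succ]
      exact (Valuation.map_add _ _ _).trans (max_le ih (by simp))
  induction n using induction_on_primes generalizing f with
  | zero => simp at hn
  | one => exact ⟨f, pow_one f⟩
  | prime_mul l m hl ih =>
    haveI : NeZero l := ⟨hl.ne_zero⟩
    rw [Nat.cast_mul, map_mul] at hn
    have hvl : vC (l : C) = 1 := le_antisymm (hle l) (by
      rw [← hn]; exact mul_le_of_le_one_right' (hle m))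
    have hvm : vC (m : C) = 1 := by rwa [hvl, one_mul] at hn
    obtain ⟨a, ha⟩ := inj_prime h hw hg p hp hsum hl hvl hf
      (fun P => dvd_trans (by push_cast; exact dvd_mul_right _ _) (hdiv P))
      (fun i => by
        obtain ⟨a, ha⟩ := hpow i
        exact ⟨a ^ m, by rw [← pow_mul, mul_comm]; exact ha⟩)
    have ha0 : a ≠ 0 := by
      rintro rfl
      rw [zero_pow hl.ne_zero] at ha
      exact hf ha.symm
    have hm0 : m ≠ 0 := by rintro rfl; simp at hvm
    obtain ⟨ζ, hζ⟩ := HasEnoughRootsOfUnity.exists_primitiveRoot C l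
    have hζK := hζ.map_of_injective (algebraMap C K).injective
    obtain ⟨b, hb⟩ := ih hvm ha0 (fun P => by
      have h1 := hdiv P
      have h2 := v_eq (k := C) hf P
      rw [← ha, map_pow, v_eq (k := C) ha0, ← exp_nsmul, exp_inj, nsmul_eq_mul] at h2
      rw [← ha] at h1
      have h3 : divf (k := C) (a ^ l) P = l * divf (k := C) a P := by linarith
      rw [h3, Nat.cast_mul] at h1
      exact Int.dvd_of_mul_dvd_mul_left (Nat.cast_ne_zero.mpr hl.ne_zero) h1) (fun i => by
      obtain ⟨c, hc⟩ := hpow i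
      have hvl' : w i (l : K) = 1 := by rw [← map_natCast (algebraMap C K), (h i).norm, hvl]
      obtain ⟨j, -, hj⟩ := split_idx (L := K) (y := a) (h := f) (g := c ^ m) (w i) hl hvl' hζK
        ha (by rw [← pow_mul, mul_comm]; exact hc) (w i) rfl
      obtain ⟨d, hd⟩ := IsAlgClosed.exists_pow_nat_eq (ζ ^ j) (Nat.pos_of_ne_zero hm0)
      refine ⟨c * algebraMap C K d, ?_⟩
      have h1 : w i (algebraMap C K ζ ^ j) = 1 := by
        rw [map_pow, val_root (w i) hl.ne_zero hζK.pow_eq_one, one_pow]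
      have h2 : algebraMap C K ζ ^ j ≠ 0 := by
        intro h0; rw [h0] at h1; simp at h1
      have e : a / (c * algebraMap C K d) ^ m - 1 =
          (a / c ^ m - algebraMap C K ζ ^ j) / algebraMap C K ζ ^ j := by
        rw [mul_pow, ← map_pow, hd, map_pow, sub_div, div_self h2, div_div]
      rw [e, map_div₀, h1, div_one]
      exact hj)
    exact ⟨b, by rw [mul_comm, pow_mul, hb, ha]⟩

/-- **(NOS)** a semilinear automorphism which is trivial on the residue fields of a family of norms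
of full genus acts trivially on the torsion of order prime to the residue characteristic -/
theorem nos (h : ∀ i, Red vC ρC (w i) (ρ i)) (hw : Function.Injective w) {g : ι → ℕ}
    (hg : ∀ i, HasGen k (κ i) (g i)) (p : ℕ) [Fact p.Prime] (hp : vC (p : C) < 1)
    (hsum : gen C K ≤ ∑ i, g i) (e : SI C K C K)
    (he : ∀ i x, w i x = 1 → w i (e.f x - x) < 1) {n : ℕ} (hn : vC (n : C) = 1) {x : Pic C K}
    (hx : n • x = 0) : e.pic x = x := by
  obtain ⟨D, rfl⟩ := cls_surjective x
  rw [← map_nsmul, cls_eq_zero_iff] at hx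
  obtain ⟨f, hf, hD⟩ := hx
  have hn0 : n ≠ 0 := by rintro rfl; simp at hn
  have hef : e.f f ≠ 0 := by simpa using hf
  have hF : divf (k := C) (e.f f / f) = n • (e.D D - D) := by
    rw [div_eq_mul_inv, divf_mul hef (inv_ne_zero hf), divf_inv hf, e.divf_f hf, hD, map_nsmul,
      smul_sub, sub_eq_add_neg]
  obtain ⟨a, ha⟩ := inj_pow h hw hg p hp hsum hn (div_ne_zero hef hf) (fun P => by
    rw [hF, Finsupp.smul_apply, nsmul_eq_mul]; exact dvd_mul_right _ _) (fun i => by
    obtain ⟨c, hc0, -, hc⟩ := (h i).normalise hf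
    obtain ⟨d, hd⟩ := IsAlgClosed.exists_pow_nat_eq (e.s c / c) (Nat.pos_of_ne_zero hn0)
    refine ⟨algebraMap C K d, ?_⟩
    have h1 := he i _ hc
    have h2 : algebraMap C K c ≠ 0 := (_root_.map_ne_zero _).2 hc0
    have h3 : algebraMap C K (e.s c) ≠ 0 := (_root_.map_ne_zero _).2 (by simpa using hc0)
    have e2 : e.f f / f / algebraMap C K d ^ n - 1 =
        (e.f (f * algebraMap C K c⁻¹) - f * algebraMap C K c⁻¹) / (f * algebraMap C K c⁻¹) := by
      rw [← map_pow, hd, map_mul, e.comm, map_inv₀, map_inv₀, map_inv₀, map_div₀]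
      field_simp
    rw [e2, map_div₀, hc, div_one]
    exact h1)
  have ha0 : a ≠ 0 := by
    rintro rfl
    rw [zero_pow hn0] at ha
    exact div_ne_zero hef hf ha.symm
  rw [SI.pic_cls, cls_eq_iff]
  refine ⟨a, ha0, ?_⟩
  ext P
  have h1 := v_eq (k := C) (div_ne_zero hef hf) P
  rw [hF, ← ha, map_pow, v_eq (k := C) ha0, ← exp_nsmul, exp_inj, nsmul_eq_mul,
    Finsupp.smul_apply, nsmul_eq_mul, Finsupp.sub_apply, mul_neg, neg_inj] at h1
  have h2 := mul_left_cancel₀ (Nat.cast_ne_zero.mpr hn0 : (n : ℤ) ≠ 0) h1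
  rw [Finsupp.add_apply, h2]; ring

end prime

end Crest.Agent.T15.Ct
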