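import Mathlib
import Crest.Agent.T15.Hy_90
import Crest.Agent.R013.PL1_109

/-!
# Row 15, block F (helper2): Gauss norms on hyperelliptic function fields, part A

`Rd vC ρC p q` : the polynomial `p` is integral and reduces to `q`; `gn` the Gauss norm;
`Nm` : normalised chart `W ^ 2 = F₁(Z)`, `F₁ ≡ G ^ 2 H`; `Nm.val` the norm on `K`, `kap` its residue
field, `Nm.red : Red ..`, `Nm.hyp : Hyp H Z̄ (W̄ / G(Z̄))`.
-/

set_option autoImplicit false
set_option linter.all false

namespace Crest.Agent.T15.Nf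

open Polynomial
open scoped NNReal
open Crest.Agent.R013.GR4_921 Crest.Agent.R013.PL_109 Crest.Agent.R013.Frob1_914
open Crest.Agent.T15.Hy

section rd

variable {C k : Type*} [Field C] [Field k] (vC : Valuation C ℝ≥0) (ρC : C → k)

/-- `p` has integral coefficients and reduces to `q` -/
def Rd (p : C[X]) (q : k[X]) : Prop := ∀ n, vC (p.coeff n) ≤ 1 ∧ ρC (p.coeff n) = q.coeff n

/-- the Gauss norm -/
noncomputable def gn (p : C[X]) : ℝ≥0 := gf vC 1 p

variable {vC ρC}

theorem gn_mul (p q : C[X]) : gn vC (p * q) = gn vC p * gn vC q := gf_mul vC one_ne_zero p q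

theorem gn_add (p q : C[X]) : gn vC (p + q) ≤ max (gn vC p) (gn vC q) := gf_add vC 1 p q

theorem gn_C (c : C) : gn vC (Polynomial.C c) = vC c := gf_C vC 1 c

theorem gn_zero : gn vC (0 : C[X]) = 0 := gf_zero vC 1

theorem gn_one : gn vC (1 : C[X]) = 1 := by rw [← Polynomial.C_1, gn_C, map_one]

theorem gn_ne_zero {p : C[X]} (hp : p ≠ 0) : gn vC p ≠ 0 := gf_ne_zero vC one_ne_zero hp

theorem gn_eq_zero {p : C[X]} (hp : gn vC p = 0) : p = 0 := by
  by_contra h; exact gn_ne_zero h hp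

theorem le_gn (p : C[X]) (n : ℕ) : vC (p.coeff n) ≤ gn vC p := by
  simpa [gn] using le_gf vC 1 p n

theorem gn_le {p : C[X]} {B : ℝ≥0} (h : ∀ n, vC (p.coeff n) ≤ B) : gn vC p ≤ B :=
  gf_le vC fun n => by simpa using h n

theorem gn_lt {p : C[X]} {B : ℝ≥0} (hB : 0 < B) (h : ∀ n, vC (p.coeff n) < B) : gn vC p < B :=
  gf_lt vC hB fun n => by simpa using h n

theorem gn_neg (p : C[X]) : gn vC (-p) = gn vC p := by
  have : -p = Polynomial.C (-1) * p := by simp
  rw [this, gn_mul, gn_C, Valuation.map_neg, map_one, one_mul]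

theorem gn_X_add (b : C) : gn vC (X + Polynomial.C b) = max 1 (vC b) := gf_X_sub vC 1 b

theorem exists_gn (p : C[X]) : ∃ c : C, gn vC p = vC c := by
  by_cases hp : p = 0
  · exact ⟨0, by rw [hp, gn_zero, map_zero]⟩
  · obtain ⟨j, -, h⟩ := exists_gf_eq vC 1 hp
    exact ⟨p.coeff j, by simpa [gn] using h⟩

theorem exists_max (p q : C[X]) : ∃ c : C, max (gn vC p) (gn vC q) = vC c := by
  rcases le_total (gn vC p) (gn vC q) with h | h
  · rw [max_eq_right h]; exact exists_gn q
  · rw [max_eq_left h]; exact exists_gn p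

namespace Rd

theorem gn_le {p : C[X]} {q : k[X]} (h : Rd vC ρC p q) : gn vC p ≤ 1 :=
  Nf.gn_le fun n => (h n).1

theorem unique {p : C[X]} {q q' : k[X]} (h : Rd vC ρC p q) (h' : Rd vC ρC p q') : q = q' := by
  ext n; rw [← (h n).2, (h' n).2]

theorem congr {p p' : C[X]} {q q' : k[X]} (h : Rd vC ρC p q) (hp : p = p') (hq : q = q') :
    Rd vC ρC p' q' := hp ▸ hq ▸ h

variable (hr : IsRes vC ρC)
include hr

theorem lt_iff {p : C[X]} {q : k[X]} (h : Rd vC ρC p q) : gn vC p < 1 ↔ q = 0 := by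
  constructor
  · intro h1
    ext n
    rw [← (h n).2, coeff_zero, hr.zero_iff _ (h n).1]
    exact (le_gn p n).trans_lt h1
  · rintro rfl
    exact gn_lt one_pos fun n => (hr.zero_iff _ (h n).1).mp (by simpa using (h n).2)

theorem eq_one {p : C[X]} {q : k[X]} (h : Rd vC ρC p q) (hq : q ≠ 0) : gn vC p = 1 :=
  le_antisymm h.gn_le (not_lt.mp fun h1 => hq ((h.lt_iff hr).mp h1))

theorem of_lt {p : C[X]} (h : gn vC p < 1) : Rd vC ρC p 0 := fun n =>
  have h1 := (le_gn p n).trans_lt h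
  ⟨h1.le, by rw [coeff_zero, hr.zero_iff _ h1.le]; exact h1⟩

theorem zero : Rd vC ρC 0 0 := fun n => by simp [hr.zero]

theorem add {p p' : C[X]} {q q' : k[X]} (h : Rd vC ρC p q) (h' : Rd vC ρC p' q') :
    Rd vC ρC (p + p') (q + q') := fun n => by
  rw [coeff_add, coeff_add]
  exact ⟨(vC.map_add _ _).trans (max_le (h n).1 (h' n).1),
    by rw [hr.add _ _ (h n).1 (h' n).1, (h n).2, (h' n).2]⟩

theorem neg {p : C[X]} {q : k[X]} (h : Rd vC ρC p q) : Rd vC ρC (-p) (-q) := fun n => by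
  rw [coeff_neg, coeff_neg]
  exact ⟨by rw [Valuation.map_neg]; exact (h n).1, by rw [hr.neg (h n).1, (h n).2]⟩

theorem sub {p p' : C[X]} {q q' : k[X]} (h : Rd vC ρC p q) (h' : Rd vC ρC p' q') :
    Rd vC ρC (p - p') (q - q') := by
  rw [sub_eq_add_neg, sub_eq_add_neg]; exact h.add hr (h'.neg hr)

theorem mul {p p' : C[X]} {q q' : k[X]} (h : Rd vC ρC p q) (h' : Rd vC ρC p' q') :
    Rd vC ρC (p * p') (q * q') := fun n => by
  have h1 : ∀ x ∈ Finset.HasAntidiagonal.antidiagonal n, vC (p.coeff x.1 * p'.coeff x.2) ≤ 1 :=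
    fun x _ => by rw [map_mul]; exact mul_le_one' (h _).1 (h' _).1
  rw [coeff_mul, coeff_mul]
  refine ⟨vC.map_sum_le h1, ?_⟩
  rw [hr.sum _ _ h1]
  exact Finset.sum_congr rfl fun x _ => by rw [hr.mul _ _ (h _).1 (h' _).1, (h _).2, (h' _).2]

theorem monomial (n : ℕ) {c : C} (hc : vC c ≤ 1) :
    Rd vC ρC (Polynomial.monomial n c) (Polynomial.monomial n (ρC c)) := fun m => by
  rw [coeff_monomial, coeff_monomial]
  split_ifs
  · exact ⟨hc, rfl⟩
  · simp [hr.zero]

theorem cst {c : C} (hc : vC c ≤ 1) : Rd vC ρC (Polynomial.C c) (Polynomial.C (ρC c)) :=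
  monomial hr 0 hc

theorem cst' {c : C} {d : k} (hc : vC c ≤ 1) (hd : ρC c = d) :
    Rd vC ρC (Polynomial.C c) (Polynomial.C d) := hd ▸ cst hr hc

theorem cst_lt {c : C} (hc : vC c < 1) : Rd vC ρC (Polynomial.C c) 0 :=
  of_lt hr (by rwa [gn_C])

theorem one : Rd vC ρC 1 1 := by
  have := cst hr (c := 1) (by simp)
  rwa [hr.one, Polynomial.C_1, Polynomial.C_1] at this

theorem cst_one {c : C} (hc : vC (c - 1) < 1) : Rd vC ρC (Polynomial.C c) 1 := by
  have := (cst_lt hr hc).add hr (one hr)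
  simpa using this

theorem X : Rd vC ρC Polynomial.X Polynomial.X := by
  have := monomial hr 1 (c := 1) (by simp)
  rwa [hr.one] at this

theorem pow {p : C[X]} {q : k[X]} (h : Rd vC ρC p q) (n : ℕ) : Rd vC ρC (p ^ n) (q ^ n) := by
  induction n with
  | zero => simpa using one hr
  | succ n ih => rw [pow_succ, pow_succ]; exact ih.mul hr h

theorem sum {ι : Type*} (s : Finset ι) {p : ι → C[X]} {q : ι → k[X]}
    (h : ∀ i ∈ s, Rd vC ρC (p i) (q i)) : Rd vC ρC (∑ i ∈ s, p i) (∑ i ∈ s, q i) := by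
  classical
  induction s using Finset.induction_on with
  | empty => simpa using zero hr
  | insert a s ha ih =>
    rw [Finset.sum_insert ha, Finset.sum_insert ha]
    exact (h a (Finset.mem_insert_self a s)).add hr
      (ih fun i hi => h i (Finset.mem_insert_of_mem hi))

theorem prod {ι : Type*} (s : Finset ι) {p : ι → C[X]} {q : ι → k[X]}
    (h : ∀ i ∈ s, Rd vC ρC (p i) (q i)) : Rd vC ρC (∏ i ∈ s, p i) (∏ i ∈ s, q i) := by
  classical
  induction s using Finset.induction_on with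
  | empty => simpa using one hr
  | insert a s ha ih =>
    rw [Finset.prod_insert ha, Finset.prod_insert ha]
    exact (h a (Finset.mem_insert_self a s)).mul hr
      (ih fun i hi => h i (Finset.mem_insert_of_mem hi))

theorem natCast (n : ℕ) : Rd vC ρC (n : C[X]) (n : k[X]) := by
  induction n with
  | zero => simpa using zero hr
  | succ n ih => push_cast; exact ih.add hr (one hr)

end Rd

theorem exists_rd (hr : IsRes vC ρC) {p : C[X]} (hp : gn vC p ≤ 1) : ∃ q, Rd vC ρC p q := by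
  refine ⟨∑ n ∈ p.support, monomial n (ρC (p.coeff n)), ?_⟩
  have := Rd.sum hr p.support (p := fun n => monomial n (p.coeff n))
    (q := fun n => monomial n (ρC (p.coeff n))) fun n _ => Rd.monomial hr n ((le_gn p n).trans hp)
  exact this.congr (as_sum_support p).symm rfl

theorem exists_lift (hr : IsRes vC ρC) (q : k[X]) : ∃ p, Rd vC ρC p q := by
  induction q using Polynomial.induction_on' with
  | add q q' hq hq' =>
    obtain ⟨p, h⟩ := hq
    obtain ⟨p', h'⟩ := hq'
    exact ⟨p + p', h.add hr h'⟩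
  | monomial n c =>
    obtain ⟨a, ha, rfl⟩ := hr.surj c
    exact ⟨_, Rd.monomial hr n ha⟩

theorem sq_indep {H A B : k[X]} (hs : H.Separable) (hp : 0 < H.natDegree)
    (h1 : A ^ 2 - B ^ 2 * H = 0) : A = 0 ∧ B = 0 := by
  by_cases hB : B = 0
  · subst hB
    exact ⟨by simpa using h1, rfl⟩
  · exfalso
    have h2 : B ^ 2 ∣ A ^ 2 := ⟨H, by linear_combination h1⟩
    obtain ⟨D, rfl⟩ := (IsIntegrallyClosed.pow_dvd_pow_iff two_ne_zero).mp h2
    have h3 : H = D * D := by
      apply mul_left_cancel₀ (pow_ne_zero 2 hB)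
      linear_combination -h1
    have h4 : IsUnit D := hs.squarefree D (by rw [h3])
    rw [h3, natDegree_eq_zero_of_isUnit (h4.mul h4)] at hp
    exact lt_irrefl _ hp

end rd

section res

variable {C L k κ : Type*} [Field C] [Field L] [Algebra C L] [Field k] [Field κ]
  {vC : Valuation C ℝ≥0} {ρC : C → k} {w : Valuation L ℝ≥0} {ρ : L → κ}

/-- the embedding of residue fields -/
noncomputable def resHom (hC : IsRes vC ρC) (h : IsRes w ρ)
    (hn : ∀ c, w (algebraMap C L c) = vC c) : k →+* κ :=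
  have key : ∀ c, vC c ≤ 1 → ρ (algebraMap C L (hC.surj (ρC c)).choose) = ρ (algebraMap C L c) := by
    intro c hc
    obtain ⟨h1, h2⟩ := (hC.surj (ρC c)).choose_spec
    rw [h.eq_iff (by rwa [hn]) (by rwa [hn]), ← map_sub, hn, ← hC.eq_iff h1 hc]
    exact h2
  { toFun := fun y => ρ (algebraMap C L (hC.surj y).choose)
    map_one' := by rw [← hC.one, key 1 (by simp), map_one, h.one]
    map_zero' := by rw [← hC.zero, key 0 (by simp), map_zero, h.zero]
    map_mul' := fun x y => by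
      obtain ⟨a, ha, rfl⟩ := hC.surj x
      obtain ⟨b, hb, rfl⟩ := hC.surj y
      rw [← hC.mul a b ha hb, key a ha, key b hb,
        key _ (by rw [map_mul]; exact mul_le_one' ha hb), map_mul,
        h.mul _ _ (by rwa [hn]) (by rwa [hn])]
    map_add' := fun x y => by
      obtain ⟨a, ha, rfl⟩ := hC.surj x
      obtain ⟨b, hb, rfl⟩ := hC.surj y
      rw [← hC.add a b ha hb, key a ha, key b hb,
        key _ ((vC.map_add _ _).trans (max_le ha hb)), map_add,
        h.add _ _ (by rwa [hn]) (by rwa [hn])] }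

theorem resHom_apply (hC : IsRes vC ρC) (h : IsRes w ρ)
    (hn : ∀ c, w (algebraMap C L c) = vC c) {c : C} (hc : vC c ≤ 1) :
    resHom hC h hn (ρC c) = ρ (algebraMap C L c) := by
  obtain ⟨h1, h2⟩ := (hC.surj (ρC c)).choose_spec
  show ρ (algebraMap C L (hC.surj (ρC c)).choose) = _
  rw [h.eq_iff (by rwa [hn]) (by rwa [hn]), ← map_sub, hn, ← hC.eq_iff h1 hc]
  exact h2

theorem w_aeval_le (hn : ∀ c, w (algebraMap C L c) = vC c) (p : C[X]) {t : L} (ht : w t ≤ 1) :
    w (aeval t p) ≤ gn vC p := by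
  rw [aeval_eq_sum_range]
  refine Valuation.map_sum_le _ fun i _ => ?_
  rw [Algebra.smul_def, map_mul, map_pow, hn]
  exact (mul_le_mul' (le_gn p i) (pow_le_one' ht i)).trans (by rw [mul_one])

variable [Algebra k κ]

theorem res_aeval (h : Red vC ρC w ρ) {p : C[X]} {q : k[X]} (hp : Rd vC ρC p q) {t : L}
    (ht : w t ≤ 1) : ρ (aeval t p) = aeval (ρ t) q := by
  have hq : q.natDegree < p.natDegree + 1 := by
    rw [Nat.lt_succ_iff, natDegree_le_iff_coeff_eq_zero]
    intro N hN
    rw [← (hp N).2, coeff_eq_zero_of_natDegree_lt hN, h.resC.zero]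
  rw [aeval_eq_sum_range, aeval_eq_sum_range' hq, h.res.sum _ _ fun i _ => by
    rw [Algebra.smul_def, map_mul, map_pow, h.norm]
    exact mul_le_one' (hp i).1 (pow_le_one' ht i)]
  refine Finset.sum_congr rfl fun i _ => ?_
  rw [Algebra.smul_def, Algebra.smul_def, h.res.mul _ _ (by rw [h.norm]; exact (hp i).1)
    (by rw [map_pow]; exact pow_le_one' ht i), h.comp _ (hp i).1, h.res.pow ht, (hp i).2]

end res

/-- the residue field -/
abbrev kap {K : Type*} [Field K] (W : Valuation K ℝ≥0) :=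
  IsLocalRing.ResidueField W.valuationSubring

/-- the residue map -/
noncomputable def rs {K : Type*} [Field K] (W : Valuation K ℝ≥0) : K → kap W :=
  (exists_isRes W).choose

theorem isRes_rs {K : Type*} [Field K] (W : Valuation K ℝ≥0) : IsRes W (rs W) :=
  (exists_isRes W).choose_spec.1

variable {C k K : Type*} [Field C] [Field k] [Field K] [Algebra C K]

/-- normalised chart -/
structure Nm (vC : Valuation C ℝ≥0) (ρC : C → k) (F : C[X]) (G H : k[X]) (Z W : K) : Prop where
  res : IsRes vC ρC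
  two : (2 : k) ≠ 0
  tr : ∀ p : C[X], aeval Z p = 0 → p = 0
  sq : W ^ 2 = aeval Z F
  gen : ∀ f : K, ∃ A B c : C[X], c ≠ 0 ∧ f * aeval Z c = el Z W A B
  rd : Rd vC ρC F (G ^ 2 * H)
  G0 : G ≠ 0
  sep : H.Separable
  pos : 0 < H.natDegree

namespace Nm

variable {vC : Valuation C ℝ≥0} {ρC : C → k} {F : C[X]} {G H : k[X]} {Z W : K}
  (h : Nm vC ρC F G H Z W)
include h

theorem gn_norm (A B : C[X]) : gn vC (A ^ 2 - B ^ 2 * F) = max (gn vC A) (gn vC B) ^ 2 := by
  obtain ⟨μ, hμ⟩ := exists_max (vC := vC) A B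
  by_cases h0 : μ = 0
  · rw [h0, map_zero] at hμ
    have hA : A = 0 := gn_eq_zero (le_antisymm (hμ ▸ le_max_left _ _) zero_le)
    have hB : B = 0 := gn_eq_zero (le_antisymm (hμ ▸ le_max_right _ _) zero_le)
    subst hA hB
    simp [gn_zero]
  · have hv : vC μ ≠ 0 := by simpa using h0
    have hA : gn vC (Polynomial.C μ⁻¹ * A) = gn vC A / vC μ := by
      rw [gn_mul, gn_C, map_inv₀, div_eq_inv_mul]
    have hB : gn vC (Polynomial.C μ⁻¹ * B) = gn vC B / vC μ := by
      rw [gn_mul, gn_C, map_inv₀, div_eq_inv_mul]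
    have hp : 0 < vC μ := pos_iff_ne_zero.mpr hv
    obtain ⟨a, ha⟩ := exists_rd h.res (p := Polynomial.C μ⁻¹ * A)
      (by rw [hA, div_le_one hp, ← hμ]; exact le_max_left _ _)
    obtain ⟨b, hb⟩ := exists_rd h.res (p := Polynomial.C μ⁻¹ * B)
      (by rw [hB, div_le_one hp, ← hμ]; exact le_max_right _ _)
    have h1 := (ha.pow h.res 2).sub h.res ((hb.pow h.res 2).mul h.res h.rd)
    have h2 := h1.eq_one h.res (by
      intro h3
      obtain ⟨h4, h5⟩ := sq_indep h.sep h.pos (A := a) (B := b * G) (by linear_combination h3)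
      have h6 : b = 0 := (mul_eq_zero.mp h5).resolve_right h.G0
      have h7 := (ha.lt_iff h.res).mpr h4
      have h8 := (hb.lt_iff h.res).mpr h6
      rw [hA, div_lt_one hp] at h7
      rw [hB, div_lt_one hp] at h8
      exact absurd hμ (max_lt h7 h8).ne)
    have h3 : A ^ 2 - B ^ 2 * F = Polynomial.C (μ ^ 2) *
        ((Polynomial.C μ⁻¹ * A) ^ 2 - (Polynomial.C μ⁻¹ * B) ^ 2 * F) := by
      have : Polynomial.C μ * Polynomial.C μ⁻¹ = 1 := by
        rw [← map_mul, mul_inv_cancel₀ h0, map_one]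
      rw [map_pow]
      linear_combination (-(A ^ 2 - B ^ 2 * F) * (Polynomial.C μ * Polynomial.C μ⁻¹ + 1)) * this
    rw [h3, gn_mul, h2, gn_C, map_pow, hμ, mul_one]

theorem aeval_ne {p : C[X]} (hp : p ≠ 0) : aeval Z p ≠ 0 := fun h0 => hp (h.tr p h0)

theorem indep {A B : C[X]} (h0 : el Z W A B = 0) : A = 0 ∧ B = 0 := by
  have h1 : A ^ 2 - B ^ 2 * F = 0 := by
    apply h.tr
    rw [← el_norm h.sq, h0, zero_mul]
  have h2 := h.gn_norm A B
  rw [h1, gn_zero] at h2
  have h3 := pow_eq_zero_iff two_ne_zero |>.mp h2.symm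
  exact ⟨gn_eq_zero (le_antisymm (h3 ▸ le_max_left _ _) zero_le),
    gn_eq_zero (le_antisymm (h3 ▸ le_max_right _ _) zero_le)⟩

theorem el_inj {A B A' B' : C[X]} (h0 : el Z W A B = el Z W A' B') : A = A' ∧ B = B' := by
  have := h.indep (A := A - A') (B := B - B') (by rw [← el_sub, h0, sub_self])
  exact ⟨sub_eq_zero.mp this.1, sub_eq_zero.mp this.2⟩

/-- the norm as a function -/
noncomputable def vf (f : K) : ℝ≥0 :=
  max (gn vC (h.gen f).choose) (gn vC (h.gen f).choose_spec.choose) /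
    gn vC (h.gen f).choose_spec.choose_spec.choose

theorem vf_spec {f : K} {A B c : C[X]} (hf : f * aeval Z c = el Z W A B) :
    h.vf f * gn vC c = max (gn vC A) (gn vC B) := by
  obtain ⟨hc, hs⟩ := (h.gen f).choose_spec.choose_spec.choose_spec
  unfold vf
  set A' := (h.gen f).choose
  set B' := (h.gen f).choose_spec.choose
  set c' := (h.gen f).choose_spec.choose_spec.choose
  have h1 : el Z W (A * c') (B * c') = el Z W (A' * c) (B' * c) := by
    rw [← el_mul_aeval, ← el_mul_aeval, ← hf, ← hs]; ring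
  obtain ⟨h2, h3⟩ := h.el_inj h1
  rw [div_mul_eq_mul_div, div_eq_iff (gn_ne_zero hc), max_mul_of_nonneg _ _ zero_le,
    max_mul_of_nonneg _ _ zero_le, ← gn_mul, ← gn_mul, ← gn_mul, ← gn_mul, h2, h3]

theorem vf_el (A B : C[X]) : h.vf (el Z W A B) = max (gn vC A) (gn vC B) := by
  have := h.vf_spec (f := el Z W A B) (c := 1) (A := A) (B := B) (by simp)
  rwa [gn_one, mul_one] at this

/-- the norm of the chart -/
noncomputable def val : Valuation K ℝ≥0 where
  toFun := h.vf
  map_zero' := by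
    have := h.vf_el 0 0
    simpa [el, gn_zero] using this
  map_one' := by
    have := h.vf_el 1 0
    simpa [el, gn_zero, gn_one] using this
  map_mul' := fun f g => by
    obtain ⟨A, B, c, hc, hf⟩ := h.gen f
    obtain ⟨A', B', c', hc', hg⟩ := h.gen g
    have h1 : (f * g) * aeval Z (c * c') = el Z W (A * A' + B * B' * F) (A * B' + B * A') := by
      rw [← el_mul h.sq, ← hf, ← hg, map_mul]; ring
    apply mul_right_cancel₀ (gn_ne_zero (vC := vC) (mul_ne_zero hc hc'))
    have h2 : h.vf f * h.vf g * gn vC (c * c') = (h.vf f * gn vC c) * (h.vf g * gn vC c') := by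
      rw [gn_mul]; ring
    rw [h.vf_spec h1, h2, h.vf_spec hf, h.vf_spec hg]
    apply (pow_left_inj₀ zero_le zero_le two_ne_zero).mp
    rw [mul_pow, ← h.gn_norm, ← h.gn_norm, ← h.gn_norm, ← gn_mul]
    congr 1
    ring
  map_add_le_max' := fun f g => by
    obtain ⟨A, B, c, hc, hf⟩ := h.gen f
    obtain ⟨A', B', c', hc', hg⟩ := h.gen g
    have h1 : (f + g) * aeval Z (c * c') = el Z W (A * c' + A' * c) (B * c' + B' * c) := by
      rw [← el_add, ← el_mul_aeval, ← el_mul_aeval, ← hf, ← hg, map_mul]; ring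
    have h2 : f * aeval Z (c * c') = el Z W (A * c') (B * c') := by
      rw [← el_mul_aeval, ← hf, map_mul]; ring
    have h3 : g * aeval Z (c * c') = el Z W (A' * c) (B' * c) := by
      rw [← el_mul_aeval, ← hg, map_mul]; ring
    have hp : 0 < gn vC (c * c') := pos_iff_ne_zero.mpr (gn_ne_zero (mul_ne_zero hc hc'))
    apply le_of_mul_le_mul_right _ hp
    rw [max_mul_of_nonneg _ _ zero_le, h.vf_spec h1, h.vf_spec h2, h.vf_spec h3]
    apply max_le
    · exact (gn_add _ _).trans (max_le_max (le_max_left _ _) (le_max_left _ _))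
    · exact (gn_add _ _).trans (max_le_max (le_max_right _ _) (le_max_right _ _))

theorem val_spec {f : K} {A B c : C[X]} (hf : f * aeval Z c = el Z W A B) :
    h.val f * gn vC c = max (gn vC A) (gn vC B) := h.vf_spec hf

theorem val_el (A B : C[X]) : h.val (el Z W A B) = max (gn vC A) (gn vC B) := h.vf_el A B

theorem val_aeval (p : C[X]) : h.val (aeval Z p) = gn vC p := by
  rw [← el_zero Z W, h.val_el, gn_zero, max_eq_left zero_le]

theorem val_const (c : C) : h.val (algebraMap C K c) = vC c := by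
  rw [← aeval_C Z, h.val_aeval, gn_C]

theorem val_Z : h.val Z = 1 := by
  have := h.val_aeval (X + Polynomial.C 0)
  rw [gn_X_add] at this
  simpa using this

theorem val_W : h.val W = 1 := by
  have := h.val_el 0 1
  simpa [el, gn_zero, gn_one] using this

/-- integral elements have an integral presentation with a unit denominator -/
theorem exists_int {f : K} (hf : h.val f ≤ 1) : ∃ A B c : C[X], gn vC c = 1 ∧ gn vC A ≤ 1 ∧
    gn vC B ≤ 1 ∧ f * aeval Z c = el Z W A B := by
  obtain ⟨A, B, c, hc, he⟩ := h.gen f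
  obtain ⟨μ, hμ⟩ := exists_gn (vC := vC) c
  have hv : vC μ ≠ 0 := hμ ▸ gn_ne_zero hc
  have he' : f * aeval Z (c * Polynomial.C μ⁻¹) =
      el Z W (A * Polynomial.C μ⁻¹) (B * Polynomial.C μ⁻¹) := by
    rw [← el_mul_aeval, ← he, map_mul, mul_assoc]
  have h1 : gn vC (c * Polynomial.C μ⁻¹) = 1 := by
    rw [gn_mul, gn_C, hμ, map_inv₀, mul_inv_cancel₀ hv]
  have h2 := h.val_spec he'
  rw [h1, mul_one] at h2
  rw [h2] at hf
  exact ⟨_, _, _, h1, (le_max_left _ _).trans hf, (le_max_right _ _).trans hf, he'⟩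

/-- the residue field as an algebra over `k` -/
@[reducible] noncomputable def alg : Algebra k (kap h.val) :=
  (resHom h.res (isRes_rs h.val) h.val_const).toAlgebra

theorem red : @Red C K k (kap h.val) _ _ _ _ _ h.alg vC ρC h.val (rs h.val) := by
  letI := h.alg
  refine ⟨h.res, isRes_rs _, h.val_const, fun c hc => (resHom_apply _ _ _ hc).symm, ?_⟩
  intro f _
  obtain ⟨A, B, c, hc, he⟩ := h.gen f
  obtain ⟨μ, hμ⟩ := exists_gn (vC := vC) c
  obtain ⟨ν, hν⟩ := exists_max (vC := vC) A B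
  have hv : vC μ ≠ 0 := hμ ▸ gn_ne_zero hc
  refine ⟨ν / μ, ?_⟩
  rw [map_div₀, eq_div_iff hv, ← hμ, h.val_spec he, hν]

theorem hyp : letI := h.alg
    Hyp H (rs h.val Z) (rs h.val W / aeval (rs h.val Z) G) := by
  letI := h.alg
  have hr := h.red
  have tr : ∀ q : k[X], aeval (rs h.val Z) q = 0 → q = 0 := by
    intro q hq
    obtain ⟨p, hp⟩ := exists_lift h.res q
    rw [← res_aeval hr hp h.val_Z.le, hr.res.zero_iff _ (by rw [h.val_aeval]; exact hp.gn_le),
      h.val_aeval] at hq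
    exact (hp.lt_iff h.res).mp hq
  have hG : aeval (rs h.val Z) G ≠ 0 := fun h0 => h.G0 (tr G h0)
  refine ⟨h.two, h.sep, h.pos, tr, ?_, ?_⟩
  · rw [div_pow, div_eq_iff (pow_ne_zero 2 hG), ← hr.res.pow h.val_W.le, h.sq,
      res_aeval hr h.rd h.val_Z.le, map_mul, map_pow, mul_comm]
  · intro y
    obtain ⟨f, hf, rfl⟩ := hr.res.surj y
    obtain ⟨A, B, c, hc, hA, hB, he⟩ := h.exists_int hf
    obtain ⟨a, ha⟩ := exists_rd h.res hA
    obtain ⟨b, hb⟩ := exists_rd h.res hB
    obtain ⟨d, hd⟩ := exists_rd h.res hc.le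
    refine ⟨a, b * G, d, fun h0 => ((hd.lt_iff h.res).mpr h0).ne hc, ?_⟩
    have h1 := congrArg (rs h.val) he
    have hA' : h.val (aeval Z A) ≤ 1 := by rwa [h.val_aeval]
    have hB' : h.val (aeval Z B) ≤ 1 := by rwa [h.val_aeval]
    unfold el at h1 ⊢
    rw [hr.res.mul _ _ hf (by rw [h.val_aeval]; exact hc.le),
      hr.res.add _ _ hA' (by rw [map_mul, h.val_W, mul_one]; exact hB'),
      hr.res.mul _ _ hB' h.val_W.le, res_aeval hr ha h.val_Z.le, res_aeval hr hb h.val_Z.le,
      res_aeval hr hd h.val_Z.le] at h1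
    rw [h1, map_mul]
    field_simp

omit h in
theorem _root_.Crest.Agent.T15.Nf.SI_aeval (e : SI C K C K) (t : K) (p : C[X]) :
    e.f (aeval t p) = aeval (e.f t) (p.map (e.s : C →+* C)) := by
  induction p using Polynomial.induction_on' with
  | add p q hp hq => rw [map_add, map_add, Polynomial.map_add, map_add, hp, hq]
  | monomial n c =>
    rw [Polynomial.map_monomial, aeval_monomial, aeval_monomial, map_mul, map_pow, e.comm]
    rfl

theorem triv_aeval (e : SI C K C K) (hs : ∀ c, vC c ≤ 1 → vC (e.s c - c) < 1)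
    (hZ : h.val (e.f Z - Z) < 1) {p : C[X]} (hp : gn vC p ≤ 1) :
    h.val (e.f (aeval Z p) - aeval Z p) < 1 := by
  letI := h.alg
  have hr := h.red
  have hZ1 : h.val (e.f Z) ≤ 1 := by
    have : e.f Z = (e.f Z - Z) + Z := by ring
    rw [this]; exact (Valuation.map_add _ _ _).trans (max_le hZ.le h.val_Z.le)
  obtain ⟨q, hq⟩ := exists_rd h.res hp
  have hq' : Rd vC ρC (p.map (e.s : C →+* C)) q := by
    have h1 : gn vC (p.map (e.s : C →+* C) - p) < 1 := gn_lt one_pos fun n => by
      rw [coeff_sub, coeff_map]; exact hs _ (hq n).1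
    have := (Rd.of_lt h.res h1).add h.res hq
    simpa using this
  rw [SI_aeval, ← hr.res.eq_iff ((w_aeval_le h.val_const _ hZ1).trans hq'.gn_le)
    (by rwa [h.val_aeval]), res_aeval hr hq' hZ1, res_aeval hr hq h.val_Z.le,
    (hr.res.eq_iff hZ1 h.val_Z.le).mpr hZ]

/-- a semilinear automorphism that is trivial on the residues of the constants, of `Z` and of `W`
is trivial on the residue field -/
theorem triv (e : SI C K C K) (hs : ∀ c, vC c ≤ 1 → vC (e.s c - c) < 1)
    (hZ : h.val (e.f Z - Z) < 1) (hW : h.val (e.f W - W) < 1) (x : K) (hx : h.val x ≤ 1) :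
    h.val (e.f x - x) < 1 := by
  obtain ⟨A, B, c, hc, hA, hB, he⟩ := h.exists_int hx
  have h1 := h.triv_aeval e hs hZ hA
  have h2 := h.triv_aeval e hs hZ hB
  have h3 := h.triv_aeval e hs hZ hc.le
  have hc1 : h.val (aeval Z c) = 1 := by rw [h.val_aeval, hc]
  have hc2 : h.val (e.f (aeval Z c)) = 1 := by
    have : e.f (aeval Z c) = aeval Z c + (e.f (aeval Z c) - aeval Z c) := by ring
    rw [this, Valuation.map_add_eq_of_lt_left, hc1]
    rwa [hc1]
  have hW1 : h.val (e.f W) ≤ 1 := by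
    have : e.f W = (e.f W - W) + W := by ring
    rw [this]; exact (Valuation.map_add _ _ _).trans (max_le hW.le h.val_W.le)
  have he' := congrArg e.f he
  unfold el at he he'
  rw [map_mul, map_add, map_mul] at he'
  have key : (e.f x - x) * e.f (aeval Z c) = (e.f (aeval Z A) - aeval Z A) +
      ((e.f (aeval Z B) - aeval Z B) * e.f W + (aeval Z B * (e.f W - W) +
        -(x * (e.f (aeval Z c) - aeval Z c)))) := by
    linear_combination he' - he
  have h4 := congrArg h.val key
  rw [map_mul, hc2, mul_one] at h4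
  rw [h4]
  refine lt_of_le_of_lt (Valuation.map_add _ _ _) (max_lt h1 ?_)
  refine lt_of_le_of_lt (Valuation.map_add _ _ _) (max_lt ?_ ?_)
  · rw [map_mul]; exact mul_lt_one_of_lt_of_le h2 hW1
  refine lt_of_le_of_lt (Valuation.map_add _ _ _) (max_lt ?_ ?_)
  · rw [map_mul, mul_comm]
    exact mul_lt_one_of_lt_of_le hW (by rwa [h.val_aeval])
  · rw [Valuation.map_neg, map_mul, mul_comm]
    exact mul_lt_one_of_lt_of_le h3 hx

end Nm

end Crest.Agent.T15.Nf
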