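import Mathlib
import Crest.Agent.T15.NfA_2
import Crest.Agent.T15.HyB_90

/-!
# Row 15, block F (helper2): Gauss norms on hyperelliptic function fields, part B

`gen_eq`, `hasGen` : the genus of `w ^ 2 = F(x)`; `Ch` : a chart `x = a + π Z`, `w = γ W`;
`Ch.val`, `Ch.red`, `Ch.hasGen`, `Ch.ne_of`, `Ch.triv`; `NOS` (helper92's theorem) and `nos_of_charts`.
-/

set_option autoImplicit false
set_option linter.all false

namespace Crest.Agent.T15.Nf

open Polynomial Module
open scoped NNReal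
open Crest.Agent.R013.RR7_948 Crest.Agent.R013.RR8_948 Crest.Agent.R013.RR9_948
open Crest.Agent.R013.RR11_948 Crest.Agent.R013.RR12_948 Crest.Agent.R013.PicD_398
open Crest.Agent.R013.RR20_948 Crest.Agent.R013.GR2_921 Crest.Agent.R013.GR3_921
open Crest.Agent.R013.GR4_921 Crest.Agent.R013.Frob1_914
open Crest.Agent.T15.Hy

section genus

variable {k K : Type*} [Field k] [IsAlgClosed k] [Field K] [Algebra k K] {F : k[X]} {x w : K}

theorem gen_ge [Algebra (RatFunc k) K] [IsScalarTower k (RatFunc k) K]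
    [FiniteDimensional (RatFunc k) K] [Algebra.IsSeparable (RatFunc k) K] (h : Hyp F x w) :
    (F.natDegree - 1) / 2 ≤ R013.RR11_948.gen k K := by
  set g := (F.natDegree - 1) / 2 with hg
  have hpos := h.pos
  have hdeg : ∀ n : ℕ, degD (n • Dinf k x) = 2 * n := by
    intro n
    induction n with
    | zero => simp [degD_zero]
    | succ n ih => rw [succ_nsmul, degD_add, ih, h.degD_Dinf]; push_cast; ring
  have h1 := ell_ge (k := k) (K := K) hc_of_isAlgClosed (g • Dinf k x)
  rw [hdeg] at h1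
  let φ : degreeLT k (g + 1) →ₗ[k] K := (aeval x).toLinearMap.comp (degreeLT k (g + 1)).subtype
  haveI : Module.Finite k (degreeLT k (g + 1)) := Module.Finite.equiv (degreeLTEquiv k _).symm
  have h2 : LD (g • Dinf k x) ≤ LinearMap.range φ := by
    intro f hf
    obtain ⟨A, B, rfl, hA, hB⟩ := h.of_mem_LD hf
    have hB0 : B = 0 := hB.resolve_right (by omega)
    subst hB0
    refine ⟨⟨A, mem_degreeLT.mpr ?_⟩, by simp [φ, el]⟩
    exact lt_of_le_of_lt degree_le_natDegree (by exact_mod_cast Nat.lt_succ_of_le hA)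
  have h3 := (Submodule.finrank_mono h2).trans (LinearMap.finrank_range_le φ)
  rw [(degreeLTEquiv k _).finrank_eq, finrank_fin_fun] at h3
  change ell (g • Dinf k x) ≤ _ at h3
  omega

theorem gen_eq [Algebra (RatFunc k) K] [IsScalarTower k (RatFunc k) K]
    [FiniteDimensional (RatFunc k) K] [Algebra.IsSeparable (RatFunc k) K] (h : Hyp F x w) :
    R013.RR11_948.gen k K = (F.natDegree - 1) / 2 :=
  le_antisymm (h.gen_le (by have := h.pos; omega)) (gen_ge h)

omit [IsAlgClosed k] in
theorem transc (h : Hyp F x w) : Transcendental k x := fun ⟨p, hp, h0⟩ => hp (h.tr p h0)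

omit [IsAlgClosed k] in
theorem ratHom_poly' {z : K} (hz : Transcendental k z) (p : k[X]) :
    ratHom z hz (algebraMap k[X] (RatFunc k) p) = aeval z p := by
  have h1 : aeval (RatFunc.X : RatFunc k) p = algebraMap k[X] (RatFunc k) p := by
    rw [← RatFunc.algebraMap_X, aeval_algebraMap_apply, aeval_X_left_apply]
  rw [← h1, ← aeval_algHom_apply, ratHom_X]

omit [IsAlgClosed k] in
theorem exists_rat (h : Hyp F x w) (f : K) : ∃ a b : RatFunc k,
    f = ratHom x (transc h) a + ratHom x (transc h) b * w := by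
  obtain ⟨A, B, c, hc, he⟩ := h.gen f
  refine ⟨algebraMap k[X] _ A / algebraMap k[X] _ c, algebraMap k[X] _ B / algebraMap k[X] _ c, ?_⟩
  have := h.aeval_ne hc
  simp only [map_div₀, ratHom_poly']
  unfold el at he
  field_simp
  exact he

omit [IsAlgClosed k] in
theorem fin_rat (h : Hyp F x w) :
    letI := ratAlg x (transc h); FiniteDimensional (RatFunc k) K := by
  classical
  letI := ratAlg x (transc h)
  refine ⟨⟨{1, w}, ?_⟩⟩
  rw [eq_top_iff]
  intro f _
  obtain ⟨a, b, rfl⟩ := exists_rat h f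
  refine Submodule.add_mem _ ?_ ?_
  · have : ratHom x (transc h) a = a • (1 : K) := by rw [Algebra.smul_def, mul_one]; rfl
    rw [this]
    exact Submodule.smul_mem _ _ (Submodule.subset_span (by simp))
  · have : ratHom x (transc h) b * w = b • w := by rw [Algebra.smul_def]; rfl
    rw [this]
    exact Submodule.smul_mem _ _ (Submodule.subset_span (by simp))

omit [IsAlgClosed k] in
theorem sep_rat (h : Hyp F x w) :
    letI := ratAlg x (transc h); Algebra.IsSeparable (RatFunc k) K := by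
  letI := ratAlg x (transc h)
  have hw : IsSeparable (RatFunc k) w := by
    have h1 : (X ^ 2 - C (algebraMap k[X] (RatFunc k) F)).Separable := by
      apply separable_X_pow_sub_C
      · have : ((2 : ℕ) : RatFunc k) = algebraMap k (RatFunc k) 2 := by simp [map_ofNat]
        rw [this]
        simpa using h.two
      · exact RatFunc.algebraMap_ne_zero h.F_ne
    refine h1.of_dvd (minpoly.dvd _ _ ?_)
    rw [map_sub, map_pow, aeval_X, aeval_C, h.sq, sub_eq_zero]
    exact (ratHom_poly' (transc h) F).symm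
  refine ⟨fun f => ?_⟩
  obtain ⟨a, b, rfl⟩ := exists_rat h f
  exact Field.isSeparable_add (isSeparable_algebraMap a)
    (Field.isSeparable_mul (isSeparable_algebraMap b) hw)

theorem hasGen (h : Hyp F x w) : HasGen k K ((F.natDegree - 1) / 2) := by
  letI := ratAlg x (transc h)
  haveI := ratAlg_tower x (transc h)
  haveI := fin_rat h
  haveI := sep_rat h
  rw [← gen_eq h]
  exact hasGen_gen k K

end genus

variable {C k K : Type*} [Field C] [Field k] [Field K] [Algebra C K]

/-- the polynomial of the chart `x = a + π Z`, `w = γ W` -/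
noncomputable def chP (F : C[X]) (a π γ : C) : C[X] :=
  Polynomial.C (γ ^ 2)⁻¹ * F.comp (Polynomial.C a + Polynomial.C π * X)

/-- a chart `x = a + π Z`, `w = γ W` in which the curve reduces to `W ^ 2 = G ^ 2 H` -/
structure Ch (vC : Valuation C ℝ≥0) (ρC : C → k) (F : C[X]) (a π γ : C) (G H : k[X]) : Prop where
  pi0 : π ≠ 0
  ga0 : γ ≠ 0
  rd : Rd vC ρC (chP F a π γ) (G ^ 2 * H)
  G0 : G ≠ 0
  sep : H.Separable
  pos : 0 < H.natDegree

/-- the coordinate of the chart -/
noncomputable def cZ (x : K) (a π : C) : K := (x - algebraMap C K a) / algebraMap C K π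

/-- the second coordinate of the chart -/
noncomputable def cW (w : K) (γ : C) : K := w / algebraMap C K γ

variable {vC : Valuation C ℝ≥0} {ρC : C → k} {F : C[X]} {a π γ : C} {G H : k[X]} {x w : K}

theorem Ch.mk' {F1 : C[X]} (pi0 : π ≠ 0) (ga0 : γ ≠ 0)
    (hF : F.comp (Polynomial.C a + Polynomial.C π * X) = Polynomial.C (γ ^ 2) * F1)
    (rd : Rd vC ρC F1 (G ^ 2 * H)) (G0 : G ≠ 0) (sep : H.Separable) (pos : 0 < H.natDegree) :
    Ch vC ρC F a π γ G H := by
  refine ⟨pi0, ga0, rd.congr ?_ rfl, G0, sep, pos⟩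
  rw [chP, hF, ← mul_assoc, ← map_mul, inv_mul_cancel₀ (pow_ne_zero 2 ga0), map_one, one_mul]

theorem cZ_spec (hπ : π ≠ 0) : x = algebraMap C K a + algebraMap C K π * cZ x a π := by
  have : algebraMap C K π ≠ 0 := by simpa using hπ
  unfold cZ; field_simp; ring

theorem cW_spec (hγ : γ ≠ 0) : w = algebraMap C K γ * cW w γ := by
  have : algebraMap C K γ ≠ 0 := by simpa using hγ
  unfold cW; field_simp

namespace Ch

variable (h : Ch vC ρC F a π γ G H) (hy : Hyp F x w) (hr : IsRes vC ρC) (h2 : (2 : k) ≠ 0)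
include h hy

theorem hyp1 : Hyp (chP F a π γ) (cZ x a π) (cW w γ) :=
  hy.chart h.pi0 h.ga0 (cZ_spec h.pi0) (cW_spec h.ga0) (by
    rw [chP, ← mul_assoc, ← map_mul, mul_inv_cancel₀ (pow_ne_zero 2 h.ga0), map_one, one_mul])

include hr h2

theorem nm : Nm vC ρC (chP F a π γ) G H (cZ x a π) (cW w γ) :=
  ⟨hr, h2, (h.hyp1 hy).tr, (h.hyp1 hy).sq, (h.hyp1 hy).gen, h.rd, h.G0, h.sep, h.pos⟩

/-- the norm of the chart -/
noncomputable def val : Valuation K ℝ≥0 := (h.nm hy hr h2).val

/-- the residue field as a `k`-algebra -/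
@[reducible] noncomputable def alg : Algebra k (kap (h.val hy hr h2)) := (h.nm hy hr h2).alg

theorem red : @Red C K k (kap (h.val hy hr h2)) _ _ _ _ _ (h.alg hy hr h2) vC ρC (h.val hy hr h2)
    (rs (h.val hy hr h2)) := (h.nm hy hr h2).red

theorem hasGen [IsAlgClosed k] :
    @HasGen k (kap (h.val hy hr h2)) _ _ (h.alg hy hr h2) ((H.natDegree - 1) / 2) := by
  letI := h.alg hy hr h2
  exact Nf.hasGen (h.nm hy hr h2).hyp

theorem val_const (c : C) : h.val hy hr h2 (algebraMap C K c) = vC c :=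
  (h.nm hy hr h2).val_const c

theorem val_x_sub (b : C) :
    h.val hy hr h2 (x - algebraMap C K b) = max (vC π) (vC (a - b)) := by
  have hπ : vC π ≠ 0 := by simpa using h.pi0
  have h1 : x - algebraMap C K b =
      algebraMap C K π * aeval (cZ x a π) (X + Polynomial.C ((a - b) / π)) := by
    have : algebraMap C K π ≠ 0 := by simpa using h.pi0
    simp only [map_add, aeval_X, aeval_C, map_div₀, map_sub, cZ]
    field_simp; ring
  rw [h1, map_mul, h.val_const hy hr h2]
  unfold val
  rw [Nm.val_aeval, gn_X_add, mul_max_of_nonneg _ _ zero_le, mul_one, map_div₀,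
    mul_div_cancel₀ _ hπ]

theorem ne_of {a' π' γ' : C} {G' H' : k[X]} (h' : Ch vC ρC F a' π' γ' G' H')
    (hne : vC π ≠ vC π' ∨ vC π < vC (a - a')) : h.val hy hr h2 ≠ h'.val hy hr h2 := by
  intro he
  have e1 := h.val_x_sub hy hr h2 a
  have e2 := h.val_x_sub hy hr h2 a'
  have e3 := h'.val_x_sub hy hr h2 a
  have e4 := h'.val_x_sub hy hr h2 a'
  rw [← he, e1] at e3
  rw [← he, e2] at e4
  rw [sub_self, map_zero, max_eq_left zero_le] at e3 e4
  rw [Valuation.map_sub_swap] at e3
  rcases hne with hne | hne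
  · apply hne
    exact le_antisymm (e4 ▸ le_max_left _ _) (e3 ▸ le_max_left _ _)
  · exact absurd (e3 ▸ le_max_right _ _) (not_le.mpr hne)

/-- triviality on the residue field, general form -/
theorem triv' (e : SI C K C K) (hs : ∀ c, vC c ≤ 1 → vC (e.s c - c) < 1)
    (hZ : h.val hy hr h2 (e.f (cZ x a π) - cZ x a π) < 1)
    (hW : h.val hy hr h2 (e.f (cW w γ) - cW w γ) < 1) (f : K) (hf : h.val hy hr h2 f ≤ 1) :
    h.val hy hr h2 (e.f f - f) < 1 := (h.nm hy hr h2).triv e hs hZ hW f hf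

/-- triviality on the residue field for `x ↦ α x + β`, `w ↦ ε w` -/
theorem triv (e : SI C K C K) (hs : ∀ c, vC c ≤ 1 → vC (e.s c - c) < 1) {α β ε : C}
    (hx : e.f x = algebraMap C K α * x + algebraMap C K β) (hw : e.f w = algebraMap C K ε * w)
    (h3 : vC (α * π / e.s π - 1) < 1) (h4 : vC ((α * a + β - e.s a) / e.s π) < 1)
    (h5 : vC (ε * γ / e.s γ - 1) < 1) (f : K) (hf : h.val hy hr h2 f ≤ 1) :
    h.val hy hr h2 (e.f f - f) < 1 := by
  have p0 : algebraMap C K π ≠ 0 := by simpa using h.pi0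
  have p1 : algebraMap C K (e.s π) ≠ 0 := by simpa using h.pi0
  have g0 : algebraMap C K γ ≠ 0 := by simpa using h.ga0
  have g1 : algebraMap C K (e.s γ) ≠ 0 := by simpa using h.ga0
  refine h.triv' hy hr h2 e hs ?_ ?_ f hf
  · have : e.f (cZ x a π) - cZ x a π = algebraMap C K (α * π / e.s π - 1) * cZ x a π +
        algebraMap C K ((α * a + β - e.s a) / e.s π) := by
      simp only [cZ, map_div₀, map_sub, e.comm, hx, map_mul, map_add, map_one]
      field_simp; ring
    rw [this]
    refine lt_of_le_of_lt (Valuation.map_add _ _ _) (max_lt ?_ ?_)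
    · rw [map_mul, h.val_const hy hr h2]
      exact mul_lt_one_of_lt_of_le h3 (h.nm hy hr h2).val_Z.le
    · rwa [h.val_const hy hr h2]
  · have : e.f (cW w γ) - cW w γ = algebraMap C K (ε * γ / e.s γ - 1) * cW w γ := by
      simp only [cW, map_div₀, map_sub, e.comm, hw, map_mul, map_one]
      field_simp
    rw [this, map_mul, h.val_const hy hr h2]
    exact mul_lt_one_of_lt_of_le h5 (h.nm hy hr h2).val_W.le

end Ch

/-- helper92's multi-norm criterion of Néron-Ogg-Shafarevich -/
def NOS : Prop :=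
  ∀ (C K k : Type) [Field C] [IsAlgClosed C] [CharZero C] [Field K] [Algebra C K]
    [Algebra (RatFunc C) K] [IsScalarTower C (RatFunc C) K] [FiniteDimensional (RatFunc C) K]
    [Algebra.IsSeparable (RatFunc C) K] [Field k] [IsAlgClosed k]
    (vC : Valuation C ℝ≥0) (ρC : C → k) (p : ℕ) (_ : p.Prime) (_ : vC p < 1)
    (ι : Type) [Fintype ι] (W : ι → Valuation K ℝ≥0) (_ : Function.Injective W)
    (κ : ι → Type) [∀ i, Field (κ i)] [∀ i, Algebra k (κ i)] (ρ : ∀ i, K → κ i)
    (_ : ∀ i, Red vC ρC (W i) (ρ i)) (g : ι → ℕ) (_ : ∀ i, HasGen k (κ i) (g i))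
    (_ : R013.RR11_948.gen C K ≤ ∑ i, g i) (e : SI C K C K)
    (_ : ∀ i f, W i f ≤ 1 → W i (e.f f - f) < 1) (n : ℕ) (_ : vC n = 1) (y : Pic C K)
    (_ : n • y = 0), e.pic y = y

/-- a family of charts whose genera add up to the genus -/
theorem nos_of_charts (hN : NOS) {C K k : Type} [Field C] [IsAlgClosed C] [CharZero C] [Field K]
    [Algebra C K] [Algebra (RatFunc C) K] [IsScalarTower C (RatFunc C) K]
    [FiniteDimensional (RatFunc C) K] [Algebra.IsSeparable (RatFunc C) K] [Field k] [IsAlgClosed k]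
    {vC : Valuation C ℝ≥0} {ρC : C → k} (hr : IsRes vC ρC) (h2 : (2 : k) ≠ 0) {p : ℕ}
    (hp : p.Prime) (hpv : vC p < 1) {F : C[X]} {x w : K} (hy : Hyp F x w)
    {ι : Type} [Fintype ι] {a π γ : ι → C} {G H : ι → k[X]}
    (h : ∀ i, Ch vC ρC F (a i) (π i) (γ i) (G i) (H i))
    (hne : ∀ i j, i ≠ j → vC (π i) ≠ vC (π j) ∨ vC (π i) < vC (a i - a j))
    (hg : (F.natDegree - 1) / 2 ≤ ∑ i, ((H i).natDegree - 1) / 2)
    (e : SI C K C K) (hs : ∀ c, vC c ≤ 1 → vC (e.s c - c) < 1) {α β ε : C}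
    (hx : e.f x = algebraMap C K α * x + algebraMap C K β) (hw : e.f w = algebraMap C K ε * w)
    (h3 : ∀ i, vC (α * π i / e.s (π i) - 1) < 1)
    (h4 : ∀ i, vC ((α * a i + β - e.s (a i)) / e.s (π i)) < 1)
    (h5 : ∀ i, vC (ε * γ i / e.s (γ i) - 1) < 1) {n : ℕ} (hn : vC n = 1) {y : Pic C K}
    (hy0 : n • y = 0) : e.pic y = y := by
  letI : ∀ i, Algebra k (kap ((h i).val hy hr h2)) := fun i => (h i).alg hy hr h2
  refine hN C K k vC ρC p hp hpv ι (fun i => (h i).val hy hr h2) ?_
    (fun i => kap ((h i).val hy hr h2)) (fun i => rs _) (fun i => (h i).red hy hr h2)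
    (fun i => ((H i).natDegree - 1) / 2) (fun i => (h i).hasGen hy hr h2)
    (by rw [gen_eq hy]; exact hg) e
    (fun i => (h i).triv hy hr h2 e hs hx hw (h3 i) (h4 i) (h5 i)) n hn y hy0
  intro i j hij
  by_contra hc
  exact (h i).ne_of hy hr h2 (h j) (hne i j hc) hij

end Crest.Agent.T15.Nf
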