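import Mathlib
import Crest.Agent.T15.NfB_2

/-!
# Row 15, block F (helper2): reduction tables and the action of inertia

* `iota_pic` : the hyperelliptic involution is `-1` on classes of degree zero (odd degree);
* `Tab` : a reduction table with radii and scales in `|ϖ|^ℤ`; `Tab.act`, `Tab.triv`, `Tab.neg`;
* `irr` : `σ ^ 2 = -1`, `τ σ = - σ τ`.
-/

set_option autoImplicit false
set_option linter.all false

namespace Crest.Agent.T15.Nf

open Polynomial Module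
open scoped NNReal
open Crest.Agent.R013.RR7_948 Crest.Agent.R013.RR8_948 Crest.Agent.R013.RR9_948
open Crest.Agent.R013.RR11_948 Crest.Agent.R013.RR12_948 Crest.Agent.R013.PicD_398
open Crest.Agent.R013.GR2_921 Crest.Agent.R013.GR4_921 Crest.Agent.R013.Frob1_914
open Crest.Agent.T15.Hy

section iota

variable {k K : Type*} [Field k] [IsAlgClosed k] [Field K] [Algebra k K] {F : k[X]} {x w : K}
  [Algebra (RatFunc k) K] [IsScalarTower k (RatFunc k) K]
  [FiniteDimensional (RatFunc k) K] [Algebra.IsSeparable (RatFunc k) K]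

theorem iota_single (h : Hyp F x w) (hodd : Odd F.natDegree) (P : Pl k K) :
    cls (Finsupp.single P (1 : ℤ)) + cls (Finsupp.single (h.siota.pl P) (1 : ℤ)) =
      cls (Dinf k x) := by
  rcases le_or_gt (P.v x) 1 with hP | hP
  · have h1 := h.at_ev hP
    have h2 := h.cls_pt_add (h1.sq h.sq)
    rwa [h.pt_eq h1, h.pt_eq (h1.iota h)] at h2
  · have h1 : h.siota.pl P = P := h.inf_unique hodd (by rwa [h.siota_v, h.iota_x]) hP
    have h2 : Dinf k x = Finsupp.single P (Dinf k x P) := by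
      ext Q
      by_cases hQ : P = Q
      · subst hQ; simp
      · rw [Finsupp.single_eq_of_ne' hQ]
        exact Dinf_of_le h.x_ne (not_lt.mp fun h3 => hQ (h.inf_unique hodd hP h3))
    have h3 := h.degD_Dinf
    rw [h2, degD_single, degP_eq_one] at h3
    have h4 : Dinf k x P = 2 := by simpa using h3
    rw [h1, h2, h4, ← map_add, ← Finsupp.single_add]
    rfl

theorem iota_cls (h : Hyp F x w) (hodd : Odd F.natDegree) (D : Pl k K →₀ ℤ) :
    cls D + h.siota.pic (cls D) = degD D • cls (Dinf k x) := by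
  induction D using Finsupp.induction_linear with
  | zero => simp [degD_zero]
  | add D E hD hE => rw [map_add, map_add, degD_add, add_zsmul, ← hD, ← hE]; abel
  | single P n =>
    rw [SI.pic_cls, SI.D_single, degD_single, degP_eq_one, ← iota_single h hodd P]
    have : ∀ Q : Pl k K, cls (Finsupp.single Q n) = n • cls (Finsupp.single Q (1 : ℤ)) := by
      intro Q; rw [← map_zsmul, Finsupp.smul_single, smul_eq_mul, mul_one]
    rw [this, this]
    simp only [Nat.cast_one, mul_one, zsmul_add]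

theorem iota_pic (h : Hyp F x w) (hodd : Odd F.natDegree) {y : Pic k K} (hy : degPic y = 0) :
    h.siota.pic y = -y := by
  obtain ⟨D, rfl⟩ := cls_surjective y
  have := iota_cls h hodd D
  rw [degPic_cls] at hy
  rw [hy, zero_zsmul] at this
  exact (neg_eq_of_add_eq_zero_right this).symm

omit [IsAlgClosed k] in
theorem degPic_of_tors {n : ℕ} (hn : n ≠ 0) {y : Pic k K} (hy : n • y = 0) : degPic y = 0 := by
  have := congrArg degPic hy
  rw [map_nsmul, map_zero, smul_eq_zero] at this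
  exact this.resolve_left hn

end iota

section inert

variable {C : Type*} [Field C] {vC : Valuation C ℝ≥0}

/-- `s` is trivial on residues -/
def Inr (vC : Valuation C ℝ≥0) (s : C ≃+* C) : Prop := ∀ c, vC c ≤ 1 → vC (s c - c) < 1

theorem Inr.unit {s : C ≃+* C} (hs : Inr vC s) {u : C} (hu : vC u = 1) : vC (s u) = 1 := by
  have : s u = u + (s u - u) := by ring
  rw [this, Valuation.map_add_eq_of_lt_left, hu]
  rw [hu]; exact hs u hu.le

theorem Inr.le {s : C ≃+* C} (hs : Inr vC s) {u : C} (hu : vC u ≤ 1) : vC (s u) ≤ 1 := by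
  have : s u = u + (s u - u) := by ring
  rw [this]; exact (Valuation.map_add _ _ _).trans (max_le hu (hs u hu).le)

theorem Inr.trans {s t : C ≃+* C} (hs : Inr vC s) (ht : Inr vC t) : Inr vC (s.trans t) := by
  intro c hc
  have : t (s c) - c = (t (s c) - s c) + (s c - c) := by ring
  show vC (t (s c) - c) < 1
  rw [this]
  exact lt_of_le_of_lt (Valuation.map_add _ _ _) (max_lt (ht _ (hs.le hc)) (hs c hc))

/-- a unit whose square is fixed is fixed -/
theorem Inr.fix_of_sq {s : C ≃+* C} (hs : Inr vC s) (h2 : vC 2 = 1) {u : C} (hu : vC u = 1)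
    (h : s (u ^ 2) = u ^ 2) : s u = u := by
  rw [map_pow] at h
  rcases sq_eq_sq_iff_eq_or_eq_neg.mp h with h1 | h1
  · exact h1
  · have := hs u hu.le
    rw [h1, show -u - u = -(2 * u) by ring, Valuation.map_neg, map_mul, h2, hu, one_mul] at this
    exact absurd this (lt_irrefl _)

/-- the character of the value group -/
theorem Inr.chi {s : C ≃+* C} (hs : Inr vC s) {ϖ ζ : C} (h0 : ϖ ≠ 0) (hζ : s ϖ = ζ * ϖ)
    {x : C} {j : ℤ} (hx : vC x = vC ϖ ^ j) {ε : C} (hε : ζ ^ j = ε) :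
    vC (ε * x / s x - 1) < 1 := by
  have hv : vC ϖ ≠ 0 := by simpa using h0
  have hζ0 : ζ ≠ 0 := by
    rintro rfl
    rw [zero_mul] at hζ
    exact h0 (by simpa using hζ)
  have hu : vC (x / ϖ ^ j) = 1 := by rw [map_div₀, map_zpow₀, hx, div_self (zpow_ne_zero j hv)]
  have h1 := hs.unit hu
  have h2 := hs _ hu.le
  have h3 : s (x / ϖ ^ j) ≠ 0 := by intro h; rw [h, map_zero] at h1; exact zero_ne_one h1
  have h4 : s x = s (x / ϖ ^ j) * (ζ ^ j * ϖ ^ j) := by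
    rw [← mul_zpow, ← hζ, ← map_zpow₀, ← map_mul, div_mul_cancel₀ _ (zpow_ne_zero j h0)]
  have h5 : ε * x / s x - 1 = -(s (x / ϖ ^ j) - x / ϖ ^ j) / s (x / ϖ ^ j) := by
    have := zpow_ne_zero j h0
    have := zpow_ne_zero j hζ0
    rw [h4, ← hε]
    field_simp
    ring
  rw [h5, map_div₀, Valuation.map_neg, h1, div_one]
  exact h2

/-- an element whose square is fixed and whose norm is a power of the norm of a fixed element -/
theorem Inr.fix_of_sq' {s : C ≃+* C} (hs : Inr vC s) (h2 : vC 2 = 1) {ϖ : C} (h0 : ϖ ≠ 0)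
    (hϖ : s ϖ = ϖ) {u : C} {j : ℤ} (hu : vC u = vC ϖ ^ j) (h : s (u ^ 2) = u ^ 2) : s u = u := by
  have hv : vC ϖ ≠ 0 := by simpa using h0
  have h1 : vC (u / ϖ ^ j) = 1 := by rw [map_div₀, map_zpow₀, hu, div_self (zpow_ne_zero j hv)]
  have h3 := hs.fix_of_sq h2 h1 (by rw [div_pow, map_div₀, h, map_pow, map_zpow₀, hϖ])
  rw [map_div₀, map_zpow₀, hϖ] at h3
  exact (div_left_inj' (zpow_ne_zero j h0)).mp h3

end inert

section tab

variable {C k : Type} [Field C] [Field k]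

/-- a reduction table: charts with centres `0` or units with rational square, radii `|ϖ| ^ j`,
scales `|ϖ| ^ m`, `P j m` -/
def Tab (vC : Valuation C ℝ≥0) (ρC : C → k) (F : C[X]) (ϖ : C) (P : ℤ → ℤ → Prop) : Prop :=
  ∃ (ι : Type) (_ : Fintype ι) (a π γ : ι → C) (G H : ι → k[X]) (j m : ι → ℤ),
    (∀ i, Ch vC ρC F (a i) (π i) (γ i) (G i) (H i)) ∧
    (∀ i i', i ≠ i' → vC (π i) ≠ vC (π i') ∨ vC (π i) < vC (a i - a i')) ∧
    (F.natDegree - 1) / 2 ≤ ∑ i, ((H i).natDegree - 1) / 2 ∧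
    ∀ i, (a i = 0 ∨ (vC (a i) = 1 ∧ ∃ q : ℚ, a i ^ 2 = q)) ∧ vC (π i) = vC ϖ ^ j i ∧
      vC (γ i) = vC ϖ ^ m i ∧ P (j i) (m i)

theorem Tab.mono {vC : Valuation C ℝ≥0} {ρC : C → k} {F : C[X]} {ϖ : C} {P P' : ℤ → ℤ → Prop}
    (h : Tab vC ρC F ϖ P) (hP : ∀ j m, P j m → P' j m) : Tab vC ρC F ϖ P' := by
  obtain ⟨ι, _, a, π, γ, G, H, j, m, h1, h2, h3, h4⟩ := h
  exact ⟨ι, inferInstance, a, π, γ, G, H, j, m, h1, h2, h3,
    fun i => ⟨(h4 i).1, (h4 i).2.1, (h4 i).2.2.1, hP _ _ (h4 i).2.2.2⟩⟩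

theorem v_two {vC : Valuation C ℝ≥0} {ρC : C → k} (hr : IsRes vC ρC) (h2 : (2 : k) ≠ 0) :
    vC 2 = 1 := by
  have h1 : vC (1 : C) ≤ 1 := by simp
  have h3 := hr.add 1 1 h1 h1
  rw [hr.one, one_add_one_eq_two, one_add_one_eq_two] at h3
  refine (hr.ne_zero_iff ?_).mp (h3 ▸ h2)
  rw [← one_add_one_eq_two]
  exact (Valuation.map_add _ _ _).trans (max_le h1 h1)

variable {K : Type} [IsAlgClosed C] [CharZero C] [Field K]
  [Algebra C K] [Algebra (RatFunc C) K] [IsScalarTower C (RatFunc C) K]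
  [FiniteDimensional (RatFunc C) K] [Algebra.IsSeparable (RatFunc C) K] [IsAlgClosed k]
  {vC : Valuation C ℝ≥0} {ρC : C → k} {F : C[X]} {x w : K} {ϖ : C} {P : ℤ → ℤ → Prop}

theorem Tab.act (hN : NOS) (h : Tab vC ρC F ϖ P) (hr : IsRes vC ρC) (h2 : (2 : k) ≠ 0) {p : ℕ}
    (hp : p.Prime) (hpv : vC p < 1) (hy : Hyp F x w) (h0 : ϖ ≠ 0) (e : SI C K C K)
    (hs : Inr vC e.s) {ζ ε : C} (hζ : e.s ϖ = ζ * ϖ) (hx : e.f x = x)
    (hw : e.f w = algebraMap C K ε * w) (hP : ∀ j m, P j m → ζ ^ j = 1 ∧ ζ ^ m = ε)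
    {n : ℕ} (hn : vC n = 1) {y : Pic C K} (hy0 : n • y = 0) : e.pic y = y := by
  obtain ⟨ι, _, a, π, γ, G, H, j, m, h1, h3, h4, h5⟩ := h
  refine nos_of_charts hN hr h2 hp hpv hy h1 h3 h4 e hs (α := 1) (β := 0) (ε := ε)
    (by simpa using hx) hw (fun i => hs.chi h0 hζ (h5 i).2.1 (hP _ _ (h5 i).2.2.2).1) (fun i => ?_)
    (fun i => hs.chi h0 hζ (h5 i).2.2.1 (hP _ _ (h5 i).2.2.2).2) hn hy0
  have : e.s (a i) = a i := by
    rcases (h5 i).1 with h6 | ⟨h6, q, h7⟩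
    · rw [h6, map_zero]
    · exact hs.fix_of_sq (v_two hr h2) h6 (by rw [h7, map_ratCast])
  rw [this]
  simp

/-- elements of inertia fixing `x`, `w` and `ϖ` act trivially -/
theorem Tab.triv (hN : NOS) (h : Tab vC ρC F ϖ P) (hr : IsRes vC ρC) (h2 : (2 : k) ≠ 0) {p : ℕ}
    (hp : p.Prime) (hpv : vC p < 1) (hy : Hyp F x w) (h0 : ϖ ≠ 0) (e : SI C K C K)
    (hs : Inr vC e.s) (hζ : e.s ϖ = ϖ) (hx : e.f x = x) (hw : e.f w = w)
    {n : ℕ} (hn : vC n = 1) {y : Pic C K} (hy0 : n • y = 0) : e.pic y = y :=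
  h.act hN hr h2 hp hpv hy h0 e hs (ζ := 1) (ε := 1) (by simpa using hζ) hx (by simpa using hw)
    (fun j m _ => by simp) hn hy0

/-- odd scales: elements of inertia with `ϖ ↦ -ϖ` act as `-1` -/
theorem Tab.neg (hN : NOS) (h : Tab vC ρC F ϖ fun j m => Even j ∧ Odd m) (hr : IsRes vC ρC)
    (h2 : (2 : k) ≠ 0) {p : ℕ} (hp : p.Prime) (hpv : vC p < 1) (hy : Hyp F x w)
    (hodd : Odd F.natDegree) (h0 : ϖ ≠ 0) (e : SI C K C K)
    (hs : Inr vC e.s) (hζ : e.s ϖ = -ϖ) (hx : e.f x = x) (hw : e.f w = w)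
    {n : ℕ} (hn : vC n = 1) {y : Pic C K} (hy0 : n • y = 0) : e.pic y = -y := by
  have hn0 : n ≠ 0 := by rintro rfl; simp at hn
  have h1 := h.act hN hr h2 hp hpv hy h0 (hy.siota.trans e) (ζ := -1) (ε := -1) hs
    (by show e.s ϖ = _; rw [hζ]; ring)
    (by show e.f (hy.iota x) = _; rw [hy.iota_x, hx])
    (by show e.f (hy.iota w) = _; rw [hy.iota_w, map_neg, hw]; simp)
    (fun j m hjm => ⟨hjm.1.neg_one_zpow, hjm.2.neg_one_zpow⟩) hn hy0
  rw [SI.pic_trans, iota_pic hy hodd (degPic_of_tors hn0 hy0), map_neg] at h1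
  exact (neg_eq_iff_eq_neg.mp h1)

end tab

section irr

variable {C : Type*} [Field C] {vC : Valuation C ℝ≥0}

theorem Inr.conj {s t : C ≃+* C} (hs : Inr vC s) (ht : ∀ c, vC (t c) = vC c) :
    Inr vC ((t.symm.trans s).trans t) := by
  intro c hc
  show vC (t (s (t.symm c)) - c) < 1
  have h1 : vC (t.symm c) ≤ 1 := by rwa [← ht, RingEquiv.apply_symm_apply]
  have := hs _ h1
  rwa [← ht, map_sub, RingEquiv.apply_symm_apply] at this

/-- the relations `σ ^ 2 = -1`, `τ σ = - σ τ` on a stable subgroup `T` -/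
theorem irr {Γ M : Type*} [Group Γ] [AddCommGroup M] [DistribMulAction Γ M] (T : M → Prop)
    (hT : ∀ (g : Γ) y, T y → T (g • y)) (s : Γ → C ≃+* C)
    (hm : ∀ g g' c, s (g * g') c = s g (s g' c)) (h2 : vC 2 = 1) {ϖ i : C} (h0 : ϖ ≠ 0)
    (hi : i ^ 2 = -1)
    (h1 : ∀ g, Inr vC (s g) → s g ϖ = ϖ → ∀ y, T y → g • y = y)
    (h3 : ∀ g, Inr vC (s g) → s g ϖ = -ϖ → ∀ y, T y → g • y = -y)
    {σ τ : Γ} (hσ : Inr vC (s σ)) (hσ' : s σ (ϖ ^ 2) = -ϖ ^ 2) (hσ4 : s τ (ϖ ^ 4) = ϖ ^ 4)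
    (hτ : ∀ c, vC (s τ c) = vC c) (hτ' : s τ i = -i) (y : M) (hy : T y) :
    σ • σ • y = -y ∧ τ • σ • y = -(σ • τ • y) := by
  have h1' : ∀ c, s 1 c = c := fun c => (s 1).injective (by rw [← hm, mul_one])
  have hinv : ∀ g c, s g⁻¹ c = (s g).symm c := fun g c => by
    rw [eq_comm, RingEquiv.symm_apply_eq, ← hm, mul_inv_cancel, h1']
  have hvi : vC i = 1 := by
    have := congrArg vC hi
    rw [map_pow, Valuation.map_neg, map_one] at this
    exact (pow_eq_one_iff_of_nonneg zero_le two_ne_zero).mp this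
  have hσi : s σ i = i := hσ.fix_of_sq h2 hvi (by rw [hi, map_neg, map_one])
  obtain ⟨η, hη, hη'⟩ : ∃ η, s σ ϖ = η * ϖ ∧ (η = i ∨ η = -i) := by
    refine ⟨s σ ϖ / ϖ, (div_mul_cancel₀ _ h0).symm, sq_eq_sq_iff_eq_or_eq_neg.mp ?_⟩
    rw [div_pow, ← map_pow, hσ', hi, neg_div, div_self (pow_ne_zero 2 h0)]
  have hη2 : η * η = -1 := by rcases hη' with rfl | rfl <;> linear_combination hi
  have hση : s σ η = η := by rcases hη' with rfl | rfl <;> simp [hσi]
  have hτη : s τ η = -η := by rcases hη' with rfl | rfl <;> simp [hτ']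
  have A : ∀ y, T y → σ • σ • y = -y := fun y hy => by
    rw [← mul_smul]
    refine h3 _ (fun c hc => by rw [hm]; exact hσ.trans hσ c hc) ?_ y hy
    rw [hm, hη, map_mul, hση, hη, ← mul_assoc, hη2, neg_one_mul]
  refine ⟨A y hy, ?_⟩
  obtain ⟨ζ, hζ, hζ'⟩ : ∃ ζ, (s τ).symm ϖ = ζ * ϖ ∧ s σ ζ = ζ := by
    refine ⟨(s τ).symm ϖ / ϖ, (div_mul_cancel₀ _ h0).symm, ?_⟩
    set ζ := (s τ).symm ϖ / ϖ
    have h4 : ζ ^ 4 = 1 := by
      rw [div_pow, ← map_pow, (s τ).symm_apply_eq.mpr hσ4.symm, div_self (pow_ne_zero 4 h0)]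
    have h5 : (ζ - 1) * (ζ + 1) * ((ζ - i) * (ζ + i)) = 0 := by
      linear_combination h4 - (ζ ^ 2 - 1) * hi
    rcases mul_eq_zero.mp h5 with h6 | h6 <;> rcases mul_eq_zero.mp h6 with h7 | h7
    · rw [sub_eq_zero.mp h7, map_one]
    · rw [eq_neg_of_add_eq_zero_left h7, map_neg, map_one]
    · rw [sub_eq_zero.mp h7, hσi]
    · rw [eq_neg_of_add_eq_zero_left h7, map_neg, hσi]
  have hτη' : (s τ).symm η = -η := by
    rw [RingEquiv.symm_apply_eq, map_neg, hτη, neg_neg]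
  have B : ∀ y, T y → (τ * σ * τ⁻¹ * σ) • y = y := h1 _
    (fun c hc => by
      rw [hm, hm, hm, hinv]
      exact hσ.trans (hσ.conj hτ) c hc)
    (by
      have h7 : s σ (-η * (ζ * ϖ)) = ζ * ϖ := by
        rw [map_mul, map_mul, map_neg, hση, hζ', hη]
        linear_combination (-ζ * ϖ) * hη2
      rw [hm, hm, hm, hinv, hη, map_mul, hτη', hζ, h7, ← hζ, RingEquiv.apply_symm_apply])
  have h6 := B _ (hT σ _ (hT τ y hy))
  rw [mul_smul, mul_smul, mul_smul, A _ (hT τ y hy), smul_neg, inv_smul_smul, smul_neg,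
    smul_neg] at h6
  exact neg_eq_iff_eq_neg.mp h6

end irr

end Crest.Agent.T15.Nf
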