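import Mathlib
import Crest.Agent.T15.CtE_92
import Crest.Agent.T15.NfC_2

/-!
# Row 15, block F (helper92): `Nf.NOS`
-/

set_option autoImplicit false
set_option linter.all false

namespace Crest.Agent.T15.Nf

theorem nos : NOS := by
  intro C K k _ _ _ _ _ _ _ _ _ _ _ vC ρC p hp hpv ι _ W hW κ _ _ ρ hR g hg hs e he n hn y hy
  haveI : Fact p.Prime := ⟨hp⟩
  exact Ct.nos hR hW hg p hpv hs e (fun i x hx => he i x hx.le) hn hy

end Crest.Agent.T15.Nf
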