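import Mathlib
import Crest.Agent.T15.MoA_29

/-!
# Row 15, block F (helper22): valuations of the constants of the normal form
-/

set_option autoImplicit false
set_option linter.all false

namespace Crest.Agent.T15.Rt

open scoped NNReal
open Crest.Agent.T15.Mo

variable {C : Type*} [Field C] {v : Valuation C ℝ≥0}

theorem le_one_of_sq {x : C} (h : v (x ^ 2) ≤ 1) : v x ≤ 1 := by
  rw [map_pow] at h
  by_contra hc
  exact absurd h (not_le.2 (one_lt_pow₀ (not_le.1 hc) two_ne_zero))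

theorem eq_one_of_mul {a b : ℝ≥0} (ha : a ≤ 1) (hb : b ≤ 1) (h : a * b = 1) : a = 1 ∧ b = 1 :=
  ⟨le_antisymm ha (h ▸ mul_le_of_le_one_right' hb), le_antisymm hb (h ▸ mul_le_of_le_one_left' ha)⟩

theorem eq_of_sq {a b : ℝ≥0} (h : a ^ 2 = b ^ 2) : a = b :=
  (pow_left_inj₀ zero_le zero_le two_ne_zero).1 h

theorem add_small {x y : C} (hx : v x = 1) (hy : v y < 1) : v (x + y) = 1 := by
  rw [Valuation.map_add_eq_of_lt_left, hx]; rwa [hx]

theorem vadd {x y : C} (hx : v x ≤ 1) (hy : v y ≤ 1) : v (x + y) ≤ 1 :=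
  (v.map_add _ _).trans (max_le hx hy)

theorem vsub {x y : C} (hx : v x ≤ 1) (hy : v y ≤ 1) : v (x - y) ≤ 1 :=
  (v.map_sub _ _).trans (max_le hx hy)

theorem vmul {x y : C} (hx : v x ≤ 1) (hy : v y ≤ 1) : v (x * y) ≤ 1 := by
  rw [map_mul]; exact mul_le_one' hx hy

theorem vneg {x : C} (hx : v x ≤ 1) : v (-x) ≤ 1 := by rwa [Valuation.map_neg]

theorem vnat (n : ℕ) : v (n : C) ≤ 1 := by
  induction n with
  | zero => simp
  | succ n ih => rw [Nat.cast_succ]; exact vadd ih (by simp)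

theorem vlt {x y : C} (hx : v x < 1) (hy : v y ≤ 1) : v (x * y) < 1 := by
  rw [map_mul]; exact (mul_le_of_le_one_right' hy).trans_lt hx

/-- integral parameters, odd residue characteristic -/
structure Itg (v : Valuation C ℝ≥0) (P : Par C) : Prop where
  two : v 2 = 1
  p1 : v P.p1 ≤ 1
  p2 : v P.p2 ≤ 1

namespace Itg

variable {P : Par C} (h : Itg v P)
include h

theorem p3 : v P.p3 ≤ 1 := by rw [P.p3_eq]; exact vsub (vneg h.p1) h.p2
theorem d1 : v P.d1 ≤ 1 := vsub h.p2 h.p3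
theorem d2 : v P.d2 ≤ 1 := vsub h.p3 h.p1
theorem d3 : v P.d3 ≤ 1 := vsub h.p1 h.p2

omit h in
theorem al_sq (P : Par C) : v P.al ^ 2 = v P.p2 ^ 3 * v P.d2 := by
  rw [← map_pow, P.al_sq, map_mul, Valuation.map_neg, map_pow]
omit h in
theorem be_sq (P : Par C) : v P.be ^ 2 = v P.p3 ^ 3 * v P.d3 := by
  rw [← map_pow, P.be_sq, map_mul, map_pow]

theorem al' : v (P.al / P.p2) ≤ 1 := le_one_of_sq (by
  have := P.h2
  rw [div_pow, P.al_sq, show -P.p2 ^ 3 * P.d2 / P.p2 ^ 2 = -(P.p2 * P.d2) by field_simp]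
  exact vneg (vmul h.p2 h.d2))
theorem be' : v (P.be / P.p3) ≤ 1 := le_one_of_sq (by
  have := P.h3
  rw [div_pow, P.be_sq, show P.p3 ^ 3 * P.d3 / P.p3 ^ 2 = P.p3 * P.d3 by field_simp]
  exact vmul h.p3 h.d3)
theorem al : v P.al ≤ 1 := by
  rw [← div_mul_cancel₀ P.al P.h2]; exact vmul h.al' h.p2
theorem be : v P.be ≤ 1 := by
  rw [← div_mul_cancel₀ P.be P.h3]; exact vmul h.be' h.p3

omit h in
theorem vS (P : Par C) : v (P.al + P.be) * v (P.al - P.be) = v P.p1 ^ 3 * v P.d1 := by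
  rw [← map_mul, P.sq_sub, map_mul, map_pow]
omit h in
theorem vX (P : Par C) : v (P.al * P.p3 + P.be * P.p2) * v (P.al * P.p3 - P.be * P.p2) =
    v P.p2 ^ 2 * v P.p3 ^ 2 * (v P.p1 * v P.d1) := by
  rw [← map_mul, P.sq_sub2]; simp only [map_mul, map_pow]
omit h in
theorem vE (P : Par C) : v (P.be * P.d3 * P.p2 + P.al * P.d2 * P.p3) *
    v (P.be * P.d3 * P.p2 - P.al * P.d2 * P.p3) =
    v P.p2 ^ 2 * v P.p3 ^ 2 * (v P.p1 * v P.d1 ^ 3) := by
  rw [← map_mul, P.sq_sub3]; simp only [Valuation.map_neg, map_mul, map_pow]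
omit h in
theorem va1 (P : Par C) : v P.a1 = v P.p1 / v P.d1 := by
  rw [Par.a1, map_div₀, Valuation.map_neg]
omit h in
theorem va2 (P : Par C) : v P.a2 = v P.d1 / v P.p1 := by
  rw [Par.a2, map_div₀, Valuation.map_neg]
omit h in
theorem va3 (P : Par C) : v P.a3 = v (P.al + P.be) / v (P.al - P.be) := by
  rw [P.a3_eq, map_div₀]

theorem vc : v P.c = v P.t * v P.p1 * v (P.be * P.d3 * P.p2 + P.al * P.d2 * P.p3) /
    (v P.al * v P.be) := by
  rw [P.c_eq]; simp only [map_div₀, map_mul, h.two, one_mul]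

theorem v12 : v (P.a1 - P.a2) * (v P.p1 * v P.d1) = v P.p2 * v P.p3 := by
  have := congrArg v P.a1_sub_a2
  rw [show (4 : C) = 2 * 2 by norm_num] at this
  simpa only [map_mul, Valuation.map_neg, h.two, one_mul] using this
theorem v31 : v (P.a3 - P.a1) * (v (P.al - P.be) * v P.d1) = v (P.al * P.p3 - P.be * P.p2) := by
  have := congrArg v P.a3_sub_a1
  simpa only [map_mul, Valuation.map_neg, h.two, one_mul] using this
theorem v32 : v (P.a3 - P.a2) * (v (P.al - P.be) * v P.p1) = v (P.al * P.p3 + P.be * P.p2) := by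
  have := congrArg v P.a3_sub_a2
  simpa only [map_mul, Valuation.map_neg, h.two, one_mul] using this

/-- rows `p2, p3, d2, d3` and the generic row -/
theorem row0 (h1 : v P.p1 = 1) (hd : v P.d1 = 1) :
    v P.a1 = 1 ∧ v P.a2 = 1 ∧ v P.a3 = 1 ∧ v (P.a1 - P.a2) = v P.p2 * v P.p3 ∧
    v (P.a3 - P.a1) = v P.p2 * v P.p3 ∧ v (P.a3 - P.a2) = v P.p2 * v P.p3 ∧
    v P.c ^ 2 * (v P.p2 * v P.p3 * (v P.d2 * v P.d3)) = v P.t ^ 2 := by
  have n2 := P.h2; have n3 := P.h3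
  have m2 : v P.p2 ≠ 0 := by simpa using n2
  have m3 : v P.p3 ≠ 0 := by simpa using n3
  obtain ⟨s1, s2⟩ := eq_one_of_mul (vadd h.al h.be) (vsub h.al h.be)
    (by rw [vS, h1, hd]; simp)
  have eX : ∀ ε : C, P.al * P.p3 + ε * (P.be * P.p2) =
      P.p2 * P.p3 * (P.al / P.p2 + ε * (P.be / P.p3)) := fun ε => by field_simp
  have eE : ∀ ε : C, P.be * P.d3 * P.p2 + ε * (P.al * P.d2 * P.p3) =
      P.p2 * P.p3 * (P.be / P.p3 * P.d3 + ε * (P.al / P.p2 * P.d2)) := fun ε => by field_simp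
  have x1 := eX 1; have x2 := eX (-1); have e1 := eE 1; have e2 := eE (-1)
  simp only [one_mul, neg_mul, ← sub_eq_add_neg] at x1 x2 e1 e2
  have can : ∀ a b : ℝ≥0, v P.p2 * v P.p3 * a * (v P.p2 * v P.p3 * b) =
      v P.p2 ^ 2 * v P.p3 ^ 2 * 1 → a * b = 1 := fun a b e =>
    mul_left_cancel₀ (mul_ne_zero (pow_ne_zero 2 m2) (pow_ne_zero 2 m3)) (by rw [← e]; ring)
  have hX := vX (v := v) P
  have hE := vE (v := v) P
  rw [h1, hd, x1, x2, map_mul, map_mul, map_mul, map_mul, one_mul] at hX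
  rw [h1, hd, e1, e2, map_mul, map_mul, map_mul, map_mul, one_pow, one_mul] at hE
  obtain ⟨t1, t2⟩ := eq_one_of_mul (vadd h.al' h.be') (vsub h.al' h.be') (can _ _ hX)
  obtain ⟨u1, -⟩ := eq_one_of_mul (vadd (vmul h.be' h.d3) (vmul h.al' h.d2))
    (vsub (vmul h.be' h.d3) (vmul h.al' h.d2)) (can _ _ hE)
  have a := h.v12; have b := h.v31; have c := h.v32
  rw [h1, hd, one_mul, mul_one] at a
  rw [s2, hd, one_mul, mul_one, x2, map_mul, map_mul, t2, mul_one] at b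
  rw [s2, h1, one_mul, mul_one, x1, map_mul, map_mul, t1, mul_one] at c
  refine ⟨by rw [va1, h1, hd, div_one], by rw [va2, h1, hd, div_one], by rw [va3, s1, s2, div_one],
    a, b, c, ?_⟩
  have ma : v P.al ≠ 0 := by simpa using P.al_ne
  have mb : v P.be ≠ 0 := by simpa using P.be_ne
  have md2 : v P.d2 ≠ 0 := by simpa using P.d2_ne
  have md3 : v P.d3 ≠ 0 := by simpa using P.d3_ne
  rw [h.vc, h1, e1, map_mul, map_mul, u1, div_pow, mul_pow (v P.al), al_sq, be_sq]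
  field_simp

theorem units (h2 : v P.p2 = 1) (h3 : v P.p3 = 1) (k2 : v P.d2 = 1) (k3 : v P.d3 = 1) :
    v P.al = 1 ∧ v P.be = 1 :=
  ⟨eq_of_sq (by rw [al_sq, h2, k2]; simp), eq_of_sq (by rw [be_sq, h3, k3]; simp)⟩

theorem cases (hb : v P.be = 1) : v (P.al - P.be) = 1 ∨ v (P.al + P.be) = 1 := by
  by_contra hc
  push Not at hc
  have a := lt_of_le_of_ne (vsub h.al h.be) hc.1
  have b := lt_of_le_of_ne (vadd h.al h.be) hc.2
  have c := lt_of_le_of_lt (v.map_sub _ _) (max_lt b a)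
  rw [show P.al + P.be - (P.al - P.be) = 2 * P.be by ring, map_mul, h.two, hb, one_mul] at c
  exact lt_irrefl _ c

/-- row `p1` -/
theorem row1 (h1 : v P.p1 < 1) (h2 : v P.p2 = 1) :
    v P.a1 = v P.p1 ∧ v P.a2 = (v P.p1)⁻¹ ∧
    ((v P.a3 = v P.p1 ^ 3 ∧ v P.c = v P.t * v P.p1) ∨
      (v P.a3 = (v P.p1 ^ 3)⁻¹ ∧ v P.c = v P.t * v P.p1 ^ 2)) := by
  have n2 : v (-P.p2) = 1 := by rwa [Valuation.map_neg]
  have h3 : v P.p3 = 1 := by
    rw [P.p3_eq, show -P.p1 - P.p2 = -P.p2 + P.p1 * -1 by ring]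
    exact add_small n2 (vlt h1 (by simp))
  have k1 : v P.d1 = 1 := by
    rw [Par.d1, P.p3_eq, show P.p2 - (-P.p1 - P.p2) = 2 * P.p2 + P.p1 by ring]
    exact add_small (by rw [map_mul, h.two, h2, one_mul]) h1
  have k2 : v P.d2 = 1 := by
    rw [Par.d2, show P.p3 - P.p1 = P.p3 + P.p1 * -1 by ring]
    exact add_small h3 (vlt h1 (by simp))
  have k3 : v P.d3 = 1 := by
    rw [Par.d3, show P.p1 - P.p2 = -P.p2 + P.p1 by ring]
    exact add_small n2 h1
  obtain ⟨ha, hb⟩ := h.units h2 h3 k2 k3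
  have hS := vS (v := v) P
  have hE := vE (v := v) P
  rw [k1, mul_one] at hS
  rw [h2, h3, k1] at hE
  have i3 : v (3 * P.p2 + 2 * P.p1) ≤ 1 :=
    vadd (vmul (by simpa using vnat (v := v) 3) h.p2) (vmul h.two.le h.p1)
  refine ⟨by rw [va1, k1, div_one], by rw [va2, k1, one_div], ?_⟩
  rcases h.cases hb with s | s
  · left
    rw [s, mul_one] at hS
    have e : v (P.be * P.d3 * P.p2 + P.al * P.d2 * P.p3) = 1 := by
      rw [show P.be * P.d3 * P.p2 + P.al * P.d2 * P.p3 = P.p2 ^ 2 * (P.al - P.be) +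
        P.p1 * (P.be * P.p2 + P.al * (3 * P.p2 + 2 * P.p1)) by
          rw [Par.d2, Par.d3, P.p3_eq]; ring]
      exact add_small (by rw [map_mul, map_pow, h2, s]; simp)
        (vlt h1 (vadd (vmul h.be h.p2) (vmul h.al i3)))
    exact ⟨by rw [va3, hS, s, div_one], by rw [h.vc, e, ha, hb]; simp⟩
  · right
    rw [s, one_mul] at hS
    have e : v (P.be * P.d3 * P.p2 - P.al * P.d2 * P.p3) = 1 := by
      rw [show P.be * P.d3 * P.p2 - P.al * P.d2 * P.p3 = -P.p2 ^ 2 * (P.al + P.be) +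
        P.p1 * (P.be * P.p2 - P.al * (3 * P.p2 + 2 * P.p1)) by
          rw [Par.d2, Par.d3, P.p3_eq]; ring]
      exact add_small (by rw [map_mul, Valuation.map_neg, map_pow, h2, s]; simp)
        (vlt h1 (vsub (vmul h.be h.p2) (vmul h.al i3)))
    rw [e] at hE
    simp only [one_pow, one_mul, mul_one] at hE
    exact ⟨by rw [va3, hS, s, one_div], by rw [h.vc, hE, ha, hb]; simp [sq, mul_assoc]⟩

/-- row `d1` -/
theorem rowd (three : v 3 = 1) (k1 : v P.d1 < 1) (h2 : v P.p2 = 1) :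
    v P.a1 = (v P.d1)⁻¹ ∧ v P.a2 = v P.d1 ∧
    ((v P.a3 = v P.d1 ∧ v (P.a3 - P.a2) = v P.d1 ∧ v P.c = v P.t) ∨
      (v P.a3 = (v P.d1)⁻¹ ∧ v (P.a3 - P.a1) = (v P.d1)⁻¹ ∧ v P.c = v P.t * v P.d1 ^ 3)) := by
  have e3 : P.p3 = P.p2 - P.d1 := by rw [Par.d1]; ring
  have e1 : P.p1 = -2 * P.p2 + P.d1 := by rw [Par.d1]; linear_combination P.sum
  have md : v P.d1 ≠ 0 := by simpa using P.d1_ne
  have h3 : v P.p3 = 1 := by
    rw [e3, show P.p2 - P.d1 = P.p2 + P.d1 * -1 by ring]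
    exact add_small h2 (vlt k1 (by simp))
  have h1 : v P.p1 = 1 := by
    rw [e1]
    exact add_small (by rw [map_mul, Valuation.map_neg, h.two, h2, one_mul]) k1
  have k2 : v P.d2 = 1 := by
    rw [show P.d2 = 3 * P.p2 + P.d1 * -2 by rw [Par.d2, Par.d1]; linear_combination -P.sum]
    exact add_small (by rw [map_mul, three, h2, one_mul]) (vlt k1 (vneg h.two.le))
  have k3 : v P.d3 = 1 := by
    rw [show P.d3 = -3 * P.p2 + P.d1 by rw [Par.d3, Par.d1]; linear_combination P.sum]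
    exact add_small (by rw [map_mul, Valuation.map_neg, three, h2, one_mul]) k1
  obtain ⟨ha, hb⟩ := h.units h2 h3 k2 k3
  have hS := vS (v := v) P
  have hX := vX (v := v) P
  have hE := vE (v := v) P
  rw [h1, one_pow, one_mul] at hS
  rw [h1, h2, h3] at hX hE
  have i5 : v (-5 * P.p2 + 2 * P.d1) ≤ 1 :=
    vadd (vmul (vneg (by simpa using vnat (v := v) 5)) h.p2) (vmul h.two.le h.d1)
  have f2 : P.d2 = 3 * P.p2 - 2 * P.d1 := by rw [Par.d2, Par.d1]; linear_combination -P.sum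
  have f3 : P.d3 = -3 * P.p2 + P.d1 := by rw [Par.d3, Par.d1]; linear_combination P.sum
  refine ⟨by rw [va1, h1, one_div], by rw [va2, h1, div_one], ?_⟩
  rcases h.cases hb with s | s
  · left
    rw [s, mul_one] at hS
    have x : v (P.al * P.p3 - P.be * P.p2) = 1 := by
      rw [show P.al * P.p3 - P.be * P.p2 = P.p2 * (P.al - P.be) + P.d1 * -P.al by rw [e3]; ring]
      exact add_small (by rw [map_mul, h2, s, one_mul]) (vlt k1 (vneg h.al))
    have e : v (P.be * P.d3 * P.p2 + P.al * P.d2 * P.p3) = 1 := by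
      rw [show P.be * P.d3 * P.p2 + P.al * P.d2 * P.p3 = 3 * P.p2 ^ 2 * (P.al - P.be) +
        P.d1 * (P.be * P.p2 + P.al * (-5 * P.p2 + 2 * P.d1)) by rw [f2, f3, e3]; ring]
      exact add_small (by rw [map_mul, map_mul, map_pow, three, h2, s]; simp)
        (vlt k1 (vadd (vmul h.be h.p2) (vmul h.al i5)))
    rw [x] at hX
    simp only [one_pow, one_mul, mul_one] at hX
    have c := h.v32
    rw [s, h1, hX, one_mul, mul_one] at c
    exact ⟨by rw [va3, hS, s, div_one], c, by rw [h.vc, e, ha, hb, h1]; simp⟩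
  · right
    rw [s, one_mul] at hS
    have x : v (P.al * P.p3 + P.be * P.p2) = 1 := by
      rw [show P.al * P.p3 + P.be * P.p2 = P.p2 * (P.al + P.be) + P.d1 * -P.al by rw [e3]; ring]
      exact add_small (by rw [map_mul, h2, s, one_mul]) (vlt k1 (vneg h.al))
    have e : v (P.be * P.d3 * P.p2 - P.al * P.d2 * P.p3) = 1 := by
      rw [show P.be * P.d3 * P.p2 - P.al * P.d2 * P.p3 = -3 * P.p2 ^ 2 * (P.al + P.be) +
        P.d1 * (P.be * P.p2 - P.al * (-5 * P.p2 + 2 * P.d1)) by rw [f2, f3, e3]; ring]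
      exact add_small (by rw [map_mul, map_mul, Valuation.map_neg, map_pow, three, h2, s]; simp)
        (vlt k1 (vsub (vmul h.be h.p2) (vmul h.al i5)))
    rw [x] at hX
    rw [e] at hE
    simp only [one_pow, one_mul, mul_one] at hX hE
    have c := h.v31
    rw [hS, hX] at c
    refine ⟨by rw [va3, hS, s, one_div], ?_, by rw [h.vc, hE, ha, hb, h1]; simp⟩
    field_simp at c ⊢
    exact c

end Itg

end Crest.Agent.T15.Rt
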