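import Mathlib
import Crest.Agent.T15.RtV_22
import Crest.Agent.T15.MoB_29
import Crest.Agent.T15.NfC_2

/-!
# Row 15, block F (helper22): the reduction table of the normal form
-/

set_option autoImplicit false
set_option linter.all false

namespace Crest.Agent.T15.RtT

open Polynomial
open scoped NNReal
open Crest.Agent.R013.GR4_921 Crest.Agent.T15.Mo Crest.Agent.T15.Nf
open Crest.Agent.T15.Rt (Itg eq_of_sq add_small vlt)

variable {C k : Type} [Field C] [Field k] {v : Valuation C ℝ≥0} {ρ : C → k}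

/-- `π² X² - a = s f` with `f` reducing to `g` -/
def Fc (v : Valuation C ℝ≥0) (ρ : C → k) (z π a s : C) (g : k[X]) : Prop :=
  ∃ f : C[X], (Polynomial.C z + Polynomial.C π * X) ^ 2 - Polynomial.C a = Polynomial.C s * f ∧
    Rd v ρ f g

theorem div_lt1 {a b : C} (h : v a < v b) : v (a / b) < 1 := by
  rw [map_div₀]; exact (div_lt_one₀ (lt_of_le_of_lt zero_le h)).2 h

theorem div_eq1 {a b : C} (hb : b ≠ 0) (h : v a = v b) : v (a / b) = 1 := by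
  rw [map_div₀, h, div_self (by simpa using hb)]

theorem fc_lt (hr : IsRes v ρ) {π a : C} (h : v a < v (π ^ 2)) : Fc v ρ 0 π a (π ^ 2) (X ^ 2) := by
  have h0 : π ^ 2 ≠ 0 := by rintro e; rw [e] at h; simp at h
  refine ⟨X ^ 2 - Polynomial.C (a / π ^ 2), ?_,
    (((Rd.X hr).pow hr 2).sub hr (Rd.cst_lt hr (div_lt1 h))).congr rfl (sub_zero _)⟩
  rw [mul_sub, ← C_mul, mul_div_cancel₀ _ h0]; simp; ring

theorem fc_eq (hr : IsRes v ρ) {π a : C} (h0 : π ≠ 0) (h : v a = v (π ^ 2)) :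
    Fc v ρ 0 π a (π ^ 2) (X ^ 2 - Polynomial.C (ρ (a / π ^ 2))) := by
  have h0 : π ^ 2 ≠ 0 := pow_ne_zero 2 h0
  refine ⟨X ^ 2 - Polynomial.C (a / π ^ 2), ?_,
    ((Rd.X hr).pow hr 2).sub hr (Rd.cst hr (div_eq1 h0 h).le)⟩
  rw [mul_sub, ← C_mul, mul_div_cancel₀ _ h0]; simp; ring

theorem fc_gt (hr : IsRes v ρ) {π a : C} (h : v (π ^ 2) < v a) : Fc v ρ 0 π a (-a) 1 := by
  have h0 : a ≠ 0 := by rintro e; rw [e] at h; simp at h
  refine ⟨1 - Polynomial.C (π ^ 2 / a) * X ^ 2, ?_, ((Rd.one hr).sub hr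
    ((Rd.cst_lt hr (div_lt1 h)).mul hr ((Rd.X hr).pow hr 2))).congr rfl (by simp)⟩
  rw [mul_sub, ← mul_assoc, ← C_mul, neg_mul, mul_div_cancel₀ _ h0]; simp; ring

theorem fc_st (hr : IsRes v ρ) {z π a : C} (h0 : π ≠ 0) (hπ : v π < 1) (hz : v (2 * z) ≤ 1)
    (h : v ((z ^ 2 - a) / π) ≤ 1) : Fc v ρ z π a π
      (Polynomial.C (ρ (2 * z)) * X + Polynomial.C (ρ ((z ^ 2 - a) / π))) := by
  refine ⟨Polynomial.C π * X ^ 2 + (Polynomial.C (2 * z) * X + Polynomial.C ((z ^ 2 - a) / π)), ?_,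
    (((Rd.cst_lt hr hπ).mul hr ((Rd.X hr).pow hr 2)).add hr
      (((Rd.cst hr hz).mul hr (Rd.X hr)).add hr (Rd.cst hr h))).congr rfl (by simp)⟩
  rw [mul_add, mul_add, ← C_mul, mul_div_cancel₀ _ h0]; simp [map_ofNat]; ring

theorem comp_Fm (c a1 a2 a3 : C) (q : C[X]) : (Fm c a1 a2 a3).comp q =
    Polynomial.C c * q * (q ^ 2 - Polynomial.C a1) * (q ^ 2 - Polynomial.C a2) *
      (q ^ 2 - Polynomial.C a3) := by
  simp [Fm]

/-- a chart centred at `0` -/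
theorem ch0 (hr : IsRes v ρ) {c a1 a2 a3 π γ s1 s2 s3 : C} {g1 g2 g3 G H : k[X]} (hπ : π ≠ 0)
    (hγ : γ ≠ 0) (h1 : Fc v ρ 0 π a1 s1 g1) (h2 : Fc v ρ 0 π a2 s2 g2) (h3 : Fc v ρ 0 π a3 s3 g3)
    (hu : v (c * π * s1 * s2 * s3) = v (γ ^ 2)) (hG : G ≠ 0)
    (he : X * g1 * g2 * g3 = G ^ 2 * H) (hs : H.Separable) (hp : 0 < H.natDegree) :
    ∃ H' : k[X], Ch v ρ (Fm c a1 a2 a3) 0 π γ G H' ∧ H'.natDegree = H.natDegree := by
  obtain ⟨f1, e1, r1⟩ := h1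
  obtain ⟨f2, e2, r2⟩ := h2
  obtain ⟨f3, e3, r3⟩ := h3
  have hγ2 := pow_ne_zero 2 hγ
  have u1 := div_eq1 hγ2 hu
  have u0 : ρ (c * π * s1 * s2 * s3 / γ ^ 2) ≠ 0 := (hr.ne_zero_iff u1.le).2 u1
  refine ⟨Polynomial.C (ρ (c * π * s1 * s2 * s3 / γ ^ 2)) * H, Ch.mk' hπ hγ
    (F1 := Polynomial.C (c * π * s1 * s2 * s3 / γ ^ 2) * (X * f1 * f2 * f3)) ?_
    (((Rd.cst hr u1.le).mul hr ((((Rd.X hr).mul hr r1).mul hr r2).mul hr r3)).congr rfl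
      (by rw [he]; ring)) hG ?_ (by rwa [natDegree_C_mul u0]), natDegree_C_mul u0⟩
  · rw [comp_Fm, e1, e2, e3, ← mul_assoc (Polynomial.C (γ ^ 2)), ← C_mul, mul_div_cancel₀ _ hγ2]
    simp; ring
  · exact (associated_unit_mul_right H _ (isUnit_C.2 (IsUnit.mk0 _ u0))).separable hs

/-- a chart centred at a unit -/
theorem ch1 (hr : IsRes v ρ) {c a1 a2 a3 z π γ s1 s2 s3 : C} {g1 g2 g3 : k[X]} (hπ : π ≠ 0)
    (hπ1 : v π < 1) (hz : v z = 1)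
    (hγ : γ ≠ 0) (h1 : Fc v ρ z π a1 s1 g1) (h2 : Fc v ρ z π a2 s2 g2) (h3 : Fc v ρ z π a3 s3 g3)
    (hu : v (c * s1 * s2 * s3) = v (γ ^ 2)) (hs : (g1 * g2 * g3).Separable)
    (hp : 0 < (g1 * g2 * g3).natDegree) :
    ∃ H' : k[X], Ch v ρ (Fm c a1 a2 a3) z π γ 1 H' ∧ H'.natDegree = (g1 * g2 * g3).natDegree := by
  obtain ⟨f1, e1, r1⟩ := h1
  obtain ⟨f2, e2, r2⟩ := h2
  obtain ⟨f3, e3, r3⟩ := h3
  have hγ2 := pow_ne_zero 2 hγ
  have u1 := div_eq1 hγ2 hu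
  have u0 : ρ (c * s1 * s2 * s3 / γ ^ 2) * ρ z ≠ 0 :=
    mul_ne_zero ((hr.ne_zero_iff u1.le).2 u1) ((hr.ne_zero_iff hz.le).2 hz)
  refine ⟨Polynomial.C (ρ (c * s1 * s2 * s3 / γ ^ 2) * ρ z) * (g1 * g2 * g3), Ch.mk' hπ hγ
    (F1 := Polynomial.C (c * s1 * s2 * s3 / γ ^ 2) *
      ((Polynomial.C z + Polynomial.C π * X) * f1 * f2 * f3)) ?_
    (((Rd.cst hr u1.le).mul hr (((((Rd.cst hr hz.le).add hr ((Rd.cst_lt hr hπ1).mul hr
      (Rd.X hr))).mul hr r1).mul hr r2).mul hr r3)).congr rfl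
      (by simp; ring)) one_ne_zero ?_ (by rwa [natDegree_C_mul u0]), natDegree_C_mul u0⟩
  · rw [comp_Fm, e1, e2, e3, ← mul_assoc (Polynomial.C (γ ^ 2)), ← C_mul, mul_div_cancel₀ _ hγ2]
    simp; ring
  · exact (associated_unit_mul_right _ _ (isUnit_C.2 (IsUnit.mk0 _ u0))).separable hs

theorem sep1 (h2 : (2 : k) ≠ 0) {a : k} (ha : a ≠ 0) :
    (X * (X ^ 2 - Polynomial.C a) : k[X]).Separable ∧
      (X * (X ^ 2 - Polynomial.C a) : k[X]).natDegree = 3 := by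
  refine ⟨separable_X.mul (separable_X_pow_sub_C a (by exact_mod_cast h2) ha)
    (by simpa using cop_X one_ne_zero ha), ?_⟩
  rw [natDegree_mul X_ne_zero (X_pow_sub_C_ne_zero two_pos a), natDegree_X, natDegree_X_pow_sub_C]
  rfl

theorem sep2 (h2 : (2 : k) ≠ 0) {a b : k} (ha : a ≠ 0) (hb : b ≠ 0) (hab : a ≠ b) :
    (X * (X ^ 2 - Polynomial.C a) * (X ^ 2 - Polynomial.C b) : k[X]).Separable ∧
      (X * (X ^ 2 - Polynomial.C a) * (X ^ 2 - Polynomial.C b) : k[X]).natDegree = 5 := by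
  refine ⟨(sep1 h2 ha).1.mul (separable_X_pow_sub_C b (by exact_mod_cast h2) hb)
    (IsCoprime.mul_left (by simpa using cop_X one_ne_zero hb) (cop_sq hab)), ?_⟩
  rw [natDegree_mul (mul_ne_zero X_ne_zero (X_pow_sub_C_ne_zero two_pos a))
    (X_pow_sub_C_ne_zero two_pos b), (sep1 h2 ha).2, natDegree_X_pow_sub_C]
  rfl

theorem sep3 {s a b c : k} (hs : s ≠ 0) (hab : a ≠ b) (hac : a ≠ c) (hbc : b ≠ c) :
    ((Polynomial.C s * X + Polynomial.C a) * (Polynomial.C s * X + Polynomial.C b) *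
      (Polynomial.C s * X + Polynomial.C c) : k[X]).Separable ∧
    ((Polynomial.C s * X + Polynomial.C a) * (Polynomial.C s * X + Polynomial.C b) *
      (Polynomial.C s * X + Polynomial.C c) : k[X]).natDegree = 3 := by
  have l : ∀ a : k, (Polynomial.C s * X + Polynomial.C a : k[X]).Separable := fun a =>
    ⟨0, Polynomial.C s⁻¹, by simp [← C_mul, inv_mul_cancel₀ hs]⟩
  have m : ∀ a b : k, a ≠ b → IsCoprime (Polynomial.C s * X + Polynomial.C a : k[X])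
      (Polynomial.C s * X + Polynomial.C b) := fun a b h => by
    refine ⟨Polynomial.C (a - b)⁻¹, -Polynomial.C (a - b)⁻¹, ?_⟩
    have : Polynomial.C (a - b)⁻¹ * Polynomial.C (a - b) = 1 := by
      rw [← C_mul, inv_mul_cancel₀ (sub_ne_zero.2 h), C_1]
    rw [C_sub] at this
    linear_combination this
  have d : ∀ a : k, (Polynomial.C s * X + Polynomial.C a : k[X]).natDegree = 1 := fun a =>
    natDegree_linear hs
  have n : ∀ a : k, (Polynomial.C s * X + Polynomial.C a : k[X]) ≠ 0 := fun a h => by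
    have := d a; rw [h] at this; simp at this
  refine ⟨((l a).mul (l b) (m a b hab)).mul (l c) ((m a c hac).mul_left (m b c hbc)), ?_⟩
  rw [natDegree_mul (mul_ne_zero (n a) (n b)) (n c), natDegree_mul (n a) (n b), d, d, d]

theorem res_ne (hr : IsRes v ρ) {a b : C} (ha : v a ≤ 1) (hb : v b ≤ 1) (h : v (a - b) = 1) :
    ρ a ≠ ρ b := fun e => by
  rw [hr.eq_iff ha hb, h] at e; exact lt_irrefl _ e

theorem res_ne0 (hr : IsRes v ρ) {a : C} (h : v a = 1) : ρ a ≠ 0 := (hr.ne_zero_iff h.le).2 h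

theorem res_div_ne (hr : IsRes v ρ) {a b s : C} (hs : s ≠ 0) (ha : v a = v s) (hb : v b = v s)
    (h : v (a - b) = v s) : ρ (a / s) ≠ ρ (b / s) :=
  res_ne hr (div_eq1 hs ha).le (div_eq1 hs hb).le (by rw [← sub_div]; exact div_eq1 hs h)

section rows

variable (hr : IsRes v ρ) (h2 : (2 : k) ≠ 0) {ϖ c a1 a2 a3 : C} (h0 : ϖ ≠ 0) (h1 : v ϖ < 1)
  {P : ℤ → ℤ → Prop}
include hr h2 h0 h1

omit hr h2 in
theorem pw_lt {i j : ℤ} (h : j < i) : v ϖ ^ i < v ϖ ^ j :=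
  zpow_lt_zpow_right_of_lt_one₀ ((Valuation.pos_iff v).2 h0) h1 h

omit hr h2 h1 in
theorem v_sq (j : ℤ) : v ((ϖ ^ j) ^ 2) = v ϖ ^ (2 * j) := by
  rw [map_pow, map_zpow₀, ← zpow_natCast, ← zpow_mul, mul_comm]; rfl

omit hr h2 h1 in
theorem c_ne {m : ℤ} (hc : v c = v ϖ ^ m) : c ≠ 0 := by
  rintro rfl
  exact zpow_ne_zero m ((Valuation.pos_iff v).2 h0).ne' (by rw [← hc, map_zero])

/-- one disc of genus three -/
theorem tab_good {m : ℤ} (e1 : v a1 = 1) (e2 : v a2 = 1) (e3 : v a3 = 1) (e12 : v (a1 - a2) = 1)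
    (e31 : v (a3 - a1) = 1) (e32 : v (a3 - a2) = 1) (hc : v c = v ϖ ^ (2 * m)) (hP : P 0 m) :
    Tab v ρ (Fm c a1 a2 a3) ϖ P := by
  have o : v ((1 : C) ^ 2) = 1 := by simp
  have n : (1 : C) ^ 2 ≠ 0 := by simp
  have hs := sep_Fm h2 (one_ne_zero (α := k)) (res_ne0 hr (div_eq1 n (e1.trans o.symm)))
    (res_ne0 hr (div_eq1 n (e2.trans o.symm))) (res_ne0 hr (div_eq1 n (e3.trans o.symm)))
    (res_div_ne hr n (e1.trans o.symm) (e2.trans o.symm) (e12.trans o.symm))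
    (res_div_ne hr n (e3.trans o.symm) (e1.trans o.symm) (e31.trans o.symm)).symm
    (res_div_ne hr n (e3.trans o.symm) (e2.trans o.symm) (e32.trans o.symm)).symm
  obtain ⟨H, hH, dH⟩ := ch0 hr (c := c) (γ := ϖ ^ m) one_ne_zero (zpow_ne_zero _ h0)
    (fc_eq hr one_ne_zero (e1.trans o.symm)) (fc_eq hr one_ne_zero (e2.trans o.symm))
    (fc_eq hr one_ne_zero (e3.trans o.symm)) (by rw [v_sq h0, ← hc]; simp) one_ne_zero
    (by simp [Fm]) hs (by rw [natDegree_Fm one_ne_zero]; norm_num)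
  rw [natDegree_Fm one_ne_zero] at dH
  refine ⟨Unit, inferInstance, fun _ => 0, fun _ => 1, fun _ => ϖ ^ m, fun _ => 1, fun _ => H,
    fun _ => 0, fun _ => m, fun _ => hH, fun i i' h => absurd rfl h, ?_,
    fun _ => ⟨Or.inl rfl, by simp, by simp, hP⟩⟩
  simp [natDegree_Fm (c_ne h0 hc), dH]

/-- three concentric discs -/
theorem tab_chain {j1 j2 j3 m m1 m2 m3 : ℤ} (e1 : v a1 = v ϖ ^ (2 * j1))
    (e2 : v a2 = v ϖ ^ (2 * j2)) (e3 : v a3 = v ϖ ^ (2 * j3)) (l1 : j2 < j1) (l2 : j3 < j2)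
    (hc : v c = v ϖ ^ m) (k1 : 2 * m1 = m + 3 * j1 + 2 * j2 + 2 * j3)
    (k2 : 2 * m2 = m + 5 * j2 + 2 * j3) (k3 : 2 * m3 = m + 7 * j3) (p1 : P j1 m1) (p2 : P j2 m2)
    (p3 : P j3 m3) : Tab v ρ (Fm c a1 a2 a3) ϖ P := by
  have p0 := ((Valuation.pos_iff v).2 h0).ne'
  have n : ∀ j : ℤ, ϖ ^ j ≠ 0 := fun j => zpow_ne_zero _ h0
  have q1 : v a1 = v ((ϖ ^ j1) ^ 2) := by rw [e1, v_sq h0]
  have q2 : v a2 = v ((ϖ ^ j2) ^ 2) := by rw [e2, v_sq h0]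
  have q3 : v a3 = v ((ϖ ^ j3) ^ 2) := by rw [e3, v_sq h0]
  have s1 := sep1 h2 (res_ne0 hr (div_eq1 (pow_ne_zero 2 (n _)) q1))
  have s2 := sep1 h2 (res_ne0 hr (div_eq1 (pow_ne_zero 2 (n _)) q2))
  have s3 := sep1 h2 (res_ne0 hr (div_eq1 (pow_ne_zero 2 (n _)) q3))
  obtain ⟨H1, hH1, d1⟩ := ch0 hr (c := c) (γ := ϖ ^ m1) (G := 1) (n j1) (n _) (fc_eq hr (n _) q1)
    (fc_gt hr (a := a2) (by rw [e2, v_sq h0]; exact pw_lt h0 h1 (by omega)))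
    (fc_gt hr (a := a3) (by rw [e3, v_sq h0]; exact pw_lt h0 h1 (by omega)))
    (by simp only [map_mul, Valuation.map_neg, v_sq h0, map_zpow₀, hc, e2, e3, ← zpow_add₀ p0]
        congr 1; omega) one_ne_zero (by ring) s1.1 (by rw [s1.2]; norm_num)
  obtain ⟨H2, hH2, d2⟩ := ch0 hr (c := c) (γ := ϖ ^ m2) (G := X) (n j2) (n _)
    (fc_lt hr (a := a1) (by rw [e1, v_sq h0]; exact pw_lt h0 h1 (by omega))) (fc_eq hr (n _) q2)
    (fc_gt hr (a := a3) (by rw [e3, v_sq h0]; exact pw_lt h0 h1 (by omega)))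
    (by simp only [map_mul, Valuation.map_neg, v_sq h0, map_zpow₀, hc, e3, ← zpow_add₀ p0]
        congr 1; omega) X_ne_zero (by ring) s2.1 (by rw [s2.2]; norm_num)
  obtain ⟨H3, hH3, d3⟩ := ch0 hr (c := c) (γ := ϖ ^ m3) (G := X ^ 2) (n j3) (n _)
    (fc_lt hr (a := a1) (by rw [e1, v_sq h0]; exact pw_lt h0 h1 (by omega)))
    (fc_lt hr (a := a2) (by rw [e2, v_sq h0]; exact pw_lt h0 h1 (by omega))) (fc_eq hr (n _) q3)
    (by simp only [map_mul, v_sq h0, map_zpow₀, hc, ← zpow_add₀ p0]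
        congr 1; omega) (pow_ne_zero 2 X_ne_zero) (by ring) s3.1 (by rw [s3.2]; norm_num)
  rw [s1.2] at d1; rw [s2.2] at d2; rw [s3.2] at d3
  have inj : ∀ {i j : ℤ}, i ≠ j → v (ϖ ^ i) ≠ v (ϖ ^ j) := fun {i j} h => by
    rw [map_zpow₀, map_zpow₀]
    rcases lt_or_gt_of_ne h with h | h
    · exact (pw_lt h0 h1 h).ne'
    · exact (pw_lt h0 h1 h).ne
  refine ⟨Fin 3, inferInstance, fun _ => 0, ![ϖ ^ j1, ϖ ^ j2, ϖ ^ j3], ![ϖ ^ m1, ϖ ^ m2, ϖ ^ m3],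
    ![1, X, X ^ 2], ![H1, H2, H3], ![j1, j2, j3], ![m1, m2, m3], ?_, ?_, ?_, ?_⟩
  · intro i; fin_cases i <;> assumption
  · intro i i' h
    fin_cases i <;> fin_cases i' <;> first | exact absurd rfl h | exact Or.inl (inj (by omega))
  · simp [natDegree_Fm (c_ne h0 hc), Fin.sum_univ_three, d1, d2, d3]
  · intro i
    fin_cases i
    · exact ⟨Or.inl rfl, by simp, by simp, p1⟩
    · exact ⟨Or.inl rfl, by simp, by simp, p2⟩
    · exact ⟨Or.inl rfl, by simp, by simp, p3⟩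

/-- a small disc of genus two inside a disc of genus one -/
theorem tab_21 {j1 j3 m m1 m3 : ℤ} (e1 : v a1 = v ϖ ^ (2 * j1)) (e2 : v a2 = v ϖ ^ (2 * j1))
    (e12 : v (a1 - a2) = v ϖ ^ (2 * j1)) (e3 : v a3 = v ϖ ^ (2 * j3)) (l1 : j3 < j1)
    (hc : v c = v ϖ ^ m) (k1 : 2 * m1 = m + 5 * j1 + 2 * j3) (k3 : 2 * m3 = m + 7 * j3)
    (p1 : P j1 m1) (p3 : P j3 m3) : Tab v ρ (Fm c a1 a2 a3) ϖ P := by
  have p0 := ((Valuation.pos_iff v).2 h0).ne'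
  have n : ∀ j : ℤ, ϖ ^ j ≠ 0 := fun j => zpow_ne_zero _ h0
  have q1 : v a1 = v ((ϖ ^ j1) ^ 2) := by rw [e1, v_sq h0]
  have q2 : v a2 = v ((ϖ ^ j1) ^ 2) := by rw [e2, v_sq h0]
  have q12 : v (a1 - a2) = v ((ϖ ^ j1) ^ 2) := by rw [e12, v_sq h0]
  have q3 : v a3 = v ((ϖ ^ j3) ^ 2) := by rw [e3, v_sq h0]
  have s1 := sep2 h2 (res_ne0 hr (div_eq1 (pow_ne_zero 2 (n _)) q1))
    (res_ne0 hr (div_eq1 (pow_ne_zero 2 (n _)) q2)) (res_div_ne hr (pow_ne_zero 2 (n _)) q1 q2 q12)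
  have s3 := sep1 h2 (res_ne0 hr (div_eq1 (pow_ne_zero 2 (n _)) q3))
  obtain ⟨H1, hH1, d1⟩ := ch0 hr (c := c) (γ := ϖ ^ m1) (G := 1) (n j1) (n _) (fc_eq hr (n _) q1)
    (fc_eq hr (n _) q2) (fc_gt hr (a := a3) (by rw [e3, v_sq h0]; exact pw_lt h0 h1 (by omega)))
    (by simp only [map_mul, Valuation.map_neg, v_sq h0, map_zpow₀, hc, e3, ← zpow_add₀ p0]
        congr 1; omega) one_ne_zero (by ring) s1.1 (by rw [s1.2]; norm_num)
  obtain ⟨H3, hH3, d3⟩ := ch0 hr (c := c) (γ := ϖ ^ m3) (G := X ^ 2) (n j3) (n _)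
    (fc_lt hr (a := a1) (by rw [e1, v_sq h0]; exact pw_lt h0 h1 (by omega)))
    (fc_lt hr (a := a2) (by rw [e2, v_sq h0]; exact pw_lt h0 h1 (by omega))) (fc_eq hr (n _) q3)
    (by simp only [map_mul, v_sq h0, map_zpow₀, hc, ← zpow_add₀ p0]
        congr 1; omega) (pow_ne_zero 2 X_ne_zero) (by ring) s3.1 (by rw [s3.2]; norm_num)
  rw [s1.2] at d1; rw [s3.2] at d3
  refine ⟨Fin 2, inferInstance, fun _ => 0, ![ϖ ^ j1, ϖ ^ j3], ![ϖ ^ m1, ϖ ^ m3],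
    ![1, X ^ 2], ![H1, H3], ![j1, j3], ![m1, m3], ?_, ?_, ?_, ?_⟩
  · intro i; fin_cases i <;> assumption
  · intro i i' h
    have := pw_lt h0 h1 l1
    fin_cases i <;> fin_cases i'
    · exact absurd rfl h
    · exact Or.inl (by simpa using this.ne)
    · exact Or.inl (by simpa using this.ne')
    · exact absurd rfl h
  · simp [natDegree_Fm (c_ne h0 hc), Fin.sum_univ_two, d1, d3]
  · intro i
    fin_cases i
    · exact ⟨Or.inl rfl, by simp, by simp, p1⟩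
    · exact ⟨Or.inl rfl, by simp, by simp, p3⟩

/-- a small disc of genus one inside a disc of genus two -/
theorem tab_12 {j1 j2 m m1 m2 : ℤ} (e1 : v a1 = v ϖ ^ (2 * j1)) (e2 : v a2 = v ϖ ^ (2 * j2))
    (e3 : v a3 = v ϖ ^ (2 * j2)) (e23 : v (a2 - a3) = v ϖ ^ (2 * j2)) (l1 : j2 < j1)
    (hc : v c = v ϖ ^ m) (k1 : 2 * m1 = m + 3 * j1 + 4 * j2) (k2 : 2 * m2 = m + 7 * j2)
    (p1 : P j1 m1) (p2 : P j2 m2) : Tab v ρ (Fm c a1 a2 a3) ϖ P := by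
  have p0 := ((Valuation.pos_iff v).2 h0).ne'
  have n : ∀ j : ℤ, ϖ ^ j ≠ 0 := fun j => zpow_ne_zero _ h0
  have q1 : v a1 = v ((ϖ ^ j1) ^ 2) := by rw [e1, v_sq h0]
  have q2 : v a2 = v ((ϖ ^ j2) ^ 2) := by rw [e2, v_sq h0]
  have q3 : v a3 = v ((ϖ ^ j2) ^ 2) := by rw [e3, v_sq h0]
  have q23 : v (a2 - a3) = v ((ϖ ^ j2) ^ 2) := by rw [e23, v_sq h0]
  have s1 := sep1 h2 (res_ne0 hr (div_eq1 (pow_ne_zero 2 (n _)) q1))
  have s2 := sep2 h2 (res_ne0 hr (div_eq1 (pow_ne_zero 2 (n _)) q2))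
    (res_ne0 hr (div_eq1 (pow_ne_zero 2 (n _)) q3)) (res_div_ne hr (pow_ne_zero 2 (n _)) q2 q3 q23)
  obtain ⟨H1, hH1, d1⟩ := ch0 hr (c := c) (γ := ϖ ^ m1) (G := 1) (n j1) (n _) (fc_eq hr (n _) q1)
    (fc_gt hr (a := a2) (by rw [e2, v_sq h0]; exact pw_lt h0 h1 (by omega)))
    (fc_gt hr (a := a3) (by rw [e3, v_sq h0]; exact pw_lt h0 h1 (by omega)))
    (by simp only [map_mul, Valuation.map_neg, v_sq h0, map_zpow₀, hc, e2, e3, ← zpow_add₀ p0]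
        congr 1; omega) one_ne_zero (by ring) s1.1 (by rw [s1.2]; norm_num)
  obtain ⟨H2, hH2, d2⟩ := ch0 hr (c := c) (γ := ϖ ^ m2) (G := X) (n j2) (n _)
    (fc_lt hr (a := a1) (by rw [e1, v_sq h0]; exact pw_lt h0 h1 (by omega)))
    (fc_eq hr (n _) q2) (fc_eq hr (n _) q3)
    (by simp only [map_mul, v_sq h0, map_zpow₀, hc, ← zpow_add₀ p0]
        congr 1; omega) X_ne_zero (by ring) s2.1 (by rw [s2.2]; norm_num)
  rw [s1.2] at d1; rw [s2.2] at d2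
  refine ⟨Fin 2, inferInstance, fun _ => 0, ![ϖ ^ j1, ϖ ^ j2], ![ϖ ^ m1, ϖ ^ m2],
    ![1, X], ![H1, H2], ![j1, j2], ![m1, m2], ?_, ?_, ?_, ?_⟩
  · intro i; fin_cases i <;> assumption
  · intro i i' h
    have := pw_lt h0 h1 l1
    fin_cases i <;> fin_cases i'
    · exact absurd rfl h
    · exact Or.inl (by simpa using this.ne)
    · exact Or.inl (by simpa using this.ne')
    · exact absurd rfl h
  · simp [natDegree_Fm (c_ne h0 hc), Fin.sum_univ_two, d1, d2]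
  · intro i
    fin_cases i
    · exact ⟨Or.inl rfl, by simp, by simp, p1⟩
    · exact ⟨Or.inl rfl, by simp, by simp, p2⟩

/-- the unit disc and two small discs -/
theorem tab_star [IsAlgClosed C] {j m m1 : ℤ} (e1 : v a1 = 1) (hq : ∃ q : ℚ, a1 = q) (hj : 0 < j)
    (e12 : v (a1 - a2) = v ϖ ^ j) (e31 : v (a3 - a1) = v ϖ ^ j) (e32 : v (a3 - a2) = v ϖ ^ j)
    (hc : v c = v ϖ ^ (2 * m)) (k1 : 2 * m1 = 2 * m + 3 * j) (p0 : P 0 m) (p1 : P j m1) :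
    Tab v ρ (Fm c a1 a2 a3) ϖ P := by
  have pp := ((Valuation.pos_iff v).2 h0).ne'
  have n : ∀ j : ℤ, ϖ ^ j ≠ 0 := fun j => zpow_ne_zero _ h0
  have two := v_two hr h2
  have lt : v ϖ ^ j < 1 := by simpa using pw_lt h0 h1 hj
  have e2 : v a2 = 1 := by
    rw [show a2 = a1 + (a1 - a2) * -1 by ring]
    exact add_small e1 (vlt (e12 ▸ lt) (by simp))
  have e3 : v a3 = 1 := by
    rw [show a3 = a1 + (a3 - a1) by ring]
    exact add_small e1 (e31 ▸ lt)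
  have o : v ((1 : C) ^ 2) = 1 := by simp
  have n1 : (1 : C) ^ 2 ≠ 0 := by simp
  have r2 : ρ (a2 / 1 ^ 2) = ρ (a1 / 1 ^ 2) := by
    simp only [one_pow, div_one]
    rw [eq_comm, hr.eq_iff e1.le e2.le, e12]; exact lt
  have r3 : ρ (a3 / 1 ^ 2) = ρ (a1 / 1 ^ 2) := by
    simp only [one_pow, div_one]
    rw [hr.eq_iff e3.le e1.le, e31]; exact lt
  have s0 := sep1 h2 (res_ne0 hr (div_eq1 n1 (e1.trans o.symm)))
  obtain ⟨H0, hH0, d0⟩ := ch0 hr (c := c) (γ := ϖ ^ m)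
    (G := X ^ 2 - Polynomial.C (ρ (a1 / 1 ^ 2))) one_ne_zero (n _)
    (fc_eq hr one_ne_zero (e1.trans o.symm)) (fc_eq hr one_ne_zero (e2.trans o.symm))
    (fc_eq hr one_ne_zero (e3.trans o.symm)) (by rw [v_sq h0, ← hc]; simp)
    (X_pow_sub_C_ne_zero two_pos _) (by rw [r2, r3]; ring) s0.1 (by rw [s0.2]; norm_num)
  rw [s0.2] at d0
  have key : ∀ z : C, z ^ 2 = a1 → v z = 1 ∧
      ∃ H : k[X], Ch v ρ (Fm c a1 a2 a3) z (ϖ ^ j) (ϖ ^ m1) 1 H ∧ H.natDegree = 3 := fun z hz => by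
    have vz : v z = 1 := eq_of_sq (by rw [← map_pow, hz, e1, one_pow])
    have v2 : v (2 * z) = 1 := by rw [map_mul, two, vz, one_mul]
    have b1 : v ((z ^ 2 - a1) / ϖ ^ j) ≤ 1 := by rw [hz]; simp
    have b2 : v ((z ^ 2 - a2) / ϖ ^ j) = 1 := div_eq1 (n _) (by rw [hz, e12, map_zpow₀])
    have b3 : v ((z ^ 2 - a3) / ϖ ^ j) = 1 :=
      div_eq1 (n _) (by rw [hz, Valuation.map_sub_swap, e31, map_zpow₀])
    have s := sep3 (res_ne0 hr v2)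
      (res_ne hr b1 b2.le (by
        rw [← sub_div]
        exact div_eq1 (n _) (by
          rw [show z ^ 2 - a1 - (z ^ 2 - a2) = -(a1 - a2) by ring, Valuation.map_neg, e12,
            map_zpow₀])))
      (res_ne hr b1 b3.le (by
        rw [← sub_div]
        exact div_eq1 (n _) (by
          rw [show z ^ 2 - a1 - (z ^ 2 - a3) = a3 - a1 by ring, e31, map_zpow₀])))
      (res_ne hr b2.le b3.le (by
        rw [← sub_div]
        exact div_eq1 (n _) (by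
          rw [show z ^ 2 - a2 - (z ^ 2 - a3) = a3 - a2 by ring, e32, map_zpow₀])))
    have lt' : v (ϖ ^ j) < 1 := by rwa [map_zpow₀]
    obtain ⟨H, hH, d⟩ := ch1 hr (c := c) (γ := ϖ ^ m1) (n j) lt' vz (n _)
      (fc_st hr (n _) lt' v2.le b1) (fc_st hr (n _) lt' v2.le b2.le)
      (fc_st hr (n _) lt' v2.le b3.le)
      (by simp only [map_mul, v_sq h0, map_zpow₀, hc, ← zpow_add₀ pp]
          congr 1; omega) s.1 (by rw [s.2]; norm_num)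
    exact ⟨vz, H, hH, d.trans s.2⟩
  obtain ⟨z, hz⟩ := IsAlgClosed.exists_pow_nat_eq a1 two_pos
  obtain ⟨vz, H1, hH1, d1⟩ := key z hz
  obtain ⟨vz', H2, hH2, d2⟩ := key (-z) (by rw [neg_sq, hz])
  obtain ⟨q, hq⟩ := hq
  have far : v ϖ ^ j < v (z - -z) := by
    rw [show z - -z = 2 * z by ring, map_mul, two, vz, one_mul]; exact lt
  refine ⟨Fin 3, inferInstance, ![0, z, -z], ![1, ϖ ^ j, ϖ ^ j], ![ϖ ^ m, ϖ ^ m1, ϖ ^ m1],
    ![X ^ 2 - Polynomial.C (ρ (a1 / 1 ^ 2)), 1, 1], ![H0, H1, H2], ![0, j, j], ![m, m1, m1],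
    ?_, ?_, ?_, ?_⟩
  · intro i; fin_cases i <;> assumption
  · intro i i' h
    fin_cases i <;> fin_cases i'
    · exact absurd rfl h
    · exact Or.inl (by simpa using lt.ne')
    · exact Or.inl (by simpa using lt.ne')
    · exact Or.inl (by simpa using lt.ne)
    · exact absurd rfl h
    · exact Or.inr (by simpa using far)
    · exact Or.inl (by simpa using lt.ne)
    · exact Or.inr (by rw [Valuation.map_sub_swap] at far; simpa using far)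
    · exact absurd rfl h
  · simp [natDegree_Fm (c_ne h0 hc), Fin.sum_univ_three, d0, d1, d2]
  · intro i
    fin_cases i
    · exact ⟨Or.inl rfl, by simp, by simp, p0⟩
    · exact ⟨Or.inr ⟨vz, q, hz.trans hq⟩, by simp, by simp, p1⟩
    · exact ⟨Or.inr ⟨vz', q, (neg_sq z).trans (hz.trans hq)⟩, by simp, by simp, p1⟩

end rows

/-- **the table**: one form has norm `|ϖ| ^ (4 (T + κ))`, the others are units, and
`|t| = |ϖ| ^ (2 T)` -/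
theorem tab [IsAlgClosed C] (hr : IsRes v ρ) (h2 : (2 : k) ≠ 0) (three : v 3 = 1) {ϖ : C}
    (h0 : ϖ ≠ 0) (h1 : v ϖ < 1) {P : Par C} (hq : ∃ q : ℚ, P.a1 = q) {T κ : ℤ}
    {e1 e2 e3 f1 f2 f3 : ℕ} (v1 : v P.p1 = v ϖ ^ (4 * e1 : ℤ)) (v2 : v P.p2 = v ϖ ^ (4 * e2 : ℤ))
    (v3 : v P.p3 = v ϖ ^ (4 * e3 : ℤ)) (w1 : v P.d1 = v ϖ ^ (4 * f1 : ℤ))
    (w2 : v P.d2 = v ϖ ^ (4 * f2 : ℤ)) (w3 : v P.d3 = v ϖ ^ (4 * f3 : ℤ))
    (vt : v P.t = v ϖ ^ (2 * T)) (hs : (e1 + e2 + e3 + f1 + f2 + f3 : ℤ) = T + κ)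
    (one : (e1 = 0 ∧ f1 = 0 ∧ (e2 + e3 = 0 ∨ f2 + f3 = 0)) ∨
      (e2 + e3 + f2 + f3 = 0 ∧ (e1 = 0 ∨ f1 = 0))) :
    Tab v ρ P.F ϖ fun j m => Even j ∧ Even (m + κ) := by
  have pp := (Valuation.pos_iff v).2 h0
  have le : ∀ e : ℕ, v ϖ ^ (4 * e : ℤ) ≤ 1 := fun e => zpow_le_one₀ pp h1.le (by omega)
  have lt : ∀ e : ℕ, e ≠ 0 → v ϖ ^ (4 * e : ℤ) < 1 := fun e he => zpow_lt_one₀ pp h1 (by omega)
  have hI : Itg v P := ⟨v_two hr h2, v1 ▸ le _, v2 ▸ le _⟩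
  by_cases hz : e1 = 0 ∧ f1 = 0
  · obtain ⟨rfl, rfl⟩ := hz
    obtain ⟨a1, a2, a3, a12, a31, a32, ac⟩ := hI.row0 (by simpa using v1) (by simpa using w1)
    have hc : v P.c = v ϖ ^ (2 * -κ) := eq_of_sq (mul_right_cancel₀
      (zpow_ne_zero (4 * (T + κ)) pp.ne') (by
        rw [v2, v3, w2, w3, vt, ← zpow_add₀ pp.ne', ← zpow_add₀ pp.ne', ← zpow_add₀ pp.ne',
          show (4 * e2 + 4 * e3 + (4 * f2 + 4 * f3) : ℤ) = 4 * (T + κ) by
            push_cast at hs; omega] at ac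
        rw [ac, ← zpow_natCast, ← zpow_natCast, ← zpow_mul, ← zpow_mul, ← zpow_add₀ pp.ne']
        congr 1; push_cast; ring))
    rw [v2, v3, ← zpow_add₀ pp.ne'] at a12 a31 a32
    by_cases h23 : e2 + e3 = 0
    · have z : (4 * e2 + 4 * e3 : ℤ) = 0 := by omega
      rw [z, zpow_zero] at a12 a31 a32
      exact tab_good hr h2 h0 h1 a1 a2 a3 a12 a31 a32 hc ⟨by simp, by simp⟩
    · exact tab_star hr h2 h0 h1 (m1 := -κ + 6 * e2 + 6 * e3) a1 hq (by omega) a12 a31 a32 hc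
        (by ring) ⟨by simp, by simp⟩ ⟨⟨2 * e2 + 2 * e3, by ring⟩, ⟨3 * e2 + 3 * e3, by ring⟩⟩
  have h4 : e2 = 0 ∧ e3 = 0 ∧ f2 = 0 ∧ f3 = 0 := by omega
  obtain ⟨rfl, rfl, rfl, rfl⟩ := h4
  have u2 : v P.p2 = 1 := by simpa using v2
  by_cases h5 : f1 = 0
  · subst h5
    have hκ : κ = e1 - T := by push_cast at hs; omega
    obtain ⟨a1, a2, a3⟩ := hI.row1 (v1 ▸ lt e1 (by omega)) u2
    have b1 : v P.a1 = v ϖ ^ (2 * (2 * e1) : ℤ) := by rw [a1, v1]; congr 1; ring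
    have b2 : v P.a2 = v ϖ ^ (2 * (-2 * e1) : ℤ) := by rw [a2, v1, ← zpow_neg]; congr 1; ring
    rcases a3 with ⟨a3, ac⟩ | ⟨a3, ac⟩
    · have b3 : v P.a3 = v ϖ ^ (2 * (6 * e1) : ℤ) := by
        rw [a3, v1, ← zpow_natCast, ← zpow_mul]; congr 1; push_cast; ring
      rw [vt, v1, ← zpow_add₀ pp.ne'] at ac
      rw [show P.F = Fm P.c P.a3 P.a1 P.a2 by simp only [Par.F, Fm]; ring]
      exact tab_chain hr h2 h0 h1 (m1 := T + 11 * e1) (m2 := T + 5 * e1) (m3 := T - 5 * e1)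
        b3 b1 b2 (by omega) (by omega) ac (by ring) (by ring) (by ring)
        ⟨⟨3 * e1, by ring⟩, ⟨6 * e1, by rw [hκ]; ring⟩⟩ ⟨⟨e1, by ring⟩, ⟨3 * e1, by rw [hκ]; ring⟩⟩
        ⟨⟨-e1, by ring⟩, ⟨-2 * e1, by rw [hκ]; ring⟩⟩
    · have b3 : v P.a3 = v ϖ ^ (2 * (-6 * e1) : ℤ) := by
        rw [a3, v1, ← zpow_natCast, ← zpow_mul, ← zpow_neg]; congr 1; push_cast; ring
      rw [vt, v1, ← zpow_natCast, ← zpow_mul, ← zpow_add₀ pp.ne'] at ac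
      exact tab_chain hr h2 h0 h1 (m1 := T - e1) (m2 := T - 7 * e1) (m3 := T - 17 * e1)
        b1 b2 b3 (by omega) (by omega) ac (by push_cast; ring) (by push_cast; ring)
        (by push_cast; ring)
        ⟨⟨e1, by ring⟩, ⟨0, by rw [hκ]; ring⟩⟩ ⟨⟨-e1, by ring⟩, ⟨-3 * e1, by rw [hκ]; ring⟩⟩
        ⟨⟨-3 * e1, by ring⟩, ⟨-8 * e1, by rw [hκ]; ring⟩⟩
  · obtain rfl : e1 = 0 := by omega
    have hκ : κ = f1 - T := by push_cast at hs; omega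
    obtain ⟨a1, a2, a3⟩ := hI.rowd three (w1 ▸ lt f1 h5) u2
    have i1 : (v P.d1)⁻¹ = v ϖ ^ (2 * (-2 * f1) : ℤ) := by rw [w1, ← zpow_neg]; congr 1; ring
    have i2 : v P.d1 = v ϖ ^ (2 * (2 * f1) : ℤ) := by rw [w1]; congr 1; ring
    rcases a3 with ⟨a3, a32, ac⟩ | ⟨a3, a31, ac⟩
    · rw [vt] at ac
      rw [show P.F = Fm P.c P.a3 P.a2 P.a1 by simp only [Par.F, Fm]; ring]
      exact tab_21 hr h2 h0 h1 (m1 := T + 3 * f1) (m3 := T - 7 * f1) (a3.trans i2) (a2.trans i2)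
        (a32.trans i2) (a1.trans i1) (by omega) ac (by ring) (by ring)
        ⟨⟨f1, by ring⟩, ⟨2 * f1, by rw [hκ]; ring⟩⟩ ⟨⟨-f1, by ring⟩, ⟨-3 * f1, by rw [hκ]; ring⟩⟩
    · rw [vt, w1, ← zpow_natCast, ← zpow_mul, ← zpow_add₀ pp.ne'] at ac
      rw [show P.F = Fm P.c P.a2 P.a3 P.a1 by simp only [Par.F, Fm]; ring]
      exact tab_12 hr h2 h0 h1 (m1 := T + 5 * f1) (m2 := T - f1) (a2.trans i2) (a3.trans i1)
        (a1.trans i1) (a31.trans i1) (by omega) ac (by push_cast; ring) (by push_cast; ring)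
        ⟨⟨f1, by ring⟩, ⟨3 * f1, by rw [hκ]; ring⟩⟩ ⟨⟨-f1, by ring⟩, ⟨0, by rw [hκ]; ring⟩⟩

section act

open Crest.Agent.R013.PicD_398 Crest.Agent.R013.Frob1_914 Crest.Agent.T15.Hy

variable {K : Type} [IsAlgClosed C] [CharZero C] [Field K]
  [Algebra C K] [Algebra (RatFunc C) K] [IsScalarTower C (RatFunc C) K]
  [FiniteDimensional (RatFunc C) K] [Algebra.IsSeparable (RatFunc C) K] [IsAlgClosed k]

omit [IsAlgClosed C] [CharZero C] in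
/-- inertia fixes `α` and `β` -/
theorem fix_al_be {s : C ≃+* C} (hs : Inr v s) (two : v 2 = 1) {ϖ : C} (h0 : ϖ ≠ 0)
    (hϖ : s (ϖ ^ 2) = ϖ ^ 2) {P : Par C} (hf : P.Fix s) {e2 e3 f2 f3 : ℕ}
    (v2 : v P.p2 = v ϖ ^ (4 * e2 : ℤ)) (v3 : v P.p3 = v ϖ ^ (4 * e3 : ℤ))
    (w2 : v P.d2 = v ϖ ^ (4 * f2 : ℤ)) (w3 : v P.d3 = v ϖ ^ (4 * f3 : ℤ)) :
    s P.al = P.al ∧ s P.be = P.be := by
  have pp := ((Valuation.pos_iff v).2 h0).ne'
  constructor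
  · refine hs.fix_of_sq' two (pow_ne_zero 2 h0) hϖ (j := 3 * e2 + f2) (eq_of_sq ?_) ?_
    · rw [Itg.al_sq, v2, w2, map_pow]
      simp only [← zpow_natCast, ← zpow_mul, ← zpow_add₀ pp]
      congr 1; push_cast; ring
    · rw [P.hal]; simp [hf.p1, hf.p2, hf.p3]
  · refine hs.fix_of_sq' two (pow_ne_zero 2 h0) hϖ (j := 3 * e3 + f3) (eq_of_sq ?_) ?_
    · rw [Itg.be_sq, v3, w3, map_pow]
      simp only [← zpow_natCast, ← zpow_mul, ← zpow_add₀ pp]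
      congr 1; push_cast; ring
    · rw [P.hbe]; simp [hf.p1, hf.p2, hf.p3]

/-- the action of inertia from the table -/
theorem act (hN : NOS) {F : C[X]} {ϖ : C} {κ : ℤ}
    (h : Tab v ρ F ϖ fun j m => Even j ∧ Even (m + κ)) (hr : IsRes v ρ) (h2 : (2 : k) ≠ 0) {p : ℕ}
    (hp : p.Prime) (hpv : v p < 1) {x w : K} (hy : Hyp F x w) (hodd : Odd F.natDegree) (h0 : ϖ ≠ 0)
    (e : SI C K C K) (hs : Inr v e.s) (hx : e.f x = x) (hw : e.f w = w) {n : ℕ} (hn : v n = 1)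
    {y : Pic C K} (hy0 : n • y = 0) :
    (e.s ϖ = ϖ → e.pic y = y) ∧ (e.s ϖ = -ϖ → Even κ → e.pic y = y) ∧
      (e.s ϖ = -ϖ → Odd κ → e.pic y = -y) := by
  refine ⟨fun h1 => h.triv hN hr h2 hp hpv hy h0 e hs h1 hx hw hn hy0, fun h1 hκ => ?_,
    fun h1 hκ => ?_⟩
  · exact h.act hN hr h2 hp hpv hy h0 e hs (ζ := -1) (ε := 1) (by rw [h1]; ring) hx
      (by simpa using hw) (fun j m hjm => ⟨hjm.1.neg_one_zpow,
        ((Int.even_add.1 hjm.2).2 hκ).neg_one_zpow⟩) hn hy0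
  · exact Tab.neg hN (h.mono fun j m hjm => ⟨hjm.1, by
      rw [← Int.not_even_iff_odd] at hκ ⊢
      exact fun hm => hκ ((Int.even_add.1 hjm.2).1 hm)⟩) hr h2 hp hpv hy hodd h0 e hs h1 hx hw hn hy0

end act

end Crest.Agent.T15.RtT
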