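import Crest.Agent.T15.FDef_67
import Crest.Agent.T15.RtT_22
import Crest.Agent.T15.NosF_92
import Crest.Agent.T15.Gal_31
import Crest.Agent.T15.CgB_84
import Crest.Agent.R013.Red7_332

/-!
# Row 15, block F (helper22): the leaves `UnrStmt` and `RamStmt`
-/

set_option autoImplicit false
set_option linter.all false

noncomputable section

namespace Crest.Agent.T15.FA

open scoped NNReal
open Crest.Agent.R013.PicD_398 Crest.Agent.R013.Frob1_914 Crest.Agent.R013.GR4_921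
open Crest.Agent.R018.Placesx484
open Crest.Agent.T15.C (Om Gam In)
open Crest.Agent.T15.Top (Plc)
open Crest.Agent.T15.Mo (Par)
open Crest.Agent.T15.Ar
open Crest.Agent.T15.Ht (Mdl Is)
open Crest.Agent.T15.Nf

namespace G22

/-- the valuation of a place, with values in `ℝ≥0` -/
def vQ (Q : Plc) : Valuation Om ℝ≥0 where
  toFun x := ⟨Cg.av Q x, (Cg.av Q).nonneg x⟩
  map_zero' := NNReal.eq (Cg.av Q).map_zero
  map_one' := NNReal.eq (Cg.av Q).map_one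
  map_mul' x y := NNReal.eq ((Cg.av Q).map_mul x y)
  map_add_le_max' x y := by
    rcases le_max_iff.1 (Cg.av_nonarch Q x y) with h | h
    · exact le_max_of_le_left h
    · exact le_max_of_le_right h

theorem vQ_le (Q : Plc) (x : Om) : vQ Q x ≤ 1 ↔ Q.v x ≤ 1 := Cg.av_le_one_iff' Q x
theorem vQ_lt (Q : Plc) (x : Om) : vQ Q x < 1 ↔ Q.v x < 1 := Cg.av_lt_one_iff Q x

theorem vQ_nat (Q : Plc) {n : ℕ} (h : ¬ Q.rchar ∣ n) : vQ Q n = 1 := by
  have := (Q.v_natCast_eq_one_iff n).2 h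
  exact le_antisymm ((vQ_le Q _).2 this.le) (not_lt.1 fun e => ((vQ_lt Q _).1 e).ne this)

theorem vQ_l (Q : Plc) : vQ Q Q.rchar < 1 :=
  (vQ_lt Q _).2 (lt_of_le_of_ne (Q.v_natCast_le_one _) fun h =>
    (Q.v_natCast_eq_one_iff _).1 h dvd_rfl)

theorem vQ_int (Q : Plc) {a : ℤ} (ha : a ≠ 0) :
    vQ Q a = vQ Q Q.rchar ^ padicValInt Q.rchar a := by
  haveI : Fact Q.rchar.Prime := ⟨Q.rchar_prime⟩
  obtain ⟨e, b, hb, hab⟩ := Nat.exists_eq_pow_mul_and_not_dvd (Int.natAbs_ne_zero.2 ha) Q.rchar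
    Q.rchar_prime.ne_one
  have hv : padicValInt Q.rchar a = e := by
    rw [padicValInt, hab, padicValNat.mul (pow_ne_zero _ Q.rchar_prime.ne_zero)
      (by rintro rfl; exact hb (dvd_zero _)), padicValNat.prime_pow,
      padicValNat.eq_zero_of_not_dvd hb, add_zero]
  have : vQ Q a = vQ Q (a.natAbs : Om) := by
    rcases Int.natAbs_eq a with h | h
    · conv_lhs => rw [h]
      simp only [Int.cast_natCast]
    · conv_lhs => rw [h]
      simp only [Int.cast_neg, Int.cast_natCast, Valuation.map_neg]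
  rw [this, hv, hab, Nat.cast_mul, Nat.cast_pow, map_mul, map_pow, vQ_nat Q hb, mul_one]

theorem inr {Q : Plc} {σ : Gam} (hσ : σ ∈ In Q) {s : Om ≃+* Om} (hs : ∀ c, s c = σ c) :
    Inr (vQ Q) s := fun c hc => by
  rw [hs]; exact (vQ_lt Q _).2 (Q.v_smul_sub_lt_one hσ c ((vQ_le Q _).1 hc))

theorem fx_zw {C : Type} [Field C] [IsAlgClosed C] {P : Par C} (M : Mdl P) {e : SI C M.Y C M.Y}
    (he : M.Fx e) (ha : e.s P.al = P.al) (hb : e.s P.be = P.be) :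
    e.f M.z = M.z ∧ e.f M.w = M.w := by
  obtain ⟨hA, hB, hu, h1, h2, ht⟩ := he
  have h3 : e.s P.p3 = P.p3 := by rw [P.p3_eq, map_sub, map_neg, h1, h2]
  have hz : e.f M.z = M.z := by
    simp only [Mdl.z, Par.z, Par.V', Par.R', Par.V, Par.R, Par.d2, Par.d3, Par.map_p1, Par.map_p2,
      Par.map_p3, Par.map_t, Par.map_al, Par.map_be, map_add, map_mul, map_div₀, map_sub, map_pow,
      map_ofNat, e.comm, h1, h2, h3, ht, ha, hb, hA, hB, hu]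
  refine ⟨hz, ?_⟩
  have hw : M.w = M.A * M.z * (M.z ^ 2 - (P.map (algebraMap C M.Y)).a1) *
    (M.z ^ 2 - (P.map (algebraMap C M.Y)).a2) / (M.z ^ 2 - (P.map (algebraMap C M.Y)).b) := rfl
  rw [hw]
  simp only [Par.a1, Par.a2, Par.b, Par.d1, Par.map_p1, Par.map_p2,
    Par.map_p3, Par.map_t, Par.map_al, Par.map_be, map_add, map_mul, map_div₀, map_sub, map_pow,
    map_neg, map_ofNat, e.comm, h1, h2, h3, ht, ha, hb, hA, hz]

/-- at most one of the six forms is divisible by `l ≥ 5` -/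
theorem one {del : ℚ} {m p1 p2 p3 t D : ℤ} (h : Cert del m p1 p2 p3 t D) {l : ℕ} (hl : l.Prime)
    (h2 : l ≠ 2) (h3 : l ≠ 3) {a b c d e f : ℕ} (ha : a = padicValInt l p1)
    (hb : b = padicValInt l p2) (hc : c = padicValInt l p3) (hd : d = padicValInt l (p2 - p3))
    (he : e = padicValInt l (p3 - p1)) (hf : f = padicValInt l (p1 - p2)) :
    b + c + d + e + f = 0 ∨ a + c + d + e + f = 0 ∨ a + b + d + e + f = 0 ∨
      a + b + c + e + f = 0 ∨ a + b + c + d + f = 0 ∨ a + b + c + d + e = 0 := by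
  subst ha hb hc hd he hf
  by_cases a : (l : ℤ) ∣ p1
  · obtain ⟨b, c, d, e, f⟩ := h.only_p1 hl h2 a
    simp [val_zero b, val_zero c, val_zero d, val_zero e, val_zero f]
  by_cases b : (l : ℤ) ∣ p2
  · obtain ⟨a, c, d, e, f⟩ := h.only_p2 hl h2 b
    simp [val_zero a, val_zero c, val_zero d, val_zero e, val_zero f]
  by_cases c : (l : ℤ) ∣ p3
  · obtain ⟨a, b, d, e, f⟩ := h.only_p3 hl h2 c
    simp [val_zero a, val_zero b, val_zero d, val_zero e, val_zero f]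
  by_cases d : (l : ℤ) ∣ p2 - p3
  · obtain ⟨a, b, c, e, f⟩ := h.only_d1 hl h2 h3 d
    simp [val_zero a, val_zero b, val_zero c, val_zero e, val_zero f]
  by_cases e : (l : ℤ) ∣ p3 - p1
  · obtain ⟨a, b, c, d, f⟩ := h.only_d2 hl h2 h3 e
    simp [val_zero a, val_zero b, val_zero c, val_zero d, val_zero f]
  simp [val_zero a, val_zero b, val_zero c, val_zero d, val_zero e]

/-- the common part: `|l| = |ϖ| ^ r`, every form has norm `|ϖ| ^ (4 e)` -/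
theorem core {p1 p2 p3 t : ℤ} {P : Par Om} (M : Mdl P) (Q : Plc)
    (hI : Is P p1 p2 p3 t) (h2 : Q.rchar ≠ 2) (h3 : Q.rchar ≠ 3) {ϖ : Om} (h0 : ϖ ≠ 0)
    (h1 : vQ Q ϖ < 1) {T κ : ℤ} {e1 e2 e3 f1 f2 f3 : ℕ}
    (v1 : vQ Q p1 = vQ Q ϖ ^ (4 * e1 : ℤ)) (v2 : vQ Q p2 = vQ Q ϖ ^ (4 * e2 : ℤ))
    (v3 : vQ Q p3 = vQ Q ϖ ^ (4 * e3 : ℤ)) (w1 : vQ Q (p2 - p3 : ℤ) = vQ Q ϖ ^ (4 * f1 : ℤ))
    (w2 : vQ Q (p3 - p1 : ℤ) = vQ Q ϖ ^ (4 * f2 : ℤ))
    (w3 : vQ Q (p1 - p2 : ℤ) = vQ Q ϖ ^ (4 * f3 : ℤ))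
    (vt : vQ Q t = vQ Q ϖ ^ (2 * T)) (hs : (e1 + e2 + e3 + f1 + f2 + f3 : ℤ) = T + κ)
    (one : (e1 = 0 ∧ f1 = 0 ∧ (e2 + e3 = 0 ∨ f2 + f3 = 0)) ∨
      (e2 + e3 + f2 + f3 = 0 ∧ (e1 = 0 ∨ f1 = 0)))
    {σ : Gam} (hσ : σ ∈ In Q) (hϖ : σ (ϖ ^ 2) = ϖ ^ 2) {e : SI Om M.Y Om M.Y} (he : Ov M σ e)
    {n : ℕ} {x : Pic Om M.Y} (hn : ¬ Q.rchar ∣ n) (hx : n • x = 0) :
    (σ ϖ = ϖ → e.pic x = x) ∧ (σ ϖ = -ϖ → Even κ → e.pic x = x) ∧
      (σ ϖ = -ϖ → Odd κ → e.pic x = -x) := by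
  have hl := Q.rchar_prime
  haveI : IsAlgClosed (kap (vQ Q)) := R013.Red332.isAlgClosed_residue _
  have hr := isRes_rs (vQ Q)
  have two : vQ Q 2 = 1 := by
    simpa using vQ_nat Q (n := 2) fun h => h2 ((Nat.prime_dvd_prime_iff_eq hl Nat.prime_two).1 h)
  have three : vQ Q 3 = 1 := by
    simpa using vQ_nat Q (n := 3) fun h => h3 ((Nat.prime_dvd_prime_iff_eq hl Nat.prime_three).1 h)
  have k2 : (2 : kap (vQ Q)) ≠ 0 := by
    have := RtT.res_ne0 hr two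
    rwa [show (2 : Om) = 1 + 1 by norm_num, hr.add _ _ (by simp) (by simp), hr.one,
      one_add_one_eq_two] at this
  have d1 : P.d1 = (p2 - p3 : ℤ) := by simp [Par.d1, hI.h2, hI.h3]
  have d2 : P.d2 = (p3 - p1 : ℤ) := by simp [Par.d2, hI.h1, hI.h3]
  have d3 : P.d3 = (p1 - p2 : ℤ) := by simp [Par.d3, hI.h1, hI.h2]
  rw [← hI.h1] at v1; rw [← hI.h2] at v2; rw [← hI.h3] at v3; rw [← hI.ht] at vt
  rw [← d1] at w1; rw [← d2] at w2; rw [← d3] at w3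
  have hq : ∃ q : ℚ, P.a1 = q := ⟨-p1 / (p2 - p3 : ℤ), by rw [Par.a1, d1, hI.h1]; push_cast; rfl⟩
  have hT := RtT.tab hr k2 three h0 h1 hq v1 v2 v3 w1 w2 w3 vt hs one
  have hin : Inr (vQ Q) e.s := inr hσ he.2
  have hf : P.Fix e.s := ⟨by rw [he.2, hI.h1, map_intCast], by rw [he.2, hI.h2, map_intCast],
    by rw [he.2, hI.h3, map_intCast], by rw [he.2, hI.ht, map_intCast]⟩
  obtain ⟨ha, hb⟩ := RtT.fix_al_be hin two h0 (by rw [he.2, hϖ]) hf v2 v3 w2 w3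
  obtain ⟨hz, hw⟩ := fx_zw M he.1 ha hb
  have := RtT.act nos hT hr k2 hl (vQ_l Q) M.hyp31
    (by rw [P.natDegree_F two_ne_zero]; decide) h0 e hin hz hw (vQ_nat Q hn) hx
  rwa [he.2] at this

end G22

open G22

/-- **leaf UNR** -/
theorem unrStmt : UnrStmt := by
  intro del m p1 p2 p3 t D P M Q hC hI hD σ hσ e he n x hn hx
  have hl := Q.rchar_prime
  haveI : Fact Q.rchar.Prime := ⟨hl⟩
  have hD' : ¬ (Q.rchar : ℤ) ∣ D := fun h => hD ((Int.natCast_dvd.1 h).mul_left 3)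
  have h2 : Q.rchar ≠ 2 := fun h => hD' (by rw [h]; exact hC.two)
  have h3 : Q.rchar ≠ 3 := fun h => hD (by rw [h]; exact dvd_mul_right _ _)
  obtain ⟨ϖ, hϖ⟩ := IsAlgClosed.exists_pow_nat_eq (Q.rchar : Om) two_pos
  have h0 : ϖ ≠ 0 := by
    rintro rfl; exact (Nat.cast_ne_zero.2 hl.ne_zero : (Q.rchar : Om) ≠ 0) (by rw [← hϖ]; simp)
  have hv : vQ Q Q.rchar = vQ Q ϖ ^ 2 := by rw [← hϖ, map_pow]
  have h1 : vQ Q ϖ < 1 := by
    have := vQ_l Q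
    rw [hv] at this
    exact lt_of_pow_lt_pow_left₀ 2 zero_le_one (by simpa using this)
  have key : ∀ {a : ℤ}, a ≠ 0 → padicValInt Q.rchar a % 2 = 0 →
      vQ Q a = vQ Q ϖ ^ (4 * (padicValInt Q.rchar a / 2 : ℕ) : ℤ) := fun {a} ha he => by
    rw [vQ_int Q ha, hv, ← pow_mul, ← zpow_natCast]; congr 1; omega
  have s := hC.val_sum Q.rchar
  rw [val_zero hD'] at s
  have o := one hC hl h2 h3 rfl rfl rfl rfl rfl rfl
  have hfix : σ (ϖ ^ 2) = ϖ ^ 2 := by rw [hϖ, map_natCast]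
  have := core M Q hI h2 h3 h0 h1 (T := padicValInt Q.rchar t) (κ := 0)
    (key hC.p1_ne (by omega)) (key hC.p2_ne (by omega)) (key hC.p3_ne (by omega))
    (key hC.d1_ne (by omega)) (key hC.d2_ne (by omega)) (key hC.d3_ne (by omega))
    (by rw [vQ_int Q hC.t_ne, hv, ← pow_mul, ← zpow_natCast]; congr 1) (by omega) (by omega)
    hσ hfix he hn hx
  rw [map_pow] at hfix
  rcases sq_eq_sq_iff_eq_or_eq_neg.1 hfix with h | h
  · exact this.1 h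
  · exact this.2.1 h (by decide)

/-- **leaf RAM** -/
theorem ramStmt : RamStmt := by
  intro del m p1 p2 p3 t D P M Q hC hI hD h2 ϖ hϖ σ hσ e he n x hn hx
  have hl := Q.rchar_prime
  haveI : Fact Q.rchar.Prime := ⟨hl⟩
  have hD' : (Q.rchar : ℤ) ∣ D := Int.natCast_dvd.2 hD
  have h3 : Q.rchar ≠ 3 := fun h => hC.three (by rw [h] at hD'; exact hD')
  have h0 : ϖ ≠ 0 := by
    rintro rfl; exact (Nat.cast_ne_zero.2 hl.ne_zero : (Q.rchar : Om) ≠ 0) (by rw [← hϖ]; simp)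
  have hv : vQ Q Q.rchar = vQ Q ϖ ^ 4 := by rw [← hϖ, map_pow]
  have h1 : vQ Q ϖ < 1 := by
    have := vQ_l Q
    rw [hv] at this
    exact lt_of_pow_lt_pow_left₀ 4 zero_le_one (by simpa using this)
  have key : ∀ {a : ℤ}, a ≠ 0 →
      vQ Q a = vQ Q ϖ ^ (4 * (padicValInt Q.rchar a : ℕ) : ℤ) := fun {a} ha => by
    rw [vQ_int Q ha, hv, ← pow_mul, ← zpow_natCast]; congr 1
  have s := hC.val_sum Q.rchar
  have s1 := hC.val_D Q.rchar
  have s2 := (dvd_iff_val hC.D_ne).1 hD'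
  have o := one hC hl h2 h3 rfl rfl rfl rfl rfl rfl
  have main := fun hfix : σ (ϖ ^ 2) = ϖ ^ 2 =>
    core M Q hI h2 h3 h0 h1 (T := 2 * padicValInt Q.rchar t) (κ := 1)
    (key hC.p1_ne) (key hC.p2_ne) (key hC.p3_ne) (key hC.d1_ne) (key hC.d2_ne) (key hC.d3_ne)
    (by rw [key hC.t_ne]; congr 1; ring) (by omega) (by omega) hσ hfix he hn hx
  exact ⟨fun h => (main (by rw [map_pow, h])).1 h,
    fun h => (main (by rw [map_pow, h, neg_sq])).2.2 h (by decide)⟩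

end Crest.Agent.T15.FA
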