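import Crest.Agent.T15.ModD_53
import Crest.Agent.T15.HtDef_95

/-!
# T15 / Scal (helper53): the leaves `ScalStmt` and `ValStmt`
-/

set_option autoImplicit false
set_option linter.all false

noncomputable section

namespace Crest.Agent.T15.Mod

open UpperHalfPlane CongruenceSubgroup
open scoped MatrixGroups Real
open Crest.Agent.R007.Rat Crest.Agent.T15.Hs Crest.Agent.T15.Mf Crest.Agent.T15.Esc
open Crest.Agent.T15.Und (QS)

theorem gamma_le (L : ℕ) : Gamma L ≤ Gamma0 L := fun γ h => Gamma0_mem.2 (Gamma_mem.1 h).2.2.1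

theorem qf_of_QS {M : ℕ} {k : ℤ} {f : ℍ → ℂ} {c : ℕ → ℂ} (hM : M ≠ 0) (hf : IsF M k f)
    (h : QS c f) : qf f = hq 1 (PowerSeries.mk c) := by
  refine qf_unique hM hf one_ne_zero (lev_hq one_ne_zero _) fun τ => ?_
  rw [hasSum_iff_lev one_ne_zero (lev_hq one_ne_zero _)]
  convert h τ using 2 with n
  rw [coeff_hq one_ne_zero, PowerSeries.coeff_mk, Function.Periodic.qParam, ← Complex.exp_nat_mul]
  congr 2
  push_cast
  ring

theorem coeff_qf_of_QS {M : ℕ} {k : ℤ} {f : ℍ → ℂ} {c : ℕ → ℂ} (hM : M ≠ 0) (hf : IsF M k f)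
    (h : QS c f) (n : ℕ) : (qf f).coeff n = c n := by
  have := coeff_hq one_ne_zero (PowerSeries.mk c) n
  rwa [Nat.cast_one, div_one, PowerSeries.coeff_mk, ← qf_of_QS hM hf h] at this

end Crest.Agent.T15.Mod

namespace Crest.Agent.T15.Ht

open Crest.Agent.T15.Mod Crest.Agent.T15.Esc

theorem scalStmt : ScalStmt := by
  intro c0 a1 a2 a3 A _ cl ex L c h lt hL hc ⟨S, hS, hcS⟩ hp v n
  have h0 : L ≠ 0 := by omega
  have hf := fun k => CS_anti (gamma_le L) (hc k).1
  have := scal_mod lt.cls lt.exp rfl hL hf (fun γ hγ => hp γ (gamma_le L hγ))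
    (by
      rw [qf_of_QS h0 (isF_of_CS (hf 1)) (hc 1).2]
      exact (hq_mem one_ne_zero hS fun n => by rw [PowerSeries.coeff_mk]; exact hcS n).1) v n
  rwa [coeff_qf_of_QS h0 (isF_of_CS (hf 1)) (hc 1).2] at this

theorem valStmt : ValStmt := fun _ hl => exists_val hl

end Crest.Agent.T15.Ht
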