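import Crest.Agent.T15.HtDef_95
import Crest.Agent.T15.SmA_96
import Crest.Agent.T15.RatB_42
import Crest.Agent.T15.Int_42
import Crest.Agent.R007.RatDesc

/-!
# Row 15, block Ht (helper98): the leaf `SmStmt`

Normalise, compare the conjugates by weak multiplicity one (`Sm.Cf.eq_zero`), split modulo `4`.
-/

set_option autoImplicit false
set_option maxHeartbeats 400000

noncomputable section

namespace Crest.Agent.T15.SmB

open Crest.Agent.T15.Sm Crest.Agent.T15.Ht CongruenceSubgroup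
open scoped UpperHalfPlane

/-- the Hecke recursion off `M` -/
def Rc (M : ℕ) (a c : ℕ → ℂ) : Prop := ∀ l : ℕ, l.Prime → ¬ l ∣ M → ∀ n : ℕ,
  c (l * n) + (if l ∣ n then (l : ℂ) * c (n / l) else 0) = a l * c n

/-- a normalised system supported on the integers prime to `M` -/
structure Nm (M : ℕ) (a c : ℕ → ℂ) : Prop where
  one : c 1 = 1
  sup : ∀ n, ¬ n.Coprime M → c n = 0
  rc : Rc M a c

variable {M N : ℕ} {a a' c c' e : ℕ → ℂ}

lemma ind_cop (M : ℕ) (P : ℕ → Prop) (h1 : P 1)
    (hs : ∀ l n : ℕ, l.Prime → ¬ l ∣ M → n.Coprime M → P n → (l ∣ n → P (n / l)) → P (l * n)) :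
    ∀ n, 0 < n → n.Coprime M → P n := by
  intro n
  induction n using Nat.strong_induction_on with
  | _ n ih =>
    intro hn hc
    by_cases h : n = 1
    · exact h ▸ h1
    obtain ⟨l, hl, m, rfl⟩ := Nat.exists_prime_and_dvd h
    have hm : 0 < m := Nat.pos_of_mul_pos_left hn
    have hlt : m < l * m := lt_mul_left hm hl.one_lt
    have hmc : m.Coprime M := Nat.Coprime.coprime_mul_left hc
    refine hs l m hl ((Nat.Prime.coprime_iff_not_dvd hl).1 (Nat.Coprime.coprime_mul_right hc)) hmc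
      (ih m hlt hm hmc) fun hd => ih _ ((Nat.div_le_self _ _).trans_lt hlt)
        (Nat.div_pos (Nat.le_of_dvd hm hd) hl.pos) (hmc.coprime_dvd_left (Nat.div_dvd_of_dvd hd))

lemma exists_d (hN : 0 < N) (h : Cf N e) (he : e ≠ 0) (hr : Rc M a e) :
    ∃ d : ℕ, d ≠ 0 ∧ (∀ p : ℕ, p.Prime → p ∣ d → p ∣ M) ∧ e d ≠ 0 := by
  by_contra H
  push Not at H
  have key : ∀ n, 0 < n → e n = 0 := by
    intro n
    induction n using Nat.strong_induction_on with
    | _ n ih =>
      intro hn
      by_cases hd : ∀ p : ℕ, p.Prime → p ∣ n → p ∣ M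
      · exact H n hn.ne' hd
      push Not at hd
      obtain ⟨l, hl, ⟨m, rfl⟩, hM⟩ := hd
      have hm : 0 < m := Nat.pos_of_mul_pos_left hn
      have hlt : m < l * m := lt_mul_left hm hl.one_lt
      have := hr l hl hM m
      rw [ih m hlt hm] at this
      split_ifs at this with hd
      · rw [ih _ ((Nat.div_le_self _ _).trans_lt hlt) (Nat.div_pos (Nat.le_of_dvd hm hd) hl.pos)]
          at this
        simpa using this
      · simpa using this
  exact he (h.eq_zero_of_dvd (p := N + 1) (by omega) (by simp) fun n hn =>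
    key n (Nat.pos_of_ne_zero (by rintro rfl; exact hn (dvd_zero _))))

lemma exists_nm (hN : 0 < N) (h : Top.Mod N a) :
    ∃ c, Cf ((6 * N) ^ 3) c ∧ Nm (6 * N) a c := by
  obtain ⟨f, h0, hf⟩ := h
  have : NeZero N := ⟨hN.ne'⟩
  set e : ℕ → ℂ := fun n => (UpperHalfPlane.qExpansion 1 f).coeff n with he
  have hq : Qx f e := fun z => by
    have h := ModularForm.hasSum_qExpansion f (h := 1) one_pos (by simp) z
    convert h using 3 with n
    rw [Function.Periodic.qParam, ← Complex.exp_nat_mul]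
    congr 1
    push_cast
    ring
  have hc : Cf N e := ⟨f, mem_CS f, hq⟩
  have hr : Rc (6 * N) a e := fun l hl hM =>
    hf l hl fun h => hM (h.trans (Nat.mul_dvd_mul_right (by norm_num) N))
  have hne : e ≠ 0 := fun h => h0 (DFunLike.coe_injective ((h ▸ hq).fun_unique qx_zero))
  obtain ⟨d, hd, hdM, hed⟩ := exists_d hN hc hne hr
  have h1 := (((hc.mono (Dvd.intro_left 6 rfl)).U' hd hdM).deplete (m := 6 * N)
    (by positivity)).smul (e d)⁻¹
  refine ⟨_, by rwa [pow_succ' (6 * N) 2], ?_, fun n hn => ?_, fun l hl hM n => ?_⟩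
  · simp [hed]
  · simp [hn]
  · have hlc : l.Coprime (6 * N) := (Nat.Prime.coprime_iff_not_dvd hl).2 hM
    have hld : ¬ l ∣ d := fun h => hM (hdM l hl h)
    have hiff : (l * n).Coprime (6 * N) ↔ n.Coprime (6 * N) :=
      ⟨Nat.Coprime.coprime_mul_left, hlc.mul_left⟩
    simp only [Pi.smul_apply, smul_eq_mul, hiff]
    have := hr l hl hM (d * n)
    by_cases hn : n.Coprime (6 * N)
    · rw [if_pos hn, if_pos hn, mul_left_comm d l n, mul_left_comm (a l), ← this]
      by_cases hdv : l ∣ n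
      · rw [if_pos hdv, if_pos (hdv.mul_left d), Nat.mul_div_assoc d hdv,
          if_pos (hn.coprime_dvd_left (Nat.div_dvd_of_dvd hdv))]
        ring
      · rw [if_neg hdv, if_neg fun h => ((Nat.Prime.dvd_mul hl).1 h).elim hld hdv]
        ring
    · rw [if_neg hn, if_neg hn]
      by_cases hdv : l ∣ n
      · obtain ⟨m, rfl⟩ := hdv
        rw [Nat.mul_div_cancel_left m hl.pos, if_neg (c := m.Coprime (6 * N)) fun h =>
          hn (Nat.Coprime.mul_left hlc h)]
        simp
      · simp [hdv]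

lemma Nm.prime (h : Nm M a c) {l : ℕ} (hl : l.Prime) (hM : ¬ l ∣ M) : c l = a l := by
  have := h.rc l hl hM 1
  rwa [if_neg (fun h => hl.one_lt.ne' (Nat.dvd_one.1 h)), mul_one, add_zero, h.one, mul_one] at this

lemma Nm.twist (h : Nm M a c) (χ : ℕ → ℂ) (h1 : χ 1 = 1) (hm : ∀ m n, χ (m * n) = χ m * χ n)
    (h2 : ∀ l : ℕ, l.Prime → ¬ l ∣ M → χ l * χ l = 1) :
    Nm M (fun l => χ l * a l) fun n => χ n * c n := by
  refine ⟨by simp [h1, h.one], fun n hn => by simp [h.sup n hn], fun l hl hM n => ?_⟩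
  have := h.rc l hl hM n
  by_cases hd : l ∣ n
  · obtain ⟨m, rfl⟩ := hd
    simp only [dvd_mul_right, if_true, Nat.mul_div_cancel_left m hl.pos, hm] at this ⊢
    have e := h2 l hl hM
    linear_combination (χ l * (χ l * χ m)) * this - l * χ m * c m * e
  · simp only [hd, if_false, hm] at this ⊢
    linear_combination (χ l * χ n) * this

/-- weak multiplicity one -/
lemma Nm.eq {L B : ℕ} (hB : 0 < B) (hM : 1 < M) (hL : ∀ p : ℕ, p.Prime → p ∣ L → p ∣ M)
    (h : Nm M a c) (h' : Nm M a' c') (f : Cf L c) (f' : Cf L c')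
    (ha : ∀ l : ℕ, l.Prime → ¬ l ∣ M → ¬ l ∣ B → a l = a' l) : c = c' := by
  have key : ∀ n, 0 < n → n.Coprime (M * B) → c n = c' n := by
    refine ind_cop (M * B) _ (by rw [h.one, h'.one]) fun l n hl hMB _ h1 h2 => ?_
    have hlM : ¬ l ∣ M := fun h => hMB (h.mul_right B)
    have e := h.rc l hl hlM n
    have e' := h'.rc l hl hlM n
    rw [← ha l hl hlM fun h => hMB (h.mul_left M), ← h1] at e'
    by_cases hd : l ∣ n
    · rw [if_pos hd] at e e'
      rw [h2 hd] at e
      linear_combination e - e'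
    · rw [if_neg hd] at e e'
      linear_combination e - e'
  refine sub_eq_zero.1 (Cf.eq_zero (B.primeFactors.filter fun p => ¬ p ∣ L) (fun p hp =>
    ⟨(Nat.mem_primeFactors.1 (Finset.mem_filter.1 hp).1).1, (Finset.mem_filter.1 hp).2⟩)
    (f.sub f') fun n hn => ?_)
  by_cases hc : n.Coprime M
  · refine sub_eq_zero.2 (key n (Nat.pos_of_ne_zero ?_) (Nat.Coprime.mul_right hc ?_))
    · rintro rfl
      exact hM.ne' (by simpa using hc)
    · by_contra H
      obtain ⟨p, hp, h1, h2⟩ := Nat.Prime.not_coprime_iff_dvd.1 H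
      refine hn p (Finset.mem_filter.2 ⟨Nat.mem_primeFactors.2 ⟨hp, h2, hB.ne'⟩, fun h3 => ?_⟩) h1
      exact hp.one_lt.ne' (Nat.eq_one_of_dvd_coprimes hc h1 (hL p hp h3))
  · simp [h.sup n hc, h'.sup n hc]

/-- the function on `ℤ/4` with values `x` at `1` and `y` at `3` -/
def ch (x y : ℂ) (n : ZMod 4) : ℂ := if n = 1 then x else if n = 3 then y else 0

lemma ch_sq (x y : ℂ) (u : (ZMod 4)ˣ) (n : ZMod 4) : ch x y ((u : ZMod 4) ^ 2 * n) = ch x y n := by
  have : (u : ZMod 4) ^ 2 = 1 := by revert u; decide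
  rw [this, one_mul]

lemma ch_nat (x y : ℂ) (n : ℕ) :
    ch x y n = if n % 4 = 1 then x else if n % 4 = 3 then y else 0 := by
  have h1 : ((n : ZMod 4) = 1) ↔ n % 4 = 1 := (ZMod.natCast_eq_natCast_iff' n 1 4)
  have h3 : ((n : ZMod 4) = 3) ↔ n % 4 = 3 := (ZMod.natCast_eq_natCast_iff' n 3 4)
  simp only [ch, h1, h3]

lemma ch_mul {y : ℂ} (hy : y * y = 1) (m n : ℕ) :
    ch 1 y (m * n : ℕ) = ch 1 y m * ch 1 y n := by
  simp only [ch_nat, Nat.mul_mod m n 4]
  have hm : m % 4 = 0 ∨ m % 4 = 1 ∨ m % 4 = 2 ∨ m % 4 = 3 := by omega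
  have hn : n % 4 = 0 ∨ n % 4 = 1 ∨ n % 4 = 2 ∨ n % 4 = 3 := by omega
  rcases hm with hm | hm | hm | hm <;> rcases hn with hn | hn | hn | hn <;> simp [hm, hn, hy]

lemma ch_ep (y : ℂ) {l : ℕ} (hl : l % 2 = 1) : ch 1 y l = y ^ ep l := by
  have h : l % 4 = 1 ∨ l % 4 = 3 := by omega
  rcases h with h | h <;> simp [ch_nat, ep, h]

lemma odd_of {l : ℕ} (hM : 2 ∣ M) (hl : l.Coprime M) : l % 2 = 1 := by
  have := Nat.Coprime.coprime_dvd_right hM hl
  exact Nat.odd_iff.1 (Nat.coprime_two_right.1 this)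

lemma ep_mul {s : ℂ} (hs : s ^ 2 = 3) {l n : ℕ} (hl : l % 2 = 1) (hn : n % 2 = 1) :
    s ^ ep l * s ^ ep n = 3 ^ (ep l * ep n) * s ^ ep (l * n) := by
  have h : l % 4 = 1 ∨ l % 4 = 3 := by omega
  have h' : n % 4 = 1 ∨ n % 4 = 3 := by omega
  rcases h with h | h <;> rcases h' with h' | h' <;> simp [ep, Nat.mul_mod l n 4, h, h', ← hs, sq]

lemma ep_sq {l : ℕ} (hl : l % 2 = 1) (m : ℕ) : ep (l * (l * m)) = ep m := by
  have h : l % 4 = 1 ∨ l % 4 = 3 := by omega
  have e : (l * (l * m)) % 4 = m % 4 := by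
    rw [← mul_assoc, Nat.mul_mod, Nat.mul_mod l l]
    rcases h with h | h <;> simp [h]
  simp only [ep, e]

theorem smStmt_of (hI : IntStmt) : SmStmt := by
  refine ⟨16 * 6 ^ 3, 3, fun N B a s hN hB hs hmod hrat => ?_⟩
  have hs0 : s ≠ 0 := by rintro rfl; norm_num at hs
  have hM2 : 2 ∣ 6 * N := Dvd.dvd.mul_right (by norm_num) N
  have hLp : ∀ p : ℕ, p.Prime → p ∣ (6 * N) ^ 3 * 4 ^ 2 → p ∣ 6 * N := fun p hp h => by
    rcases (Nat.Prime.dvd_mul hp).1 h with h | h
    · exact hp.dvd_of_dvd_pow h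
    · exact (hp.dvd_of_dvd_pow (show p ∣ 2 ^ 4 from h)).trans hM2
  have hML : 6 * N ∣ (6 * N) ^ 3 * 4 ^ 2 := (dvd_pow_self _ three_ne_zero).mul_right _
  have hmod1 : Top.Mod N a := hmod (RingEquiv.refl ℂ)
  obtain ⟨c, hc, hn⟩ := exists_nm hN hmod1
  -- rationality at every prime
  have hall : ∀ l : ℕ, l.Prime → ¬ l ∣ 6 * N → ∃ t : ℤ, a l = t * s ^ ep l := by
    intro l hl hlM
    have hodd := odd_of hM2 ((Nat.Prime.coprime_iff_not_dvd hl).2 hlM)
    obtain ⟨q, hq⟩ := R007.RatAlg.mem_of_fixed (Rat.castHom ℂ).fieldRange (a l / s ^ ep l)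
      fun σ _ => by
        obtain ⟨c', hc', hn'⟩ := exists_nm hN (hmod σ)
        have hy : σ s / s * (σ s / s) = 1 := by
          have : σ s ^ 2 = 3 := by rw [← map_pow, hs, map_ofNat]
          field_simp
          rw [this, hs]
        have ht := hn.twist (fun n => ch 1 (σ s / s) n) (by simp [ch]) (ch_mul hy) fun p hp hpM => by
          rw [ch_ep _ (odd_of hM2 ((Nat.Prime.coprime_iff_not_dvd hp).2 hpM)), ← mul_pow, hy,
            one_pow]
        have e := Nm.eq hB (by omega) hLp hn' ht (hc'.mono (Dvd.intro _ rfl))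
          (hc.twist (m := 4) four_ne_zero _ (ch_sq _ _)) fun p hp hpM hpB => by
            obtain ⟨t, ht⟩ := hrat p hp hpB
            rw [ch_ep _ (odd_of hM2 ((Nat.Prime.coprime_iff_not_dvd hp).2 hpM)), ht, map_mul,
              map_pow, map_intCast, div_pow]
            field_simp
        have e' := congrFun e l
        rw [hn'.prime hl hlM, hn.prime hl hlM, ch_ep _ hodd] at e'
        have : σ s ≠ 0 := (map_ne_zero σ).2 hs0
        rw [map_div₀, e', map_pow, div_pow]
        field_simp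
    obtain ⟨t, ht, -⟩ := Rat.eq_int_mul (a := a l) (ε := ep l) (by unfold ep; split_ifs <;> simp) hs
      (hI N a l hN hmod1 hl fun h => hlM (h.trans (Nat.mul_dvd_mul_right (by norm_num) N)))
      (u := q.num) (v := q.den) (by exact_mod_cast q.den_ne_zero) (by
        have h1 : (q : ℂ) = a l / s ^ ep l := hq
        rw [Rat.cast_def] at h1
        have h2 : (q.den : ℂ) ≠ 0 := by exact_mod_cast q.den_ne_zero
        field_simp at h1
        push_cast
        linear_combination -h1)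
    exact ⟨t, ht⟩
  have hint : ∀ n, ∃ z : ℤ, c n = z * s ^ ep n := by
    intro n
    by_cases hcop : n.Coprime (6 * N)
    · refine ind_cop (6 * N) (fun n => ∃ z : ℤ, c n = z * s ^ ep n) ⟨1, by simp [hn.one, ep]⟩
        (fun l n hl hlM hnc ⟨z, hz⟩ h2 => ?_) n (Nat.pos_of_ne_zero ?_) hcop
      · have hodd := odd_of hM2 ((Nat.Prime.coprime_iff_not_dvd hl).2 hlM)
        obtain ⟨t, ht⟩ := hall l hl hlM
        have e := hn.rc l hl hlM n
        have e2 := ep_mul hs hodd (odd_of hM2 hnc)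
        rw [ht, hz] at e
        by_cases hd : l ∣ n
        · obtain ⟨w, hw⟩ := h2 hd
          obtain ⟨m, rfl⟩ := hd
          rw [Nat.mul_div_cancel_left m hl.pos] at hw
          rw [if_pos (dvd_mul_right l m), Nat.mul_div_cancel_left m hl.pos, hw,
            ← ep_sq hodd m] at e
          exact ⟨3 ^ (ep l * ep (l * m)) * t * z - l * w, by
            push_cast; linear_combination e + t * z * e2⟩
        · rw [if_neg hd] at e
          exact ⟨3 ^ (ep l * ep n) * t * z, by push_cast; linear_combination e + t * z * e2⟩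
      · rintro rfl
        have : 6 * N = 1 := by simpa using hcop
        omega
    · exact ⟨0, by simp [hn.sup n hcop]⟩
  choose g hg using hint
  have hg0 : ∀ n, ¬ n.Coprime (6 * N) → g n = 0 := fun n h => by
    have := hg n
    rw [hn.sup n h] at this
    simpa [hs0] using this.symm
  obtain ⟨f1, h1, q1⟩ := hc.twist (m := 4) four_ne_zero _ (ch_sq 1 0)
  obtain ⟨f3, h3, q3⟩ := hc.twist (m := 4) four_ne_zero _ (ch_sq 0 s⁻¹)
  refine ⟨(6 * N) ^ 3 * 4 ^ 2, g, ![f1, f3], by push_cast; exact le_of_eq (by ring),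
    ⟨by positivity, Dvd.intro_left _ rfl, ?_, fun n h => hg0 n fun h' => h ?_, fun l hl hL n => ?_⟩,
    ⟨fun i => ?_, ?_, ?_⟩, fun l hl hL => ?_⟩
  · have := hg 1
    rw [hn.one] at this
    have h2 : ((g 1 : ℤ) : ℂ) = 1 := by simpa [ep] using this.symm
    exact_mod_cast h2
  · by_contra H
    obtain ⟨p, hp, h1, h2⟩ := Nat.Prime.not_coprime_iff_dvd.1 H
    exact hp.one_lt.ne' (Nat.eq_one_of_dvd_coprimes h' h1 (hLp p hp h2))
  · have hlM : ¬ l ∣ 6 * N := fun h => hL (h.trans hML)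
    have hlc := (Nat.Prime.coprime_iff_not_dvd hl).2 hlM
    have hodd := odd_of hM2 hlc
    by_cases hcop : n.Coprime (6 * N)
    · have e := hn.rc l hl hlM n
      have e2 := ep_mul hs hodd (odd_of hM2 hcop)
      rw [← hn.prime hl hlM, hg l, hg n, hg (l * n)] at e
      have hp : s ^ ep (l * n) ≠ 0 := pow_ne_zero _ hs0
      apply Int.cast_injective (α := ℂ)
      apply mul_right_cancel₀ hp
      by_cases hd : l ∣ n
      · obtain ⟨m, rfl⟩ := hd
        rw [if_pos (dvd_mul_right l m), Nat.mul_div_cancel_left m hl.pos] at e ⊢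
        rw [hg m, ← ep_sq hodd m] at e
        push_cast
        linear_combination e + g l * g (l * m) * e2
      · rw [if_neg hd] at e ⊢
        push_cast
        linear_combination e + g l * g n * e2
    · rw [hg0 n hcop, hg0 (l * n) fun h => hcop (Nat.Coprime.coprime_mul_left h)]
      split_ifs with hd
      · obtain ⟨m, rfl⟩ := hd
        rw [Nat.mul_div_cancel_left m hl.pos, hg0 m fun h => hcop (Nat.Coprime.mul_left hlc h)]
        simp
      · simp
  · fin_cases i
    · exact h1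
    · exact h3
  · have : (fun n => (pc 1 g n : ℂ)) = fun n : ℕ => ch 1 0 n * c n := by
      funext n
      rw [ch_nat, hg n, pc, ep]
      split_ifs <;> first | omega | simp
    rw [this]
    exact q1
  · have : (fun n => (pc 3 g n : ℂ)) = fun n : ℕ => ch 0 s⁻¹ n * c n := by
      funext n
      rw [ch_nat, hg n, pc, ep]
      split_ifs <;> first | omega | (simp; done) | field_simp
    rw [this]
    exact q3
  · have hlM : ¬ l ∣ 6 * N := fun h => hL ((h.trans hML).mul_left _)
    rw [← hn.prime hl hlM, hg l]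

theorem intStmt_98 : IntStmt := fun _ _ _ hN h hl hL => Int.isIntegral_of_mod hN h hl hL

/-- **leaf RATSM** -/
theorem smStmt_98 : SmStmt := smStmt_of intStmt_98

end Crest.Agent.T15.SmB
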