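import Crest.Agent.T15.StabB_17
import Crest.Agent.T15.HtDef_95

/-!
# Row 15, block Ht: the leaf STAB (helper17)
-/

set_option autoImplicit false

namespace Crest.Agent.T15.Stab

/-- **leaf STAB** -/
theorem stabStmt : Ht.StabStmt := fun _ _ _ _ _ s _ _ _ _ lt hF hT hL hh hs ht =>
  stab lt.cls lt.exp s hF hT hL.ne' hh hs ht

end Crest.Agent.T15.Stab
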