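import Crest.Agent.T15.BetPl_91

/-!
# T15 / BetAz (helper91): `Aut ℂ` permutes the points of the open modular curve

`aut_jj`, `autF`, `aut_vM`, `IsK.aut`.
-/

set_option autoImplicit false

noncomputable section

namespace Crest.Agent.T15.Bet

open UpperHalfPlane hiding I
open CongruenceSubgroup WithZero
open scoped MatrixGroups
open Crest.Agent.T15.Mf Crest.Agent.T15.Hk Crest.Agent.T15.Hs Crest.Agent.T15.Lv
open Crest.Agent.R007 Crest.Agent.R007.Rat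
open Crest.Agent.R013.RR7_948 Crest.Agent.R013.RR8_948 Crest.Agent.R013.RR11_948

lemma hm_qf_of_coeffIn (σ : ℂ →+* ℂ) {M : ℕ} (hM : M ≠ 0) {k : ℤ} {G : ℍ → ℂ} (hG : IsF M k G)
    (h : CoeffIn (σ.eqLocus (RingHom.id ℂ)) (qe M G)) : hm σ (qf G) = qf G := by
  ext r
  rw [coeff_hm]
  by_cases hr : (qf G).coeff r = 0
  · rw [hr, map_zero]
  obtain ⟨m, rfl⟩ := lev_qf hM hG r hr
  rw [coeff_qf hM hG]
  exact h m

theorem gal_jj (σ : ℂ →+* ℂ) : gal σ jj = jj := qx_injective (by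
  rw [qx_gal, jj, qx_quo one_ne_zero isF_e4_cube isF_dl, qf_pow one_ne_zero isF_e4, map_div₀, map_pow,
    hm_qf_of_coeffIn σ one_ne_zero isF_e4 coeffIn_e4,
    hm_qf_of_coeffIn σ one_ne_zero isF_dl coeffIn_dl])

theorem aut_jj (σ : ℂ ≃+* ℂ) : σ • jj = jj := gal_jj _

variable {L : ℕ} {H : Subgroup (ZMod L)ˣ}

theorem aut_mem_F (hL : L ≠ 0) (σ : ℂ ≃+* ℂ) {x : FF} (hx : x ∈ F (GH L H)) : σ • x ∈ F (GH L H) :=
  fun γ hγ => Cg.aut_fixed hL σ (H := H) (by rintro _ ⟨δ, hδ, rfl⟩; exact hx δ hδ) _ (sq_mem.2 hγ)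

/-- `σ` as a ring automorphism of `F (GH L H)` -/
def autF (hL : L ≠ 0) (H : Subgroup (ZMod L)ˣ) (σ : ℂ ≃+* ℂ) : F (GH L H) ≃+* F (GH L H) where
  toFun x := ⟨σ • (x : FF), aut_mem_F hL σ x.2⟩
  invFun x := ⟨σ⁻¹ • (x : FF), aut_mem_F hL σ⁻¹ x.2⟩
  left_inv _ := Subtype.ext (inv_smul_smul _ _)
  right_inv _ := Subtype.ext (smul_inv_smul _ _)
  map_mul' x y := Subtype.ext (smul_mul' σ (x : FF) (y : FF))
  map_add' x y := Subtype.ext (smul_add σ (x : FF) (y : FF))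

lemma coe_autF (hL : L ≠ 0) (σ : ℂ ≃+* ℂ) (x : F (GH L H)) :
    ((autF hL H σ x : F (GH L H)) : FF) = σ • (x : FF) := rfl

/-- `Aut ℂ` permutes the points -/
theorem aut_vM (hL : L ≠ 0) (h4 : GH L H ≤ Gamma1 4) (σ : ℂ ≃+* ℂ) (z : ℍ) :
    ∃ z', ∀ x ∈ F (GH L H), vM z ((σ • x : FF) : Mer) = vM z' (x : Mer) := by
  have : NeZero L := ⟨hL⟩
  let P : Pl ℂ (F (GH L H)) :=
    { v := (plz h4 z).v.comap (autF hL H σ).toRingHom
      const := fun c hc => by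
        change vM z ((gal (σ : ℂ →+* ℂ) (algebraMap ℂ FF c) : FF) : Mer) = 1
        rw [gal_algebraMap]
        exact vM_const z ((map_ne_zero _).mpr hc)
      surj := (plz h4 z).surj.comp (autF hL H σ).surjective }
  have e : ∀ x : F (GH L H), P.v x = vM z ((σ • (x : FF) : FF) : Mer) := fun _ => rfl
  obtain ⟨z', hz⟩ := exists_plz h4 P (by rw [e, coe_xK, aut_jj]; exact vM_jj_le z)
  exact ⟨z', fun x hx => by rw [← e ⟨x, hx⟩, hz, plz_v]⟩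

variable {n : ℕ} [NeZero n]

theorem aut_dvd (hL : L ≠ 0) (h4 : GH L H ≤ Gamma1 4) (σ : ℂ ≃+* ℂ) {m : ℤ} {x : FF}
    (hx : x ∈ F (GH L H)) (h : ∀ z, m ∣ log (vM z (x : Mer))) (z : ℍ) :
    m ∣ log (vM z ((σ • x : FF) : Mer)) := by
  obtain ⟨z', hz⟩ := aut_vM hL h4 σ z
  rw [hz x hx]; exact h z'

/-- the conjugate of a Kummer function is a Kummer function -/
theorem IsK.aut (hL : L ≠ 0) (h4 : GH L H ≤ Gamma1 4) (σ : ℂ ≃+* ℂ) {x : FF}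
    {φ : HH (Gq L H) (ZMod n)} (hK : IsK n (Gq L H) x φ) : ∃ φ', IsK n (Gq L H) (σ • x) φ' :=
  exists_isK (Cg.aut_ne σ hK.ne) (Cg.aut_fixed hL σ hK.fixed)
    (aut_dvd hL h4 σ (IsK.mem_F hK) hK.dvd)

theorem exists_galFun (hL : L ≠ 0) (h4 : GH L H ≤ Gamma1 4) (σ : ℂ ≃+* ℂ)
    (φ : HH (Gq L H) (ZMod n)) :
    ∃ φ', ∀ x, IsK n (Gq L H) x φ → IsK n (Gq L H) (σ • x) φ' := by
  have hneg : (-1 : SL(2, ℤ)) ∉ GH L H := fun h => by
    have := ((Gamma1_mem _ _).1 (h4 h)).1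
    revert this; decide
  obtain ⟨x, hx⟩ := exists_of_hom' hL Gamma_le_GH hneg φ
  obtain ⟨φ', h'⟩ := IsK.aut hL h4 σ hx
  refine ⟨φ', fun x' hx' => ?_⟩
  obtain ⟨y, h0, h1, rfl⟩ := hx'.exists_mul_pow hx hL fun γ hγ => sq_mem.2 (Gamma_le_GH hγ)
  have := h'.mul (IsK.of_fixed (n := n) (Cg.aut_ne σ h0) (Cg.aut_fixed hL σ h1))
  rwa [add_zero, ← smul_pow', ← smul_mul'] at this

/-- **the action of `Aut ℂ` on `H¹(Γ_H(L), ℤ/n)`** (with the cyclotomic twist of Kummer theory) -/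
theorem exists_galH (hL : L ≠ 0) (h4 : GH L H ≤ Gamma1 4) :
    ∃ ρ : (ℂ ≃+* ℂ) →* AddMonoid.End (HH (Gq L H) (ZMod n)),
      ∀ σ φ x, IsK n (Gq L H) x φ → IsK n (Gq L H) (σ • x) (ρ σ φ) := by
  have hneg : (-1 : SL(2, ℤ)) ∉ GH L H := fun h => by
    have := ((Gamma1_mem _ _).1 (h4 h)).1
    revert this; decide
  have hex : ∀ φ : HH (Gq L H) (ZMod n), ∃ x, IsK n (Gq L H) x φ :=
    exists_of_hom' hL Gamma_le_GH hneg
  choose r hr using exists_galFun (n := n) hL h4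
  refine ⟨⟨⟨fun σ => AddMonoidHom.mk' (r σ) fun φ ψ => ?_, AddMonoidHom.ext fun φ => ?_⟩,
    fun σ τ => AddMonoidHom.ext fun φ => ?_⟩, hr⟩
  · obtain ⟨x, hx⟩ := hex φ
    obtain ⟨y, hy⟩ := hex ψ
    exact (hr σ _ _ (hx.mul hy)).unique (by rw [smul_mul']; exact (hr σ _ _ hx).mul (hr σ _ _ hy))
  · obtain ⟨x, hx⟩ := hex φ
    exact (hr 1 _ _ hx).unique (by rwa [one_smul])
  · obtain ⟨x, hx⟩ := hex φ
    exact (hr (σ * τ) _ _ hx).unique (by rw [mul_smul]; exact hr σ _ _ (hr τ _ _ hx))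

end Crest.Agent.T15.Bet
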