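import Crest.Agent.T15.Unr_75
import Crest.Agent.T15.FlL_80
import Crest.Agent.T15.CgB_84

/-!
# Row 15, block Fl: `ℂ` as an algebraic closure of `ℚ₃` over a given place (helper75)

`E` is an algebraic closure of `ℚ`, `ι : E →+* ℂ`, `P` a place of `E` above `3`.  `Loc3 ι P` is the
datum of a copy `F0 ⊆ ℂ` of `ℚ₃` over which `ℂ` is algebraic, of the valuation `w`, and of the
identification `r` of `Gal(ℂ/F0)` with the decomposition group of `P`.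
-/

set_option autoImplicit false

noncomputable section

namespace Crest.Agent.T15.Fl

open NumberField MulAction
open scoped NNReal
open Crest.Agent.R018.Placesx484

variable {E : Type} [Field E] [CharZero E] [IsGalois ℚ E]

/-- the local data at a place above `3` -/
structure Loc3 (ι : E →+* ℂ) (P : Place E) where
  F0 : IntermediateField ℚ ℂ
  w : Valuation ℂ ℝ≥0
  gal : IsGalois F0 ℂ
  ctx0 : Ctx F0 w
  dense0 : ∀ a ∈ F0, ∀ ε : ℝ≥0, 0 < ε → ∃ q : ℚ, w (a - q) < ε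
  near : ∀ (a : ℂ) (ε : ℝ≥0), 0 < ε → ∃ x : E, w (a - ι x) < ε
  w_iota : ∀ x : E, (w (ι x) : ℝ) = Cg.av P x
  r : (ℂ ≃ₐ[F0] ℂ) ≃* stabilizer (E ≃ₐ[ℚ] E) P
  r_spec : ∀ σ x, ι ((r σ : E ≃ₐ[ℚ] E) x) = σ (ι x)

/-- existence of the local data -/
def SetupStmt : Prop := ∀ (E : Type) [Field E] [CharZero E] [IsGalois ℚ E] [IsAlgClosed E]
  (ι : E →+* ℂ) (P : Place E), P.rchar = 3 → Nonempty (Loc3 ι P)

namespace Loc3

variable {ι : E →+* ℂ} {P : Place E} (Λ : Loc3 ι P)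

instance : IsGalois Λ.F0 ℂ := Λ.gal

/-- the maximal unramified extension of `F0` -/
abbrev Fn : IntermediateField Λ.F0 ℂ := Fnr Λ.F0 ℂ

/-- the local Galois group -/
abbrev D : Type := ℂ ≃ₐ[Λ.F0] ℂ

/-- the inertia group, as a Galois group -/
abbrev G : Type := ℂ ≃ₐ[Λ.Fn] ℂ

/-- the inertia group, as a subgroup of `D` -/
abbrev I : Subgroup Λ.D := Λ.Fn.fixingSubgroup

/-- restriction `D → Gal(E/ℚ)` -/
def rD : Λ.D →* (E ≃ₐ[ℚ] E) := (stabilizer (E ≃ₐ[ℚ] E) P).subtype.comp Λ.r.toMonoidHom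

/-- `G → D` -/
def inc : Λ.G →* Λ.D := MonoidHom.mk' (fun σ => σ.restrictScalars Λ.F0) fun _ _ => rfl

/-- restriction `G → Gal(E/ℚ)` -/
def rG : Λ.G →* (E ≃ₐ[ℚ] E) := Λ.rD.comp Λ.inc

lemma rD_apply (σ : Λ.D) : Λ.rD σ = Λ.r σ := rfl

lemma iota_rD (σ : Λ.D) (x : E) : ι (Λ.rD σ x) = σ (ι x) := Λ.r_spec σ x

@[simp] lemma inc_apply (σ : Λ.G) (x : ℂ) : Λ.inc σ x = σ x := rfl

lemma rG_apply (σ : Λ.G) : Λ.rG σ = Λ.rD (Λ.inc σ) := rfl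

lemma iota_rG (σ : Λ.G) (x : E) : ι (Λ.rG σ x) = σ (ι x) := Λ.r_spec (Λ.inc σ) x

lemma resA_D (σ : Λ.D) : Cg.resA ι σ.toRingEquiv = Λ.rD σ :=
  Cg.resA_eq ι fun x => (Λ.iota_rD σ x).symm

lemma resA_G (σ : Λ.G) : Cg.resA ι σ.toRingEquiv = Λ.rG σ :=
  Cg.resA_eq ι fun x => (Λ.iota_rG σ x).symm

lemma rD_injective : Function.Injective Λ.rD := Subtype.val_injective.comp Λ.r.injective

lemma inc_injective : Function.Injective Λ.inc := fun _ _ h =>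
  AlgEquiv.ext fun x => DFunLike.congr_fun h x

lemma rG_injective : Function.Injective Λ.rG := Λ.rD_injective.comp Λ.inc_injective

lemma rD_mem (σ : Λ.D) : Λ.rD σ ∈ stabilizer (E ≃ₐ[ℚ] E) P := (Λ.r σ).2

lemma exists_rD {g : E ≃ₐ[ℚ] E} (hg : g ∈ stabilizer (E ≃ₐ[ℚ] E) P) : ∃ σ, Λ.rD σ = g :=
  ⟨Λ.r.symm ⟨g, hg⟩, by rw [rD_apply, MulEquiv.apply_symm_apply]⟩

lemma range_rD : Λ.rD.range = stabilizer (E ≃ₐ[ℚ] E) P :=
  Subgroup.ext fun _ => ⟨fun ⟨σ, h⟩ => h ▸ Λ.rD_mem σ, Λ.exists_rD⟩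

lemma inc_mem (σ : Λ.G) : Λ.inc σ ∈ Λ.I :=
  (IntermediateField.mem_fixingSubgroup_iff _ _).2 fun x hx => σ.commutes ⟨x, hx⟩

lemma exists_inc {σ : Λ.D} (h : σ ∈ Λ.I) : ∃ τ, Λ.inc τ = σ :=
  ⟨IntermediateField.fixingSubgroupEquiv Λ.Fn ⟨σ, h⟩, rfl⟩

lemma range_inc : Λ.inc.range = Λ.I :=
  Subgroup.ext fun _ => ⟨fun ⟨σ, h⟩ => h ▸ Λ.inc_mem σ, Λ.exists_inc⟩

lemma w3 : Λ.w 3 < 1 := Λ.ctx0.w3

lemma w_D (σ : Λ.D) (x : ℂ) : Λ.w (σ x) = Λ.w x := Λ.ctx0.inv σ x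

lemma w_G (σ : Λ.G) (x : ℂ) : Λ.w (σ x) = Λ.w x := Λ.ctx0.inv (Λ.inc σ) x

lemma w_iota_le_one (x : E) : Λ.w (ι x) ≤ 1 ↔ P.v x ≤ 1 := by
  rw [← NNReal.coe_le_coe, Λ.w_iota, ← Cg.av_le_one_iff']; rfl

lemma w_iota_le_one' (x : E) : Λ.w (ι x) ≤ 1 ↔ x ∈ P.val := by
  rw [w_iota_le_one, P.v_le_one_iff]

lemma w_iota_lt_one (x : E) : Λ.w (ι x) < 1 ↔ P.v x < 1 := by
  rw [← NNReal.coe_lt_coe, Λ.w_iota, ← Cg.av_lt_one_iff]; rfl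

lemma w_int_le_one (x : 𝓞 E) : Λ.w (ι x) ≤ 1 := (Λ.w_iota_le_one _).2 (P.v_int_le_one x)

lemma w_int_lt_one (x : 𝓞 E) : Λ.w (ι x) < 1 ↔ x ∈ P.ideal :=
  (Λ.w_iota_lt_one _).trans (P.v_int_lt_one_iff x)

include Λ in
lemma rchar : P.rchar = 3 := by
  refine P.rchar_eq_of_mem Nat.prime_three ((Λ.w_int_lt_one _).1 ?_)
  rw [show (((3 : ℕ) : 𝓞 E) : E) = ((3 : ℕ) : E) from map_natCast (algebraMap (𝓞 E) E) 3,
    map_natCast]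
  exact_mod_cast Λ.w3

lemma w_three : Λ.w 3 = 3⁻¹ := by
  have h := Λ.w_iota (P.rchar : E)
  rw [Cg.av_rchar, map_natCast, Λ.rchar] at h
  ext
  simpa using h

lemma w_natCast {n : ℕ} (hn : ¬ 3 ∣ n) : Λ.w n = 1 := Unr.w_natCast Λ.w3 hn

/-- residues come from algebraic integers -/
lemma exists_int {a : ℂ} (ha : Λ.w a ≤ 1) : ∃ x : 𝓞 E, Λ.w (a - ι x) < 1 := by
  obtain ⟨x, hx⟩ := Λ.near a 1 one_pos
  have h1 : Λ.w (ι x) ≤ 1 := by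
    have : ι x = a - (a - ι x) := by ring
    rw [this]
    exact (Valuation.map_sub _ _ _).trans (max_le ha hx.le)
  obtain ⟨b, s, hs, h⟩ := (P.v_le_one_iff x).1 ((Λ.w_iota_le_one x).1 h1)
  obtain ⟨t, u, hu, htu⟩ := P.isMaximal.exists_inv hs
  refine ⟨t * b, ?_⟩
  have e : a - ι ((t * b : 𝓞 E) : E) = (a - ι x) + ι x * ι u := by
    have h2 : algebraMap (𝓞 E) E t * algebraMap (𝓞 E) E s + algebraMap (𝓞 E) E u = 1 := by
      rw [← map_mul, ← map_add, htu, map_one]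
    have h3 : ((t * b : 𝓞 E) : E) = x - x * (u : E) := by
      change algebraMap (𝓞 E) E (t * b) = x - x * algebraMap (𝓞 E) E u
      rw [map_mul, ← h]
      linear_combination x * h2
    rw [h3, map_sub, map_mul]; ring
  rw [e]
  refine lt_of_le_of_lt (Valuation.map_add _ _ _) (max_lt hx ?_)
  rw [map_mul]
  exact mul_lt_one_of_nonneg_of_lt_one_right h1 zero_le ((Λ.w_int_lt_one u).2 hu)

/-- the residue field is algebraic over `𝔽₃` -/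
lemma exists_pow {a : ℂ} (ha : Λ.w a ≤ 1) : ∃ z ∈ Tei ℂ, Λ.w (a - z) < 1 := by
  obtain ⟨x, hx⟩ := Λ.exists_int ha
  obtain ⟨n, hn, h⟩ := Unr.exists_pow_of_integral Λ.w3
    (x := ι x) ((RingOfIntegers.isIntegral_coe x).map ι.toIntAlgHom)
  obtain ⟨z, hz, h'⟩ := Unr.exists_tei hn h
  refine ⟨z, hz, ?_⟩
  rw [show a - z = (a - ι x) + (ι x - z) by ring]
  exact lt_of_le_of_lt (Valuation.map_add _ _ _) (max_lt hx h')

theorem ctx : Ctx Λ.Fn Λ.w := Unr.ctx_nr Λ.ctx0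

theorem full : Full Λ.Fn Λ.w := fun _ hy =>
  let ⟨z, hz, h⟩ := Λ.exists_pow hy
  ⟨⟨z, Unr.tei_mem hz⟩, h⟩

theorem mem_I_iff (σ : Λ.D) : σ ∈ Λ.I ↔ ∀ x, Λ.w x ≤ 1 → Λ.w (σ x - x) < 1 :=
  Unr.mem_fix_iff_res Λ.w3 Λ.w_D (fun _ => Λ.exists_pow) σ

theorem w_G_sub (σ : Λ.G) {x : ℂ} (hx : Λ.w x ≤ 1) : Λ.w (σ x - x) < 1 :=
  (Λ.mem_I_iff _).1 (Λ.inc_mem σ) x hx

theorem comm_mem_I (σ τ : Λ.D) : σ * τ * σ⁻¹ * τ⁻¹ ∈ Λ.I := Unr.comm_mem_fix σ τ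

/-- an element of `ℂ` fixed by the inertia group lies in `Fn` -/
theorem mem_Fn_iff (x : ℂ) : x ∈ Λ.Fn ↔ ∀ σ ∈ Λ.I, σ x = x := by
  conv_lhs => rw [← InfiniteGalois.fixedField_fixingSubgroup Λ.Fn]
  rw [IntermediateField.mem_fixedField_iff]

theorem disc_I {x : ℂ} (h0 : x ≠ 0) (hx : ∀ σ ∈ Λ.I, σ x = x) : ∃ m : ℤ, Λ.w x = Λ.w 3 ^ m :=
  Λ.ctx.disc ⟨x, (Λ.mem_Fn_iff x).2 hx⟩ fun h => h0 (congrArg Subtype.val h)

theorem res_I {x : ℂ} (hx : Λ.w x ≤ 1) : ∃ z, (∀ σ ∈ Λ.I, σ z = z) ∧ Λ.w (x - z) < 1 :=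
  let ⟨z, hz, h⟩ := Λ.exists_pow hx
  ⟨z, (Λ.mem_Fn_iff z).1 (Unr.tei_mem hz), h⟩

/-- the residue action is read on algebraic integers -/
theorem pow_iff (σ : Λ.D) (q : ℕ) : (∀ x : 𝓞 E, Λ.rD σ • x - x ^ q ∈ P.ideal) ↔
    ∀ a, Λ.w a ≤ 1 → Λ.w (σ a - a ^ q) < 1 := by
  have e0 : ∀ x : 𝓞 E, ι ((Λ.rD σ • x - x ^ q : 𝓞 E) : E) = σ (ι x) - ι x ^ q := fun x => by
    rw [show ((Λ.rD σ • x - x ^ q : 𝓞 E) : E) = Λ.rD σ x - (x : E) ^ q from by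
      change algebraMap (𝓞 E) E _ = _
      rw [map_sub, map_pow, Place.smul_coe]; rfl, map_sub, map_pow, iota_rD]
  refine ⟨fun hg a ha => ?_, fun h x => (Λ.w_int_lt_one _).1 (e0 x ▸ h _ (Λ.w_int_le_one x))⟩
  obtain ⟨x, hx⟩ := Λ.exists_int ha
  have h1 : Λ.w (σ a - σ (ι x)) < 1 := by rwa [← map_sub, w_D]
  have h2 : Λ.w (σ (ι x) - ι x ^ q) < 1 := e0 x ▸ (Λ.w_int_lt_one _).2 (hg x)
  have h3 : Λ.w (a ^ q - ι x ^ q) < 1 := by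
    rw [← Commute.geom_sum₂_mul (Commute.all _ _), map_mul]
    refine mul_lt_one_of_nonneg_of_lt_one_right (Valuation.map_sum_le _ fun i _ => ?_) zero_le hx
    rw [map_mul, map_pow, map_pow]
    exact mul_le_one' (pow_le_one' ha _) (pow_le_one' (Λ.w_int_le_one x) _)
  rw [show σ a - a ^ q = (σ a - σ (ι x)) + (σ (ι x) - ι x ^ q) - (a ^ q - ι x ^ q) by ring]
  exact lt_of_le_of_lt (Valuation.map_sub _ _ _)
    (max_lt (lt_of_le_of_lt (Valuation.map_add _ _ _) (max_lt h1 h2)) h3)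

/-- `r` identifies the inertia groups -/
theorem rD_mem_inertia (σ : Λ.D) : Λ.rD σ ∈ P.ideal.inertia (E ≃ₐ[ℚ] E) ↔ σ ∈ Λ.I := by
  have := Λ.pow_iff σ 1
  simp only [pow_one] at this
  rw [mem_I_iff, ← this]
  rfl

theorem rG_mem (σ : Λ.G) : Λ.rG σ ∈ P.ideal.inertia (E ≃ₐ[ℚ] E) :=
  (Λ.rD_mem_inertia _).2 (Λ.inc_mem σ)

theorem exists_rG {g : E ≃ₐ[ℚ] E} (hg : g ∈ P.ideal.inertia (E ≃ₐ[ℚ] E)) : ∃ σ, Λ.rG σ = g := by
  obtain ⟨σ, rfl⟩ := Λ.exists_rD (P.inertia_le_stabilizer hg)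
  obtain ⟨τ, rfl⟩ := Λ.exists_inc ((Λ.rD_mem_inertia σ).1 hg)
  exact ⟨τ, rfl⟩

theorem range_rG : Λ.rG.range = P.ideal.inertia (E ≃ₐ[ℚ] E) :=
  Subgroup.ext fun _ => ⟨fun ⟨σ, h⟩ => h ▸ Λ.rG_mem σ, Λ.exists_rG⟩

/-- a Frobenius lift -/
theorem exists_frob : ∃ φ : Λ.D, ∀ a, Λ.w a ≤ 1 → Λ.w (φ a - a ^ 3) < 1 := by
  obtain ⟨φ, hφ, h⟩ := Place.exists_frob (F := ℚ) P
  obtain ⟨σ, rfl⟩ := Λ.exists_rD hφ
  rw [Λ.pow_iff] at h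
  have hq : P.qv ℚ = 3 := by
    have hm : ∀ x : 𝓞 ℚ, x ∈ (P.res ℚ).ideal ↔ (3 : ℤ) ∣ Rat.ringOfIntegersEquiv x := fun x => by
      have h3 : (P.res ℚ).rchar = 3 := by rw [Place.rchar_res, Λ.rchar]
      obtain ⟨z, rfl⟩ := Rat.ringOfIntegersEquiv.symm.surjective x
      rw [RingEquiv.apply_symm_apply, eq_intCast, ← Int.natAbs_dvd_natAbs,
        show (3 : ℤ).natAbs = 3 from rfl, ← h3, ← Place.natCast_mem_iff]
      rcases Int.natAbs_eq z with h | h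
      · rw [← Int.cast_natCast, ← h]
      · rw [← Int.cast_natCast,
          ← neg_mem_iff (H := (P.res ℚ).ideal) (x := ((z.natAbs : ℤ) : 𝓞 ℚ)), ← Int.cast_neg, ← h]
    have hk : RingHom.ker ((Int.castRingHom (ZMod 3)).comp Rat.ringOfIntegersEquiv.toRingHom) =
        (P.res ℚ).ideal := Ideal.ext fun x => by
      rw [hm, RingHom.mem_ker]
      exact ZMod.intCast_zmod_eq_zero_iff_dvd _ 3
    rw [Place.qv_def, ← hk, Nat.card_congr (RingHom.quotientKerEquivOfSurjective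
      (ZMod.ringHom_surjective _)).toEquiv, Nat.card_zmod]
  exact ⟨σ, hq ▸ h⟩

omit [IsGalois ℚ E] in
/-- continuity of the restriction to `E` -/
theorem isOpen_comap {F : Type} [Field F] [Algebra F ℂ] [Algebra.IsAlgebraic F ℂ]
    (s : (ℂ ≃ₐ[F] ℂ) →* (E ≃ₐ[ℚ] E)) (hs : ∀ σ x, ι (s σ x) = σ (ι x))
    {N : Subgroup (E ≃ₐ[ℚ] E)} (hN : IsOpen (N : Set (E ≃ₐ[ℚ] E))) :
    IsOpen (N.comap s : Set (ℂ ≃ₐ[F] ℂ)) := by
  obtain ⟨L, hL, hLN⟩ := (krullTopology_mem_nhds_one_iff ℚ E _).1 (hN.mem_nhds N.one_mem)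
  let b := Module.finBasis ℚ L
  let L' := IntermediateField.adjoin F (Set.range fun i => ι (b i))
  have : FiniteDimensional F L' :=
    IntermediateField.finiteDimensional_adjoin fun x _ => Algebra.IsIntegral.isIntegral x
  refine Subgroup.isOpen_mono (H₁ := L'.fixingSubgroup) (fun σ hσ => hLN ?_)
    (IntermediateField.fixingSubgroup_isOpen L')
  rw [IntermediateField.mem_fixingSubgroup_iff] at hσ
  refine (IntermediateField.mem_fixingSubgroup_iff _ _).2 fun x hx => ?_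
  have e := congrArg Subtype.val (b.sum_repr ⟨x, hx⟩)
  simp only [AddSubmonoidClass.coe_finsetSum, Algebra.smul_def, MulMemClass.coe_mul, eq_ratCast,
    SubfieldClass.coe_ratCast] at e
  rw [← e, map_sum]
  refine Finset.sum_congr rfl fun i _ => ?_
  rw [map_mul, map_ratCast, ι.injective ((hs σ _).trans (hσ _ (IntermediateField.subset_adjoin _ _ ⟨i, rfl⟩)))]

theorem isOpen_comap_rD {N : Subgroup (E ≃ₐ[ℚ] E)} (hN : IsOpen (N : Set (E ≃ₐ[ℚ] E))) :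
    IsOpen (N.comap Λ.rD : Set Λ.D) := isOpen_comap Λ.rD Λ.iota_rD hN

theorem isOpen_comap_rG {N : Subgroup (E ≃ₐ[ℚ] E)} (hN : IsOpen (N : Set (E ≃ₐ[ℚ] E))) :
    IsOpen (N.comap Λ.rG : Set Λ.G) := isOpen_comap Λ.rG Λ.iota_rG hN

/-- an open subgroup of `Gal(E/ℚ)` cuts out a finite extension of `F0` -/
theorem exists_field_D {N : Subgroup (E ≃ₐ[ℚ] E)} (hN : IsOpen (N : Set (E ≃ₐ[ℚ] E))) :
    ∃ L : IntermediateField Λ.F0 ℂ, FiniteDimensional Λ.F0 L ∧ L.fixingSubgroup = N.comap Λ.rD ∧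
      (N.Normal → IsGalois Λ.F0 L) :=
  let ⟨L, h1, h2, h3⟩ := Unr.exists_field _ (Λ.isOpen_comap_rD hN)
  ⟨L, h1, h2, fun h => h3 (h.comap _)⟩

/-- an open subgroup of `Gal(E/ℚ)` cuts out a finite extension of `Fn` -/
theorem exists_field_G {N : Subgroup (E ≃ₐ[ℚ] E)} (hN : IsOpen (N : Set (E ≃ₐ[ℚ] E))) :
    ∃ L : IntermediateField Λ.Fn ℂ, FiniteDimensional Λ.Fn L ∧ L.fixingSubgroup = N.comap Λ.rG ∧
      (N.Normal → IsGalois Λ.Fn L) :=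
  let ⟨L, h1, h2, h3⟩ := Unr.exists_field _ (Λ.isOpen_comap_rG hN)
  ⟨L, h1, h2, fun h => h3 (h.comap _)⟩

end Loc3

end Crest.Agent.T15.Fl

end
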