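import Crest.Agent.T15.HkCh_62

/-!
# Row 15, block T (helper62): the Taylor–Wiles levels

`H0 L`, `LQ L q`, `Dl m r`, `chi`, `H1`, the covering `covQ` and the towers `tw0`, `stpQ`.
-/

set_option autoImplicit false
set_option linter.unusedSectionVars false

noncomputable section

namespace Crest.Agent.T15.Hk

open Finset Function
open Crest.Agent.T15.Mf Crest.Agent.T15.Lv

/-- the units which are `1` modulo `4` -/
def H0 (L : ℕ) : Subgroup (ZMod L)ˣ := (ZMod.unitsMap (Nat.gcd_dvd_right 4 L)).ker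

lemma mem_H0 {L : ℕ} (h : 4 ∣ L) {u : (ZMod L)ˣ} : u ∈ H0 L ↔ ZMod.unitsMap h u = 1 := by
  have : ∀ (d : ℕ) (hd : d ∣ L), d = 4 → (ZMod.unitsMap hd u = 1 ↔ ZMod.unitsMap h u = 1) := by
    rintro _ _ rfl; rfl
  exact this _ _ (Nat.gcd_eq_left h)

lemma mem_H0_level {L L' : ℕ} (h : 4 ∣ L) (hd : L ∣ L') {u : (ZMod L')ˣ} :
    u ∈ H0 L' ↔ ZMod.unitsMap hd u ∈ H0 L := by
  rw [mem_H0 h, mem_H0 (h.trans hd), ← ZMod.unitsMap_comp h hd]; rfl

lemma mem_or_neg_mem_H0 {L : ℕ} (h : 4 ∣ L) (u : (ZMod L)ˣ) : u ∈ H0 L ∨ -u ∈ H0 L := by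
  have e : ZMod.unitsMap h (-u) = -ZMod.unitsMap h u := Units.ext (by
    rw [Units.val_neg, ZMod.unitsMap_val, ZMod.unitsMap_val, Units.val_neg,
      ← ZMod.castHom_apply (h := h), map_neg, ZMod.castHom_apply])
  rw [mem_H0 h, mem_H0 h, e]
  generalize ZMod.unitsMap h u = v
  revert v; decide

lemma free_H {L : ℕ} (h : 4 ∣ L) {H : Subgroup (ZMod L)ˣ} (hH : H ≤ H0 L) : IsFreeGroup (Gq L H) :=
  free_Gq h fun _ hu => (mem_H0 h).1 (hH hu)

lemma fg_H {L : ℕ} [NeZero L] (h : 4 ∣ L) {H : Subgroup (ZMod L)ˣ} (hH : H ≤ H0 L) :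
    Group.FG (Gq L H) := fg_Gq h fun _ hu => (mem_H0 h).1 (hH hu)

lemma tw_H0 {L L' : ℕ} (h : 4 ∣ L) {S : Finset ℕ} (hp : ∀ q ∈ S, q.Prime) (hn : ∀ q ∈ S, ¬ q ∣ L)
    (e : L' = L * ∏ q ∈ S, q) : Tw S (H0 L) (H0 L') :=
  ⟨hp, hn, e, fun hd _ => mem_H0_level h hd, fun q hq => by
    let v := ZMod.unitOfCoprime q ((Nat.Prime.coprime_iff_not_dvd (hp q hq)).2 (hn q hq))
    exact (mem_or_neg_mem_H0 h v).elim (fun h => ⟨v, h, .inl rfl⟩) fun h => ⟨-v, h, .inr rfl⟩⟩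

/-- the diamond group -/
abbrev Dl (m r : ℕ) : Type := Fin r → Multiplicative (ZMod m)

/-- its generators -/
def del (m : ℕ) {r : ℕ} (i : Fin r) : Dl m r := Pi.mulSingle i (Multiplicative.ofAdd 1)

lemma exists_chi1 {q m : ℕ} (hq : q.Prime) (hm : m ∣ q - 1) :
    ∃ f : (ZMod q)ˣ →* Multiplicative (ZMod m), Surjective f := by
  have := Fact.mk hq
  let e := zmodCyclicMulEquiv (inferInstance : IsCyclic (ZMod q)ˣ)
  have hc : m ∣ Nat.card (ZMod q)ˣ := by rwa [Nat.card_eq_fintype_card, ZMod.card_units]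
  exact ⟨(ZMod.castHom hc (ZMod m)).toAddMonoidHom.toMultiplicative.comp e.symm.toMonoidHom,
    (ZMod.castHom_surjective hc).comp e.symm.surjective⟩

open Classical in
/-- a character of order `m` modulo `q` -/
def chi1 (q m : ℕ) : (ZMod q)ˣ →* Multiplicative (ZMod m) :=
  if h : q.Prime ∧ m ∣ q - 1 then (exists_chi1 h.1 h.2).choose else 1

lemma chi1_surj {q m : ℕ} (hq : q.Prime) (hm : m ∣ q - 1) : Surjective (chi1 q m) := by
  rw [chi1, dif_pos ⟨hq, hm⟩]; exact (exists_chi1 hq hm).choose_spec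

variable {r : ℕ} (L : ℕ) (q : Fin r → ℕ) (m : ℕ)

/-- the level with the auxiliary primes -/
def LQ : ℕ := L * ∏ i, q i

/-- the level without the `i`-th auxiliary prime -/
def LQ' (i : Fin r) : ℕ := L * ∏ j ∈ univ.erase i, q j

lemma dvd_LQ : L ∣ LQ L q := dvd_mul_right _ _

lemma dvd_LQ' (i : Fin r) : L ∣ LQ' L q i := dvd_mul_right _ _

lemma q_dvd_LQ (i : Fin r) : q i ∣ LQ L q := (dvd_prod_of_mem q (mem_univ i)).mul_left _

/-- the character with values in the diamond group -/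
def chi : (ZMod (LQ L q))ˣ →* Dl m r :=
  MonoidHom.pi fun i => (chi1 (q i) m).comp (ZMod.unitsMap (q_dvd_LQ L q i))

lemma chi_apply (u : (ZMod (LQ L q))ˣ) (i : Fin r) :
    chi L q m u i = chi1 (q i) m (ZMod.unitsMap (q_dvd_LQ L q i) u) := rfl

/-- the Taylor–Wiles level structure -/
def H1 : Subgroup (ZMod (LQ L q))ˣ := H0 (LQ L q) ⊓ (chi L q m).ker

lemma H1_le : H1 L q m ≤ H0 (LQ L q) := inf_le_left

/-- auxiliary primes -/
structure Aux : Prop where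
  pos : 0 < L
  four : 4 ∣ L
  inj : Injective q
  prime : ∀ i, (q i).Prime
  ndvd : ∀ i, ¬ q i ∣ L
  dvd : ∀ i, m ∣ q i - 1

namespace Aux
variable {L q m} (h : Aux L q m)
include h

lemma neZero : NeZero (LQ L q) :=
  ⟨mul_ne_zero h.pos.ne' (prod_ne_zero_iff.2 fun i _ => (h.prime i).ne_zero)⟩

lemma neZero' (i : Fin r) : NeZero (LQ' L q i) :=
  ⟨mul_ne_zero h.pos.ne' (prod_ne_zero_iff.2 fun i _ => (h.prime i).ne_zero)⟩

lemma four' : 4 ∣ LQ L q := h.four.trans (dvd_LQ L q)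

lemma tw : Tw (univ.image q) (H0 L) (H0 (LQ L q)) :=
  tw_H0 h.four (by simpa using h.prime) (by simpa using h.ndvd)
    (by rw [prod_image h.inj.injOn, LQ])

lemma tw' (i : Fin r) : Tw ((univ.image q).erase (q i)) (H0 L) (H0 (LQ' L q i)) :=
  tw_H0 h.four (fun l hl => h.tw.prime l (mem_of_mem_erase hl))
    (fun l hl => h.tw.ndvd l (mem_of_mem_erase hl))
    (by rw [← image_erase h.inj, prod_image h.inj.injOn, LQ'])

lemma stp (i : Fin r) : Stp (q i) (H0 (LQ' L q i)) (H0 (LQ L q)) :=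
  h.tw.stp (mem_image_of_mem q (mem_univ i)) (h.tw' i)

/-- a unit with prescribed residue at one auxiliary prime, `1` elsewhere -/
lemma exists_unit (i : Fin r) (v : (ZMod (q i))ˣ) : ∃ u : (ZMod (LQ L q))ˣ,
    ZMod.unitsMap (q_dvd_LQ L q i) u = v ∧ ZMod.unitsMap (h.stp i).dvd u = 1 := by
  have hs := h.stp i
  have hc : (LQ' L q i).Coprime (q i) := ((Nat.Prime.coprime_iff_not_dvd hs.prime).2 hs.ndvd).symm
  have : ∀ (M : ℕ) (e : M = LQ' L q i * q i) (h1 : q i ∣ M) (h2 : LQ' L q i ∣ M),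
      ∃ u : (ZMod M)ˣ, ZMod.unitsMap h1 u = v ∧ ZMod.unitsMap h2 u = 1 := by
    rintro _ rfl h1 h2
    let e := ZMod.chineseRemainder hc
    refine ⟨Units.map e.symm.toMonoidHom (MulEquiv.prodUnits.symm (1, v)), Units.ext ?_, Units.ext ?_⟩
    · have := congrArg Prod.snd (e.apply_symm_apply (1, v))
      rw [ZMod.unitsMap_val]
      simpa [e, ZMod.chineseRemainder, MulEquiv.prodUnits] using this
    · have := congrArg Prod.fst (e.apply_symm_apply (1, v))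
      rw [ZMod.unitsMap_val]
      simpa [e, ZMod.chineseRemainder, MulEquiv.prodUnits] using this
  exact this _ hs.eq _ _

lemma chi_single (i : Fin r) {u : (ZMod (LQ L q))ˣ} (hu : ZMod.unitsMap (h.stp i).dvd u = 1) :
    u ∈ H0 (LQ L q) ∧
      chi L q m u = Pi.mulSingle i (chi1 (q i) m (ZMod.unitsMap (q_dvd_LQ L q i) u)) := by
  refine ⟨((h.stp i).mem _ u).2 (hu ▸ one_mem _), funext fun j => ?_⟩
  by_cases hj : j = i
  · subst hj; rw [Pi.mulSingle_eq_same, chi_apply]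
  · have hd : q j ∣ LQ' L q i := (dvd_prod_of_mem q (by simpa using hj)).mul_left _
    rw [Pi.mulSingle_eq_of_ne hj, chi_apply, ← ZMod.unitsMap_comp hd (h.stp i).dvd,
      MonoidHom.comp_apply, hu, map_one, map_one]

lemma chi_surj (δ : Dl m r) : ∃ u ∈ H0 (LQ L q), chi L q m u = δ := by
  have : ∀ i, ∃ u ∈ H0 (LQ L q), chi L q m u = Pi.mulSingle i (δ i) := fun i => by
    obtain ⟨v, hv⟩ := chi1_surj (h.prime i) (h.dvd i) (δ i)
    obtain ⟨u, h1, h2⟩ := h.exists_unit i v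
    exact ⟨u, (h.chi_single i h2).1, by rw [(h.chi_single i h2).2, h1, hv]⟩
  choose u hu hu' using this
  exact ⟨∏ i, u i, prod_mem fun i _ => hu i, by simp only [map_prod, hu', univ_prod_mulSingle]⟩

theorem cov : Cov ((chi L q m).comp (dch (LQ L q) (H0 (LQ L q)))) (Gq (LQ L q) (H1 L q m)) :=
  Lv.cov _ h.chi_surj fun _ => Iff.rfl

end Aux

lemma isPGroup_Dl (p n r : ℕ) : IsPGroup p (Dl (p ^ n) r) := fun g => ⟨n, funext fun i => by
  rw [Pi.pow_apply, Pi.one_apply, ← ofAdd_toAdd (g i), ← ofAdd_nsmul, nsmul_eq_mul,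
    ZMod.natCast_self, zero_mul, ofAdd_zero]⟩

end Crest.Agent.T15.Hk

end
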