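import Mathlib
import Crest.Agent.T15.SrcK_71
import Crest.Agent.T15.CgF_84

/-!
# Row 15, block T (helper71): `Aut ℂ` on function fields inside `FF`; flat and unramified

`L` a function field over `ℂ` with an embedding `j` into `FF` whose image is stable under `σ`.
* `siF j hj σ h1 h2 : SI ℂ L ℂ L`;
* `exists_act`, `flat_FF`, `nos_FF`.
-/

set_option autoImplicit false
set_option linter.all false

noncomputable section

namespace Crest.Agent.T15.Disc

open Polynomial WithZero Module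
open scoped NNReal
open Crest.Agent.R013.RR7_948 Crest.Agent.R013.RR9_948
open Crest.Agent.R013.GR4_921
open Crest.Agent.R013.Frob1_914 Crest.Agent.R013.PicD_398
open Crest.Agent.R013.RR14_948 (del)
open Crest.Agent.T15.FlR Crest.Agent.T15.Mf

section si

variable {L : Type*} [Field L] [Algebra ℂ L]

/-- `σ ∈ Aut ℂ` restricted to a stable subfield of `FF` -/
theorem exists_siF (j : L →+* FF) (hj : ∀ c, j (algebraMap ℂ L c) = algebraMap ℂ FF c)
    (σ : ℂ ≃+* ℂ) (h1 : ∀ u, ∃ u', j u' = σ • j u) (h2 : ∀ u, ∃ u', j u' = σ⁻¹ • j u) :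
    ∃ e : SI ℂ L ℂ L, e.s = σ ∧ ∀ u, j (e.f u) = σ • j u := by
  choose f hf using h1
  choose f' hf' using h2
  let φ : L ≃+* L :=
    { toFun := f
      invFun := f'
      left_inv := fun u => j.injective (by rw [hf', hf, inv_smul_smul])
      right_inv := fun u => j.injective (by rw [hf, hf', smul_inv_smul])
      map_mul' := fun a b => j.injective (by rw [map_mul, hf, hf, hf, map_mul, smul_mul'])
      map_add' := fun a b => j.injective (by rw [map_add, hf, hf, hf, map_add, smul_add]) }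
  refine ⟨⟨σ, φ, fun c => j.injective ?_⟩, rfl, hf⟩
  show j (f _) = _
  rw [hf, hj, hj, aut_smul, gal_algebraMap]
  rfl

end si

variable {L : Type*} [Field L] [Algebra ℂ L]
  [Algebra (RatFunc ℂ) L] [IsScalarTower ℂ (RatFunc ℂ) L] [FiniteDimensional (RatFunc ℂ) L]
  {k κ : Type*} [Field k] [IsAlgClosed k] [Field κ] [Algebra k κ]
  [Algebra (RatFunc k) κ] [IsScalarTower k (RatFunc k) κ] [FiniteDimensional (RatFunc k) κ]
  [Algebra.IsSeparable (RatFunc k) κ]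

namespace Good

variable {v : Valuation ℂ ℝ≥0} {ρC : ℂ → k} {w : Valuation L ℝ≥0} {ρ : L → κ}
  {sp : Pl ℂ L → Pl k κ} (h : Good v ρC w ρ sp) {j : L →+* FF} {wF : Valuation FF ℝ≥0}

include h

omit h in
theorem iso_FF (hG : Cg.IsG v qx wF) (hw : ∀ u, w u = wF (j u)) {σ : ℂ ≃+* ℂ}
    (hσ : ∀ c, v (σ c) = v c) {e : SI ℂ L ℂ L} (he : ∀ u, j (e.f u) = σ • j u) (u : L) :
    w (e.f u) = w u := by
  rw [hw, he, Cg.w_aut hG hσ, ← hw]

theorem res_FF (hG : Cg.IsG v qx wF) (hw : ∀ u, w u = wF (j u)) {σ : ℂ ≃+* ℂ}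
    (hσ : ∀ c, v (σ c) = v c) (hσ' : ∀ c, v c ≤ 1 → v (σ c - c) < 1) {e : SI ℂ L ℂ L}
    (he : ∀ u, j (e.f u) = σ • j u) (u : L) (hu : w u ≤ 1) : ρ (e.f u) = ρ u := by
  rw [h.rd.res.eq_iff (by rw [iso_FF hG hw hσ he]; exact hu) hu, hw, map_sub, he]
  exact Cg.w_inert hG hσ' (by rw [← hw]; exact hu)

variable {G : Type*} [Group G] [MulSemiringAction G ℂ]

theorem exists_act (hj : ∀ c, j (algebraMap ℂ L c) = algebraMap ℂ FF c) (hG : Cg.IsG v qx wF)
    (hw : ∀ u, w u = wF (j u))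
    (hst : ∀ (g : G) u, ∃ u', j u' = MulSemiringAction.toRingEquiv G ℂ g • j u)
    (hiso : ∀ (g : G) c, v (g • c) = v c) (hin : ∀ (g : G) c, v c ≤ 1 → v (g • c - c) < 1)
    (horb : ∀ a : ℂ, (Set.range fun g : G => g • a).Finite)
    (hres : ∀ c : ℂ, v c ≤ 1 → ∃ a : ℂ, v (c - a) < 1 ∧ ∀ g : G, g • a = a)
    {x : L} (hx : w x ≤ 1) (hxf : ∀ g : G, MulSemiringAction.toRingEquiv G ℂ g • j x = j x)
    (hsep : del k κ (ρ x) ≠ 0) :
    ∃ e : G → SI ℂ L ℂ L, Act w sp e ∧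
      ∀ g u, j ((e g).f u) = MulSemiringAction.toRingEquiv G ℂ g • j u := by
  have hex : ∀ g : G, ∃ e : SI ℂ L ℂ L, e.s = MulSemiringAction.toRingEquiv G ℂ g ∧
      ∀ u, j (e.f u) = MulSemiringAction.toRingEquiv G ℂ g • j u := fun g =>
    exists_siF j hj _ (hst g) fun u => by
      have h1 : (MulSemiringAction.toRingEquiv G ℂ g)⁻¹ = MulSemiringAction.toRingEquiv G ℂ g⁻¹ :=
        RingEquiv.ext fun _ => rfl
      rw [h1]; exact hst g⁻¹ u
  choose e he1 he2 using hex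
  refine ⟨e, h.act_of (fun g c => by rw [he1]; rfl)
    (fun g => iso_FF hG hw (hiso g) (he2 g)) (fun g => h.res_FF hG hw (hiso g) (hin g) (he2 g))
    horb hx (fun g => j.injective (by rw [he2, hxf])) hsep hres, he2⟩

/-- **FLAT** for Kummer classes of modular functions -/
theorem flat_FF (hj : ∀ c, j (algebraMap ℂ L c) = algebraMap ℂ FF c) (hG : Cg.IsG v qx wF)
    (hw : ∀ u, w u = wF (j u))
    (hst : ∀ (g : G) u, ∃ u', j u' = MulSemiringAction.toRingEquiv G ℂ g • j u)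
    (hiso : ∀ (g : G) c, v (g • c) = v c) (hin : ∀ (g : G) c, v c ≤ 1 → v (g • c - c) < 1)
    (horb : ∀ a : ℂ, (Set.range fun g : G => g • a).Finite)
    (hres : ∀ c : ℂ, v c ≤ 1 → ∃ a : ℂ, v (c - a) < 1 ∧ ∀ g : G, g • a = a)
    {x : L} (hx : w x ≤ 1) (hxf : ∀ g : G, MulSemiringAction.toRingEquiv G ℂ g • j x = j x)
    (hsep : del k κ (ρ x) ≠ 0) {n : ℕ} (hn : n ≠ 0) {Λ V : Type*} [AddCommGroup V] [Finite V]
    {R : Λ → V → FF → Prop} (hR : KumR ℂ n fun l y (f : L) => R l y (j f)) {r : G → V → V}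
    (hr : ∀ l g y f, R l y f → R l (r g y) (MulSemiringAction.toRingEquiv G ℂ g • f)) :
    Flat v G r := by
  obtain ⟨e, hA, he⟩ := h.exists_act hj hG hw hst hiso hin horb hres hx hxf hsep
  exact h.flat_kum hA hn hR fun l g y f hf => by rw [he]; exact hr l g y _ hf

/-- **unramified** for Kummer classes of modular functions -/
theorem nos_FF (hj : ∀ c, j (algebraMap ℂ L c) = algebraMap ℂ FF c) (hG : Cg.IsG v qx wF)
    (hw : ∀ u, w u = wF (j u)) {σ : ℂ ≃+* ℂ} (h1 : ∀ u, ∃ u', j u' = σ • j u)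
    (h2 : ∀ u, ∃ u', j u' = σ⁻¹ • j u) (hσ : ∀ c, v (σ c) = v c)
    (hσ' : ∀ c, v c ≤ 1 → v (σ c - c) < 1) {n : ℕ} (hn : (n : k) ≠ 0) {Λ V : Type*}
    [AddCommGroup V] {R : Λ → V → FF → Prop} (hR : KumR ℂ n fun l y (f : L) => R l y (j f))
    {x y : V} (hr : ∀ l f, R l x f → R l y (σ • f)) : y = x := by
  obtain ⟨e, -, he⟩ := exists_siF j hj σ h1 h2
  exact h.nos_kum hn hR e (iso_FF hG hw hσ he) (h.res_FF hG hw hσ hσ' he)
    fun l f hf => by rw [he]; exact hr l _ hf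

end Good

end Crest.Agent.T15.Disc
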