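import Crest.Agent.T15.CgJ_84
import Crest.Agent.T15.SrcF_71
import Crest.Agent.T15.BetAz_91
import Crest.Agent.T15.Fl3Def_75
import Crest.Agent.T15.HkChi_62
import Crest.Agent.T15.IgE_61

/-!
# Row 15, block T (helper71): parabolic classes are flat at `3`

`flat_par` : from Igusa's theorem and the divisibility of the divisors of parabolic Kummer classes.
-/

set_option autoImplicit false
set_option linter.all false

noncomputable section

namespace Crest.Agent.T15.TFl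

open Function CongruenceSubgroup
open scoped NNReal MatrixGroups
open Crest.Agent.T15.Mf Crest.Agent.T15.Lv Crest.Agent.T15.Bet Crest.Agent.T15.Hk
open Crest.Agent.T15.Cg Crest.Agent.T15.Disc
open Crest.Agent.R013.RR9_948 Crest.Agent.R013.RR8_948
open Crest.Agent.R018.Placesx484

variable {M : ℕ} [NeZero M] {H : Subgroup (ZMod M)ˣ} {n : ℕ} [NeZero n]
  {A V : Type*} [AddCommGroup A] [Finite A] [AddCommGroup V]

theorem parS_comp {B : Type*} [AddCommGroup B] {Γ₀ : Subgroup SL(2, ℤ)} {φ : HH (Γ₀.map Mf.sq) A}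
    (h : ParS Γ₀ φ) (l : A →+ B) : ParS Γ₀ (l.comp φ) := fun γ hγ ht => by
  rw [val_comp, h γ hγ ht, map_zero]

/-- the Kummer dictionary -/
theorem kumR (hD : DvdStmt) (h4 : 4 ∣ M) (hH : ∀ u ∈ H, ZMod.unitsMap h4 u = 1)
    {j : V →+ HH (Gq M H) A} (hm : ∀ c : A, n • c = 0) (hj : Injective j)
    (hp : ∀ x, ParS (GH M H) (j x)) :
    KumR ℂ n fun (l : A →+ ZMod n) (x : V) (f : F (GH M H)) =>
      IsK n (Gq M H) (algebraMap (F (GH M H)) FF f) (l.comp (j x)) where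
  ne h := fun e => h.ne (by rw [e, map_zero])
  dvd {l x f} h := hD M H h4 hH n f _ (parS_comp (hp x) l) h
  ex l x := by
    obtain ⟨f, hf⟩ := hex_Gq (NeZero.ne M) h4 hH (l.comp (j x))
    obtain ⟨y, rfl⟩ := (fix_Gq f).1 hf.fixed
    exact ⟨y, hf⟩
  sub h h' := by
    rw [map_div₀, map_sub, AddMonoidHom.comp_sub]
    exact h.div h'
  uniq {l f} h := by
    rw [map_zero, AddMonoidHom.comp_zero] at h
    obtain ⟨y, h1, h2⟩ := h.exists_pow (NeZero.ne M) fun γ hγ =>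
      Subgroup.mem_map_of_mem _ (Gamma_le_GH hγ)
    obtain ⟨y, rfl⟩ := (fix_Gq y).1 h1
    exact ⟨y, (algebraMap (F (GH M H)) FF).injective (by rw [map_pow, h2])⟩
  sep {x} h := hj (Bc.HH_sep hm fun l => by
    obtain ⟨g, hg⟩ := h l
    rw [map_zero, AddMonoidHom.comp_zero]
    rw [map_pow] at hg
    exact hg.unique (IsK.of_fixed (fun e => hg.ne (by rw [e, zero_pow (NeZero.ne n)]))
      ((fix_Gq _).2 ⟨g, rfl⟩)))

theorem orb_fin {F0 : Type*} [Field F0] [Algebra F0 ℂ] [Algebra.IsAlgebraic F0 ℂ] (a : ℂ) :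
    (Set.range fun g : ℂ ≃ₐ[F0] ℂ => g • a).Finite := by
  have hi : IsIntegral F0 a := Algebra.IsIntegral.isIntegral a
  refine ((minpoly F0 a).rootSet_finite ℂ).subset ?_
  rintro _ ⟨g, rfl⟩
  rw [Polynomial.mem_rootSet]
  refine ⟨minpoly.ne_zero hi, ?_⟩
  change Polynomial.aeval (g a) _ = 0
  rw [Polynomial.aeval_algHom_apply, minpoly.aeval, map_zero]

/-- **FLAT** -/
theorem flat_par (hI : IgStmt) (hD : DvdStmt) {E : Type} [Field E] [CharZero E] [IsGalois ℚ E]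
    [IsAlgClosed E] {ι : E →+* ℂ} {P : Place E} (Λ : Fl.Loc3 ι P) (h4 : 4 ∣ M) (hH : H ≤ H0 M)
    (h3 : ¬ 3 ∣ M) {j : V →+ HH (Gq M H) A} {u : (E ≃ₐ[ℚ] E) → V → V} (hm : ∀ c : A, n • c = 0)
    (hj : Injective j) (hp : ∀ x, ParS (GH M H) (j x)) (hu : ∀ σ, ActK n j σ (u (resA ι σ))) :
    FlR.Flat Λ.w Λ.G fun g => u (Λ.rG g) := by
  have hH' : ∀ u ∈ H, ZMod.unitsMap h4 u = 1 := fun _ hu => (mem_H0 h4).1 (hH hu)
  have := fg_H h4 hH
  have := fin_HH (Γ := Gq M H) A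
  have : Finite V := Finite.of_injective j hj
  obtain ⟨k, κ, _, _, _, _, _, _, _, _, r, ρ, sp, hG, hs⟩ :=
    hI M H h4 hH' Λ.w 3 Nat.prime_three (by exact_mod_cast Λ.w3) h3
  have hx : algebraMap (F (GH M H)) FF (xK ℂ (F (GH M H))) = jj := coe_xK (Γ₀ := GH M H)
  have hx1 : gwK Λ.w (F (GH M H)) (xK ℂ (F (GH M H))) ≤ 1 := by
    change gw Λ.w (algebraMap (F (GH M H)) FF _) ≤ 1
    rw [hx]
    exact (Ig.w_jF (isG Λ.w)).le
  refine hG.flat_FF (j := algebraMap (F (GH M H)) FF) (fun _ => rfl) (isG Λ.w) (fun _ => rfl)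
    (fun g y => ⟨⟨_, aut_mem_F (NeZero.ne M) _ y.2⟩, rfl⟩) Λ.w_G (fun g c hc => Λ.w_G_sub g hc)
    orb_fin (fun c hc => ?_) hx1 (fun g => by rw [hx, aut_jj]) hs (NeZero.ne n)
    (R := fun (l : A →+ ZMod n) x f => IsK n (Gq M H) f (l.comp (j x)))
    (kumR hD h4 hH' hm hj hp) fun l g y f hf => ?_
  · obtain ⟨z, h1, h2⟩ := Λ.res_I hc
    exact ⟨z, h2, fun g => h1 _ (Λ.inc_mem g)⟩
  · rw [← Λ.resA_G]
    exact hu _ l y f hf

end Crest.Agent.T15.TFl
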