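import Crest.Agent.T15.ParA_12
import Crest.Agent.T15.Lv_10

/-!
# Row 15, block T (helper12): (PAR) for the Hecke element `Lv.Tp`
-/

set_option autoImplicit false
set_option linter.unusedSectionVars false

noncomputable section

namespace Crest.Agent.T15.Par

open Matrix CongruenceSubgroup Finset
open scoped MatrixGroups
open Crest.Agent.T15.Hk Crest.Agent.T15.Lv
open Crest.Agent.T15.Mf (GQ)

variable {L p : ℕ} {H : Subgroup (ZMod L)ˣ}
variable {O : Type*} [CommRing O] {A : Type*} [AddCommGroup A] [Module O A]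

theorem rep_gm {a b c d : ℤ} (h : 0 < a * d - b * c) : Rep (gm a b c d) !![a, b; c, d] := by
  unfold Rep
  rw [gm_val h]
  ext i j
  fin_cases i <;> fin_cases j <;> simp

/-- the representatives of `Tp` -/
def fam (L p : ℕ) : Option (Fin p) → GQ
  | none => sg L p * dg p
  | some i => up p i

theorem coprime_of (hL : (L : ℤ) ∣ (p : ℤ) - 1) : IsCoprime (p : ℤ) L := by
  obtain ⟨c, hc⟩ := hL
  exact ⟨1, -c, by linear_combination hc⟩

theorem not_dvd_of (hp : p.Prime) (hL : (L : ℤ) ∣ (p : ℤ) - 1) : ¬ p ∣ L := fun h =>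
  hp.one_lt.ne' (Nat.isUnit_iff.1 (by
    have := (Nat.isCoprime_iff_coprime.1 (coprime_of hL)).eq_one_of_dvd h
    rw [this]; exact isUnit_one))

theorem Tp_eq (h : ¬ p ∣ L) : Tp O L p = ∑ i, e O (fam L p i) := by
  rw [Tp, if_neg h, Fintype.sum_option, add_comm, U, Finset.sum_range]
  rfl

theorem rep_up (hp : 0 < p) (i : ℕ) : Rep (up p i) !![1, (i : ℤ); 0, (p : ℤ)] :=
  rep_gm (by simpa using hp)

theorem rep_dg (hp : 0 < p) : Rep (sg L p * dg p) ((sgZ L p).1 * bm p none) :=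
  (rep_sq _).mul (rep_gm (by simpa using hp))

theorem fam_Fam (hp : p.Prime) (hL : (L : ℤ) ∣ (p : ℤ) - 1) : Fam (GH L H) L p (fam L p) := by
  have h1 : ((p : ℕ) : ZMod L) = 1 := by
    have := (ZMod.intCast_zmod_eq_zero_iff_dvd _ L).2 hL
    push_cast at this
    exact sub_eq_zero.1 this
  have key : ∀ (i : Fin p) (γ : SL(2, ℤ)), up p i ≠ Mf.sq γ * (sg L p * dg p) := fun i γ h => by
    have h2 := (rep_up hp.pos i).unique (h ▸ (rep_sq γ).mul (rep_dg hp.pos))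
    rw [← Matrix.mul_assoc] at h2
    have h3 := congrFun (congrFun h2 0) 0
    rw [Matrix.mul_apply] at h3
    simp [bm, Fin.sum_univ_two] at h3
    have : (p : ℤ) ∣ 1 := ⟨_, h3.trans (mul_comm _ _)⟩
    exact hp.one_lt.ne' (by exact_mod_cast Int.eq_one_of_dvd_one (by positivity) this)
  refine ⟨by simp, ?_, ?_⟩
  · rintro (_ | i)
    · refine ⟨_, sgZ L p, rep_dg hp.pos, by rw [det_mul, (sgZ L p).2, bm_det, one_mul],
        ⟨(sgZ_mem L p).1, 1, H.one_mem, ?_⟩, ?_⟩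
      · rw [sgZ_d (coprime_of hL)]; simp [h1]
      · have h4 : (bm p none).map (Int.castRingHom (ZMod L)) = 1 := bm_mod hL none
        show ((sgZ L p).1 * bm p none).map (Int.castRingHom (ZMod L)) = _
        rw [Matrix.map_mul, h4, mul_one]
        rfl
    · refine ⟨_, ModularGroup.T ^ ((i : ℕ) : ℤ), rep_up hp.pos i, by simp [Matrix.det_fin_two_of],
        Subgroup.zpow_mem _ T_mem _, ?_⟩
      rw [ModularGroup.coe_T_zpow]
      ext a b
      fin_cases a <;> fin_cases b <;> simp [h1]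
  · rintro (_ | i) (_ | j) ⟨γ, -, h⟩
    · rfl
    · refine (key j γ⁻¹ ?_).elim
      rw [map_inv, h]
      simp [fam, mul_assoc]
    · exact (key i γ (by rw [h]; simp [fam, mul_assoc])).elim
    · have h2 : up p i = Mf.sq γ * up p j := by rw [h]; simp [fam]
      have h3 := (rep_up hp.pos i).unique (h2 ▸ (rep_sq γ).mul (rep_up hp.pos j))
      have h4 := congrFun (congrFun h3 0) 0
      have h5 := congrFun (congrFun h3 0) 1
      simp [Matrix.mul_apply, Fin.sum_univ_two] at h4 h5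
      rw [← h4, one_mul] at h5
      have hi := i.2
      have hj := j.2
      have h6 : γ 0 1 = 0 := by
        by_contra h0
        rcases lt_or_gt_of_ne h0 with h0 | h0 <;> nlinarith
      rw [h6] at h5
      exact congrArg some (Fin.ext (by omega))

/-- **(PAR)** for `Tp L p`, `p ≡ 1 mod L`, conjugated form -/
theorem par_Tp_conj (hp : p.Prime) (hL : (L : ℤ) ∣ (p : ℤ) - 1) (c : Corr O (Gq L H) (Gq L H))
    (hc : c.1 - Tp O L p ∈ Null O (Gq L H)) (φ : HH (Gq L H) A)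
    {ε : SL(2, ℤ)} (hε : ε = 1 ∨ ε = -1) (g : SL(2, ℤ)) (h : ℤ)
    (hγ : ε * (g * ModularGroup.T ^ h * g⁻¹) ∈ GH L H) :
    val (T A c φ) (Mf.sq (ε * (g * ModularGroup.T ^ h * g⁻¹))) =
      (p + 1) • val φ (Mf.sq (ε * (g * ModularGroup.T ^ h * g⁻¹))) :=
  par_conj (fam_Fam hp hL) Gamma_le_GH hp hL c (Tp_eq (O := O) (not_dvd_of hp hL) ▸ hc) φ hε g h hγ

/-- **(PAR)** for `Tp L p`, `p ≡ 1 mod L` -/
theorem par_Tp (hp : p.Prime) (hL : (L : ℤ) ∣ (p : ℤ) - 1)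
    (hc : Tp O L p ∈ Corr O (Gq L H) (Gq L H)) (φ : HH (Gq L H) A)
    {γ : SL(2, ℤ)} (hγ : γ ∈ GH L H) (htr : γ 0 0 + γ 1 1 = 2 ∨ γ 0 0 + γ 1 1 = -2) :
    val (T A ⟨_, hc⟩ φ) (Mf.sq γ) = (p + 1) • val φ (Mf.sq γ) := by
  obtain ⟨ε, g, h, hε, rfl⟩ := exists_conj γ htr
  exact par_Tp_conj hp hL ⟨_, hc⟩ (by simp) φ hε g h hγ

/-- generalised eigenvectors of `Tp L p` (`p ≡ 1 mod L`) with eigenvalue `≢ p + 1` are parabolic -/
theorem parabolic_of_nil (hp : p.Prime) (hL : (L : ℤ) ∣ (p : ℤ) - 1)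
    (hc : Tp O L p ∈ Corr O (Gq L H) (Gq L H)) {a : O} (ha : IsUnit (a - (p + 1))) {k : ℕ}
    {φ : HH (Gq L H) A} (hφ : ((T A ⟨_, hc⟩ - algebraMap O _ a :
      Module.End O (HH (Gq L H) A)) ^ k) φ = 0)
    {γ : SL(2, ℤ)} (hγ : γ ∈ GH L H) (htr : γ 0 0 + γ 1 1 = 2 ∨ γ 0 0 + γ 1 1 = -2) :
    val φ (Mf.sq γ) = 0 :=
  val_eq_zero_of_nil (T A ⟨_, hc⟩) (fun ψ => par_Tp hp hL hc ψ hγ htr) (by exact_mod_cast ha) hφ

/-- the eigenvector form over a ring without torsion -/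
theorem parabolic_of_eig [IsDomain O] [Module.IsTorsionFree O A] (hp : p.Prime)
    (hL : (L : ℤ) ∣ (p : ℤ) - 1) (hc : Tp O L p ∈ Corr O (Gq L H) (Gq L H)) {a : O}
    (ha : a ≠ p + 1) {φ : HH (Gq L H) A} (hφ : T A ⟨_, hc⟩ φ = a • φ)
    {γ : SL(2, ℤ)} (hγ : γ ∈ GH L H) (htr : γ 0 0 + γ 1 1 = 2 ∨ γ 0 0 + γ 1 1 = -2) :
    val φ (Mf.sq γ) = 0 := by
  have h := par_Tp hp hL hc φ hγ htr
  rw [hφ, val_smul, ← Nat.cast_smul_eq_nsmul O, ← sub_eq_zero, ← sub_smul, smul_eq_zero] at h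
  exact h.resolve_left (sub_ne_zero.2 (by exact_mod_cast ha))

end Crest.Agent.T15.Par
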