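import Crest.Agent.T15.TDef_10
import Crest.Agent.T15.Par_12

/-!
# Row 15, block T (helper10): the Galois half from its leaves
-/

set_option autoImplicit false
set_option linter.unusedSectionVars false

noncomputable section

namespace Crest.Agent.T15.TD

open Function CongruenceSubgroup WithZero Finset
open scoped NNReal MatrixGroups UpperHalfPlane
open Crest.Agent.T15.Mf Crest.Agent.T15.Lv Crest.Agent.T15.Bet Crest.Agent.T15.Hk
open Crest.Agent.T15.Cg
open Crest.Agent.T15.C (Gam Om In)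
open Crest.Agent.T15.Top (Lc Plc IsFr)
open Crest.Agent.T15.R (Gd)

/-- restriction of an action to a stable submodule -/
theorem exists_restrict {G O C V W : Type*} [Monoid G] [CommRing O] [CommRing C] [Algebra O C]
    [AddCommGroup V] [Module O V] [AddCommGroup W] [Module O W] [Module C W] [IsScalarTower O C W]
    (j : V →ₗ[O] W) (hj : Injective j) (ρ : G →* Module.End C W)
    (h : ∀ g x, ∃ y, j y = ρ g (j x)) :
    ∃ ρ' : G →* Module.End O V, ∀ g x, j (ρ' g x) = ρ g (j x) := by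
  choose f hf using h
  let F : G → Module.End O V := fun g =>
    { toFun := f g
      map_add' := fun x y => hj (by rw [map_add, hf, hf, hf, map_add, map_add])
      map_smul' := fun c x => hj (by
        rw [RingHom.id_apply, map_smul, hf, hf, map_smul, LinearMap.map_smul_of_tower]) }
  exact ⟨⟨⟨F, LinearMap.ext fun x => hj (by
      change j (f 1 x) = j x
      rw [hf, map_one]; rfl)⟩, fun g g' => LinearMap.ext fun x => hj (by
      change j (f (g * g') x) = j (f g (f g' x))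
      rw [hf, hf, hf, map_mul]; rfl)⟩, hf⟩

section par

variable {O A : Type*} [CommRing O] [AddCommGroup A] [Module O A]

/-- non-Eisenstein localisations are parabolic -/
theorem parS_EL {M : ℕ} {H : Subgroup (ZMod M)ˣ} {P : ℕ → Prop} {a : ℕ → O} {p : ℕ} (hP : P p)
    (hp : p.Prime) (hM : (M : ℤ) ∣ (p : ℤ) - 1) (ha : IsUnit (a p - (p + 1)))
    {x : HH (Gq M H) A} (hx : x ∈ EL A P a M H) : ParS (GH M H) x := fun γ hγ ht => by
  obtain ⟨k, hk⟩ := mem_EL.1 hx p hP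
  rw [TT_eq hp, ← Algebra.algebraMap_eq_smul_one] at hk
  exact Par.parabolic_of_nil hp hM _ ha hk hγ ht

variable {r L m : ℕ} {q : Fin r → ℕ}

lemma chi_neg (hm : Odd m) (u : (ZMod (LQ L q))ˣ) : chi L q m (-u) = chi L q m u := by
  obtain ⟨k, hk⟩ := hm
  have h1 : chi L q m (-1) ^ m = 1 := funext fun i => by
    rw [Pi.pow_apply, Pi.one_apply, ← ofAdd_toAdd (chi L q m (-1) i), ← ofAdd_nsmul, nsmul_eq_mul,
      ZMod.natCast_self, zero_mul, ofAdd_zero]
  have h2 : chi L q m (-1) ^ 2 = 1 := by rw [← map_pow, neg_one_sq, map_one]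
  have h3 : chi L q m (-1) ^ (2 * k + 1) = 1 := hk ▸ h1
  rw [pow_succ, pow_mul, h2, one_pow, one_mul] at h3
  rw [← neg_one_mul, map_mul, h3, one_mul]

/-- the diamond operator of an arbitrary unit -/
theorem dia_chi [NeZero m] (h : Aux L q m) (hm : Odd m) {l : ℤ} (hl : IsCoprime l (LQ L q))
    {u : (ZMod (LQ L q))ˣ} (hu : (u : ZMod (LQ L q)) = l) :
    h.dia O A (chi L q m u) = DD O A (LQ L q) (H1 L q m) l := by
  have e : dU (LQ L q) (sg (LQ L q) l) = u := Units.ext (by rw [dU_sg hl, hu])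
  rcases mem_or_neg_mem_H0 h.four' u with h0 | h0
  · rw [← e] at h0 ⊢
    exact h.dia_eq A h0
  · have h1 := gm_mem_top (L := LQ L q) (a := -1) (b := 0) (c := 0) (d := -1) (by simp) (by simp)
    have e' : dU (LQ L q) (sg (LQ L q) l * gm (-1) 0 0 (-1)) = -u := Units.ext (by
      rw [dU_mul (sg_mem _ l) h1.1, Units.val_mul, e, h1.2]; simp)
    refine LinearMap.ext fun φ => HH.ext fun γ hγ => ?_
    have hmem : sg (LQ L q) l * gm (-1) 0 0 (-1) ∈ Gq (LQ L q) (H0 (LQ L q)) :=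
      mem_Gq_iff.2 ⟨mul_mem (sg_mem _ l) h1.1, e' ▸ h0⟩
    have := h.cov.val_dia (O := O) (A := A) ⟨_, hmem⟩ φ hγ
    rw [MonoidHom.comp_apply, dch_apply, Subtype.coe_mk, e', chi_neg hm] at this
    refine this.trans ?_
    rw [DD_eq]
    refine Eq.trans ?_ (val_T_e (Dia_corr l) φ hγ (conj_mem (sg_mem _ l) hγ)).symm
    rw [mul_assoc (sg _ l) (gm _ _ _ _), ← Subgroup.mem_center_iff.1 (gm_center (c := -1) (by simp)) γ]
    congr 1; group

end par

namespace Dat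

variable {O C : Type} [CommRing O] [CommRing C] [Algebra O C] {n r L : ℕ} {q : Fin r → ℕ}
  {h : Aux L q (3 ^ (n + 1))} {a α : ℕ → C} {H : Type} [AddCommGroup H] [Module O H]
  {j : H →ₗ[O] HH (Gq (LQ L q) (H1 L q (3 ^ (n + 1)))) C} {Tp : ℕ → Module.End O H}
  {dia : Dl (3 ^ (n + 1)) r →* Module.End O H} (D : Dat h a α j Tp dia)

include D

/-- the localisations at all the levels dividing `LQ` are parabolic -/
theorem parS {M : ℕ} (hM : M ∣ LQ L q) {K : Subgroup (ZMod M)ˣ} {S : Finset ℕ}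
    (hS : S ⊆ univ.image q) {x : HH (Gq M K) C} (hx : x ∈ EL C (Gd L) (aS S a α) M K) :
    ParS (GH M K) x := by
  obtain ⟨p, h1, h2, h3⟩ := D.par
  refine parS_EL h1 h1.1 ((Int.natCast_dvd_natCast.2 hM).trans h2) ?_ hx
  rwa [aS, if_neg]
  intro hp
  obtain ⟨i, -, rfl⟩ := mem_image.1 (hS hp)
  have := (Int.natCast_dvd_natCast.2 (q_dvd_LQ L q i)).trans h2
  rw [dvd_sub_right dvd_rfl] at this
  exact h1.1.one_lt.ne' (Nat.dvd_one.1 (by exact_mod_cast this))

theorem mem (x : H) : j x ∈ EQ C L q (3 ^ (n + 1)) (Gd L) a α := (D.rng _).2 ⟨x, rfl⟩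

theorem parS_j (x : H) : ParS (GH _ _) (j x) := D.parS dvd_rfl subset_rfl (D.mem x)

theorem three' : ¬ 3 ∣ LQ L q := fun h3 => by
  rcases (Nat.prime_three.dvd_mul).1 h3 with h3 | h3
  · exact D.three h3
  · obtain ⟨i, -, hi⟩ := (Nat.prime_three.prime.dvd_finset_prod_iff _).1 h3
    exact (D.sy.hq i).2 (((Nat.prime_dvd_prime_iff_eq Nat.prime_three (h.prime i)).1 hi) ▸
      dvd_mul_right _ _)

end Dat

lemma not_dvd_LQ {r L : ℕ} {q : Fin r → ℕ} {m : ℕ} (h : Aux L q m) {p : ℕ} (hp : Gd L p)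
    (hq : ∀ i, p ≠ q i) : ¬ p ∣ LQ L q := fun hd => by
  rcases (hp.1.dvd_mul).1 hd with hd | hd
  · exact hp.2 (hd.mul_left _)
  · obtain ⟨i, -, hi⟩ := (hp.1.prime.dvd_finset_prod_iff _).1 hd
    exact hq i ((Nat.prime_dvd_prime_iff_eq hp.1 (h.prime i)).1 hi)

/-- **the Galois half** -/
theorem galStmt (hA : ActStmt) (hI : InjStmt) (hF : FlatStmt) (hC : CyStmt) (hW : TwStmt)
    (ι : Om →+* ℂ) (P : Plc) (h3 : P.rchar = 3) (Λ : Fl.Loc3 ι P) : GalStmt (Lc.of h3 Λ) := by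
  intro O C _ _ _ _ _ n r L q h a α H _ _ j Tp dia D
  have hM := h.neZero.ne
  have hH : ∀ u ∈ H1 L q (3 ^ (n + 1)), ZMod.unitsMap h.four' u = 1 := fun u hu =>
    (mem_H0 h.four').1 (H1_le L q _ hu)
  have hex := hex_Gq (n := 3 ^ (n + 1)) hM h.four' hH
  obtain ⟨ρ₀, h1, h2⟩ := hA ι _ _ hM h.four' (H1_le L q (3 ^ (n + 1))) (3 ^ (n + 1)) C C D.hm
  obtain ⟨ρ, hρ⟩ := exists_restrict j D.inj ρ₀ fun g x => (D.rng _).1 (EL_comm (D.mem x)
    fun p hp => gal_Tp D.hm injective_id hex h1 hM hp.1 (fun _ => rfl) g)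
  have hK : ∀ σ, ActK (3 ^ (n + 1)) j.toAddMonoidHom σ (ρ (resA ι σ)) := fun σ l x f hf => by
    have := h1 σ l (j x) f hf
    rwa [AddMonoidHom.id_apply, ← hρ] at this
  obtain ⟨δ, d1, d2, d3, d4⟩ := hC L r _ q h
  have hT : ∀ p, p.Prime → ∀ x, j.toAddMonoidHom (Tp p x) = TT O C _ _ p (j.toAddMonoidHom x) :=
    fun p hp x => (D.hT p hp x).trans ((TT_int hp _).trans (TT_int hp _).symm)
  have hE : ∀ (l : C →+ ZMod (3 ^ (n + 1))) x, l.comp (j.toAddMonoidHom x) ∈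
      {φ | ParS (GH (LQ L q) (H1 L q (3 ^ (n + 1)))) φ} := fun l x => (D.parS_j x).comp l
  have hJ : ∀ P : Plc, Gd L P.rchar → (∀ i, P.rchar ≠ q i) → Inj (vC ι P) (3 ^ (n + 1)) _ _ :=
    fun P hP hq => hI ι _ _ hM h.four' (H1_le L q (3 ^ (n + 1))) _ P fun hd => by
      rcases (hP.1.dvd_mul).1 hd with hd | hd
      · exact hP.2 ((hP.1.dvd_of_dvd_pow hd).mul_right _)
      · exact not_dvd_LQ h hP hq hd
  refine ⟨δ, ρ, fun g p hp _ => gal_Tp D.hm D.inj hex hK hM hp.1 (hT p hp.1) g, fun g y => ?_,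
    Subgroup.isOpen_mono (fun g hg => LinearMap.ext fun x => D.inj ?_) h2, d2,
    fun P hP hq => gal_unr D.hm D.inj hex hK hE P (hJ P hP hq), d3, fun P s hP hq hs => ?_,
    hW ι O C n r L q h a α H j Tp dia D δ ρ d1 hK,
    hF ι P h3 Λ _ _ hM h.four' (H1_le L q _) D.three' _ C H j.toAddMonoidHom _ D.hm D.inj
      D.parS_j hK⟩
  · obtain ⟨s, rfl⟩ := h.cov.surj y
    exact gal_conj D.hm D.inj hex hK hM (Gq_mono le_top s.2) (fun x γ hγ =>
      (congrArg (val · γ) (D.hD _ x)).trans (h.cov.val_dia s _ hγ)) g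
  · rw [hρ, MonoidHom.mem_ker.1 hg]; rfl
  · have hd := not_dvd_LQ h hP hq
    have hc := (Nat.Prime.coprime_iff_not_dvd hP.1).2 hd
    refine gal_es D.hm D.inj hex hK hE P (hJ P hP hq) hM hd hs (hT _ hP.1) fun x => ?_
    rw [d4 P s (ZMod.unitOfCoprime _ hc) hs rfl]
    refine (D.hD _ x).trans ?_
    rw [dia_chi h (Odd.pow (by decide)) (cop hP.1 hd) (by simp)]
    exact (DD_int _ _).trans (DD_int _ _).symm

end Crest.Agent.T15.TD

end
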