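import Crest.Agent.T15.TwW_73
import Crest.Agent.T15.TG_10

/-!
# Row 15, block T (helper73): the leaf `TwStmt`
-/

set_option autoImplicit false

noncomputable section

namespace Crest.Agent.T15.TD

open Function Finset
open Crest.Agent.T15.Mf Crest.Agent.T15.Lv Crest.Agent.T15.Bet Crest.Agent.T15.Hk
open Crest.Agent.T15.Cg

theorem twStmt (hA : ActStmt) (hI : InjStmt) : TwStmt := by
  intro ι O C _ _ _ _ _ n r L q h a α H _ _ j Tp dia D δ ρ hδ hρ i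
  have hM := h.neZero.ne
  have hM' := (h.neZero' i).ne
  have h4 : 4 ∣ LQ' L q i := h.four.trans (dvd_LQ' L q i)
  obtain ⟨ρ₁, a₁, -⟩ := hA ι _ _ hM h.four' (H1_le L q (3 ^ (n + 1))) (3 ^ (n + 1)) C C D.hm
  obtain ⟨ρ₀, a₀, -⟩ := hA ι _ (H0 (LQ' L q i)) hM' h4 le_rfl (3 ^ (n + 1)) C C D.hm
  obtain ⟨P, hP, τ, hτ, u, hu, hz, key⟩ := Tw73.tw_gal ι h D.sy i D.hm a₁ a₀
    (hI ι _ _ hM' h4 le_rfl _) fun x hx => D.parS (h.stp i).dvd (erase_subset _ _) hx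
  obtain ⟨ζ, hζ⟩ := Tw73.exists_root _ hM
  have hc : ∀ x, j (ρ τ x) = ρ₁ τ (j x) := by
    obtain ⟨σ, rfl⟩ := resA_surjective ι τ
    exact Tw73.act_eq D.hm (hex_Gq hM h.four' fun u hu => (mem_H0 h.four').1 (H1_le L q _ hu))
      (hρ σ) (a₁ σ)
  refine ⟨P, hP, τ, hτ, (hδ τ u ζ hζ (hz ζ hζ.pow_eq_one)).trans hu,
    LinearMap.ext fun x => D.inj ?_⟩
  rw [Module.End.mul_apply, LinearMap.sub_apply, Module.End.one_apply, map_sub, hc,
    LinearMap.sub_apply, map_sub j, hc, D.hD, key _ (D.mem x), sub_self, LinearMap.zero_apply,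
    map_zero]

end Crest.Agent.T15.TD

end
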