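import Crest.Agent.T15.VsDef_48

/-!
# Row 15, block Ht (helper93): leaf `Vs.G1`, the Gauss norm on bounded series
-/

set_option autoImplicit false
set_option linter.all false

noncomputable section

namespace Crest.Agent.T15.Vs

open scoped NNReal PowerSeries
open Crest.Agent.T15.Hon PowerSeries

namespace G93

variable {K0 : Type} [Field K0] {v0 : Valuation K0 ℝ≥0} {π : ℝ≥0}

theorem exists_max (hπ : π < 1) (hd : ∀ a, v0 a < 1 → v0 a ≤ π) (f : Bd v0) :
    ∃ n, ∀ m, v0 (coeff m f.1) ≤ v0 (coeff n f.1) := by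
  by_contra hcon
  push Not at hcon
  obtain ⟨c, hc⟩ := f.2
  obtain ⟨n0, h0⟩ := hcon 0
  have key : ∀ k : ℕ, ∃ m, v0 (coeff n0 f.1) ≤ π ^ k * v0 (coeff m f.1) := by
    intro k
    induction k with
    | zero => exact ⟨n0, by simp⟩
    | succ k ih =>
      obtain ⟨m, hm⟩ := ih
      obtain ⟨m', hm'⟩ := hcon m
      have hpos : 0 < v0 (coeff m' f.1) := lt_of_le_of_lt zero_le hm'
      have h1 := hd (coeff m f.1 / coeff m' f.1) (by rw [map_div₀]; exact (div_lt_one hpos).2 hm')
      rw [map_div₀, div_le_iff₀ hpos] at h1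
      refine ⟨m', hm.trans ?_⟩
      rw [pow_succ, mul_assoc]
      exact mul_le_mul' le_rfl h1
  have hpos : 0 < v0 (coeff n0 f.1) := lt_of_le_of_lt zero_le h0
  have ht : Filter.Tendsto (fun k : ℕ => π ^ k * c) Filter.atTop (nhds 0) := by
    simpa using (NNReal.tendsto_pow_atTop_nhds_zero_of_lt_one hπ).mul_const c
  obtain ⟨k, hk⟩ := (ht.eventually (gt_mem_nhds hpos)).exists
  obtain ⟨m, hm⟩ := key k
  exact absurd (hm.trans (mul_le_mul' le_rfl (hc m))) (not_le.2 hk)

variable (H : ∀ f : Bd v0, ∃ n, ∀ m, v0 (coeff m f.1) ≤ v0 (coeff n f.1))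

open Classical in
/-- the first index where the maximum is attained -/
def ix (f : Bd v0) : ℕ := Nat.find (H f)

/-- the Gauss norm -/
def gn (f : Bd v0) : ℝ≥0 := v0 (coeff (ix H f) f.1)

theorem le_gn (f : Bd v0) (m : ℕ) : v0 (coeff m f.1) ≤ gn H f := by
  classical
  exact Nat.find_spec (H f) m

theorem lt_gn (f : Bd v0) {m : ℕ} (hm : m < ix H f) : v0 (coeff m f.1) < gn H f := by
  classical
  have := Nat.find_min (H f) hm
  push Not at this
  obtain ⟨k, hk⟩ := this
  exact hk.trans_le (le_gn H f k)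

theorem gn_le (f : Bd v0) {c : ℝ≥0} (h : ∀ m, v0 (coeff m f.1) ≤ c) : gn H f ≤ c := h _

theorem gn_mul_le (f g : Bd v0) : gn H (f * g) ≤ gn H f * gn H g := gn_le H _ fun n => by
  change v0 (coeff n (f.1 * g.1)) ≤ _
  rw [coeff_mul]
  exact v0.map_sum_le fun x _ => by rw [map_mul]; exact mul_le_mul' (le_gn H f _) (le_gn H g _)

theorem gn_mul (f g : Bd v0) : gn H (f * g) = gn H f * gn H g := by
  classical
  refine le_antisymm (gn_mul_le H f g) ?_
  rcases eq_or_ne (gn H f * gn H g) 0 with h0 | h0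
  · rw [h0]; exact zero_le
  have hf : 0 < gn H f := pos_iff_ne_zero.2 (left_ne_zero_of_mul h0)
  have hg : 0 < gn H g := pos_iff_ne_zero.2 (right_ne_zero_of_mul h0)
  refine le_trans (le_of_eq ?_) (le_gn H (f * g) (ix H f + ix H g))
  change _ = v0 (coeff (ix H f + ix H g) (f.1 * g.1))
  have hm : (ix H f, ix H g) ∈ Finset.HasAntidiagonal.antidiagonal (ix H f + ix H g) :=
    Finset.HasAntidiagonal.mem_antidiagonal.2 rfl
  have e : v0 (coeff (ix H f) f.1 * coeff (ix H g) g.1) = gn H f * gn H g := map_mul _ _ _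
  rw [coeff_mul, ← Finset.add_sum_erase _ _ hm, Valuation.map_add_eq_of_lt_left, e]
  rw [e]
  refine v0.map_sum_lt h0 fun x hx => ?_
  obtain ⟨hne, hx⟩ := Finset.mem_erase.1 hx
  have hs := Finset.HasAntidiagonal.mem_antidiagonal.1 hx
  rw [map_mul]
  by_cases h1 : x.1 < ix H f
  · exact lt_of_le_of_lt (mul_le_mul' le_rfl (le_gn H g _)) (mul_lt_mul_of_pos_right (lt_gn H f h1) hg)
  · have h2 : x.2 < ix H g := by
      by_contra h2
      exact hne (Prod.ext (by simp only; omega) (by simp only; omega))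
    exact lt_of_le_of_lt (mul_le_mul' (le_gn H f _) le_rfl) (mul_lt_mul_of_pos_left (lt_gn H g h2) hf)

/-- the Gauss valuation on bounded series -/
def gv : Valuation (Bd v0) ℝ≥0 where
  toFun := gn H
  map_zero' := by simp [gn]
  map_one' := by
    refine le_antisymm (gn_le H _ fun n => ?_) (le_trans (le_of_eq ?_) (le_gn H 1 0))
    · change v0 (coeff n (1 : K0⟦X⟧)) ≤ 1
      rw [coeff_one]; split_ifs <;> simp
    · change 1 = v0 (coeff 0 (1 : K0⟦X⟧))
      simp
  map_mul' := gn_mul H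
  map_add_le_max' f g := gn_le H _ fun n => by
    change v0 (coeff n (f.1 + g.1)) ≤ _
    rw [map_add]
    exact (v0.map_add _ _).trans (max_le_max (le_gn H f n) (le_gn H g n))

theorem gv_supp : nonZeroDivisors (Bd v0) ≤ (gv H).supp.primeCompl := fun f hf h0 => by
  have h1 : gn H f = 0 := (Valuation.mem_supp_iff _ _).1 h0
  refine nonZeroDivisors.ne_zero hf (Subtype.ext ?_)
  ext n
  have := le_gn H f n
  rw [h1, nonpos_iff_eq_zero, Valuation.zero_iff] at this
  simpa using this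

end G93

theorem g1 : G1 := by
  intro K0 _ _ v0 p σ hU
  have H := G93.exists_max hU.lt hU.disc
  refine ⟨(G93.gv H).extendToLocalization (G93.gv_supp H) (E v0), ⟨fun f n => ?_, fun f => ?_⟩,
    fun y hy => ?_⟩
  · rw [Valuation.extendToLocalization_apply_map_apply]
    exact G93.le_gn H f n
  · exact ⟨G93.ix H f, Valuation.extendToLocalization_apply_map_apply _ _ _ _⟩
  · obtain ⟨⟨a, b⟩, rfl⟩ := IsLocalization.mk'_surjective (nonZeroDivisors (Bd v0)) y
    simp only at hy ⊢
    rw [Valuation.extendToLocalization_mk'] at hy ⊢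
    have e : G93.gv H a * (G93.gv H b)⁻¹ =
        v0 (coeff (G93.ix H a) a.1 * (coeff (G93.ix H b) b.1.1)⁻¹) := by
      rw [map_mul, map_inv₀]; rfl
    rw [e] at hy ⊢
    exact hU.disc _ hy

end Crest.Agent.T15.Vs
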