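import Crest.Agent.T15.VsDef_48
import Crest.Agent.T15.HonA_54

/-!
# Row 15, block Ht (helper82): the Frobenius lift on the Gauss field (leaf `G2`)
-/

set_option autoImplicit false

noncomputable section

namespace Crest.Agent.T15.Vs

open scoped NNReal PowerSeries
open Crest.Agent.T15.Hon

variable {K0 : Type} [Field K0] {v0 : Valuation K0 ℝ≥0} {p : ℕ} {σ : K0 →+* K0}

/-- `fr` on the bounded series -/
def phi82 (U : Un v0 p σ) (hp : p ≠ 0) : Bd v0 →+* Bd v0 :=
  (fr σ p hp).restrict (Bd v0) (Bd v0) fun _ ⟨c, hc⟩ => ⟨c, hc.fr U.iso hp⟩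

theorem w_phi82 (U : Un v0 p σ) (hp : p ≠ 0) {w : Valuation (E v0) ℝ≥0} (h : Gv v0 w)
    (f : Bd v0) : w (iE v0 (phi82 U hp f)) = w (iE v0 f) := by
  apply le_antisymm
  · exact h.w_le _ (PI.fr U.iso hp fun n => h.le_w f n)
  · obtain ⟨n, hn⟩ := h.att f
    have := h.le_w (phi82 U hp f) (p * n)
    rw [show (phi82 U hp f).1 = fr σ p hp f.1 from rfl, coeff_fr, if_pos (dvd_mul_right p n),
      Nat.mul_div_cancel_left _ (Nat.pos_of_ne_zero hp), U.iso] at this
    exact hn.trans_le this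

/-- every element is a fraction with a denominator of norm one -/
theorem Gv.nf82 {w : Valuation (E v0) ℝ≥0} (h : Gv v0 w) (a : E v0) :
    ∃ f g : Bd v0, w (iE v0 g) = 1 ∧ a = iE v0 f / iE v0 g := by
  obtain ⟨f, g, hg, rfl⟩ := IsFractionRing.div_surjective (A := Bd v0) a
  have hg0 : iE v0 g ≠ 0 := IsFractionRing.to_map_ne_zero_of_mem_nonZeroDivisors hg
  obtain ⟨n, hn⟩ := h.att g
  set c := PowerSeries.coeff n g.1
  have hc : v0 c ≠ 0 := by rw [← hn]; exact (Valuation.ne_zero_iff w).mpr hg0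
  let k : Bd v0 := ⟨PowerSeries.C c⁻¹, _, PI.const c⁻¹⟩
  have hk : w (iE v0 k) = (v0 c)⁻¹ := by
    apply le_antisymm
    · exact (h.w_le k (PI.const c⁻¹)).trans_eq (map_inv₀ v0 c)
    · have := h.le_w k 0
      rwa [show k.1 = PowerSeries.C c⁻¹ from rfl, PowerSeries.coeff_zero_C, map_inv₀] at this
  have hk0 : iE v0 k ≠ 0 := (Valuation.ne_zero_iff w).mp (by rw [hk]; exact inv_ne_zero hc)
  refine ⟨k * f, k * g, ?_, ?_⟩
  · rw [map_mul, map_mul, hk, hn, inv_mul_cancel₀ hc]
  · rw [map_mul, map_mul, mul_div_mul_left _ _ hk0]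

/-- **leaf G2** -/
theorem g2 : G2 := by
  intro K0 _ _ v0 p hp σ U w h
  have hinj : Function.Injective ((iE v0).comp (phi82 U hp)) := by
    rw [injective_iff_map_eq_zero]
    intro f hf
    have h1 := w_phi82 U hp h f
    rw [show iE v0 (phi82 U hp f) = 0 from hf, map_zero] at h1
    exact IsFractionRing.injective (Bd v0) (E v0)
      (((Valuation.zero_iff w).mp h1.symm).trans (map_zero _).symm)
  have hφ : ∀ f, IsFractionRing.lift hinj (iE v0 f) = iE v0 (phi82 U hp f) := fun f =>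
    IsFractionRing.lift_algebraMap hinj f
  refine ⟨phi82 U hp, IsFractionRing.lift hinj, fun _ => rfl, hφ, fun a => ?_, fun a ha => ?_⟩
  · obtain ⟨f, g, -, rfl⟩ := h.nf82 a
    rw [map_div₀, hφ, hφ, map_div₀, map_div₀, w_phi82 U hp h, w_phi82 U hp h]
  · obtain ⟨f, g, hg, rfl⟩ := h.nf82 a
    rw [map_div₀, hg, div_one] at ha
    have key : ∀ u : Bd v0, w (iE v0 u) ≤ 1 → w (iE v0 (phi82 U hp u) - iE v0 u ^ p) < 1 := by
      intro u hu
      rw [← map_pow, ← map_sub]
      exact (h.w_le _ (U.fr_one hp fun n => (h.le_w u n).trans hu)).trans_lt U.lt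
    have hg' : w (iE v0 (phi82 U hp g)) = 1 := by rw [w_phi82 U hp h, hg]
    have h1 : iE v0 g ≠ 0 := (Valuation.ne_zero_iff w).mp (by rw [hg]; exact one_ne_zero)
    have h2 : iE v0 (phi82 U hp g) ≠ 0 :=
      (Valuation.ne_zero_iff w).mp (by rw [hg']; exact one_ne_zero)
    have k1 := key f ha
    have k2 := key g hg.le
    rw [map_div₀, hφ, hφ]
    generalize iE v0 (phi82 U hp g) = G at *
    generalize iE v0 (phi82 U hp f) = F at *
    generalize iE v0 g = y at *
    generalize iE v0 f = x at *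
    have e : F / G - (x / y) ^ p =
        ((F - x ^ p) * y ^ p - x ^ p * (G - y ^ p)) / (G * y ^ p) := by
      rw [div_pow]; field_simp; ring
    rw [e, map_div₀, map_mul, map_pow, hg, hg', one_pow, one_mul, div_one]
    refine (w.map_sub _ _).trans_lt (max_lt ?_ ?_)
    · rwa [map_mul, map_pow, hg, one_pow, mul_one]
    · rw [map_mul, map_pow]
      exact (mul_le_of_le_one_left' (pow_le_one' ha p)).trans_lt k2

end Crest.Agent.T15.Vs

end
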