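import Crest.Agent.T15.VsDef_48
import Crest.Agent.T15.HonF_74

/-!
# Row 15, block Ht (helper6): the leaf `G3` (the derivation of the Gauss field)
-/

set_option autoImplicit false

noncomputable section

namespace Crest.Agent.T15.Vs

open scoped NNReal PowerSeries
open Crest.Agent.T15.Hon PowerSeries

variable {K0 : Type} [Field K0] {v0 : Valuation K0 ℝ≥0}

theorem coeff_th6 (f : K0⟦X⟧) (n : ℕ) : coeff n (th f) = n * coeff n f := by
  cases n with
  | zero => simp [th]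
  | succ n => rw [th, coeff_succ_X_mul, coeff_derivative, mul_comm, Nat.cast_succ]

theorem pi_th6 {c : ℝ≥0} {f : K0⟦X⟧} (h : PI v0 c f) : PI v0 c (th f) := fun n => by
  rw [coeff_th6, map_mul]
  exact (mul_le_of_le_one_left' (v_natCast_le v0 n)).trans (h n)

variable (v0) in
/-- `X d/dX` on the bounded series -/
def dB6 : Bd v0 →+ Bd v0 where
  toFun f := ⟨th f.1, f.2.imp fun _ h => pi_th6 h⟩
  map_zero' := Subtype.ext (by simp [th])
  map_add' f g := Subtype.ext (by simp [th, mul_add])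

theorem dB_mul6 (f g : Bd v0) : dB6 v0 (f * g) = f * dB6 v0 g + g * dB6 v0 f := Subtype.ext (by
  change th (f.1 * g.1) = f.1 * th g.1 + g.1 * th f.1
  simp only [th, Derivation.leibniz, smul_eq_mul]
  ring)

theorem exists_der6 {A B : Type*} [CommRing A] [CommRing B] [Algebra A B]
    [Algebra.FormallySmooth A B] (d : A →+ A) (hd : ∀ f g, d (f * g) = f * d g + g * d f) :
    ∃ D : B →+ B, (∀ f, D (algebraMap A B f) = algebraMap A B (d f)) ∧
      ∀ a b, D (a * b) = a * D b + b * D a := by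
  obtain ⟨D, hD⟩ := R013.CE6_280.exists_extend (R := ℤ) (A := A) (B := B)
    (Derivation.mk' ((algebraMap A B).toAddMonoidHom.comp d).toIntLinearMap fun f g => by
      change algebraMap A B (d (f * g)) = f • algebraMap A B (d g) + g • algebraMap A B (d f)
      rw [hd, map_add, map_mul, map_mul, Algebra.smul_def, Algebra.smul_def])
  exact ⟨D.toLinearMap.toAddMonoidHom, hD, fun a b => D.leibniz a b⟩

theorem exists_dE6 : ∃ D : E v0 →+ E v0, (∀ f, D (iE v0 f) = iE v0 (dB6 v0 f)) ∧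
    ∀ a b, D (a * b) = a * D b + b * D a :=
  have : Algebra.FormallySmooth (Bd v0) (E v0) :=
    Algebra.FormallySmooth.of_isLocalization (nonZeroDivisors (Bd v0))
  exists_der6 (dB6 v0) dB_mul6

variable (v0) in
/-- the variable -/
def xB6 : Bd v0 := ⟨X, 1, PI.X'⟩

variable {w : Valuation (E v0) ℝ≥0}

theorem Gv.pi6 (h : Gv v0 w) (f : Bd v0) : PI v0 (w (iE v0 f)) f.1 := h.le_w f

theorem Gv.w_C6 (h : Gv v0 w) (a : K0) : w (iE v0 ⟨C a, _, PI.const a⟩) = v0 a :=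
  (h.w_le _ (PI.const a)).antisymm (by simpa using h.le_w ⟨C a, _, PI.const a⟩ 0)

theorem Gv.w_X6 (h : Gv v0 w) : w (iE v0 (xB6 v0)) = 1 :=
  (h.w_le _ PI.X').antisymm (by simpa [xB6] using h.le_w (xB6 v0) 1)

/-- normal form of a fraction -/
theorem Gv.exists_div6 (h : Gv v0 w) (y : E v0) :
    ∃ a b : Bd v0, w (iE v0 b) = 1 ∧ y * iE v0 b = iE v0 a := by
  obtain ⟨a, b, hb, rfl⟩ := IsFractionRing.div_surjective (A := Bd v0) y
  have h0 : iE v0 b ≠ 0 := IsFractionRing.to_map_ne_zero_of_mem_nonZeroDivisors hb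
  obtain ⟨n, hn⟩ := h.att b
  have h1 : v0 (coeff n b.1) ≠ 0 := hn ▸ (Valuation.ne_zero_iff w).2 h0
  refine ⟨a * ⟨C (coeff n b.1)⁻¹, _, PI.const _⟩, b * ⟨C (coeff n b.1)⁻¹, _, PI.const _⟩, ?_, ?_⟩
  · rw [map_mul, map_mul, h.w_C6, hn, map_inv₀, mul_inv_cancel₀ h1]
  · rw [map_mul, map_mul, ← mul_assoc, div_mul_cancel₀ _ h0]

theorem Gv.w_D6 (h : Gv v0 w) {D : E v0 →+ E v0} (hD : ∀ f, D (iE v0 f) = iE v0 (dB6 v0 f))
    (hL : ∀ a b, D (a * b) = a * D b + b * D a) (y : E v0) : w (D y) ≤ w y := by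
  obtain ⟨a, b, hb, e⟩ := h.exists_div6 y
  have k : ∀ f, w (D (iE v0 f)) ≤ w (iE v0 f) := fun f => by
    rw [hD]; exact h.w_le _ (pi_th6 (h.pi6 f))
  have e1 := congrArg D e
  rw [hL] at e1
  have e2 : iE v0 b * D y = D (iE v0 a) - y * D (iE v0 b) := by rw [← e1]; ring
  have e3 := congrArg w e2
  rw [map_mul, hb, one_mul] at e3
  rw [e3]
  refine w.map_sub_le ((k a).trans_eq ?_) ?_
  · rw [← e, map_mul, hb, mul_one]
  · rw [map_mul]
    exact mul_le_of_le_one_right' ((k b).trans_eq hb)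

/-- density of the bounded Laurent series -/
theorem Gv.dense6 (h : Gv v0 w) {q : ℝ≥0} (hq : ∀ a, v0 a < 1 → v0 a ≤ q) (y : E v0) (N : ℕ) :
    ∃ (M : ℕ) (g : Bd v0), w (iE v0 g) ≤ w y ∧
      w (iE v0 (xB6 v0) ^ M * y - iE v0 g) ≤ q ^ N * w y := by
  classical
  obtain ⟨a, b, hb, e⟩ := h.exists_div6 y
  have hb1 : PI v0 1 b.1 := hb ▸ h.pi6 b
  have hex : ∃ n, v0 (coeff n b.1) = 1 := (h.att b).imp fun n hn => hn.symm.trans hb
  obtain ⟨u, hu, hu0⟩ := sub_trunc b.1 (Nat.find hex)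
  set m := Nat.find hex
  have hc : PI v0 q (trunc m b.1 : K0⟦X⟧) :=
    PI.trunc fun n hn => hq _ ((hb1 n).lt_of_ne (Nat.find_min hex hn))
  have hc1 : PI v0 1 (trunc m b.1 : K0⟦X⟧) := PI.trunc fun n _ => hb1 n
  have hu1 : PI v0 1 u := fun n => by
    rw [← coeff_X_pow_mul u m n, ← hu]
    exact hb1.sub hc1 _
  have hu2 : v0 (constantCoeff u) = 1 := by rw [hu0]; exact Nat.find_spec hex
  have hi := hu1.inv hu2
  let c : Bd v0 := ⟨_, _, hc⟩
  let U : Bd v0 := ⟨u, _, hu1⟩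
  let V : Bd v0 := ⟨u⁻¹, _, hi⟩
  have hUV : U * V = 1 := Subtype.ext (PowerSeries.mul_inv_cancel u fun h0 => by simp [h0] at hu2)
  have hz : xB6 v0 ^ m * U - -c = b := Subtype.ext (by
    change X ^ m * u - -(trunc m b.1 : K0⟦X⟧) = b.1
    rw [← hu]; ring)
  have hV : w (iE v0 V) ≤ 1 := h.w_le _ hi
  have hU : w (iE v0 U) ≤ 1 := h.w_le _ hu1
  have hcw : w (iE v0 c) ≤ q := h.w_le _ hc
  have hcw1 : w (iE v0 c) ≤ 1 := h.w_le _ hc1
  obtain ⟨G, hG⟩ : ∃ G, G = ∑ i ∈ Finset.range N, (xB6 v0 ^ m * U) ^ i * (-c) ^ (N - 1 - i) := ⟨_, rfl⟩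
  have hG1 : G * b = (xB6 v0 ^ m * U) ^ N - (-c) ^ N := by
    rw [← hz, hG]; exact (Commute.all _ _).geom_sum₂_mul N
  have hG2 : w (iE v0 G) ≤ 1 := by
    rw [hG, map_sum]
    refine w.map_sum_le fun i _ => ?_
    simp only [map_mul, map_pow, map_neg, Valuation.map_neg, h.w_X6, one_pow, one_mul]
    exact mul_le_one' (pow_le_one' hU _) (pow_le_one' hcw1 _)
  have ha : w (iE v0 a) = w y := by rw [← e, map_mul, hb, mul_one]
  refine ⟨m * N, V ^ N * G * a, ?_, ?_⟩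
  · rw [map_mul, map_mul, map_mul, map_mul, map_pow, map_pow, ha]
    exact mul_le_of_le_one_left' (mul_le_one' (pow_le_one' hV _) hG2)
  · have e1 : iE v0 (xB6 v0) ^ (m * N) * y - iE v0 (V ^ N * G * a) =
        iE v0 V ^ N * (-iE v0 c) ^ N * y := by
      have e2 := congrArg (iE v0) hG1
      have e3 := congrArg (fun z => iE v0 z ^ N) hUV
      simp only [map_mul, map_pow, map_sub, map_neg, map_one, mul_pow, one_pow] at e2 e3 ⊢
      rw [← e, pow_mul]
      linear_combination -(iE v0 V ^ N * y) * e2 - (iE v0 (xB6 v0) ^ m) ^ N * y * e3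
    rw [e1, map_mul, map_mul, map_pow, map_pow, Valuation.map_neg]
    exact mul_le_mul_left ((mul_le_of_le_one_left' (pow_le_one' hV _)).trans
      (pow_le_pow_left' hcw _)) _

theorem Gv.coef6 (h : Gv v0 w) {q : ℝ≥0} (hq : ∀ a, v0 a < 1 → v0 a ≤ q) (hq1 : q ≤ 1)
    {D : E v0 →+ E v0} (hD : ∀ f, D (iE v0 f) = iE v0 (dB6 v0 f))
    (hL : ∀ a b, D (a * b) = a * D b + b * D a) (f : Bd v0) (N : ℕ)
    {H : E v0} (h1 : w H ≤ q) (h2 : w (iE v0 f - D H) ≤ q ^ N) (n : ℕ) :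
    v0 (coeff n f.1) ≤ max (q ^ N) (q * v0 n) := by
  obtain ⟨M, g, hg, he⟩ := h.dense6 hq H N
  obtain ⟨e, hee⟩ : ∃ e, e = iE v0 (xB6 v0) ^ M * H - iE v0 g := ⟨_, rfl⟩
  rw [← hee] at he
  have he1 : w e ≤ q ^ N := he.trans (mul_le_of_le_one_right' (h1.trans hq1))
  have hx : D (iE v0 (xB6 v0)) = iE v0 (xB6 v0) := by
    rw [hD]; exact congrArg _ (Subtype.ext (by simp [dB6, xB6, th]))
  have hxM : ∀ M : ℕ, D (iE v0 (xB6 v0) ^ M) = M * iE v0 (xB6 v0) ^ M := fun M => by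
    induction M with
    | zero => simpa using hL 1 1
    | succ M ih => rw [pow_succ, hL, ih, hx]; push_cast; ring
  have e1 : iE v0 (xB6 v0 ^ M * f - (dB6 v0 g - M * g)) =
      iE v0 (xB6 v0) ^ M * (iE v0 f - D H) + D e - M * e := by
    rw [hee, map_sub D, hL, hxM, hD]
    simp only [map_sub, map_mul, map_pow, map_natCast]
    ring
  have e2 : w (iE v0 (xB6 v0 ^ M * f - (dB6 v0 g - M * g))) ≤ q ^ N := by
    rw [e1]
    refine w.map_sub_le (w.map_add_le ?_ ((h.w_D6 hD hL e).trans he1)) ?_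
    · rwa [map_mul, map_pow, h.w_X6, one_pow, one_mul]
    · rw [map_mul]
      exact (mul_le_of_le_one_left' (v_natCast_le w M)).trans he1
  have e3 := (h.le_w _ (n + M)).trans e2
  have e4 : coeff (n + M) (xB6 v0 ^ M * f - (dB6 v0 g - M * g) : Bd v0).1 =
      coeff n f.1 - n * coeff (n + M) g.1 := by
    change coeff (n + M) (X ^ M * f.1 - (th g.1 - (M : K0⟦X⟧) * g.1)) = _
    rw [map_sub, map_sub, coeff_X_pow_mul, coeff_th6, ← nsmul_eq_mul M, map_nsmul,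
      nsmul_eq_mul]
    push_cast
    ring
  rw [e4] at e3
  rw [← sub_add_cancel (coeff n f.1) (n * coeff (n + M) g.1)]
  refine (v0.map_add _ _).trans (max_le_max e3 ?_)
  rw [map_mul, mul_comm]
  exact mul_le_mul_left ((h.le_w g _).trans (hg.trans h1)) _

theorem g3 : G3 := by
  intro K0 _ _ v0 p σ U w h
  obtain ⟨D, hD, hL⟩ := exists_dE6 (v0 := v0)
  refine ⟨dB6 v0, D, fun _ => rfl, hD, hL, h.w_D6 hD hL, fun f hf n => ?_⟩
  by_contra hlt
  rw [not_le] at hlt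
  obtain ⟨N, hN⟩ := exists_pow_lt_of_lt_one (zero_le.trans_lt hlt) U.lt
  obtain ⟨H, h1, h2⟩ := hf N
  exact (h.coef6 U.disc U.lt.le hD hL f N h1 h2 n).not_gt (max_lt hN hlt)

end Crest.Agent.T15.Vs

end
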