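import Crest.Agent.T15.VsB_48
import Crest.Agent.T15.VsG1_93
import Crest.Agent.T15.VsG2_82
import Crest.Agent.T15.VsG3_6

/-!
# Row 15, block Ht (helper48): the valued set-up exists
-/

set_option autoImplicit false

noncomputable section

namespace Crest.Agent.T15.Vs

open scoped NNReal PowerSeries
open Polynomial Crest.Agent.R013.GR4_921 Crest.Agent.T15.Hon

/-- polynomials are bounded series -/
def pol {K0 : Type} [Field K0] (v0 : Valuation K0 ℝ≥0) : K0[X] →+* Bd v0 :=
  (Polynomial.coeToPowerSeries.ringHom).codRestrict (Bd v0) fun P => by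
    induction P using Polynomial.induction_on with
    | C c => exact ⟨v0 c, fun n => by
        simp only [coeToPowerSeries.ringHom_apply, coe_C, PowerSeries.coeff_C]
        split_ifs <;> simp⟩
    | add P Q hP hQ => rw [map_add]; exact add_mem hP hQ
    | monomial n c h =>
      rw [pow_succ, ← mul_assoc, map_mul]
      exact mul_mem h ⟨1, fun n => by
        simp only [coeToPowerSeries.ringHom_apply, coe_X, PowerSeries.coeff_X]
        split_ifs <;> simp⟩

theorem pol_val {K0 : Type} [Field K0] (v0 : Valuation K0 ℝ≥0) (P : K0[X]) :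
    (pol v0 P).1 = (P : K0⟦X⟧) := rfl

theorem pol_inj {K0 : Type} [Field K0] (v0 : Valuation K0 ℝ≥0) : Function.Injective (pol v0) :=
  fun _ _ h => Polynomial.coe_injective K0 (congrArg Subtype.val h)

theorem fr_coe {K0 : Type} [Field K0] (σ : K0 →+* K0) {p : ℕ} (hp : p ≠ 0) (P : K0[X]) :
    fr σ p hp (P : K0⟦X⟧) = (frP σ p P : K0[X]) := by
  have : (fr σ p hp).comp coeToPowerSeries.ringHom = coeToPowerSeries.ringHom.comp (frP σ p) := by
    refine Polynomial.ringHom_ext (fun a => ?_) ?_ <;>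
      simp [fr, frP, PowerSeries.expand_C, PowerSeries.expand_X]
  exact RingHom.congr_fun this P

theorem th_coe {K0 : Type} [Field K0] (P : K0[X]) : th (P : K0⟦X⟧) = (thP P : K0[X]) := by
  simp [th, thP, PowerSeries.derivative_coe]

/-- the algebraic part of a valued field with Frobenius and derivation -/
theorem descend {K0 M : Type} [Field K0] [Field M] [CharZero M] (σ : K0 →+* K0)
    (hσ : Function.Surjective σ) (w : Valuation M ℝ≥0) {p : ℕ} (hp : p.Prime) (hw : w p < 1)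
    (φ : M →+* M) (hφ : ∀ a, w (φ a) = w a) (hf : ∀ a, w a ≤ 1 → w (φ a - a ^ p) < 1)
    (D : M →+ M) (hD : ∀ a b, D (a * b) = a * D b + b * D a) (e : K0[X] →+* M)
    (he : Function.Injective e) (eφ : ∀ P, φ (e P) = e (frP σ p P))
    (eD : ∀ P, D (e P) = e (thP P)) :
    ∃ (Ω : Type) (_ : Field Ω) (_ : IsAlgClosed Ω) (_ : CharZero Ω) (M0 : Subfield M)
      (j : M0 →+* Ω) (v : Valuation Ω ℝ≥0) (S : Ω ≃+* Ω) (d : Ω →+ Ω) (ε : K0[X] →+* Ω),
      (∀ a, a ∈ M0 ↔ Al e a) ∧ (∀ a, v (j a) = w a) ∧ (∀ a, v (S a) = v a) ∧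
      (∀ a, v a ≤ 1 → v (S a - a ^ p) < 1) ∧ Lb (RingHom.id Ω) d ∧ (∀ a, d (S a) = p * S (d a)) ∧
      (∀ a : M0, ∃ b : M0, (b : M) = φ a ∧ S (j a) = j b) ∧
      (∀ a : M0, ∃ b : M0, (b : M) = D a ∧ d (j a) = j b) ∧
      (∀ P, ∃ b : M0, (b : M) = e P ∧ ε P = j b) ∧ ∀ a, Al ε a := by
  obtain ⟨H, _, _, J, W, T, h1, h2, h3, h4⟩ := exists_frob w hp hw φ hφ hf
  have : CharZero H := charZero_of_injective_ringHom J.injective
  have : CharZero K0[X] := e.charZero
  have hJe : Function.Injective (J.comp e) := J.injective.comp he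
  obtain ⟨Ω, hΩ, _⟩ := exists_sub (J.comp e) hJe
  let M0 := Ω.comap J
  let j : M0 →+* Ω := J.restrict M0 Ω fun _ h => h
  let ε : K0[X] →+* Ω := (J.comp e).codRestrict Ω fun P => (hΩ _).2 (Al.self _ P)
  have hε : Function.Injective ε := fun a b h => hJe (congrArg Subtype.val h)
  have hal : ∀ a, Al ε a := fun a =>
    Al.of_map Ω.subtype Subtype.val_injective (fun _ => rfl) ((hΩ _).1 a.2)
  let S₀ : Ω →+* Ω := T.restrict Ω Ω fun a ha => (hΩ _).2 (((hΩ _).1 ha).map (frP σ p)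
    (frP_inj σ hp.ne_zero) T fun P => (h2 _).trans (congrArg J (eφ P)))
  have hS : ∀ P, S₀ (ε P) = ε (frP σ p P) := fun P =>
    Subtype.ext ((h2 _).trans (congrArg J (eφ P)))
  have hX : ε X ∈ Set.range S₀ := Al.mem_range ⟨X ^ p - C (ε X),
    X_pow_sub_C_ne_zero hp.pos _, by simp [eval₂_sub, hS, frP]⟩
  have hr : ∀ P, ε P ∈ S₀.range := fun P => by
    induction P using Polynomial.induction_on with
    | C c =>
      obtain ⟨c, rfl⟩ := hσ c
      exact ⟨ε (C c), by simp [hS, frP]⟩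
    | add P Q hP hQ => rw [map_add]; exact add_mem hP hQ
    | monomial n c h => rw [pow_succ, ← mul_assoc, map_mul]; exact mul_mem h hX
  let S := RingEquiv.ofBijective S₀ ⟨S₀.injective, fun a => ((hal a).tr hε hr).mem_range⟩
  obtain ⟨d, hd, hdε⟩ := ext_der_alg ε hε hal (ε.toAddMonoidHom.comp thP) fun a b => by
    simp [thP_mul]
  have hdε' : ∀ P, d (ε P) = ε (thP P) := hdε
  have hd' : ∀ a b, d (a * b) = a * d b + b * d a := hd
  have hM : ∀ a, a ∈ M0 ↔ Al e a := fun a => (hΩ _).trans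
    ⟨Al.of_map J J.injective fun _ => rfl,
      Al.map (e := e) (RingHom.id _) Function.injective_id J fun _ => rfl⟩
  let e0 : K0[X] →+* M0 := e.codRestrict M0 fun P => (hM _).2 (Al.self _ P)
  have hdj : ∀ a : M0, (d (j a) : H) = J (D a) := fun a => by
    let δ : M0 →+ H := Ω.subtype.toAddMonoidHom.comp (d.comp j.toAddMonoidHom) -
      J.toAddMonoidHom.comp (D.comp M0.subtype.toAddMonoidHom)
    have hδ : ∀ a, δ a = (d (j a) : H) - J (D a) := fun _ => rfl
    obtain ⟨P, h0, hP⟩ : Al e0 a :=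
      Al.of_map M0.subtype Subtype.val_injective (fun _ => rfl) ((hM _).1 a.2)
    refine sub_eq_zero.1 ((hδ a).symm.trans (Lb.zero_of_alg (i := J.comp M0.subtype) (fun a b => ?_)
      e0 (fun a b h => he (congrArg Subtype.val h)) (fun P => ?_) h0 hP))
    · have : ∀ a : M0, (j a : H) = J a := fun _ => rfl
      simp only [hδ, map_mul, hd', Subfield.coe_mul, Subfield.coe_add, hD, map_add, this,
        RingHom.comp_apply, Subfield.coe_subtype]
      ring
    · rw [hδ, show j (e0 P) = ε P from rfl, hdε', show (e0 P : M) = e P from rfl, eD]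
      exact sub_self _
  refine ⟨Ω, inferInstance, inferInstance, inferInstance, M0, j, W.comap Ω.subtype, S, d, ε, hM,
    fun a => h1 a, fun a => h3 a, fun a ha => h4 a ha, hd, fun a => ?_, fun a => ?_, fun a => ?_,
    fun P => ⟨e0 P, rfl, rfl⟩, hal⟩
  · let δ : Ω →+ Ω := d.comp S₀.toAddMonoidHom -
      (AddMonoidHom.mulLeft (p : Ω)).comp (S₀.toAddMonoidHom.comp d)
    have hδ : ∀ a, δ a = d (S₀ a) - p * S₀ (d a) := fun _ => rfl
    obtain ⟨P, h0, hP⟩ := hal a
    refine sub_eq_zero.1 ((hδ a).symm.trans (Lb.zero_of_alg (i := S₀) (fun a b => ?_)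
      ε hε (fun P => ?_) h0 hP))
    · simp only [hδ, map_mul, hd', map_add]; ring
    · rw [hδ, hS, hdε', hdε', hS, thP_frP σ hp.ne_zero, map_mul, map_natCast, sub_self]
  · have : φ a ∈ M0 := by
      change J (φ a) ∈ Ω
      rw [← h2]; exact (S₀ (j a)).2
    exact ⟨⟨_, this⟩, rfl, Subtype.ext (h2 a)⟩
  · have : D a ∈ M0 := by
      change J (D a) ∈ Ω
      rw [← hdj]; exact (d (j a)).2
    exact ⟨⟨_, this⟩, rfl, Subtype.ext (hdj a)⟩

set_option maxHeartbeats 400000 in
theorem vs_of (g1 : G1) (g2 : G2) (g3 : G3) : VsStmt := by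
  intro C _ _ _ _ K0 v0 p hp σ hu
  classical
  obtain ⟨w, hw, hdisc⟩ := g1 K0 v0 p σ hu
  obtain ⟨φ0, φ, a1, a2, a3, a4⟩ := g2 K0 v0 p hp σ hu w hw
  obtain ⟨D0, D, b1, b2, b3, b4, b5⟩ := g3 K0 v0 p σ hu w hw
  have hi : Function.Injective (iE v0) := IsFractionRing.injective _ _
  let e : K0[X] →+* E v0 := (iE v0).comp (pol v0)
  have he : Function.Injective e := hi.comp (pol_inj v0)
  have : CharZero (E v0) := charZero_of_injective_ringHom he
  have wC : ∀ a : K0, w (e (Polynomial.C a)) = v0 a := fun a => le_antisymm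
    (hw.w_le (pol v0 (Polynomial.C a)) fun n => by
      rw [pol_val, coe_C, PowerSeries.coeff_C]; split_ifs <;> simp)
    (le_of_eq_of_le (by simp [pol_val]) (hw.le_w (pol v0 (Polynomial.C a)) 0))
  have eφ : ∀ P, φ (e P) = e (frP σ p P) := fun P =>
    (a2 (pol v0 P)).trans (congrArg (iE v0) (Subtype.ext ((a1 _).trans (fr_coe σ hp P))))
  have : Algebra.IsAlgebraic ℚ K0 :=
    Algebra.IsAlgebraic.of_injective K0.subtype.toRatAlgHom Subtype.val_injective
  obtain ⟨Ω, _, _, _, M0, j, v, S, d, ε, c1, c2, c3, c4, c5, c6, c7, c8, c9, c10⟩ :=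
    descend σ (Algebra.IsAlgebraic.algHom_bijective σ.toRatAlgHom).2 w hu.prime
      (by have := wC p; rw [map_natCast, map_natCast] at this; exact this.trans_lt hu.lt) φ a3 a4 D b3
      e he eφ
      (fun P => (b2 _).trans (congrArg (iE v0) (Subtype.ext ((b1 _).trans (th_coe P)))))
  let e0 : K0[X] →+* M0 := e.codRestrict M0 fun P => (c1 _).2 (Al.self _ P)
  have hε : ∀ P, ε P = j (e0 P) := fun P => by
    obtain ⟨b, h1, h2⟩ := c9 P
    exact h2.trans (congrArg j (Subtype.ext h1))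
  have hεi : Function.Injective ε := fun a b h => by
    rw [hε, hε] at h
    exact he (congrArg Subtype.val (j.injective h))
  have hS : ∀ a b : M0, (b : E v0) = φ a → S (j a) = j b := fun a b h => by
    obtain ⟨b', h1, h2⟩ := c7 a
    exact h2.trans (congrArg j (Subtype.ext (h1.trans h.symm)))
  have hd : ∀ a b : M0, (b : E v0) = D a → d (j a) = j b := fun a b h => by
    obtain ⟨b', h1, h2⟩ := c8 a
    exact h2.trans (congrArg j (Subtype.ext (h1.trans h.symm)))
  have : Algebra.IsAlgebraic K0 C := Algebra.IsAlgebraic.tower_top (K := ℚ) K0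
  obtain ⟨κ, hκ⟩ := exists_lift (Ω := C) (ε.comp Polynomial.C)
  have hκ' : ∀ a : K0, κ a = ε (Polynomial.C a) := hκ
  have hκa : ∀ c, Al (ε.comp Polynomial.C) (κ c) := fun c =>
    Al.map (e := algebraMap K0 C) (RingHom.id _) Function.injective_id κ hκ
      (Algebra.IsAlgebraic.isAlgebraic c)
  let := κ.toAlgebra
  have dκ : ∀ c, d (κ c) = 0 := fun c => by
    obtain ⟨P, h0, hP⟩ := hκa c
    refine c5.zero_of_alg _ (RingHom.injective _) (fun a => ?_) h0 hP
    rw [RingHom.comp_apply, hε, hd _ 0, map_zero]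
    refine ((b2 (pol v0 (Polynomial.C a))).trans ?_).symm
    rw [show D0 (pol v0 (Polynomial.C a)) = 0 from
      Subtype.ext ((b1 _).trans ((th_coe _).trans (by simp [thP]))), map_zero]
    rfl
  obtain ⟨s, hs⟩ := exists_restr κ (S : Ω →+* Ω)
  obtain ⟨ρ, hρ, -⟩ := exists_isRes v
  obtain ⟨ρC, hρC, -⟩ := exists_isRes (v.comap κ)
  have := closed_res v.valuationSubring
  have := closed_res (v.comap κ).valuationSubring
  obtain ⟨θ, hθ⟩ := exists_resmap κ hρ hρC
  let em : K0⟦X⟧ → Ω := fun f =>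
    if h : ∃ g : Bd v0, g.1 = f ∧ iE v0 g ∈ M0 then j ⟨_, h.choose_spec.2⟩ else 0
  have em1 : ∀ (g : Bd v0) (b : M0), (b : E v0) = iE v0 g → em g.1 = j b := fun g b h => by
    have h' : ∃ g' : Bd v0, g'.1 = g.1 ∧ iE v0 g' ∈ M0 := ⟨g, rfl, h ▸ b.2⟩
    simp only [em, dif_pos h']
    exact congrArg j (Subtype.ext ((congrArg (iE v0) (Subtype.ext h'.choose_spec.1)).trans h.symm))
  have em2 : ∀ f, AI v0 f → ∃ (g : Bd v0) (b : M0), g.1 = f ∧ (b : E v0) = iE v0 g ∧ em f = j b :=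
    fun f hf => by
      let g : Bd v0 := ⟨f, 1, hf.1⟩
      have h1 : Al (pol v0) g := Al.of_map (e' := algebraMap K0[X] K0⟦X⟧) (Bd v0).subtype
        Subtype.val_injective (fun P => by simp [pol_val, PowerSeries.algebraMap_apply']) hf.2
      have h2 : iE v0 g ∈ M0 :=
        (c1 _).2 (h1.map (e' := e) (RingHom.id K0[X]) Function.injective_id (iE v0) fun _ => rfl)
      exact ⟨g, ⟨_, h2⟩, rfl, rfl, em1 g _ rfl⟩
  have emP : ∀ P : K0[X], em P = ε P := fun P => (em1 (pol v0 P) (e0 P) rfl).trans (hε P).symm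
  have emX : em PowerSeries.X = ε X := by rw [← emP, coe_X]
  have vp : ∀ (P : K0[X]) n, v0 (P.coeff n) ≤ v (ε P) := fun P n => by
    rw [hε, c2, ← coeff_coe]; exact hw.le_w (pol v0 P) n
  have vK : ∀ a : K0, v (κ a) = v0 a := fun a => by rw [hκ', hε, c2]; exact wC a
  have vX : v (ε X) ≤ 1 := by
    rw [hε, c2]
    exact hw.w_le (pol v0 X) fun n => by
      rw [pol_val, coe_X, PowerSeries.coeff_X]; split_ifs <;> simp
  let := θ.toAlgebra
  refine ⟨{ Ω := Ω, k := _, k' := _, v := v, ρ := ρ, ρC := ρC, res := hρ, resC := hρC, comp := hθ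
            v_K0 := vK, em := em, em_add := fun f g hf hg => ?_, em_mul := fun f g hf hg => ?_
            em_C := fun a _ => ?_, v_em := fun f c hf hc => ?_, le_v_em := fun f n hf => ?_
            tr := fun h => ?_, alg := fun a => ?_
            d := Derivation.mk' { toFun := d, map_add' := d.map_add, map_smul' := fun c a => ?_ }
              fun a b => c5 a b
            d_em := fun f hf => ?_, S := S, s := s, S_C := hs, s_K0 := fun a => ?_
            S_em := fun f hf => ?_, S_iso := c3, S_res := c4, d_S := c6, L0 := j.fieldRange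
            em_mem := fun f hf => ?_, K0_mem := fun a => ⟨_, ((hκ' a).trans (hε _)).symm⟩
            fixed := fun a ha => ?_, disc := ?_, v_d := ?_, coef := fun f hf h => ?_ }⟩
  · obtain ⟨f, a, rfl, h1, h2⟩ := em2 f hf
    obtain ⟨g, b, rfl, h3, h4⟩ := em2 g hg
    rw [h2, h4, ← map_add]
    exact em1 (f + g) _ (by rw [map_add, ← h1, ← h3]; rfl)
  · obtain ⟨f, a, rfl, h1, h2⟩ := em2 f hf
    obtain ⟨g, b, rfl, h3, h4⟩ := em2 g hg
    rw [h2, h4, ← map_mul]
    exact em1 (f * g) _ (by rw [map_mul, ← h1, ← h3]; rfl)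
  · rw [← coe_C, emP]; exact (hκ' a).symm
  · obtain ⟨f, a, rfl, h1, h2⟩ := em2 f hf
    rw [h2, c2, h1]; exact hw.w_le f hc
  · obtain ⟨f, a, rfl, h1, h2⟩ := em2 f hf
    rw [h2, c2, h1]; exact hw.le_w f n
  · obtain ⟨y, hy⟩ := Al.mem_range (f := θ) h
    obtain ⟨c, hc, rfl⟩ := hρC.surj y
    rw [← hθ c hc, emX] at hy
    refine not_near v (ε.comp Polynomial.C) vX (fun P n => ?_) (hκa c) ((hρ.eq_iff vX hc).1 hy.symm)
    rw [show P.eval₂ (ε.comp Polynomial.C) (ε X) = ε P by rw [← hom_eval₂, eval₂_C_X],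
      RingHom.comp_apply, ← hκ', vK]
    exact vp P n
  · refine (c10 a).tr (f := algebraMap (IntermediateField.adjoin C {em PowerSeries.X}) Ω) hεi
      fun P => ?_
    suffices h : ε P ∈ IntermediateField.adjoin C {em PowerSeries.X} from ⟨⟨_, h⟩, rfl⟩
    induction P using Polynomial.induction_on with
    | C c => rw [← hκ']; exact IntermediateField.algebraMap_mem _ _
    | add P Q hP hQ => rw [map_add]; exact add_mem hP hQ
    | monomial n c h =>
      rw [pow_succ, ← mul_assoc, map_mul]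
      exact mul_mem h (emX ▸ IntermediateField.mem_adjoin_simple_self _ _)
  · change d (κ c * a) = κ c * d a
    rw [c5, dκ]; simp
  · obtain ⟨f, a, rfl, h1, h2⟩ := em2 f hf
    obtain ⟨b, h3, h4⟩ := c8 a
    rw [h2, ← b1, em1 (D0 f) b (by rw [h3, h1, b2])]
    exact h4
  · refine κ.injective ((hs _).symm.trans ?_)
    rw [hκ', hκ', hε, hε]
    refine hS _ _ ?_
    rw [show Polynomial.C (σ a) = frP σ p (Polynomial.C a) by simp [frP]]
    exact (eφ _).symm
  · obtain ⟨f, a, rfl, h1, h2⟩ := em2 f hf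
    obtain ⟨b, h3, h4⟩ := c7 a
    rw [h2, ← a1, em1 (φ0 f) b (by rw [h3, h1, a2])]
    exact h4
  · obtain ⟨f, a, rfl, h1, h2⟩ := em2 f hf
    exact ⟨a, h2.symm⟩
  · have : Algebra.IsAlgebraic j.fieldRange Ω := ⟨fun a => (c10 a).tr
      (f := algebraMap j.fieldRange Ω) hεi fun P => ⟨⟨_, _, (hε P).symm⟩, rfl⟩⟩
    have : IsAlgClosure j.fieldRange Ω := ⟨inferInstance, this⟩
    obtain ⟨y, rfl⟩ := (InfiniteGalois.mem_range_algebraMap_iff_fixed (k := j.fieldRange) a).2
      fun g => ha g.toRingEquiv fun y hy => g.commutes ⟨y, hy⟩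
    exact y.2
  · rintro _ ⟨a, rfl⟩
    rw [c2]; exact hdisc a
  · rintro _ ⟨a, rfl⟩
    obtain ⟨b, h3, h4⟩ := c8 a
    change v (d (j a)) ≤ _
    rw [h4, c2, c2, h3]; exact b4 a
  · obtain ⟨f, a, rfl, h1, h2⟩ := em2 f hf
    refine b5 f fun N => ?_
    obtain ⟨_, ⟨H, rfl⟩, h5, h6⟩ := h N
    obtain ⟨b, h3, h4⟩ := c8 H
    change v (_ - d (j H)) ≤ _ at h6
    rw [h2, h4, ← map_sub, c2] at h6
    exact ⟨H, (c2 H).symm.trans_le h5, by rw [← h1, ← h3]; exact h6⟩

theorem vsStmt : VsStmt := vs_of g1 g2 g3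

end Crest.Agent.T15.Vs

end
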