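import Crest.Agent.R018.Selmer_380

/-!
# Row 15, Artin reciprocity: words and leaf statements (helper34)

* `ev f : Kˣ →* A`, `a ↦ ∏ f w ^ ord_w a`.
* `Fr w H g`: `g` is a Frobenius at a prime `P ∣ w` whose inertia group lies in `H`.
* `AN L w c a`: `a` is an approximate norm from `L` at `w`, with precision `|c|_w ^ 2`.
* `ArtStmt`: Artin reciprocity with the sharp local condition.
-/

set_option autoImplicit false

open NumberField IsDedekindDomain
open scoped Pointwise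
open Crest.Agent.R018.Selmerx380

namespace Crest.Agent.T15.Art

/-- finite primes of a number field -/
abbrev Pr (K : Type*) [Field K] := HeightOneSpectrum (𝓞 K)

section ev

variable {K : Type*} [Field K] [NumberField K] {A : Type*} [CommGroup A]

theorem supp_fin (a : Kˣ) : {w : Pr K | ord (𝓞 K) w a ≠ 0}.Finite := by
  have := ord_finite (R := 𝓞 K) a
  rwa [Filter.eventually_cofinite] at this

theorem exists_supp (a : Kˣ) : ∃ S : Finset (Pr K), ∀ w, ord (𝓞 K) w a ≠ 0 → w ∈ S :=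
  ⟨(supp_fin a).toFinset, fun w hw => by simpa using hw⟩

theorem fp_eq (f : Pr K → A) (a : Kˣ) (S : Finset (Pr K))
    (hS : ∀ w, ord (𝓞 K) w a ≠ 0 → w ∈ S) :
    ∏ᶠ w, f w ^ ord (𝓞 K) w a = ∏ w ∈ S, f w ^ ord (𝓞 K) w a := by
  refine finprod_eq_prod_of_mulSupport_subset _ fun w hw => ?_
  refine Finset.mem_coe.2 (hS w fun h => hw ?_)
  simp [h]

/-- `a ↦ ∏ f w ^ ord_w a` -/
noncomputable def ev (f : Pr K → A) : Kˣ →* A where
  toFun a := ∏ᶠ w, f w ^ ord (𝓞 K) w a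
  map_one' := by simp [ord_one]
  map_mul' a b := by
    classical
    obtain ⟨S, hS⟩ := exists_supp a
    obtain ⟨S', hS'⟩ := exists_supp b
    rw [fp_eq f a (S ∪ S') fun w hw => Finset.mem_union_left _ (hS w hw),
      fp_eq f b (S ∪ S') fun w hw => Finset.mem_union_right _ (hS' w hw),
      fp_eq f (a * b) (S ∪ S') fun w hw => ?_, ← Finset.prod_mul_distrib]
    · exact Finset.prod_congr rfl fun w _ => by rw [ord_mul, zpow_add]
    · rw [ord_mul] at hw
      by_cases h : ord (𝓞 K) w a = 0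
      · exact Finset.mem_union_right _ (hS' w (by omega))
      · exact Finset.mem_union_left _ (hS w h)

theorem ev_apply (f : Pr K → A) (a : Kˣ) : ev f a = ∏ᶠ w, f w ^ ord (𝓞 K) w a := rfl

theorem ev_eq (f : Pr K → A) (a : Kˣ) (S : Finset (Pr K))
    (hS : ∀ w, ord (𝓞 K) w a ≠ 0 → w ∈ S) : ev f a = ∏ w ∈ S, f w ^ ord (𝓞 K) w a :=
  fp_eq f a S hS

theorem map_ev {B : Type*} [CommGroup B] (l : A →* B) (f : Pr K → A) (a : Kˣ) :
    l (ev f a) = ev (fun w => l (f w)) a := by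
  obtain ⟨S, hS⟩ := exists_supp a
  simp [ev_eq _ a S hS, map_prod, map_zpow]

theorem ev_congr {f g : Pr K → A} {a : Kˣ} (h : ∀ w, ord (𝓞 K) w a ≠ 0 → f w = g w) :
    ev f a = ev g a := by
  refine finprod_congr fun w => ?_
  by_cases hw : ord (𝓞 K) w a = 0
  · simp [hw]
  · rw [h w hw]

theorem ev_mul (f g : Pr K → A) (a : Kˣ) : ev (fun w => f w * g w) a = ev f a * ev g a := by
  obtain ⟨S, hS⟩ := exists_supp a
  simp [ev_eq _ a S hS, mul_zpow, Finset.prod_mul_distrib]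

theorem ev_mem (H : Subgroup A) {f : Pr K → A} (h : ∀ w, f w ∈ H) (a : Kˣ) : ev f a ∈ H := by
  obtain ⟨S, hS⟩ := exists_supp a
  rw [ev_eq _ a S hS]
  exact H.prod_mem fun w _ => H.zpow_mem (h w) _

theorem ord_eq_zero_iff (w : Pr K) (a : Kˣ) :
    ord (𝓞 K) w a = 0 ↔ w.valuation K (a : K) = 1 := by
  rw [valuation_eq_exp, ← WithZero.exp_zero, WithZero.exp_inj, neg_eq_zero]

end ev

section words

variable {K : Type*} [Field K] [NumberField K] {L : Type*} [Field L] [Algebra K L]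

/-- `g` is a Frobenius at a prime `P ∣ w` of `L` whose inertia group lies in `H` -/
def Fr (w : Pr K) (H : Subgroup (L ≃ₐ[K] L)) (g : L ≃ₐ[K] L) : Prop :=
  ∃ P : Ideal (𝓞 L), P.IsPrime ∧ P.LiesOver w.asIdeal ∧
    (∀ x : 𝓞 L, g • x - x ^ Ideal.absNorm w.asIdeal ∈ P) ∧ P.inertia (L ≃ₐ[K] L) ≤ H

theorem frob_iff [NumberField L] [IsGalois K L] (w : Pr K) (P : Ideal (𝓞 L))
    [P.LiesOver w.asIdeal] (g : L ≃ₐ[K] L) :
    IsArithFrobAt (𝓞 K) g P ↔ ∀ x : 𝓞 L, g • x - x ^ Ideal.absNorm w.asIdeal ∈ P := by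
  have h : Nat.card (𝓞 K ⧸ P.under (𝓞 K)) = Ideal.absNorm w.asIdeal := by
    rw [← Ideal.over_def P w.asIdeal, Ideal.absNorm_apply, Submodule.cardQuot_apply]
  unfold IsArithFrobAt AlgHom.IsArithFrobAt
  rw [h]
  rfl

variable (L) in
/-- `a` is an approximate norm from `L` at `w`, with precision `|c|_w ^ 2` -/
def AN (w : Pr K) (c : ℕ) (a : K) : Prop :=
  ∃ g : L, g ≠ 0 ∧ w.valuation K (a / Algebra.norm K g - 1) < w.valuation K (c : K) ^ 2

end words

/-- Hasse norm theorem for cyclic extensions of totally complex fields -/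
def HntStmt : Prop :=
  ∀ (F E : Type) [Field F] [NumberField F] [Field E] [NumberField E] [Algebra F E] [IsGalois F E]
    [IsTotallyComplex F] (s : E ≃ₐ[F] E), Subgroup.zpowers s = ⊤ → ∀ a : F, a ≠ 0 →
    (∀ w : Pr F, AN E w (Module.finrank F E) a) → ∃ c : E, Algebra.norm F c = a

/-- units at unramified primes and everything at split primes are approximate norms -/
def UnrStmt : Prop :=
  ∀ (F E : Type) [Field F] [NumberField F] [Field E] [NumberField E] [Algebra F E] [IsGalois F E]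
    (w : Pr F) (P : Ideal (𝓞 E)) [P.IsPrime] [P.LiesOver w.asIdeal] (a : F), a ≠ 0 →
    ((P.inertia (E ≃ₐ[F] E) = ⊥ ∧ w.valuation F a = 1) ∨
      MulAction.stabilizer (E ≃ₐ[F] E) P = ⊥) →
    ∀ ε : WithZero (Multiplicative ℤ), ε ≠ 0 →
      ∃ g : E, g ≠ 0 ∧ w.valuation F (a / Algebra.norm F g - 1) < ε

/-- the local step: `a` an approximate norm at `T` makes `b` an approximate norm at `T` -/
def LocStmt : Prop :=
  ∀ (K E : Type) [Field K] [NumberField K] [Field E] [NumberField E] [Algebra K E] [IsGalois K E]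
    (s t : E ≃ₐ[K] E) (N n : ℕ), Commute s t → orderOf s = N → orderOf t = n →
    (∀ g : E ≃ₐ[K] E, ∃ i j : ℕ, g = s ^ i * t ^ j) →
    (∀ i j : ℕ, s ^ i * t ^ j = 1 → s ^ i = 1 ∧ t ^ j = 1) →
    ∀ (c d : E) (a b : K), c ≠ 0 → d ≠ 0 →
    ∏ k ∈ Finset.range N, (s ^ k) c = algebraMap K E a → t c / c = s d / d →
    ∏ k ∈ Finset.range n, (t ^ k) d = algebraMap K E b → ∀ T : Finset (Pr K),
    (∀ w ∈ T, ∃ (g : E) (a' : K), g ≠ 0 ∧ t g = g ∧
      ∏ k ∈ Finset.range N, (s ^ k) g = algebraMap K E a' ∧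
      w.valuation K (a / a' - 1) < w.valuation K (N : K) ^ 2) →
    ∀ ε : WithZero (Multiplicative ℤ), ε ≠ 0 → ∃ (g : E) (b' : K), g ≠ 0 ∧ s g = g ∧
      ∏ k ∈ Finset.range n, (t ^ k) g = algebraMap K E b' ∧
      ∀ w ∈ T, w.valuation K (b / b' - 1) < ε

/-- Artin reciprocity: `χ ^ N = 1`, `f w = χ (Frob w)` off `T`, `f w = 1` on `T`, and `a` is an
approximate norm from `L` (precision `|N| ^ 2`) at every `w ∈ T`. -/
def ArtStmt : Prop :=
  ∀ (K L : Type) [Field K] [NumberField K] [Field L] [NumberField L] [Algebra K L] [IsGalois K L]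
    [IsTotallyComplex K] (A : Type) [CommGroup A] (χ : (L ≃ₐ[K] L) →* A) (N : ℕ), N ≠ 0 →
    (∀ g, χ g ^ N = 1) → ∀ (T : Finset (Pr K)) (f : Pr K → A), (∀ w ∈ T, f w = 1) →
    (∀ w, w ∉ T → ∃ g, Fr w χ.ker g ∧ f w = χ g) →
    ∀ a : Kˣ, (∀ w ∈ T, AN L w N (a : K)) → ev f a = 1

end Crest.Agent.T15.Art
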