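import Crest.Agent.T15.Loc_73
import Crest.Agent.T15.ArtDef_34

/-!
# Row 15 (helper73): local norms at unramified primes; the leaves of `ArtDef_34`
-/

set_option autoImplicit false

noncomputable section

namespace Crest.Agent.T15.Hnt

open Finset Module NumberField IsDedekindDomain WithZero
open scoped Pointwise

theorem val_prod_le {E Γ ι : Type*} [CommRing E] [LinearOrderedCommGroupWithZero Γ]
    (v : Valuation E Γ) (S : Finset ι) (x : ι → E) {δ : Γ} (h1 : δ ≤ 1) (h : ∀ i, v (x i) ≤ δ) :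
    v (∏ i ∈ S, (1 + x i) - 1 - ∑ i ∈ S, x i) ≤ δ ^ 2 := by
  classical
  induction S using Finset.induction_on with
  | empty => simp
  | insert i S hi ih =>
    have : ∏ j ∈ insert i S, (1 + x j) - 1 - ∑ j ∈ insert i S, x j =
        (1 + x i) * (∏ i ∈ S, (1 + x i) - 1 - ∑ i ∈ S, x i) + x i * ∑ i ∈ S, x i := by
      rw [prod_insert hi, sum_insert hi]; ring
    rw [this]
    refine v.map_add_le ?_ ?_
    · rw [map_mul]
      exact (mul_le_mul' (v.map_add_le v.map_one.le ((h i).trans h1)) ih).trans_eq (one_mul _)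
    · rw [map_mul, sq]
      exact mul_le_mul' (h i) (v.map_sum_le fun j _ => h j)

variable {F E : Type*} [Field F] [NumberField F] [Field E] [NumberField E] [Algebra F E]

section cmp
variable (w : HeightOneSpectrum (𝓞 F)) (Q : HeightOneSpectrum (𝓞 E)) [Q.asIdeal.LiesOver w.asIdeal]

theorem val_le_iff (x y : F) : Q.valuation E (algebraMap F E x) ≤ Q.valuation E (algebraMap F E y) ↔
    w.valuation F x ≤ w.valuation F y := by
  rw [← w.valuation_liesOver E Q, ← w.valuation_liesOver E Q, pow_le_pow_iff_left₀ zero_le zero_le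
    (Ideal.IsDedekindDomain.ramificationIdx'_ne_zero_of_liesOver Q.asIdeal w.ne_bot)]

theorem val_lt_iff (x y : F) : Q.valuation E (algebraMap F E x) < Q.valuation E (algebraMap F E y) ↔
    w.valuation F x < w.valuation F y := lt_iff_lt_of_le_iff_le (val_le_iff w Q y x)

theorem val_eq_iff (x y : F) : Q.valuation E (algebraMap F E x) = Q.valuation E (algebraMap F E y) ↔
    w.valuation F x = w.valuation F y := by
  rw [le_antisymm_iff, le_antisymm_iff, val_le_iff w Q, val_le_iff w Q]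

end cmp

variable [IsGalois F E]

omit [IsGalois F E] in
theorem exists_sep (P : Ideal (𝓞 E)) [hP : P.IsMaximal] (M : ℕ) (x : 𝓞 E) :
    ∃ γ : 𝓞 E, γ - x ∈ P ^ M ∧
      ∀ g : E ≃ₐ[F] E, g ∉ MulAction.stabilizer (E ≃ₐ[F] E) P → g • γ - 1 ∈ P := by
  classical
  have h : IsCoprime (P ^ M)
      (∏ g ∈ univ.filter (· ∉ MulAction.stabilizer (E ≃ₐ[F] E) P), g⁻¹ • P) :=
    (IsCoprime.prod_right fun g hg => Ideal.isCoprime_iff_sup_eq.2 (hP.coprime_of_ne
      (Ideal.map_isMaximal_of_equiv (MulSemiringAction.toRingEquiv _ (𝓞 E) g⁻¹)) fun h =>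
      (show g ∉ MulAction.stabilizer (E ≃ₐ[F] E) P from (mem_filter.1 hg).2)
        (eq_inv_smul_iff.1 h))).pow_left
  obtain ⟨u, hu, v, hv, huv⟩ := Ideal.isCoprime_iff_exists.1 h
  refine ⟨x * v + u, ?_, fun g hg => ?_⟩
  · rw [show x * v + u - x = (1 - x) * u by linear_combination x * huv]
    exact Ideal.mul_mem_left _ _ hu
  · rw [← smul_one g, ← smul_sub, ← Ideal.mem_inv_pointwise_smul_iff,
      show x * v + u - 1 = (x - 1) * v by linear_combination huv]
    exact Ideal.mul_mem_left _ _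
      (Ideal.le_of_dvd (dvd_prod_of_mem _ (mem_filter.2 ⟨mem_univ g, hg⟩)) hv)

omit [IsGalois F E] in
theorem exists_trace (P : Ideal (𝓞 E)) [hP : P.IsPrime] (h : P.inertia (E ≃ₐ[F] E) = ⊥) :
    ∃ θ : 𝓞 E, ∑ g : E ≃ₐ[F] E, g • θ ∉ P := by
  by_contra! hθ
  let χ : (E ≃ₐ[F] E) → (𝓞 E →* 𝓞 E ⧸ P) := fun g =>
    ((Ideal.Quotient.mk P).comp (MulSemiringAction.toRingHom _ (𝓞 E) g) : 𝓞 E →+* 𝓞 E ⧸ P)
  have hχ : Function.Injective χ := fun g g' hg => by
    rw [← mul_inv_eq_one, ← Subgroup.mem_bot, ← h]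
    intro x
    have := Ideal.Quotient.eq.1 (DFunLike.congr_fun hg (g'⁻¹ • x))
    simpa [mul_smul] using this
  have := Fintype.linearIndependent_iff.1 ((linearIndependent_monoidHom (𝓞 E) (𝓞 E ⧸ P)).comp χ hχ)
    (fun _ => 1) (funext fun θ => by
      simpa [χ] using Ideal.Quotient.eq_zero_iff_mem.2 (hθ θ)) 1
  exact one_ne_zero this

theorem norm_coe (γ : 𝓞 E) :
    algebraMap F E (Algebra.norm F (γ : E)) = ((∏ g : E ≃ₐ[F] E, g • γ : 𝓞 E) : E) := by
  rw [Algebra.norm_eq_prod_automorphisms]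
  exact (map_prod (algebraMap (𝓞 E) E) (fun g : E ≃ₐ[F] E => g • γ) univ).symm

variable (w : HeightOneSpectrum (𝓞 F)) (Q : HeightOneSpectrum (𝓞 E)) [Q.asIdeal.LiesOver w.asIdeal]

theorem step (h : Q.asIdeal.inertia (E ≃ₐ[F] E) = ⊥) {a : F} (ha : w.valuation F (a - 1) < 1) :
    ∃ g : E, g ≠ 0 ∧ w.valuation F (a / Algebra.norm F g - 1) ≤ w.valuation F (a - 1) ^ 2 := by
  obtain ⟨θ, hθ⟩ := exists_trace Q.asIdeal h
  have h1 : Q.valuation E (∑ g : E ≃ₐ[F] E, g (θ : E)) = 1 := by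
    have := (Q.valuation_eq_one_iff_notMem (K := E)).2 hθ
    rwa [map_sum] at this
  have h2 := trace_eq_sum_automorphisms (K := F) (θ : E)
  have h3 : algebraMap F E (Algebra.trace F E θ) ≠ 0 := by
    rw [h2]; intro h0; rw [h0, map_zero] at h1; exact zero_ne_one h1
  let c := algebraMap F E ((a - 1) / Algebra.trace F E θ)
  have hc : c = algebraMap F E (a - 1) / algebraMap F E (Algebra.trace F E θ) := map_div₀ _ _ _
  have h4 := val_prod_le (Q.valuation E) univ (fun g : E ≃ₐ[F] E => c * g θ)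
    (δ := Q.valuation E (algebraMap F E (a - 1)))
    (by simpa using (val_le_iff w Q (a - 1) 1).2 (by simpa using ha.le)) fun g => by
      rw [map_mul, hc, map_div₀, h2, h1, div_one]
      exact mul_le_of_le_one_right' (Q.valuation_le_one (g • θ))
  have h5 : ∏ g : E ≃ₐ[F] E, (1 + c * g θ) - 1 - ∑ g : E ≃ₐ[F] E, c * g θ =
      algebraMap F E (Algebra.norm F (1 + c * θ) - a) := by
    rw [map_sub, Algebra.norm_eq_prod_automorphisms, ← mul_sum, ← h2,
      show c * algebraMap F E (Algebra.trace F E θ) = _ from hc ▸ div_mul_cancel₀ _ h3]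
    simp [c]
  rw [h5, ← map_pow, ← map_pow, val_le_iff w Q, map_pow] at h4
  have h6 : w.valuation F (Algebra.norm F (1 + c * θ)) = 1 := by
    have : Algebra.norm F (1 + c * θ) = 1 + (a - 1 + (Algebra.norm F (1 + c * θ) - a)) := by ring
    rw [this]
    exact Valuation.map_one_add_of_lt _ (Valuation.map_add_lt _ ha
      (h4.trans_lt (pow_lt_one₀ zero_le ha two_ne_zero)))
  have h7 : Algebra.norm F (1 + c * θ) ≠ 0 := fun h0 => by
    rw [h0, map_zero] at h6; exact zero_ne_one h6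
  refine ⟨1 + c * θ, Algebra.norm_ne_zero_iff.1 h7, ?_⟩
  rwa [div_sub_one h7, map_div₀, h6, div_one, Valuation.map_sub_swap]

theorem deep (h : Q.asIdeal.inertia (E ≃ₐ[F] E) = ⊥) {a : F} (ha : w.valuation F (a - 1) < 1)
    (k : ℕ) : ∃ g : E, g ≠ 0 ∧ w.valuation F (a / Algebra.norm F g - 1) < exp (-(k : ℤ)) := by
  induction k with
  | zero => exact ⟨1, one_ne_zero, by simpa using ha⟩
  | succ k ih =>
    obtain ⟨g, hg, h1⟩ := ih
    obtain ⟨g', hg', h2⟩ := step w Q h (h1.trans_le (T24.Asa.exp_neg_le_one k))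
    refine ⟨g * g', mul_ne_zero hg hg', ?_⟩
    rw [map_mul, ← div_div]
    refine h2.trans_lt ?_
    rcases eq_or_ne (w.valuation F (a / Algebra.norm F g - 1)) 0 with h0 | h0
    · rw [h0]; simp [zero_lt_iff]
    · rw [← exp_log h0, exp_lt_exp] at h1
      rw [← exp_log h0, ← exp_nsmul, exp_lt_exp, nsmul_eq_mul]
      push_cast; omega

theorem resid (h : Q.asIdeal.inertia (E ≃ₐ[F] E) = ⊥) {a : F} (ha : w.valuation F a = 1) :
    ∃ g : E, g ≠ 0 ∧ w.valuation F (a / Algebra.norm F g - 1) < 1 := by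
  classical
  obtain ⟨a₀, h0⟩ := w.exists_valuation_sub_lt_of_integer ha.le 1
  have := w.isMaximal
  have := Q.isMaximal
  let _ := Ideal.Quotient.field w.asIdeal
  let _ := Ideal.Quotient.field Q.asIdeal
  have : Finite (𝓞 E ⧸ Q.asIdeal) := Q.asIdeal.finiteQuotientOfFreeOfNeBot Q.ne_bot
  obtain ⟨x, hx⟩ := FiniteField.norm_surjective (𝓞 F ⧸ w.asIdeal) (𝓞 E ⧸ Q.asIdeal)
    (Ideal.Quotient.mk _ a₀)
  obtain ⟨x, rfl⟩ := Ideal.Quotient.mk_surjective x
  obtain ⟨γ, h1, h2⟩ := exists_sep (F := F) Q.asIdeal 1 x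
  rw [pow_one, ← Ideal.Quotient.eq] at h1
  have hb : Function.Bijective (Ideal.Quotient.stabilizerHom Q.asIdeal w.asIdeal (E ≃ₐ[F] E)) :=
    ⟨(MonoidHom.ker_eq_bot_iff _).1 ((Subgroup.map_eq_bot_iff_of_injective _
      (Subgroup.subtype_injective _)).1 (by rw [Ideal.Quotient.map_ker_stabilizer_subtype, h])),
      Ideal.Quotient.stabilizerHom_surjective _ _ _⟩
  have h3 : ∏ g : E ≃ₐ[F] E, g • γ - algebraMap (𝓞 F) (𝓞 E) a₀ ∈ Q.asIdeal := by
    rw [← Ideal.Quotient.eq, map_prod, ← Fintype.prod_subtype_mul_prod_subtype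
      (· ∈ MulAction.stabilizer (E ≃ₐ[F] E) Q.asIdeal),
      prod_eq_one (s := univ) (f := fun g : {g // g ∉ _} => Ideal.Quotient.mk Q.asIdeal (g.1 • γ))
        fun g _ => (Ideal.Quotient.eq.2 (h2 g.1 g.2)).trans (map_one _), mul_one]
    have h4 := Algebra.norm_eq_prod_automorphisms (𝓞 F ⧸ w.asIdeal) (Ideal.Quotient.mk Q.asIdeal γ)
    rw [h1, hx, ← h1, ← hb.prod_comp] at h4
    exact h4.symm
  have h4 : w.valuation F (Algebra.norm F (γ : E) - a₀) < 1 := by
    rw [← (w.valuation F).map_one, ← val_lt_iff w Q, map_one, map_one, map_sub, norm_coe]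
    exact (Q.valuation_lt_one_iff_mem (K := E) _).2 h3
  have h5 : w.valuation F (a - Algebra.norm F (γ : E)) < 1 := by
    have : a - Algebra.norm F (γ : E) = -((a₀ - a) + (Algebra.norm F (γ : E) - a₀)) := by ring
    rw [this, Valuation.map_neg]
    exact Valuation.map_add_lt _ h0 h4
  have h6 : w.valuation F (Algebra.norm F (γ : E)) = 1 := by
    rw [← ha] at h5 ⊢
    rw [← sub_sub_cancel a (Algebra.norm F (γ : E))]
    exact Valuation.map_sub_eq_of_lt_left _ h5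
  have h7 : Algebra.norm F (γ : E) ≠ 0 := fun h0 => by
    rw [h0, map_zero] at h6; exact zero_ne_one h6
  exact ⟨γ, Algebra.norm_ne_zero_iff.1 h7, by rwa [div_sub_one h7, map_div₀, h6, div_one]⟩

/-- units at an unramified prime are approximate norms -/
theorem unr_unit (h : Q.asIdeal.inertia (E ≃ₐ[F] E) = ⊥) {a : F} (ha : w.valuation F a = 1)
    {ε : ℤᵐ⁰} (hε : ε ≠ 0) : ∃ g : E, g ≠ 0 ∧ w.valuation F (a / Algebra.norm F g - 1) < ε := by
  obtain ⟨g, hg, h1⟩ := resid w Q h ha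
  obtain ⟨k, hk⟩ := T24.Asa.exists_exp_le hε
  obtain ⟨g', hg', h2⟩ := deep w Q h h1 k
  exact ⟨g * g', mul_ne_zero hg hg', by rw [map_mul, ← div_div]; exact h2.trans_le hk⟩

theorem split_val (h : MulAction.stabilizer (E ≃ₐ[F] E) Q.asIdeal = ⊥) {a : 𝓞 F} (ha : a ≠ 0) :
    ∃ g : E, w.valuation F (Algebra.norm F g) = w.valuation F (a : F) := by
  classical
  have := Q.isMaximal
  have h0 : Q.valuation E (algebraMap F E a) ≠ 0 := by simpa using ha
  obtain ⟨k, hk⟩ := T24.Asa.exists_exp_le h0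
  obtain ⟨γ, h1, h2⟩ := exists_sep (F := F) Q.asIdeal (k + 1) (algebraMap _ _ a)
  refine ⟨γ, (val_eq_iff w Q _ _).1 ?_⟩
  rw [Algebra.norm_eq_prod_automorphisms, map_prod, prod_eq_single 1 (fun g _ hg => ?_) (by simp)]
  · have h3 := (Q.intValuation_le_pow_iff_mem _ _).2 h1
    rw [← Q.valuation_of_algebraMap (K := E)] at h3
    exact Valuation.map_eq_of_sub_lt _ ((h3.trans_lt (exp_lt_exp.2 (by omega))).trans_le hk)
  · have h3 := (Q.valuation_lt_one_iff_mem (K := E) _).2 (h2 g (by rwa [h, Subgroup.mem_bot]))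
    exact (Valuation.map_eq_of_sub_lt _ (h3.trans_eq (map_one _).symm)).trans (map_one _)

/-- at a split prime everything is an approximate norm -/
theorem unr_split (h : MulAction.stabilizer (E ≃ₐ[F] E) Q.asIdeal = ⊥) {a : F} (ha : a ≠ 0)
    {ε : ℤᵐ⁰} (hε : ε ≠ 0) : ∃ g : E, g ≠ 0 ∧ w.valuation F (a / Algebra.norm F g - 1) < ε := by
  obtain ⟨x, y, hy, rfl⟩ := IsFractionRing.div_surjective (A := 𝓞 F) a
  have hx : x ≠ 0 := by rintro rfl; simp at ha
  have hy := nonZeroDivisors.ne_zero hy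
  obtain ⟨g₁, h1⟩ := split_val w Q h hx
  obtain ⟨g₂, h2⟩ := split_val w Q h hy
  have h3 : w.valuation F (x : F) ≠ 0 := by simpa using hx
  have h4 : w.valuation F (y : F) ≠ 0 := by simpa using hy
  have h5 : Algebra.norm F g₁ ≠ 0 := fun h0 => h3 (by rw [← h1, h0, map_zero])
  have h6 : Algebra.norm F g₂ ≠ 0 := fun h0 => h4 (by rw [← h2, h0, map_zero])
  obtain ⟨g, hg, h7⟩ := unr_unit w Q (eq_bot_iff.2 (h ▸ Q.asIdeal.inertia_le_stabilizer))
    (a := (x : F) / y * Algebra.norm F g₂ / Algebra.norm F g₁) (by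
      rw [map_div₀, map_mul, map_div₀, h1, h2, div_mul_cancel₀ _ h4, div_self h3]) hε
  have h8 := Algebra.norm_ne_zero_iff.1 h6
  refine ⟨g * g₁ / g₂, div_ne_zero (mul_ne_zero hg (Algebra.norm_ne_zero_iff.1 h5)) h8, ?_⟩
  have h9 : Algebra.norm F (g * g₁ / g₂) = Algebra.norm F g * Algebra.norm F g₁ / Algebra.norm F g₂ :=
    eq_div_of_mul_eq h6 (by rw [← map_mul, div_mul_cancel₀ _ h8, map_mul])
  convert h7 using 3
  rw [h9]; field_simp

end Crest.Agent.T15.Hnt

namespace Crest.Agent.T15.Art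

open Finset Module NumberField IsDedekindDomain WithZero

theorem unrStmt_73 : UnrStmt := by
  intro F E _ _ _ _ _ _ w P hP _ a ha h ε hε
  let Q : HeightOneSpectrum (𝓞 E) := ⟨P, hP, Ideal.ne_bot_of_liesOver_of_ne_bot w.ne_bot P⟩
  have : Q.asIdeal.LiesOver w.asIdeal := ‹_›
  exact h.elim (fun h => Hnt.unr_unit w Q h.1 h.2 hε) fun h => Hnt.unr_split w Q h ha hε

theorem hntStmt_73 : HntStmt := by
  intro F E _ _ _ _ _ _ _ s hs a ha h
  have : IsCyclic (E ≃ₐ[F] E) := ⟨⟨s, fun g => (hs ▸ Subgroup.mem_top g : g ∈ Subgroup.zpowers s)⟩⟩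
  exact Hnt.hnt ha h

theorem locStmt_73 : LocStmt := by
  intro K E _ _ _ _ _ _ s t N n hst hN hn hG _ c d a b hc hd ha hcd hb T h ε hε
  subst hN
  have h0 : ∀ {u : E ≃ₐ[K] E} {k : ℕ} {x : E} {y : K}, x ≠ 0 →
      ∏ i ∈ range k, (u ^ i) x = algebraMap K E y → y ≠ 0 := fun hx h hy =>
    prod_ne_zero_iff.2 (fun _ _ => (map_ne_zero _).2 hx) (by rw [h, hy, map_zero])
  obtain ⟨M, hM⟩ := T24.Asa.exists_exp_le hε
  obtain ⟨g, b', h1, h2, h3, h4⟩ := Hnt.loc hst (hn ▸ pow_orderOf_eq_one t) (fun x hs ht =>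
    (IsGalois.mem_range_algebraMap_iff_fixed x).2 fun g => by
      obtain ⟨i, j, rfl⟩ := hG g
      exact (MulAction.stabilizer (E ≃ₐ[K] E) x).mul_mem (pow_mem hs i) (pow_mem ht j))
    (h0 hc ha) (h0 hd hb) ha ((div_eq_div_iff hc hd).1 hcd) hb T (fun w hw => by
      obtain ⟨g, m, h1, h2, h3, h4⟩ := h w hw
      exact ⟨g, m, h0 h1 h3, h2, h3, h4⟩) (M + 1)
  refine ⟨g, b', ?_, h2, h3, fun w hw =>
    ((h4 w hw).trans_lt (exp_lt_exp.2 (by push_cast; omega))).trans_le hM⟩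
  rintro rfl
  rw [prod_eq_zero (mem_range.2 (hn ▸ orderOf_pos t)) (by simp), eq_comm, map_eq_zero] at h3
  exact h1 h3

end Crest.Agent.T15.Art
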