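import Crest.Agent.T15.ArtD_34
import Crest.Agent.T15.Unr_73

/-!
# Row 15: Artin reciprocity (helper34, leaves by helper73)
-/

namespace Crest.Agent.T15.Art

/-- **Artin reciprocity** with the sharp local condition -/
theorem artin : ArtStmt := artin_of hntStmt_73 unrStmt_73 locStmt_73

end Crest.Agent.T15.Art
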