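import Crest.Agent.T15.EqUD_16
import Crest.Agent.T15.CDef_7

/-!
# Row 15, block C: the leaf `EqStmt`
-/

set_option autoImplicit false

noncomputable section

open NumberField Module

namespace Crest.Agent.T15.EqU

open Crest.Agent.R018.Placesx484 Crest.Agent.T15.C Crest.Agent.T15.Ps

theorem st_US {E : Type} [Field E] [CharZero E] [IsGalois ℚ E] (N : Subgroup (E ≃ₐ[ℚ] E))
    [hN : N.Normal] (M : ℕ) : St (gal ℚ E) (US N M) := by
  rintro g x ⟨h1, h2⟩
  refine ⟨fun n hn => ?_, fun P hP => ?_⟩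
  · have := h1 _ (hN.conj_mem n hn g⁻¹)
    rw [inv_inv, AlgEquiv.mul_apply, AlgEquiv.mul_apply] at this
    rw [coe_gal]
    simpa using congrArg g this
  · have h3 := h2 (g⁻¹ • P) (by rwa [Place.rchar_smul])
    have h4 := Place.v_smul_smul_le_one g (g⁻¹ • P) (x : E)
    have h5 := Place.v_smul_smul_lt_one g (g⁻¹ • P) (x : E)
    rw [smul_inv_smul, h3] at h4 h5
    exact le_antisymm (h4.mpr le_rfl) (not_lt.mp fun h => lt_irrefl _ (h5.mp h))

section Ad

variable {k G : Type*} [CommRing k] [Group G]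

variable (k) in
/-- trace zero matrices -/
def W0 : Submodule k (M2 k) := LinearMap.ker (Matrix.traceLinearMap (Fin 2) k k)

theorem mem_W0 {w : M2 k} : w ∈ W0 k ↔ w.trace = 0 := Iff.rfl

theorem trace_conj (ρ : G →* M2 k) (g : G) (w : M2 k) : (ρ g * w * ρ g⁻¹).trace = w.trace := by
  rw [Matrix.trace_mul_cycle, ← map_mul, inv_mul_cancel, map_one, one_mul]

/-- the adjoint representation on trace zero matrices -/
def ad0 (ρ : G →* M2 k) : Representation k G (W0 k) where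
  toFun g :=
    { toFun := fun w => ⟨ρ g * w * ρ g⁻¹, by rw [mem_W0, trace_conj]; exact w.2⟩
      map_add' := fun a b => Subtype.ext (by simp [mul_add, add_mul])
      map_smul' := fun c a => Subtype.ext (by simp) }
  map_one' := by
    ext w : 1
    exact Subtype.ext (by simp)
  map_mul' g h := by
    ext w : 1
    exact Subtype.ext (by simp [mul_assoc])

theorem ad0_apply (ρ : G →* M2 k) (g : G) (w : W0 k) :
    (ad0 ρ g w : M2 k) = ρ g * w * ρ g⁻¹ := rfl

theorem conj_eq_iff (ρ : G →* M2 k) (g : G) (w : M2 k) :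
    ρ g * w * ρ g⁻¹ = w ↔ ρ g * w = w * ρ g := by
  constructor
  · intro h
    conv_rhs => rw [← h]
    rw [mul_assoc, ← map_mul, inv_mul_cancel, map_one, mul_one]
  · intro h
    rw [h, mul_assoc, ← map_mul, mul_inv_cancel, map_one, mul_one]

theorem mem_Fx_ad0 (ρ : G →* M2 k) (D : Subgroup G) (w : W0 k) :
    w ∈ Fx (ad0 ρ) D ↔ ∀ d ∈ D, ρ d * w = w * ρ d := by
  refine forall₂_congr fun d _ => ?_
  rw [Subtype.ext_iff, ad0_apply, conj_eq_iff]

end Ad

variable {k : Type} [Field k]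

theorem map_Fx (ρ : Gam →* M2 k) (D : Subgroup Gam) :
    (Fx (ad0 ρ) D).map (W0 k).subtype = Winv ρ D := by
  ext w
  constructor
  · rintro ⟨x, hx, rfl⟩
    exact ⟨x.2, (mem_Fx_ad0 ρ D x).mp hx⟩
  · rintro ⟨h1, h2⟩
    exact ⟨⟨w, h1⟩, (mem_Fx_ad0 ρ D _).mpr h2, rfl⟩

theorem finrank_Winv (ρ : Gam →* M2 k) (D : Subgroup Gam) :
    finrank k (Winv ρ D) = finrank k (Fx (ad0 ρ) D) := by
  rw [← map_Fx, Submodule.finrank_map_subtype_eq]

/-- the homomorphism attached to an element of `YS` -/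
def ysHom (ρ : Gam →* M2 k) (M : ℕ) (f : YS ρ M) : Additive (US ρ.ker M) →+ W0 k :=
  AddMonoidHom.mk' (fun x => ⟨f.1 (Additive.toMul x : US ρ.ker M), f.2.2.1 _⟩)
    fun x y => Subtype.ext (f.2.2.2.1 _ (Additive.toMul x).2 _ (Additive.toMul y).2)

theorem ysHom_mem (ρ : Gam →* M2 k) (M : ℕ) (f : YS ρ M) :
    ysHom ρ M f ∈ HG (gal ℚ Om) (ad0 ρ) (US ρ.ker M) ⊥ := by
  refine ⟨fun g x y h => Subtype.ext ?_, fun x hx => ?_⟩
  · change f.1 y = ρ g * f.1 x * ρ g⁻¹
    rw [h]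
    exact f.2.2.2.2 g x x.2
  · have : x = 1 := Subtype.ext hx
    rw [this]
    exact map_zero _

/-- `YS` is the space of equivariant homomorphisms `U_M → ad⁰` -/
def ysEquiv (ρ : Gam →* M2 k) (M : ℕ) :
    YS ρ M ≃ₗ[k] HG (gal ℚ Om) (ad0 ρ) (US ρ.ker M) ⊥ := by
  refine LinearEquiv.ofBijective
    { toFun := fun f => ⟨ysHom ρ M f, ysHom_mem ρ M f⟩
      map_add' := fun _ _ => rfl
      map_smul' := fun _ _ => rfl } ⟨?_, ?_⟩
  · intro f f' h
    apply Subtype.ext
    funext u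
    by_cases hu : u ∈ UM ρ.ker M
    · exact congrArg Subtype.val
        (DFunLike.congr_fun (congrArg Subtype.val h) (Additive.ofMul ⟨u, hu⟩))
    · rw [f.2.1 u hu, f'.2.1 u hu]
  · classical
    rintro ⟨φ, hφ⟩
    refine ⟨⟨fun u => if h : u ∈ US ρ.ker M then (φ (Additive.ofMul ⟨u, h⟩) : M2 k) else 0,
      fun u hu => dif_neg hu, fun u => ?_, fun u hu v hv => ?_, fun g u hu => ?_⟩, ?_⟩
    · beta_reduce
      split_ifs with h
      · exact (φ _).2
      · exact Matrix.trace_zero _ _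
    · have hu' : u ∈ US ρ.ker M := hu
      have hv' : v ∈ US ρ.ker M := hv
      beta_reduce
      rw [dif_pos hu', dif_pos hv', dif_pos (mul_mem hu' hv'), ← Submodule.coe_add, ← map_add]
      rfl
    · have hu' : u ∈ US ρ.ker M := hu
      have h1 : g • u ∈ US ρ.ker M := st_US _ M g u hu'
      beta_reduce
      rw [dif_pos hu', dif_pos h1, hφ.1 g ⟨u, hu'⟩ ⟨g • u, h1⟩ rfl]
      rfl
    · apply Subtype.ext
      apply AddMonoidHom.ext
      intro x
      apply Subtype.ext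
      exact dif_pos (Additive.toMul x).2

theorem exists_comm (h2 : (2 : k) ≠ 0) (A : M2 k) :
    ∃ w : M2 k, w ≠ 0 ∧ w.trace = 0 ∧ A * w = w * A := by
  by_cases h : (2 : k) • A - A.trace • (1 : M2 k) = 0
  · refine ⟨!![0, 1; 0, 0], fun h0 => ?_, by simp, ?_⟩
    · simpa using congrFun (congrFun h0 0) 1
    · have h1 : A = ((2 : k)⁻¹ * A.trace) • (1 : M2 k) := by
        rw [mul_smul, ← sub_eq_zero.mp h, smul_smul, inv_mul_cancel₀ h2, one_smul]
      rw [h1]
      simp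
  · refine ⟨_, h, by simp [mul_comm], ?_⟩
    simp [mul_sub, sub_mul]

theorem Fx_top (h2 : (2 : k) ≠ 0) {ρ : Gam →* M2 k} (h : Hyp ρ) : Fx (ad0 ρ) ⊤ = ⊥ := by
  rw [eq_bot_iff]
  intro w hw
  rw [mem_Fx_ad0] at hw
  have h1 : ∀ A : M2 k, A * w = w * A := by
    intro A
    have hA : A ∈ Submodule.span k (ρ '' {g | g om = om}) := h.span ▸ Submodule.mem_top
    induction hA using Submodule.span_induction with
    | mem A hA =>
      obtain ⟨g, -, rfl⟩ := hA
      exact hw g trivial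
    | zero => simp
    | add A B _ _ ha hb => rw [add_mul, mul_add, ha, hb]
    | smul c A _ ha => rw [smul_mul_assoc, mul_smul_comm, ha]
  have ht : (w : M2 k) 0 0 + (w : M2 k) 1 1 = 0 := by
    have := w.2
    rwa [mem_W0, Matrix.trace_fin_two] at this
  have a1 := congrFun (congrFun (h1 !![0, 1; 0, 0]) 0) 0
  have a2 := congrFun (congrFun (h1 !![0, 1; 0, 0]) 0) 1
  have a3 := congrFun (congrFun (h1 !![0, 0; 1, 0]) 1) 1
  simp [Matrix.mul_apply, Fin.sum_univ_two] at a1 a2 a3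
  have a4 : (w : M2 k) 0 0 = 0 := by
    apply mul_left_cancel₀ h2
    linear_combination ht - a2
  rw [Submodule.mem_bot]
  apply Subtype.ext
  ext i j
  fin_cases i <;> fin_cases j <;> simp [a1, a2, a3, a4]

/-- **leaf EQ** -/
theorem eqStmt : EqStmt := by
  intro k _ _ _ ρ hρ M P hM hP
  have : Fact (Nat.Prime 3) := ⟨Nat.prime_three⟩
  have h2 : (2 : k) ≠ 0 := by
    intro h
    have h3 : ((3 : ℕ) : k) = 0 := CharP.cast_eq_zero k 3
    have : (1 : k) = 0 := by
      push_cast at h3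
      linear_combination h3 - h
    exact one_ne_zero this
  obtain ⟨φ, c, hc⟩ := exists_conj (E := Om)
  obtain ⟨hf, h⟩ := eqU_gam (k := k) (p := 3) ρ.ker hρ.opn hρ.idx (ad0 ρ) (fun n hn => by
    ext w : 1
    apply Subtype.ext
    rw [ad0_apply, show ρ n = 1 from hn, show ρ n⁻¹ = 1 from inv_mem hn, one_mul, mul_one]
    rfl) hM P hP φ c hc
  have hfin : Module.Finite k (HG (gal ℚ Om) (ad0 ρ) (US ρ.ker M) ⊥) := Module.Finite.of_finite
  refine ⟨Module.Finite.equiv (ysEquiv ρ M).symm, ?_⟩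
  rw [(ysEquiv ρ M).finrank_eq]
  rw [Fx_top h2 hρ, finrank_bot, add_zero] at h
  have h1 : 0 < finrank k (Fx (ad0 ρ) (Subgroup.zpowers c)) := by
    obtain ⟨w, hw0, hw1, hw2⟩ := exists_comm h2 (ρ c)
    refine (finrank_pos_iff_exists_ne_zero (R := k) (M := Fx (ad0 ρ) (Subgroup.zpowers c))).mpr ?_
    refine ⟨⟨⟨w, hw1⟩, (mem_Fx_zpowers _ _ _).mpr (Subtype.ext ((conj_eq_iff ρ c w).mpr hw2))⟩, ?_⟩
    exact fun h0 => hw0 (congrArg (fun x => (x.1.1 : M2 k)) h0)
  simp only [finrank_Winv]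
  rw [h]
  exact le_add_left (Nat.add_le_add_right h1 _)

end Crest.Agent.T15.EqU
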