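import Crest.Agent.T15.CDef_7

/-!
# Row 15, block C: elementary consequences of `C.Hyp`, stability of the `M`-units (helper6)
-/

set_option autoImplicit false

noncomputable section

namespace Crest.Agent.T15.Tw

open NumberField Module MulAction Crest.Agent.R018.Placesx484 Crest.Agent.T15.Ps Crest.Agent.T15.C

variable {k : Type} [Field k] {ρ : Gam →* M2 k}

theorem two_ne [CharP k 3] : (2 : k) ≠ 0 := fun h => by
  have := (CharP.cast_eq_zero_iff k 3 2).1 (by exact_mod_cast h)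
  omega

/-- trace zero matrices -/
def W0 (k : Type) [Field k] : Submodule k (M2 k) := LinearMap.ker (Matrix.traceLinearMap (Fin 2) k k)

theorem mem_W0 {w : M2 k} : w ∈ W0 k ↔ w.trace = 0 := Iff.rfl

theorem rho_inv_mul (ρ : Gam →* M2 k) (g : Gam) : ρ g⁻¹ * ρ g = 1 := by rw [← map_mul]; simp

theorem rho_mul_inv (ρ : Gam →* M2 k) (g : Gam) : ρ g * ρ g⁻¹ = 1 := by rw [← map_mul]; simp

theorem trace_conj (ρ : Gam →* M2 k) (g : Gam) (w : M2 k) : (ρ g * w * ρ g⁻¹).trace = w.trace := by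
  rw [Matrix.trace_mul_cycle, rho_inv_mul, one_mul]

theorem conj_eq_iff (ρ : Gam →* M2 k) (g : Gam) (w : M2 k) :
    ρ g * w * ρ g⁻¹ = w ↔ ρ g * w = w * ρ g :=
  ⟨fun h => by
    conv_rhs => rw [← h]
    rw [mul_assoc (ρ g * w), rho_inv_mul, mul_one],
  fun h => by rw [h, mul_assoc, rho_mul_inv, mul_one]⟩

/-- the adjoint representation on trace zero matrices -/
def ad0 (ρ : Gam →* M2 k) : Representation k Gam (W0 k) where
  toFun g :=
    { toFun := fun w => ⟨ρ g * w * ρ g⁻¹, (trace_conj ρ g w).trans w.2⟩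
      map_add' := fun a b => Subtype.ext (by simp [mul_add, add_mul])
      map_smul' := fun c a => Subtype.ext (by simp) }
  map_one' := by ext w : 2; simp
  map_mul' g h := by ext w : 2; simp [mul_assoc]

theorem ad0_coe (g : Gam) (w : W0 k) : (ad0 ρ g w : M2 k) = ρ g * w * ρ g⁻¹ := rfl

/-- the adjoint representation of the finite quotient -/
def adQ (ρ : Gam →* M2 k) : Representation k (Gam ⧸ ρ.ker) (W0 k) :=
  QuotientGroup.lift ρ.ker (ad0 ρ) fun g hg => by
    have h1 : ρ g = 1 := hg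
    have h2 : ρ g⁻¹ = 1 := ρ.ker.inv_mem hg
    ext w : 2
    simp [ad0_coe, h1, h2]

theorem adQ_mk (g : Gam) (w : W0 k) : (adQ ρ g w : M2 k) = ρ g * w * ρ g⁻¹ := rfl

theorem ker_om [CharP k 3] (h : Hyp ρ) : ∀ g ∈ ρ.ker, g om = om := fun g hg => by
  by_contra hc
  have h1 := h.det g
  rw [if_neg hc, show ρ g = 1 from hg, Matrix.det_one] at h1
  exact two_ne (k := k) (by linear_combination h1)

theorem eq_zero_of_comm [CharP k 3] (h : Hyp ρ) {w : M2 k} (hw : w.trace = 0)
    (hc : ∀ g : Gam, g om = om → ρ g * w = w * ρ g) : w = 0 := by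
  have key : ∀ x : M2 k, x * w = w * x := fun x => by
    induction (show x ∈ Submodule.span k (ρ '' {g | g om = om}) from h.span ▸ trivial)
      using Submodule.span_induction with
    | mem x hx => obtain ⟨g, hg, rfl⟩ := hx; exact hc g hg
    | zero => simp
    | add x y _ _ a b => rw [add_mul, mul_add, a, b]
    | smul c x _ a => rw [smul_mul_assoc, mul_smul_comm, a]
  have h1 := key !![1, 0; 0, 0]
  have h2 := key !![0, 1; 0, 0]
  have a1 := congrFun (congrFun h1 0) 1
  have a2 := congrFun (congrFun h1 1) 0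
  have a3 := congrFun (congrFun h2 0) 1
  simp [Matrix.mul_apply, Fin.sum_univ_two] at a1 a2 a3
  rw [Matrix.trace_fin_two, a3, ← two_mul, mul_eq_zero, or_iff_right two_ne] at hw
  ext i j
  fin_cases i <;> fin_cases j <;> simp [*]

/-- the trace zero part -/
def pr0 (k : Type) [Field k] [CharP k 3] : M2 k →ₗ[k] W0 k where
  toFun x := ⟨x - (x.trace / 2) • (1 : M2 k), by
    have := two_ne (k := k)
    rw [mem_W0, Matrix.trace_sub, Matrix.trace_smul]; simp; field_simp; ring⟩
  map_add' a b := Subtype.ext (by simp [add_div, add_smul]; abel)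
  map_smul' c a := Subtype.ext (by simp [smul_sub, smul_smul, mul_div_assoc])

theorem pr0_coe [CharP k 3] (x : M2 k) : (pr0 k x : M2 k) = x - (x.trace / 2) • (1 : M2 k) := rfl

/-- an element of order prime to `3` with a double eigenvalue is scalar -/
theorem pr0_eq_zero [CharP k 3] {x : M2 k} {m : ℕ} (hm : ¬ 3 ∣ m) (hx : x ^ m = 1)
    (hd : x.trace ^ 2 = 4 * x.det) : pr0 k x = 0 := by
  have h2 := two_ne (k := k)
  obtain ⟨w, hw⟩ : ∃ w : M2 k, w = pr0 k x := ⟨_, rfl⟩
  have tw : w.trace = 0 := hw ▸ (pr0 k x).2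
  obtain ⟨a, ha⟩ : ∃ a, a = x.trace / 2 := ⟨_, rfl⟩
  have e : x = a • (1 : M2 k) + w := by rw [hw, pr0_coe, ha]; abel
  have ww : w * w = 0 := by
    rw [hw, pr0_coe]
    rw [Matrix.trace_fin_two, Matrix.det_fin_two] at hd
    ext i j
    fin_cases i <;> fin_cases j <;>
      simp [Matrix.mul_apply, Fin.sum_univ_two, Matrix.trace_fin_two] <;> field_simp <;>
      first | linear_combination hd | ring
  have pw : ∀ i : ℕ, x ^ (i + 1) = a ^ (i + 1) • (1 : M2 k) + (((i + 1 : ℕ) : k) * a ^ i) • w := by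
    intro i
    induction i with
    | zero => simpa using e
    | succ i ih =>
      rw [pow_succ x, ih, e]
      simp only [add_mul, mul_add, smul_mul_assoc, mul_smul_comm, one_mul, mul_one, ww, smul_zero]
      match_scalars <;> ring
  obtain ⟨i, rfl⟩ : ∃ i, m = i + 1 := ⟨m - 1, by omega⟩
  have h3 := (pw i).symm.trans hx
  have h4 := congrArg Matrix.trace h3
  rw [Matrix.trace_add, Matrix.trace_smul, Matrix.trace_smul, tw, smul_zero, add_zero] at h4
  have h5 : a ^ (i + 1) = 1 := mul_right_cancel₀ h2 (by simpa using h4)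
  have a0 : a ≠ 0 := fun h => by simp [h] at h5
  rw [h5, one_smul, add_eq_left, smul_eq_zero, mul_eq_zero, CharP.cast_eq_zero_iff k 3,
    or_iff_right hm, or_iff_right (pow_ne_zero _ a0)] at h3
  exact Subtype.ext (hw.symm.trans h3)

/-- the commutant of a regular matrix in `ad⁰` is a line -/
theorem exists_smul [CharP k 3] {a x y : M2 k} (hd : a.trace ^ 2 ≠ 4 * a.det) (hx : x.trace = 0)
    (hy : y.trace = 0) (cx : a * x = x * a) (cy : a * y = y * a) (x0 : x ≠ 0) : ∃ c : k, y = c • x := by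
  have h2 := two_ne (k := k)
  have key : ∀ y : M2 k, y.trace = 0 → a * y = y * a →
      ∃ c : k, y = c • ((2 : k) • a - a.trace • (1 : M2 k)) := by
    intro y hy cy
    have a1 := congrFun (congrFun cy 0) 0
    have a2 := congrFun (congrFun cy 0) 1
    have a3 := congrFun (congrFun cy 1) 0
    simp only [Matrix.mul_apply, Fin.sum_univ_two] at a1 a2 a3
    rw [Matrix.trace_fin_two] at hy
    rw [Matrix.trace_fin_two, Matrix.det_fin_two] at hd
    have hd' : (a 0 0 - a 1 1) ^ 2 + 4 * (a 0 1 * a 1 0) ≠ 0 := fun e => hd (by linear_combination e)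
    refine ⟨((a 0 0 - a 1 1) ^ 2 + 4 * (a 0 1 * a 1 0))⁻¹ *
      ((a 0 0 - a 1 1) * y 0 0 + a 0 1 * y 1 0 + a 1 0 * y 0 1), ?_⟩
    rw [mul_smul, eq_inv_smul_iff₀ hd']
    have y11 : y 1 1 = -y 0 0 := by linear_combination hy
    rw [y11] at a2 a3
    ext i j
    fin_cases i <;> fin_cases j <;> simp [Matrix.trace_fin_two, y11]
    · linear_combination (-a 1 0) * a2 + a 0 1 * a3
    · linear_combination (a 0 0 - a 1 1) * a2 - 2 * a 0 1 * a1
    · linear_combination -(a 0 0 - a 1 1) * a3 + 2 * a 1 0 * a1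
    · linear_combination a 1 0 * a2 - a 0 1 * a3
  obtain ⟨c, rfl⟩ := key x hx cx
  obtain ⟨d, rfl⟩ := key y hy cy
  have c0 : c ≠ 0 := fun h => x0 (by simp [h])
  exact ⟨d / c, by rw [smul_smul, div_mul_cancel₀ _ c0]⟩

theorem span_fix [CharP k 3] (h : Hyp ρ) : Submodule.span k {x : W0 k | ∃ s ∈ {s : Gam ⧸ ρ.ker |
    ∃ g : Gam, g om = om ∧ (ρ g).trace ^ 2 ≠ 4 * (ρ g).det ∧ s = g}, adQ ρ s x = x} = ⊤ := by
  have h1 : (Submodule.span k (ρ '' {g | g om = om})).map (pr0 k) = ⊤ := by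
    rw [h.span, Submodule.map_top, LinearMap.range_eq_top]
    exact fun w => ⟨w, Subtype.ext (by rw [pr0_coe, mem_W0.1 w.2]; simp)⟩
  rw [eq_top_iff, ← h1, Submodule.map_span, Submodule.span_le]
  rintro _ ⟨_, ⟨g, hg, rfl⟩, rfl⟩
  by_cases hd : (ρ g).trace ^ 2 = 4 * (ρ g).det
  · rw [pr0_eq_zero h.idx (by rw [← map_pow]; exact ρ.ker.pow_index_mem g) hd]
    exact Submodule.zero_mem _
  · refine Submodule.subset_span ⟨g, ⟨g, hg, hd, rfl⟩, Subtype.ext ?_⟩
    rw [adQ_mk, conj_eq_iff, pr0_coe]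
    simp [mul_sub, sub_mul]

theorem v_smul_one (g : Gam) (P : Place Om) (x : Om) : (g • P).v (g x) = 1 ↔ P.v x = 1 := by
  have h1 := Place.v_smul_smul_le_one g P x
  have h2 := Place.v_smul_smul_lt_one g P x
  rw [eq_iff_le_not_lt, eq_iff_le_not_lt]
  exact and_congr h1 h2.not

theorem fix_smul {N : Subgroup Gam} [hN : N.Normal] {x : Om} (hx : ∀ n ∈ N, n x = x) (g : Gam) :
    ∀ n ∈ N, n (g x) = g x := fun n hn => by
  have := congrArg g (hx _ (hN.conj_mem' n hn g))
  rwa [AlgEquiv.mul_apply, AlgEquiv.mul_apply, ← AlgEquiv.mul_apply, mul_inv_cancel] at this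

theorem UM_smul {N : Subgroup Gam} [N.Normal] {M : ℕ} (g : Gam) {u : Omˣ} (hu : u ∈ UM N M) :
    g • u ∈ UM N M := ⟨fix_smul hu.1 g, fun P hP => by
  have := (v_smul_one g (g⁻¹ • P) u).2 (hu.2 _ (by rwa [Place.rchar_smul]))
  rwa [smul_inv_smul] at this⟩

theorem kum_eq [CharP k 3] {g : Gam} {u : Om} (hu : u ≠ 0) {i : ZMod 3}
    (h : g (rt u) = om ^ i.val * rt u) : kum k g u = ZMod.castHom dvd_rfl k i := by
  have r0 : rt u ≠ 0 := fun e => hu (by rw [← rt_spec u, e]; simp)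
  have h1 : om ≠ 1 := om_spec.ne_one (by norm_num)
  have h2 : om ^ 2 ≠ 1 := om_spec.pow_ne_one_of_pos_of_lt (by norm_num) (by norm_num)
  have h0 : om ≠ 0 := om_spec.ne_zero (by norm_num)
  rw [kum, h]
  have : i = 0 ∨ i = 1 ∨ i = -1 := by clear h; revert i; decide
  rcases this with rfl | rfl | rfl
  · simp
  · rw [map_one, show (1 : ZMod 3).val = 1 from rfl, pow_one, if_neg (by simpa [r0] using h1), if_pos rfl]
  · rw [map_neg, map_one, show (-1 : ZMod 3).val = 2 from rfl, if_neg (by simpa [r0] using h2),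
      if_neg (by simpa [r0, sq, h0] using h1)]

end Crest.Agent.T15.Tw
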