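import Crest.Agent.T15.TwB_6
import Crest.Agent.T15.TwC_6
import Crest.Agent.T15.TwD_6

/-!
# Row 15, block C: the choice of the Taylor–Wiles primes, `C.SelStmt` (helper6)
-/

set_option autoImplicit false

noncomputable section

namespace Crest.Agent.T15.Tw

open NumberField Module MulAction Crest.Agent.R018.Placesx484 Crest.Agent.T15.Ps Crest.Agent.T15.C
open Crest.Agent.T15.EqU

theorem exists_inj {X : Type*} (q : X → ℕ) : ∀ (r : ℕ) (Pr : Fin r → X → Prop),
    (∀ i B, ∃ y, B < q y ∧ Pr i y) → ∀ B, ∃ y : Fin r → X,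
      (Function.Injective fun i => q (y i)) ∧ ∀ i, B < q (y i) ∧ Pr i (y i)
  | 0, _, _, _ => ⟨Fin.elim0, fun i => i.elim0, fun i => i.elim0⟩
  | r + 1, Pr, h, B => by
    obtain ⟨y0, h1, h2⟩ := h 0 B
    obtain ⟨y, h3, h4⟩ := exists_inj q r (fun i => Pr i.succ) (fun i => h i.succ) (q y0)
    refine ⟨Fin.cons y0 y, ?_, fun i => Fin.cases ⟨h1, h2⟩ (fun i => ⟨h1.trans (h4 i).1, (h4 i).2⟩) i⟩
    rw [show (fun i => q (Fin.cons (α := fun _ => X) y0 y i)) = Fin.cons (q y0) fun i => q (y i) from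
      Fin.comp_cons q y0 y, Fin.cons_injective_iff]
    exact ⟨fun ⟨i, hi⟩ => (h4 i).1.ne' hi, h3⟩

variable {k : Type} [Field k] {ρ : Gam →* M2 k} {M : ℕ}

/-- the action of `Gam ⧸ N` on a stable group of `N`-fixed units -/
def alQ (N : Subgroup Gam) [N.Normal] (A : Subgroup Omˣ) (hst : ∀ g : Gam, ∀ a ∈ A, g • a ∈ A)
    (hA : ∀ a ∈ A, ∀ h ∈ N, h (a : Om) = a) : Gam ⧸ N →* Monoid.End A :=
  QuotientGroup.lift N
    { toFun := fun g => ((MulDistribMulAction.toMonoidHom Omˣ g).comp A.subtype).codRestrict A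
        fun a => hst g a a.2
      map_one' := MonoidHom.ext fun a => Subtype.ext (one_smul Gam a.1)
      map_mul' := fun g h => MonoidHom.ext fun a => Subtype.ext (mul_smul g h a.1) }
    fun g hg => MonoidHom.ext fun a => Subtype.ext (Units.ext (hA a a.2 g hg))

/-- cubes times cube roots of unity -/
def Cu (N : Subgroup Gam) (A : Subgroup Omˣ) : Subgroup A where
  carrier := {a | ∃ z c : Om, z ^ 3 = 1 ∧ (∀ h ∈ N, h c = c) ∧ ((a : Omˣ) : Om) = z * c ^ 3}
  one_mem' := ⟨1, 1, by simp, by simp, by simp⟩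
  mul_mem' := by
    rintro a b ⟨z, c, h1, h2, h3⟩ ⟨z', c', g1, g2, g3⟩
    exact ⟨z * z', c * c', by rw [mul_pow, h1, g1, one_mul],
      fun h hh => by rw [map_mul, h2 h hh, g2 h hh], by simp [h3, g3]; ring⟩
  inv_mem' := by
    rintro a ⟨z, c, h1, h2, h3⟩
    exact ⟨z⁻¹, c⁻¹, by rw [inv_pow, h1, inv_one], fun h hh => by rw [map_inv₀, h2 h hh],
      by simp [h3]; ring⟩

theorem YS_kill [CharP k 3] (h : Hyp ρ) {f : Omˣ → M2 k} (hf : f ∈ YS ρ M) {a : Omˣ}
    (ha : a ∈ UM ρ.ker M) {z c : Om} (hz : z ^ 3 = 1) (hc : ∀ h ∈ ρ.ker, h c = c)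
    (e : (a : Om) = z * c ^ 3) : f a = 0 := by
  have z0 : z ≠ 0 := fun h => by simp [h] at hz
  have c0 : c ≠ 0 := fun h => a.ne_zero (by simp [e, h])
  obtain ⟨i, -, hi⟩ := om_spec.eq_pow_of_pow_eq_one hz
  have vz : ∀ P : Place Om, P.v z = 1 := fun P =>
    (pow_eq_one_iff_of_nonneg zero_le three_ne_zero).1 (by rw [← map_pow, hz, map_one])
  have m1 : Units.mk0 z z0 ∈ UM ρ.ker M :=
    ⟨fun n hn => by rw [Units.val_mk0, ← hi, map_pow, ker_om h n hn], fun P _ => vz P⟩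
  have m2 : Units.mk0 c c0 ∈ UM ρ.ker M := ⟨hc, fun P hP => by
    have := ha.2 P hP
    rw [e, map_mul, vz, one_mul, map_pow] at this
    exact (pow_eq_one_iff_of_nonneg zero_le three_ne_zero).1 this⟩
  have e' : a = Units.mk0 z z0 * (Units.mk0 c c0 * (Units.mk0 c c0 * Units.mk0 c c0)) :=
    Units.ext (by simp only [e, Units.val_mul, Units.val_mk0]; ring)
  have h3 : ∀ w : M2 k, w + (w + w) = 0 := fun w => by
    have : ((3 : ℕ) : k) • w = 0 := by rw [CharP.cast_eq_zero, zero_smul]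
    rw [← this, Nat.cast_smul_eq_nsmul]; abel
  rw [e', hf.2.2.1 _ m1 _ (mul_mem m2 (mul_mem m2 m2)), hf.2.2.1 _ m2 _ (mul_mem m2 m2),
    hf.2.2.1 _ m2 _ m2, h3, add_zero]
  refine eq_zero_of_comm h (hf.2.1 _) fun g hg => (conj_eq_iff ρ g _).1 ?_
  rw [← hf.2.2.2 g _ m1]
  congr 1
  exact Units.ext (show g z = z by rw [← hi, map_pow, hg])

/-- a finitely generated stable group of `M`-units which detects `YS` -/
theorem exists_detect [Finite k] (h : Hyp ρ) [CharP k 3] [Module.Finite k (YS ρ M)] :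
    ∃ A : Subgroup Omˣ, Group.FG A ∧ A ≤ UM ρ.ker M ∧ (∀ g : Gam, ∀ a ∈ A, g • a ∈ A) ∧
      ∀ f ∈ YS ρ M, (∀ a ∈ A, f a = 0) → f = 0 := by
  have : Finite (YS ρ M) := Module.finite_of_finite k
  have : ρ.ker.FiniteIndex := ⟨fun e => h.idx (e ▸ dvd_zero _)⟩
  have : ∀ f : YS ρ M, ∃ u ∈ UM ρ.ker M, f.1 u = 0 → f.1 = 0 := fun f => by
    by_cases hf : f.1 = 0
    · exact ⟨1, one_mem _, fun _ => hf⟩
    · obtain ⟨u, hu⟩ := Function.ne_iff.1 hf
      exact ⟨u, by_contra fun e => hu (f.2.1 u e), fun e => absurd e hu⟩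
  choose u h1 h2 using this
  have fin : (⋃ f, orbit Gam (u f)).Finite := Set.finite_iUnion fun f => by
    have : (stabilizer Gam (u f)).FiniteIndex := Subgroup.finiteIndex_of_le (H := ρ.ker)
      fun g hg => Units.ext ((h1 f).1 g hg)
    exact Finite.of_equiv _ (orbitEquivQuotientStabilizer Gam (u f)).symm
  have := fin.to_subtype
  refine ⟨Subgroup.closure (⋃ f, orbit Gam (u f)), inferInstance, (Subgroup.closure_le _).2 ?_,
    fun g a ha => ?_, fun f hf e => h2 ⟨f, hf⟩ (e _ (Subgroup.subset_closure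
      (Set.mem_iUnion.2 ⟨⟨f, hf⟩, mem_orbit_self _⟩)))⟩
  · rintro _ ⟨_, ⟨f, rfl⟩, g, rfl⟩
    exact UM_smul g (h1 f)
  · induction ha using Subgroup.closure_induction with
    | mem a ha =>
      obtain ⟨_, ⟨f, rfl⟩, g', rfl⟩ := ha
      exact Subgroup.subset_closure (Set.mem_iUnion.2 ⟨f, g * g', mul_smul g g' _⟩)
    | one => rw [smul_one]; exact one_mem _
    | mul a b _ _ i1 i2 => rw [smul_mul']; exact mul_mem i1 i2
    | inv a _ i1 => rw [smul_inv']; exact inv_mem i1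

theorem selStmt : SelStmt := by
  intro k _ _ _ ρ h M _ _ n B
  classical
  have : Fact (Nat.Prime 3) := ⟨Nat.prime_three⟩
  have : ρ.ker.FiniteIndex := ⟨fun e => h.idx (e ▸ dvd_zero _)⟩
  have := Fintype.ofFinite (Gam ⧸ ρ.ker)
  obtain ⟨A, fg, hU, hst, det⟩ := exists_detect (M := M) h
  have hA : ∀ a ∈ A, ∀ h ∈ ρ.ker, h (a : Om) = a := fun a ha => (hU ha).1
  have hB : St (alQ ρ.ker A hst hA) (Cu ρ.ker A) := by
    rintro ⟨g⟩ a ⟨z, c, h1, h2, h3⟩
    exact ⟨g z, g c, by rw [← map_pow, h1, map_one], fix_smul h2 g,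
      by rw [← map_pow, ← map_mul, ← h3]; rfl⟩
  have : Group.FG (⊤ : Subgroup A) := Group.fg_of_surjective
    (f := (Subgroup.topEquiv (G := A)).symm.toMonoidHom) (Subgroup.topEquiv (G := A)).symm.surjective
  have := finite_hom (Additive (⊤ : Subgroup A)) (W0 k)
  have : Module.Finite k (HG (alQ ρ.ker A hst hA) (adQ ρ) ⊤ (Cu ρ.ker A)) := .of_finite
  obtain ⟨σ, l, x, adm, li, -⟩ := exists_av_basis (p := 3) h.idx st_top hB (span_fix h)
  have le : finrank k (YS ρ M) ≤ finrank k (HG (alQ ρ.ker A hst hA) (adQ ρ) ⊤ (Cu ρ.ker A)) := by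
    refine LinearMap.finrank_le_finrank_of_injective (f :=
      { toFun := fun f => ⟨AddMonoidHom.mk' (fun a => ⟨f.1 a.toMul.1.1, f.2.2.1 _⟩) fun a b =>
          Subtype.ext (f.2.2.2.1 _ (hU a.toMul.1.2) _ (hU b.toMul.1.2)), ?_, ?_⟩
        map_add' := fun _ _ => rfl
        map_smul' := fun _ _ => rfl }) ((injective_iff_map_eq_zero _).2 fun f hf => ?_)
    · rintro ⟨g⟩ a b e
      exact Subtype.ext ((congrArg (fun u : A => f.1 u) e).trans (f.2.2.2.2 g _ (hU a.1.2)))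
    · rintro a ⟨z, c, h1, h2, h3⟩
      exact Subtype.ext (YS_kill h f.2 (hU a.1.2) h1 h2 h3)
    · refine Subtype.ext (det f.1 f.2 fun a ha => ?_)
      have := congrArg Subtype.val (DFunLike.congr_fun (congrArg Subtype.val hf)
        (Additive.ofMul (⟨⟨a, ha⟩, trivial⟩ : (⊤ : Subgroup A))))
      exact this
  have key : ∀ i B, ∃ y : Place Om × Gam, B < y.1.rchar ∧ (TWq ρ y.1.rchar y.1 y.2 ∧
      3 ^ n ∣ y.1.rchar - 1 ∧ σ i = y.2 ∧ ∀ a : A,
        kum k (y.2 ^ ρ.ker.index) (a : Omˣ) = ZMod.castHom dvd_rfl k (l i (.ofMul ⟨a, trivial⟩))) := by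
    intro i B
    obtain ⟨⟨s, s1, s2, s3⟩, -, a3, a4⟩ := adm i
    obtain ⟨P, φ, p1, p2, -, p4, p5, p6, p7⟩ := exists_place (by norm_num) om_spec ρ.ker h.opn h.idx
      (ker_om h) A hA hst ((l i).comp (MonoidHom.toAdditive Subgroup.topEquiv.symm.toMonoidHom))
      (fun a j c c1 c2 => a4 ⟨a, trivial⟩ ⟨om ^ j, c, by
        rw [pow_right_comm, om_spec.pow_eq_one, one_pow], c1, c2⟩)
      s1 h.idx (ρ.ker.pow_index_mem s) (fun a => by
        have := a3 (.ofMul ⟨a, trivial⟩)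
        rw [s3] at this
        exact this) (n + 1) B
    have e : ρ φ = ρ s := by
      rw [← mul_inv_cancel_left s φ, map_mul, show ρ (s⁻¹ * φ) = 1 from p6, mul_one]
    exact ⟨(P, φ), p1, ⟨P.rchar_prime, (dvd_pow_self 3 n.succ_ne_zero).trans p2, rfl, p4, p5, e ▸ s2⟩,
      (pow_dvd_pow 3 n.le_succ).trans p2, s3.trans (QuotientGroup.eq.2 p6),
      fun a => kum_eq (a : Omˣ).ne_zero (p7 a _ (rt_spec _))⟩
  obtain ⟨y, inj, hy⟩ := exists_inj (fun y : Place Om × Gam => y.1.rchar) _ _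
    (fun i => key (Fin.castLE le i)) B
  obtain ⟨y0, -⟩ : ∃ y0 : Place Om × Gam, True := by
    obtain ⟨P, φ, -⟩ := Cheb.cheb_inf ρ.ker h.opn 1 0
    exact ⟨(P, φ), trivial⟩
  let Y : ℕ → Place Om × Gam := Function.extend (fun i => (y i).1.rchar) y fun _ => y0
  have hY : ∀ i, Y (y i).1.rchar = y i := inj.extend_apply y _
  refine ⟨Finset.univ.image fun i => (y i).1.rchar, fun q => (Y q).1, fun q => (Y q).2,
    by rw [Finset.card_image_of_injective _ inj]; simp, ?_, fun w hw hs => ?_⟩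
  · simp only [Finset.mem_image, Finset.mem_univ, true_and, forall_exists_index,
      forall_apply_eq_imp_iff, hY]
    exact fun i => ⟨(hy i).2.1, (hy i).1, (hy i).2.2.1⟩
  simp only [Finset.mem_image, Finset.mem_univ, true_and, forall_exists_index,
    forall_apply_eq_imp_iff, hY, Finset.sum_image fun _ _ _ _ e => inj e] at hw hs ⊢
  have li' := li.comp _ (Fin.castLE_injective le)
  have : ∀ i, ∃ c : k, w (y i).1.rchar = c • (x (Fin.castLE le i) : M2 k) := fun i => by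
    have e := (adm (Fin.castLE le i)).2.1
    rw [(hy i).2.2.2.1] at e
    refine exists_smul (hy i).2.1.disc (x _).2 (hw i).1
      ((conj_eq_iff ρ _ _).1 (congrArg Subtype.val e)) (hw i).2 fun e => li'.ne_zero i ?_
    simp [show x (Fin.castLE le i) = 0 from Subtype.ext e]
  choose c hc using this
  have := Fintype.linearIndependent_iff.1 li' c (AddMonoidHom.ext fun a => Subtype.ext ?_)
  · intro i; rw [hc, this, zero_smul]
  refine Eq.trans ?_ (hs _ (hU a.toMul.1.2))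
  rw [AddMonoidHom.finsetSum_apply, Submodule.coe_sum]
  refine Finset.sum_congr rfl fun i _ => ?_
  rw [Function.comp_apply, ← map_smul, av_apply, C.av, finsum_eq_sum_of_fintype, Submodule.coe_sum]
  refine Finset.sum_congr rfl fun g _ => ?_
  obtain ⟨g', hg⟩ : ∃ g', g' = g.out := ⟨_, rfl⟩
  rw [← hg]
  obtain rfl : g = g' := by rw [hg, QuotientGroup.out_eq']
  rw [hc]
  exact congrArg (· • _) ((hy i).2.2.2.2 ⟨g'⁻¹ • a.toMul.1.1, hst _ _ a.toMul.1.2⟩).symm

end Crest.Agent.T15.Tw
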