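import Crest.Agent.T15.Zer0_7

/-!
# Row 15, block C (helper6): everywhere unramified classes that are trivial above `M` vanish
-/

set_option autoImplicit false

noncomputable section

namespace Crest.Agent.T15.C

open NumberField IsDedekindDomain Crest.Agent.R018.Placesx484 Crest.Agent.T15.Ps
  Crest.Agent.T15.Art Crest.Agent.T15.Ex
open scoped nonZeroDivisors

theorem evI_eq_one {K : Type*} [Field K] [NumberField K] {A : Type*} [CommGroup A]
    (f : Pr K → A) (I : Ideal (𝓞 K)) (h : ∀ w : Pr K, w.asIdeal ∣ I → f w = 1) (hI : I ≠ ⊥) :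
    evI f I = 1 := by
  induction I using UniqueFactorizationMonoid.induction_on_prime with
  | h₁ => exact absurd rfl hI
  | h₂ I hu => rw [Ideal.isUnit_iff.1 hu, evI_top]
  | h₃ I P hI0 hP ih =>
    let W : Pr K := ⟨P, Ideal.isPrime_of_prime hP, hP.ne_zero⟩
    rw [evI_mul _ hP.ne_zero hI0, ih (fun w hw => h w (hw.mul_left _)) hI0, mul_one]
    exact (evI_prime f W).trans (h W (dvd_mul_right _ _))

/-- the primes dividing a suitable `M` generate the class group -/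
theorem exists_gen (K : Type*) [Field K] [NumberField K] :
    ∃ M : ℕ, M ≠ 0 ∧ ∀ (A : Type) [CommGroup A] (f : Pr K → A), (∀ a : Kˣ, ev f a = 1) →
      (∀ w : Pr K, (M : 𝓞 K) ∈ w.asIdeal → f w = 1) → ∀ w, f w = 1 := by
  classical
  choose J hJ using ClassGroup.mk0_surjective (R := 𝓞 K)
  refine ⟨∏ C : ClassGroup (𝓞 K), Ideal.absNorm (J C : Ideal (𝓞 K)),
    Finset.prod_ne_zero_iff.2 fun C _ => ?_, fun A _ f ha hM w => ?_⟩
  · exact mt Ideal.absNorm_eq_zero_iff.1 (nonZeroDivisors.coe_ne_zero (J C))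
  · let W : (Ideal (𝓞 K))⁰ := ⟨w.asIdeal, mem_nonZeroDivisors_of_ne_zero w.ne_bot⟩
    obtain ⟨x, hx, h⟩ := ClassGroup.mk0_eq_mk0_inv_iff.1 (hJ (ClassGroup.mk0 W)⁻¹)
    have h0 := nonZeroDivisors.coe_ne_zero (J (ClassGroup.mk0 W)⁻¹)
    have h1 := ev_int f (Units.mk0 (x : K) (by exact_mod_cast hx)) x rfl
    rw [ha, ← h, evI_mul f h0 w.ne_bot, evI_prime, evI_eq_one f _ (fun v hv => hM v ?_) h0,
      one_mul] at h1
    · exact h1.symm
    · obtain ⟨m, hm⟩ := Finset.dvd_prod_of_mem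
        (fun C : ClassGroup (𝓞 K) => Ideal.absNorm (J C : Ideal (𝓞 K)))
        (Finset.mem_univ (ClassGroup.mk0 W)⁻¹)
      rw [hm, Nat.cast_mul]
      exact Ideal.mul_mem_right _ _ (Ideal.le_of_dvd hv (Ideal.absNorm_mem _))

theorem zero2 (hA : ArtStmt) {k : Type} [Field k] [CharP k 3] {ρ : Gam →* M2 k} (h : Hyp ρ) :
    ∃ M : ℕ, M ≠ 0 ∧ 3 ∣ M ∧ ∀ c, Cls ρ c → (∀ P : Place Om, P.rchar ∣ M → Triv ρ c (De P)) →
      (∀ P : Place Om, Triv ρ c (In P)) → Triv ρ c ⊤ := by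
  have := nf_Kf h.opn
  have := tc_Kf h
  obtain ⟨M, hM, H⟩ := exists_gen (Kf ρ)
  refine ⟨3 * M, by omega, dvd_mul_right _ _, fun c hc hD hI n _ hn => ?_⟩
  obtain ⟨f, hf1, hf⟩ := exists_av ∅ (hc.xi h.opn) fun P _ g hg =>
    congrArg Multiplicative.ofAdd (hI P _ ((rs_inertia g P).2 hg) (rho_rs h.opn g))
  have h1 := H _ f (fun a => artin_av hA (hc.xi_open h.opn) three_ne_zero (hc.xi_pow h.opn) hf1 hf a
    (by simp)) fun w hw => by
      obtain ⟨P, rfl⟩ := exists_pr (E := Om) w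
      obtain ⟨φ, hφ⟩ := exists_isF (K := Kf ρ) P
      rw [← hf P (by simp) φ hφ]
      have hP : P.rchar ∣ M := by
        rw [← Place.natCast_mem_iff, ← map_natCast (algebraMap (𝓞 (Kf ρ)) (𝓞 Om))]
        exact (Place.mem_res _ P _).1 hw
      exact congrArg Multiplicative.ofAdd (hD P (hP.mul_left 3) _
        ((rs_place φ P).trans hφ.smul_eq) (rho_rs h.opn φ))
  obtain ⟨g, rfl⟩ := exists_rs_Kf h.opn hn
  obtain ⟨P, φ, h2, h3, h4⟩ := cheb_av (hc.xi h.opn) (hc.xi_open h.opn) ∅ g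
  rw [hf P h2 φ h3, h1] at h4
  exact h4.symm

end Crest.Agent.T15.C
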