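import Crest.Agent.T15.Zer3_7
import Crest.Agent.T15.Zer2_6
import Crest.Agent.T15.TwAsm_16
import Crest.Agent.T15.EqUE_16
import Crest.Agent.T15.TwSel_6
import Crest.Agent.T15.Art_34

/-!
# Row 15, block C: `ZeroStmt` and `TWStmt` from the tame reciprocity law
-/

set_option autoImplicit false

namespace Crest.Agent.T15.Zr

open Crest.Agent.T15.C

theorem zeroStmt (hT : TameStmt) : ZeroStmt := fun _ _ _ _ _ h =>
  let ⟨M, h0, h3, H⟩ := zero2 Art.artin h
  ⟨M, h0, h3, fun _ _ _ hQ hi c hc hD hI => H c hc hD (zero1 Art.artin hT h h0 hQ hi hc hD hI)⟩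

theorem twStmt (hT : TameStmt) : TWStmt :=
  TwAsm.twStmt_of EqU.eqStmt Tw.selStmt unrStmt (zeroStmt hT)

end Crest.Agent.T15.Zr
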