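import Crest.Agent.T15.TopE_88
import Crest.Agent.T15.FAll_67
import Crest.Agent.T15.HtG_4
import Crest.Agent.T15.JcG_28
import Crest.Agent.T15.KfX_23
import Crest.Agent.T15.Gal_31
import Crest.Agent.T15.End_55
import Crest.Agent.T15.SmB_98
import Crest.Agent.T15.Dep_98
import Crest.Agent.T15.Per_98
import Crest.Agent.T15.StabC_17
import Crest.Agent.T15.Ig_61
import Crest.Agent.T15.BetDvd_91
import Crest.Agent.T15.TG_10
import Crest.Agent.T15.TFl_71
import Crest.Agent.T15.HkTO_62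
import Crest.Agent.T15.EscY_12
import Crest.Agent.T15.Jm_16
import Crest.Agent.T15.RtG_22
import Crest.Agent.T15.Scal_53
import Crest.Agent.T15.BetAct_91
import Crest.Agent.T15.Tw_73
import Crest.Agent.T15.VsC_48
import Crest.Agent.T15.HonC_54
import Crest.Agent.T15.EbD_64
import Crest.Agent.T15.HonZ_74
import Crest.Agent.T15.RatZ_42
import Crest.Agent.T15.FrmZ_90
import Crest.Agent.T15.Mat_16
import Crest.Agent.T15.Irr_66
import Crest.Agent.T15.BrG_37
import Crest.Agent.T15.Cv_53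
import Crest.Agent.T15.Arch_58
import Crest.Agent.T15.Cy_10
import Crest.Agent.T15.Bad_93
import Crest.Agent.T15.RA_78
import Crest.Agent.T15.Zer_7

/-!
# Row 15: everything but the primes in progressions and the last leaves (helper88)
-/

set_option autoImplicit false

noncomputable section

namespace Crest.Agent.T15.Top

theorem escOut_88 : R.EscOut Hk.lv :=
  EscO.escOut_of EscO.esSurj Hk.H0 (fun _ h _ => Hk.mem_H0 h) _ fun _ _ hp => Lv.Tc_val _ hp

theorem flat_88 : TD.FlatStmt := fun _ _ _ L M _ hM h4 hH h3 _ _ _ _ _ _ _ _ _ hm hj hp hu =>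
  have : NeZero M := ⟨hM⟩
  TFl.flat_par Ig.igStmt Bet.dvdStmt L h4 hH h3 hm hj hp hu

theorem act_88 : TD.ActStmt := fun ι _ _ hM h4 hH n _ O A _ _ _ _ hm =>
  Bet.exists_act ι hM h4 (fun _ hu => (Hk.mem_H0 h4).1 (hH hu)) n O A hm

theorem inj_88 : TD.InjStmt := fun ι M _ hM h4 hH _ _ P hP =>
  have : NeZero M := ⟨hM⟩
  Cg.inj_plc Bet.dvdStmt Ig.igStmt h4 (fun _ hu => (Hk.mem_H0 h4).1 (hH hu)) ι P
    (fun h => hP (h.mul_left _)) fun h => hP (h.mul_right _)

theorem ht_88 (del : ℚ) : HtStmt (Ht.Lk del) :=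
  have hF := Ht.frmStmt_mat Ht.matStmt
  Ht.htGlue del Ht.galStmt SmB.intStmt_98 (RatZ.ratStmt_of Vs.vsStmt Ht.omStmt hF Hon.congStmt)
    SmB.smStmt_98
    (Hon.hondaStmt_of Hon.badStmt Ht.omStmt (Hon.tri_of Vs.vsStmt hF Hon.congStmt)
      fun _ _ _ _ P M Q e _ => Ht.ebStmt P M Q e)
    (Ht.jcGlue KfJ.exStmt Ht.galStmt Ht.moStmt Ht.matStmt Ht.endStmt Ht.irrStmt) Ht.depStmt
    Br.brStmt Ht.perStmt Stab.stabStmt Ht.scalStmt Ht.valStmt (Cv53.covStmt del) Ht.archStmt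

theorem finB (hA : PrAP.APStmt) : ¬ ComputablePred Crest.NumberTheoryR.PolyCode.HasRatZero :=
  final2 (Lk := Ht.Lk 1) (D := Ar.nb 1 one_pos 1 one_pos (by decide)) hA
    (fun ι P h3 L => FA.fStmt_of KfJ.exStmt Ht.galStmt FA.wqStmt FA.unrStmt FA.ramStmt one_pos
      one_pos (by decide) ι P h3 L)
    (ht_88 1) R.rStmt_78 (Zr.zeroStmt (Tame.tameStmt Art.artin))
    (fun ι P h3 L => Hk.tOut_of
      (TD.galStmt act_88 inj_88 flat_88 TD.cyStmt (TD.twStmt act_88 inj_88) ι P h3 L)) escOut_88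

end Crest.Agent.T15.Top
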