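import Crest.Agent.T15.PrAP_15
import Crest.Agent.S0068

/-! # Row 15, block L: `APStmt` is `S0068` (helper15) -/

namespace Crest.Agent.T15.PrAP

theorem apStmt : APStmt := Crest.Agent.S0068.result

end Crest.Agent.T15.PrAP
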