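import Crest.Agent.T15.HonDef_54

/-!
# Row 15, block Ht (helper82): Abel's differential theorem (`AbelStmt`) and linearity (`LinStmt`)
-/

set_option autoImplicit false
set_option linter.all false

noncomputable section

namespace Crest.Agent.T15.Hon

open WithZero TensorProduct
open Crest.Agent.R013.RR7_948 Crest.Agent.R013.RR8_948 Crest.Agent.R013.RR9_948
open Crest.Agent.R013.RR11_948 Crest.Agent.R013.RR12_948
open Crest.Agent.R013.RR14_948 Crest.Agent.R013.RR17_948 Crest.Agent.R013.RR26_948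
open Crest.Agent.R013.RR29_948
open Crest.Agent.T15.Disc
open Crest.Agent.R013.CE2_280 Crest.Agent.R013.CE3_280 Crest.Agent.R013.CE5_280
open Crest.Agent.R013.CE7_280

section chain

variable {C K M : Type*} [Field C] [Field K] [Algebra C K] [Algebra (RatFunc C) K]
  [IsScalarTower C (RatFunc C) K] [Algebra.IsSeparable (RatFunc C) K] [Field M] [Algebra C M]

/-- the chain rule for a derivation along an embedding -/
theorem chain_82 (φ : K →ₐ[C] M) (δ : Derivation C M M) (y : K) :
    δ (φ y) = φ (del C K y) * δ (φ (xK C K)) := by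
  letI : Algebra K M := φ.toRingHom.toAlgebra
  haveI : IsScalarTower C K M := IsScalarTower.of_algebraMap_eq fun c => (φ.commutes c).symm
  have h1 := congrArg (δ.compAlgebraMap K).liftKaehlerDifferential (D_eq C K y)
  rw [map_smul, Derivation.liftKaehlerDifferential_comp_D,
    Derivation.liftKaehlerDifferential_comp_D, Algebra.smul_def] at h1
  exact h1

end chain

section main

variable {C K Ω L : Type*} [Field C] [IsAlgClosed C] [Field K] [Algebra C K]
  [Algebra (RatFunc C) K] [IsScalarTower C (RatFunc C) K] [FiniteDimensional (RatFunc C) K]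
  [Algebra.IsSeparable (RatFunc C) K] [Field Ω] [Algebra C Ω] [IsAlgClosed Ω]
  [Field L] [Algebra Ω L] [Algebra C L] [IsScalarTower C Ω L]
  [Algebra (RatFunc Ω) L] [IsScalarTower Ω (RatFunc Ω) L] [FiniteDimensional (RatFunc Ω) L]
  [Algebra.IsSeparable (RatFunc Ω) L] {ι : K →ₐ[C] L}

/-- values at a constant place are constants -/
theorem ev_conP (hι : IsCE Ω ι) (P : Pl C K) (y : K) :
    ev (conP hι P) (ι y) = algebraMap C Ω (ev P y) := by
  have hO := conP_Over hι P
  by_cases hy : P.v y ≤ 1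
  · apply ev_eq
    have h1 := hO.2 _ (ev_spec P hy)
    rwa [map_sub, AlgHom.commutes, IsScalarTower.algebraMap_apply C Ω L] at h1
  · have h2 : ¬ (conP hι P).v (ι y) ≤ 1 := by rwa [hO.v_iota hι]
    unfold Disc.ev
    rw [dif_neg h2, dif_neg hy, map_zero]

/-- values at a generic point -/
theorem ev_plQ (hι : IsCE Ω ι) (Q : K →ₐ[C] Ω) (y : K) : ev (plQ hι Q) (ι y) = Q y :=
  ev_eq _ (plQ_At hι Q y)

theorem lam_conP (hι : IsCE Ω ι) (d : Derivation C Ω Ω) (h y : K) (P : Pl C K) (n : ℤ) :
    lam d (ι h) (ι y) (Finsupp.single (conP hι P) n) = 0 := by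
  rw [lam_single, ev_conP hι P y, Derivation.map_algebraMap, mul_zero, mul_zero]

theorem lam_plQ (hι : IsCE Ω ι) (d : Derivation C Ω Ω) (h y : K) (Q : K →ₐ[C] Ω) (n : ℤ) :
    lam d (ι h) (ι y) (Finsupp.single (plQ hι Q) n) =
      n * (Q (h * del C K y) * d (Q (xK C K))) := by
  rw [lam_single, ev_plQ, ev_plQ, chain_82 Q d y, map_mul]
  ring

theorem lam_base (hι : IsCE Ω ι) (d : Derivation C Ω Ω) (h y : K) (D : Pl C K →₀ ℤ) :
    lam d (ι h) (ι y) (base hι D) = 0 := by
  induction D using Finsupp.induction_linear with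
  | zero => simp
  | add a b ha hb => rw [map_add, map_add, ha, hb, add_zero]
  | single P n => rw [base_single, lam_conP]

theorem lam_lin (hι : IsCE Ω ι) (d : Derivation C Ω Ω) {I : Type*} (s : Finset I) (c : I → C)
    (h y : I → K) (h0 : ∑ i ∈ s, c i • (h i * del C K (y i)) = 0) (D : Pl Ω L →₀ ℤ) :
    ∑ i ∈ s, algebraMap C Ω (c i) * lam d (ι (h i)) (ι (y i)) D = 0 := by
  induction D using Finsupp.induction_linear with
  | zero => simp
  | add a b ha hb => simp only [map_add, mul_add, Finset.sum_add_distrib, ha, hb, add_zero]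
  | single w n =>
    rcases cases hι w with ⟨P, rfl⟩ | ⟨Q, rfl⟩
    · simp only [lam_conP, mul_zero, Finset.sum_const_zero]
    · have h1 := congrArg Q h0
      rw [map_sum, map_zero] at h1
      simp only [lam_plQ]
      have h2 : ∑ i ∈ s, algebraMap C Ω (c i) * (n * (Q (h i * del C K (y i)) * d (Q (xK C K)))) =
          n * d (Q (xK C K)) * ∑ i ∈ s, Q (c i • (h i * del C K (y i))) := by
        rw [Finset.mul_sum]
        refine Finset.sum_congr rfl fun i _ => ?_
        rw [map_smul, Algebra.smul_def]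
        ring
      rw [h2, h1, mul_zero]

theorem del_iota (hx : xK Ω L = ι (xK C K)) (y : K) : del Ω L (ι y) = ι (del C K y) := by
  have h1 := chain_82 ι ((del Ω L).restrictScalars C) y
  rw [Derivation.restrictScalars_apply, Derivation.restrictScalars_apply, ← hx, del_xK,
    mul_one] at h1
  exact h1

variable [CharZero C]

theorem canD_conP (hι : IsCE Ω ι) (hx : xK Ω L = ι (xK C K)) (P : Pl C K) :
    canD Ω L (conP hι P) = canD C K P := by
  haveI : CharZero Ω := charZero_of_injective_algebraMap (algebraMap C Ω).injective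
  obtain ⟨t, _, ht⟩ := exists_v_eq P (-1)
  have hO := conP_Over hι P
  have h1 := v_del_eq P ht
  have h2 := v_del_eq (conP hι P) (t := ι t) (by rw [hO.v_iota hι, ht])
  rw [del_iota hx, hO.v_iota hι, h1, exp_inj] at h2
  exact h2.symm

omit [CharZero C] in
theorem del_pi (hx : xK Ω L = ι (xK C K)) (a : Ω) : del Ω L (mu ι (piT C K a)) = 1 := by
  rw [piT, map_sub, mu_tmul, mu_tmul, map_one, map_one, one_mul, mul_one, map_sub, ← hx, del_xK,
    Derivation.map_algebraMap, sub_zero]

theorem canD_plQ (hι : IsCE Ω ι) (hx : xK Ω L = ι (xK C K)) (Q : K →ₐ[C] Ω) :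
    canD Ω L (plQ hι Q) = 0 := by
  haveI : CharZero Ω := charZero_of_injective_algebraMap (algebraMap C Ω).injective
  have h2 := v_del_eq (plQ hι Q) ((plQ_At hι Q).v_pi hι)
  rw [del_pi hx, map_one, ← exp_zero, exp_inj] at h2
  exact h2.symm

/-- **Abel's differential theorem** -/
theorem lam_divf (hι : IsCE Ω ι) (hx : xK Ω L = ι (xK C K)) (d : Derivation C Ω Ω) (h y : K)
    (hg : h * del C K y ∈ LD (canD C K)) {f : L} (hf : f ≠ 0) :
    lam d (ι h) (ι y) (divf f) = 0 := by
  classical
  haveI : CharZero Ω := charZero_of_injective_algebraMap (algebraMap C Ω).injective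
  obtain ⟨D, hD⟩ := exists_ext hι d
  set g := h * del C K y with hgdef
  rw [mem_LD] at hg
  have hcon : ∀ P : Pl C K, (conP hι P).v (ι g * (D f / f)) ≤ exp (canD Ω L (conP hι P)) := by
    intro P
    have hO := conP_Over hι P
    rw [map_mul, canD_conP hι hx, hO.v_iota hι]
    calc _ ≤ exp (canD C K P) * 1 := mul_le_mul' (hg P) (dlog_Over hι hD hO hf)
      _ = _ := mul_one _
  have hgQ : ∀ Q : K →ₐ[C] Ω, (plQ hι Q).v (ι g) ≤ 1 := fun Q =>
    v_le_of_sub_lt _ (plQ_At hι Q g)
  have hsum := sum_res (k := Ω) (ι g * (D f / f)) (divf (k := Ω) f).support (by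
    intro w hw
    rcases cases hι w with ⟨P, rfl⟩ | ⟨Q, rfl⟩
    · exact hcon P
    · rw [Finsupp.notMem_support_iff] at hw
      have h1 : (plQ hι Q).v f = 1 := by rw [v_eq (k := Ω) hf, hw, neg_zero, exp_zero]
      rw [map_mul, canD_plQ hι hx, exp_zero]
      exact mul_le_one' (hgQ Q) (dlog_At_le_one hι hD (plQ_At hι Q) hf (Or.inl h1)))
  have hterm : ∀ w : Pl Ω L, res w (ι g * (D f / f)) =
      -lam d (ι h) (ι y) (Finsupp.single w (divf (k := Ω) f w)) := by
    intro w
    rcases cases hι w with ⟨P, rfl⟩ | ⟨Q, rfl⟩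
    · rw [res_of_le (hcon P), lam_conP, neg_zero]
    · have hA := plQ_At hι Q
      set n := divf (k := Ω) f (plQ hι Q) with hn
      set π := mu ι (piT C K (Q (xK C K))) with hπ
      have h1 := dlog_At hι hD hA hf (k := n) (v_eq (k := Ω) hf _)
      have h2 : res (plQ hι Q) (ι g * (D f / f)) =
          res (plQ hι Q) ((-(n * d (Q (xK C K))) : Ω) • (ι g * (del Ω L π / π))) := by
        apply res_congr
        have h3 : ι g * (D f / f) - (-(n * d (Q (xK C K))) : Ω) • (ι g * (del Ω L π / π)) =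
            ι g * (D f / f - n * (D π / π)) := by
          rw [hπ, hD.pi, del_pi hx, Algebra.smul_def, map_neg, map_mul (algebraMap Ω L),
            map_intCast]
          ring
        rw [h3, map_mul, canD_plQ hι hx, exp_zero]
        exact mul_le_one' (hgQ Q) h1
      rw [h2, map_smul, res_mul_dlog (plQ hι Q) (hA g) (n := 1) (hA.v_pi hι), lam_plQ, smul_eq_mul]
      push_cast
      ring
  have h4 : lam d (ι h) (ι y) (divf f) =
      ∑ w ∈ (divf (k := Ω) f).support, lam d (ι h) (ι y) (Finsupp.single w (divf (k := Ω) f w)) := by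
    conv_lhs => rw [← Finsupp.sum_single (divf (k := Ω) f), Finsupp.sum, map_sum]
  rw [h4, ← neg_eq_zero, ← Finset.sum_neg_distrib, ← hsum]
  exact Finset.sum_congr rfl fun w _ => (hterm w).symm

end main

theorem abelStmt : AbelStmt := by
  intro C K Ω L _ _ _ _ _ _ _ _ _ _ _ _ _ _ _ _ _ _ _ _ ι hι hx d h y
  exact ⟨lam_base hι d h y, fun hg f hf => lam_divf hι hx d h y hg hf⟩

theorem linStmt : LinStmt := by
  intro C K Ω L _ _ _ _ _ _ _ _ _ _ _ _ _ _ _ _ _ _ _ _ ι hι d I s c h y h0 D
  exact lam_lin hι d s c h y h0 D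

end Crest.Agent.T15.Hon
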