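import Crest.Agent.R272.AJi_956

/-!
# Row 15, AJ (helper55), part A: the Abel-Jacobi map of a genus two curve with values in `ℂ² / Λ`

* `AJ 𝒞 Λ a` : `a : C → ℂ² ⧸ Λ` is locally `∫ ω`, odd, and `(c, c') ↦ a c + a c'` is the quotient by
  the swap and by the contraction of the hyperelliptic pencil; `exists_AJ`;
* `liou` : a holomorphic map `P¹ → E ⧸ Λ` is constant;
* `fibre_loc` : the sum of `a` over the fibres of a meromorphic function, locally.
-/

set_option autoImplicit false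
set_option linter.all false

open Set Filter Topology Metric
open Crest.Agent.R272.AJ_956 Crest.Agent.R272.AJd_956 Crest.Agent.R272.AJh_956
open Crest.Agent.R272.AJd_956.Basic

noncomputable section

namespace Crest.Agent.T15.Aj

section quot

variable {C : Type} [TopologicalSpace C] (𝒞 : Cur C)

/-- the relation: swap, and contraction of the graph of the involution -/
def rel : Setoid (C × C) where
  r x x' := x' = x ∨ x' = x.swap ∨ (x ∈ 𝒞.Gam ∧ x' ∈ 𝒞.Gam)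
  iseqv := by
    refine ⟨fun x => Or.inl rfl, ?_, ?_⟩
    · rintro x y (h | h | h)
      · exact Or.inl h.symm
      · exact Or.inr (Or.inl (by rw [h, Prod.swap_swap]))
      · exact Or.inr (Or.inr ⟨h.2, h.1⟩)
    · rintro x y z (h | h | h) (h' | h' | h')
      · exact Or.inl (h'.trans h)
      · exact Or.inr (Or.inl (by rw [h', h]))
      · exact Or.inr (Or.inr ⟨h ▸ h'.1, h'.2⟩)
      · exact Or.inr (Or.inl (h'.trans h))
      · exact Or.inl (by rw [h', h, Prod.swap_swap])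
      · refine Or.inr (Or.inr ⟨?_, h'.2⟩)
        have := swap_mem_Gam 𝒞 h'.1
        rwa [h, Prod.swap_swap] at this
      · exact Or.inr (Or.inr ⟨h.1, h' ▸ h.2⟩)
      · exact Or.inr (Or.inr ⟨h.1, h' ▸ swap_mem_Gam 𝒞 h.2⟩)
      · exact Or.inr (Or.inr ⟨h.1, h'.2⟩)

theorem isQ_rel : 𝒞.IsQ (Quotient.mk (rel 𝒞)) where
  cont := continuous_quotient_mk'
  surj := Quotient.mk_surjective
  fib := fun x x' => Quotient.eq

theorem t2_rel [CompactSpace C] [T2Space C] : T2Space (Quotient (rel 𝒞)) := by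
  have hR : IsClosed {p : (C × C) × (C × C) | (rel 𝒞).r p.1 p.2} := by
    have h1 : IsClosed {p : (C × C) × (C × C) | p.2 = p.1} := isClosed_eq continuous_snd continuous_fst
    have h2 : IsClosed {p : (C × C) × (C × C) | p.2 = p.1.swap} :=
      isClosed_eq continuous_snd (continuous_swap.comp continuous_fst)
    have h3 : IsClosed {p : (C × C) × (C × C) | p.1 ∈ 𝒞.Gam ∧ p.2 ∈ 𝒞.Gam} :=
      ((isClosed_Gam 𝒞).preimage continuous_fst).inter ((isClosed_Gam 𝒞).preimage continuous_snd)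
    exact h1.union (h2.union h3)
  have hq : IsQuotientMap (Quotient.mk (rel 𝒞)) := isQuotientMap_quotient_mk'
  have hcl : IsClosedMap (Quotient.mk (rel 𝒞)) := by
    intro F hF
    rw [← hq.isClosed_preimage]
    have e : Quotient.mk (rel 𝒞) ⁻¹' (Quotient.mk (rel 𝒞) '' F) =
        Prod.snd '' ({p : (C × C) × (C × C) | (rel 𝒞).r p.1 p.2} ∩ Prod.fst ⁻¹' F) := by
      ext x
      constructor
      · rintro ⟨y, hy, h⟩
        exact ⟨(y, x), ⟨Quotient.exact h, hy⟩, rfl⟩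
      · rintro ⟨p, ⟨h1, h2⟩, rfl⟩
        exact ⟨p.1, h2, Quotient.sound h1⟩
    rw [e]
    exact ((hR.inter (hF.preimage continuous_fst)).isCompact.image continuous_snd).isClosed
  have hp : IsProperMap (Quotient.mk (rel 𝒞)) := by
    rw [isProperMap_iff_isClosedMap_and_compact_fibers]
    refine ⟨hq.continuous, hcl, fun y => ?_⟩
    obtain ⟨x, rfl⟩ := Quotient.mk_surjective y
    have e : Quotient.mk (rel 𝒞) ⁻¹' {Quotient.mk (rel 𝒞) x} =
        (fun y => (y, x)) ⁻¹' {p : (C × C) × (C × C) | (rel 𝒞).r p.1 p.2} := by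
      ext y
      exact Quotient.eq
    rw [e]
    exact (hR.preimage (by fun_prop)).isCompact
  have hp2 := (hp.prodMap hp).isClosedMap _ hR
  rw [t2_iff_isClosed_diagonal]
  convert hp2 using 1
  ext p
  constructor
  · intro h
    obtain ⟨x, hx⟩ := Quotient.mk_surjective p.1
    refine ⟨(x, x), (rel 𝒞).refl x, ?_⟩
    exact Prod.ext hx (hx.trans h)
  · rintro ⟨x, hx, rfl⟩
    exact Quotient.sound hx

/-- the Abel-Jacobi map -/
structure AJ (Λ : AddSubgroup E2) (a : C → E2 ⧸ Λ) : Prop where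
  disc : DiscreteTopology Λ
  span : Submodule.span ℝ (Λ : Set E2) = ⊤
  loc : ∀ c, ∀ᶠ y in 𝓝 c, a y = a c + ((𝒞.P c y : E2) : E2 ⧸ Λ)
  iv : ∀ c, a (𝒞.iv c) = -a c
  surj : ∀ z, ∃ c c', a c + a c' = z
  inj : ∀ c₁ c₂ c₃ c₄, a c₁ + a c₂ = a c₃ + a c₄ →
    (c₃ = c₁ ∧ c₄ = c₂) ∨ (c₃ = c₂ ∧ c₄ = c₁) ∨ (c₂ = 𝒞.iv c₁ ∧ c₄ = 𝒞.iv c₃)

theorem exists_AJ [CompactSpace C] [T2Space C] [ConnectedSpace C] (W : C) (hW : 𝒞.iv W = W) :
    ∃ (Λ : AddSubgroup E2) (a : C → E2 ⧸ Λ), AJ 𝒞 Λ a := by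
  haveI := t2_rel 𝒞
  have hq := isQ_rel 𝒞
  obtain ⟨Λ, π, J⟩ := exists_jac hq
  set q := Quotient.mk (rel 𝒞) with hqdef
  choose s hs using fun x : C × C => J.surj (q x)
  have hmk : ∀ z w : E2, π z = π w ↔ (z : E2 ⧸ Λ) = w := by
    intro z w
    rw [J.eq_iff, QuotientAddGroup.eq_iff_sub_mem]
  let B : C × C → E2 ⧸ Λ := fun x => (s x : E2 ⧸ Λ)
  have hB : ∀ x, ∀ᶠ y in 𝓝 x, B y = B x + ((𝒞.P x.1 y.1 : E2) : E2 ⧸ Λ) +
      ((𝒞.P x.2 y.2 : E2) : E2 ⧸ Λ) := by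
    intro x
    filter_upwards [J.loc x (s x) (hs x)] with y hy
    rw [← hs y, hmk] at hy
    show (s y : E2 ⧸ Λ) = _
    rw [hy, QuotientAddGroup.mk_add, QuotientAddGroup.mk_add, add_assoc]
  have hBq : ∀ x x', B x = B x' ↔ q x = q x' := by
    intro x x'
    rw [← hs x, ← hs x', hmk]
  have hB0 : ∀ c, B (c, 𝒞.iv c) = 0 := by
    intro c
    have h1 : π (s (c, 𝒞.iv c)) = π 0 := by rw [hs, J.zero c]
    exact (hmk _ _).1 h1
  let a : C → E2 ⧸ Λ := fun c => B (c, W)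
  have ha : ∀ c, ∀ᶠ y in 𝓝 c, a y = a c + ((𝒞.P c y : E2) : E2 ⧸ Λ) := by
    intro c
    have t : Tendsto (fun y : C => ((y, W) : C × C)) (𝓝 c) (𝓝 (c, W)) :=
      (by fun_prop : Continuous fun y : C => ((y, W) : C × C)).tendsto c
    filter_upwards [t.eventually (hB (c, W))] with y hy
    show B (y, W) = B (c, W) + _
    rw [hy]
    simp only [P_self, QuotientAddGroup.mk_zero, add_zero]
  have haW : a W = 0 := by
    have := hB0 W
    rwa [hW] at this
  have hsum : ∀ x : C × C, B x = a x.1 + a x.2 := by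
    have hlc : IsLocallyConstant (fun x : C × C => B x - a x.1 - a x.2) := by
      rw [IsLocallyConstant.iff_eventually_eq]
      intro x
      filter_upwards [hB x, (continuous_fst.tendsto x).eventually (ha x.1),
        (continuous_snd.tendsto x).eventually (ha x.2)] with y h1 h2 h3
      rw [h1, h2, h3]
      abel
    intro x
    have h1 := hlc.apply_eq_of_preconnectedSpace x (W, W)
    have h2 : B (W, W) = 0 := haW
    simp only [h2, haW, sub_zero] at h1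
    rw [sub_sub, sub_eq_zero] at h1
    exact h1
  refine ⟨Λ, a, J.disc, J.span, ha, fun c => ?_, fun z => ?_, fun c₁ c₂ c₃ c₄ h => ?_⟩
  · have h1 := hsum (c, 𝒞.iv c)
    rw [hB0] at h1
    exact eq_neg_of_add_eq_zero_right h1.symm
  · obtain ⟨z, rfl⟩ := QuotientAddGroup.mk_surjective z
    obtain ⟨x, hx⟩ := hq.surj (π z)
    refine ⟨x.1, x.2, ?_⟩
    rw [← hsum x]
    exact (hmk _ _).1 ((hs x).trans hx)
  · have h1 : B (c₁, c₂) = B (c₃, c₄) := by rw [hsum, hsum]; exact h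
    rw [hBq, hq.fib] at h1
    rcases h1 with h1 | h1 | h1
    · exact Or.inl ⟨congrArg Prod.fst h1, congrArg Prod.snd h1⟩
    · exact Or.inr (Or.inl ⟨congrArg Prod.fst h1, congrArg Prod.snd h1⟩)
    · exact Or.inr (Or.inr ⟨h1.1, h1.2⟩)

end quot

section liou

variable {E : Type} [NormedAddCommGroup E] [NormedSpace ℂ E] [CompleteSpace E]

omit [NormedSpace ℂ E] [CompleteSpace E] in
theorem exists_gap (Λ : AddSubgroup E) (hd : DiscreteTopology Λ) :
    ∃ δ > 0, ∀ v ∈ Λ, ‖v‖ < δ → v = 0 := by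
  have h0 : ({(0 : Λ)} : Set Λ) ∈ 𝓝 (0 : Λ) := by
    rw [discreteTopology_iff_singleton_mem_nhds] at hd
    exact hd 0
  rw [Metric.mem_nhds_iff] at h0
  obtain ⟨ε, hε, hb⟩ := h0
  refine ⟨ε, hε, fun v hv hlt => ?_⟩
  have : (⟨v, hv⟩ : Λ) ∈ ball (0 : Λ) ε := by
    rw [mem_ball, dist_zero_right]
    exact hlt
  have h2 := hb this
  rw [mem_singleton_iff] at h2
  exact congrArg Subtype.val h2

omit [NormedSpace ℂ E] [CompleteSpace E] in
/-- two lifts that agree modulo `Λ` and at the limit agree -/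
theorem ev_eq_of_mk_eq {α : Type*} {l : Filter α} (Λ : AddSubgroup E) (hd : DiscreteTopology Λ)
    {f g : α → E} {z : E} (hf : Tendsto f l (𝓝 z)) (hg : Tendsto g l (𝓝 z))
    (h : ∀ᶠ x in l, (f x : E ⧸ Λ) = g x) : f =ᶠ[l] g := by
  obtain ⟨δ, hδ, hgap⟩ := exists_gap Λ hd
  have h1 : Tendsto (fun x => f x - g x) l (𝓝 0) := by simpa using hf.sub hg
  have h2 : ∀ᶠ x in l, ‖f x - g x‖ < δ := by
    have := h1.norm
    rw [norm_zero] at this
    exact this.eventually (gt_mem_nhds hδ)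
  filter_upwards [h, h2] with x h3 h4
  exact sub_eq_zero.1 (hgap _ (QuotientAddGroup.eq_iff_sub_mem.1 h3) h4)

/-- a holomorphic map from the projective line to a torus is constant -/
theorem liou (Λ : AddSubgroup E) (hd : DiscreteTopology Λ) (S : ℂ → E ⧸ Λ) (Si : E ⧸ Λ)
    (h1 : ∀ l, ∃ H : ℂ → E, Tendsto H (𝓝 0) (𝓝 0) ∧ ∀ᶠ μ in 𝓝 (0 : ℂ), S (l + μ) = S l + H μ)
    (h2 : ∀ l₀ : ℂ, ∀ᶠ l in 𝓝[≠] l₀, ∃ H : ℂ → E, AnalyticAt ℂ H 0 ∧ H 0 = 0 ∧
      ∀ᶠ μ in 𝓝 (0 : ℂ), S (l + μ) = S l + H μ)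
    (h3 : ∃ H : ℂ → E, Tendsto H (𝓝 0) (𝓝 0) ∧ ∀ᶠ μ in 𝓝[≠] (0 : ℂ), S μ⁻¹ = Si + H μ) (l : ℂ) :
    S l = Si := by
  have cov : IsCoveringMap ((↑) : E → E ⧸ Λ) :=
    (AddSubgroup.isAddQuotientCoveringMap_of_comm Λ DiscreteTopology.isDiscrete).isCoveringMap
  have hmkc : Continuous ((↑) : E → E ⧸ Λ) := cov.continuous
  have tsub : ∀ l : ℂ, Tendsto (fun x : ℂ => x - l) (𝓝 l) (𝓝 0) := fun l => by
    simpa using (continuous_sub_right l).tendsto l
  have hS : Continuous S := by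
    rw [continuous_iff_continuousAt]
    intro l
    obtain ⟨H, hH, he⟩ := h1 l
    have t1 : Tendsto (fun x => S l + ((H (x - l) : E) : E ⧸ Λ)) (𝓝 l) (𝓝 (S l)) := by
      have := ((hmkc.tendsto 0).comp (hH.comp (tsub l))).const_add (S l)
      simpa using this
    refine t1.congr' ?_
    filter_upwards [(tsub l).eventually he] with x hx
    rw [← hx, add_sub_cancel]
  obtain ⟨z₀, hz₀⟩ := QuotientAddGroup.mk_surjective (S 0)
  obtain ⟨F, ⟨-, hF⟩, -⟩ := cov.existsUnique_continuousMap_lifts ⟨S, hS⟩ 0 z₀ hz₀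
  have hF' : ∀ x, (F x : E ⧸ Λ) = S x := fun x => congrFun hF x
  have hdiff : Differentiable ℂ F := by
    intro l₀
    refine (Complex.analyticAt_of_differentiable_on_punctured_nhds_of_continuousAt ?_
      F.continuous.continuousAt).differentiableAt
    filter_upwards [h2 l₀] with l hl
    obtain ⟨H, hH, hH0, he⟩ := hl
    have t1 : Tendsto (fun x => F l + H (x - l)) (𝓝 l) (𝓝 (F l)) := by
      have t2 : Tendsto H (𝓝 0) (𝓝 0) := by
        have := hH.continuousAt.tendsto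
        rwa [hH0] at this
      simpa using (t2.comp (tsub l)).const_add (F l)
    have e : (F : ℂ → E) =ᶠ[𝓝 l] fun x => F l + H (x - l) := by
      refine ev_eq_of_mk_eq Λ hd (F.continuous.tendsto l) t1 ?_
      filter_upwards [(tsub l).eventually he] with x hx
      rw [add_sub_cancel] at hx
      rw [QuotientAddGroup.mk_add, hF', hF', hx]
    refine DifferentiableAt.congr_of_eventuallyEq ?_ e
    refine DifferentiableAt.const_add _ ?_
    have : DifferentiableAt ℂ H (l - l) := by rw [sub_self]; exact hH.differentiableAt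
    exact this.comp l (f := fun x => x - l) (by fun_prop)
  obtain ⟨H, hH, he⟩ := h3
  obtain ⟨zi, hzi⟩ := QuotientAddGroup.mk_surjective Si
  obtain ⟨δ, hδ, hgap⟩ := exists_gap Λ hd
  -- far away, `F` is close to `zi + Λ`
  have far : ∀ ε > 0, ∃ R > 0, ∀ x : ℂ, R < ‖x‖ → ∃ v ∈ Λ, ‖F x - zi - v‖ < ε := by
    intro ε hε
    have t1 : ∀ᶠ μ in 𝓝 (0 : ℂ), ‖H μ‖ < ε := by
      have := hH.norm
      rw [norm_zero] at this
      exact this.eventually (gt_mem_nhds hε)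
    have t2 := he.and (t1.filter_mono nhdsWithin_le_nhds)
    rw [eventually_nhdsWithin_iff, Metric.eventually_nhds_iff] at t2
    obtain ⟨r, hr, h⟩ := t2
    refine ⟨r⁻¹, inv_pos.2 hr, fun x hx => ?_⟩
    have hx0 : 0 < ‖x‖ := (inv_pos.2 hr).trans hx
    have hx1 : x ≠ 0 := norm_pos_iff.1 hx0
    have h4 : dist x⁻¹ 0 < r := by
      rw [dist_zero_right, norm_inv]
      exact inv_lt_of_inv_lt₀ hr hx
    obtain ⟨h5, h6⟩ := h h4 (inv_ne_zero hx1)
    rw [inv_inv, ← hF', ← hzi, ← QuotientAddGroup.mk_add, QuotientAddGroup.eq_iff_sub_mem] at h5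
    refine ⟨_, h5, ?_⟩
    have : F x - zi - (F x - (zi + H x⁻¹)) = H x⁻¹ := by abel
    rwa [this]
  have hbd : Bornology.IsBounded (range F) := by
    obtain ⟨R, hR, h⟩ := far (δ / 2) (by positivity)
    let U : Set ℂ := {z | Real.log R < z.re}
    have hU : IsPreconnected U := (convex_halfSpace_re_gt _).isPreconnected
    have hUm : ∀ z ∈ U, R < ‖Complex.exp z‖ := by
      intro z hz
      rw [Complex.norm_exp]
      exact (Real.log_lt_iff_lt_exp hR).1 hz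
    have hc : Continuous fun z => F (Complex.exp z) - zi := by fun_prop
    have hI := hU.image _ hc.continuousOn
    let z₁ : ℂ := (Real.log R + 1 : ℝ)
    have hz₁ : z₁ ∈ U := by
      show Real.log R < z₁.re
      simp [z₁]
    obtain ⟨v₀, hv₀, hv₀'⟩ := h _ (hUm z₁ hz₁)
    have hsub : (fun z => F (Complex.exp z) - zi) '' U ⊆ ball v₀ (δ / 2) := by
      refine hI.subset_left_of_subset_union (v := ⋃ v ∈ {v | v ∈ Λ ∧ v ≠ v₀}, ball v (δ / 2))
        isOpen_ball (isOpen_biUnion fun _ _ => isOpen_ball) ?_ ?_ ?_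
      · rw [Set.disjoint_left]
        intro x hx hx'
        simp only [mem_iUnion] at hx'
        obtain ⟨v, ⟨hv, hne⟩, hx'⟩ := hx'
        apply hne
        refine sub_eq_zero.1 (hgap _ (Λ.sub_mem hv hv₀) ?_)
        rw [mem_ball, dist_eq_norm] at hx hx'
        calc ‖v - v₀‖ = ‖(x - v₀) - (x - v)‖ := by congr 1; abel
          _ ≤ ‖x - v₀‖ + ‖x - v‖ := norm_sub_le _ _
          _ < δ / 2 + δ / 2 := add_lt_add hx hx'
          _ = δ := by ring
      · rintro _ ⟨z, hz, rfl⟩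
        obtain ⟨v, hv, hv'⟩ := h _ (hUm z hz)
        by_cases hvv : v = v₀
        · left
          rw [mem_ball, dist_eq_norm, ← hvv]
          exact hv'
        · right
          simp only [mem_iUnion]
          exact ⟨v, ⟨hv, hvv⟩, by rw [mem_ball, dist_eq_norm]; exact hv'⟩
      · exact ⟨_, ⟨z₁, hz₁, rfl⟩, by rw [mem_ball, dist_eq_norm]; exact hv₀'⟩
    have b1 : Bornology.IsBounded (F '' closedBall 0 R) :=
      ((isCompact_closedBall 0 R).image F.continuous).isBounded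
    refine (b1.union (isBounded_ball (x := v₀ + zi) (r := δ / 2))).subset ?_
    rintro _ ⟨x, rfl⟩
    by_cases hx : ‖x‖ ≤ R
    · exact Or.inl ⟨x, by simpa using hx, rfl⟩
    · right
      have hx' : R < ‖x‖ := not_le.1 hx
      have hx0 : x ≠ 0 := norm_pos_iff.1 (hR.trans hx')
      have hm : Complex.log x ∈ U := by
        show Real.log R < (Complex.log x).re
        rw [Complex.log_re]
        exact Real.log_lt_log hR hx'
      have := hsub ⟨_, hm, rfl⟩
      simp only [Complex.exp_log hx0] at this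
      rw [mem_ball, dist_eq_norm] at this ⊢
      have e : F x - (v₀ + zi) = F x - zi - v₀ := by abel
      rwa [e]
  have hconst : ∀ x, F x = F l := fun x => hdiff.apply_eq_apply_of_bounded hbd x l
  have hcl : IsClosed (Λ : Set E) := AddSubgroup.isClosed_of_discrete
  have hmem : F l - zi ∈ Λ := by
    have : F l - zi ∈ closure (Λ : Set E) := by
      rw [Metric.mem_closure_iff]
      intro ε hε
      obtain ⟨R, hR, h⟩ := far ε hε
      obtain ⟨v, hv, hv'⟩ := h ((R + 1 : ℝ) : ℂ) (by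
        rw [Complex.norm_real, Real.norm_eq_abs, abs_of_pos (by linarith)]; linarith)
      rw [hconst] at hv'
      exact ⟨v, hv, by rwa [dist_eq_norm]⟩
    rwa [hcl.closure_eq] at this
  rw [← hF', ← hzi]
  exact QuotientAddGroup.eq_iff_sub_mem.2 hmem

end liou

section fibre

theorem exists_root_inv (e : ℕ) (he : e ≠ 0) {u : ℂ → ℂ} (hu : AnalyticAt ℂ u 0) (h0 : u 0 ≠ 0) :
    ∃ ψ ζ : ℂ → ℂ, AnalyticAt ℂ ψ 0 ∧ ψ 0 = 0 ∧
      ∀ᶠ s in 𝓝 (0 : ℂ), ζ (ψ s) = s ∧ ψ s ^ e * u (ψ s) = s ^ e := by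
  let r₀ : ℂ := u 0 ^ ((e : ℂ)⁻¹)
  have hr₀ : r₀ ^ e = u 0 := Complex.cpow_nat_inv_pow _ he
  have hr₀' : r₀ ≠ 0 := fun h => h0 (by rw [← hr₀, h, zero_pow he])
  let ρ : ℂ → ℂ := fun z => r₀ * Complex.exp (Complex.log (u z / u 0) / e)
  have hρ : AnalyticAt ℂ ρ 0 := by
    refine analyticAt_const.mul (AnalyticAt.cexp' (AnalyticAt.div ?_ analyticAt_const
      (by exact_mod_cast he)))
    refine AnalyticAt.clog (hu.div analyticAt_const h0) ?_
    rw [div_self h0]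
    exact Complex.one_mem_slitPlane
  have hρ0 : ρ 0 = r₀ := by simp [ρ, div_self h0]
  have hρe : ∀ z, u z ≠ 0 → ρ z ^ e = u z := by
    intro z hz
    have he' : (e : ℂ) ≠ 0 := by exact_mod_cast he
    simp only [ρ, mul_pow, hr₀]
    rw [← Complex.exp_nat_mul, mul_div_cancel₀ _ he', Complex.exp_log (div_ne_zero hz h0)]
    field_simp
  let ζ : ℂ → ℂ := fun z => z * ρ z
  have hζ : AnalyticAt ℂ ζ 0 := analyticAt_id.mul hρ
  have hζ' : HasDerivAt ζ r₀ 0 := by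
    have := (hasDerivAt_id (0 : ℂ)).mul hρ.differentiableAt.hasDerivAt
    have e : (1 : ℂ) * ρ 0 + id (0 : ℂ) * deriv ρ 0 = r₀ := by simp [hρ0]
    rw [e] at this
    exact this
  obtain ⟨E, h1, -, h2, -, h3⟩ := Crest.Agent.R266.SCV.exists_analytic_openPartialHomeomorph hζ
    (ContinuousLinearEquiv.unitsEquivAut ℂ (Units.mk0 r₀ hr₀')) (hζ'.hasFDerivAt_equiv hr₀') univ_mem
  have hE0 : E 0 = 0 := by rw [h2]; simp [ζ]
  have ht : (0 : ℂ) ∈ E.target := hE0 ▸ E.map_source h1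
  have hs0 : E.symm 0 = 0 := by
    have := E.left_inv h1
    rwa [hE0] at this
  refine ⟨E.symm, ζ, h3 0 ht, hs0, ?_⟩
  have t : Tendsto E.symm (𝓝 0) (𝓝 0) := by
    have := (h3 0 ht).continuousAt.tendsto
    rwa [hs0] at this
  filter_upwards [E.open_target.mem_nhds ht, t.eventually (hu.continuousAt.eventually_ne h0)]
    with s hs hne
  have h4 : ζ (E.symm s) = s := by rw [← h2]; exact E.right_inv hs
  refine ⟨h4, ?_⟩
  rw [← hρe _ hne, ← mul_pow]
  exact congrArg (· ^ e) h4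

/-- counting -/
theorem eq_sum_single {C ι : Type*} (T : Finset ι) (p : ι → C) (hp : InjOn p T) (Z : C →₀ ℤ)
    (hZ : 0 ≤ Z) (h1 : ∀ i ∈ T, 1 ≤ Z (p i)) (hn : Z.sum (fun _ m => m) = T.card) :
    Z = ∑ i ∈ T, Finsupp.single (p i) 1 ∧ ∀ c, Z c ≤ 1 := by
  classical
  set Z' : C →₀ ℤ := ∑ i ∈ T, Finsupp.single (p i) 1 with hZ'
  have hv : ∀ y, (∃ i ∈ T, p i = y) ∧ Z' y = 1 ∨ Z' y = 0 := by
    intro y
    by_cases h : ∃ i ∈ T, p i = y
    · left
      refine ⟨h, ?_⟩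
      obtain ⟨i, hi, rfl⟩ := h
      rw [hZ', Finset.sum_apply', Finset.sum_eq_single i]
      · simp
      · intro j hj hji
        exact Finsupp.single_eq_of_ne fun h => hji (hp hj hi h.symm)
      · exact fun h => absurd hi h
    · right
      rw [hZ', Finset.sum_apply']
      refine Finset.sum_eq_zero fun j hj => Finsupp.single_eq_of_ne fun h' => h ⟨j, hj, h'.symm⟩
  have hle : 0 ≤ Z - Z' := by
    intro y
    simp only [Finsupp.coe_zero, Pi.zero_apply, Finsupp.coe_sub, Pi.sub_apply]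
    rcases hv y with ⟨⟨i, hi, rfl⟩, h⟩ | h
    · have := h1 i hi
      omega
    · have : (0 : ℤ) ≤ Z y := hZ y
      omega
  have hdeg : ∀ D : C →₀ ℤ, D.sum (fun _ m => m) = Finsupp.linearCombination ℤ (fun _ => (1 : ℤ)) D := by
    intro D
    simp [Finsupp.linearCombination_apply]
  have hd : (Z - Z').sum (fun _ m => m) = 0 := by
    rw [hdeg, map_sub, ← hdeg, hn, hZ', map_sum]
    simp
  have h0 : Z - Z' = 0 := by
    ext y
    by_contra hy
    have hy' : y ∈ (Z - Z').support := Finsupp.mem_support_iff.2 hy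
    have := (Finset.sum_eq_zero_iff_of_nonneg (fun x _ => hle x)).1 hd y hy'
    exact hy this
  have hZZ : Z = Z' := sub_eq_zero.1 h0
  refine ⟨hZZ, fun c => ?_⟩
  rw [hZZ]
  rcases hv c with h | h
  · exact h.2.le
  · omega

variable {C : Type} [TopologicalSpace C] [T2Space C] (𝒞 : Cur C)

/-- the sum of the Abel-Jacobi map over the fibres of a function, near one fibre -/
theorem fibre_loc {Λ : AddSubgroup E2} {a : C → E2 ⧸ Λ}
    (ha : ∀ c, ∀ᶠ y in 𝓝 c, a y = a c + ((𝒞.P c y : E2) : E2 ⧸ Λ))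
    (Z : ℂ → C →₀ ℤ) (hZ : ∀ μ, 0 ≤ Z μ)
    (hn : ∀ μ, (Z μ).sum (fun _ m => m) = (Z 0).sum (fun _ m => m))
    (R : C → Prop) (val : C → ℂ) (hval : ∀ y, R y → 1 ≤ Z (val y) y)
    (hloc : ∀ c, Z 0 c ≠ 0 → ∃ u : ℂ → ℂ, AnalyticAt ℂ u 0 ∧ u 0 ≠ 0 ∧
      ∀ᶠ y in 𝓝 c, R y ∧ val y = 𝒞.k c y ^ (Z 0 c).toNat * u (𝒞.k c y)) :
    ∃ H : ℂ → E2, Tendsto H (𝓝 0) (𝓝 0) ∧ H 0 = 0 ∧
      (∀ᶠ μ in 𝓝 (0 : ℂ), Finsupp.linearCombination ℤ a (Z μ) =
        Finsupp.linearCombination ℤ a (Z 0) + H μ) ∧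
      (∀ᶠ μ in 𝓝[≠] (0 : ℂ), ∀ c, Z μ c ≤ 1) ∧ ((∀ c, Z 0 c ≤ 1) → AnalyticAt ℂ H 0) := by
  classical
  let e : C → ℕ := fun c => (Z 0 c).toNat
  have he : ∀ c, (e c : ℤ) = Z 0 c := fun c => Int.toNat_of_nonneg (hZ 0 c)
  have he0 : ∀ c ∈ (Z 0).support, e c ≠ 0 := by
    intro c hc h
    apply Finsupp.mem_support_iff.1 hc
    rw [← he, h]; rfl
  obtain ⟨U, hU, hUd⟩ := (Z 0).support.finite_toSet.t2_separation
  have key : ∀ c, ∃ ψ ζ : ℂ → ℂ, c ∈ (Z 0).support → AnalyticAt ℂ ψ 0 ∧ ψ 0 = 0 ∧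
      ∀ᶠ s in 𝓝 (0 : ℂ), (𝒞.k c).symm (ψ s) ∈ U c ∧ ζ (𝒞.k c ((𝒞.k c).symm (ψ s))) = s ∧
        1 ≤ Z (s ^ e c) ((𝒞.k c).symm (ψ s)) ∧
        a ((𝒞.k c).symm (ψ s)) = a c + ((𝒞.G c (ψ s) : E2) : E2 ⧸ Λ) := by
    intro c
    by_cases hc : c ∈ (Z 0).support
    swap
    · exact ⟨0, 0, fun h => absurd h hc⟩
    obtain ⟨u, hu, hu0, hy⟩ := hloc c (Finsupp.mem_support_iff.1 hc)
    obtain ⟨ψ, ζ, h1, h2, h3⟩ := exists_root_inv (e c) (he0 c hc) hu hu0
    refine ⟨ψ, ζ, fun _ => ⟨h1, h2, ?_⟩⟩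
    have t1 : Tendsto ψ (𝓝 0) (𝓝 0) := by
      have := h1.continuousAt.tendsto
      rwa [h2] at this
    have t2 : Tendsto (fun s => (𝒞.k c).symm (ψ s)) (𝓝 0) (𝓝 c) :=
      (Crest.Agent.R272.AJf_956.tend_symm 𝒞 c).comp t1
    filter_upwards [h3, t2.eventually hy, t2.eventually (ha c),
      t2.eventually ((hU c).2.mem_nhds (hU c).1),
      t1.eventually ((𝒞.k c).open_target.mem_nhds (zero_mem_target 𝒞 c))] with s s1 s2 s3 s4 s5
    have hk : 𝒞.k c ((𝒞.k c).symm (ψ s)) = ψ s := (𝒞.k c).right_inv s5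
    refine ⟨s4, by rw [hk, s1.1], ?_, ?_⟩
    · have := hval _ s2.1
      rwa [s2.2, hk, s1.2] at this
    · rw [s3, Cur.P, hk]
  choose ψ ζ hk using key
  let om : C → ℂ := fun c => Complex.exp (2 * Real.pi * Complex.I / e c)
  let rt : (Σ _ : C, ℕ) → ℂ → ℂ := fun i μ => om i.1 ^ i.2 * μ ^ ((e i.1 : ℂ)⁻¹)
  let T : Finset (Σ _ : C, ℕ) := (Z 0).support.sigma fun c => Finset.range (e c)
  have hT : ∀ i ∈ T, i.1 ∈ (Z 0).support ∧ i.2 < e i.1 := fun i hi => by
    simpa [T, Finset.mem_sigma] using hi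
  have hom : ∀ c ∈ (Z 0).support, IsPrimitiveRoot (om c) (e c) := fun c hc =>
    Complex.isPrimitiveRoot_exp _ (he0 c hc)
  have hrt0 : ∀ i ∈ T, rt i 0 = 0 := by
    intro i hi
    have : ((e i.1 : ℂ)⁻¹) ≠ 0 := inv_ne_zero (by exact_mod_cast he0 _ (hT i hi).1)
    simp only [rt, Complex.zero_cpow this, mul_zero]
  have hrt : ∀ i ∈ T, Tendsto (rt i) (𝓝 0) (𝓝 0) := by
    intro i hi
    have h1 : ContinuousAt (fun μ : ℂ => μ ^ ((e i.1 : ℂ)⁻¹)) 0 := by
      refine Complex.continuousAt_cpow_const_of_re_pos (Or.inl le_rfl) ?_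
      have : (0 : ℝ) < e i.1 := by exact_mod_cast Nat.pos_of_ne_zero (he0 _ (hT i hi).1)
      rw [← Complex.ofReal_natCast, ← Complex.ofReal_inv, Complex.ofReal_re]
      exact inv_pos.2 this
    have h2 : ContinuousAt (rt i) 0 := continuousAt_const.mul h1
    have := h2.tendsto
    rwa [hrt0 i hi] at this
  have hrtp : ∀ i ∈ T, ∀ μ, rt i μ ^ e i.1 = μ := by
    intro i hi μ
    simp only [rt]
    rw [mul_pow, Complex.cpow_nat_inv_pow _ (he0 _ (hT i hi).1), ← pow_mul, mul_comm i.2, pow_mul,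
      (hom _ (hT i hi).1).pow_eq_one, one_pow, one_mul]
  let H : ℂ → E2 := fun μ => ∑ i ∈ T, 𝒞.G i.1 (ψ i.1 (rt i μ))
  have hH0 : H 0 = 0 := by
    refine Finset.sum_eq_zero fun i hi => ?_
    rw [hrt0 i hi, (hk _ (hT i hi).1).2.1, 𝒞.G_zero]
  have hcard : (Z 0).sum (fun _ m => m) = T.card := by
    simp only [T, Finset.card_sigma, Finset.card_range, Finsupp.sum]
    push_cast
    exact Finset.sum_congr rfl fun c _ => (he c).symm
  have main : ∀ᶠ μ in 𝓝[≠] (0 : ℂ), Finsupp.linearCombination ℤ a (Z μ) =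
      Finsupp.linearCombination ℤ a (Z 0) + H μ ∧ ∀ c, Z μ c ≤ 1 := by
    have h1 : ∀ᶠ μ in 𝓝 (0 : ℂ), ∀ i ∈ T, (𝒞.k i.1).symm (ψ i.1 (rt i μ)) ∈ U i.1 ∧
        ζ i.1 (𝒞.k i.1 ((𝒞.k i.1).symm (ψ i.1 (rt i μ)))) = rt i μ ∧
        1 ≤ Z (rt i μ ^ e i.1) ((𝒞.k i.1).symm (ψ i.1 (rt i μ))) ∧
        a ((𝒞.k i.1).symm (ψ i.1 (rt i μ))) =
          a i.1 + ((𝒞.G i.1 (ψ i.1 (rt i μ)) : E2) : E2 ⧸ Λ) :=
      (eventually_all_finset T).2 fun i hi => (hrt i hi).eventually (hk _ (hT i hi).1).2.2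
    filter_upwards [h1.filter_mono nhdsWithin_le_nhds, self_mem_nhdsWithin] with μ hμ hμ0
    have hinj : InjOn (fun i : (Σ _ : C, ℕ) => (𝒞.k i.1).symm (ψ i.1 (rt i μ))) T := by
      rintro ⟨c, j⟩ hi ⟨c', j'⟩ hi' h
      have hi1 := hT _ hi
      have hi2 := hT _ hi'
      have hcc : c = c' := by
        by_contra hne
        have hd := hUd hi1.1 hi2.1 hne
        have m1 := (hμ _ hi).1
        have m2 := (hμ _ hi').1
        simp only at h m1 m2
        rw [← h] at m2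
        exact Set.disjoint_left.1 hd m1 m2
      subst hcc
      have m1 := (hμ _ hi).2.1
      have m2 := (hμ _ hi').2.1
      simp only at h m1 m2
      rw [← h, m1] at m2
      have hne : μ ^ ((e c : ℂ)⁻¹) ≠ 0 := by
        intro h0
        exact hμ0 ((Complex.cpow_eq_zero_iff _ _).1 h0).1
      have m3 : om c ^ j = om c ^ j' := mul_right_cancel₀ hne m2
      have m4 : j = j' := (hom c hi1.1).pow_inj hi1.2 hi2.2 m3
      rw [m4]
    obtain ⟨h2, h3⟩ := eq_sum_single T _ hinj (Z μ) (hZ μ) (fun i hi => by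
      have := (hμ i hi).2.2.1
      rwa [hrtp i hi] at this) ((hn μ).trans hcard)
    refine ⟨?_, h3⟩
    rw [h2, map_sum]
    simp only [Finsupp.linearCombination_single, one_smul]
    rw [Finset.sum_congr rfl fun i hi => (hμ i hi).2.2.2, Finset.sum_add_distrib]
    congr 1
    · rw [Finsupp.linearCombination_apply, Finsupp.sum, Finset.sum_sigma]
      refine Finset.sum_congr rfl fun c _ => ?_
      simp only [Finset.sum_const, Finset.card_range]
      rw [← he, natCast_zsmul]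
    · exact (map_sum (QuotientAddGroup.mk' Λ) _ _).symm
  refine ⟨H, ?_, hH0, ?_, main.mono fun μ h => h.2, fun h1 => ?_⟩
  · have : Tendsto H (𝓝 0) (𝓝 (∑ i ∈ T, (0 : E2))) := by
      refine tendsto_finset_sum _ fun i hi => ?_
      have t1 : Tendsto (ψ i.1) (𝓝 0) (𝓝 0) := by
        have := (hk _ (hT i hi).1).1.continuousAt.tendsto
        rwa [(hk _ (hT i hi).1).2.1] at this
      have t2 : Tendsto (𝒞.G i.1) (𝓝 0) (𝓝 0) := by
        have := (G_an0 𝒞 i.1).continuousAt.tendsto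
        rwa [𝒞.G_zero] at this
      exact t2.comp (t1.comp (hrt i hi))
    simpa using this
  · rw [← nhdsNE_sup_pure, eventually_sup]
    refine ⟨main.mono fun μ h => h.1, ?_⟩
    simp [hH0]
  · refine Finset.analyticAt_fun_sum _ fun i hi => ?_
    have e1 : e i.1 = 1 := by
      have h2 := h1 i.1
      have h3 := he0 _ (hT i hi).1
      rw [← he] at h2
      omega
    have e2 : rt i = id := by
      funext μ
      have h4 := hrtp i hi μ
      rwa [e1, pow_one] at h4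
    rw [e2]
    have h5 : AnalyticAt ℂ (𝒞.G i.1) (ψ i.1 0) := by
      rw [(hk _ (hT i hi).1).2.1]; exact G_an0 𝒞 i.1
    exact h5.comp (hk _ (hT i hi).1).1

end fibre

end Crest.Agent.T15.Aj
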