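import Mathlib

/-!
# Row 15, block Ht: algebraicity criterion, part A (helper4)

Taylor series at `0` as a ring homomorphism on germs, and the gain lemma.
-/

set_option autoImplicit false

open Set Filter Topology Metric PowerSeries

noncomputable section

namespace Crest.Agent.T15.AlgM

/-- Taylor series at `0` (same shape as `UpperHalfPlane.qExpansion`) -/
def tay (f : ℂ → ℂ) : PowerSeries ℂ :=
  PowerSeries.mk fun n => (n.factorial : ℂ)⁻¹ * iteratedDeriv n f 0

lemma coeff_tay (f : ℂ → ℂ) (n : ℕ) :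
    coeff n (tay f) = (n.factorial : ℂ)⁻¹ * iteratedDeriv n f 0 := by
  simp [tay]

lemma constantCoeff_tay (f : ℂ → ℂ) : constantCoeff (tay f) = f 0 := by
  rw [← coeff_zero_eq_constantCoeff_apply, coeff_tay]; simp

lemma tay_congr {f g : ℂ → ℂ} (h : f =ᶠ[𝓝 0] g) : tay f = tay g := by
  ext n
  rw [coeff_tay, coeff_tay, h.iteratedDeriv_eq n]

lemma tay_mul {f g : ℂ → ℂ} (hf : AnalyticAt ℂ f 0) (hg : AnalyticAt ℂ g 0) :
    tay (f * g) = tay f * tay g := by
  ext
  simp only [coeff_tay, iteratedDeriv_mul hf.contDiffAt hg.contDiffAt, Finset.mul_sum,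
    PowerSeries.coeff_mul, Finset.Nat.sum_antidiagonal_eq_sum_range_succ_mk, Nat.succ_eq_add_one]
  refine Finset.sum_congr rfl fun i hi ↦ ?_
  rw [Nat.cast_choose _ (by grind)]
  field_simp [Nat.factorial_ne_zero]

lemma tay_add {f g : ℂ → ℂ} (hf : AnalyticAt ℂ f 0) (hg : AnalyticAt ℂ g 0) :
    tay (f + g) = tay f + tay g := by
  ext n
  simp only [coeff_tay, map_add, iteratedDeriv_add hf.contDiffAt hg.contDiffAt, mul_add]

lemma tay_const (c : ℂ) : tay (fun _ => c) = C c := by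
  ext n
  rw [coeff_tay, coeff_C, iteratedDeriv_const]
  split_ifs with h
  · simp [h]
  · simp

lemma tay_zero : tay 0 = 0 := by
  have := tay_const 0
  simpa using! this

lemma tay_one : tay 1 = 1 := by
  have := tay_const 1
  simpa using! this

lemma tay_pow {f : ℂ → ℂ} (hf : AnalyticAt ℂ f 0) (n : ℕ) : tay (f ^ n) = tay f ^ n := by
  induction n with
  | zero => simp [tay_one]
  | succ n ih => rw [pow_succ, pow_succ, tay_mul (hf.pow n) hf, ih]

lemma tay_sum {ι : Type*} (s : Finset ι) {f : ι → ℂ → ℂ} (hf : ∀ i ∈ s, AnalyticAt ℂ (f i) 0) :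
    tay (∑ i ∈ s, f i) = ∑ i ∈ s, tay (f i) := by
  classical
  induction s using Finset.induction_on with
  | empty => simp [tay_zero]
  | insert a s ha ih =>
    rw [Finset.sum_insert ha, Finset.sum_insert ha, tay_add (hf a (by simp))
      (Finset.analyticAt_sum _ fun i hi => hf i (by simp [hi])), ih fun i hi => hf i (by simp [hi])]

lemma tay_id : tay id = X := by
  ext n
  rw [coeff_tay, coeff_X]
  have : (id : ℂ → ℂ) = fun z => z := rfl
  rw [this, iteratedDeriv_fun_id]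
  rcases n with _ | _ | n <;> simp

/-- Cauchy's estimate -/
lemma norm_coeff_tay_le {f : ℂ → ℂ} {ρ B : ℝ} (hρ : 0 < ρ)
    (hf : AnalyticOnNhd ℂ f (closedBall 0 ρ)) (hB : ∀ z ∈ closedBall (0 : ℂ) ρ, ‖f z‖ ≤ B) (n : ℕ) :
    ‖coeff n (tay f)‖ ≤ B / ρ ^ n := by
  have hd : DiffContOnCl ℂ f (ball 0 ρ) := by
    refine DifferentiableOn.diffContOnCl ?_
    rw [closure_ball _ hρ.ne']
    exact hf.differentiableOn
  have h := Complex.norm_iteratedDeriv_le_of_forall_mem_sphere_norm_le n hρ hd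
    (fun z hz => hB z (sphere_subset_closedBall hz))
  rw [coeff_tay, norm_mul, norm_inv, Complex.norm_natCast]
  have hn : (0 : ℝ) < n.factorial := by exact_mod_cast n.factorial_pos
  calc (n.factorial : ℝ)⁻¹ * ‖iteratedDeriv n f 0‖
      ≤ (n.factorial : ℝ)⁻¹ * (n.factorial * B / ρ ^ n) := by gcongr
    _ = B / ρ ^ n := by field_simp

lemma X_pow_cancel {n n' : ℕ} {f f' : PowerSeries ℂ} (hf : constantCoeff f ≠ 0)
    (hf' : constantCoeff f' ≠ 0) (h : X ^ n * f = X ^ n' * f') : n = n' ∧ f = f' := by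
  have key : ∀ {n n' : ℕ} {f f' : PowerSeries ℂ}, constantCoeff f ≠ 0 →
      X ^ n * f = X ^ n' * f' → n' ≤ n := by
    intro n n' f f' hf h
    by_contra hlt
    have h1 := congrArg (coeff n) h
    rw [coeff_X_pow_mul', coeff_X_pow_mul', if_pos le_rfl, if_neg hlt] at h1
    simp only [tsub_self, coeff_zero_eq_constantCoeff] at h1
    exact hf h1
  have e : n = n' := le_antisymm (key hf' h.symm) (key hf h)
  subst e
  exact ⟨rfl, mul_left_cancel₀ (pow_ne_zero _ X_ne_zero) h⟩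

/-- global factorisation `G = z ^ n g` -/
lemma exists_factor {G : ℂ → ℂ} {S : Set ℂ} (h0 : (0 : ℂ) ∈ S) (hG : AnalyticOnNhd ℂ G S)
    {n : ℕ} {p : PowerSeries ℂ} (hp : constantCoeff p ≠ 0) (h : tay G = X ^ n * p) :
    ∃ g : ℂ → ℂ, AnalyticOnNhd ℂ g S ∧ g 0 = constantCoeff p ∧ ∀ z, G z = z ^ n * g z := by
  classical
  have hne : ¬ ∀ᶠ z in 𝓝 (0 : ℂ), G z = 0 := by
    intro hz
    have : tay G = 0 := by rw [← tay_zero]; exact tay_congr hz
    rw [this] at h
    rcases mul_eq_zero.1 h.symm with h | h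
    · exact pow_ne_zero _ X_ne_zero h
    · exact hp (by rw [h]; simp)
  obtain ⟨k, g, hg, hg0, hgG⟩ := (hG 0 h0).exists_eventuallyEq_pow_smul_nonzero_iff.2 hne
  have h1 : tay G = X ^ k * tay g := by
    rw [← tay_id, ← tay_pow analyticAt_id, ← tay_mul (analyticAt_id.pow k) hg]
    refine tay_congr ?_
    filter_upwards [hgG] with z hz
    simpa using hz
  obtain ⟨rfl, h2⟩ := X_pow_cancel (by rwa [constantCoeff_tay]) hp (h1.symm.trans h)
  refine ⟨fun z => if z = 0 then g 0 else G z / z ^ k, ?_, ?_, ?_⟩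
  · intro z hz
    by_cases hz0 : z = 0
    · subst hz0
      refine hg.congr ?_
      filter_upwards [hgG] with z hz
      split_ifs with h0
      · rw [h0]
      · rw [hz]; simp only [sub_zero, smul_eq_mul]; field_simp
    · have ha : AnalyticAt ℂ (fun z => G z / z ^ k) z :=
        (hG z hz).fun_div (analyticAt_id.fun_pow k) (pow_ne_zero _ hz0)
      refine ha.congr ?_
      filter_upwards [isOpen_ne.mem_nhds hz0] with w hw
      rw [if_neg hw]
  · simp only [if_true]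
    rw [← h2, constantCoeff_tay]
  · intro z
    by_cases hz0 : z = 0
    · subst hz0
      have := hgG.self_of_nhds
      simpa using this
    · simp only [if_neg hz0]; field_simp

/-- **gain lemma** -/
theorem gain {r s M K : ℝ} {m n : ℕ} {ζ : ℂ} (hζ : ‖ζ‖ = 1) (hr : 0 < r) (hs0 : 0 ≤ s) (hs : s ≤ r)
    (hK : 0 ≤ K) {G g : ℂ → ℂ} (hg : AnalyticOnNhd ℂ g (closedBall 0 r))
    (hG : ∀ z, G z = z ^ n * g z) (hM : ∀ z ∈ sphere (0 : ℂ) r, ‖G z‖ ≤ M)
    (hJ : ∀ z ∈ sphere (0 : ℂ) r, ∃ k < m, ∃ w : ℂ, ‖w‖ ≤ s ∧ ‖G (ζ ^ k * z)‖ ≤ K * ‖G w‖) :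
    ‖g 0‖ ^ m ≤ K * M ^ m * (s / r ^ (m + 1)) ^ n := by
  classical
  have mm : ∀ {f : ℂ → ℂ} {C : ℝ}, DifferentiableOn ℂ f (closedBall 0 r) →
      (∀ z ∈ sphere (0 : ℂ) r, ‖f z‖ ≤ C) → ∀ z ∈ closedBall (0 : ℂ) r, ‖f z‖ ≤ C := by
    intro f C hf hC z hz
    refine Complex.norm_le_of_forall_mem_frontier_norm_le (U := ball 0 r) isBounded_ball ?_ ?_ ?_
    · refine DifferentiableOn.diffContOnCl ?_
      rwa [closure_ball _ hr.ne']
    · rwa [frontier_ball _ hr.ne']
    · rwa [closure_ball _ hr.ne']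
  have hsph : ∀ z ∈ sphere (0 : ℂ) r, ‖g z‖ = ‖G z‖ / r ^ n := by
    intro z hz
    rw [mem_sphere_zero_iff_norm] at hz
    rw [hG, norm_mul, norm_pow, hz]; field_simp
  have h1 : ∀ z ∈ closedBall (0 : ℂ) r, ‖g z‖ ≤ M / r ^ n := by
    refine mm hg.differentiableOn fun z hz => ?_
    rw [hsph z hz]; gcongr; exact hM z hz
  have hM' : 0 ≤ M / r ^ n := (norm_nonneg _).trans (h1 0 (by simp [hr.le]))
  have hn : ∀ (k : ℕ) (z : ℂ), ‖ζ ^ k * z‖ = ‖z‖ := by
    intro k z; rw [norm_mul, norm_pow, hζ, one_pow, one_mul]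
  have h2 := mm (f := fun z => ∏ k ∈ Finset.range m, g (ζ ^ k * z))
    (C := K * M ^ m * (s / r ^ (m + 1)) ^ n) ?_ ?_ 0 (by simp [hr.le])
  · simpa using h2
  · refine DifferentiableOn.fun_finsetProd fun k _ => ?_
    refine hg.differentiableOn.comp (f := fun z => ζ ^ k * z) (by fun_prop) ?_
    intro z hz
    simpa only [mem_closedBall_zero_iff, hn] using hz
  · intro z hz
    obtain ⟨k, hk, w, hw, hGw⟩ := hJ z hz
    have hz' : ∀ k : ℕ, ζ ^ k * z ∈ sphere (0 : ℂ) r := fun k => by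
      simpa only [mem_sphere_zero_iff_norm, hn] using hz
    have h3 : ‖G w‖ ≤ s ^ n * (M / r ^ n) := by
      rw [hG, norm_mul, norm_pow]
      have := h1 w (by rw [mem_closedBall_zero_iff]; exact hw.trans hs)
      gcongr
    have h4 : ‖g (ζ ^ k * z)‖ ≤ K * (s ^ n * (M / r ^ n)) / r ^ n := by
      rw [hsph _ (hz' k)]
      gcongr
      exact hGw.trans (by gcongr)
    rw [norm_prod, ← Finset.mul_prod_erase _ _ (Finset.mem_range.2 hk)]
    have h5 : ∏ j ∈ (Finset.range m).erase k, ‖g (ζ ^ j * z)‖ ≤ (M / r ^ n) ^ (m - 1) := by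
      calc ∏ j ∈ (Finset.range m).erase k, ‖g (ζ ^ j * z)‖
          ≤ ∏ j ∈ (Finset.range m).erase k, M / r ^ n :=
            Finset.prod_le_prod (fun j _ => norm_nonneg _)
              (fun j _ => h1 _ (sphere_subset_closedBall (hz' j)))
        _ = _ := by
          rw [Finset.prod_const, Finset.card_erase_of_mem (Finset.mem_range.2 hk),
            Finset.card_range]
    obtain ⟨m, rfl⟩ : ∃ m', m = m' + 1 := ⟨m - 1, by omega⟩
    calc ‖g (ζ ^ k * z)‖ * ∏ j ∈ (Finset.range (m + 1)).erase k, ‖g (ζ ^ j * z)‖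
        ≤ (K * (s ^ n * (M / r ^ n)) / r ^ n) * (M / r ^ n) ^ (m + 1 - 1) := by
          gcongr
      _ = K * M ^ (m + 1) * (s / r ^ (m + 1 + 1)) ^ n := by
          simp only [Nat.add_sub_cancel, div_pow]
          field_simp
          ring

end Crest.Agent.T15.AlgM
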