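import Mathlib
import Crest.Agent.T15.AlgMA_4

/-!
# Row 15, block Ht: algebraicity criterion, part B (helper4)

Siegel's lemma and the core inequality.
-/

set_option autoImplicit false

open Set Filter Topology Metric PowerSeries

noncomputable section

namespace Crest.Agent.T15.AlgM

/-- `ℤ⟦X⟧ → ℂ⟦X⟧` -/
abbrev toC : PowerSeries ℤ →+* PowerSeries ℂ := PowerSeries.map (Int.castRingHom ℂ)

lemma exists_bound {f : ℂ → ℂ} {r : ℝ} (hf : AnalyticOnNhd ℂ f (closedBall 0 r)) :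
    ∃ B : ℝ, 1 ≤ B ∧ ∀ z ∈ closedBall (0 : ℂ) r, ‖f z‖ ≤ B := by
  obtain ⟨B, hB⟩ := (isCompact_closedBall (0 : ℂ) r).exists_bound_of_continuousOn hf.continuousOn
  exact ⟨max 1 B, le_max_left _ _, fun z hz => (hB z hz).trans (le_max_right _ _)⟩

/-- coefficient bound for the monomials -/
lemma exists_coeff_bound {X U : ℂ → ℂ} (hX : AnalyticAt ℂ X 0) (hU : AnalyticAt ℂ U 0)
    {x u : PowerSeries ℤ} (hx : tay X = toC x) (hu : tay U = toC u) :
    ∃ B σ : ℝ, 1 ≤ B ∧ 1 ≤ σ ∧ ∀ i j k : ℕ, ‖coeff k (x ^ i * u ^ j)‖ ≤ B ^ (i + j) * σ ^ k := by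
  obtain ⟨ρ, hρ, hρ'⟩ := Metric.eventually_nhds_iff_ball.1
    (hX.eventually_analyticAt.and hU.eventually_analyticAt)
  set ρ' := min (ρ / 2) 1 with hρ'def
  have h0 : 0 < ρ' := lt_min (by positivity) one_pos
  have hsub : closedBall (0 : ℂ) ρ' ⊆ ball 0 ρ :=
    closedBall_subset_ball ((min_le_left _ _).trans_lt (by linarith))
  have aX : AnalyticOnNhd ℂ X (closedBall 0 ρ') := fun z hz => (hρ' z (hsub hz)).1
  have aU : AnalyticOnNhd ℂ U (closedBall 0 ρ') := fun z hz => (hρ' z (hsub hz)).2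
  obtain ⟨B1, h1, hB1⟩ := exists_bound aX
  obtain ⟨B2, h2, hB2⟩ := exists_bound aU
  refine ⟨max B1 B2, ρ'⁻¹, h1.trans (le_max_left _ _), (one_le_inv₀ h0).2 (min_le_right _ _),
    fun i j k => ?_⟩
  have h3 := norm_coeff_tay_le (f := X ^ i * U ^ j) (B := max B1 B2 ^ (i + j)) h0
    ((aX.pow i).mul (aU.pow j)) (fun z hz => by
      rw [Pi.mul_apply, Pi.pow_apply, Pi.pow_apply, norm_mul, norm_pow, norm_pow, pow_add]
      have := (hB1 z hz).trans (le_max_left B1 B2)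
      have := (hB2 z hz).trans (le_max_right B1 B2)
      gcongr) k
  rw [tay_mul (hX.pow i) (hU.pow j), tay_pow hX, tay_pow hU, hx, hu, ← map_pow, ← map_pow,
    ← map_mul, coeff_map] at h3
  rw [inv_pow, ← div_eq_mul_inv, Int.norm_eq_abs]
  simpa using h3

attribute [local instance] Matrix.seminormedAddCommGroup in
/-- Siegel's lemma for the monomials -/
lemma siegel {x u : PowerSeries ℤ} {B σ : ℝ} (hB : 1 ≤ B) (hσ : 1 ≤ σ)
    (hc : ∀ i j k : ℕ, ‖coeff k (x ^ i * u ^ j)‖ ≤ B ^ (i + j) * σ ^ k) {h e : ℕ} (hh : 0 < h)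
    (he : 0 < e) {D : ℕ} (hD : D = (h + 1) * e) :
    ∃ (t : Fin D × Fin D → ℤ) (H : ℝ), t ≠ 0 ∧ 0 ≤ H ∧
      (∀ p, ‖t p‖ ≤ H) ∧ H ^ h ≤ (4 * B ^ 2) ^ D * σ ^ (D * e) ∧
      ∀ k < D * e, coeff k (∑ p, C (t p) * (x ^ (p.1 : ℕ) * u ^ (p.2 : ℕ))) = 0 := by
  have hD0 : 0 < D := by rw [hD]; positivity
  let A : Matrix (Fin (D * e)) (Fin D × Fin D) ℤ :=
    fun k p => coeff (k : ℕ) (x ^ (p.1 : ℕ) * u ^ (p.2 : ℕ))
  have hlt : D * e < D * D := by
    refine Nat.mul_lt_mul_of_pos_left ?_ hD0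
    rw [hD]; nlinarith
  obtain ⟨t, ht0, hAt, ht⟩ := Int.Matrix.exists_ne_zero_int_vec_norm_le A
    (by simpa using hlt) (by simpa using ⟨hD0, he⟩)
  refine ⟨t, ‖t‖, ht0, norm_nonneg _, fun p => norm_le_pi_norm t p, ?_, ?_⟩
  · simp only [Fintype.card_prod, Fintype.card_fin] at ht
    have hexp : ((D * e : ℕ) : ℝ) / (((D * D : ℕ) : ℝ) - ((D * e : ℕ) : ℝ)) = (h : ℝ)⁻¹ := by
      have : ((D * D : ℕ) : ℝ) - ((D * e : ℕ) : ℝ) = h * ((D * e : ℕ) : ℝ) := by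
        have : D * D = (h + 1) * (D * e) := by rw [hD]; ring
        rw [this]; push_cast; ring
      rw [this]
      have : (0 : ℝ) < ((D * e : ℕ) : ℝ) := by positivity
      field_simp
    rw [hexp] at ht
    have hA : max 1 ‖A‖ ≤ (B ^ 2) ^ D * σ ^ (D * e) := by
      have h1 : (1 : ℝ) ≤ (B ^ 2) ^ D * σ ^ (D * e) :=
        one_le_mul_of_one_le_of_one_le (one_le_pow₀ (one_le_pow₀ hB)) (one_le_pow₀ hσ)
      refine max_le h1 ((Matrix.norm_le_iff (zero_le_one.trans h1)).2 fun k p => ?_)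
      refine (hc _ _ _).trans ?_
      rw [← pow_mul]
      have := p.1.2
      have := p.2.2
      have := k.2
      gcongr
      omega
    have hDD : ((D * D : ℕ) : ℝ) ≤ 4 ^ D := by
      have h1 : D ≤ 2 ^ D := Nat.lt_two_pow_self.le
      have h2 : D * D ≤ 4 ^ D := by
        calc D * D ≤ 2 ^ D * 2 ^ D := Nat.mul_le_mul h1 h1
          _ = 4 ^ D := by rw [← mul_pow]; norm_num
      exact_mod_cast h2
    calc ‖t‖ ^ h ≤ ((((D * D : ℕ) : ℝ) * max 1 ‖A‖) ^ (h : ℝ)⁻¹) ^ h := by gcongr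
      _ = ((D * D : ℕ) : ℝ) * max 1 ‖A‖ := Real.rpow_inv_natCast_pow (by positivity) hh.ne'
      _ ≤ 4 ^ D * ((B ^ 2) ^ D * σ ^ (D * e)) := by gcongr
      _ = _ := by rw [mul_pow]; ring
  · intro k hk
    have := congrFun hAt ⟨k, hk⟩
    simp only [Matrix.mulVec, dotProduct, A, Pi.zero_apply] at this
    rw [map_sum, ← this]
    refine Finset.sum_congr rfl fun p _ => ?_
    rw [coeff_C_mul, mul_comm]

/-- **core** of the algebraicity criterion -/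
theorem core {r s κ : ℝ} {m : ℕ} {ζ : ℂ} (hζ : ‖ζ‖ = 1) (hr : 0 < r) (hs0 : 0 ≤ s) (hs : s ≤ r)
    (hθ : s / r ^ (m + 1) < 1) (hκ : 0 < κ) {X U b : ℂ → ℂ}
    (hX : AnalyticAt ℂ X 0) (hU : AnalyticAt ℂ U 0)
    {x u : PowerSeries ℤ} (hx : tay X = toC x) (hu : tay U = toC u)
    (hb : AnalyticOnNhd ℂ b (closedBall 0 r)) (hb0 : b 0 ≠ 0)
    (ha : AnalyticOnNhd ℂ (b * X) (closedBall 0 r)) (hc : AnalyticOnNhd ℂ (b * U) (closedBall 0 r))
    (hJ : ∀ z ∈ sphere (0 : ℂ) r, ∃ k < m, ∃ w : ℂ, ‖w‖ ≤ s ∧ κ ≤ ‖b w‖ ∧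
      X (ζ ^ k * z) = X w ∧ U (ζ ^ k * z) = U w) :
    ∃ (D : ℕ) (t : Fin D × Fin D → ℤ), t ≠ 0 ∧
      ∑ p, C (t p) * (x ^ (p.1 : ℕ) * u ^ (p.2 : ℕ)) = 0 := by
  by_contra hcon
  push Not at hcon
  obtain ⟨B, σ, hB, hσ, hcb⟩ := exists_coeff_bound hX hU hx hu
  obtain ⟨B1, h1, hB1⟩ := exists_bound ha
  obtain ⟨B2, h2, hB2⟩ := exists_bound hc
  obtain ⟨B3, h3, hB3⟩ := exists_bound hb
  set E := max B1 (max B2 B3) with hE
  have hE1 : 1 ≤ E := h1.trans (le_max_left _ _)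
  have eA : ∀ z ∈ closedBall (0 : ℂ) r, ‖(b * X) z‖ ≤ E := fun z hz =>
    (hB1 z hz).trans (le_max_left _ _)
  have eC : ∀ z ∈ closedBall (0 : ℂ) r, ‖(b * U) z‖ ≤ E := fun z hz =>
    (hB2 z hz).trans ((le_max_left _ _).trans (le_max_right _ _))
  have eB : ∀ z ∈ closedBall (0 : ℂ) r, ‖b z‖ ≤ E := fun z hz =>
    (hB3 z hz).trans ((le_max_right _ _).trans (le_max_right _ _))
  set θ := s / r ^ (m + 1) with hθdef
  have hθ0 : 0 ≤ θ := by positivity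
  have hβ : 0 < ‖b 0‖ := norm_pos_iff.2 hb0
  -- choice of `h`
  obtain ⟨h, hh0, hh⟩ : ∃ h : ℕ, 0 < h ∧ σ ^ m * θ ^ h ≤ 1 / 2 := by
    have := (tendsto_pow_atTop_nhds_zero_of_lt_one hθ0 hθ).const_mul (σ ^ m)
    rw [mul_zero] at this
    obtain ⟨h, hh⟩ := ((this.eventually (ge_mem_nhds (by norm_num : (0 : ℝ) < 1 / 2))).and
      (eventually_gt_atTop 0)).exists
    exact ⟨h, hh.2, hh.1⟩
  set C1 := (E / κ) ^ 2 * (4 * E ^ 2) ^ m / (‖b 0‖ ^ 2) ^ m with hC1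
  set C2 := C1 ^ h * (4 * B ^ 2) ^ m with hC2
  have hC10 : 0 ≤ C1 := by positivity
  obtain ⟨e, he0, he⟩ : ∃ e : ℕ, 0 < e ∧ C2 < 2 ^ e := by
    obtain ⟨e, he⟩ := (((tendsto_pow_atTop_atTop_of_one_lt (one_lt_two (α := ℝ))).eventually
      (eventually_gt_atTop C2)).and (eventually_gt_atTop 0)).exists
    exact ⟨e, he.2, he.1⟩
  obtain ⟨D, hD⟩ : ∃ D, D = (h + 1) * e := ⟨_, rfl⟩
  obtain ⟨t, H, ht0, hH0, htH, hH, hvan⟩ := siegel hB hσ hcb hh0 he0 hD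
  have hD0 : 0 < D := by rw [hD]; positivity
  set p : PowerSeries ℤ := ∑ q : Fin D × Fin D, C (t q) * (x ^ (q.1 : ℕ) * u ^ (q.2 : ℕ)) with hp
  have hp0 : p ≠ 0 := hcon D t ht0
  set n := p.order.toNat with hn
  have hp1 : PowerSeries.X ^ n * p.divXPowOrder = p := X_pow_order_mul_divXPowOrder
  have hp2 : constantCoeff p.divXPowOrder ≠ 0 := by
    rw [Ne, constantCoeff_divXPowOrder_eq_zero_iff]; exact hp0
  have hnD : D * e ≤ n := by
    have h4 : ((D * e : ℕ) : ℕ∞) ≤ p.order := nat_le_order _ _ hvan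
    have h5 : (n : ℕ∞) = p.order := coe_toNat_order hp0
    rw [← h5] at h4
    exact_mod_cast h4
  -- the auxiliary function
  let G : ℂ → ℂ := ∑ q : Fin D × Fin D, (fun _ => (t q : ℂ)) *
    ((b * X) ^ (q.1 : ℕ) * (b * U) ^ (q.2 : ℕ) * b ^ (2 * D - q.1 - q.2))
  have hGa : AnalyticOnNhd ℂ G (closedBall 0 r) := fun z hz =>
    Finset.analyticAt_sum _ fun q _ => analyticAt_const.mul
      ((((ha z hz).pow _).mul ((hc z hz).pow _)).mul ((hb z hz).pow _))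
  have h0m : (0 : ℂ) ∈ closedBall (0 : ℂ) r := by simp [hr.le]
  have hGf : G = b ^ (2 * D) *
      ∑ q : Fin D × Fin D, (fun _ => (t q : ℂ)) * (X ^ (q.1 : ℕ) * U ^ (q.2 : ℕ)) := by
    rw [Finset.mul_sum]
    refine Finset.sum_congr rfl fun q _ => ?_
    have h4 : 2 * D = q.1 + q.2 + (2 * D - q.1 - q.2) := by
      have := q.1.2
      have := q.2.2
      omega
    conv_rhs => rw [h4]
    simp only [pow_add, mul_pow]
    ring
  have hGt : tay G = PowerSeries.X ^ n * (tay b ^ (2 * D) * toC p.divXPowOrder) := by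
    have an : ∀ q : Fin D × Fin D, AnalyticAt ℂ
        ((fun _ => (t q : ℂ)) * (X ^ (q.1 : ℕ) * U ^ (q.2 : ℕ))) 0 := fun q =>
      analyticAt_const.mul ((hX.pow _).mul (hU.pow _))
    rw [hGf, tay_mul ((hb 0 h0m).pow _) (Finset.analyticAt_sum _ fun q _ => an q),
      tay_pow (hb 0 h0m), tay_sum _ fun q _ => an q]
    have h4 : ∑ q : Fin D × Fin D, tay ((fun _ => (t q : ℂ)) * (X ^ (q.1 : ℕ) * U ^ (q.2 : ℕ))) =
        toC p := by
      rw [hp, map_sum]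
      refine Finset.sum_congr rfl fun q _ => ?_
      rw [tay_mul analyticAt_const ((hX.pow _).mul (hU.pow _)), tay_mul (hX.pow _) (hU.pow _),
        tay_pow hX, tay_pow hU, hx, hu, tay_const]
      simp
    rw [h4]
    conv_lhs => rw [← hp1]
    simp only [map_mul, map_pow, map_X]
    ring
  have hcc : constantCoeff (tay b ^ (2 * D) * toC p.divXPowOrder) =
      b 0 ^ (2 * D) * ((constantCoeff p.divXPowOrder : ℤ) : ℂ) := by
    rw [map_mul, map_pow, constantCoeff_tay]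
    congr 1
  have hcn : ‖b 0‖ ^ (2 * D) ≤ ‖constantCoeff (tay b ^ (2 * D) * toC p.divXPowOrder)‖ := by
    rw [hcc, norm_mul, norm_pow, Complex.norm_intCast]
    have : (1 : ℝ) ≤ |((constantCoeff p.divXPowOrder : ℤ) : ℝ)| := by
      exact_mod_cast Int.one_le_abs hp2
    exact le_mul_of_one_le_right (by positivity) this
  obtain ⟨g, hg, hg0, hgG⟩ := exists_factor h0m hGa
    (norm_pos_iff.1 ((pow_pos hβ _).trans_le hcn)) hGt
  rw [← hg0] at hcn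
  have hM : ∀ z ∈ sphere (0 : ℂ) r, ‖G z‖ ≤ (4 * E ^ 2) ^ D * H := by
    intro z hz
    have hz' := sphere_subset_closedBall hz
    have h4 : ∀ q : Fin D × Fin D, ‖((fun _ => (t q : ℂ)) *
        ((b * X) ^ (q.1 : ℕ) * (b * U) ^ (q.2 : ℕ) * b ^ (2 * D - q.1 - q.2)) : ℂ → ℂ) z‖ ≤
        H * E ^ (2 * D) := by
      intro q
      have h4 : 2 * D = q.1 + q.2 + (2 * D - q.1 - q.2) := by
        have := q.1.2
        have := q.2.2
        omega
      conv_rhs => rw [h4]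
      have h5 : ‖(t q : ℂ)‖ ≤ H := by simpa [Int.norm_eq_abs] using htH q
      have := eA z hz'
      have := eB z hz'
      have := eC z hz'
      rw [Pi.mul_apply, Pi.mul_apply, Pi.mul_apply, Pi.pow_apply, Pi.pow_apply, Pi.pow_apply,
        norm_mul, norm_mul, norm_mul, norm_pow, norm_pow, norm_pow, pow_add, pow_add]
      gcongr
    have hDD : ((D * D : ℕ) : ℝ) ≤ 4 ^ D := by
      have h1 : D ≤ 2 ^ D := Nat.lt_two_pow_self.le
      have h2 : D * D ≤ 4 ^ D := by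
        calc D * D ≤ 2 ^ D * 2 ^ D := Nat.mul_le_mul h1 h1
          _ = 4 ^ D := by rw [← mul_pow]; norm_num
      exact_mod_cast h2
    calc ‖G z‖ ≤ ∑ q : Fin D × Fin D, H * E ^ (2 * D) := by
          simp only [G, Finset.sum_apply]
          exact (norm_sum_le _ _).trans (Finset.sum_le_sum fun q _ => h4 q)
      _ = ((D * D : ℕ) : ℝ) * (H * E ^ (2 * D)) := by simp
      _ ≤ 4 ^ D * (H * E ^ (2 * D)) := by gcongr
      _ = _ := by rw [mul_pow, ← pow_mul]; ring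
  have hgain := gain (K := ((E / κ) ^ 2) ^ D) (m := m) hζ hr hs0 hs (by positivity) hg hgG hM (by
    intro z hz
    obtain ⟨k, hk, w, hw, hκw, hXw, hUw⟩ := hJ z hz
    refine ⟨k, hk, w, hw, ?_⟩
    have hz' : ζ ^ k * z ∈ closedBall (0 : ℂ) r := by
      rw [mem_closedBall_zero_iff, norm_mul, norm_pow, hζ, one_pow, one_mul]
      exact (mem_sphere_zero_iff_norm.1 hz).le
    have h4 := eB _ hz'
    rw [hGf]
    simp only [Pi.mul_apply, Pi.pow_apply, Finset.sum_apply, hXw, hUw, norm_mul, norm_pow]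
    rw [← pow_mul, ← mul_assoc, ← mul_pow]
    gcongr
    calc ‖b (ζ ^ k * z)‖ ≤ E := h4
      _ = E / κ * κ := by field_simp
      _ ≤ E / κ * ‖b w‖ := by gcongr)
  -- the final inequality
  have f1 : 1 ≤ C1 ^ D * H ^ m * θ ^ (D * e) := by
    have h4 : (‖b 0‖ ^ (2 * D)) ^ m ≤
        ((E / κ) ^ 2) ^ D * ((4 * E ^ 2) ^ D * H) ^ m * θ ^ (D * e) := by
      calc (‖b 0‖ ^ (2 * D)) ^ m ≤ ‖g 0‖ ^ m := by gcongr
        _ ≤ _ := hgain
        _ ≤ _ := by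
          have := pow_le_pow_of_le_one hθ0 hθ.le hnD
          gcongr
    have h5 : C1 ^ D * H ^ m * θ ^ (D * e) =
        ((E / κ) ^ 2) ^ D * ((4 * E ^ 2) ^ D * H) ^ m * θ ^ (D * e) / (‖b 0‖ ^ (2 * D)) ^ m := by
      rw [hC1, div_pow, mul_pow, mul_pow ((4 * E ^ 2) ^ D), ← pow_mul (4 * E ^ 2),
        ← pow_mul (4 * E ^ 2), mul_comm m D, ← pow_mul, ← pow_mul, ← pow_mul, ← pow_mul,
        show 2 * (m * D) = 2 * D * m by ring]
      field_simp
    rw [h5, one_le_div (by positivity)]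
    exact h4
  have f2 : 1 ≤ C2 ^ D * (1 / 2) ^ (D * e) := by
    calc (1 : ℝ) ≤ (C1 ^ D * H ^ m * θ ^ (D * e)) ^ h := one_le_pow₀ f1
      _ = (C1 ^ h) ^ D * (H ^ h) ^ m * (θ ^ h) ^ (D * e) := by
          simp only [mul_pow, ← pow_mul]; ring_nf
      _ ≤ (C1 ^ h) ^ D * ((4 * B ^ 2) ^ D * σ ^ (D * e)) ^ m * (θ ^ h) ^ (D * e) := by gcongr
      _ = C2 ^ D * (σ ^ m * θ ^ h) ^ (D * e) := by
          rw [hC2]; generalize 4 * B ^ 2 = B4
          simp only [mul_pow, ← pow_mul]; ring_nf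
      _ ≤ C2 ^ D * (1 / 2) ^ (D * e) := by gcongr
  have f3 : C2 ^ D < (2 ^ e) ^ D := pow_lt_pow_left₀ he (by positivity) hD0.ne'
  have f4 : C2 ^ D * (1 / 2 : ℝ) ^ (D * e) < (2 ^ e) ^ D * (1 / 2) ^ (D * e) := by gcongr
  rw [← pow_mul, mul_comm e D, ← mul_pow] at f4
  norm_num at f4
  norm_num at f2
  linarith

end Crest.Agent.T15.AlgM
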