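import Mathlib
import Crest.Agent.T15.AlgMB_4

/-!
# Row 15, block Ht: algebraicity criterion, part C (helper4)

Two meromorphic functions on the unit disc with Taylor series in `ℤ⟦q⟧`, invariant under one
parabolic element `τ ↦ τ / (N τ + 1)`, are algebraically dependent.
-/

set_option autoImplicit false

open Set Filter Topology Metric PowerSeries Complex
open scoped Real

noncomputable section

namespace Crest.Agent.T15.AlgM

/-- `e(τ) = exp (2 π i τ)` -/
def ee (τ : ℂ) : ℂ := cexp (2 * π * I * τ)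

lemma qParam_one (τ : ℂ) : Function.Periodic.qParam 1 τ = ee τ := by
  simp [Function.Periodic.qParam, ee]

lemma norm_ee (τ : ℂ) : ‖ee τ‖ = Real.exp (-(2 * π * τ.im)) := by
  rw [ee, norm_exp]; congr 1; simp

lemma ee_add (a b : ℂ) : ee (a + b) = ee a * ee b := by
  rw [ee, ee, ee, ← Complex.exp_add]; congr 1; ring

lemma ee_int (j : ℤ) : ee j = 1 := by
  rw [ee, mul_comm]; exact exp_int_mul_two_pi_mul_I j

lemma ee_pow (a : ℂ) (k : ℕ) : ee a ^ k = ee (k * a) := by
  rw [ee, ee, ← Complex.exp_nat_mul]; congr 1; ring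

lemma continuous_ee : Continuous ee := by unfold ee; fun_prop

lemma countable_ee {S : Set ℂ} (hS : S.Countable) : (ee ⁻¹' S).Countable := by
  have h1 : (cexp ⁻¹' S).Countable := countable_preimage_exp.2 hS
  refine h1.preimage_of_injOn (f := fun τ : ℂ => 2 * π * I * τ) fun a _ b _ h => ?_
  exact mul_left_cancel₀ two_pi_I_ne_zero h

/-- clearing the poles on a compact set by an entire function with finitely many zeros -/
lemma exists_clear {f : ℂ → ℂ} {K : Set ℂ} (hK : IsCompact K) (hf : MeromorphicOn f K)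
    (h0 : AnalyticAt ℂ f 0) : ∃ b : ℂ → ℂ, (∀ z, AnalyticAt ℂ b z) ∧ b 0 ≠ 0 ∧
      {z | b z = 0}.Finite ∧ AnalyticOnNhd ℂ (b * f) K := by
  classical
  have hfin : (K \ {z | AnalyticAt ℂ f z}).Finite :=
    hK.finite_sdiff_of_mem_codiscreteWithin hf.eventually_codiscreteWithin_analyticAt
  have hn : ∀ z : ℂ, ∃ n : ℕ, z ∈ K → AnalyticAt ℂ (fun w => (w - z) ^ n • f w) z := by
    intro z
    by_cases hz : z ∈ K
    · obtain ⟨n, hn⟩ := hf z hz
      exact ⟨n, fun _ => hn⟩
    · exact ⟨0, fun h => (hz h).elim⟩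
  choose n hn using hn
  have an : ∀ (s : Finset ℂ) (z : ℂ), AnalyticAt ℂ (fun w => ∏ a ∈ s, (w - a) ^ n a) z :=
    fun s z => Finset.analyticAt_fun_prod _ fun a _ => by fun_prop
  have hz : ∀ z, ∏ a ∈ hfin.toFinset, (z - a) ^ n a = 0 → z ∈ K \ {z | AnalyticAt ℂ f z} := by
    intro z h
    obtain ⟨a, ha, h⟩ := Finset.prod_eq_zero_iff.1 h
    have : z = a := sub_eq_zero.1 (eq_zero_of_pow_eq_zero h)
    rw [this]
    exact hfin.mem_toFinset.1 ha
  refine ⟨fun w => ∏ a ∈ hfin.toFinset, (w - a) ^ n a, an _, fun h => (hz 0 h).2 h0,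
    hfin.subset hz, fun z hzK => ?_⟩
  by_cases h : AnalyticAt ℂ f z
  · exact (an _ z).mul h
  · have hm : z ∈ hfin.toFinset := hfin.mem_toFinset.2 ⟨hzK, h⟩
    have := (an (hfin.toFinset.erase z) z).mul (hn z hzK)
    refine this.congr (Eventually.of_forall fun w => ?_)
    simp only [Pi.mul_apply, smul_eq_mul]
    rw [← Finset.mul_prod_erase _ _ hm]
    ring

/-- every point of the circle has a rotate over the interval -/
lemma exists_rot {m : ℕ} (hm : 0 < m) (y lo : ℝ) {z : ℂ} (hz : ‖z‖ = Real.exp (-(2 * π * y))) :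
    ∃ k < m, ∃ t ∈ Icc lo (lo + 1 / m), ee (1 / m) ^ k * z = ee (t + y * I) := by
  have hm' : (0 : ℝ) < m := by exact_mod_cast hm
  set t₀ : ℝ := arg z / (2 * π) with ht₀
  have hz' : z = ee (t₀ + y * I) := by
    rw [ee_add]
    have h1 : ee (y * I) = (‖z‖ : ℂ) := by
      rw [hz, ee, ofReal_exp]; congr 1; push_cast
      linear_combination (2 * π * y : ℂ) * I_mul_I
    have h2 : ee t₀ = cexp (arg z * I) := by
      rw [ee, ht₀]; congr 1; push_cast
      have : (π : ℂ) ≠ 0 := ofReal_ne_zero.2 Real.pi_ne_zero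
      field_simp
    rw [h1, h2, mul_comm, norm_mul_exp_arg_mul_I]
  set j : ℤ := ⌈m * (lo - t₀)⌉ with hj
  have hmz : (0 : ℤ) < m := by exact_mod_cast hm
  refine ⟨(j % m).toNat, ?_, t₀ + j / m, ⟨?_, ?_⟩, ?_⟩
  · have := Int.emod_lt_of_pos j hmz
    have := Int.emod_nonneg j hmz.ne'
    omega
  · have := Int.le_ceil (m * (lo - t₀))
    rw [← hj] at this
    rw [← sub_le_iff_le_add', le_div_iff₀ hm']
    linarith
  · have := (Int.ceil_lt_add_one (m * (lo - t₀))).le
    rw [← hj] at this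
    rw [← le_sub_iff_add_le', div_le_iff₀ hm']
    have h1 : (lo + 1 / m - t₀) * m = m * (lo - t₀) + 1 := by field_simp; ring
    linarith
  · have h1 : (((j % m).toNat : ℕ) : ℂ) = (j : ℂ) - m * ((j / m : ℤ) : ℂ) := by
      have h2 : (((j % m).toNat : ℕ) : ℤ) = j - m * (j / m) := by
        rw [Int.toNat_of_nonneg (Int.emod_nonneg j hmz.ne'), Int.emod_def]
      exact_mod_cast congrArg (Int.cast : ℤ → ℂ) h2
    conv_lhs => rw [hz']
    have h3 : ∀ a : ℂ, ee a = ee (a + ((j / m : ℤ) : ℂ)) := fun a => by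
      rw [ee_add, ee_int, mul_one]
    rw [ee_pow, ← ee_add, h1, h3]
    congr 1
    have : (m : ℂ) ≠ 0 := by exact_mod_cast hm.ne'
    push_cast
    field_simp
    ring

/-- **algebraicity criterion** (coefficient form) -/
theorem alg_sum {N : ℕ} (hN : 0 < N) {X U : ℂ → ℂ}
    (mX : MeromorphicOn X (ball 0 1)) (mU : MeromorphicOn U (ball 0 1))
    (hX : AnalyticAt ℂ X 0) (hU : AnalyticAt ℂ U 0)
    {x u : PowerSeries ℤ} (hx : tay X = toC x) (hu : tay U = toC u)
    {Z : Set ℂ} (hZ : Z.Countable)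
    (inv : ∀ τ : ℂ, 0 < τ.im → τ ∉ Z →
      X (ee (τ / (N * τ + 1))) = X (ee τ) ∧ U (ee (τ / (N * τ + 1))) = U (ee τ)) :
    ∃ (D : ℕ) (t : Fin D × Fin D → ℤ), t ≠ 0 ∧
      ∑ p, C (t p) * (x ^ (p.1 : ℕ) * u ^ (p.2 : ℕ)) = 0 := by
  have hN' : (0 : ℝ) < N := by exact_mod_cast hN
  obtain ⟨m, hm⟩ : ∃ m : ℕ, m = 6 * N ^ 2 := ⟨_, rfl⟩
  have hm0 : 0 < m := by rw [hm]; positivity
  have hm1 : (1 : ℝ) ≤ m := by exact_mod_cast hm0
  have hm' : (0 : ℝ) < m := by linarith
  have hmN : (m : ℝ) = 6 * N ^ 2 := by rw [hm]; push_cast; ring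
  set R : ℝ := Real.exp (-(2 * π * (1 / (2 * m)))) with hR
  have hR1 : R < 1 := Real.exp_lt_one_iff.2 (by
    have := Real.pi_pos
    have : 0 < 2 * π * (1 / (2 * (m : ℝ))) := by positivity
    linarith)
  have hsub : closedBall (0 : ℂ) R ⊆ ball 0 1 := closedBall_subset_ball hR1
  obtain ⟨b1, a1, n1, f1, c1⟩ := exists_clear (isCompact_closedBall 0 R) (mX.mono_set hsub) hX
  obtain ⟨b2, a2, n2, f2, c2⟩ := exists_clear (isCompact_closedBall 0 R) (mU.mono_set hsub) hU
  set b := b1 * b2 with hb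
  have ab : ∀ z, AnalyticAt ℂ b z := fun z => (a1 z).mul (a2 z)
  have fb : {z | b z = 0}.Countable := by
    refine (f1.union f2).countable.mono fun z hz => ?_
    simpa [hb] using hz
  -- generic height
  have hZ' : (im '' (Z ∪ (fun w : ℂ => w / (1 - N * w)) '' (ee ⁻¹' {z | b z = 0}))).Countable :=
    (hZ.union ((countable_ee fb).image _)).image _
  have hlt : 1 / (2 * (m : ℝ)) < 1 / m := one_div_lt_one_div_of_lt hm' (by linarith)
  obtain ⟨y, hyZ, hy1, hy2⟩ := (hZ'.dense_compl ℝ).exists_mem_open isOpen_Ioo (nonempty_Ioo.2 hlt)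
  have hy0 : 0 < y := lt_trans (by positivity) hy1
  set r : ℝ := Real.exp (-(2 * π * y)) with hr
  have hrR : closedBall (0 : ℂ) r ⊆ closedBall 0 R := by
    refine closedBall_subset_closedBall (Real.exp_le_exp.2 ?_)
    have := Real.pi_pos
    nlinarith
  set lo : ℝ := -1 / N - 1 / (2 * m) with hlo
  have him : ∀ t : ℝ, ((t : ℂ) + y * I).im = y := by intro t; simp
  have hden : ∀ t : ℝ, (N : ℂ) * (t + y * I) + 1 ≠ 0 := by
    intro t h
    have := congrArg im h
    simp at this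
    rcases this with h | h
    · omega
    · exact hy0.ne' h
  let σ : ℝ → ℂ := fun t => ee ((t + y * I) / (N * (t + y * I) + 1))
  have cσ : Continuous σ := continuous_ee.comp
    (Continuous.div (by fun_prop) (by fun_prop) hden)
  have nσ : ∀ t, b (σ t) ≠ 0 := by
    intro t h
    refine hyZ ⟨t + y * I, Or.inr ⟨_, h, ?_⟩, him t⟩
    have := hden t
    have h2 : 1 - (N : ℂ) * ((t + y * I) / (N * (t + y * I) + 1)) = 1 / (N * (t + y * I) + 1) := by
      field_simp; ring
    simp only [h2]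
    rw [div_div_div_cancel_right₀ this, div_one]
  have cb : Continuous b := continuous_iff_continuousAt.2 fun z => (ab z).continuousAt
  obtain ⟨κ, hκ, hκ'⟩ := (isCompact_Icc (a := lo) (b := lo + 1 / m)).exists_forall_le'
    (f := fun t => ‖b (σ t)‖) (a := 0) ((cb.comp cσ).norm.continuousOn)
    (fun t _ => norm_pos_iff.2 (nσ t))
  have hym : y * m ≤ 1 := by
    have := hy2.le
    rwa [le_div_iff₀ hm'] at this
  refine core (r := r) (s := Real.exp (-(2 * π * 3))) (κ := κ) (m := m) (ζ := ee (1 / m)) (b := b)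
    ?_ (Real.exp_pos _) (Real.exp_pos _).le ?_ ?_ hκ hX hU hx hu (fun z _ => ab z)
    (mul_ne_zero n1 n2) ?_ ?_ ?_
  · rw [norm_ee]
    simp
  · refine Real.exp_le_exp.2 ?_
    have := Real.pi_pos
    nlinarith
  · rw [hr, ← Real.exp_nat_mul, ← Real.exp_sub]
    refine Real.exp_lt_one_iff.2 ?_
    have := Real.pi_pos
    push_cast
    have h1 : (m + 1) * y < 3 := by nlinarith
    nlinarith
  · intro z hz
    have := (a2 z).mul (c1 z (hrR hz))
    refine this.congr (Eventually.of_forall fun w => ?_)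
    simp only [hb, Pi.mul_apply]; ring
  · intro z hz
    have := (a1 z).mul (c2 z (hrR hz))
    refine this.congr (Eventually.of_forall fun w => ?_)
    simp only [hb, Pi.mul_apply]; ring
  · intro z hz
    obtain ⟨k, hk, t, ht, hkt⟩ := exists_rot hm0 y lo (mem_sphere_zero_iff_norm.1 hz)
    have hi := inv (t + y * I) (by rw [him]; exact hy0)
      (fun h => hyZ ⟨_, Or.inl h, him t⟩)
    refine ⟨k, hk, σ t, ?_, hκ' t ht, by rw [hkt]; exact hi.1.symm, by rw [hkt]; exact hi.2.symm⟩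
    rw [norm_ee]
    refine Real.exp_le_exp.2 ?_
    have h1 : (((t : ℂ) + y * I) / (N * (t + y * I) + 1)).im =
        y / ((N * t + 1) ^ 2 + (N * y) ^ 2) := by
      rw [div_im, normSq_apply]
      simp
      ring
    have h2 : (N * t + 1) ^ 2 ≤ (N * y) ^ 2 := by
      have e1 : (N : ℝ) * lo = -1 - N * (1 / (2 * m)) := by rw [hlo]; field_simp
      have e2 : (N : ℝ) * (lo + 1 / m) = -1 + N * (1 / (2 * m)) := by rw [hlo]; field_simp; ring
      have e3 := mul_le_mul_of_nonneg_left ht.1 hN'.le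
      have e4 := mul_le_mul_of_nonneg_left ht.2 hN'.le
      have e5 := mul_le_mul_of_nonneg_left hy1.le hN'.le
      refine sq_le_sq' ?_ ?_ <;> linarith
    have h3 : 3 ≤ y / ((N * t + 1) ^ 2 + (N * y) ^ 2) := by
      rw [le_div_iff₀ (by positivity)]
      have : 6 * (N * y) ^ 2 = y * (y * m) := by rw [hmN]; ring
      nlinarith
    rw [h1]
    have := Real.pi_pos
    nlinarith

/-- **algebraicity criterion** -/
theorem alg {N : ℕ} (hN : 0 < N) {X U : ℂ → ℂ}
    (mX : MeromorphicOn X (ball 0 1)) (mU : MeromorphicOn U (ball 0 1))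
    (hX : AnalyticAt ℂ X 0) (hU : AnalyticAt ℂ U 0)
    {x u : PowerSeries ℤ} (hx : tay X = toC x) (hu : tay U = toC u)
    {Z : Set ℂ} (hZ : Z.Countable)
    (inv : ∀ τ : ℂ, 0 < τ.im → τ ∉ Z →
      X (ee (τ / (N * τ + 1))) = X (ee τ) ∧ U (ee (τ / (N * τ + 1))) = U (ee τ)) :
    ∃ P : MvPolynomial (Fin 2) ℤ, P ≠ 0 ∧ MvPolynomial.aeval ![x, u] P = 0 := by
  classical
  obtain ⟨D, t, ht, h⟩ := alg_sum hN mX mU hX hU hx hu hZ inv
  let φ : Fin D × Fin D → (Fin 2 →₀ ℕ) := fun p =>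
    Finsupp.single 0 (p.1 : ℕ) + Finsupp.single 1 (p.2 : ℕ)
  have hφ : Function.Injective φ := by
    intro p q h
    have h0 := congrArg (fun f : Fin 2 →₀ ℕ => f 0) h
    have h1 := congrArg (fun f : Fin 2 →₀ ℕ => f 1) h
    simp [φ] at h0 h1
    exact Prod.ext (Fin.ext h0) (Fin.ext h1)
  refine ⟨∑ p, MvPolynomial.monomial (φ p) (t p), fun h0 => ht (funext fun q => ?_), ?_⟩
  · have := congrArg (MvPolynomial.coeff (φ q)) h0
    simpa [MvPolynomial.coeff_sum, MvPolynomial.coeff_monomial, hφ.eq_iff] using this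
  · rw [map_sum, ← h]
    refine Finset.sum_congr rfl fun p _ => ?_
    rw [MvPolynomial.aeval_monomial, Finsupp.prod_add_index' (by simp) (by simp [pow_add])]
    simp

end Crest.Agent.T15.AlgM
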