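import Crest.Agent.T15.ArtDef_34

/-!
# Row 15, Artin reciprocity: Frobenius and inertia in towers (helper34)
-/

set_option autoImplicit false
set_option linter.unusedSectionVars false

open NumberField IsDedekindDomain
open scoped Pointwise
open Crest.Agent.R018.Selmerx380

namespace Crest.Agent.T15.Art

section tower

variable {K E M : Type*} [Field K] [Field E] [Field M] [Algebra K E] [Algebra E M] [Algebra K M]
  [IsScalarTower K E M]

theorem coe_smul_int (g : M ≃ₐ[K] M) (x : 𝓞 M) : ((g • x : 𝓞 M) : M) = g (x : M) :=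
  algebraMap.smul' _ _ M

variable (E) in
/-- restriction of automorphisms -/
noncomputable abbrev res [Normal K E] : (M ≃ₐ[K] M) →* (E ≃ₐ[K] E) :=
  AlgEquiv.restrictNormalHom E

theorem res_comm [Normal K E] (g : M ≃ₐ[K] M) (x : E) :
    algebraMap E M (res E g x) = g (algebraMap E M x) :=
  AlgEquiv.restrictNormal_commutes g E x

theorem res_int [Normal K E] (g : M ≃ₐ[K] M) (x : 𝓞 E) :
    algebraMap (𝓞 E) (𝓞 M) (res E g • x) = g • algebraMap (𝓞 E) (𝓞 M) x := by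
  apply RingOfIntegers.coe_injective
  change algebraMap E M ((res E g • x : 𝓞 E) : E) = ((g • algebraMap (𝓞 E) (𝓞 M) x : 𝓞 M) : M)
  rw [coe_smul_int, coe_smul_int, res_comm]
  rfl

theorem res_eq_iff [Normal K E] (g : M ≃ₐ[K] M) (σ : E ≃ₐ[K] E) :
    res E g = σ ↔ ∀ x, g (algebraMap E M x) = algebraMap E M (σ x) := by
  constructor
  · rintro rfl x; rw [res_comm]
  · intro h; ext x
    apply (algebraMap E M).injective
    rw [res_comm, h]

theorem res_rs [Normal K E] (h : M ≃ₐ[E] M) : res E (h.restrictScalars K) = 1 :=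
  (res_eq_iff _ _).2 fun x => h.commutes x

theorem frob_res [Normal K E] {g : M ≃ₐ[K] M} {P : Ideal (𝓞 M)} {q : ℕ}
    (h : ∀ x : 𝓞 M, g • x - x ^ q ∈ P) (x : 𝓞 E) : res E g • x - x ^ q ∈ P.under (𝓞 E) := by
  rw [Ideal.under, Ideal.mem_comap, map_sub, map_pow, res_int]
  exact h _

theorem inertia_res [Normal K E] {g : M ≃ₐ[K] M} {P : Ideal (𝓞 M)}
    (h : g ∈ P.inertia (M ≃ₐ[K] M)) : res E g ∈ (P.under (𝓞 E)).inertia (E ≃ₐ[K] E) := by
  intro x
  have := frob_res (E := E) (q := 1) (g := g) (P := P) (fun x => by simpa using h x) x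
  simpa using this

variable [NumberField K] [NumberField E] [NumberField M]

/-- inertia surjects onto inertia -/
theorem inertia_lift [Normal K E] [IsGalois K M] (P : Ideal (𝓞 M)) [P.IsPrime] (σ : E ≃ₐ[K] E)
    (hσ : σ ∈ (P.under (𝓞 E)).inertia (E ≃ₐ[K] E)) :
    ∃ s ∈ P.inertia (M ≃ₐ[K] M), res E s = σ := by
  have : IsGalois E M := IsGalois.tower_top_of_isGalois K E M
  obtain ⟨s0, hs0⟩ := AlgEquiv.restrictNormalHom_surjective (F := K) (K₁ := E) M σ
  have hu : (s0 • P).under (𝓞 E) = P.under (𝓞 E) := by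
    ext x
    rw [Ideal.under, Ideal.mem_comap, Ideal.mem_pointwise_smul_iff_inv_smul_mem, ← res_int,
      map_inv, hs0]
    have h1 : σ⁻¹ • x - x ∈ P.under (𝓞 E) := inv_mem hσ x
    change σ⁻¹ • x ∈ P.under (𝓞 E) ↔ _
    constructor
    · intro h; simpa using sub_mem h h1
    · intro h; simpa using add_mem h1 h
  obtain ⟨g, hg⟩ := Algebra.IsInvariant.exists_smul_of_under_eq (𝓞 E) (𝓞 M) (M ≃ₐ[E] M)
    (s0 • P) P hu
  set s1 : M ≃ₐ[K] M := g.restrictScalars K * s0 with hs1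
  have hr : res E s1 = σ := by rw [hs1, map_mul, res_rs, one_mul, hs0]
  have hP : s1 • P = P := by rw [hs1, mul_smul]; exact hg.symm
  let e0 : 𝓞 M ≃+* 𝓞 M := MulSemiringAction.toRingEquiv (M ≃ₐ[K] M) (𝓞 M) s1
  have he0 : P = P.map (e0 : 𝓞 M →+* 𝓞 M) := by
    conv_lhs => rw [← hP]
    rfl
  let e1 : 𝓞 M ⧸ P ≃+* 𝓞 M ⧸ P := Ideal.quotientEquiv P P e0 he0
  let e : (𝓞 M ⧸ P) ≃ₐ[𝓞 E ⧸ P.under (𝓞 E)] (𝓞 M ⧸ P) :=
    AlgEquiv.ofRingEquiv (f := e1) (by
      intro r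
      obtain ⟨x, rfl⟩ := Ideal.Quotient.mk_surjective r
      change Ideal.Quotient.mk P (s1 • algebraMap (𝓞 E) (𝓞 M) x) =
        Ideal.Quotient.mk P (algebraMap (𝓞 E) (𝓞 M) x)
      rw [← res_int, hr, Ideal.Quotient.eq, ← map_sub]
      exact hσ x)
  obtain ⟨⟨h, hh⟩, hh2⟩ := Ideal.Quotient.stabilizerHom_surjective (M ≃ₐ[E] M)
    (P.under (𝓞 E)) P e
  have key : ∀ x : 𝓞 M, h • x - s1 • x ∈ P := fun x =>
    (Ideal.Quotient.eq).1 (DFunLike.congr_fun hh2 (Ideal.Quotient.mk P x))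
  refine ⟨s1 * (h.restrictScalars K)⁻¹, fun x => ?_, by
    rw [map_mul, map_inv, res_rs, hr, inv_one, mul_one]⟩
  have h1 := P.neg_mem (key (h⁻¹ • x))
  rw [smul_inv_smul, neg_sub] at h1
  exact h1

end tower

section one

variable {K E : Type*} [Field K] [Field E] [Algebra K E] [NumberField K] [NumberField E]

theorem ne_bot_over (w : Pr K) (P : Ideal (𝓞 E)) [P.LiesOver w.asIdeal] : P ≠ ⊥ :=
  Ideal.ne_bot_of_liesOver_of_ne_bot w.ne_bot P

theorem exists_frob [IsGalois K E] (w : Pr K) (P : Ideal (𝓞 E)) [P.IsPrime]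
    [P.LiesOver w.asIdeal] :
    ∃ g : E ≃ₐ[K] E, ∀ x : 𝓞 E, g • x - x ^ Ideal.absNorm w.asIdeal ∈ P := by
  have : Finite (𝓞 E ⧸ P) := Ideal.finiteQuotientOfFreeOfNeBot P (ne_bot_over w P)
  obtain ⟨g, hg⟩ := IsArithFrobAt.exists_of_isInvariant (𝓞 K) (E ≃ₐ[K] E) P
  exact ⟨g, (frob_iff w P g).1 hg⟩

omit [NumberField K] [NumberField E] in
theorem frob_div {g g' : E ≃ₐ[K] E} {P : Ideal (𝓞 E)} {q : ℕ}
    (h : ∀ x : 𝓞 E, g • x - x ^ q ∈ P) (h' : ∀ x : 𝓞 E, g' • x - x ^ q ∈ P) :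
    g * g'⁻¹ ∈ P.inertia (E ≃ₐ[K] E) := by
  intro x
  simpa [mul_smul] using sub_mem (h (g'⁻¹ • x)) (h' (g'⁻¹ • x))

theorem frob_stab [IsGalois K E] {w : Pr K} {P : Ideal (𝓞 E)} [P.IsPrime] [P.LiesOver w.asIdeal]
    {g : E ≃ₐ[K] E} (h : ∀ x : 𝓞 E, g • x - x ^ Ideal.absNorm w.asIdeal ∈ P) : g • P = P :=
  ((frob_iff w P g).2 h).mem_stabilizer

omit [NumberField K] [NumberField E] in
theorem frob_pow {g : E ≃ₐ[K] E} {P : Ideal (𝓞 E)} {q : ℕ}
    (h : ∀ x : 𝓞 E, g • x - x ^ q ∈ P) (j : ℕ) (x : 𝓞 E) : (g ^ j) • x - x ^ q ^ j ∈ P := by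
  induction j generalizing x with
  | zero => simp
  | succ j ih =>
    have h1 : ((g ^ j) • x) ^ q - (x ^ q ^ j) ^ q ∈ P :=
      P.mem_of_dvd (sub_dvd_pow_sub_pow _ _ q) (ih x)
    have := add_mem (h ((g ^ j) • x)) h1
    rw [pow_succ', mul_smul, pow_succ, pow_mul]
    simpa using this

attribute [local instance] Ideal.Quotient.field in
/-- the decomposition group is generated by Frobenius and inertia -/
theorem stab_frob [IsGalois K E] {w : Pr K} {P : Ideal (𝓞 E)} [P.IsPrime] [P.LiesOver w.asIdeal]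
    {g : E ≃ₐ[K] E} (h : ∀ x : 𝓞 E, g • x - x ^ Ideal.absNorm w.asIdeal ∈ P)
    (s : E ≃ₐ[K] E) (hs : s • P = P) : ∃ j : ℕ, s * (g ^ j)⁻¹ ∈ P.inertia (E ≃ₐ[K] E) := by
  have hP := ne_bot_over w P
  have : P.IsMaximal := Ideal.IsPrime.isMaximal inferInstance hP
  have : Finite (𝓞 E ⧸ P) := Ideal.finiteQuotientOfFreeOfNeBot P hP
  have : Finite (𝓞 K ⧸ w.asIdeal) := Ideal.finiteQuotientOfFreeOfNeBot _ w.ne_bot
  have := Fintype.ofFinite (𝓞 K ⧸ w.asIdeal)
  have := w.isMaximal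
  obtain ⟨j, hj⟩ := (FiniteField.bijective_frobeniusAlgEquivOfAlgebraic_pow (𝓞 K ⧸ w.asIdeal)
    (𝓞 E ⧸ P)).2 (Ideal.Quotient.stabilizerHom P w.asIdeal (E ≃ₐ[K] E) ⟨s, hs⟩)
  refine ⟨j, frob_div (q := Ideal.absNorm w.asIdeal ^ (j : ℕ)) (fun x => ?_) (frob_pow h j)⟩
  have h1 := DFunLike.congr_fun hj (Ideal.Quotient.mk P x)
  simp only [AlgEquiv.coe_pow, FiniteField.coe_frobeniusAlgEquivOfAlgebraic_iterate] at h1
  rw [← Ideal.Quotient.eq, map_pow, Ideal.absNorm_apply, Submodule.cardQuot_apply,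
    Nat.card_eq_fintype_card]
  exact h1.symm

/-- the prime `P ∣ w` as a point of the height one spectrum -/
def upP (w : Pr K) (P : Ideal (𝓞 E)) [P.IsPrime] [P.LiesOver w.asIdeal] : Pr E :=
  ⟨P, inferInstance, ne_bot_over w P⟩

theorem val_unr [IsGalois K E] (w : Pr K) (P : Ideal (𝓞 E)) [P.IsPrime] [P.LiesOver w.asIdeal]
    (h : P.inertia (E ≃ₐ[K] E) = ⊥) (x : K) :
    (upP w P).valuation E (algebraMap K E x) = w.valuation K x := by
  have : (upP w P).asIdeal.LiesOver w.asIdeal := ‹P.LiesOver w.asIdeal›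
  have := w.isMaximal
  have h1 := Ideal.card_inertia_eq_ramificationIdxIn (G := E ≃ₐ[K] E) w.asIdeal P
  rw [h, Subgroup.card_bot, Ideal.ramificationIdxIn_eq_ramificationIdx w.asIdeal P (E ≃ₐ[K] E)]
    at h1
  rw [← HeightOneSpectrum.valuation_liesOver E w (upP w P)]
  change _ ^ w.asIdeal.ramificationIdx' P = _
  rw [Ideal.ramificationIdx'_eq_ramificationIdx _ _ w.ne_bot, ← h1, pow_one]

theorem val_lt_over (w : Pr K) (W : Pr E) [W.asIdeal.LiesOver w.asIdeal] {x y : K}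
    (h : w.valuation K x < w.valuation K y) :
    W.valuation E (algebraMap K E x) < W.valuation E (algebraMap K E y) := by
  rw [← HeightOneSpectrum.valuation_liesOver E w W, ← HeightOneSpectrum.valuation_liesOver E w W]
  exact pow_lt_pow_left₀ h zero_le
    (Ideal.IsDedekindDomain.ramificationIdx'_ne_zero_of_liesOver W.asIdeal w.ne_bot)

theorem val_one_over (w : Pr K) (W : Pr E) [W.asIdeal.LiesOver w.asIdeal] {x : K}
    (h : w.valuation K x = 1) : W.valuation E (algebraMap K E x) = 1 := by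
  rw [← HeightOneSpectrum.valuation_liesOver E w W, h, one_pow]

theorem val_smul (W : Pr E) (g : E ≃ₐ[K] E) (hg : g • W.asIdeal = W.asIdeal) (x : E) :
    W.valuation E (g x) = W.valuation E x := by
  have hi : ∀ x : 𝓞 E, W.intValuation (g • x) = W.intValuation x := by
    intro x
    by_cases hx : x = 0
    · rw [hx, smul_zero]
    have hx' : g • x ≠ 0 := fun h => hx (by rwa [smul_eq_zero_iff_eq] at h)
    have key : ∀ n : ℕ, W.intValuation (g • x) ≤ WithZero.exp (-(n : ℤ)) ↔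
        W.intValuation x ≤ WithZero.exp (-(n : ℤ)) := by
      intro n
      rw [HeightOneSpectrum.intValuation_le_pow_iff_mem,
        HeightOneSpectrum.intValuation_le_pow_iff_mem]
      conv_lhs => rw [← hg, ← smul_pow', Ideal.smul_mem_pointwise_smul_iff]
    have h1 := W.intValuation_if_neg hx'
    have h2 := W.intValuation_if_neg hx
    exact le_antisymm (h2 ▸ (key _).mpr h2.le) (h1 ▸ (key _).mp h1.le)
  obtain ⟨r, s, -, rfl⟩ := IsFractionRing.div_surjective (A := 𝓞 E) x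
  have h2 : g (algebraMap (𝓞 E) E r / algebraMap (𝓞 E) E s) =
      algebraMap (𝓞 E) E (g • r) / algebraMap (𝓞 E) E (g • s) := by
    rw [map_div₀]; rfl
  rw [h2, map_div₀, map_div₀]
  simp only [HeightOneSpectrum.valuation_of_algebraMap, hi]

end one

end Crest.Agent.T15.Art
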