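import Crest.Agent.T15.ArtA_34

/-!
# Row 15, Artin reciprocity: the torus lemma and the core theorem (helper34)
-/

set_option autoImplicit false
set_option linter.unusedSectionVars false

open NumberField IsDedekindDomain Finset
open scoped Pointwise
open Crest.Agent.R018.Selmerx380

namespace Crest.Agent.T15.Art

section op

variable {K E : Type*} [Field K] [Field E] [Algebra K E]

/-- the operator `x ↦ c * g x` -/
def op (c : E) (g : E ≃ₐ[K] E) : Module.End K E := LinearMap.mulLeft K c ∘ₗ g.toLinearMap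

theorem op_apply (c : E) (g : E ≃ₐ[K] E) (x : E) : op c g x = c * g x := rfl

theorem op_mul (c d : E) (g h : E ≃ₐ[K] E) : op c g * op d h = op (c * g d) (g * h) := by
  ext x
  simp [op_apply, mul_assoc]

theorem op_pow (c : E) (g : E ≃ₐ[K] E) (r : ℕ) :
    op c g ^ r = op (∏ k ∈ range r, (g ^ k) c) (g ^ r) := by
  induction r with
  | zero => ext x; simp [op_apply]
  | succ r ih => rw [pow_succ, ih, op_mul, prod_range_succ, pow_succ]

theorem op_alg (a : K) : op (algebraMap K E a) (1 : E ≃ₐ[K] E) = algebraMap K _ a := by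
  ext x
  simp [op_apply, Algebra.smul_def]

theorem op_comm {s t : E ≃ₐ[K] E} (h : Commute s t) {c d : E} (hc : c ≠ 0) (hd : d ≠ 0)
    (hcd : t c / c = s d / d) : Commute (op c s) (op d t) := by
  rw [div_eq_div_iff hc hd] at hcd
  rw [Commute, SemiconjBy, op_mul, op_mul, h.eq, mul_comm c, ← hcd, mul_comm d]

theorem prod_ne {c : E} (hc : c ≠ 0) (g : E ≃ₐ[K] E) (r : ℕ) : ∏ k ∈ range r, (g ^ k) c ≠ 0 :=
  prod_ne_zero_iff.2 fun _ _ => (map_ne_zero _).2 hc

theorem fixed_of_comm {b c : E} {s : E ≃ₐ[K] E} (hc : c ≠ 0) (h : Commute (op c s) (op b 1)) :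
    s b = b := by
  have := DFunLike.congr_fun h.eq 1
  simp only [Module.End.mul_apply, op_apply, map_one, mul_one, AlgEquiv.one_apply] at this
  exact mul_left_cancel₀ hc (this.trans (mul_comm _ _))

theorem norm_cyc [FiniteDimensional K E] [IsGalois K E] {s : E ≃ₐ[K] E}
    (hs : ∀ g, g ∈ Subgroup.zpowers s) (x : E) :
    algebraMap K E (Algebra.norm K x) = ∏ k ∈ range (orderOf s), (s ^ k) x := by
  classical
  rw [Algebra.norm_eq_prod_automorphisms]
  symm
  refine prod_bij (fun k _ => s ^ k) (fun _ _ => mem_univ _) (fun i hi j hj h => ?_)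
    (fun g _ => ?_) fun _ _ => rfl
  · exact pow_injOn_Iio_orderOf (by simpa using hi) (by simpa using hj) h
  · obtain ⟨k, hk, h⟩ := mem_image.1 ((mem_zpowers_iff_mem_range_orderOf).1 (hs g))
    exact ⟨k, hk, h⟩

end op

section core

variable {K E : Type*} [Field K] [Field E] [Algebra K E] [NumberField K] [NumberField E]
  [IsGalois K E]

/-- the torus lemma -/
theorem tor {s t : E ≃ₐ[K] E} (h : Commute s t) {N n : ℕ} (hs : s ^ N = 1) (ht : t ^ n = 1)
    {c d : E} (hc : c ≠ 0) (hd : d ≠ 0) (a b : Kˣ)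
    (ha : ∏ k ∈ range N, (s ^ k) c = algebraMap K E a) (hcd : t c / c = s d / d)
    (hb : ∏ k ∈ range n, (t ^ k) d = algebraMap K E b) {w : Pr K} {i j : ℕ}
    (hw : Fr w ⊥ (s ^ i * t ^ j)) :
    (N * n : ℤ) ∣ n * (i * ord (𝓞 K) w a) + N * (j * ord (𝓞 K) w b) := by
  obtain ⟨P, _, _, hf, hi⟩ := hw
  have hA : op c s ^ N = algebraMap K _ (a : K) := by rw [op_pow, ha, hs, op_alg]
  have hB : op d t ^ n = algebraMap K _ (b : K) := by rw [op_pow, hb, ht, op_alg]
  obtain ⟨e, he, hC⟩ : ∃ e : E, e ≠ 0 ∧ op c s ^ i * op d t ^ j = op e (s ^ i * t ^ j) :=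
    ⟨_, mul_ne_zero (prod_ne hc s i) ((map_ne_zero _).2 (prod_ne hd t j)), by
      rw [op_pow, op_pow, op_mul]⟩
  have h1 : op e (s ^ i * t ^ j) ^ (N * n) =
      algebraMap K _ ((a : K) ^ (n * i) * (b : K) ^ (N * j)) := by
    rw [← hC, ((op_comm h hc hd hcd).pow_pow i j).mul_pow, map_mul, map_pow, map_pow, ← hA, ← hB,
      ← pow_mul, ← pow_mul, ← pow_mul, ← pow_mul]
    congr 2 <;> ring
  have h2 := DFunLike.congr_fun h1 1
  rw [op_pow, op_apply, map_one, mul_one, Module.algebraMap_end_apply, Algebra.smul_def,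
    mul_one] at h2
  have h3 := congrArg ((upP w P).valuation E) h2
  have h4 : ∀ k : ℕ, (upP w P).valuation E (((s ^ i * t ^ j) ^ k) e) = (upP w P).valuation E e :=
    fun k => val_smul (upP w P) _ (MulAction.mem_stabilizer_iff.1 (pow_mem
      (MulAction.mem_stabilizer_iff.2 (frob_stab hf)) k)) e
  rw [val_unr w P (le_bot_iff.1 hi), map_prod, prod_congr rfl fun k _ => h4 k, prod_const,
    card_range, map_mul, map_pow, map_pow, valuation_eq_exp, valuation_eq_exp,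
    ← WithZero.exp_log (((upP w P).valuation E).ne_zero_iff.2 he), ← WithZero.exp_nsmul,
    ← WithZero.exp_nsmul, ← WithZero.exp_nsmul, ← WithZero.exp_add, WithZero.exp_inj] at h3
  refine ⟨-WithZero.log ((upP w P).valuation E e), ?_⟩
  simp only [nsmul_eq_mul] at h3
  push_cast at h3
  linear_combination h3

theorem exists_alg {s t : E ≃ₐ[K] E} (hgen : ∀ g : E ≃ₐ[K] E, ∃ i j : ℕ, g = s ^ i * t ^ j)
    {x : E} (hs : s x = x) (ht : t x = x) : ∃ b : K, algebraMap K E b = x := by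
  have hp : ∀ g : E ≃ₐ[K] E, g x = x → ∀ i : ℕ, (g ^ i) x = x := fun g hg i => by
    induction i with
    | zero => rfl
    | succ i ih => rw [pow_succ, AlgEquiv.mul_apply, hg, ih]
  refine (IsGalois.mem_range_algebraMap_iff_fixed x).2 fun g => ?_
  obtain ⟨i, j, rfl⟩ := hgen g
  rw [AlgEquiv.mul_apply, hp t ht, hp s hs]

theorem Fr.all {w : Pr K} {g : E ≃ₐ[K] E} (hc : ∀ x y : E ≃ₐ[K] E, Commute x y) (h : Fr w ⊥ g)
    (P : Ideal (𝓞 E)) [P.IsPrime] [P.LiesOver w.asIdeal] :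
    (∀ x : 𝓞 E, g • x - x ^ Ideal.absNorm w.asIdeal ∈ P) ∧ P.inertia (E ≃ₐ[K] E) = ⊥ := by
  obtain ⟨Q, _, _, hf, hi⟩ := h
  obtain ⟨u, rfl⟩ := Algebra.IsInvariant.exists_smul_of_under_eq (𝓞 K) (𝓞 E) (E ≃ₐ[K] E) Q P
    ((Ideal.over_def Q w.asIdeal).symm.trans (Ideal.over_def P w.asIdeal))
  refine ⟨fun x => ?_, eq_bot_iff.2 fun v hv => hi fun x => ?_⟩
  · rw [Ideal.mem_pointwise_smul_iff_inv_smul_mem, smul_sub, smul_pow', ← mul_smul,
      (hc _ g).eq, mul_smul]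
    exact hf _
  · have : v • u • x - u • x ∈ u • Q := hv (u • x)
    rwa [← mul_smul, (hc v u).eq, mul_smul, ← smul_sub, Ideal.smul_mem_pointwise_smul_iff] at this

end core

section mid

variable {K F E : Type*} [Field K] [Field F] [Field E] [Algebra K F] [Algebra F E] [Algebra K E]
  [IsScalarTower K F E]

theorem rs_pow (s : E ≃ₐ[F] E) (k : ℕ) :
    (s ^ k).restrictScalars K = s.restrictScalars K ^ k := by
  induction k with
  | zero => rfl
  | succ k ih => rw [pow_succ, pow_succ, ← ih]; rfl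

theorem rs_inj {u : E ≃ₐ[F] E} (hu : u.restrictScalars K = 1) : u = 1 :=
  AlgEquiv.ext fun x => DFunLike.congr_fun hu x

theorem rs_smul (u : E ≃ₐ[F] E) (x : 𝓞 E) : u.restrictScalars K • x = u • x := by
  apply RingOfIntegers.coe_injective
  change ((u.restrictScalars K • x : 𝓞 E) : E) = ((u • x : 𝓞 E) : E)
  rw [coe_smul_int, coe_smul_int]
  rfl

theorem rs_inertia {u : E ≃ₐ[F] E} {P : Ideal (𝓞 E)} (hu : u ∈ P.inertia (E ≃ₐ[F] E)) :
    u.restrictScalars K ∈ P.inertia (E ≃ₐ[K] E) := fun x => by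
  rw [rs_smul]; exact hu x

theorem rs_stab {u : E ≃ₐ[F] E} {P : Ideal (𝓞 E)} (hu : u • P = P) :
    u.restrictScalars K • P = P := by
  ext x
  conv_rhs => rw [← hu]
  simp only [Ideal.mem_pointwise_smul_iff_inv_smul_mem]
  rw [← rs_smul (K := K) u⁻¹]
  rfl

theorem norm_mid [FiniteDimensional F E] [IsGalois F E] {s : E ≃ₐ[F] E}
    (hs : ∀ g, g ∈ Subgroup.zpowers s) (x : E) : algebraMap F E (Algebra.norm F x) =
      ∏ k ∈ range (orderOf s), (s.restrictScalars K ^ k) x := by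
  rw [norm_cyc hs]
  exact prod_congr rfl fun k _ => by rw [← rs_pow]; rfl

end mid

theorem exists_mid {K E : Type} [Field K] [Field E] [Algebra K E] [NumberField K] [NumberField E]
    [IsGalois K E] (s : E ≃ₐ[K] E) :
    ∃ (F : Type) (_ : Field F) (_ : NumberField F) (_ : Algebra K F) (_ : Algebra F E)
      (_ : IsScalarTower K F E) (s' : E ≃ₐ[F] E), s'.restrictScalars K = s ∧
      (∀ g, g ∈ Subgroup.zpowers s') ∧ orderOf s' = orderOf s := by
  let F := IntermediateField.fixedField (Subgroup.zpowers s)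
  let e := IntermediateField.subgroupEquivAlgEquiv (Subgroup.zpowers s)
  refine ⟨F, inferInstance, inferInstance, inferInstance, inferInstance, inferInstance,
    e ⟨s, Subgroup.mem_zpowers s⟩, rfl, fun g => ?_, by rw [e.orderOf_eq, Subgroup.orderOf_mk]⟩
  obtain ⟨⟨x, k, hk⟩, rfl⟩ := e.surjective g
  refine ⟨k, ?_⟩
  beta_reduce
  rw [← map_zpow]
  exact congrArg e (Subtype.ext hk)

theorem comm_of_gen {G : Type*} [Group G] {s t : G} (h : Commute s t)
    (hgen : ∀ g : G, ∃ i j : ℕ, g = s ^ i * t ^ j) (x y : G) : Commute x y := by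
  obtain ⟨i, j, rfl⟩ := hgen x
  obtain ⟨i', j', rfl⟩ := hgen y
  exact (((Commute.refl s).pow_pow _ _).mul_right (h.pow_pow _ _)).mul_left
    ((h.symm.pow_pow _ _).mul_right ((Commute.refl t).pow_pow _ _))

theorem split_alg {G : Type*} [Group G] {s t : G} (h : Commute s t) {N : ℕ} (hN : 0 < N)
    (hsN : s ^ N = 1) (hind : ∀ i j : ℕ, s ^ i * t ^ j = 1 → s ^ i = 1 ∧ t ^ j = 1)
    {i j k r : ℕ} (hQ : N ∣ orderOf (t ^ j)) (hr : s ^ k = (s ^ i * t ^ j) ^ r) : s ^ k = 1 := by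
  have h5 : (t ^ j) ^ r = 1 := by
    rw [← pow_mul]
    refine (hind (i * r + k * (N - 1)) _ ?_).2
    have hN1 : s ^ (k * (N - 1)) * s ^ k = 1 := by
      rw [← pow_add, ← Nat.mul_succ, Nat.succ_eq_add_one, Nat.sub_add_cancel hN, mul_comm,
        pow_mul, hsN, one_pow]
    rw [← hN1, hr, (h.pow_pow _ _).mul_pow, ← pow_mul, ← pow_mul, ← mul_assoc, ← pow_add,
      add_comm]
  obtain ⟨r', rfl⟩ := hQ.trans (orderOf_dvd_of_pow_eq_one h5)
  rw [hr, (h.pow_pow _ _).mul_pow, h5, mul_one, ← pow_mul, mul_left_comm, pow_mul, hsN, one_pow]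

/-- step 1: `a` is an `s`-norm -/
theorem core1 (hH : HntStmt) (hU : UnrStmt) {K E : Type} [Field K] [Field E]
    [Algebra K E] [NumberField K] [NumberField E] [IsGalois K E] [IsTotallyComplex K]
    {s t : E ≃ₐ[K] E} (h : Commute s t) {N : ℕ} (hs : orderOf s = N)
    (hgen : ∀ g : E ≃ₐ[K] E, ∃ i j : ℕ, g = s ^ i * t ^ j)
    (hind : ∀ i j : ℕ, s ^ i * t ^ j = 1 → s ^ i = 1 ∧ t ^ j = 1)
    (T : Finset (Pr K)) (i j : Pr K → ℕ)
    (hfr : ∀ w, w ∉ T → Fr w ⊥ (s ^ i w * t ^ j w)) (a : Kˣ)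
    (hT : ∀ w ∈ T, ∃ (g : E) (a' : K), g ≠ 0 ∧ t g = g ∧
      ∏ k ∈ range N, (s ^ k) g = algebraMap K E a' ∧
      w.valuation K (a / a' - 1) < w.valuation K (N : K) ^ 2)
    (hQ : ∀ w, w ∉ T → ord (𝓞 K) w a ≠ 0 → N ∣ orderOf (t ^ j w)) :
    ∃ c d : E, c ≠ 0 ∧ d ≠ 0 ∧ ∏ k ∈ range N, (s ^ k) c = algebraMap K E a ∧
      t c / c = s d / d := by
  classical
  have hsN : s ^ N = 1 := hs ▸ pow_orderOf_eq_one s
  have hN0 : 0 < N := hs ▸ orderOf_pos s
  have hcom := comm_of_gen h hgen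
  obtain ⟨F, _, _, _, _, _, s', rfl, hs', ho⟩ := exists_mid s
  have : IsGalois F E := IsGalois.tower_top_of_isGalois K F E
  have : IsTotallyComplex F := isTotallyComplex_of_algebra K F
  rw [hs] at ho
  have hrk : Module.finrank F E = N := by
    rw [← IsGalois.card_aut_eq_finrank, ← ho, orderOf_eq_card_of_forall_mem_zpowers hs']
  have hnm := fun x => ho ▸ norm_mid (K := K) hs' x
  have ha0 : algebraMap K F a ≠ 0 := (map_ne_zero _).2 a.ne_zero
  obtain ⟨c, hc⟩ := hH F E s' (eq_top_iff.2 fun g _ => hs' g) (algebraMap K F a) ha0 fun W => by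
    let w : Pr K := W.under (𝓞 K)
    have : W.asIdeal.LiesOver w.asIdeal := ⟨rfl⟩
    rw [hrk]
    by_cases hw : w ∈ T
    · obtain ⟨g, a', h1, -, h2, h3⟩ := hT w hw
      refine ⟨g, h1, ?_⟩
      have h4 : Algebra.norm F g = algebraMap K F a' := (algebraMap F E).injective (by
        rw [hnm, h2, ← IsScalarTower.algebraMap_apply])
      have := val_lt_over w W (x := a / a' - 1) (y := (N : K) ^ 2) (by rwa [map_pow])
      rwa [map_sub, map_div₀, map_one, map_pow, map_natCast, map_pow, ← h4] at this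
    · have := W.isMaximal
      obtain ⟨⟨P, _, _⟩⟩ := (inferInstance : Nonempty (W.asIdeal.primesOver (𝓞 E)))
      have : P.LiesOver w.asIdeal := Ideal.LiesOver.trans P W.asIdeal _
      obtain ⟨hf, hi⟩ := (hfr w hw).all hcom P
      have hN : W.valuation F (N : F) ^ 2 ≠ 0 := pow_ne_zero _ ((Valuation.ne_zero_iff _).2
        (Nat.cast_ne_zero.2 hN0.ne'))
      refine hU F E W P _ ha0 ?_ _ hN
      by_cases h0 : ord (𝓞 K) w a = 0
      · refine Or.inl ⟨eq_bot_iff.2 fun u hu => rs_inj (K := K) ?_,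
          val_one_over w W ((ord_eq_zero_iff w a).1 h0)⟩
        have := rs_inertia (K := K) hu
        rwa [hi] at this
      · refine Or.inr (eq_bot_iff.2 fun u hu => rs_inj (K := K) ?_)
        obtain ⟨r, hr⟩ := stab_frob hf (u.restrictScalars K) (rs_stab hu)
        rw [hi, Subgroup.mem_bot, mul_inv_eq_one] at hr
        obtain ⟨k, -, rfl⟩ := mem_image.1 (mem_zpowers_iff_mem_range_orderOf.1 (hs' u))
        rw [rs_pow] at hr ⊢
        exact split_alg h hN0 hsN hind (hQ w hw h0) hr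
  have hca : ∏ k ∈ range N, (s'.restrictScalars K ^ k) c = algebraMap K E a := by
    rw [← hnm, hc, ← IsScalarTower.algebraMap_apply]
  have hc0 : c ≠ 0 := by
    rintro rfl
    rw [Algebra.norm_zero] at hc
    exact ha0 hc.symm
  have : IsCyclic (E ≃ₐ[F] E) := ⟨⟨s', hs'⟩⟩
  obtain ⟨y, hy⟩ := groupCohomology.exists_div_of_norm_eq_one hs' (x := t c / c)
    ((algebraMap F E).injective (by
      rw [hnm, map_one]
      have : ∀ k ∈ range N, (s'.restrictScalars K ^ k) (t c / c) =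
          t ((s'.restrictScalars K ^ k) c) / (s'.restrictScalars K ^ k) c := fun k _ => by
        rw [map_div₀, ← AlgEquiv.mul_apply, (hcom _ t).eq, AlgEquiv.mul_apply]
      rw [prod_congr rfl this, prod_div_distrib, ← map_prod, hca, AlgEquiv.commutes,
        div_self ((map_ne_zero _).2 a.ne_zero)]))
  refine ⟨c, (y : E)⁻¹, hc0, inv_ne_zero y.ne_zero, hca, ?_⟩
  rw [← hy, map_inv₀, inv_div_inv]
  rfl

theorem core (hH : HntStmt) (hU : UnrStmt) (hL : LocStmt) {K E : Type} [Field K] [Field E]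
    [Algebra K E] [NumberField K] [NumberField E] [IsGalois K E] [IsTotallyComplex K]
    {s t : E ≃ₐ[K] E} (h : Commute s t) {N n : ℕ} (hs : orderOf s = N) (ht : orderOf t = n)
    (hgen : ∀ g : E ≃ₐ[K] E, ∃ i j : ℕ, g = s ^ i * t ^ j)
    (hind : ∀ i j : ℕ, s ^ i * t ^ j = 1 → s ^ i = 1 ∧ t ^ j = 1)
    (T : Finset (Pr K)) (i j : Pr K → ℕ) (hT0 : ∀ w ∈ T, i w = 0 ∧ j w = 0)
    (hfr : ∀ w, w ∉ T → Fr w ⊥ (s ^ i w * t ^ j w)) (a : Kˣ)
    (hT : ∀ w ∈ T, ∃ (g : E) (a' : K), g ≠ 0 ∧ t g = g ∧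
      ∏ k ∈ range N, (s ^ k) g = algebraMap K E a' ∧
      w.valuation K (a / a' - 1) < w.valuation K (N : K) ^ 2)
    (hQ : ∀ w, w ∉ T → ord (𝓞 K) w a ≠ 0 → N ∣ orderOf (t ^ j w))
    (ε : WithZero (Multiplicative ℤ)) (hε : ε ≠ 0)
    (hcyc : ∀ β : Kˣ, (∀ w ∈ T, w.valuation K ((β : K) - 1) < ε) →
      (n : ℤ) ∣ (ev (fun w => Multiplicative.ofAdd (j w : ℤ)) β).toAdd) :
    (N : ℤ) ∣ (ev (fun w => Multiplicative.ofAdd (i w : ℤ)) a).toAdd := by
  classical
  have hsN : s ^ N = 1 := hs ▸ pow_orderOf_eq_one s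
  have htn : t ^ n = 1 := ht ▸ pow_orderOf_eq_one t
  have hn0 : 0 < n := ht ▸ orderOf_pos t
  obtain ⟨c, d, hc0, hd0, hca, hcd⟩ := core1 hH hU h hs hgen hind T i j hfr a hT hQ
  have hB : op d t ^ n = op (∏ k ∈ range n, (t ^ k) d) 1 := by rw [op_pow, htn]
  obtain ⟨b, hb⟩ := exists_alg hgen
    (fixed_of_comm hc0 (hB ▸ (op_comm h hc0 hd0 hcd).pow_right n))
    (fixed_of_comm hd0 (hB ▸ (Commute.refl (op d t)).pow_right n))
  have hb0 : b ≠ 0 := fun h0 => prod_ne hd0 t n (by rw [← hb, h0, map_zero])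
  obtain ⟨g, b', hg0, hg, hb', hT'⟩ := hL K E s t N n h hs ht hgen hind c d a b hc0 hd0 hca hcd
    hb.symm T hT ε hε
  have hb0' : b' ≠ 0 := fun h0 => prod_ne hg0 t n (by rw [hb', h0, map_zero])
  lift b to Kˣ using hb0.isUnit
  lift b' to Kˣ using hb0'.isUnit
  have h1 := hcyc (b / b') fun w hw => by
    rw [Units.val_div_eq_div_val]; exact hT' w hw
  obtain ⟨S1, hS1⟩ := exists_supp a
  obtain ⟨S2, hS2⟩ := exists_supp (b / b')
  rw [ev_eq _ _ (S1 ∪ S2) fun w hw => mem_union_right _ (hS2 w hw)] at h1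
  rw [ev_eq _ _ (S1 ∪ S2) fun w hw => mem_union_left _ (hS1 w hw)]
  simp only [toAdd_prod, toAdd_zpow, toAdd_ofAdd, smul_eq_mul] at h1 ⊢
  have h2 : (N * n : ℤ) ∣ ∑ w ∈ S1 ∪ S2,
      (n * (ord (𝓞 K) w a * i w) + N * (ord (𝓞 K) w (b / b') * j w)) := by
    refine dvd_sum fun w _ => ?_
    by_cases hw : w ∈ T
    · rw [(hT0 w hw).1, (hT0 w hw).2]; simp
    have h3 := tor h hsN htn hc0 hd0 a b hca hcd hb.symm (hfr w hw)
    have h4 := tor h hsN htn one_ne_zero hg0 1 b' (by simp) (by simp [hg, hg0]) hb' (hfr w hw)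
    rw [ord_one] at h4
    have h5 := dvd_sub h3 h4
    rw [ord_div]
    convert h5 using 1
    ring
  rw [sum_add_distrib, ← mul_sum, ← mul_sum,
    dvd_add_left (mul_dvd_mul_left _ h1), mul_comm] at h2
  exact (mul_dvd_mul_iff_left (by exact_mod_cast hn0.ne')).1 h2

end Crest.Agent.T15.Art
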