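import Crest.Agent.T15.ArtA_34
import Crest.Agent.T27.Split_52

/-!
# Row 15, Artin reciprocity: the cyclotomic part (helper34)
-/

set_option autoImplicit false
set_option linter.unusedSectionVars false

open NumberField IsDedekindDomain Finset
open scoped Pointwise
open Crest.Agent.R018.Selmerx380

namespace Crest.Agent.T15.Art

theorem exists_prime_ord0 {y p : ℕ} (hy : 2 ≤ y) (hp : p.Prime) :
    ∃ l : ℕ, l.Prime ∧ ((y : ZMod l) ^ p) ^ p = 1 ∧ (y : ZMod l) ^ p ≠ 1 := by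
  by_contra! hcon
  have := Fact.mk hp
  set b : ℕ := ∑ i ∈ range p, (y ^ p) ^ i with hb
  have hlt : p < b := by
    have h1 : ∑ _i ∈ range p, 1 < b := sum_lt_sum
      (fun i _ => Nat.one_le_pow _ _ (by positivity))
      ⟨1, mem_range.2 hp.one_lt, by rw [pow_one]; exact Nat.one_lt_pow hp.ne_zero hy⟩
    simpa using h1
  have hz : ∀ l : ℕ, l.Prime → l ∣ b → (y : ZMod l) ^ p = 1 := fun l hl h => by
    refine hcon l hl ?_
    have h1 := geom_sum_mul ((y : ZMod l) ^ p) p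
    have h2 : ((b : ℕ) : ZMod l) = 0 := (ZMod.natCast_eq_zero_iff _ _).2 h
    rw [hb] at h2
    push_cast at h2
    rw [h2, zero_mul] at h1
    exact sub_eq_zero.1 h1.symm
  have hd : ∀ l : ℕ, l ∣ b → (y : ZMod l) ^ p = 1 → l ∣ p := fun l h h1 => by
    have h2 : ((b : ℕ) : ZMod l) = 0 := (ZMod.natCast_eq_zero_iff _ _).2 h
    rw [hb] at h2
    push_cast at h2
    rw [h1] at h2
    exact (ZMod.natCast_eq_zero_iff _ _).1 (by simpa using h2)
  have h3 := Nat.eq_prime_pow_of_unique_prime_dvd (n := b) (p := p) (by omega) fun {d} h1 h2 =>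
    (Nat.prime_dvd_prime_iff_eq h1 hp).1 (hd d h2 (hz d h1 h2))
  have h4 : p ^ 2 ∣ b := by
    rw [h3] at hlt ⊢
    refine pow_dvd_pow _ ?_
    conv_lhs at hlt => rw [← pow_one p]
    exact (Nat.pow_lt_pow_iff_right hp.one_lt).1 hlt
  have h5 := hz p hp ((dvd_pow_self p two_ne_zero).trans h4)
  rw [ZMod.pow_card] at h5
  have h6 : (p : ℤ) ∣ (y : ℤ) - 1 := by
    rw [← ZMod.intCast_zmod_eq_zero_iff_dvd]; push_cast; rw [h5, sub_self]
  have h7 := dvd_sub_pow_of_dvd_sub h6 1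
  rw [pow_one, one_pow] at h7
  have h8 := hd (p ^ 2) h4 (by
    have := (ZMod.intCast_zmod_eq_zero_iff_dvd ((y : ℤ) ^ p - 1) (p ^ 2)).2 (by exact_mod_cast h7)
    push_cast at this
    exact sub_eq_zero.1 this)
  have := Nat.le_of_dvd hp.pos h8
  nlinarith [hp.two_le]

theorem exists_prime_ord34 {x p : ℕ} (hx : 2 ≤ x) (hp : p.Prime) (R : ℕ) :
    ∃ l : ℕ, l.Prime ∧ R < l ∧ orderOf (x : ZMod l) = p ^ (R + 2) := by
  have := Fact.mk hp
  obtain ⟨l, hl, h1, h2⟩ := exists_prime_ord0 (y := x ^ p ^ R)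
    (Nat.one_lt_pow (pow_ne_zero _ hp.ne_zero) hx) hp
  have := Fact.mk hl
  push_cast at h1 h2
  rw [← pow_mul (x : ZMod l), ← pow_succ] at h1 h2
  rw [← pow_mul, ← pow_succ] at h1
  have h3 := orderOf_eq_prime_pow h2 h1
  refine ⟨l, hl, ?_, h3⟩
  have h0 : (x : ZMod l) ≠ 0 := fun h => by
    rw [h, zero_pow (pow_ne_zero _ hp.ne_zero)] at h1
    exact zero_ne_one h1
  have h4 := Nat.le_of_dvd (by have := hl.two_le; omega) (h3 ▸ ZMod.orderOf_dvd_card_sub_one h0)
  have := Nat.lt_pow_self (n := R + 1 + 1) hp.one_lt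
  omega

theorem cover {G : Type*} [CommGroup G] [Finite G] {ι : Type*} (I : Finset ι) (y : ι → G)
    (h : ∀ i ∈ I, I.card < orderOf (y i)) : ∃ ψ : G →* ℂˣ, ∀ i ∈ I, ψ (y i) ≠ 1 := by
  by_contra! hcon
  let H : ι → Subgroup (G →* ℂˣ) := fun i => (MonoidHom.eval (y i) : (G →* ℂˣ) →* ℂˣ).ker
  obtain ⟨i, hi, h1, h2⟩ := Subgroup.exists_index_le_card_of_leftCoset_cover (H := H)
    (g := fun _ => 1) (s := I) (by
      refine Set.eq_univ_of_forall fun ψ => ?_
      obtain ⟨i, hi, h⟩ := hcon ψ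
      simp only [Set.mem_iUnion]
      exact ⟨i, hi, ψ, h, one_mul ψ⟩)
  have h3 : y i ^ (H i).index = 1 := by
    by_contra h3
    obtain ⟨ψ, hψ⟩ := CommGroup.exists_apply_ne_one_of_hasEnoughRootsOfUnity G ℂ h3
    exact hψ (by rw [map_pow]; exact (H i).pow_index_mem ψ)
  have := orderOf_le_of_pow_eq_one (Nat.pos_of_ne_zero h1.index_ne_zero) h3
  have := h i hi
  omega

open Classical in
/-- the class of `x` in `(ZMod m)ˣ` -/
noncomputable def un (m x : ℕ) : (ZMod m)ˣ := if h : IsUnit (x : ZMod m) then h.unit else 1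

theorem un_val {m x : ℕ} (h : IsUnit (x : ZMod m)) : (un m x : ZMod m) = x := by
  rw [un, dif_pos h, h.unit_spec]

theorem exists_char34 (X : Finset ℕ) (hX : ∀ x ∈ X, 2 ≤ x) {N : ℕ} (hN : N ≠ 0) (B : ℕ) :
    ∃ m : ℕ, m ≠ 0 ∧ (∀ l : ℕ, l.Prime → l ∣ m → B < l) ∧
      ∃ ψ : (ZMod m)ˣ →* ℂˣ, ∀ x ∈ X, N ∣ orderOf (ψ (un m x)) := by
  classical
  set I := X ×ˢ N.primeFactors with hI
  set R := B + X.sup id + I.card with hR
  have h1 : ∀ i : ℕ × ℕ, ∃ l : ℕ, l.Prime ∧ R < l ∧ (i ∈ I →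
      orderOf (i.1 : ZMod l) = i.2 ^ (N.factorization i.2 + R + 2)) := fun i => by
    by_cases hi : i ∈ I
    · obtain ⟨l, h1, h2, h3⟩ := exists_prime_ord34 (hX _ (mem_product.1 hi).1)
        (Nat.prime_of_mem_primeFactors (mem_product.1 hi).2) (N.factorization i.2 + R)
      exact ⟨l, h1, by omega, fun _ => h3⟩
    · obtain ⟨l, h1, h2⟩ := Nat.exists_infinite_primes (R + 1)
      exact ⟨l, h2, h1, fun h => absurd h hi⟩
  choose l hl1 hl2 hl3 using h1
  set m := ∏ i ∈ I, l i with hm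
  have hm0 : m ≠ 0 := prod_ne_zero_iff.2 fun i _ => (hl1 i).ne_zero
  have : NeZero m := ⟨hm0⟩
  have hbig : ∀ q : ℕ, q.Prime → q ∣ m → R < q := fun q hq h => by
    obtain ⟨i, -, h⟩ := (hq.prime.dvd_finsetProd_iff _).1 h
    rw [(Nat.prime_dvd_prime_iff_eq hq (hl1 i)).1 h]
    exact hl2 i
  have hu : ∀ x ∈ X, IsUnit (x : ZMod m) := fun x hx => by
    rw [ZMod.isUnit_iff_coprime]
    refine Nat.coprime_of_dvd fun q hq h h' => ?_
    have h1 := Nat.le_of_dvd (by have := hX x hx; omega) h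
    have h2 : x ≤ X.sup id := le_sup (f := id) hx
    have := hbig q hq h'
    omega
  set e := Nat.card (ZMod m)ˣ
  have he : e ≠ 0 := Nat.card_pos.ne'
  obtain ⟨ψ, hψ⟩ := cover I
    (fun i => un m i.1 ^ (ordCompl[i.2] e * i.2 ^ (N.factorization i.2 - 1))) fun i hi => by
    have hp := Nat.prime_of_mem_primeFactors (mem_product.1 hi).2
    generalize hr : orderOf (un m i.1 ^ (ordCompl[i.2] e * i.2 ^ (N.factorization i.2 - 1))) = r
    have hr0 : 0 < r := hr ▸ orderOf_pos _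
    have h2 : un m i.1 ^ (ordCompl[i.2] e * (i.2 ^ (N.factorization i.2 - 1) * r)) = 1 := by
      rw [← mul_assoc, pow_mul, ← hr, pow_orderOf_eq_one]
    have h3 := congrArg (fun u : (ZMod m)ˣ =>
      ZMod.castHom (dvd_prod_of_mem l hi) (ZMod (l i)) (u : ZMod m)) h2
    simp only [Units.val_pow_eq_pow_val, un_val (hu _ (mem_product.1 hi).1), map_pow,
      map_natCast, Units.val_one, map_one] at h3
    have h4 := orderOf_dvd_of_pow_eq_one h3
    rw [hl3 i hi] at h4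
    have h5 := Nat.le_of_dvd (by have := hp.pos; positivity)
      (((Nat.coprime_ordCompl hp he).pow_left _).dvd_of_dvd_mul_left h4)
    have h6 : i.2 ^ (N.factorization i.2 - 1) ≤ i.2 ^ N.factorization i.2 :=
      Nat.pow_le_pow_right hp.pos (Nat.sub_le _ _)
    rw [add_assoc, pow_add] at h5
    have h7 := Nat.le_of_mul_le_mul_left (h5.trans (Nat.mul_le_mul_right r h6))
      (pow_pos hp.pos _)
    have := Nat.lt_pow_self (n := R + 2) hp.one_lt
    omega
  refine ⟨m, hm0, fun q hq h => by have := hbig q hq h; omega, ψ, fun x hx => ?_⟩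
  have ho : orderOf (ψ (un m x)) ∣ e := (orderOf_map_dvd ψ _).trans (orderOf_dvd_natCard _)
  have ho0 : orderOf (ψ (un m x)) ≠ 0 := fun h => he (by rwa [h, zero_dvd_iff] at ho)
  refine (Nat.factorization_le_iff_dvd hN ho0).1 fun p => ?_
  by_contra! hlt
  have hp : p ∈ N.primeFactors := by
    rw [← Nat.support_factorization, Finsupp.mem_support_iff]; omega
  refine hψ (x, p) (mem_product.2 ⟨hx, hp⟩) ?_
  rw [map_pow, ← orderOf_dvd_iff_pow_eq_one, ← Nat.ordProj_mul_ordCompl_eq_self (orderOf _) p,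
    mul_comm]
  exact mul_dvd_mul (Nat.ordCompl_dvd_ordCompl_of_dvd ho p) (pow_dvd_pow _ (by dsimp only; omega))

section cyc

variable {K : Type*} [Field K] [NumberField K]

theorem ev_int34 {m : ℕ} (r : 𝓞 K) (a : Kˣ) (ha : (a : K) = r)
    (hu : IsUnit ((Ideal.absNorm (Ideal.span {r}) : ℕ) : ZMod m)) :
    ((ev (fun w : Pr K => un m (Ideal.absNorm w.asIdeal)) a : (ZMod m)ˣ) : ZMod m) =
      Ideal.absNorm (Ideal.span {r}) := by
  classical
  have hr : r ≠ 0 := fun h => a.ne_zero (by rw [ha, h]; rfl)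
  have hI : Ideal.span {r} ≠ 0 := by simpa using hr
  have hc : ∀ w : Pr K, ord (𝓞 K) w a =
      ((Associates.mk w.asIdeal).count (Associates.mk (Ideal.span {r})).factors : ℕ) := fun w => by
    rw [ord, ha, ← FractionalIdeal.count_coe K w hI, FractionalIdeal.coeIdeal_span_singleton]
  obtain ⟨S, hS⟩ := exists_supp a
  have h1 := Ideal.finprod_heightOneSpectrum_factorization hI
  rw [finprod_eq_prod_of_mulSupport_subset (s := S) _ fun w hw => mem_coe.2 (hS w fun h => hw (by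
    rw [hc, Nat.cast_eq_zero] at h
    simp only [HeightOneSpectrum.maxPowDividing, h, pow_zero]))] at h1
  rw [← h1, map_prod, Nat.cast_prod] at hu ⊢
  rw [ev_eq _ a S hS, Units.coe_prod]
  refine prod_congr rfl fun w hw => ?_
  have h2 := (IsUnit.prod_iff.1 hu) w hw
  rw [HeightOneSpectrum.maxPowDividing, map_pow, Nat.cast_pow] at h2 ⊢
  rw [hc, zpow_natCast, Units.val_pow_eq_pow_val]
  generalize (Associates.mk w.asIdeal).count (Associates.mk (Ideal.span {r})).factors = c at h2 ⊢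
  obtain rfl | hc0 := eq_or_ne c 0
  · simp
  · rw [un_val ((isUnit_pow_iff hc0).1 h2)]

/-- cyclotomic reciprocity -/
theorem cyc_rec [IsTotallyComplex K] {m : ℕ} (hm : m ≠ 0) (β : Kˣ)
    (h : ∀ w : Pr K, (m : 𝓞 K) ∈ w.asIdeal →
      w.valuation K ((β : K) - 1) ≤ w.valuation K (m : K)) :
    ev (fun w : Pr K => un m (Ideal.absNorm w.asIdeal)) β = 1 := by
  obtain rfl | hm1 := eq_or_ne m 1
  · exact Subsingleton.elim _ _
  have hmK : (m : K) ≠ 0 := Nat.cast_ne_zero.2 hm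
  have key : ∀ (r : 𝓞 K), r - 1 ∈ Ideal.span {(m : 𝓞 K)} → ∃ a : Kˣ, (a : K) = r ∧
      ev (fun w : Pr K => un m (Ideal.absNorm w.asIdeal)) a = 1 := fun r hr => by
    have h1 := T27.absNorm_congr_52 m hr
    rw [Ideal.span_singleton_one, Ideal.absNorm_top] at h1
    have h0 : (r : K) ≠ 0 := fun h => by
      have : r = 0 := RingOfIntegers.coe_eq_zero_iff.1 h
      rw [this, Set.singleton_zero, Ideal.span_zero, Ideal.absNorm_bot] at h1
      exact hm1 (Nat.dvd_one.1 ((Nat.modEq_zero_iff_dvd).1 h1.symm))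
    rw [← ZMod.natCast_eq_natCast_iff, Nat.cast_one] at h1
    refine ⟨Units.mk0 _ h0, rfl, Units.ext ?_⟩
    rw [ev_int34 r _ rfl (h1 ▸ isUnit_one), h1, Units.val_one]
  let D : Ideal (𝓞 K) :=
    { carrier := {s | ∃ n : 𝓞 K, ((β : K) - 1) / m * algebraMap _ K s = algebraMap _ K n}
      add_mem' := by
        rintro s s' ⟨n, hn⟩ ⟨n', hn'⟩
        exact ⟨n + n', by rw [map_add, map_add, mul_add, hn, hn']⟩
      zero_mem' := ⟨0, by simp⟩
      smul_mem' := by
        rintro c s ⟨n, hn⟩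
        exact ⟨c * n, by rw [smul_eq_mul, map_mul, map_mul, ← hn]; ring⟩ }
  have hD : D ⊔ Ideal.span {(m : 𝓞 K)} = ⊤ := by
    by_contra hne
    obtain ⟨Q, hQ, hle⟩ := Ideal.exists_le_maximal _ hne
    have hmQ : (m : 𝓞 K) ∈ Q := hle (Ideal.mem_sup_right (Ideal.mem_span_singleton_self _))
    let w : Pr K := ⟨Q, hQ.isPrime, fun h0 => hm (by simpa [h0] using hmQ)⟩
    obtain ⟨n, d, hd⟩ := w.exists_primeCompl_mul_eq_of_integer (((β : K) - 1) / m) (by
      rw [map_div₀]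
      exact div_le_one_of_le₀ (h w hmQ) zero_le)
    exact d.2 (hle (Ideal.mem_sup_left (show (d : 𝓞 K) ∈ D from ⟨n, hd⟩)))
  obtain ⟨s, ⟨n, hn⟩, z, hz, hsz⟩ := Submodule.mem_sup.1 ((Ideal.eq_top_iff_one _).1 hD)
  have hs : s - 1 ∈ Ideal.span {(m : 𝓞 K)} := by
    rw [← hsz, sub_add_cancel_left]; exact neg_mem hz
  obtain ⟨a, ha, h1⟩ := key s hs
  obtain ⟨b, hb, h2⟩ := key (s + m * n) (by
    rw [add_sub_right_comm]
    exact add_mem hs (Ideal.mul_mem_right _ _ (Ideal.mem_span_singleton_self _)))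
  have : b = β * a := Units.ext (by
    rw [Units.val_mul, ha, hb]
    change algebraMap _ K _ = _ * algebraMap _ K _
    rw [map_add, map_mul, map_natCast, ← hn]; field_simp; ring)
  rwa [this, map_mul, h1, mul_one] at h2

end cyc

end Crest.Agent.T15.Art
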