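import Crest.Agent.T15.ArtDef_34

/-!
# Row 15 (helper73): cyclotomic reciprocity and auxiliary moduli
-/

set_option autoImplicit false

noncomputable section

namespace Crest.Agent.T15.Art

open Finset Module NumberField IsDedekindDomain WithZero
open Crest.Agent.R018.Selmerx380

section cr
variable {K : Type*} [Field K] [NumberField K]

theorem ord_coe (w : Pr K) {y : 𝓞 K} (hy : y ≠ 0) (a : Kˣ) (h : (a : K) = y) :
    ord (𝓞 K) w a = (Associates.mk w.asIdeal).count (Associates.mk (Ideal.span {y})).factors := by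
  have h1 := valuation_eq_exp w a
  rw [h, RingOfIntegers.coe_eq_algebraMap, w.valuation_of_algebraMap, w.intValuation_if_neg hy,
    exp_inj, neg_inj] at h1
  exact h1.symm

/-- `ev` of an integer is the value of a multiplicative function on its ideal -/
theorem ev_int {A M : Type*} [CommGroup A] [CommMonoid M] (j : A →* M) (Φ : Ideal (𝓞 K) →* M)
    (f : Pr K → A) {y : 𝓞 K} (hy : y ≠ 0) (a : Kˣ) (h : (a : K) = y)
    (hf : ∀ w : Pr K, y ∈ w.asIdeal → j (f w) = Φ w.asIdeal) :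
    j (ev f a) = Φ (Ideal.span {y}) := by
  have h0 : Ideal.span {y} ≠ 0 := by simpa using hy
  obtain ⟨S, hS⟩ := exists_supp a
  rw [ev_eq f a S hS, ← Ideal.finprod_heightOneSpectrum_factorization h0,
    finprod_eq_prod_of_mulSupport_subset (s := S) _ fun w hw => hS w fun h1 => hw (by
      rw [ord_coe w hy a h, Nat.cast_eq_zero] at h1
      simp only [HeightOneSpectrum.maxPowDividing, h1, pow_zero]), map_prod, map_prod]
  refine prod_congr rfl fun w _ => ?_
  rw [ord_coe w hy a h, zpow_natCast, map_pow, HeightOneSpectrum.maxPowDividing, map_pow]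
  by_cases hw : y ∈ w.asIdeal
  · rw [hf w hw]
  · rw [by_contra fun h1 => hw (Ideal.dvd_span_singleton.1
      ((Associates.count_ne_zero_iff_dvd h0 w.irreducible).1 h1)), pow_zero, pow_zero]

theorem norm_modEq (m : ℕ) (t : 𝓞 K) : ((Algebra.norm ℤ (1 + m * t) : ℤ) : ZMod m) = 1 := by
  classical
  let b := RingOfIntegers.basis K
  rw [Algebra.norm_eq_matrix_det b, ← eq_intCast (Int.castRingHom (ZMod m)), RingHom.map_det,
    map_add, map_mul, map_one, map_natCast, map_add, map_mul, map_one, map_natCast,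
    ← Matrix.diagonal_natCast, ZMod.natCast_self]
  simp

open scoped ComplexOrder in
theorem norm_nonneg [IsTotallyComplex K] (y : 𝓞 K) : 0 ≤ Algebra.norm ℤ y := by
  classical
  have h1 : ((Algebra.norm ℚ (y : K) : ℚ) : ℂ) = ∏ φ : K →+* ℂ, φ y := by
    rw [← eq_ratCast (algebraMap ℚ ℂ), Algebra.norm_eq_prod_embeddings]
    exact Fintype.prod_equiv (RingHom.equivRatAlgHom K ℂ).symm _ _ fun _ => rfl
  rw [← prod_fiberwise univ InfinitePlace.mk, ← Algebra.coe_norm_int] at h1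
  have h2 : (0 : ℂ) ≤ ((Algebra.norm ℤ y : ℤ) : ℚ) := by
    rw [h1]
    refine prod_nonneg fun w _ => ?_
    have h3 : ({φ | InfinitePlace.mk φ = w} : Finset _) =
        {w.embedding, ComplexEmbedding.conjugate w.embedding} := by
      ext φ
      simp only [mem_filter, mem_univ, true_and, mem_insert, mem_singleton]
      rw [← InfinitePlace.mk_embedding w, InfinitePlace.mk_eq_iff, InfinitePlace.mk_embedding]
      exact or_congr_right ⟨fun h => by rw [← h]; exact (star_star φ).symm,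
        fun h => by rw [h]; exact star_star _⟩
    rw [h3, prod_pair fun h => IsTotallyComplex.complexEmbedding_not_isReal w.embedding
      (ComplexEmbedding.isReal_iff.2 h.symm), ComplexEmbedding.conjugate_coe_eq, Complex.mul_conj]
    exact_mod_cast Complex.normSq_nonneg _
  simpa using (Complex.le_def.1 h2).1

theorem ev_cyc_int [IsTotallyComplex K] {m : ℕ} (ν : Pr K → (ZMod m)ˣ)
    (hν : ∀ w : Pr K, (m : 𝓞 K) ∉ w.asIdeal → (ν w : ZMod m) = Ideal.absNorm w.asIdeal)
    (t : 𝓞 K) (a : Kˣ) (h : (a : K) = (1 + m * t : 𝓞 K)) : ev ν a = 1 := by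
  have hy : (1 + m * t : 𝓞 K) ≠ 0 := fun h0 => a.ne_zero (by rw [h, h0]; rfl)
  have := ev_int (Units.coeHom (ZMod m)) ((Nat.castRingHom (ZMod m) : ℕ →* ZMod m).comp
    (Ideal.absNorm : Ideal (𝓞 K) →*₀ ℕ).toMonoidHom) ν hy a h fun w hw => hν w fun hm =>
      w.isPrime.ne_top ((Ideal.eq_top_iff_one _).2 (by
        simpa using w.asIdeal.sub_mem hw (w.asIdeal.mul_mem_right t hm)))
  refine Units.ext (this.trans ?_)
  change ((Ideal.absNorm (Ideal.span {1 + m * t}) : ℕ) : ZMod m) = 1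
  rw [Ideal.absNorm_span_singleton, ← Int.cast_natCast, Int.natAbs_of_nonneg (norm_nonneg _),
    norm_modEq]

/-- **cyclotomic reciprocity** -/
theorem ev_cyc [IsTotallyComplex K] {m : ℕ} (hm : m ≠ 0) (ν : Pr K → (ZMod m)ˣ)
    (hν : ∀ w : Pr K, (m : 𝓞 K) ∉ w.asIdeal → (ν w : ZMod m) = Ideal.absNorm w.asIdeal) (a : Kˣ)
    (h : ∀ w : Pr K, (m : 𝓞 K) ∈ w.asIdeal → w.valuation K ((a : K) - 1) ≤ w.valuation K m) :
    ev ν a = 1 := by
  have hm' : (m : K) ≠ 0 := Nat.cast_ne_zero.2 hm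
  -- the denominator ideal of `(a - 1) / m` is prime to `m`
  let D : Ideal (𝓞 K) := Submodule.comap (LinearMap.toSpanSingleton (𝓞 K) K (((a : K) - 1) / m))
    (LinearMap.range (Algebra.linearMap (𝓞 K) K))
  have hD : D ⊔ Ideal.span {(m : 𝓞 K)} = ⊤ := by
    by_contra hne
    obtain ⟨P, hP, hle⟩ := Ideal.exists_le_maximal _ hne
    have hmP : (m : 𝓞 K) ∈ P := hle (Ideal.mem_sup_right (Ideal.mem_span_singleton_self _))
    let w : Pr K := ⟨P, hP.isPrime, fun h0 => hm (by simpa [h0] using hmP)⟩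
    have h1 : w.valuation K (((a : K) - 1) / m) ≤ 1 := by
      rw [map_div₀]; exact div_le_one_of_le₀ (h w hmP) zero_le
    obtain ⟨n, d, hd⟩ := w.exists_primeCompl_mul_eq_of_integer _ h1
    exact d.2 (hle (Ideal.mem_sup_left (show (d : 𝓞 K) ∈ D from
      ⟨n, by rw [LinearMap.toSpanSingleton_apply, Algebra.smul_def, mul_comm]; exact hd.symm⟩)))
  obtain ⟨z, ⟨r, hr⟩, y, hy, hzy⟩ := Submodule.mem_sup.1 ((Ideal.eq_top_iff_one _).1 hD)
  obtain ⟨t, rfl⟩ := Ideal.mem_span_singleton'.1 hy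
  rw [LinearMap.toSpanSingleton_apply, Algebra.smul_def, Algebra.linearMap_apply] at hr
  have hz : z = 1 + m * (-t) := by linear_combination hzy
  by_cases hz0 : z = 0
  · -- `m` is a unit
    have h1 : IsUnit (m : 𝓞 K) := IsUnit.of_mul_eq_one t (by linear_combination hzy - hz0)
    have h2 := h1.map (Algebra.norm ℤ)
    rw [← map_natCast (algebraMap ℤ (𝓞 K)), Algebra.norm_algebraMap, isUnit_pow_iff finrank_pos.ne',
      Int.isUnit_iff_natAbs_eq, Int.natAbs_natCast] at h2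
    subst h2
    exact Subsingleton.elim _ _
  let z' : Kˣ := Units.mk0 (z : K) (by simpa using hz0)
  have h1 := ev_cyc_int ν hν (-t) z' (by rw [← hz]; rfl)
  have h2 := ev_cyc_int ν hν (r - t) (z' * a) (by
    have h3 := congrArg (algebraMap (𝓞 K) K) hz
    simp only [map_add, map_mul, map_one, map_natCast, map_neg, map_sub,
      RingOfIntegers.coe_eq_algebraMap, Units.val_mul, Units.val_mk0, z'] at h3 ⊢
    rw [mul_sub, hr, h3]
    field_simp
    ring)
  rwa [map_mul, h1, one_mul] at h2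

end cr

section ord

/-- a prime `l` such that a large power of `q` divides the order of `a` modulo `l` -/
theorem exists_prime_ord {a q : ℕ} (ha : 2 ≤ a) (hq : q.Prime) (R : ℕ) {B : ℕ} (hB : B ≠ 0) :
    ∃ l : ℕ, l.Prime ∧ ¬ l ∣ B ∧ ¬ l ∣ a ∧ q ^ R ∣ orderOf (a : ZMod l) := by
  set n := q ^ R * (q ^ 2 * B).factorial with hn
  have hn0 : n ≠ 0 := mul_ne_zero (pow_ne_zero _ hq.ne_zero) (Nat.factorial_ne_zero _)
  set b := a ^ n with hb
  set Φ := ∑ i ∈ range q, b ^ i with hΦ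
  have hb2 : 2 ≤ b := ha.trans (Nat.le_self_pow hn0 a)
  have h1 : ∀ c, c ∣ q ^ 2 * B → a.Coprime c → (b : ZMod c) = 1 := fun c hc hac => by
    have hc0 : 0 < q ^ 2 * B := Nat.pos_of_ne_zero (mul_ne_zero (pow_ne_zero _ hq.ne_zero) hB)
    obtain ⟨k, hk⟩ := Nat.dvd_factorial (Nat.totient_pos.2 (Nat.pos_of_dvd_of_pos hc hc0))
      ((Nat.totient_le c).trans (Nat.le_of_dvd hc0 hc))
    have := (ZMod.natCast_eq_natCast_iff _ _ _).2 (Nat.ModEq.pow_totient hac)
    push_cast at this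
    rw [hb, hn, hk, mul_left_comm]
    push_cast
    rw [pow_mul, this, one_pow]
  have h2 : ∀ c, (b : ZMod c) = 1 → (Φ : ZMod c) = q := fun c h => by simp [hΦ, h]
  have h3 : ∀ p, p.Prime → p ∣ a → ¬ p ∣ Φ := fun p hp hpa h => by
    have := Fact.mk hp
    have h4 : (b : ZMod p) = 0 := (ZMod.natCast_eq_zero_iff _ _).2 (hpa.trans (dvd_pow_self a hn0))
    have h5 := (ZMod.natCast_eq_zero_iff _ _).2 h
    simp [hΦ, h4, zero_geom_sum, hq.ne_zero] at h5
  have h4 : q < Φ := by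
    have := sum_lt_sum (s := range q) (f := fun _ => 1) (g := fun i => b ^ i)
      (fun i _ => Nat.one_le_pow _ _ (by omega)) ⟨1, mem_range.2 hq.one_lt, by rw [pow_one]; exact hb2⟩
    simpa using this
  obtain ⟨l, hl, hlΦ, hlq⟩ : ∃ l, l.Prime ∧ l ∣ Φ ∧ l ≠ q := by
    by_contra! h
    obtain ⟨k, hk⟩ : ∃ k, Φ = q ^ k := ⟨_, Nat.eq_prime_pow_of_unique_prime_dvd (by omega)
      fun hd hd' => h _ hd hd'⟩
    have hk2 : 2 ≤ k := by
      by_contra h'
      have := Nat.pow_le_pow_right hq.pos (show k ≤ 1 by omega)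
      rw [pow_one] at this
      omega
    have h5 : q ^ 2 ∣ Φ := hk ▸ pow_dvd_pow q hk2
    have h6 := h2 (q ^ 2) (h1 _ (dvd_mul_right _ _) (Nat.Coprime.pow_right _
      ((hq.coprime_iff_not_dvd.2 fun h' => h3 q hq h' ((dvd_pow_self q two_ne_zero).trans h5)).symm)))
    rw [(ZMod.natCast_eq_zero_iff _ _).2 h5, eq_comm, ZMod.natCast_eq_zero_iff] at h6
    have := Nat.le_of_dvd hq.pos h6
    nlinarith [hq.two_le]
  have hla : ¬ l ∣ a := fun h => h3 l hl h hlΦ
  have h5 : (b : ZMod l) ≠ 1 := fun h => by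
    have := h2 l h
    rw [(ZMod.natCast_eq_zero_iff _ _).2 hlΦ, eq_comm, ZMod.natCast_eq_zero_iff] at this
    exact hlq ((Nat.prime_dvd_prime_iff_eq hl hq).1 this)
  refine ⟨l, hl, fun h => h5 (h1 l (h.mul_left _) (hl.coprime_iff_not_dvd.2 hla).symm), hla, ?_⟩
  have h6 : (a : ZMod l) ^ (n * q) = 1 := by
    have h7 := mul_geom_sum (b : ZMod l) q
    have h8 := (ZMod.natCast_eq_zero_iff _ _).2 hlΦ
    rw [hΦ] at h8
    push_cast at h8
    rw [h8, mul_zero, hb] at h7
    push_cast at h7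
    rw [pow_mul]; exact (sub_eq_zero.1 h7.symm)
  have h7 : ¬ orderOf (a : ZMod l) ∣ n := fun h => h5 (by
    rw [hb]; push_cast; exact orderOf_dvd_iff_pow_eq_one.1 h)
  have h8 := orderOf_dvd_of_pow_eq_one h6
  have h9 : orderOf (a : ZMod l) ≠ 0 := fun h0 => mul_ne_zero hn0 hq.ne_zero (by simpa [h0] using h8)
  by_contra h10
  refine h7 ((Nat.factorization_prime_le_iff_dvd h9 hn0).1 fun p hp => ?_)
  by_cases hpq : p = q
  · subst hpq
    have := (hp.pow_dvd_iff_le_factorization h9).not.1 h10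
    have := (hp.pow_dvd_iff_le_factorization hn0).1 (dvd_mul_right (p ^ R) _)
    omega
  · have := (Nat.factorization_prime_le_iff_dvd h9 (mul_ne_zero hn0 hq.ne_zero)).2 h8 p hp
    rwa [Nat.factorization_mul hn0 hq.ne_zero, hq.factorization, Finsupp.add_apply,
      Finsupp.single_eq_of_ne hpq, add_zero] at this

/-- one character that keeps a large `q`-part of finitely many orders -/
theorem exists_char {G ι : Type*} [CommGroup G] [Finite G] (S : Finset ι) (u : ι → G) {q : ℕ}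
    (hq : q.Prime) (r : ℕ) (h : ∀ i ∈ S, q ^ (r + S.card) ∣ orderOf (u i)) :
    ∃ ψ : G →* ℂˣ, ∀ i ∈ S, q ^ r ∣ orderOf (ψ (u i)) := by
  by_contra! hc
  let v : ι → G := fun i => u i ^ (orderOf (u i) / q ^ ((orderOf (u i)).factorization q - r + 1))
  let H : ι → Subgroup (G →* ℂˣ) := fun i => (MonoidHom.eval (v i)).ker
  obtain ⟨i, hi, -, h1⟩ := Subgroup.exists_index_le_card_of_leftCoset_cover (H := H)
    (g := fun _ => 1) (s := S) (Set.eq_univ_of_forall fun ψ => by
      obtain ⟨i, hi, h1⟩ := hc ψ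
      simp only [Set.mem_iUnion]
      refine ⟨i, hi, ψ, ?_, one_mul ψ⟩
      change ψ (v i) = 1
      have h0 := (orderOf_pos (u i)).ne'
      have h2 := orderOf_map_dvd ψ (u i)
      have h3 : orderOf (ψ (u i)) ≠ 0 := fun h' => h0 (by simpa [h'] using h2)
      have h4 := (hq.pow_dvd_iff_le_factorization h0).1 (h i hi)
      have h5 := (hq.pow_dvd_iff_le_factorization h3).not.1 h1
      have h6 : q ^ ((orderOf (u i)).factorization q - r + 1) ∣ orderOf (u i) :=
        (hq.pow_dvd_iff_le_factorization h0).2 (by omega)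
      rw [map_pow, ← orderOf_dvd_iff_pow_eq_one]
      refine (Nat.factorization_prime_le_iff_dvd h3
        (Nat.div_pos (Nat.le_of_dvd (orderOf_pos _) h6) (pow_pos hq.pos _)).ne').1 fun p hp => ?_
      have h7 := (Nat.factorization_prime_le_iff_dvd h3 h0).2 h2 p hp
      rw [Nat.factorization_div h6, hq.factorization_pow, Finsupp.tsub_apply]
      by_cases hpq : p = q
      · subst hpq; rw [Finsupp.single_eq_same]; omega
      · rwa [Finsupp.single_eq_of_ne hpq, tsub_zero])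
  have h0 := (orderOf_pos (u i)).ne'
  have h4 := (hq.pow_dvd_iff_le_factorization h0).1 (h i hi)
  have h2 : v i ^ (H i).index = 1 := by
    by_contra h2
    obtain ⟨ψ, hψ⟩ := CommGroup.exists_apply_ne_one_of_hasEnoughRootsOfUnity G ℂ h2
    have : (ψ ^ (H i).index) (v i) = 1 := (H i).pow_index_mem ψ
    exact hψ (by rwa [map_pow])
  have h3 : (H i).index ≠ 0 := Subgroup.index_ne_zero_of_finite
  rcases Nat.eq_zero_or_pos r with rfl | hr
  · obtain ⟨_, _, h⟩ := hc 1
    simp at h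
  have h6 : q ^ ((orderOf (u i)).factorization q - r + 1) ∣ orderOf (u i) :=
    (hq.pow_dvd_iff_le_factorization h0).2 (by omega)
  have h5 := Nat.le_of_dvd (Nat.pos_of_ne_zero h3) (orderOf_dvd_of_pow_eq_one h2)
  rw [orderOf_pow_orderOf_div h0 h6] at h5
  have h7 := Nat.lt_pow_self (n := (orderOf (u i)).factorization q - r + 1) hq.one_lt
  omega

/-- an auxiliary modulus and character -/
theorem exists_modulus (S : Finset ℕ) (hS : ∀ a ∈ S, 2 ≤ a) {q : ℕ} (hq : q.Prime) (r : ℕ) {B : ℕ}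
    (hB : B ≠ 0) : ∃ (m : ℕ) (ψ : (ZMod m)ˣ →* ℂˣ), m ≠ 0 ∧ m.Coprime B ∧
      ∀ a ∈ S, ∃ u : (ZMod m)ˣ, (u : ZMod m) = a ∧ q ^ r ∣ orderOf (ψ u) := by
  have hB' : B * ∏ a ∈ S, a ≠ 0 :=
    mul_ne_zero hB (prod_ne_zero_iff.2 fun a ha h => by have := hS a ha; omega)
  choose! l hl h1 _ h2 using fun a ha => exists_prime_ord (hS a ha) hq (r + S.card) hB'
  have h3 : (∏ a ∈ S, l a).Coprime (B * ∏ a ∈ S, a) :=
    Nat.Coprime.prod_left fun a ha => (hl a ha).coprime_iff_not_dvd.2 (h1 a ha)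
  have h0 : ∏ a ∈ S, l a ≠ 0 := prod_ne_zero_iff.2 fun a ha => (hl a ha).ne_zero
  have : NeZero (∏ a ∈ S, l a) := ⟨h0⟩
  choose! u hu using fun a (ha : a ∈ S) => (ZMod.isUnit_iff_coprime a _).2
    (h3.symm.coprime_dvd_left ((dvd_prod_of_mem _ ha).mul_left B))
  obtain ⟨ψ, hψ⟩ := exists_char S u hq r fun a ha => (h2 a ha).trans (by
    have := orderOf_map_dvd (ZMod.castHom (dvd_prod_of_mem l ha) (ZMod (l a)) :
      ZMod (∏ a ∈ S, l a) →* ZMod (l a)) (u a)
    rwa [orderOf_units, hu a ha, MonoidHom.coe_coe, map_natCast] at this)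
  exact ⟨_, ψ, h0, h3.coprime_dvd_right (dvd_mul_right _ _), fun a ha => ⟨u a, hu a ha, hψ a ha⟩⟩

end ord

end Crest.Agent.T15.Art
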