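import Crest.Agent.T15.ArtB_34
import Crest.Agent.T15.ArtC_34

/-!
# Row 15, Artin reciprocity: assembly (helper34)
-/

set_option autoImplicit false
set_option linter.unusedSectionVars false

open NumberField IsDedekindDomain Finset Polynomial
open scoped Pointwise IntermediateField
open Crest.Agent.R018.Selmerx380

namespace Crest.Agent.T15.Art

/-- the fixed field of the kernel of a homomorphism -/
theorem exists_desc {K M : Type} [Field K] [Field M] [Algebra K M] [NumberField K] [NumberField M]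
    [IsGalois K M] {C : Type*} [Group C] (Φ : (M ≃ₐ[K] M) →* C) :
    ∃ (E : Type) (_ : Field E) (_ : NumberField E) (_ : Algebra K E) (_ : Algebra E M)
      (_ : IsScalarTower K E M) (_ : IsGalois K E) (Φ' : (E ≃ₐ[K] E) →* C),
      Function.Injective Φ' ∧ (∀ g, Φ' (res E g) = Φ g) ∧
      ∀ x : M, (∀ g, Φ g = 1 → g x = x) → ∃ y : E, algebraMap E M y = x := by
  let E := IntermediateField.fixedField Φ.ker
  have : IsGalois K E := IsGalois.of_fixedField_normal_subgroup Φ.ker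
  have hk : (res E : (M ≃ₐ[K] M) →* _).ker = Φ.ker := by
    rw [IntermediateField.restrictNormalHom_ker, IntermediateField.fixingSubgroup_fixedField]
  have hs : Function.Surjective (res E : (M ≃ₐ[K] M) →* _) :=
    AlgEquiv.restrictNormalHom_surjective M
  have hΦ : ∀ g, MonoidHom.liftOfSurjective _ hs ⟨Φ, hk.le⟩ (res E g) = Φ g := fun g =>
    MonoidHom.liftOfRightInverse_comp_apply _ _ _ _ g
  refine ⟨E, inferInstance, inferInstance, inferInstance, inferInstance, inferInstance, this,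
    _, (injective_iff_map_eq_one _).2 fun σ hσ => ?_, hΦ, fun x hx => ⟨⟨x, ?_⟩, rfl⟩⟩
  · obtain ⟨g, rfl⟩ := hs σ
    rw [hΦ] at hσ
    exact hk.ge hσ
  · exact (IntermediateField.mem_fixedField_iff _ _).2 hx

theorem Fr.desc {K E M : Type*} [Field K] [Field E] [Field M] [Algebra K E] [Algebra E M]
    [Algebra K M] [IsScalarTower K E M] [NumberField K] [NumberField E] [NumberField M]
    [Normal K E] [IsGalois K M] {w : Pr K} {H : Subgroup (M ≃ₐ[K] M)}
    {H' : Subgroup (E ≃ₐ[K] E)} (hH : ∀ g ∈ H, res E g ∈ H') {g : M ≃ₐ[K] M} (h : Fr w H g) :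
    Fr w H' (res E g) := by
  obtain ⟨P, _, _, hf, hi⟩ := h
  refine ⟨P.under (𝓞 E), inferInstance, inferInstance, frob_res hf, fun σ hσ => ?_⟩
  obtain ⟨s, hs, rfl⟩ := inertia_lift P σ hσ
  exact hH s (hi hs)

theorem kappa_val {K M : Type*} [Field K] [Field M] [Algebra K M] [NumberField M] {m : ℕ}
    [NeZero m] {ζ : M} (hζ : IsPrimitiveRoot ζ m) (P : Ideal (𝓞 M)) [hP : P.IsPrime]
    (hm : (m : 𝓞 M) ∉ P) (g : M ≃ₐ[K] M) (q : ℕ) (h : ∀ x : 𝓞 M, g • x - x ^ q ∈ P) :
    (hζ.autToPow K g : ZMod m) = q := by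
  have hz : hζ.toInteger ^ m = 1 := hζ.toInteger_isPrimitiveRoot.pow_eq_one
  have h4 : g • hζ.toInteger = hζ.toInteger ^ q := T27.root_eq_of_sub_mem_79 P (q := m) (a := 1)
    (by rw [← smul_pow', hz, smul_one]) (by rw [pow_right_comm, hz, one_pow]) hm
    ((Ideal.ne_top_iff_one P).1 hP.ne_top) (h _)
  have h5 : g ζ = ζ ^ q := congrArg (fun w : 𝓞 M => (w : M)) h4
  rw [← hζ.autToPow_spec K g, (hζ.isOfFinOrder (NeZero.ne m)).pow_eq_pow_iff_modEq,
    ← hζ.eq_orderOf, ← ZMod.natCast_eq_natCast_iff, ZMod.natCast_zmod_val] at h5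
  exact h5

set_option backward.isDefEq.respectTransparency false in
theorem surj_cyc {L M : Type*} [Field L] [Field M] [Algebra L M] [NumberField L] [NumberField M]
    [IsGalois L M] {m : ℕ} [NeZero m] {ζ : M} (hζ : IsPrimitiveRoot ζ m)
    (hc : m.Coprime (discr L).natAbs) (u : (ZMod m)ˣ) :
    ∃ g : M ≃ₐ[L] M, g ζ = ζ ^ (u : ZMod m).val := by
  have : IsCyclotomicExtension {m} ℚ ℚ⟮ζ⟯ := hζ.intermediateField_adjoin_isCyclotomicExtension ℚ
  have : IsGalois ℚ ℚ⟮ζ⟯ := IsCyclotomicExtension.isGalois {m} ℚ ℚ⟮ζ⟯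
  let L₂ : IntermediateField ℚ M := (IsScalarTower.toAlgHom ℚ L M).fieldRange
  let e : L ≃ₐ[ℚ] L₂ := AlgEquiv.ofInjectiveField (IsScalarTower.toAlgHom ℚ L M)
  let _ : Algebra L L₂ := (e : L →+* L₂).toAlgebra
  have : IsScalarTower L L₂ M := IsScalarTower.of_algebraMap_eq fun _ => rfl
  have : IsGalois L₂ M := IsGalois.tower_top_of_isGalois L L₂ M
  have hd := linearDisjoint_of_isGalois_isCoprime_discr M ℚ⟮ζ⟯ L₂ (by
    rw [Int.isCoprime_iff_nat_coprime, IsCyclotomicExtension.Rat.natAbs_discr m ℚ⟮ζ⟯,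
      ← discr_eq_discr_of_algEquiv L e]
    exact (hc.pow_left _).coprime_div_left
      (Nat.prod_primeFactors_pow_totient_ediv_dvd (NeZero.pos _)))
  obtain ⟨φ, hφ⟩ := IntermediateField.restrictRestrictAlgEquivMapHom_surjective ℚ⟮ζ⟯ L₂
    hd.inf_eq_bot ((IsCyclotomicExtension.Rat.galEquivZMod m ℚ⟮ζ⟯).symm u)
  refine ⟨φ.restrictScalars L, ?_⟩
  have h1 := IntermediateField.restrictRestrictAlgEquivMapHom_apply ℚ⟮ζ⟯ L₂ φ
    (IntermediateField.AdjoinSimple.gen ℚ ζ)
  rw [hφ, IsCyclotomicExtension.Rat.galEquivZMod_apply_of_pow_eq m ℚ⟮ζ⟯ _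
    (Subtype.ext hζ.pow_eq_one), MulEquiv.apply_symm_apply] at h1
  exact h1.symm

theorem exists_cyc (K L : Type) [Field K] [Field L] [Algebra K L] [NumberField K] [NumberField L]
    [IsGalois K L] {m : ℕ} (hm : m ≠ 0) (hc : m.Coprime (discr L).natAbs) :
    ∃ (M : Type) (_ : Field M) (_ : NumberField M) (_ : Algebra K M) (_ : Algebra L M)
      (_ : IsScalarTower K L M) (_ : IsGalois K M) (κ : (M ≃ₐ[K] M) →* (ZMod m)ˣ),
      (∀ u, ∃ g, res L g = 1 ∧ κ g = u) ∧
      ∀ (P : Ideal (𝓞 M)) [P.IsPrime], (m : 𝓞 M) ∉ P → ∀ (g : M ≃ₐ[K] M) (q : ℕ),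
        (∀ x : 𝓞 M, g • x - x ^ q ∈ P) → (κ g : ZMod m) = q := by
  have : NeZero m := ⟨hm⟩
  let M := CyclotomicField m L
  have : FiniteDimensional L M := IsCyclotomicExtension.finiteDimensional {m} L M
  have : NumberField M := NumberField.of_module_finite L M
  obtain ⟨f, hf0, hf⟩ := IsGalois.is_separable_splitting_field K L
  have : IsSplittingField L M ((X ^ m - 1 : K[X]).map (algebraMap K L)) := by
    simpa using IsCyclotomicExtension.isSplittingField_X_pow_sub_one m L M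
  have := IsSplittingField.mul (K := L) M f (X ^ m - 1) hf0.ne_zero (X_pow_sub_C_ne_zero (NeZero.pos m) 1)
  have : Normal K M := Normal.of_isSplittingField (f * (X ^ m - 1))
  have : IsGalois K M := ⟨⟩
  have : IsGalois L M := IsGalois.tower_top_of_isGalois K L M
  have hζ := IsCyclotomicExtension.zeta_spec m L M
  refine ⟨M, inferInstance, inferInstance, inferInstance, inferInstance, inferInstance,
    inferInstance, hζ.autToPow K, fun u => ?_, fun P _ => kappa_val hζ P⟩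
  obtain ⟨g, hg⟩ := surj_cyc (L := L) hζ hc u
  refine ⟨g.restrictScalars K, res_rs g, Units.ext ?_⟩
  have h5 : g.restrictScalars K _ = _ := hg
  rwa [← hζ.autToPow_spec K, (hζ.isOfFinOrder hm).pow_eq_pow_iff_modEq, ← hζ.eq_orderOf,
    ← ZMod.natCast_eq_natCast_iff, ZMod.natCast_zmod_val, ZMod.natCast_zmod_val] at h5

theorem ev_pow {K : Type*} [Field K] [NumberField K] {A : Type*} [CommGroup A] (z : A)
    (j : Pr K → ℕ) (a : Kˣ) : ev (fun w => z ^ j w) a =
      z ^ (ev (fun w => Multiplicative.ofAdd (j w : ℤ)) a).toAdd := by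
  have := map_ev (zpowersHom A z) (fun w => Multiplicative.ofAdd (j w : ℤ)) a
  simpa using this.symm

theorem two_le_norm {K : Type*} [Field K] [NumberField K] (w : Pr K) :
    2 ≤ Ideal.absNorm w.asIdeal := by
  have h0 : Ideal.absNorm w.asIdeal ≠ 0 := Ideal.absNorm_eq_zero_iff.not.2 w.ne_bot
  have h1 : Ideal.absNorm w.asIdeal ≠ 1 := Ideal.absNorm_eq_one_iff.not.2 w.isPrime.ne_top
  omega

theorem fin_mem {K : Type*} [Field K] [NumberField K] {x : 𝓞 K} (hx : x ≠ 0) :
    ∃ S : Finset (Pr K), ∀ w, w ∈ S ↔ x ∈ w.asIdeal := by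
  have h := Ideal.finite_factors (I := Ideal.span {x}) (by simpa using hx)
  exact ⟨h.toFinset, fun w => by simp [Ideal.dvd_span_singleton]⟩

theorem val_nat_le {K : Type*} [Field K] [NumberField K] (w : Pr K) (n : ℕ) :
    w.valuation K (n : K) ≤ 1 := by
  have := w.valuation_le_one (K := K) (n : 𝓞 K)
  simpa using this

theorem val_nat_ne {K : Type*} [Field K] [NumberField K] (w : Pr K) {n : ℕ} (hn : n ≠ 0) :
    w.valuation K (n : K) ≠ 0 := (Valuation.ne_zero_iff _).2 (Nat.cast_ne_zero.2 hn)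

/-- Artin reciprocity, cyclic case -/
theorem artin_cyc (hH : HntStmt) (hU : UnrStmt) (hL : LocStmt) {K L : Type} [Field K] [Field L]
    [Algebra K L] [NumberField K] [NumberField L] [IsGalois K L] [IsTotallyComplex K]
    {s0 : L ≃ₐ[K] L} (hs0 : ∀ g, g ∈ Subgroup.zpowers s0) (T : Finset (Pr K)) (i : Pr K → ℕ)
    (hT0 : ∀ w ∈ T, i w = 0) (hfr : ∀ w, w ∉ T → Fr w ⊥ (s0 ^ i w)) (a : Kˣ)
    (hT : ∀ w ∈ T, AN L w (orderOf s0) (a : K)) :
    (orderOf s0 : ℤ) ∣ (ev (fun w => Multiplicative.ofAdd (i w : ℤ)) a).toAdd := by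
  classical
  set N := orderOf s0 with hN
  have hN0 : N ≠ 0 := (orderOf_pos s0).ne'
  let X := (supp_fin a).toFinset.image fun w : Pr K => Ideal.absNorm w.asIdeal
  have hX : ∀ w, ord (𝓞 K) w a ≠ 0 → Ideal.absNorm w.asIdeal ∈ X := fun w hw =>
    mem_image_of_mem _ (by simpa using hw)
  obtain ⟨m, hm, hB, ψ, hψ⟩ := exists_char34 X (fun x hx => by
    obtain ⟨w, -, rfl⟩ := mem_image.1 hx
    exact two_le_norm w) hN0 ((discr L).natAbs + X.sup id)
  have : NeZero m := ⟨hm⟩
  have hcop : ∀ x : ℕ, x ≠ 0 → x ≤ (discr L).natAbs + X.sup id → m.Coprime x := fun x h0 hx =>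
    Nat.coprime_of_dvd fun q hq h h' => by
      have := hB q hq h
      have := Nat.le_of_dvd (Nat.pos_of_ne_zero h0) h'
      omega
  obtain ⟨M, _, _, _, _, _, _, κ, hκ1, hκ2⟩ := exists_cyc K L hm
    (hcop _ (Int.natAbs_ne_zero.2 (discr_ne_zero L)) (Nat.le_add_right _ _))
  obtain ⟨E, _, _, _, _, _, _, Φ, hΦ, hΦr, hfix⟩ :=
    exists_desc ((res L : (M ≃ₐ[K] M) →* _).prod (ψ.comp κ))
  replace hΦr : ∀ g, Φ (res E g) = (res L g, ψ (κ g)) := hΦr
  obtain ⟨Tm, hTm⟩ := fin_mem (K := K) (x := (m : 𝓞 K)) (Nat.cast_ne_zero.2 hm)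
  have hun : ∀ w ∈ Tm, ord (𝓞 K) w a = 0 := fun w hw => by
    by_contra h0
    have h1 := hcop (Ideal.absNorm w.asIdeal) (by have := two_le_norm w; omega)
      ((le_sup (f := id) (hX w h0)).trans (Nat.le_add_left _ _))
    obtain ⟨u, v, huv⟩ := (Nat.isCoprime_iff_coprime.2 h1).map (Int.castRingHom (𝓞 K))
    refine w.isPrime.ne_top ((Ideal.eq_top_iff_one _).2 ?_)
    rw [← huv, map_natCast, map_natCast]
    exact add_mem (Ideal.mul_mem_left _ _ ((hTm w).1 hw))
      (Ideal.mul_mem_left _ _ (Ideal.absNorm_mem _))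
  -- generators
  have : Finite ψ.range := Finite.of_surjective _ ψ.rangeRestrict_surjective
  obtain ⟨⟨_, u0, rfl⟩, hz⟩ := IsCyclic.exists_generator (α := ψ.range)
  have hz' : ∀ u, ∃ j : ℕ, ψ u = ψ u0 ^ j := fun u => by
    obtain ⟨j, hj⟩ := (mem_powers_iff_mem_zpowers).2 (hz ⟨ψ u, u, rfl⟩)
    exact ⟨j, (congrArg Subtype.val hj).symm⟩
  obtain ⟨g0, hg0⟩ := AlgEquiv.restrictNormalHom_surjective (F := K) (K₁ := L) M s0
  obtain ⟨g1, hg1, hg1'⟩ := hκ1 (κ g0)⁻¹
  obtain ⟨t', ht1, ht2⟩ := hκ1 u0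
  have hs1 : res L (g0 * g1) = s0 := by rw [map_mul, hg1, mul_one, hg0]
  have hs2 : κ (g0 * g1) = 1 := by rw [map_mul, hg1', mul_inv_cancel]
  generalize g0 * g1 = s' at hs1 hs2
  have hs : Φ (res E s') = (s0, 1) := by rw [hΦr, hs1, hs2, map_one]
  have ht : Φ (res E t') = (1, ψ u0) := by rw [hΦr, ht1, ht2]
  have hst : ∀ i j : ℕ, Φ (res E s' ^ i * res E t' ^ j) = (s0 ^ i, ψ u0 ^ j) := fun i j => by
    rw [map_mul, map_pow, map_pow, hs, ht]; simp
  have hot : ∀ j : ℕ, orderOf (res E t' ^ j) = orderOf (ψ u0 ^ j) := fun j => by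
    rw [← orderOf_injective Φ hΦ, map_pow, ht, Prod.pow_mk, Prod.orderOf_mk]; simp
  choose j0 hj0 using fun w : Pr K => hz' (un m (Ideal.absNorm w.asIdeal))
  have key := core hH hU hL (s := res E s') (t := res E t')
    (hΦ (by rw [map_mul, map_mul, hs, ht]; simp)) (N := N) (n := orderOf (ψ u0))
    (by rw [← orderOf_injective Φ hΦ, hs, Prod.orderOf_mk]; simp [hN])
    (by simpa using hot 1)
    (fun g => by
      obtain ⟨g, rfl⟩ := AlgEquiv.restrictNormalHom_surjective (F := K) (K₁ := E) M g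
      obtain ⟨i, hi⟩ := (mem_powers_iff_mem_zpowers).2 (hs0 (res L g))
      obtain ⟨j, hj⟩ := hz' (κ g)
      exact ⟨i, j, hΦ (by rw [hst, hΦr, hj, ← hi])⟩)
    (fun i j h => by
      have h1 := hst i j
      rw [h, map_one, eq_comm, Prod.mk_eq_one] at h1
      exact ⟨hΦ (by rw [map_pow, hs, map_one, Prod.pow_mk, h1.1, one_pow]; rfl),
        hΦ (by rw [map_pow, ht, map_one, Prod.pow_mk, h1.2, one_pow]; rfl)⟩)
    (T ∪ Tm) (fun w => if w ∈ T ∪ Tm then 0 else i w) (fun w => if w ∈ T ∪ Tm then 0 else j0 w)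
    (fun w hw => by simp only [if_pos hw, and_self])
    (fun w hw => by
      simp only [if_neg hw]
      rw [mem_union, not_or] at hw
      obtain ⟨Q, _, _, hf, hi⟩ := hfr w hw.1
      have : Q.IsMaximal := Ideal.IsPrime.isMaximal inferInstance (ne_bot_over w Q)
      obtain ⟨⟨P, _, _⟩⟩ := (inferInstance : Nonempty (Q.primesOver (𝓞 M)))
      have : P.LiesOver w.asIdeal := Ideal.LiesOver.trans P Q _
      have hmP : (m : 𝓞 M) ∉ P := fun h => hw.2 ((hTm w).2 (by
        rw [Ideal.mem_of_liesOver P w.asIdeal, map_natCast]; exact h))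
      obtain ⟨φ, hφ⟩ := exists_frob w P
      have hQ := Ideal.over_def P Q
      have h1 : res L φ = s0 ^ i w :=
        mul_inv_eq_one.1 (Subgroup.mem_bot.1 (hi (frob_div (hQ ▸ frob_res hφ) hf)))
      have h2 := hκ2 P hmP φ _ hφ
      have h3 : κ φ = un m (Ideal.absNorm w.asIdeal) :=
        Units.ext (by rw [un_val (h2 ▸ (κ φ).isUnit), h2])
      rw [← hΦ (show Φ (res E φ) = Φ (res E s' ^ i w * res E t' ^ j0 w) by
        rw [hst, hΦr, h1, h3, hj0])]
      refine Fr.desc (H := (res E : (M ≃ₐ[K] M) →* _).ker) (fun g hg => hg)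
        ⟨P, inferInstance, inferInstance, hφ, fun g hg => hΦ ?_⟩
      have h4 : res L g = 1 := Subgroup.mem_bot.1 (hi (hQ ▸ inertia_res hg))
      have h5 : κ g = 1 := Units.ext (by
        simpa using hκ2 P hmP g 1 fun x => by rw [pow_one]; exact hg x)
      rw [hΦr, h4, h5, map_one, map_one]; rfl)
    a
    (fun w hw => by
      obtain ⟨g, hg0, hg⟩ : AN L w N (a : K) := by
        by_cases h : w ∈ T
        · exact hT w h
        · obtain ⟨Q, _, _, -, hi⟩ := hfr w h
          exact hU K L w Q a a.ne_zero (Or.inl ⟨le_bot_iff.1 hi, (ord_eq_zero_iff w a).1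
            (hun w ((mem_union.1 hw).resolve_left h))⟩) _ (pow_ne_zero _ (val_nat_ne w hN0))
      obtain ⟨y, hy⟩ := hfix (algebraMap L M g) fun u hu => by
        rw [← res_comm, show res L u = 1 from congrArg Prod.fst hu]; rfl
      refine ⟨y, Algebra.norm K g, fun h => hg0 ?_, (algebraMap E M).injective ?_,
        (algebraMap E M).injective ?_, hg⟩
      · rwa [h, map_zero, eq_comm, map_eq_zero] at hy
      · rw [res_comm, hy, ← res_comm, ht1]; rfl
      · rw [← IsScalarTower.algebraMap_apply, IsScalarTower.algebraMap_apply K L M, norm_cyc hs0,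
          map_prod, map_prod]
        exact prod_congr rfl fun k _ => by
          rw [← map_pow, res_comm, hy, ← res_comm, map_pow, hs1])
    (fun w hw h0 => by
      simp only [if_neg hw]
      rw [hot, ← hj0]
      exact hψ _ (hX w h0))
    (∏ w ∈ T ∪ Tm, w.valuation K (m : K)) (prod_ne_zero_iff.2 fun w _ => val_nat_ne w hm)
    (fun β hβ => by
      have hle : ∀ w ∈ T ∪ Tm, w.valuation K ((β : K) - 1) < w.valuation K (m : K) :=
        fun w hw => (hβ w hw).trans_le (by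
          rw [← mul_prod_erase _ _ hw]
          exact mul_le_of_le_one_right' (prod_le_one' fun w _ => val_nat_le w m))
      have h1 := congrArg ψ (cyc_rec hm β fun w hw => (hle w (mem_union_right _ ((hTm w).2 hw))).le)
      rw [map_ev, map_one, ev_congr (g := fun w => ψ u0 ^ if w ∈ T ∪ Tm then 0 else j0 w)
        fun w hw => ?_, ev_pow] at h1
      · exact orderOf_dvd_iff_zpow_eq_one.2 h1
      · rw [if_neg fun h => hw ((ord_eq_zero_iff w β).2 ?_), hj0]
        have := (w.valuation K).map_one_add_of_lt ((hle w h).trans_le (val_nat_le w m))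
        rwa [add_sub_cancel] at this)
  rwa [ev_congr (g := fun w => Multiplicative.ofAdd (i w : ℤ)) fun w hw => ?_] at key
  by_cases h : w ∈ T ∪ Tm
  · rw [if_pos h, hT0 w ((mem_union.1 h).resolve_right fun h' => hw (hun w h'))]
  · rw [if_neg h]

/-- **Artin reciprocity** from the three leaves -/
theorem artin_of (hH : HntStmt) (hU : UnrStmt) (hL : LocStmt) : ArtStmt := by
  intro K L _ _ _ _ _ _ _ A _ χ N hN hχ T f hf1 hf2 a ha
  classical
  have hmem : ∀ w, f w ∈ χ.range := fun w => by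
    by_cases h : w ∈ T
    · rw [hf1 w h]; exact one_mem _
    · obtain ⟨g, -, hg⟩ := hf2 w h
      exact ⟨g, hg.symm⟩
  have : Finite χ.range := Finite.of_surjective _ χ.rangeRestrict_surjective
  suffices h : ev (fun w => (⟨f w, hmem w⟩ : χ.range)) a = 1 by
    simpa [map_ev] using congrArg χ.range.subtype h
  by_contra hne
  obtain ⟨l, hl⟩ := CommGroup.exists_apply_ne_one_of_hasEnoughRootsOfUnity χ.range ℂ hne
  obtain ⟨E, _, _, _, _, _, _, Φ, hΦ, hΦr, -⟩ := exists_desc (l.comp χ.rangeRestrict)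
  have : IsCyclic (E ≃ₐ[K] E) := isCyclic_of_injective_ringHom ((Units.coeHom ℂ).comp Φ)
    (Units.val_injective.comp hΦ)
  obtain ⟨s, hs⟩ := IsCyclic.exists_generator (α := E ≃ₐ[K] E)
  have h1 : ∀ w, ∃ i : ℕ, (w ∈ T → i = 0) ∧ (w ∉ T → Fr w ⊥ (s ^ i)) ∧
      l ⟨f w, hmem w⟩ = Φ s ^ i := fun w => by
    by_cases h : w ∈ T
    · refine ⟨0, fun _ => rfl, fun h' => absurd h h', ?_⟩
      rw [pow_zero, ← map_one l]
      exact congrArg l (Subtype.ext (hf1 w h))
    · obtain ⟨g, hg, hg'⟩ := hf2 w h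
      obtain ⟨i, hi⟩ := (mem_powers_iff_mem_zpowers).2 (hs (res E g))
      replace hi : s ^ i = res E g := hi
      refine ⟨i, fun h' => absurd h' h, fun _ => hi ▸ hg.desc fun u hu => hΦ ?_, ?_⟩
      · rw [hΦr, map_one, MonoidHom.comp_apply, ← map_one l]
        exact congrArg l (Subtype.ext hu)
      · rw [← map_pow, hi, hΦr]
        exact congrArg l (Subtype.ext hg')
  choose i hi1 hi2 hi3 using h1
  have hd : orderOf s ∣ N := by
    obtain ⟨g, rfl⟩ := AlgEquiv.restrictNormalHom_surjective (F := K) (K₁ := E) L s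
    refine orderOf_dvd_of_pow_eq_one (hΦ ?_)
    rw [map_pow, hΦr, map_one, MonoidHom.comp_apply, ← map_pow, ← map_one l]
    exact congrArg l (Subtype.ext (hχ g))
  have key := artin_cyc hH hU hL hs T i hi1 hi2 a fun w hw => by
    obtain ⟨g, hg0, hg⟩ := ha w hw
    obtain ⟨k, rfl⟩ := hd
    refine ⟨Algebra.norm E g, Algebra.norm_ne_zero_iff.2 hg0, ?_⟩
    rw [Algebra.norm_norm]
    refine hg.trans_le (pow_le_pow_left₀ zero_le ?_ 2)
    rw [Nat.cast_mul, map_mul]
    exact mul_le_of_le_one_right' (val_nat_le w k)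
  refine hl ?_
  rw [map_ev, ev_congr (g := fun w => Φ s ^ i w) fun w _ => hi3 w, ev_pow, ← map_zpow,
    orderOf_dvd_iff_zpow_eq_one.1 key, map_one]

end Crest.Agent.T15.Art
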