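import Crest.Agent.T15.ArtDef_34
import Crest.Agent.R018.SLat_824

/-!
# Row 15, norm functoriality of `ev` (helper49)
-/

set_option autoImplicit false

noncomputable section

open NumberField IsDedekindDomain WithZero
open scoped nonZeroDivisors Pointwise

namespace Crest.Agent.T15.Ex

open Crest.Agent.T15.Art Crest.Agent.R018.Selmerx380 Crest.Agent.R018.SLatx824

section evI

variable {K : Type*} [Field K] [NumberField K] {A : Type*} [CommGroup A]

/-- the value of `f` on an ideal -/
def evI (f : Pr K → A) (I : Ideal (𝓞 K)) : A :=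
  ∏ᶠ w, f w ^ FractionalIdeal.count K w (I : FractionalIdeal (𝓞 K)⁰ K)

theorem evI_fin (f : Pr K → A) (I : Ideal (𝓞 K)) : Function.HasFiniteMulSupport
    fun w => f w ^ FractionalIdeal.count K w (I : FractionalIdeal (𝓞 K)⁰ K) := by
  have := FractionalIdeal.finite_factors (K := K) (I : FractionalIdeal (𝓞 K)⁰ K)
  rw [Filter.eventually_cofinite] at this
  exact this.subset fun w hw h => hw (by simp [h])

theorem evI_mul (f : Pr K → A) {I J : Ideal (𝓞 K)} (hI : I ≠ ⊥) (hJ : J ≠ ⊥) :
    evI f (I * J) = evI f I * evI f J := by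
  rw [evI, evI, evI, ← finprod_mul_distrib (evI_fin f I) (evI_fin f J)]
  refine finprod_congr fun w => ?_
  rw [FractionalIdeal.coeIdeal_mul, FractionalIdeal.count_mul K w
    (FractionalIdeal.coeIdeal_ne_zero.2 hI) (FractionalIdeal.coeIdeal_ne_zero.2 hJ), zpow_add]

theorem evI_top (f : Pr K → A) : evI f ⊤ = 1 := by
  simp [evI, FractionalIdeal.count_one]

theorem evI_pow (f : Pr K → A) {I : Ideal (𝓞 K)} (hI : I ≠ ⊥) (k : ℕ) :
    evI f (I ^ k) = evI f I ^ k := by
  induction k with
  | zero => simp [evI_top]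
  | succ k ih => rw [pow_succ, evI_mul f (pow_ne_zero k hI) hI, ih, pow_succ]

theorem evI_prime (f : Pr K → A) (w : Pr K) : evI f w.asIdeal = f w := by
  rw [evI, finprod_eq_single _ w fun v hv => ?_, FractionalIdeal.count_self, zpow_one]
  rw [FractionalIdeal.count_maximal_coprime K v (Ne.symm hv), zpow_zero]

theorem ev_int (f : Pr K → A) (a : Kˣ) (r : 𝓞 K) (h : (a : K) = r) :
    ev f a = evI f (Ideal.span {r}) := by
  rw [ev_apply, evI, FractionalIdeal.coeIdeal_span_singleton]
  simp only [ord, h]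

theorem exists_div_int (a : Kˣ) : ∃ (b c : Kˣ) (r s : 𝓞 K), (b : K) = r ∧ (c : K) = s ∧
    a = b / c := by
  obtain ⟨r, s, hs, h⟩ := IsFractionRing.div_surjective (A := 𝓞 K) (a : K)
  have hs0 : (s : K) ≠ 0 := by exact_mod_cast nonZeroDivisors.ne_zero hs
  have hr0 : (r : K) ≠ 0 := fun h0 => a.ne_zero (by rw [← h]; exact div_eq_zero_iff.2 (Or.inl h0))
  exact ⟨Units.mk0 _ hr0, Units.mk0 _ hs0, r, s, rfl, rfl, Units.ext (by simpa using h.symm)⟩

end evI

section Norm

variable {K : Type*} [Field K] [NumberField K] (L : Type*) [Field L] [NumberField L] [Algebra K L]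
  {A : Type*} [CommGroup A]

/-- `f ∘ N` on the primes of `L` -/
def nf (f : Pr K → A) (W : Pr L) : A := f (W.under (𝓞 K)) ^ W.asIdeal.inertiaDeg (𝓞 K)

variable {L}

theorem evI_relNorm (f : Pr K → A) (I : Ideal (𝓞 L)) (hI : I ≠ ⊥) :
    evI (nf L f) I = evI f (Ideal.relNorm (𝓞 K) I) := by
  induction I using UniqueFactorizationMonoid.induction_on_prime with
  | h₁ => exact absurd rfl hI
  | h₂ I hu => rw [Ideal.isUnit_iff.1 hu, Ideal.relNorm_top, evI_top, evI_top]
  | h₃ I P hI0 hP ih =>
    let W : Pr L := ⟨P, Ideal.isPrime_of_prime hP, hP.ne_zero⟩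
    have := W.isMaximal
    have := (W.under (𝓞 K)).isMaximal
    have : W.asIdeal.LiesOver (W.under (𝓞 K)).asIdeal := ⟨rfl⟩
    have h1 : Ideal.relNorm (𝓞 K) P = (W.under (𝓞 K)).asIdeal ^ W.asIdeal.inertiaDeg (𝓞 K) :=
      Ideal.relNorm_eq_pow_of_isMaximal W.asIdeal _
    rw [evI_mul _ hP.ne_zero hI0, map_mul, evI_mul _ (mt Ideal.relNorm_eq_bot_iff.1 hP.ne_zero)
      (mt Ideal.relNorm_eq_bot_iff.1 hI0), ih hI0, h1, evI_pow _ (W.under (𝓞 K)).ne_bot, evI_prime]
    exact congrArg (· * _) (evI_prime _ W)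

/-- **norm functoriality** -/
theorem ev_norm (f : Pr K → A) (x : Lˣ) :
    ev (nf L f) x = ev f (Units.map (Algebra.norm K) x) := by
  have key : ∀ (b : Lˣ) (r : 𝓞 L), (b : L) = r →
      ev (nf L f) b = ev f (Units.map (Algebra.norm K) b) := fun b r h => by
    have hr : r ≠ 0 := fun h0 => b.ne_zero (by rw [h, h0]; rfl)
    rw [ev_int _ b r h, evI_relNorm f _ (by simpa using hr), Ideal.relNorm_singleton,
      ev_int f _ (Algebra.intNorm (𝓞 K) (𝓞 L) r)]
    rw [Units.coe_map, h]
    exact (Algebra.algebraMap_intNorm (L := L) r).symm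
  obtain ⟨b, c, r, s, hb, hc, rfl⟩ := exists_div_int x
  rw [map_div, map_div, map_div, key b r hb, key c s hc]

theorem val_lt_iff (w : Pr K) (W : Pr L) [W.asIdeal.LiesOver w.asIdeal] (x y : K) :
    W.valuation L (algebraMap K L x) < W.valuation L (algebraMap K L y) ↔
      w.valuation K x < w.valuation K y := by
  rw [← HeightOneSpectrum.valuation_liesOver L w W, ← HeightOneSpectrum.valuation_liesOver L w W]
  exact pow_lt_pow_iff_left₀ zero_le zero_le
    (Ideal.IsDedekindDomain.ramificationIdx'_ne_zero_of_liesOver W.asIdeal w.ne_bot)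

theorem v_prod_sub_one {F Γ ι : Type*} [Field F] [LinearOrderedCommGroupWithZero Γ]
    (v : Valuation F Γ) (s : Finset ι) (x : ι → F) {ε : Γ} (h0 : ε ≠ 0) (h1 : ε ≤ 1)
    (h : ∀ i ∈ s, v (x i - 1) < ε) : v (∏ i ∈ s, x i - 1) < ε := by
  classical
  induction s using Finset.induction_on with
  | empty => simpa [zero_lt_iff] using h0
  | insert a s ha ih =>
    have h2 := h a (Finset.mem_insert_self a s)
    have h3 : v (x a) = 1 := by simpa using v.map_one_add_of_lt (h2.trans_le h1)
    have e : x a * ∏ i ∈ s, x i - 1 = x a * (∏ i ∈ s, x i - 1) + (x a - 1) := by ring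
    rw [Finset.prod_insert ha, e]
    refine v.map_add_lt ?_ h2
    rw [map_mul, h3, one_mul]
    exact ih fun i hi => h i (Finset.mem_insert_of_mem hi)

attribute [local instance] actH

/-- an element close to `1` at all primes above `w` has norm close to `1` at `w` -/
theorem norm_deep [IsGalois K L] (w : Pr K) {c : K} (hc : c ≠ 0) (hc1 : w.valuation K c ≤ 1)
    (x : L) (hx : ∀ W : Pr L, W.under (𝓞 K) = w →
      W.valuation L (x - 1) < W.valuation L (algebraMap K L c)) :
    w.valuation K (Algebra.norm K x - 1) < w.valuation K c := by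
  have := w.isMaximal
  obtain ⟨P, hP, hPw⟩ := Ideal.exists_maximal_ideal_liesOver_of_isIntegral (S := 𝓞 L) w.asIdeal
  let W : Pr L := ⟨P, hP.isPrime, Ideal.ne_bot_of_liesOver_of_ne_bot w.ne_bot P⟩
  have : W.asIdeal.LiesOver w.asIdeal := hPw
  rw [← val_lt_iff w W, map_sub, map_one, Algebra.norm_eq_prod_automorphisms]
  refine v_prod_sub_one _ _ _ (by simpa using hc) ?_ fun σ _ => ?_
  · rw [← not_lt, ← map_one (W.valuation L), ← map_one (algebraMap K L), val_lt_iff w W, map_one,
      not_lt]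
    exact hc1
  · have h1 := hx (σ⁻¹ • W) (HeightOneSpectrum.ext (by
      change Ideal.under _ (σ⁻¹ • P) = _
      rw [Ideal.under_smul]
      exact hPw.over.symm))
    rw [← val_smul σ, ← val_smul σ _ (algebraMap K L c), smul_inv_smul, map_sub, map_one,
      AlgEquiv.commutes] at h1
    exact h1

end Norm

end Crest.Agent.T15.Ex
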