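import Crest.Agent.T15.ChebB_25

/-!
# Row 15: the Chebotarev existence theorem

`cheb`: every automorphism of a number field is a Frobenius `x ↦ x ^ p` at primes above
arbitrarily large rational primes `p`.
-/

set_option autoImplicit false

noncomputable section

namespace Crest.Agent.T15.Cheb

open NumberField Polynomial Ideal
open Crest.Agent.T27

theorem irr_cyc (L : Type*) [Field L] [NumberField L] :
    ∃ N : ℕ, ∀ l : ℕ, l.Prime → N < l → Irreducible (cyclotomic l L) := by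
  have h0 : differentIdeal ℤ (𝓞 L) ≠ ⊥ := differentIdeal_ne_bot
  refine ⟨absNorm (differentIdeal ℤ (𝓞 L)), fun l hl hN => ?_⟩
  have := Fact.mk hl
  have hZ : Prime (l : ℤ) := Nat.prime_iff_prime_int.1 hl
  have hb : span {(l : ℤ)} ≠ ⊥ := by simpa using hl.ne_zero
  have : (span {(l : ℤ)}).IsMaximal := ((span_singleton_prime hZ.ne_zero).2 hZ).isMaximal hb
  obtain ⟨⟨P, hP, hPl⟩⟩ := (inferInstance : Nonempty ((span {(l : ℤ)}).primesOver (𝓞 L)))
  have hlP : (l : 𝓞 L) ∈ P := by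
    have := (mem_of_liesOver P (span {(l : ℤ)}) _).1 (mem_span_singleton_self _)
    simpa using this
  have hl2 : (l : 𝓞 L) ∉ P ^ 2 := fun h => by
    have h1 := pow_sub_one_dvd_differentIdeal ℤ P 2 hb (by
      rw [dvd_iff_le, Ideal.map_span, Set.image_singleton, span_singleton_le_iff_mem]
      simpa using h)
    rw [show 2 - 1 = 1 from rfl, pow_one, dvd_iff_le] at h1
    exact int_mem_52 hl hlP (fun h2 => (Nat.le_of_dvd
      (Nat.pos_of_ne_zero (absNorm_eq_zero_iff.not.2 h0)) h2).not_gt hN) (h1 (absNorm_mem _))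
  have hE := cyclotomic_comp_X_add_one_isEisensteinAt l
  have hmon : ((cyclotomic l ℤ).comp (X + 1)).Monic := by
    rw [show (X + 1 : ℤ[X]) = X + C 1 by simp]
    exact (cyclotomic.monic l ℤ).comp_X_add_C 1
  have hdeg : ((cyclotomic l ℤ).comp (X + 1)).natDegree = l - 1 := by
    rw [show (X + 1 : ℤ[X]) = X + C 1 by simp, natDegree_comp, natDegree_X_add_C, mul_one,
      natDegree_cyclotomic, Nat.totient_prime hl]
  have hm' := hmon.map (algebraMap ℤ (𝓞 L))
  have hE' : (((cyclotomic l ℤ).comp (X + 1)).map (algebraMap ℤ (𝓞 L))).IsEisensteinAt P := by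
    refine hm'.isEisensteinAt_of_mem_of_notMem hP.ne_top (fun {n} hn => ?_) ?_
    · rw [hmon.natDegree_map] at hn
      rw [coeff_map]
      exact (mem_of_liesOver P (span {(l : ℤ)}) _).1 (hE.mem hn)
    · rw [coeff_map, coeff_zero_eq_eval_zero, eval_comp]
      simpa using hl2
  have h1 := (hm'.irreducible_iff_irreducible_map_fraction_map (K := L)).1
    (hE'.irreducible hP hm'.isPrimitive (by
      rw [hmon.natDegree_map, hdeg]; have := hl.two_le; omega))
  rw [Polynomial.map_map, map_comp, map_cyclotomic] at h1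
  refine (MulEquiv.irreducible_iff (taylorEquiv (1 : L))).1 ?_
  change Irreducible (taylor (1 : L) (cyclotomic l L))
  simpa [taylor_apply] using h1

theorem ext_step {L : Type} [Field L] [NumberField L] {l : ℕ} (hl : l.Prime)
    (hi : Irreducible (cyclotomic l L)) (σ : L ≃ₐ[ℚ] L) {a : ℕ} (ha : a.Coprime l) :
    ∃ (M : Type) (_ : Field M) (_ : NumberField M) (_ : Algebra L M) (ζ : M) (τ : M ≃ₐ[ℚ] M),
      IsPrimitiveRoot ζ l ∧ Algebra.adjoin L {ζ} = ⊤ ∧
      (∀ x, τ (algebraMap L M x) = algebraMap L M (σ x)) ∧ τ ζ = ζ ^ a := by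
  have := Fact.mk hi
  let M := AdjoinRoot (cyclotomic l L)
  have : Module.Finite L M := (AdjoinRoot.powerBasis hi.ne_zero).finite
  have : CharZero M := charZero_of_injective_algebraMap (algebraMap L M).injective
  have : NumberField M := NumberField.of_module_finite L M
  have : NeZero (l : M) := ⟨by exact_mod_cast hl.ne_zero⟩
  have hζ : IsPrimitiveRoot (AdjoinRoot.root (cyclotomic l L) : M) l := by
    rw [← isRoot_cyclotomic_iff, ← map_cyclotomic l (AdjoinRoot.of (cyclotomic l L))]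
    exact AdjoinRoot.isRoot_root _
  have ht : eval₂ ((algebraMap L M).comp (σ : L →+* L)) (AdjoinRoot.root (cyclotomic l L) ^ a)
      (cyclotomic l L) = 0 := by
    rw [eval₂_eq_eval_map, map_cyclotomic]
    exact isRoot_cyclotomic_iff.2 (hζ.pow_of_coprime a ha)
  let t : M →+* M := AdjoinRoot.lift _ _ ht
  refine ⟨M, inferInstance, inferInstance, inferInstance, _,
    AlgEquiv.ofBijective t.toRatAlgHom (Algebra.IsAlgebraic.algHom_bijective _), hζ,
    AdjoinRoot.adjoinRoot_eq_top, fun x => ?_, ?_⟩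
  · exact AdjoinRoot.lift_of ht
  · exact AdjoinRoot.lift_root ht

/-- `σ` is a Frobenius above arbitrarily large primes -/
def Fr {L : Type*} [Field L] [NumberField L] (σ : L ≃ₐ[ℚ] L) : Prop :=
  ∀ A : Set ℕ, Sm A → ∃ p : ℕ, p.Prime ∧ p ∉ A ∧ ∃ Q : Ideal (𝓞 L), Q.IsPrime ∧ (p : 𝓞 L) ∈ Q ∧
    ∀ x : 𝓞 L, σ • x - x ^ p ∈ Q

theorem Fr.down {L M : Type*} [Field L] [NumberField L] [Field M] [NumberField M] [Algebra L M]
    {σ : L ≃ₐ[ℚ] L} {τ : M ≃ₐ[ℚ] M} (h : ∀ x, τ (algebraMap L M x) = algebraMap L M (σ x))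
    (hτ : Fr τ) : Fr σ := fun A hA => by
  obtain ⟨p, h1, h2, Q, h3, h4, h5⟩ := hτ A hA
  refine ⟨p, h1, h2, Q.comap (algebraMap (𝓞 L) (𝓞 M)), comap_isPrime _ Q, ?_, fun x => ?_⟩
  · rw [mem_comap, map_natCast]; exact h4
  · rw [mem_comap, map_sub, map_pow]
    convert h5 (algebraMap (𝓞 L) (𝓞 M) x) using 2
    exact RingOfIntegers.ext (h x).symm

theorem fr_cyc {M : Type} [Field M] [NumberField M] (τ : M ≃ₐ[ℚ] M) {m k : ℕ} (hm : m ≠ 0)
    (hk : 2 < k) {ζ ξ : M} (hζ : IsPrimitiveRoot ζ m) (hξ : IsPrimitiveRoot ξ k) (hτ : τ ξ = ξ)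
    (h : ∀ j : ℕ, (τ ^ j) ζ = ζ → τ ^ j = 1) : Fr τ := fun A hA => by
  let H := Subgroup.zpowers τ
  let E := IntermediateField.fixedField H
  have : IsGalois E M := IsGalois.of_fixed_field M H
  have hξE : ξ ∈ E := by
    rintro ⟨g, hg⟩
    obtain ⟨j, rfl⟩ := (mem_powers_iff_mem_zpowers.2 hg : g ∈ Submonoid.powers τ)
    change (τ ^ j) ξ = ξ
    rw [AlgEquiv.coe_pow]
    exact Function.iterate_fixed hτ j
  have : IsTotallyComplex E := by
    have h1 : IsPrimitiveRoot (⟨ξ, hξE⟩ : E) k :=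
      IsPrimitiveRoot.of_map_of_injective (f := algebraMap E M) hξ (algebraMap E M).injective
    exact nrRealPlaces_eq_zero_iff.1 (InfinitePlace.IsPrimitiveRoot.nrRealPlaces_eq_zero_of_two_lt hk h1)
  have hgen : Algebra.adjoin E {ζ} = ⊤ := by
    rw [← IntermediateField.adjoin_simple_toSubalgebra_of_isAlgebraic
      (Algebra.IsAlgebraic.isAlgebraic ζ), ← IsGalois.fixedField_fixingSubgroup
      (IntermediateField.adjoin E {ζ})]
    have h1 : (IntermediateField.adjoin E {ζ}).fixingSubgroup = ⊥ := by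
      rw [eq_bot_iff]
      intro g hg
      obtain ⟨⟨g, hg'⟩, rfl⟩ := (IntermediateField.subgroupEquivAlgEquiv H).surjective g
      obtain ⟨j, rfl⟩ := (mem_powers_iff_mem_zpowers.2 hg' : g ∈ Submonoid.powers τ)
      have h2 := h j (hg ⟨ζ, IntermediateField.mem_adjoin_simple_self E ζ⟩)
      rw [Subgroup.mem_bot, map_eq_one_iff _ (IntermediateField.subgroupEquivAlgEquiv H).injective]
      exact Subtype.ext h2
    rw [h1, IntermediateField.fixedField_bot, IntermediateField.top_toSubalgebra]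
  exact cheb_cyc' hm hζ hgen (IntermediateField.subgroupEquivAlgEquiv H ⟨τ, Subgroup.mem_zpowers τ⟩) hA

theorem fr_all {L : Type} [Field L] [NumberField L] (σ : L ≃ₐ[ℚ] L) : Fr σ := by
  obtain ⟨N, hN⟩ := irr_cyc L
  obtain ⟨k, hk1, hk⟩ := Nat.exists_infinite_primes (max N 2 + 1)
  obtain ⟨L₁, _, _, _, ξ, σ₁, hξ, -, h1, h2⟩ := ext_step hk (hN k hk (by omega)) σ
    (Nat.coprime_one_left k)
  refine Fr.down h1 ?_
  obtain ⟨N₁, hN₁⟩ := irr_cyc L₁
  obtain ⟨l, hl, hl1, hl2⟩ := Nat.exists_prime_gt_modEq_one N₁ (orderOf_pos σ₁).ne'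
  have := Fact.mk hl
  obtain ⟨g, hg⟩ := IsCyclic.exists_generator (α := (ZMod l)ˣ)
  have hord : orderOf g = l - 1 := by
    rw [orderOf_eq_card_of_forall_mem_zpowers hg, Nat.card_eq_fintype_card, ZMod.card_units]
  obtain ⟨M, _, _, _, ζ, τ, hζ, hgen, h3, h4⟩ := ext_step hl (hN₁ l hl hl1) σ₁
    (ZMod.val_coe_unit_coprime g)
  refine Fr.down h3 (fr_cyc τ hl.ne_zero (by omega : 2 < k) hζ
    (hξ.map_of_injective (algebraMap L₁ M).injective) (by rw [h3, h2, pow_one]) fun j hj => ?_)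
  have h5 : ∀ j : ℕ, (τ ^ j) ζ = ζ ^ (g : ZMod l).val ^ j := fun j => by
    induction j with
    | zero => simp
    | succ j ih => rw [pow_succ, AlgEquiv.mul_apply, h4, map_pow, ih, ← pow_mul, ← pow_succ]
  have h6 : ∀ (j : ℕ) (x : L₁), (τ ^ j) (algebraMap L₁ M x) = algebraMap L₁ M ((σ₁ ^ j) x) :=
    fun j => by
      induction j with
      | zero => simp
      | succ j ih => intro x; rw [pow_succ, AlgEquiv.mul_apply, h3, ih, pow_succ]; rfl
  have h7 : g ^ j = 1 := by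
    have h8 := modEq_of_pow hζ hl.ne_zero (((h5 j).symm.trans hj).trans (pow_one ζ).symm)
    rw [← ZMod.natCast_eq_natCast_iff] at h8
    exact Units.ext (by simpa using h8)
  have h8 : σ₁ ^ j = 1 := orderOf_dvd_iff_pow_eq_one.1
    (((Nat.modEq_iff_dvd' hl.one_le).1 hl2.symm).trans (hord ▸ orderOf_dvd_of_pow_eq_one h7))
  have h9 : ∀ x ∈ Algebra.adjoin L₁ {ζ}, (τ ^ j) x = x := fun x hx => by
    induction hx using Algebra.adjoin_induction with
    | mem x hx => rw [Set.mem_singleton_iff.1 hx, hj]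
    | algebraMap r => rw [h6, h8]; rfl
    | add x y _ _ hx hy => rw [map_add, hx, hy]
    | mul x y _ _ hx hy => rw [map_mul, hx, hy]
  exact AlgEquiv.ext fun x => h9 x (hgen ▸ Algebra.mem_top)

theorem fr_univ {L : Type*} [Field L] [NumberField L] (σ : L ≃ₐ[ℚ] L) : Fr σ := by
  let b := Field.powerBasisOfFiniteOfSeparable ℚ L
  have := Fact.mk (minpoly.irreducible b.isIntegral_gen)
  let M := AdjoinRoot (minpoly ℚ b.gen)
  let e : M ≃ₐ[ℚ] L := AdjoinRoot.equiv' _ b (AdjoinRoot.aeval_eq _ |>.trans AdjoinRoot.mk_self)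
    (minpoly.aeval ℚ b.gen)
  let _ : Algebra L M := (e.symm : L →+* M).toAlgebra
  exact Fr.down (τ := (e.trans σ).trans e.symm) (fun x => by
    change e.symm (σ (e (e.symm x))) = e.symm (σ x)
    rw [e.apply_symm_apply]) (fr_all _)

/-- **Chebotarev**, absolute form: any automorphism of any number field. -/
theorem cheb {L : Type*} [Field L] [NumberField L] (σ : L ≃ₐ[ℚ] L) (B : ℕ) :
    ∃ p : ℕ, p.Prime ∧ B < p ∧ ∃ Q : Ideal (𝓞 L), Q.IsPrime ∧ (p : 𝓞 L) ∈ Q ∧
      ∀ x : 𝓞 L, σ • x - x ^ p ∈ Q := by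
  obtain ⟨p, h1, h2, h3⟩ := fr_univ σ _ (sm_le B)
  exact ⟨p, h1, not_le.1 h2, h3⟩

/-- the primes with a given Frobenius have `∑ log p / p = ∞` -/
theorem not_summable {L : Type*} [Field L] [NumberField L] (σ : L ≃ₐ[ℚ] L) {A : Set ℕ}
    (hA : ∀ p : ℕ, p.Prime → ∀ Q : Ideal (𝓞 L), Q.IsPrime → (p : 𝓞 L) ∈ Q →
      (∀ x : 𝓞 L, σ • x - x ^ p ∈ Q) → p ∈ A) :
    ¬ Summable fun n : ℕ => A.indicator (fun n => Real.log n / n) n := fun h => by
  obtain ⟨p, h1, h2, Q, h3, h4, h5⟩ := fr_univ σ A h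
  exact h2 (hA p h1 Q h3 h4 h5)

/-- **Chebotarev**, relative form: the prime is unramified, of degree one below. -/
theorem cheb_rel {K L : Type*} [Field K] [NumberField K] [Field L] [NumberField L] [Algebra K L]
    [IsGalois K L] (σ : L ≃ₐ[K] L) (B : ℕ) :
    ∃ p : ℕ, p.Prime ∧ B < p ∧ ∃ Q : Ideal (𝓞 L), Q.IsMaximal ∧ (p : 𝓞 L) ∈ Q ∧
      ¬ (p : ℤ) ∣ discr L ∧ absNorm (Q.under (𝓞 K)) = p ∧ IsArithFrobAt (𝓞 K) σ Q ∧
      ∀ x : 𝓞 L, σ • x - x ^ p ∈ Q := by
  obtain ⟨p, h1, h2, Q, h3, h4, h5⟩ := cheb (σ.restrictScalars ℚ) (max B (discr L).natAbs)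
  have h5' : ∀ x : 𝓞 L, σ • x - x ^ p ∈ Q := h5
  have hQ0 : Q ≠ ⊥ := fun h0 => by
    rw [h0, Ideal.mem_bot] at h4
    exact h1.ne_zero (by exact_mod_cast h4)
  have hP : absNorm (Q.under (𝓞 K)) = p := by
    have := Fact.mk h1
    have hp : (p : 𝓞 K) ∈ Q.under (𝓞 K) := by rw [mem_comap, map_natCast]; exact h4
    have hP0 : Q.under (𝓞 K) ≠ ⊥ := fun h0 => by
      rw [h0, Ideal.mem_bot] at hp
      exact h1.ne_zero (by exact_mod_cast hp)
    have := (inferInstance : (Q.under (𝓞 K)).IsPrime).isMaximal hP0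
    let _ := Ideal.Quotient.field (Q.under (𝓞 K))
    have : CharP (𝓞 K ⧸ Q.under (𝓞 K)) p := by
      refine (CharP.charP_iff_prime_eq_zero h1).2 ?_
      rw [← map_natCast (Ideal.Quotient.mk _), Ideal.Quotient.eq_zero_iff_mem]; exact hp
    let f := ZMod.castHom (dvd_refl p) (𝓞 K ⧸ Q.under (𝓞 K))
    have hf : Function.Surjective f := fun y => by
      obtain ⟨x, rfl⟩ := Ideal.Quotient.mk_surjective y
      have h6 : Ideal.Quotient.mk (Q.under (𝓞 K)) x ^ p = Ideal.Quotient.mk _ x := by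
        rw [← map_pow, eq_comm, Ideal.Quotient.eq, mem_comap, map_sub, map_pow]
        have := h5' (algebraMap _ _ x)
        rwa [smul_algebraMap] at this
      obtain ⟨z, hz⟩ := (mem_bot_iff_intCast p _).1 ((Subfield.mem_bot_iff_pow_eq_self _ p).2 h6)
      exact ⟨z, by rw [map_intCast, hz]⟩
    rw [absNorm_apply, Submodule.cardQuot_apply,
      ← Nat.card_congr (Equiv.ofBijective f ⟨f.injective, hf⟩), Nat.card_zmod]
  refine ⟨p, h1, by omega, Q, h3.isMaximal hQ0, h4, fun h => ?_, hP, fun x => ?_, h5'⟩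
  · have := Nat.le_of_dvd (Int.natAbs_pos.2 (discr_ne_zero L)) (Int.natCast_dvd.1 h)
    omega
  · rw [← Submodule.cardQuot_apply, ← absNorm_apply, hP]
    exact h5' x

end Crest.Agent.T15.Cheb
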