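import Crest.Agent.T15.ArtN_49
import Crest.Agent.T15.Cheb_25
import Crest.Agent.R018.Places3_484
import Crest.Agent.R018.LCIneB_925

/-!
# Row 15: Artin reciprocity and Chebotarev for characters of an infinite Galois group (helper49)

`E/K` Galois (infinite), `K` a number field.  `Av T f ξ`: `ξ (Frob_w) = f w` for all `w ∉ T`.
-/

set_option autoImplicit false

noncomputable section

open NumberField IsDedekindDomain
open scoped Pointwise

namespace Crest.Agent.T15.Ex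

open Crest.Agent.T15.Art Crest.Agent.R018.Placesx484

section Words

variable (K : Type*) {E : Type*} [Field K] [Field E] [Algebra K E]

/-- the prime of `K` below a place of `E` -/
def pr (P : Place E) : Pr K := ⟨(P.res K).ideal, (P.res K).isPrime, (P.res K).ne_bot⟩

variable {K}

/-- `φ` is a Frobenius element at `P` -/
def IsF (P : Place E) (φ : E ≃ₐ[K] E) : Prop := ∀ x : 𝓞 E, φ • x - x ^ P.qv K ∈ P.ideal

/-- `ξ` takes the value `f w` on all Frobenius elements above `w ∉ T` -/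
def Av {A : Type*} [Group A] (T : Finset (Pr K)) (f : Pr K → A) (ξ : (E ≃ₐ[K] E) →* A) : Prop :=
  ∀ P : Place E, pr K P ∉ T → ∀ φ, IsF P φ → ξ φ = f (pr K P)

theorem exists_pr (w : Pr K) : ∃ P : Place E, pr K P = w := by
  obtain ⟨P, hP⟩ := Place.exists_res_eq (E := E) K ⟨w.asIdeal, w.isPrime, w.ne_bot⟩
  exact ⟨P, HeightOneSpectrum.ext (congrArg Place.ideal hP)⟩

theorem pr_eq_iff {P Q : Place E} : pr K P = pr K Q ↔ P.res K = Q.res K :=
  ⟨fun h => Place.ext (congrArg HeightOneSpectrum.asIdeal h),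
    fun h => HeightOneSpectrum.ext (congrArg Place.ideal h)⟩

theorem pr_smul (g : E ≃ₐ[K] E) (P : Place E) : pr K (g • P) = pr K P :=
  pr_eq_iff.2 (Place.res_smul g P)

theorem qv_eq [NumberField K] (P : Place E) : P.qv K = Ideal.absNorm (pr K P).asIdeal := by
  rw [Ideal.absNorm_apply, Submodule.cardQuot_apply]
  rfl

theorem IsF.inertia_mul {P : Place E} {φ u : E ≃ₐ[K] E} (h : IsF P φ)
    (hu : u ∈ P.ideal.inertia (E ≃ₐ[K] E)) : IsF P (u * φ) := fun x => by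
  have := P.ideal.add_mem (hu (φ • x)) (h x)
  rwa [sub_add_sub_cancel, ← mul_smul] at this

theorem IsF.div_mem {P : Place E} {φ ψ : E ≃ₐ[K] E} (h : IsF P φ) (h' : IsF P ψ) :
    ψ * φ⁻¹ ∈ P.ideal.inertia (E ≃ₐ[K] E) := fun x => by
  have := P.ideal.sub_mem (h' (φ⁻¹ • x)) (h (φ⁻¹ • x))
  rwa [sub_sub_sub_cancel_right, smul_inv_smul, ← mul_smul] at this

theorem IsF.conj {P : Place E} {φ : E ≃ₐ[K] E} (h : IsF P φ) (g : E ≃ₐ[K] E) :
    IsF (g • P) (g * φ * g⁻¹) := fun x => by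
  have e : (g • P).qv K = P.qv K := by rw [Place.qv, Place.res_smul]; rfl
  rw [Place.mem_smul_ideal, smul_sub, smul_pow', mul_smul, mul_smul, inv_smul_smul, e]
  exact h _

theorem Av.mono {A : Type*} [Group A] {T S : Finset (Pr K)} {f f' : Pr K → A}
    {ξ : (E ≃ₐ[K] E) →* A} (h : Av T f ξ) (hTS : T ⊆ S) (hf : ∀ w, w ∉ S → f w = f' w) :
    Av S f' ξ := fun P hP φ hφ => (h P (fun h' => hP (hTS h')) φ hφ).trans (hf _ hP)

theorem Av.mul {A : Type*} [CommGroup A] {T : Finset (Pr K)} {f f' : Pr K → A}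
    {ξ ξ' : (E ≃ₐ[K] E) →* A} (h : Av T f ξ) (h' : Av T f' ξ') :
    Av T (fun w => f w * f' w) (ξ * ξ') := fun P hP φ hφ => by
  rw [MonoidHom.mul_apply, h P hP φ hφ, h' P hP φ hφ]

theorem Av.pow {A : Type*} [CommGroup A] {T : Finset (Pr K)} {f : Pr K → A}
    {ξ : (E ≃ₐ[K] E) →* A} (h : Av T f ξ) (n : ℕ) :
    Av T (fun w => f w ^ n) (ξ ^ n) := fun P hP φ hφ => by
  rw [MonoidHom.pow_apply, h P hP φ hφ]

theorem Av.comp {A B : Type*} [Group A] [Group B] {T : Finset (Pr K)} {f : Pr K → A}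
    {ξ : (E ≃ₐ[K] E) →* A} (h : Av T f ξ) (l : A →* B) :
    Av T (fun w => l (f w)) (l.comp ξ) := fun P hP φ hφ => by
  rw [MonoidHom.comp_apply, h P hP φ hφ]

variable [NumberField K] [CharZero E] [IsGalois K E]

theorem exists_isF (P : Place E) : ∃ φ : E ≃ₐ[K] E, IsF P φ :=
  let ⟨φ, _, h⟩ := Place.exists_frob (F := K) P
  ⟨φ, h⟩

theorem IsF.smul_eq {P : Place E} {φ : E ≃ₐ[K] E} (h : IsF P φ) : φ • P = P := by
  rw [Place.smul_eq_iff]
  intro x hx
  have := P.ideal.add_mem (h x) (P.ideal.pow_mem_of_mem hx _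
    (Nat.zero_lt_one.trans (Place.one_lt_qv (F := K) P)))
  rwa [sub_add_cancel] at this

theorem Av.inertia_le {A : Type*} [Group A] {T : Finset (Pr K)} {f : Pr K → A}
    {ξ : (E ≃ₐ[K] E) →* A} (h : Av T f ξ) {P : Place E} (hP : pr K P ∉ T) :
    P.ideal.inertia (E ≃ₐ[K] E) ≤ ξ.ker := fun u hu => by
  obtain ⟨φ, hφ⟩ := exists_isF (K := K) P
  have h1 := h P hP _ (hφ.inertia_mul hu)
  rw [map_mul, h P hP φ hφ] at h1
  exact mul_eq_right.1 h1

/-- a character unramified outside `T` defines a function on the primes -/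
theorem exists_av {A : Type*} [CommGroup A] (T : Finset (Pr K)) (ξ : (E ≃ₐ[K] E) →* A)
    (h : ∀ P : Place E, pr K P ∉ T → P.ideal.inertia (E ≃ₐ[K] E) ≤ ξ.ker) :
    ∃ f : Pr K → A, (∀ w ∈ T, f w = 1) ∧ Av T f ξ := by
  classical
  choose Q hQ using fun w : Pr K => exists_pr (E := E) w
  choose ψ hψ using fun w : Pr K => exists_isF (K := K) (Q w)
  refine ⟨fun w => if w ∈ T then 1 else ξ (ψ w), fun w hw => if_pos hw, fun P hP φ hφ => ?_⟩
  beta_reduce
  rw [if_neg hP]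
  obtain ⟨g, hg⟩ := Place.exists_smul_eq_of_res_eq (M := K) _ _ (pr_eq_iff.1 (hQ (pr K P)))
  have h1 := (hψ (pr K P)).conj g
  rw [hg] at h1
  have h2 := h P hP (h1.div_mem hφ)
  rw [MonoidHom.mem_ker, map_mul, map_inv, mul_inv_eq_one, map_mul, map_mul, map_inv,
    mul_inv_cancel_comm] at h2
  exact h2

omit [NumberField K] [CharZero E] in
theorem facts (N : Subgroup (E ≃ₐ[K] E)) [hN : N.Normal] (ho : IsOpen (N : Set (E ≃ₐ[K] E))) :
    (IntermediateField.fixedField N).fixingSubgroup = N ∧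
    FiniteDimensional K (IntermediateField.fixedField N) ∧
    IsGalois K (IntermediateField.fixedField N) := by
  have h1 : (IntermediateField.fixedField N).fixingSubgroup = N :=
    InfiniteGalois.fixingSubgroup_fixedField ⟨N, Subgroup.isClosed_of_isOpen N ho⟩
  refine ⟨h1, ?_, (InfiniteGalois.normal_iff_isGalois _).mp (by rw [h1]; exact hN)⟩
  rw [← InfiniteGalois.isOpen_iff_finite]
  change IsOpen ((IntermediateField.fixedField N).fixingSubgroup : Set (E ≃ₐ[K] E))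
  rw [h1]; exact ho

omit [NumberField K] [CharZero E] [IsGalois K E] in
theorem res_int (L : IntermediateField K E) [Normal K L] (φ : E ≃ₐ[K] E) (x : 𝓞 L) :
    algebraMap (𝓞 L) (𝓞 E) (AlgEquiv.restrictNormalHom L φ • x) = φ • algebraMap (𝓞 L) (𝓞 E) x := by
  apply RingOfIntegers.coe_injective
  exact AlgEquiv.restrictNormal_commutes φ L (x : L)

omit [NumberField K] [CharZero E] [IsGalois K E] in
theorem IsF.res {P : Place E} {φ : E ≃ₐ[K] E} (h : IsF P φ) (L : IntermediateField K E)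
    [Normal K L] (x : 𝓞 L) :
    AlgEquiv.restrictNormalHom L φ • x - x ^ P.qv K ∈ (P.res L).ideal := by
  rw [Place.mem_res, map_sub, map_pow, res_int]
  exact h _

omit [NumberField K] [CharZero E] in
theorem lift_inertia (L : IntermediateField K E) [Normal K L] (P : Place E) {g : L ≃ₐ[K] L}
    (hg : ∀ x : 𝓞 L, g • x - x ∈ (P.res L).ideal) :
    ∃ u ∈ P.ideal.inertia (E ≃ₐ[K] E), AlgEquiv.restrictNormalHom L u = g := by
  obtain ⟨u, h1, h2⟩ := R018.LCIneBx925.exists_lift_inertia L P g hg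
  exact ⟨u, h2, AlgEquiv.ext fun x => Subtype.ext
    ((AlgEquiv.restrictNormal_commutes u L x).trans (h1 x))⟩

theorem lift_frob (L : IntermediateField K E) [Normal K L] (P : Place E) {g : L ≃ₐ[K] L}
    (hg : ∀ x : 𝓞 L, g • x - x ^ P.qv K ∈ (P.res L).ideal) :
    ∃ φ, IsF P φ ∧ AlgEquiv.restrictNormalHom L φ = g := by
  obtain ⟨φ, hφ⟩ := exists_isF (K := K) P
  obtain ⟨u, hu, h⟩ := lift_inertia L P (g := g * (AlgEquiv.restrictNormalHom L φ)⁻¹) fun x => by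
    have := Ideal.sub_mem _ (hg ((AlgEquiv.restrictNormalHom L φ)⁻¹ • x))
      (hφ.res L ((AlgEquiv.restrictNormalHom L φ)⁻¹ • x))
    rwa [sub_sub_sub_cancel_right, smul_inv_smul, ← mul_smul] at this
  exact ⟨u * φ, hφ.inertia_mul hu, by rw [map_mul, h, inv_mul_cancel_right]⟩

/-- **Chebotarev** over the base `K` -/
theorem cheb_K (N : Subgroup (E ≃ₐ[K] E)) [N.Normal] (ho : IsOpen (N : Set (E ≃ₐ[K] E)))
    (S : Finset (Pr K)) (g : E ≃ₐ[K] E) :
    ∃ (P : Place E) (φ : E ≃ₐ[K] E), pr K P ∉ S ∧ IsF P φ ∧ g⁻¹ * φ ∈ N := by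
  obtain ⟨hfix, hfin, hgal⟩ := facts N ho
  set L := IntermediateField.fixedField N with hL
  have : NumberField L := NumberField.of_module_finite K L
  obtain ⟨p, hp, hB, Q, hQ, hmem, -, hn, -, hσ⟩ := Cheb.cheb_rel (AlgEquiv.restrictNormalHom L g)
    (S.sup fun w => Ideal.absNorm w.asIdeal)
  have hQ0 : Q ≠ ⊥ := fun h0 => by
    rw [h0, Ideal.mem_bot] at hmem
    exact hp.ne_zero (by exact_mod_cast hmem)
  obtain ⟨P, hP⟩ := Place.exists_res_eq (E := E) L (⟨Q, hQ.isPrime, hQ0⟩ : Place L)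
  have h1 : (pr K P).asIdeal = Q.under (𝓞 K) := by
    change (P.res K).ideal = _
    rw [← Place.res_res K L P, hP]
    rfl
  have h2 : P.qv K = p := by rw [qv_eq, h1, hn]
  obtain ⟨φ, hφ, h3⟩ := lift_frob L P (g := AlgEquiv.restrictNormalHom L g) fun x => by
    rw [hP, h2]; exact hσ x
  refine ⟨P, φ, fun h => ?_, hφ, ?_⟩
  · have := Finset.le_sup (f := fun w : Pr K => Ideal.absNorm w.asIdeal) h
    rw [h1, hn] at this
    omega
  · rw [← hfix, ← IntermediateField.restrictNormalHom_ker, MonoidHom.mem_ker, map_mul, map_inv, h3,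
      inv_mul_cancel]

theorem cheb_av {A : Type*} [Group A] (ξ : (E ≃ₐ[K] E) →* A)
    (ho : IsOpen (ξ.ker : Set (E ≃ₐ[K] E))) (S : Finset (Pr K)) (g : E ≃ₐ[K] E) :
    ∃ (P : Place E) (φ : E ≃ₐ[K] E), pr K P ∉ S ∧ IsF P φ ∧ ξ φ = ξ g := by
  obtain ⟨P, φ, h1, h2, h3⟩ := cheb_K ξ.ker ho S g
  rw [MonoidHom.mem_ker, map_mul, map_inv, inv_mul_eq_one] at h3
  exact ⟨P, φ, h1, h2, h3.symm⟩

omit [NumberField K] [CharZero E] [IsGalois K E] in
theorem opn_prod {A B : Type*} [Group A] [Group B] {ξ : (E ≃ₐ[K] E) →* A} {η : (E ≃ₐ[K] E) →* B}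
    (h : IsOpen (ξ.ker : Set (E ≃ₐ[K] E))) (h' : IsOpen (η.ker : Set (E ≃ₐ[K] E))) :
    IsOpen ((ξ.prod η).ker : Set (E ≃ₐ[K] E)) := by
  rw [MonoidHom.ker_prod]
  exact h.inter h'

omit [NumberField K] [CharZero E] [IsGalois K E] in
theorem opn_mul {A : Type*} [CommGroup A] {ξ η : (E ≃ₐ[K] E) →* A}
    (h : IsOpen (ξ.ker : Set (E ≃ₐ[K] E))) (h' : IsOpen (η.ker : Set (E ≃ₐ[K] E))) :
    IsOpen ((ξ * η).ker : Set (E ≃ₐ[K] E)) :=
  Subgroup.isOpen_mono (H₁ := ξ.ker ⊓ η.ker) (fun g hg => by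
    rw [MonoidHom.mem_ker, MonoidHom.mul_apply, hg.1, hg.2, mul_one]) (h.inter h')

/-- characters with the same Frobenius values agree -/
theorem Av.unique {A : Type*} [Group A] {S : Finset (Pr K)} {f : Pr K → A}
    {ξ η : (E ≃ₐ[K] E) →* A} (h : Av S f ξ) (h' : Av S f η)
    (ho : IsOpen (ξ.ker : Set (E ≃ₐ[K] E))) (ho' : IsOpen (η.ker : Set (E ≃ₐ[K] E))) : ξ = η := by
  ext g
  obtain ⟨P, φ, h1, h2, h3⟩ := cheb_av (ξ.prod η) (opn_prod ho ho') S g
  rw [MonoidHom.prod_apply, MonoidHom.prod_apply, Prod.mk.injEq] at h3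
  rw [← h3.1, ← h3.2, h P h1 φ h2, h' P h1 φ h2]

omit [NumberField K] [CharZero E] in
theorem exists_pow_eq_one {A : Type*} [Group A] (ξ : (E ≃ₐ[K] E) →* A)
    (ho : IsOpen (ξ.ker : Set (E ≃ₐ[K] E))) : ∃ N : ℕ, N ≠ 0 ∧ ∀ g, ξ g ^ N = 1 := by
  have := Subgroup.quotient_finite_of_isOpen ξ.ker ho
  exact ⟨ξ.ker.index, Subgroup.index_ne_zero_of_finite, fun g => by
    rw [← map_pow]; exact ξ.ker.pow_index_mem g⟩

end Words

section Artin

variable {K E : Type} [Field K] [NumberField K] [IsTotallyComplex K] [Field E] [CharZero E]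
  [Algebra K E] [IsGalois K E] {A : Type} [CommGroup A]

/-- **Artin reciprocity** for a character of `Gal(E/K)` -/
theorem artin_an (hA : ArtStmt) {ξ : (E ≃ₐ[K] E) →* A} (ho : IsOpen (ξ.ker : Set (E ≃ₐ[K] E)))
    {N : ℕ} (hN : N ≠ 0) (hξ : ∀ g, ξ g ^ N = 1) {T : Finset (Pr K)} {f : Pr K → A}
    (h1 : ∀ w ∈ T, f w = 1) (h : Av T f ξ) (a : Kˣ)
    (ha : ∀ w ∈ T, AN (IntermediateField.fixedField ξ.ker) w N (a : K)) : ev f a = 1 := by
  obtain ⟨hfix, hfin, hgal⟩ := facts ξ.ker ho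
  set L := IntermediateField.fixedField ξ.ker with hL
  have : NumberField L := NumberField.of_module_finite K L
  have hs := AlgEquiv.restrictNormalHom_surjective (F := K) (K₁ := L) E
  let χ : (L ≃ₐ[K] L) →* A := (AlgEquiv.restrictNormalHom L).liftOfSurjective hs
    ⟨ξ, by rw [IntermediateField.restrictNormalHom_ker, hfix]⟩
  have hχ : ∀ g, χ (AlgEquiv.restrictNormalHom L g) = ξ g := fun g =>
    MonoidHom.liftOfRightInverse_comp_apply _ _ _ _ g
  refine hA K L A χ N hN (fun g => ?_) T f h1 (fun w hw => ?_) a ha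
  · obtain ⟨g, rfl⟩ := hs g
    rw [hχ, hξ]
  · obtain ⟨P, rfl⟩ := exists_pr (E := E) w
    obtain ⟨φ, hφ⟩ := exists_isF (K := K) P
    refine ⟨AlgEquiv.restrictNormalHom L φ, ⟨(P.res L).ideal, (P.res L).isPrime, ⟨?_⟩,
      fun x => qv_eq (K := K) P ▸ hφ.res L x, fun g hg => ?_⟩, by rw [hχ, h P hw φ hφ]⟩
    · change (P.res K).ideal = _
      rw [← Place.res_res K L P]
      rfl
    · obtain ⟨u, hu, rfl⟩ := lift_inertia L P (g := g) hg
      rw [MonoidHom.mem_ker, hχ]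
      exact h.inertia_le hw hu

theorem artin_av (hA : ArtStmt) {ξ : (E ≃ₐ[K] E) →* A} (ho : IsOpen (ξ.ker : Set (E ≃ₐ[K] E)))
    {N : ℕ} (hN : N ≠ 0) (hξ : ∀ g, ξ g ^ N = 1) {T : Finset (Pr K)} {f : Pr K → A}
    (h1 : ∀ w ∈ T, f w = 1) (h : Av T f ξ) (a : Kˣ)
    (ha : ∀ w ∈ T, w.valuation K ((a : K) - 1) < w.valuation K (N : K) ^ 2) : ev f a = 1 :=
  artin_an hA ho hN hξ h1 h a fun w hw => ⟨1, one_ne_zero, by simpa using ha w hw⟩

end Artin

end Crest.Agent.T15.Ex
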