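import Crest.Agent.T15.ArtO_49

/-!
# Row 15 (helper73): reduction of Artin reciprocity to cyclic extensions of prime power degree
-/

set_option autoImplicit false

noncomputable section

namespace Crest.Agent.T15.Art

open Module NumberField IsDedekindDomain
open Crest.Agent.R018.Placesx484

/-- Artin reciprocity for a cyclic extension of prime power degree -/
def ArtCyc : Prop :=
  ∀ (K L : Type) [Field K] [NumberField K] [Field L] [NumberField L] [Algebra K L] [IsGalois K L]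
    [IsTotallyComplex K] [IsCyclic (L ≃ₐ[K] L)] (χ : (L ≃ₐ[K] L) →* ℂˣ) (q r : ℕ), q.Prime →
    finrank K L = q ^ r → ∀ (T : Finset (Pr K)) (f : Pr K → ℂˣ), (∀ w ∈ T, f w = 1) →
    (∀ w, w ∉ T → ∃ g, Fr w ⊥ g ∧ f w = χ g) →
    ∀ a : Kˣ, (∀ w ∈ T, AN L w (q ^ r) (a : K)) → ev f a = 1

section
variable {K L : Type*} [Field K] [NumberField K] [Field L] [NumberField L] [Algebra K L]

omit [NumberField L] in
theorem AN.of_dvd {w : Pr K} {c c' : ℕ} {a : K} (h : AN L w c a) (hc : c' ∣ c) : AN L w c' a := by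
  obtain ⟨g, hg, h⟩ := h
  obtain ⟨k, rfl⟩ := hc
  refine ⟨g, hg, h.trans_le (pow_le_pow_left₀ zero_le ?_ 2)⟩
  rw [Nat.cast_mul, map_mul]
  exact mul_le_of_le_one_right' (by simpa using w.valuation_le_one (K := K) (k : 𝓞 K))

theorem AN.down {w : Pr K} {c : ℕ} {a : K} (h : AN L w c a) (M : IntermediateField K L) :
    AN M w c a := by
  obtain ⟨g, hg, h⟩ := h
  exact ⟨Algebra.norm M g, Algebra.norm_ne_zero_iff.2 hg, by rwa [Algebra.norm_norm]⟩

/-- a Frobenius restricts to a Frobenius -/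
theorem Fr.res [IsGalois K L] {w : Pr K} {H : Subgroup (L ≃ₐ[K] L)} {g : L ≃ₐ[K] L} (h : Fr w H g)
    (M : IntermediateField K L) [Normal K M] :
    Fr w (H.map (AlgEquiv.restrictNormalHom M)) (AlgEquiv.restrictNormalHom M g) := by
  obtain ⟨P, hP, hw, h1, h2⟩ := h
  let Q : Place L := ⟨P, hP, Ideal.ne_bot_of_liesOver_of_ne_bot w.ne_bot P⟩
  refine ⟨(Q.res M).ideal, (Q.res M).isPrime, ⟨?_⟩, fun x => ?_, fun u hu => ?_⟩
  · exact hw.over.trans (congrArg Place.ideal (Place.res_res K M Q)).symm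
  · rw [Place.mem_res, map_sub, map_pow, Ex.res_int]
    exact h1 _
  · obtain ⟨u', hu', rfl⟩ := Ex.lift_inertia M Q (g := u) hu
    exact Subgroup.mem_map_of_mem _ (h2 hu')

end

theorem art_of_cyc (h : ArtCyc) : ArtStmt := by
  intro K L _ _ _ _ _ _ _ A _ χ N hN hχ T f h1 h2 a ha
  by_contra hne
  have hf : ∀ w, f w ∈ χ.range := fun w => by
    by_cases hw : w ∈ T
    · rw [h1 w hw]; exact one_mem _
    · obtain ⟨g, -, hg⟩ := h2 w hw
      exact ⟨g, hg.symm⟩
  let f' : Pr K → χ.range := fun w => ⟨f w, hf w⟩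
  have h3 : ev f' a ≠ 1 := fun h0 => hne (by
    have := map_ev χ.range.subtype f' a
    rw [h0, map_one] at this
    exact this.symm)
  have : Finite χ.range := Finite.of_surjective _ χ.rangeRestrict_surjective
  obtain ⟨ψ, hψ⟩ := CommGroup.exists_apply_ne_one_of_hasEnoughRootsOfUnity χ.range ℂ h3
  obtain ⟨q, hq, hqd⟩ := Nat.exists_prime_and_dvd (orderOf_eq_one_iff.not.2 hψ)
  obtain ⟨r, n, hn, rfl⟩ := Nat.exists_eq_pow_mul_and_not_dvd hN q hq.ne_one
  let ψ' : χ.range →* ℂˣ := (powMonoidHom n).comp ψ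
  have h4 : ψ' (ev f' a) ≠ 1 := fun h0 => hn (hqd.trans (orderOf_dvd_of_pow_eq_one h0))
  let ξ := ψ'.comp χ.rangeRestrict
  have hξ : ∀ g, ξ g ^ q ^ r = 1 := fun g => by
    have : χ.rangeRestrict g ^ (q ^ r * n) = 1 := Subtype.ext (hχ g)
    change (ψ _ ^ n) ^ _ = 1
    rw [← pow_mul, mul_comm, ← map_pow, this, map_one]
  let M := IntermediateField.fixedField ξ.ker
  have hfix : (AlgEquiv.restrictNormalHom M : (L ≃ₐ[K] L) →* _).ker = ξ.ker := by
    rw [IntermediateField.restrictNormalHom_ker, IntermediateField.fixingSubgroup_fixedField]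
  have hs := AlgEquiv.restrictNormalHom_surjective (F := K) (K₁ := M) L
  let χ' : (M ≃ₐ[K] M) →* ℂˣ := (AlgEquiv.restrictNormalHom M).liftOfSurjective hs ⟨ξ, hfix.le⟩
  have hχ' : ∀ g, χ' (AlgEquiv.restrictNormalHom M g) = ξ g := fun g =>
    MonoidHom.liftOfRightInverse_comp_apply _ _ _ _ g
  have hi : Function.Injective χ' := (injective_iff_map_eq_one _).2 fun g hg => by
    obtain ⟨g, rfl⟩ := hs g
    rwa [hχ', ← MonoidHom.mem_ker, ← hfix] at hg
  have hc : IsCyclic (M ≃ₐ[K] M) := isCyclic_of_injective_ringHom ((Units.coeHom ℂ).comp χ')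
    (Units.val_injective.comp hi)
  obtain ⟨r', hr', h5⟩ := (Nat.dvd_prime_pow hq).1 (show finrank K M ∣ q ^ r by
    rw [← IsGalois.card_aut_eq_finrank, ← IsCyclic.exponent_eq_card,
      Monoid.exponent_dvd_iff_forall_pow_eq_one]
    intro g
    obtain ⟨g, rfl⟩ := hs g
    exact hi (by rw [map_pow, hχ', hξ, map_one]))
  refine h4 ((map_ev ψ' f' a).trans (h K M χ' q r' hq h5 T _ (fun w hw => ?_) (fun w hw => ?_) a
    fun w hw => ((ha w hw).down M).of_dvd ((pow_dvd_pow q hr').mul_right n)))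
  · rw [show f' w = 1 from Subtype.ext (h1 w hw), map_one]
  · obtain ⟨g, hg, hg'⟩ := h2 w hw
    obtain ⟨P, p1, p2, p3, p4⟩ := hg.res M
    refine ⟨_, ⟨P, p1, p2, p3, p4.trans ((Subgroup.map_eq_bot_iff _).2 fun u hu => ?_).le⟩, ?_⟩
    · rw [hfix]
      change ψ' (χ.rangeRestrict u) = 1
      rw [show χ.rangeRestrict u = 1 from Subtype.ext hu, map_one]
    · rw [hχ']
      exact congrArg ψ' (Subtype.ext hg')

end Crest.Agent.T15.Art
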