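import Crest.Agent.T15.ChebG_25

/-!
# Row 15: a ray character of order three is non-trivial on many primes of degree one
-/

set_option autoImplicit false

noncomputable section

namespace Crest.Agent.T15.Av

open NumberField IsDedekindDomain Ideal Filter Topology Complex
open Crest.Agent.T27 Crest.Agent.T15.Cheb
open Crest.Agent.R014 Crest.Agent.R014.EulA_534 Crest.Agent.R014.EulB_534
open Crest.Agent.R014.EulC_534 (rE)
open scoped Pointwise

section Euler

variable {K : Type*} [Field K] [NumberField K]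

instance finN (n : ℕ) : Finite {P : HeightOneSpectrum (𝓞 K) // absNorm P.asIdeal = n} :=
  Eul52.finite_P n

/-- the sum of `ψ` over the primes of norm `n`, for `n` prime -/
def pr (ψ : Ideal (𝓞 K) →* ℂ) (n : ℕ) : ℂ :=
  if n.Prime then ∑ᶠ P : {P : HeightOneSpectrum (𝓞 K) // absNorm P.asIdeal = n}, ψ P.1.asIdeal
  else 0

/-- the local term -/
def x (ψ : Ideal (𝓞 K) →* ℂ) (s : ℂ) (P : HeightOneSpectrum (𝓞 K)) : ℂ :=
  ψ P.asIdeal * Eul52.x 1 s P

variable {ψ : Ideal (𝓞 K) →* ℂ}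

theorem h1 (n : ℕ) : ‖(1 : ℕ →* ℂ) n‖ ≤ 1 := by simp

theorem norm_x (hc : ∀ I, ‖ψ I‖ ≤ 1) (s : ℂ) (P : HeightOneSpectrum (𝓞 K)) :
    ‖x ψ s P‖ ≤ ‖Eul52.x 1 s P‖ := by
  rw [x, norm_mul]
  exact mul_le_of_le_one_left (norm_nonneg _) (hc _)

theorem summable_x (hc : ∀ I, ‖ψ I‖ ≤ 1) {s : ℂ} (hs : 1 < s.re) : Summable fun P => ‖x ψ s P‖ :=
  (Eul52.summable_x h1 hs).of_nonneg_of_le (fun _ => norm_nonneg _) (norm_x hc s)

theorem exp_log (hc : ∀ I, ‖ψ I‖ ≤ 1) {s : ℂ} (hs : 1 < s.re) :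
    Summable (fun P => log (1 - x ψ s P)) ∧
      ∑' I : Ideal (𝓞 K), ψ I * ((absNorm I : ℕ) : ℂ) ^ (-s) = exp (-∑' P, log (1 - x ψ s P)) := by
  have hs1 := summable_x hc hs
  have h2 : ∀ P, ‖x ψ s P‖ ≤ 1 / 2 := fun P => (norm_x hc s P).trans (Eul52.x_half h1 hs P)
  have hlog : Summable fun P => log (1 - x ψ s P) := by
    have := summable_log_one_add_of_summable (f := fun P => -x ψ s P) hs1.of_norm.neg
    simpa [sub_eq_add_neg] using this
  have hne : ∀ P, (1 : ℂ) - x ψ s P ≠ 0 := by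
    intro P h
    have h4 := h2 P
    rw [← sub_eq_zero.1 h, norm_one] at h4
    norm_num at h4
  have hp := (hasProd_of_hasSum_log hne hlog.hasSum).inv₀ (exp_ne_zero _)
  have h3 : HasSum (fun I : Ideal (𝓞 K) => ψ I * Eul52.g 1 s (absNorm I))
      (∑' v, mon (x ψ s) v) := by
    refine (Function.Injective.hasSum_iff (g := (Subtype.val : {I : Ideal (𝓞 K) // I ≠ ⊥} → _))
      Subtype.val_injective fun I hI => ?_).1 ?_
    · have : I = ⊥ := by
        by_contra h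
        exact hI ⟨⟨I, h⟩, rfl⟩
      rw [this, absNorm_bot, Eul52.g_zero 1 (by linarith), mul_zero]
    · rw [← (idE (E := K)).hasSum_iff]
      have e : ((fun I : Ideal (𝓞 K) => ψ I * Eul52.g 1 s (absNorm I)) ∘ Subtype.val) ∘ idE =
          mon (x ψ s) := funext fun v => map_idl (E := K)
        (ψ * (Eul52.g 1 s).comp (absNorm : Ideal (𝓞 K) →*₀ ℕ).toMonoidHom) v
      rw [e]
      exact (summable_norm_mon (x ψ s) h2 hs1).of_norm.hasSum
  refine ⟨hlog, ?_⟩
  simp only [Eul52.g_apply, MonoidHom.one_apply, one_mul] at h3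
  rw [h3.tsum_eq, exp_neg]
  exact (hp.unique (hasProd_mon _ h2 hs1)).symm

/-- the degree one part -/
def y (ψ : Ideal (𝓞 K) →* ℂ) (s : ℂ) (P : HeightOneSpectrum (𝓞 K)) : ℂ :=
  if (absNorm P.asIdeal).Prime then x ψ s P else 0

theorem summable_y (hc : ∀ I, ‖ψ I‖ ≤ 1) {s : ℂ} (hs : 1 < s.re) : Summable (y ψ s) := by
  refine Summable.of_norm_bounded (summable_x hc hs) fun P => ?_
  unfold y
  split_ifs
  · exact le_rfl
  · simp

theorem tsum_y (hc : ∀ I, ‖ψ I‖ ≤ 1) {s : ℂ} (hs : 1 < s.re) :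
    ∑' P, y ψ s P = LSeries (pr ψ) s := by
  have h2 := (summable_y hc hs).hasSum
  rw [← (Equiv.sigmaFiberEquiv fun P : HeightOneSpectrum (𝓞 K) => absNorm P.asIdeal).hasSum_iff]
    at h2
  refine (h2.sigma fun n => ?_).tsum_eq.symm
  let _ := Fintype.ofFinite {P : HeightOneSpectrum (𝓞 K) // absNorm P.asIdeal = n}
  convert hasSum_fintype _ using 1
  rw [LSeries.term_def₀ (by simp [pr, Nat.not_prime_zero]), pr, finsum_eq_sum_of_fintype]
  split_ifs with h
  · rw [Finset.sum_mul]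
    refine Finset.sum_congr rfl fun P _ => ?_
    change _ = y ψ s P.1
    rw [y, x, Eul52.x, P.2, if_pos h, Eul52.g_apply]
    simp
  · rw [zero_mul, Finset.sum_eq_zero fun P _ => ?_]
    change y ψ s P.1 = 0
    rw [y, P.2, if_neg h]

/-- the remainder at one prime -/
def T (ψ : Ideal (𝓞 K) →* ℂ) (P : HeightOneSpectrum (𝓞 K)) (s : ℂ) : ℂ :=
  -log (1 - x ψ s P) - y ψ s P

theorem x_le (hc : ∀ I, ‖ψ I‖ ≤ 1) (P : HeightOneSpectrum (𝓞 K)) {s : ℂ} (hs : 3 / 4 < s.re) :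
    ‖x ψ s P‖ ≤ 3 / 4 := (norm_x hc s P).trans
  ((Eul52.norm_x_two h1 (by norm_num) (by linarith) P).trans Eul52.two_rpow_le)

theorem norm_T_le (hc : ∀ I, ‖ψ I‖ ≤ 1) (P : HeightOneSpectrum (𝓞 K)) {s : ℂ}
    (hs : 3 / 4 < s.re) : ‖T ψ P s‖ ≤ 3 * (below P : ℝ) ^ (-(3 / 2 : ℝ)) := by
  have hb : (0 : ℝ) < below P := by exact_mod_cast (below_spec P).1.pos
  have h0 := x_le hc P hs
  have h2 : ‖x ψ s P‖ ^ 2 ≤ (below P : ℝ) ^ (-(3 / 2 : ℝ)) := by
    have := (norm_x hc s P).trans (Eul52.norm_x_below h1 (σ := 3 / 4) (by norm_num) hs.le P)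
    calc ‖x ψ s P‖ ^ 2 ≤ ((below P : ℝ) ^ (-(3 / 4 : ℝ))) ^ 2 := by gcongr
      _ = _ := by rw [← Real.rpow_natCast, ← Real.rpow_mul hb.le]; norm_num
  have h3 : ‖log (1 - x ψ s P) + x ψ s P‖ ≤ 2 * ‖x ψ s P‖ ^ 2 := by
    have h7 := norm_log_one_add_sub_self_le (z := -x ψ s P) (by rw [norm_neg]; linarith)
    rw [sub_neg_eq_add, ← sub_eq_add_neg, norm_neg] at h7
    refine h7.trans ?_
    have h9 : (1 - ‖x ψ s P‖)⁻¹ ≤ 4 := by
      rw [inv_le_comm₀ (by linarith) (by norm_num)]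
      linarith
    nlinarith [sq_nonneg ‖x ψ s P‖]
  have h0 : 0 ≤ (below P : ℝ) ^ (-(3 / 2 : ℝ)) := by positivity
  unfold T y
  split_ifs with h
  · rw [show -log (1 - x ψ s P) - x ψ s P = -(log (1 - x ψ s P) + x ψ s P) by ring, norm_neg]
    linarith
  · have h4 : ‖x ψ s P‖ ≤ (below P : ℝ) ^ (-(3 / 2 : ℝ)) := by
      refine ((norm_x hc s P).trans (Eul52.norm_x_le h1 (σ := 3 / 4) hs.le P)).trans ?_
      have h5 : ((below P : ℝ)) ^ 2 ≤ (absNorm P.asIdeal : ℝ) := by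
        exact_mod_cast (below_spec P).2.2.2 h
      refine (EulC_534.rpow_anti (by positivity) h5 (by norm_num)).trans_eq ?_
      rw [← Real.rpow_natCast, ← Real.rpow_mul hb.le]; norm_num
    rw [show -log (1 - x ψ s P) - 0 = x ψ s P - (log (1 - x ψ s P) + x ψ s P) by ring]
    refine (norm_sub_le _ _).trans ?_
    linarith

theorem diff_T (hc : ∀ I, ‖ψ I‖ ≤ 1) (P : HeightOneSpectrum (𝓞 K)) :
    DifferentiableOn ℂ (T ψ P) {s | 3 / 4 < s.re} := by
  intro s hs
  have h0 := x_le hc P hs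
  have hx : Differentiable ℂ fun s => x ψ s P := (Eul52.diff_x 1 P).const_mul _
  have h2 : 1 - x ψ s P ∈ slitPlane := by
    left
    have := re_le_norm (x ψ s P)
    simp only [sub_re, one_re]
    linarith
  have h3 : DifferentiableAt ℂ (fun s => y ψ s P) s := by
    unfold y
    split_ifs
    · exact hx s
    · exact differentiableAt_const _
  exact ((((hx s).const_sub 1).clog h2).neg.sub h3).differentiableWithinAt

/-- **Euler product** for a multiplicative function on ideals -/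
theorem euler (hc : ∀ I, ‖ψ I‖ ≤ 1) : ∃ R : ℂ → ℂ, DifferentiableOn ℂ R {s | 3 / 4 < s.re} ∧
    ∀ s : ℂ, 1 < s.re → ∑' I : Ideal (𝓞 K), ψ I * ((absNorm I : ℕ) : ℂ) ^ (-s) =
      exp (LSeries (pr ψ) s + R s) := by
  have hsum : Summable fun n : ℕ => 3 * (n : ℝ) ^ (-(3 / 2 : ℝ)) :=
    (Real.summable_nat_rpow.2 (by norm_num)).mul_left 3
  have h0 : ∀ n : ℕ, 0 ≤ 3 * (n : ℝ) ^ (-(3 / 2 : ℝ)) := fun n => by positivity
  obtain ⟨hu, -⟩ := summable_of_fibre (below (E := K)) (Module.finrank ℚ K) card_below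
    (fun P => 3 * (below P : ℝ) ^ (-(3 / 2 : ℝ))) _ (fun P => h0 _) (fun _ => le_rfl) h0 hsum
  refine ⟨fun s => ∑' P, T ψ P s, differentiableOn_tsum_of_summable_norm hu (diff_T hc)
      (isOpen_lt continuous_const continuous_re) fun P s hs => norm_T_le hc P hs, fun s hs => ?_⟩
  obtain ⟨h2, h3⟩ := exp_log hc hs
  refine h3.trans ?_
  congr 1
  rw [← tsum_y hc hs]
  simp only [T]
  rw [h2.neg.tsum_sub (summable_y hc hs), tsum_neg]
  ring

theorem bd_pr (hc : ∀ I, ‖ψ I‖ ≤ 1) : Bd (pr ψ) := by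
  refine ⟨Module.finrank ℚ K, fun n _ => ?_⟩
  unfold pr
  split_ifs with h
  · let _ := Fintype.ofFinite {P : HeightOneSpectrum (𝓞 K) // absNorm P.asIdeal = n}
    rw [finsum_eq_sum_of_fintype]
    refine (norm_sum_le_of_le _ fun P _ => hc _).trans ?_
    rw [Finset.sum_const, Finset.card_univ, nsmul_eq_mul, mul_one, ← Nat.card_eq_fintype_card,
      Eul52.card_prime h]
    exact_mod_cast rE_le_52 K h
  · simp

end Euler

theorem exists_int {L : Type*} [Field L] [NumberField L] {p : ℕ} (hp : p.Prime) {Q : Ideal (𝓞 L)}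
    (hQ : Q.IsPrime) (hpQ : (p : 𝓞 L) ∈ Q) {x : 𝓞 L} (hx : x - x ^ p ∈ Q) : ∃ z : ℤ, x - z ∈ Q := by
  have := Fact.mk hp
  have := hQ.isMaximal fun h0 => by
    rw [h0, Ideal.mem_bot] at hpQ
    exact hp.ne_zero (by exact_mod_cast hpQ)
  let _ := Ideal.Quotient.field Q
  have : CharP (𝓞 L ⧸ Q) p := by
    refine (CharP.charP_iff_prime_eq_zero hp).2 ?_
    rw [← map_natCast (Ideal.Quotient.mk _), Ideal.Quotient.eq_zero_iff_mem]; exact hpQ
  have h6 : Ideal.Quotient.mk Q x ^ p = Ideal.Quotient.mk Q x := by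
    rw [← map_pow, eq_comm, Ideal.Quotient.eq]; exact hx
  obtain ⟨z, hz⟩ := (mem_bot_iff_intCast p _).1 ((Subfield.mem_bot_iff_pow_eq_self _ p).2 h6)
  exact ⟨z, Ideal.Quotient.eq.1 (by rw [map_intCast, hz])⟩

theorem absNorm_eq {L : Type*} [Field L] [NumberField L] {p : ℕ} (hp : p.Prime) {Q : Ideal (𝓞 L)}
    (hQ : Q.IsPrime) (hpQ : (p : 𝓞 L) ∈ Q) (hx : ∀ x, x - x ^ p ∈ Q) : absNorm Q = p := by
  have := Fact.mk hp
  have : CharP (𝓞 L ⧸ Q) p := by
    refine (CharP.charP_iff_prime_eq_zero hp).2 ?_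
    rw [← map_natCast (Ideal.Quotient.mk _), Ideal.Quotient.eq_zero_iff_mem]; exact hpQ
  let f := ZMod.castHom (dvd_refl p) (𝓞 L ⧸ Q)
  have hf : Function.Surjective f := fun y => by
    obtain ⟨x, rfl⟩ := Ideal.Quotient.mk_surjective y
    obtain ⟨z, hz⟩ := exists_int hp hQ hpQ (hx x)
    exact ⟨z, by rw [map_intCast, Ideal.Quotient.eq.2 hz, map_intCast]⟩
  rw [absNorm_apply, Submodule.cardQuot_apply,
    ← Nat.card_congr (Equiv.ofBijective f ⟨f.injective, hf⟩), Nat.card_zmod]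

/-- primes of degree one with trivial Frobenius split completely -/
theorem split_count {K L : Type*} [Field K] [NumberField K] [Field L] [NumberField L] [Algebra K L]
    [IsGalois K L] {p : ℕ} (hp : p.Prime) (hd : ¬ (p : ℤ) ∣ discr L)
    (S : Finset {P : HeightOneSpectrum (𝓞 K) // absNorm P.asIdeal = p})
    (hS : ∀ P ∈ S, ∃ Q : Ideal (𝓞 L), Q.IsPrime ∧ Q.LiesOver P.1.asIdeal ∧
      ∀ x : 𝓞 L, x - x ^ p ∈ Q) : S.card * Module.finrank K L ≤ rE L p := by
  choose Q hQ hQP hQx using hS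
  have hpQ : ∀ P h, (p : 𝓞 L) ∈ Q P h := fun P h => by
    have := hQP P h
    have h1 := (mem_of_liesOver (Q P h) P.1.asIdeal _).1 (P.2 ▸ absNorm_mem P.1.asIdeal)
    rwa [map_natCast] at h1
  have hN : ∀ P h, absNorm (Q P h) = p := fun P h => absNorm_eq hp (hQ P h) (hpQ P h) (hQx P h)
  have hs : ∀ (g : Gal(L/K)) (I : Ideal (𝓞 L)), absNorm (g • I) = absNorm I := fun g I => by
    rw [absNorm_apply, absNorm_apply, Submodule.cardQuot_apply, Submodule.cardQuot_apply]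
    exact Nat.card_congr (Ideal.quotientEquiv I (g • I) (MulSemiringAction.toRingEquiv _ _ g)
      (Ideal.pointwise_smul_def I)).toEquiv.symm
  let F : S × Gal(L/K) → {I : Ideal (𝓞 L) // absNorm I = p} :=
    fun z => ⟨z.2 • Q z.1.1 z.1.2, (hs _ _).trans (hN _ _)⟩
  have hF : Function.Injective F := by
    rintro ⟨⟨P, hP⟩, g⟩ ⟨⟨P', hP'⟩, g'⟩ h
    have h1 : g • Q P hP = g' • Q P' hP' := congrArg Subtype.val h
    obtain rfl : P = P' := by
      have h2 := congrArg (under (𝓞 K)) h1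
      rw [under_smul, under_smul, ← (hQP P hP).over, ← (hQP P' hP').over] at h2
      exact Subtype.ext (HeightOneSpectrum.ext h2)
    have h2 : (g'⁻¹ * g) • Q P hP = Q P hP := by rw [mul_smul, h1, inv_smul_smul]
    have h3 : (g'⁻¹ * g).restrictScalars ℚ = 1 := by
      refine frob_unique hp hd (hQ P hP) (hpQ P hP) (fun x => ?_) fun x => by
        rw [one_smul]; exact hQx P hP x
      obtain ⟨z, hz⟩ := exists_int hp (hQ P hP) (hpQ P hP) (hQx P hP x)
      have h4 : (g'⁻¹ * g) • (x - z) ∈ Q P hP := h2 ▸ smul_mem_pointwise_smul _ _ _ hz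
      have h5 : (g'⁻¹ * g) • (z : 𝓞 L) = z :=
        map_intCast (MulSemiringAction.toRingHom _ (𝓞 L) (g'⁻¹ * g)) z
      rw [smul_sub, h5] at h4
      have h6 := (Q P hP).add_mem ((Q P hP).sub_mem h4 hz) (hQx P hP x)
      rwa [sub_sub_sub_cancel_right, sub_add_sub_cancel] at h6
    have h4 : g'⁻¹ * g = 1 := AlgEquiv.ext fun x => DFunLike.congr_fun h3 x
    rw [inv_mul_eq_one.1 h4]
  have : Finite {I : Ideal (𝓞 L) // absNorm I = p} := finite_setOfPred_absNorm_eq (S := 𝓞 L) p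
  have h := Nat.card_le_card_of_injective F hF
  rwa [Nat.card_prod, IsGalois.card_aut_eq_finrank, Nat.card_eq_fintype_card, Fintype.card_coe] at h

/-- **A cubic ray character that is trivial on the non-split primes of degree one is trivial.** -/
theorem ray_trivial {K L : Type} [Field K] [NumberField K] [IsTotallyComplex K] [Field L]
    [NumberField L] [Algebra K L] [IsGalois K L] (hL : Module.finrank K L ≠ 1)
    {m : Ideal (𝓞 K)} (hm : m ≠ ⊥) (D : Ideal (𝓞 K) →* ℂ) (h3 : ∀ I, D I = 0 ∨ D I ^ 3 = 1)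
    (hper : ∀ x y : 𝓞 K, x ≠ 0 → y ≠ 0 → x - y ∈ m → D (span {x}) = D (span {y})) (B : ℕ)
    (h : ∀ P : HeightOneSpectrum (𝓞 K), (absNorm P.asIdeal).Prime → B < absNorm P.asIdeal →
      ∀ Q : Ideal (𝓞 L), Q.IsPrime → Q.LiesOver P.asIdeal → ∀ g : Gal(L/K),
        (∀ x : 𝓞 L, g • x - x ^ absNorm P.asIdeal ∈ Q) → g ≠ 1 → D P.asIdeal = 1)
    {A : Ideal (𝓞 K)} (hA : A ≠ ⊥) (hAm : A ⊔ m = ⊤) : D A = 1 := by
  classical
  by_contra hne
  have : IsTotallyComplex L := isTotallyComplex_of_algebra K L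
  have hc : ∀ I, ‖D I‖ ≤ 1 := fun I => by
    rcases h3 I with h0 | h0
    · simp [h0]
    · exact (norm_eq_one_of_pow_eq_one h0 three_ne_zero).le
  have hre : ∀ I, -(1 / 2) ≤ (D I).re := fun I => by
    rcases h3 I with h0 | h0
    · rw [h0]; norm_num
    · have h4 : (D I - 1) * (D I ^ 2 + D I + 1) = 0 := by linear_combination h0
      rcases mul_eq_zero.1 h4 with h5 | h5
      · rw [sub_eq_zero.1 h5]; norm_num
      · have h6 := congrArg re h5
        have h7 := congrArg im h5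
        simp only [sq, add_re, mul_re, one_re, zero_re, add_im, mul_im, one_im, zero_im] at h6 h7
        by_contra h8
        have h9 : (D I).im = 0 := by
          have : (D I).im * (2 * (D I).re + 1) = 0 := by linarith
          exact (mul_eq_zero.1 this).resolve_right (by linarith)
        rw [h9] at h6
        nlinarith
  obtain ⟨f, hf1, hf2, hf3⟩ := HeckeG87.Ray.cont (m := m) (ψ := D)
    ⟨fun I J _ _ => map_mul D I J, hc, hper⟩ hm
  obtain ⟨R, hR1, hR2⟩ := euler hc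
  obtain ⟨n, hn1, hn2⟩ := res_of_cont' (bd_pr hc) hR1 hf1 fun s hs => by rw [hf2 s hs, hR2 s hs]
  have hn0 : n ≠ 0 := fun h0 => hn2.2 h0 (hf3 A hA hAm hne)
  set d : ℕ := Module.finrank K L
  have hd : 2 ≤ d := by have : 0 < d := Module.finrank_pos; omega
  let a : Fin 3 → ℕ → ℂ := ![pr D, pc K 1, pc L 1]
  let c : Fin 3 → ℂ := ![2 * d, -(2 * d), 3]
  have hb : ∀ i, Bd (a i) := by
    intro i; fin_cases i
    exacts [bd_pr hc, bd_pc K h1, bd_pc L h1]
  have hbs : ∀ {b : ℕ → ℂ}, (∀ n, b n = 0 ∨ b n = ∑ i, c i * a i n) → Bd b := fun hb' => by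
    choose C hC using hb
    refine ⟨∑ i, ‖c i‖ * max (C i) 0, fun n hn => ?_⟩
    rcases hb' n with h0 | h0 <;> rw [h0]
    · rw [norm_zero]; positivity
    · refine norm_sum_le_of_le _ fun i _ => ?_
      rw [norm_mul]
      exact mul_le_mul_of_nonneg_left ((hC i n hn).trans (le_max_left _ _)) (norm_nonneg _)
  let B' := max B (discr L).natAbs
  have hb2 : Bd fun n => if B' < n then ∑ i, c i * a i n else 0 := hbs fun n => by
    split_ifs <;> simp
  have h4 := ((Res.sum Finset.univ (a := a) (d := ![1 - n, 1, 1]) c hb (fun i _ => by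
    fin_cases i
    exacts [hn1, res_one K, res_one L]) fun _ => rfl).congr (hbs fun _ => Or.inr rfl) hb2
      (B := B') fun n hn => (if_pos hn).symm).re_nonneg hb2 fun p => ?_
  · simp [c, Fin.sum_univ_three] at h4
    have h5 : (1 : ℝ) ≤ n := by exact_mod_cast Nat.pos_of_ne_zero hn0
    have h6 : (2 : ℝ) ≤ d := by exact_mod_cast hd
    nlinarith
  split_ifs with hp
  swap
  · simp
  by_cases hpp : p.Prime
  swap
  · simp [a, pr, pc, hpp, Fin.sum_univ_three]
  let _ := Fintype.ofFinite {P : HeightOneSpectrum (𝓞 K) // absNorm P.asIdeal = p}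
  let S := Finset.univ.filter fun P : {P : HeightOneSpectrum (𝓞 K) // absNorm P.asIdeal = p} =>
    D P.1.asIdeal ≠ 1
  have h5 := split_count (L := L) hpp (fun h0 => by
    have := Nat.le_of_dvd (Int.natAbs_pos.2 (discr_ne_zero L)) (Int.natCast_dvd.1 h0)
    omega) S fun P hP => by
      have := P.1.isMaximal
      obtain ⟨⟨Q, hQ, hQP⟩⟩ := (inferInstance : Nonempty (P.1.asIdeal.primesOver (𝓞 L)))
      have : Finite (𝓞 L ⧸ Q) := finiteQuotientOfFreeOfNeBot Q (ne_bot_of_liesOver_of_ne_bot P.1.ne_bot Q)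
      obtain ⟨φ, hφ⟩ := IsArithFrobAt.exists_of_isInvariant (𝓞 K) Gal(L/K) Q
      have h6 : ∀ x : 𝓞 L, φ • x - x ^ absNorm P.1.asIdeal ∈ Q := fun x => by
        have h4 := hφ x
        rwa [← hQP.over, ← Submodule.cardQuot_apply, ← absNorm_apply] at h4
      obtain rfl : φ = 1 := by
        by_contra h7
        exact (Finset.mem_filter.1 hP).2 (h P.1 (P.2.symm ▸ hpp) (by rw [P.2]; omega) Q hQ hQP φ h6 h7)
      exact ⟨Q, hQ, hQP, fun x => by simpa [P.2] using h6 x⟩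
  have h6 : (rE K p : ℝ) - 3 / 2 * S.card ≤ (pr D p).re := by
    rw [pr, if_pos hpp, finsum_eq_sum_of_fintype, re_sum, ← Eul52.card_prime hpp,
      Nat.card_eq_fintype_card, ← Finset.card_univ, Finset.card_eq_sum_ones, Finset.card_filter]
    push_cast
    rw [Finset.mul_sum, ← Finset.sum_sub_distrib]
    refine Finset.sum_le_sum fun P _ => ?_
    split_ifs with h7
    · linarith [hre P.1.asIdeal]
    · rw [not_not.1 h7]; simp
  have h7 : (S.card : ℝ) * d ≤ rE L p := by exact_mod_cast h5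
  have h8 : (0 : ℝ) ≤ d := Nat.cast_nonneg d
  simp [a, c, pc, hpp, Fin.sum_univ_three]
  nlinarith

end Crest.Agent.T15.Av
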