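import Crest.Agent.T15.BetUni_91
import Crest.Agent.T15.MfB_79
import Crest.Agent.T15.Lv_10
import Crest.Agent.R013.Hens1_899

/-!
# Row 15, block T (helper18): `Aut ℂ` permutes the points of the modular curves

* `aut_GH` : the level groups `GH L H` are stable;
* `aut_vM` : `vM z (σ • x) = vM z' x` on the functions of level `M`, `4 ∣ M`.
-/

set_option autoImplicit false

noncomputable section

namespace Crest.Agent.T15.Az

open UpperHalfPlane hiding I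
open WithZero ModularForm CongruenceSubgroup Polynomial
open scoped MatrixGroups Manifold
open Crest.Agent.T15.Mf Crest.Agent.T15.Hs Crest.Agent.T15.Bet Crest.Agent.T15.Lv
open Crest.Agent.R007 Crest.Agent.R007.Rat

section abstract

variable {F : Type*} [Field F]

/-- conjugacy of valuations under a group acting through a finite quotient -/
theorem conj_val {G : Type*} [Group G] [MulSemiringAction G F] (H : Subgroup G) [H.Normal]
    [H.FiniteIndex] {Γ Γ' : Type*} [LinearOrderedCommGroupWithZero Γ]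
    [LinearOrderedCommGroupWithZero Γ'] (v₁ : Valuation F Γ) (v₂ : Valuation F Γ')
    (h : ∀ x : F, (∀ g : G, g • x = x) → (v₁ x ≤ 1 ↔ v₂ x ≤ 1)) :
    ∃ g : G, ∀ x : F, (∀ γ ∈ H, γ • x = x) → (v₁ (g • x) ≤ 1 ↔ v₂ x ≤ 1) := by
  let K := FixedPoints.subfield H F
  have hK : ∀ (g : G) (x : K), g • (x : F) ∈ K := fun g x γ => by
    have h1 : g⁻¹ * γ.1 * g⁻¹⁻¹ ∈ H := Subgroup.Normal.conj_mem inferInstance _ γ.2 g⁻¹
    have h2 : (g⁻¹ * γ.1 * g⁻¹⁻¹) • (x : F) = x := x.2 ⟨_, h1⟩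
    change γ.1 • g • (x : F) = g • (x : F)
    rw [inv_inv, mul_smul, mul_smul, inv_smul_eq_iff] at h2
    exact h2
  let _ : MulSemiringAction G K :=
    { smul := fun g x => ⟨g • (x : F), hK g x⟩
      one_smul := fun x => Subtype.ext (one_smul G (x : F))
      mul_smul := fun g g' x => Subtype.ext (mul_smul g g' (x : F))
      smul_zero := fun g => Subtype.ext (smul_zero g)
      smul_add := fun g a b => Subtype.ext (smul_add g (a : F) (b : F))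
      smul_one := fun g => Subtype.ext (smul_one g)
      smul_mul := fun g a b => Subtype.ext (smul_mul' g (a : F) (b : F)) }
  let φ : G →* RingAut K := MulSemiringAction.toRingAut G K
  have hH : H ≤ φ.ker := fun γ hγ => RingEquiv.ext fun x => Subtype.ext (x.2 ⟨γ, hγ⟩)
  have : φ.ker.FiniteIndex := Subgroup.finiteIndex_of_le hH
  have : Finite φ.range := Finite.of_equiv _ (QuotientGroup.quotientKerEquivRange φ).toEquiv
  obtain ⟨s, hs⟩ := R013.Hens_899.conj_fin (K := FixedPoints.subfield φ.range K) (N := K)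
    (v₁.comap K.subtype) (v₂.comap K.subtype) fun a =>
      h _ fun g => congrArg Subtype.val (a.2 ⟨φ g, g, rfl⟩)
  obtain ⟨⟨_, g, rfl⟩, rfl⟩ := FixedPoints.toAlgAut_surjective φ.range K s
  exact ⟨g, fun x hx => hs ⟨x, fun γ => hx γ.1 γ.2⟩⟩

/-- equivalent normalised discrete valuations on a subfield agree -/
theorem eq_of_unif (K : Subfield F) (v₁ v₂ : Valuation F ℤᵐ⁰)
    (h : ∀ x ∈ K, v₁ x ≤ 1 ↔ v₂ x ≤ 1) {u₁ u₂ : F} (h₁ : u₁ ∈ K) (h₂ : u₂ ∈ K)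
    (e₁ : v₁ u₁ = exp (-1)) (e₂ : v₂ u₂ = exp (-1)) : ∀ x ∈ K, v₁ x = v₂ x := by
  have hE : (v₁.comap K.subtype).IsEquiv (v₂.comap K.subtype) :=
    Valuation.isEquiv_of_val_le_one fun x => h x.1 x.2
  have hle : ∀ x ∈ K, ∀ y ∈ K, v₁ x ≤ v₁ y ↔ v₂ x ≤ v₂ y := fun x hx y hy => hE ⟨x, hx⟩ ⟨y, hy⟩
  have hlt : ∀ x ∈ K, v₁ x < 1 ↔ v₂ x < 1 := fun x hx => by
    have := hle 1 K.one_mem x hx
    rw [map_one, map_one] at this
    rw [← not_le, ← not_le, this]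
  have hm : ∀ a : ℤᵐ⁰, a < 1 → a ≤ exp (-1) := fun a ha => by
    rcases eq_or_ne a 0 with rfl | h0
    · exact zero_le
    · rw [← exp_log h0, ← exp_zero, exp_lt_exp] at ha
      rw [← exp_log h0, exp_le_exp]; omega
  have hx1 : (exp (-1) : ℤᵐ⁰) < 1 := by rw [← exp_zero, exp_lt_exp]; omega
  have e₃ : v₂ u₁ = exp (-1) := by
    refine le_antisymm (hm _ ((hlt _ h₁).1 (e₁ ▸ hx1))) ?_
    rw [← e₂, ← hle _ h₂ _ h₁, e₁]
    exact hm _ ((hlt _ h₂).2 (e₂ ▸ hx1))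
  intro x hx
  have key : ∀ k : ℤ, v₁ (u₁ ^ k) = exp (-k) ∧ v₂ (u₁ ^ k) = exp (-k) := fun k => by
    rw [map_zpow₀, map_zpow₀, e₁, e₃, ← exp_zsmul]; simp
  rcases eq_or_ne x 0 with rfl | h0
  · simp
  have hv : v₁ x ≠ 0 := (Valuation.ne_zero_iff _).2 h0
  obtain ⟨k1, k2⟩ := key (-log (v₁ x))
  rw [neg_neg, exp_log hv] at k1 k2
  have hu := K.zpow_mem h₁ (-log (v₁ x))
  rw [← k2]
  exact le_antisymm ((hle _ hu _ hx).1 k1.le) ((hle _ hx _ hu).1 k1.ge)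

variable [Algebra ℂ F] {Γ : Type*} [LinearOrderedCommGroupWithZero Γ]

theorem val_aeval_le (v : Valuation F Γ) (hv : ∀ c : ℂ, v (algebraMap ℂ F c) ≤ 1) {t : F}
    (ht : v t ≤ 1) (P : ℂ[X]) : v (aeval t P) ≤ 1 := by
  rw [aeval_eq_sum_range]
  refine v.map_sum_le fun i _ => ?_
  rw [Algebra.smul_def, map_mul, map_pow]
  exact mul_le_one' (hv _) (pow_le_one' ht _)

theorem val_const (v : Valuation F Γ) (hv : ∀ c : ℂ, v (algebraMap ℂ F c) ≤ 1) {c : ℂ}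
    (hc : c ≠ 0) : v (algebraMap ℂ F c) = 1 := by
  refine le_antisymm (hv c) ?_
  have h := hv c⁻¹
  rw [map_inv₀, map_inv₀] at h
  exact (inv_le_one₀ (zero_lt_iff.2 ((Valuation.ne_zero_iff _).2 ((_root_.map_ne_zero _).2 hc)))).1 h

theorem val_aeval (v : Valuation F Γ) (hv : ∀ c : ℂ, v (algebraMap ℂ F c) ≤ 1) {j : F} {c : ℂ}
    (ht : v (j - algebraMap ℂ F c) < 1) {P : ℂ[X]} (hP : P ≠ 0) :
    v (aeval j P) = v (j - algebraMap ℂ F c) ^ P.rootMultiplicity c := by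
  obtain ⟨Q, hQ, hd⟩ := exists_eq_pow_rootMultiplicity_mul_and_not_dvd P hP c
  have hj : v j ≤ 1 := by
    rw [← sub_add_cancel j (algebraMap ℂ F c)]
    exact v.map_add_le ht.le (hv c)
  have h1 : v (aeval j Q) = 1 := by
    obtain ⟨R, hR⟩ := X_sub_C_dvd_sub_C_eval (p := Q) (a := c)
    have e : aeval j Q = algebraMap ℂ F (Q.eval c) + (j - algebraMap ℂ F c) * aeval j R := by
      have := congrArg (aeval j) hR
      simp only [map_sub, map_mul, aeval_X, aeval_C] at this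
      linear_combination this
    have h0 : Q.eval c ≠ 0 := fun h => hd (dvd_iff_isRoot.2 h)
    rw [e, v.map_add_eq_of_lt_left, val_const v hv h0]
    rw [val_const v hv h0, map_mul]
    exact lt_of_le_of_lt (mul_le_of_le_one_right' (val_aeval_le v hv hj R)) ht
  conv_lhs => rw [hQ]
  rw [map_mul, map_pow, map_mul, map_pow, h1, mul_one, map_sub, aeval_X, aeval_C]

theorem val_quot (v : Valuation F Γ) (hv : ∀ c : ℂ, v (algebraMap ℂ F c) ≤ 1) {j : F} {c : ℂ}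
    (h0 : j - algebraMap ℂ F c ≠ 0) (ht : v (j - algebraMap ℂ F c) < 1) {P Q : ℂ[X]} (hP : P ≠ 0)
    (hQ : Q ≠ 0) :
    v (aeval j P / aeval j Q) ≤ 1 ↔ Q.rootMultiplicity c ≤ P.rootMultiplicity c := by
  have hp : 0 < v (j - algebraMap ℂ F c) := zero_lt_iff.2 ((Valuation.ne_zero_iff _).2 h0)
  rw [map_div₀, val_aeval v hv ht hP, val_aeval v hv ht hQ, div_le_one₀ (pow_pos hp _),
    pow_le_pow_iff_right_of_lt_one₀ hp ht]

end abstract

/-! ### the levels `GH L H` -/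

theorem aut_GH {L : ℕ} [NeZero L] {H : Subgroup (ZMod L)ˣ} (σ : ℂ ≃+* ℂ) {x : FF}
    (hx : ∀ γ ∈ GH L H, γ • x = x) : ∀ γ ∈ GH L H, γ • σ • x = σ • x := by
  intro γ' hγ'
  have hL := Nat.pos_of_ne_zero (NeZero.ne L)
  have : NeZero (L * 3) := ⟨by omega⟩
  obtain ⟨s, hs⟩ := exists_zpow_zeta (σ : ℂ →+* ℂ) (L * 3)
  have hu := isUnit_of_map_zeta hs
  obtain ⟨γ, hγ⟩ := exists_tw hu γ'⁻¹
  have hM : ∀ δ ∈ Gamma (L * 3), δ • x = x := fun δ hδ => hx δ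
    (GH_le (H := H) (H' := ⊥) (Dvd.intro 3 rfl) (fun u hu => by
      rw [Subgroup.mem_bot.1 hu, map_one]; exact H.one_mem) (Gamma_le_GH hδ))
  have h := gal_inv_smul (by omega) hs hM hγ
  obtain ⟨hc, u, hu1, hu2⟩ := (GH L H).inv_mem hγ'
  have hmem : γ ∈ GH L H := by
    have h3 := congrArg (ZMod.castHom (Dvd.intro 3 rfl : L ∣ L * 3) (ZMod L)) hγ.2.2.1
    have h4 := congrArg (ZMod.castHom (Dvd.intro 3 rfl : L ∣ L * 3) (ZMod L)) hγ.2.2.2
    simp only [map_mul, map_intCast] at h3 h4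
    exact ⟨by rw [← h3, hc, mul_zero], u, hu1, hu2.trans h4⟩
  rw [hx _ ((GH L H).inv_mem hmem), inv_inv] at h
  exact h.symm

theorem aut_Gq {L : ℕ} [NeZero L] {H : Subgroup (ZMod L)ˣ} (σ : ℂ ≃+* ℂ) {x : FF}
    (hx : ∀ g ∈ Gq L H, g • x = x) : ∀ g ∈ Gq L H, g • σ • x = σ • x := by
  rintro _ ⟨γ, hγ, rfl⟩
  exact aut_GH σ (fun δ hδ => hx _ (sq_mem.2 hδ)) γ hγ

/-! ### level one -/

/-- the modular invariant -/
def jz : FF := quo (e4 ^ 3) dl

theorem coe_jz : (jz : Mer) = mer (e4 ^ 3) / mer dl := coe_quo one_ne_zero isF_e43 isF_dl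

theorem mer_dl_ne : mer dl ≠ 0 := mer_ne_zero isF_dl.holo dl_ne_zero

theorem hm_qf_one (σ : ℂ →+* ℂ) {k : ℤ} {f : ℍ → ℂ} (hf : IsF 1 k f)
    (hc : CoeffIn (σ.eqLocus (RingHom.id ℂ)) (qe 1 f)) : hm σ (qf f) = qf f := by
  rw [qf_eq one_ne_zero hf, hm_hq one_ne_zero]
  congr 1
  ext n
  rw [PowerSeries.coeff_map]
  exact hc n

theorem aut_jz (σ : ℂ ≃+* ℂ) : σ • jz = jz := qx_injective (by
  rw [qx_aut, jz, qx_quo one_ne_zero isF_e43 isF_dl, map_div₀, qf_pow one_ne_zero isF_e4, map_pow,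
    hm_qf_one _ isF_e4 coeffIn_e4, hm_qf_one _ isF_dl coeffIn_dl])

theorem coe_jz_sub (c : ℂ) : ((jz - algebraMap ℂ FF c : FF) : Mer) = mer (jn c) / mer dl := by
  rw [jn, mer_sub isF_e43.holo (isF_dl.smul c).holo, mer_smul isF_dl.holo, sub_div,
    mul_div_assoc, div_self mer_dl_ne, mul_one, ← coe_jz]
  rfl

theorem jz_sub_ne (c : ℂ) : jz - algebraMap ℂ FF c ≠ 0 := fun h => by
  have h1 := coe_jz_sub c
  rw [h] at h1
  exact div_ne_zero (mer_ne_zero (isF_jn c).holo (jn_ne c)) mer_dl_ne h1.symm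

theorem vM_jz_sub {z : ℍ} {c : ℂ} (h : e4 z ^ 3 = c * dl z) :
    vM z ((jz - algebraMap ℂ FF c : FF) : Mer) < 1 := by
  rw [coe_jz_sub, map_div₀, (vM_mer_eq_one isF_dl.holo).2 (dl_ne z), div_one,
    vM_mer_lt_one (isF_jn c).holo]
  simp [jn, h]

theorem poly_of_form {k : ℕ} {f : ℍ → ℂ} (hf : IsF 1 (12 * k) f) :
    ∃ P : ℂ[X], mer f = aeval (jz : Mer) P * mer dl ^ k := by
  have h := levelOne_mem_span ⊤ hf fun _ => trivial
  suffices H : MDiff f ∧ ∃ P : ℂ[X], mer f = aeval (jz : Mer) P * mer dl ^ k from H.2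
  clear hf
  induction h using Submodule.span_induction with
  | mem f hf =>
    obtain ⟨a, b, c, hb, hk, rfl⟩ := hf
    have hb0 : b = 0 := by omega
    obtain ⟨a', rfl⟩ : 3 ∣ a := by omega
    have hk' : k = a' + c := by omega
    subst hb0 hk'
    have h3 := (isF_e43.pow a').holo
    have h4 := (isF_dl.pow c).holo
    rw [mon, pow_zero, mul_one, pow_mul]
    refine ⟨h3.mul h4, X ^ a', ?_⟩
    rw [mer_mul h3 h4, mer_pow isF_e43.holo, mer_pow isF_dl.holo, map_pow, aeval_X, coe_jz, pow_add,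
      div_pow, ← mul_assoc, div_mul_cancel₀ _ (pow_ne_zero _ mer_dl_ne)]
  | zero => exact ⟨Hol.zero_mem, 0, by rw [mer_zero, map_zero, zero_mul]⟩
  | add f g _ _ hf hg =>
    obtain ⟨h1, P, hP⟩ := hf
    obtain ⟨h2, Q, hQ⟩ := hg
    exact ⟨h1.add h2, P + Q, by rw [mer_add h1 h2, hP, hQ, map_add, add_mul]⟩
  | smul c f _ hf =>
    obtain ⟨h1, P, hP⟩ := hf
    refine ⟨Hol.smul_mem h1 (c : ℂ), C (c : ℂ) * P, ?_⟩
    rw [map_mul, aeval_C, mul_assoc, ← hP]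
    exact mer_smul h1 (c : ℂ)

/-- functions of level one are rational functions of `j` -/
theorem rat_of_fixed {x : FF} (hx : ∀ γ : SL(2, ℤ), γ • x = x) :
    ∃ P Q : ℂ[X], Q ≠ 0 ∧ x = aeval jz P / aeval jz Q := by
  obtain ⟨k, f, g, hf, hg, hg0, rfl⟩ := exists_quo_level (M := 1) fun γ _ => hx γ
  have hm0 := mer_ne_zero hg.holo hg0
  have h12 : IsF 1 (12 * k) (g ^ 12) := (hg.pow 12).cast (by norm_num)
  have hk : 0 ≤ k := by
    by_contra hk
    have h := levelOne_mem_span ⊤ h12 fun _ => trivial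
    have he : Mon (12 * k) = ∅ := Set.eq_empty_of_forall_notMem fun _ ⟨a, b, c, _, h, _⟩ => by omega
    rw [he, Submodule.span_empty, Submodule.mem_bot] at h
    have h2 := mer_pow hg.holo 12
    rw [h, mer_zero] at h2
    exact pow_ne_zero 12 hm0 h2.symm
  lift k to ℕ using hk
  have h11 : IsF 1 (12 * k) (f * g ^ 11) := (hf.mul (hg.pow 11)).cast (by push_cast; ring)
  obtain ⟨P, hP⟩ := poly_of_form h11
  obtain ⟨Q, hQ⟩ := poly_of_form h12
  rw [mer_mul hf.holo (hg.pow 11).holo, mer_pow hg.holo] at hP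
  rw [mer_pow hg.holo] at hQ
  have hQ0 : aeval (jz : Mer) Q ≠ 0 := fun h => pow_ne_zero 12 hm0 (by rw [hQ, h, zero_mul])
  refine ⟨P, Q, fun h => hQ0 (by rw [h, map_zero]), Subtype.ext ?_⟩
  have e : ∀ R : ℂ[X], ((aeval jz R : FF) : Mer) = aeval (jz : Mer) R := fun R =>
    (aeval_algHom_apply FF.val jz R).symm
  rw [coe_quo one_ne_zero hf hg, IntermediateField.coe_div, e, e, div_eq_div_iff hm0 hQ0]
  have hd : mer dl ^ k ≠ 0 := pow_ne_zero _ mer_dl_ne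
  refine mul_right_cancel₀ hd ?_
  rw [mul_assoc, ← hQ, mul_right_comm, ← hP]
  ring

/-- the valuation at `z` on `FF` -/
def vF (z : ℍ) : Valuation FF ℤᵐ⁰ := (vM z).comap (FF.val : FF →+* Mer)

theorem vF_apply (z : ℍ) (x : FF) : vF z x = vM z (x : Mer) := rfl

theorem vF_const (z : ℍ) (c : ℂ) : vF z (algebraMap ℂ FF c) ≤ 1 := by
  rcases eq_or_ne c 0 with rfl | hc
  · simp
  · exact (vM_const z hc).le

/-- **every valuation of `FF` over `ℂ` finite at `j` is a point on each level** -/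
theorem exists_point {M : ℕ} (hM : M ≠ 0) {Γ : Type*} [LinearOrderedCommGroupWithZero Γ]
    (v : Valuation FF Γ) (hv : ∀ c : ℂ, v (algebraMap ℂ FF c) ≤ 1) {c : ℂ}
    (hc : v (jz - algebraMap ℂ FF c) < 1) :
    ∃ z : ℍ, ∀ x : FF, (∀ γ ∈ Gamma M, γ • x = x) → (vF z x ≤ 1 ↔ v x ≤ 1) := by
  have : NeZero M := ⟨hM⟩
  have := Gamma_normal M
  obtain ⟨z, hz⟩ := j_onto c
  obtain ⟨g, hg⟩ := conj_val (Gamma M) (vF z) v fun x hx => by
    obtain ⟨P, Q, hQ, rfl⟩ := rat_of_fixed hx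
    rcases eq_or_ne P 0 with rfl | hP
    · simp
    rw [val_quot (vF z) (vF_const z) (jz_sub_ne c) (vM_jz_sub hz) hP hQ,
      val_quot v hv (jz_sub_ne c) hc hP hQ]
  refine ⟨rr (sq g)⁻¹ • z, fun x hx => ?_⟩
  rw [← hg x hx, vF_apply, vF_apply, ← vM_inv_smul, inv_inv]
  rfl

theorem Gamma_le_G4 {M : ℕ} (h : 4 ∣ M) : Gamma M ≤ Gamma1 4 :=
  (Gamma_le_GH (H := ⊥)).trans (GH_le_G4 h fun u hu => by rw [Subgroup.mem_bot.1 hu, map_one])

/-- **`Aut ℂ` permutes the points** -/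
theorem aut_vM {M : ℕ} (hM : M ≠ 0) (h4 : 4 ∣ M) (σ : ℂ ≃+* ℂ) (z : ℍ) :
    ∃ z' : ℍ, ∀ x : FF, (∀ γ ∈ Gamma M, γ • x = x) →
      vM z ((σ • x : FF) : Mer) = vM z' (x : Mer) := by
  have h3 : 3 ≤ M := le_trans (by norm_num) (Nat.le_of_dvd (Nat.pos_of_ne_zero hM) h4)
  let v : Valuation FF ℤᵐ⁰ := (vF z).comap (gal (σ : ℂ →+* ℂ))
  have hv : ∀ x, v x = vF z (σ • x) := fun _ => rfl
  have hc : ∀ c : ℂ, σ • algebraMap ℂ FF c = algebraMap ℂ FF (σ c) := gal_algebraMap _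
  obtain ⟨z', hz'⟩ := exists_point hM v (fun c => by rw [hv, hc]; exact vF_const z _)
    (c := σ.symm (e4 z ^ 3 / dl z)) (by
      rw [hv, smul_sub, aut_jz, hc, RingEquiv.apply_symm_apply]
      exact vM_jz_sub (div_mul_cancel₀ _ (dl_ne z)).symm)
  obtain ⟨u, hu, hu'⟩ := exists_unif z
  obtain ⟨w, hw, hw'⟩ := exists_unif z'
  refine ⟨z', fun x hx => ?_⟩
  refine (eq_of_unif (FixedPoints.subfield (Gamma M) FF) (vF z') v
    (fun y hy => hz' y fun γ hγ => hy ⟨γ, hγ⟩) (u₁ := w) (u₂ := σ⁻¹ • u)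
    (fun γ => hw γ.1 (Gamma_le_G4 h4 γ.2))
    (fun γ => gal_level _ h3 (fun δ hδ => hu δ (Gamma_le_G4 h4 hδ)) γ.1 γ.2) hw' ?_ x
    fun γ => hx γ.1 γ.2).symm
  rw [hv, smul_inv_smul]
  exact hu'

/-- divisibility of all orders is stable under `Aut ℂ` -/
theorem aut_dvd (σ : ℂ ≃+* ℂ) {x : FF} {n : ℤ} (h : ∀ z, n ∣ log (vM z (x : Mer))) (z : ℍ) :
    n ∣ log (vM z ((σ • x : FF) : Mer)) := by
  obtain ⟨M, hM, hx⟩ := exists_gamma x
  obtain ⟨z', hz'⟩ := aut_vM (M := M * 4) (by omega) (Dvd.intro_left _ rfl) σ z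
  rw [hz' x fun γ hγ => hx γ ?_]
  · exact h z'
  · rw [Gamma_mem] at hγ ⊢
    have := fun i j => (map_intCast (ZMod.castHom (Dvd.intro 4 rfl : M ∣ M * 4) (ZMod M))
      (γ i j)).symm
    refine ⟨?_, ?_, ?_, ?_⟩
    · rw [this, hγ.1, map_one]
    · rw [this, hγ.2.1, map_zero]
    · rw [this, hγ.2.2.1, map_zero]
    · rw [this, hγ.2.2.2, map_one]

end Crest.Agent.T15.Az

end
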