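import Crest.Agent.T15.BetRoot_91
import Crest.Agent.T15.MfA_79

/-!
# T15 / BetMer (helper91): the valuations `vM z` on 79's field `Mer` of meromorphic functions on `ℍ`

`vM z : Valuation Mer ℤᵐ⁰`, `vM_smul`, `exists_rootM` (roots), `exists_hol` (no poles).
-/

set_option autoImplicit false

noncomputable section

namespace Crest.Agent.T15.Bet

open UpperHalfPlane hiding I
open Filter Topology WithZero
open scoped MatrixGroups Manifold
open Crest.Agent.T15.Mf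

/-- a holomorphic function as a meromorphic one -/
abbrev toM : Hol →+* Mer := algebraMap Hol Mer

lemma toM_inj : Function.Injective toM := IsFractionRing.injective _ _

lemma toM_ne {f : Hol} (hf : f ≠ 0) : toM f ≠ 0 := fun h => hf (toM_inj (by rw [h, map_zero]))

lemma toM_const (c : ℂ) : toM (algebraMap ℂ Hol c) = algebraMap ℂ Mer c :=
  (IsScalarTower.algebraMap_apply ℂ Hol Mer c).symm

lemma exists_div (x : Mer) : ∃ a b : Hol, b ≠ 0 ∧ x = toM a / toM b := by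
  obtain ⟨a, b, hb, rfl⟩ := IsFractionRing.div_surjective (A := Hol) x
  exact ⟨a, b, nonZeroDivisors.ne_zero hb, rfl⟩

/-- order as an integer -/
def ordZ (f : ℍ → ℂ) (z : ℍ) : ℤ := ((ordH f z).toNat : ℤ)

lemma ordH_eq (f : Hol) (hf : f ≠ 0) (z : ℍ) : ordH f z = ((ordH f z).toNat : ℕ∞) :=
  (ENat.natCast_toNat (ordH_ne_top f.2 (fun h => hf (Subtype.ext h)) z)).symm

open Classical in
/-- the valuation at `z` on `Hol` -/
def vH (z : ℍ) : Valuation Hol ℤᵐ⁰ where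
  toFun f := if f = 0 then 0 else exp (-ordZ f z)
  map_zero' := by simp
  map_one' := by
    have : ordH (1 : ℍ → ℂ) z = 0 := (ordH_eq_zero mdifferentiable_const).mpr one_ne_zero
    simp [ordZ, this]
  map_mul' a b := by
    by_cases ha : a = 0
    · simp [ha]
    by_cases hb : b = 0
    · simp [hb]
    rw [if_neg ha, if_neg hb, if_neg (mul_ne_zero ha hb), ← exp_add, ordZ, ordZ, ordZ,
      Subalgebra.coe_mul, ordH_mul a.2 b.2, ENat.toNat_add (ordH_ne_top a.2 (fun h => ha (Subtype.ext h)) z)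
        (ordH_ne_top b.2 (fun h => hb (Subtype.ext h)) z)]
    push_cast; congr 1; ring
  map_add_le_max' a b := by
    by_cases hab : a + b = 0
    · simp [hab]
    by_cases ha : a = 0
    · simp [ha]
    by_cases hb : b = 0
    · simp [hb]
    rw [if_neg ha, if_neg hb, if_neg hab]
    have h := le_ordH_add a b z
    rw [← Subalgebra.coe_add, ordH_eq a ha, ordH_eq b hb, ordH_eq _ hab, min_le_iff, Nat.cast_le,
      Nat.cast_le] at h
    rw [le_max_iff, exp_le_exp, exp_le_exp, ordZ, ordZ, ordZ]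
    omega

lemma vH_apply {f : Hol} (hf : f ≠ 0) (z : ℍ) : vH z f = exp (-ordZ f z) := if_neg hf

/-- the valuation at `z` on `Mer` -/
def vM (z : ℍ) : Valuation Mer ℤᵐ⁰ :=
  (vH z).extendToLocalization (S := nonZeroDivisors Hol) (fun f hf => by
    have := nonZeroDivisors.ne_zero hf
    simp [Ideal.primeCompl, Valuation.mem_supp_iff, vH_apply this]) Mer

lemma vM_toM (z : ℍ) (f : Hol) : vM z (toM f) = vH z f :=
  Valuation.extendToLocalization_apply_map_apply _ _ _ f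

lemma vM_toM' (z : ℍ) {f : Hol} (hf : f ≠ 0) : vM z (toM f) = exp (-ordZ f z) := by
  rw [vM_toM, vH_apply hf]

lemma ordZ_nonneg (f : ℍ → ℂ) (z : ℍ) : 0 ≤ ordZ f z := Int.natCast_nonneg _

lemma vM_toM_le (z : ℍ) (f : Hol) : vM z (toM f) ≤ 1 := by
  by_cases hf : f = 0
  · simp [hf]
  · rw [vM_toM' z hf, ← exp_zero, exp_le_exp]; have := ordZ_nonneg f z; omega

lemma vM_toM_eq_one {z : ℍ} {f : Hol} : vM z (toM f) = 1 ↔ (f : ℍ → ℂ) z ≠ 0 := by
  by_cases hf : f = 0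
  · simp [hf]
  · rw [vM_toM' z hf, ← exp_zero, exp_inj, neg_eq_zero, ← ordH_eq_zero f.2, ordH_eq f hf, ordZ]
    simp only [Nat.cast_eq_zero]

lemma vM_toM_lt_one {z : ℍ} {f : Hol} : vM z (toM f) < 1 ↔ (f : ℍ → ℂ) z = 0 := by
  rw [(vM_toM_le z f).lt_iff_ne, Ne, vM_toM_eq_one, not_not]

lemma vM_const (z : ℍ) {c : ℂ} (hc : c ≠ 0) : vM z (algebraMap ℂ Mer c) = 1 := by
  rw [← toM_const, vM_toM_eq_one]; exact hc

lemma vM_mer (z : ℍ) {F : ℍ → ℂ} (hF : MDiff F) (h0 : F ≠ 0) : vM z (mer F) = exp (-ordZ F z) := by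
  rw [mer_eq hF]; exact vM_toM' z (f := ⟨F, hF⟩) fun h => h0 (congrArg Subtype.val h)

lemma vM_mer_le (z : ℍ) {F : ℍ → ℂ} (hF : MDiff F) : vM z (mer F) ≤ 1 := by
  rw [mer_eq hF]; exact vM_toM_le z _

lemma vM_mer_eq_one {z : ℍ} {F : ℍ → ℂ} (hF : MDiff F) : vM z (mer F) = 1 ↔ F z ≠ 0 := by
  rw [mer_eq hF]; exact vM_toM_eq_one

lemma vM_mer_lt_one {z : ℍ} {F : ℍ → ℂ} (hF : MDiff F) : vM z (mer F) < 1 ↔ F z = 0 := by
  rw [mer_eq hF]; exact vM_toM_lt_one

lemma smul_div_Mer (g : GQ) (x y : Mer) : g • (x / y) = g • x / g • y :=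
  map_div₀ (MulSemiringAction.toRingHom GQ Mer g) x y

lemma vM_inv_smul (g : GQ) (z : ℍ) (x : Mer) : vM z (g⁻¹ • x) = vM (rr g • z) x := by
  have key : ∀ a : ℍ → ℂ, MDiff a → vM z (g⁻¹ • mer a) = vM (rr g • z) (mer a) := by
    intro a ha
    by_cases h0 : a = 0
    · simp [h0, mer_zero]
    · have h1 : (fun τ => a (rr g • τ)) ≠ 0 := fun h => h0 (funext fun τ => by
        simpa using congrFun h ((rr g)⁻¹ • τ))
      rw [inv_smul_mer ha, vM_mer _ ha h0, vM_mer _ (mdiff_comp ha g) h1, ordZ, ordZ,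
        ordH_smul _ (rr_pos g)]
  obtain ⟨a, b, ha, hb, -, rfl⟩ := exists_mer x
  rw [smul_div_Mer, map_div₀, map_div₀, key a ha, key b hb]

lemma vM_smul (g : GQ) (z : ℍ) (x : Mer) : vM (rr g • z) (g • x) = vM z x := by
  rw [← vM_inv_smul, inv_smul_smul]

/-- **roots of meromorphic functions** -/
theorem exists_rootM {x : Mer} {n : ℕ} (hn : n ≠ 0) (hx : ∀ z, (n : ℤ) ∣ log (vM z x)) :
    ∃ y : Mer, y ^ n = x := by
  by_cases h0 : x = 0
  · exact ⟨0, by rw [h0, zero_pow hn]⟩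
  obtain ⟨a, b, hb, rfl⟩ := exists_div x
  have ha : a ≠ 0 := by rintro rfl; simp at h0
  obtain ⟨m, rfl⟩ := Nat.exists_eq_succ_of_ne_zero hn
  obtain ⟨g, hg, hgn⟩ := exists_root (h := ((a * b ^ m : Hol) : ℍ → ℂ)) (a * b ^ m).2 hn fun z => by
    have h1 := hx z
    have h2 := vM_toM' z (mul_ne_zero ha (pow_ne_zero m hb))
    rw [map_div₀, vM_toM' z ha, vM_toM' z hb, ← exp_sub, log_exp] at h1
    rw [map_mul, map_pow, map_mul, map_pow, vM_toM' z ha, vM_toM' z hb, ← exp_nsmul, ← exp_add,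
      exp_inj] at h2
    rw [← Int.natCast_dvd_natCast]
    obtain ⟨c, hc⟩ := h1
    refine ⟨ordZ b z - c, ?_⟩
    change ordZ _ z = _
    simp only [nsmul_eq_mul] at h2
    push_cast at hc ⊢
    linear_combination h2 - hc
  refine ⟨toM ⟨g, hg⟩ / toM b, ?_⟩
  have h3 : (⟨g, hg⟩ : Hol) ^ (m + 1) = a * b ^ m := Subtype.ext hgn
  have := toM_ne hb
  rw [div_pow, ← map_pow, h3, map_mul, map_pow]
  field_simp
  rw [pow_succ]; ring

/-- a meromorphic function without poles is holomorphic -/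
theorem exists_hol {x : Mer} (hx : ∀ z, vM z x ≤ 1) : ∃ f : Hol, x = toM f := by
  obtain ⟨a, b, hb, rfl⟩ := exists_div x
  by_cases ha : a = 0
  · exact ⟨0, by simp [ha]⟩
  have key : ∀ z : ℍ, ∃ G : ℂ → ℂ, AnalyticAt ℂ G z ∧
      ∀ᶠ w in 𝓝 (z : ℂ), (a.1 ∘ ofComplex) w = G w * (b.1 ∘ ofComplex) w := by
    intro z
    have h1 := hx z
    rw [map_div₀, vM_toM' z ha, vM_toM' z hb, ← exp_sub, ← exp_zero, exp_le_exp, ordZ, ordZ] at h1
    obtain ⟨A, hA, -, hA'⟩ := (analAt a.2 z).analyticOrderAt_eq_natCast.mp (ordH_eq a ha z)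
    obtain ⟨B, hB, hB0, hB'⟩ := (analAt b.2 z).analyticOrderAt_eq_natCast.mp (ordH_eq b hb z)
    obtain ⟨d, hd⟩ : ∃ d, (ordH a z).toNat = (ordH b z).toNat + d := Nat.exists_eq_add_of_le (by omega)
    refine ⟨fun w => (w - z) ^ d * A w / B w, ((by fun_prop : AnalyticAt ℂ (fun w : ℂ => (w - z) ^ d) z).mul hA).div hB hB0, ?_⟩
    filter_upwards [hA', hB', hB.continuousAt.eventually_ne hB0] with w h1 h2 h3
    rw [h1, h2, hd, smul_eq_mul, smul_eq_mul, pow_add]
    field_simp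
  choose G hG hG' using key
  have hbne : ∀ z : ℍ, ∀ᶠ w in 𝓝[≠] (z : ℂ), (b.1 ∘ ofComplex) w ≠ 0 := fun z =>
    (analAt b.2 z).eventually_eq_zero_or_eventually_ne_zero.resolve_left fun h =>
      ordH_ne_top b.2 (fun h => hb (Subtype.ext h)) z (analyticOrderAt_eq_top.mpr h)
  have hloc : ∀ z : ℍ, ∀ᶠ w in 𝓝 (z : ℂ), G (ofComplex w) (ofComplex w) = G z w := by
    intro z
    filter_upwards [(hG z).eventually_analyticAt, (hG' z).eventually_nhds,
      isOpen_upperHalfPlaneSet.mem_nhds z.im_pos] with w h1 h2 h3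
    rw [ofComplex_apply_of_im_pos h3]
    have h4 : ∀ᶠ u in 𝓝[≠] w, G ⟨w, h3⟩ u = G z u := by
      filter_upwards [hbne ⟨w, h3⟩, (hG' ⟨w, h3⟩).filter_mono nhdsWithin_le_nhds,
        h2.filter_mono nhdsWithin_le_nhds] with u e1 e2 e3
      exact mul_right_cancel₀ e1 (e2.symm.trans e3)
    exact tendsto_nhds_unique_of_eventuallyEq
      ((hG ⟨w, h3⟩).continuousAt.tendsto.mono_left nhdsWithin_le_nhds)
      (h1.continuousAt.tendsto.mono_left nhdsWithin_le_nhds) h4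
  have hf : MDiff (fun z : ℍ => G z z) := fun z => by
    rw [UpperHalfPlane.mdifferentiableAt_iff]
    exact (hG z).differentiableAt.congr_of_eventuallyEq (hloc z)
  refine ⟨⟨_, hf⟩, ?_⟩
  rw [div_eq_iff (toM_ne hb), ← map_mul]
  congr 1
  ext z
  simpa using (hG' z).self_of_nhds

end Crest.Agent.T15.Bet
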