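import Crest.Agent.T15.BetAz_91

/-!
# T15 / BetPc (helper91): the places of `F Γ` at the cusps; divisors of Kummer functions

`fix_of_tame`, `exists_cusp`, `IsK.dvd_divf`, `ck_of_dvd`.
-/

set_option autoImplicit false

noncomputable section

namespace Crest.Agent.T15.Bet

open UpperHalfPlane hiding I
open CongruenceSubgroup WithZero
open scoped MatrixGroups
open Crest.Agent.T15.Mf Crest.Agent.T15.Hk Crest.Agent.T15.Hs Crest.Agent.T15.Lv
open Crest.Agent.R007 Crest.Agent.R007.Rat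
open Crest.Agent.R013.RR7_948 Crest.Agent.R013.RR8_948 Crest.Agent.R013.RR11_948
open Crest.Agent.R013.RR13_948
open Crest.Agent.R013.RR18_948 Crest.Agent.R013.RR21_948 Crest.Agent.R013.RR22_948

local notation "TT" => ModularGroup.T

/-- inertia is tame in characteristic zero -/
theorem fix_of_tame {k K L : Type*} [Field k] [CharZero k] [Field K] [Field L] [Algebra k K]
    [Algebra k L] (Q : Pl k L) (i : K →+* L) (σ : L →+* L)
    (hσc : ∀ c, σ (algebraMap k L c) = algebraMap k L c)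
    (hi : ∀ c, i (algebraMap k K c) = algebraMap k L c)
    (hres : ∀ u : K, Q.v (i u) = 1 → ∃ c : k, Q.v (i u - algebraMap k L c) < 1)
    (hσ : ∀ x : K, x ≠ 0 → Q.v (σ (i x) - i x) < Q.v (i x))
    {j : K} (hj : σ (i j) = i j) (hj1 : 1 < Q.v (i j)) (x : K) : σ (i x) = i x := by
  have hj0 : Q.v (i j) ≠ 0 := (zero_lt_one.trans hj1).ne'
  obtain ⟨e, he⟩ := Int.eq_ofNat_of_zero_le (a := log (Q.v (i j))) (by
    rw [← exp_le_exp, exp_log hj0]; exact hj1.le)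
  have he0 : e ≠ 0 := by
    rintro rfl
    rw [← exp_log hj0, he] at hj1
    simp at hj1
  have key : ∀ (m : ℕ) (x : K), Q.v (σ (i x) - i x) ≤ Q.v (i x) * exp (-(m : ℤ)) := by
    intro m
    induction m with
    | zero =>
      intro x
      rcases eq_or_ne x 0 with rfl | hx
      · simp
      · simpa using (hσ x hx).le
    | succ m ih =>
      intro x
      rcases eq_or_ne x 0 with rfl | hx
      · simp
      have hx0 : i x ≠ 0 := (map_ne_zero i).mpr hx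
      have hv0 : Q.v (i x) ≠ 0 := (Valuation.ne_zero_iff _).mpr hx0
      set w := σ (i x) / i x with hw
      have e1 : σ (i x) - i x = i x * (w - 1) := by rw [hw]; field_simp
      have hw1 : Q.v (w - 1) < 1 := by
        have := hσ x hx
        rwa [e1, map_mul, mul_lt_iff_lt_one_right (zero_lt_iff.mpr hv0)] at this
      have hwv : Q.v w = 1 := by
        rw [← map_one Q.v]; exact Q.v.map_eq_of_sub_lt (by rwa [map_one])
      have hp : ∀ a : ℕ, Q.v (w ^ a - 1) < 1 := fun a => by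
        rw [← geom_sum_mul, map_mul]
        exact mul_lt_one_of_nonneg_of_lt_one_right (Q.v.map_sum_le fun b _ => by
          rw [map_pow, hwv, one_pow]) zero_le hw1
      have hs : Q.v (∑ a ∈ Finset.range e, w ^ a) = 1 := by
        have h1 := Q.const (e : k) (Nat.cast_ne_zero.mpr he0)
        rw [map_natCast] at h1
        rw [← h1]
        refine Q.v.map_eq_of_sub_lt ?_
        rw [h1, show (∑ a ∈ Finset.range e, w ^ a) - e = ∑ a ∈ Finset.range e, (w ^ a - 1) by simp]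
        exact Q.v.map_sum_lt one_ne_zero fun a _ => hp a
      set u := x ^ e * j ^ (-log (Q.v (i x))) with hu
      have hu1 : Q.v (i u) = 1 := by
        rw [hu, map_mul, map_pow, map_zpow₀, map_mul, map_pow, map_zpow₀, ← exp_log hj0, he]
        conv_lhs => enter [1, 1]; rw [← exp_log hv0]
        rw [← exp_nsmul, ← exp_zsmul, ← exp_add, ← exp_zero]
        congr 1; simp [mul_comm]
      obtain ⟨c, hc⟩ := hres u hu1
      have h2 := ih (u - algebraMap k K c)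
      have e2 : σ (i u) - i u = i u * (w ^ e - 1) := by
        rw [hu, map_mul, map_pow, map_zpow₀, map_mul, map_pow, map_zpow₀, hj, hw, div_pow]
        field_simp
      rw [map_sub i, hi, map_sub σ, hσc, sub_sub_sub_cancel_right, e2, map_mul, hu1, one_mul,
        ← geom_sum_mul, map_mul, hs, one_mul] at h2
      rw [e1, map_mul]
      refine mul_le_mul_right (h2.trans ?_) _
      rw [Nat.cast_succ, neg_add_rev, exp_add]
      refine mul_le_mul_left ?_ _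
      rwa [← lt_mul_exp_iff_le exp_ne_zero, ← exp_add, neg_add_cancel, exp_zero]
  by_contra h
  have h0 : Q.v (σ (i x) - i x) ≠ 0 := (Valuation.ne_zero_iff _).mpr (sub_ne_zero.mpr h)
  have hv0 : Q.v (i x) ≠ 0 := fun h1 => h0 (by simpa [h1] using key 0 x)
  have := key ((log (Q.v (i x)) - log (Q.v (σ (i x) - i x))).toNat + 1) x
  rw [← exp_log h0, ← exp_log hv0, ← exp_add, exp_le_exp, log_exp, log_exp] at this
  omega

open Classical in
/-- the order valuation of Hahn series -/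
def vH0 : Valuation (HS ℂ) (WithZero (Multiplicative ℚ)) where
  toFun y := if y = 0 then 0 else exp (-y.order)
  map_zero' := if_pos rfl
  map_one' := by simp
  map_mul' x y := by
    rcases eq_or_ne x 0 with rfl | hx
    · simp
    rcases eq_or_ne y 0 with rfl | hy
    · simp
    rw [if_neg hx, if_neg hy, if_neg (mul_ne_zero hx hy), HahnSeries.order_mul hx hy, ← exp_add,
      neg_add]
  map_add_le_max' x y := by
    rcases eq_or_ne x 0 with rfl | hx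
    · simp
    rcases eq_or_ne y 0 with rfl | hy
    · simp
    rcases eq_or_ne (x + y) 0 with h | h
    · simp [h]
    rw [if_neg hx, if_neg hy, if_neg h, le_max_iff, exp_le_exp, exp_le_exp, neg_le_neg_iff,
      neg_le_neg_iff, ← min_le_iff]
    exact HahnSeries.min_order_le_order_add h

lemma vH0_apply {y : HS ℂ} (h : y ≠ 0) : vH0 y = exp (-y.order) := if_neg h

lemma vH0_tw {y : HS ℂ} (h : y ≠ 0) {b : ℚ} {m : ℤ} (hm : b * y.order = m) :
    vH0 (tw (ee b) y - y) < vH0 y := by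
  rcases eq_or_ne (tw (ee b) y - y) 0 with h0 | h0
  · rw [h0, map_zero, zero_lt_iff]; exact (Valuation.ne_zero_iff _).mpr h
  rw [vH0_apply h0, vH0_apply h, exp_lt_exp, neg_lt_neg_iff]
  by_contra hlt
  refine HahnSeries.coeff_order_eq_zero.not.mpr h0 ?_
  rw [HahnSeries.coeff_sub, coeff_tw, ee_apply]
  rcases (not_lt.mp hlt).eq_or_lt with e | e
  · rw [e, ex, mul_assoc, ← Rat.cast_mul, mul_comm y.order, hm, Rat.cast_intCast, mul_comm _ (m : ℂ),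
      Complex.exp_int_mul_two_pi_mul_I, one_mul, sub_self]
  · rw [HahnSeries.coeff_eq_zero_of_lt_order e, mul_zero, sub_zero]

lemma order_qf_one {k : ℤ} {G : ℍ → ℂ} (hG : IsF 1 k G) {a : ℕ} (h : (qe 1 G).coeff a ≠ 0)
    (h' : ∀ b < a, (qe 1 G).coeff b = 0) : qf G ≠ 0 ∧ (qf G).order = a := by
  have e : ∀ b : ℕ, (qf G).coeff (b : ℚ) = (qe 1 G).coeff b := fun b => by
    rw [← coeff_qf one_ne_zero hG, Nat.cast_one, div_one]
  have h0 : qf G ≠ 0 := fun h0 => h (by rw [← e, h0]; rfl)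
  have h1 := HahnSeries.coeff_order_eq_zero.not.mpr h0
  obtain ⟨b, hb⟩ := lev_qf one_ne_zero hG _ h1
  rw [Nat.cast_one, div_one] at hb
  refine ⟨h0, le_antisymm (HahnSeries.order_le_of_coeff_ne_zero (by rwa [e])) ?_⟩
  rw [hb, e] at h1
  rw [hb, Nat.cast_le]
  exact not_lt.mp fun hl => h1 (h' b hl)

lemma vH0_jj : vH0 (qx jj) = exp 1 := by
  obtain ⟨h1, h2⟩ := order_qf_one isF_e4 (a := 0) (by rw [coeff_zero_e4]; exact one_ne_zero) (by simp)
  obtain ⟨h3, h4⟩ := order_qf_one isF_dl (a := 1) (by rw [coeff_one_dl]; exact one_ne_zero)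
    (fun b hb => by rw [Nat.lt_one_iff.mp hb, coeff_zero_dl])
  rw [jj, qx_quo one_ne_zero isF_e4_cube isF_dl, qf_pow one_ne_zero isF_e4, map_div₀, map_pow,
    vH0_apply h1, vH0_apply h3, h2, h4, ← exp_nsmul, ← exp_sub]
  simp

lemma qx_T_zpow (h : ℤ) (y : FF) : qx ((TT ^ h)⁻¹ • y) = tw (ee h) (qx y) := by
  have t : ∀ i j, ((Mf.sq (TT ^ h) : GQ) : GL (Fin 2) ℚ) i j = (!![1, h; 0, 1] i j : ℤ) := fun i j => by
    rw [Mf.sq_apply, ← ModularGroup.coe_T_zpow]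
  rw [sl_smul, map_inv, qx_upper (by rw [t]; simp), t, t, t]
  simp [sc_one]

/-- the order at the cusp `g ∞` -/
def vG (Γ₀ : Subgroup SL(2, ℤ)) (g : SL(2, ℤ)) : Valuation (F Γ₀) (WithZero (Multiplicative ℚ)) :=
  vH0.comap (qx.comp ((MulSemiringAction.toRingHom SL(2, ℤ) FF g⁻¹).comp (F Γ₀).val.toRingHom))

variable {Γ₀ : Subgroup SL(2, ℤ)}

lemma vG_apply (g : SL(2, ℤ)) (f : F Γ₀) : vG Γ₀ g f = vH0 (qx (g⁻¹ • (f : FF))) := rfl

lemma vG_xK (g : SL(2, ℤ)) : vG Γ₀ g (xK ℂ (F Γ₀)) = exp 1 := by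
  rw [vG_apply, coe_xK, sl_smul_jj, vH0_jj]

lemma vG_const (g : SL(2, ℤ)) (c : ℂ) (hc : c ≠ 0) : vG Γ₀ g (algebraMap ℂ _ c) = 1 := by
  rw [vG_apply, coe_algebraMap_F, sl_smul_algebraMap_C, qx_algebraMap,
    vH0_apply (HahnSeries.C_ne_zero hc), HahnSeries.order_C, neg_zero, exp_zero]

lemma one_lt_exp_one : (1 : WithZero (Multiplicative ℚ)) < exp 1 := by
  rw [← exp_zero, exp_lt_exp]; exact zero_lt_one

lemma exists_plc [Γ₀.FiniteIndex] (g : SL(2, ℤ)) : ∃ P : Pl ℂ (F Γ₀), P.v.IsEquiv (vG Γ₀ g) :=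
  exists_place _ (vG_const g) ⟨xK ℂ (F Γ₀), by rw [vG_xK]; exact ⟨exp_ne_zero, one_lt_exp_one.ne'⟩⟩

lemma one_lt_of_isEquiv {g : SL(2, ℤ)} {P : Pl ℂ (F Γ₀)} (h : P.v.IsEquiv (vG Γ₀ g)) :
    1 < P.v (xK ℂ (F Γ₀)) := by
  rw [← not_le, h.le_one_iff_le_one, not_le, vG_xK]; exact one_lt_exp_one

/-- exhaustion: the poles of `j` are the cusps -/
theorem exists_isEquiv_vG [Γ₀.FiniteIndex] (P : Pl ℂ (F Γ₀)) (h : 1 < P.v (xK ℂ (F Γ₀))) :
    ∃ g, P.v.IsEquiv (vG Γ₀ g) := by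
  let N := Γ₀.normalCore
  have : Fact (N ≤ Γ₀) := ⟨Γ₀.normalCore_le⟩
  obtain ⟨Q, hQ⟩ := above_nonempty (L := F N) P
  rw [mem_above] at hQ
  subst hQ
  obtain ⟨Q₀, h₀⟩ := exists_plc (Γ₀ := N) 1
  have e : ∀ R : Pl ℂ (F N), 1 < R.v (xK ℂ (F N)) → (under (RatFunc ℂ) R).v.IsEquiv _ := fun R hR =>
    isEquiv_vinf _ (under (RatFunc ℂ) R).const (by rwa [← not_le, under_le_one_iff, not_le])
  obtain ⟨σ, hσ⟩ := exists_mapPl_eq (K := RatFunc ℂ) (Q := Q₀) (Q' := Q)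
    (eq_of_isEquiv (e _ (one_lt_of_isEquiv h₀)) (e _ (by
      rwa [← not_le, under_le_one_iff, not_le, xK, ← IsScalarTower.algebraMap_apply] at h)))
  obtain ⟨γ, rfl⟩ := act_surjective N σ
  refine ⟨γ, Valuation.isEquiv_of_val_le_one fun {f} => ?_⟩
  have e2 : (((act N γ).restrictScalars ℂ).symm (algebraMap (F Γ₀) (F N) f) : FF) = γ⁻¹ • (f : FF) := by
    rw [← coe_algebraMap_FF Γ₀ N, ← coe_act, map_inv]; rfl
  rw [under_le_one_iff, ← hσ, mapPl_v, h₀.le_one_iff_le_one, vG_apply, vG_apply, e2, inv_one, one_smul]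

/-- orders at a cusp -/
theorem divf_of_isEquiv [Γ₀.FiniteIndex] {g : SL(2, ℤ)} {P : Pl ℂ (F Γ₀)}
    (h : P.v.IsEquiv (vG Γ₀ g)) {f : F Γ₀} (hf : f ≠ 0) :
    ((log (P.v (xK ℂ (F Γ₀))) : ℤ) : ℚ) * (qx (g⁻¹ • (f : FF))).order = divf (k := ℂ) f P := by
  have h1 := one_lt_of_isEquiv h
  have h0 : P.v (xK ℂ (F Γ₀)) ≠ 0 := (zero_lt_one.trans h1).ne'
  have h2 : P.v (f ^ log (P.v (xK ℂ (F Γ₀))) * xK ℂ (F Γ₀) ^ divf (k := ℂ) f P) = 1 := by
    rw [map_mul, map_zpow₀, map_zpow₀, v_eq hf]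
    conv_lhs => enter [2, 1]; rw [← exp_log h0]
    rw [← exp_zsmul, ← exp_zsmul, ← exp_add, ← exp_zero]
    congr 1; simp [mul_comm]
  rw [h.eq_one_iff_eq_one, map_mul, map_zpow₀, map_zpow₀, vG_xK, vG_apply, vH0_apply
    ((map_ne_zero qx).mpr ((smul_ne_zero_iff_ne _).mpr fun h => hf (Subtype.ext h))),
    ← exp_zsmul, ← exp_zsmul, ← exp_add, ← exp_zero, exp_inj] at h2
  simp only [zsmul_eq_mul] at h2
  linear_combination -h2

/-- the ramification index of a cusp is a multiple of its width -/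
theorem mem_pm_of_isEquiv (hΓ : IsCongruenceSubgroup Γ₀) {g : SL(2, ℤ)} {P : Pl ℂ (F Γ₀)}
    (h : P.v.IsEquiv (vG Γ₀ g)) : g * TT ^ log (P.v (xK ℂ (F Γ₀))) * g⁻¹ ∈ pm Γ₀ := by
  have := hΓ.finiteIndex
  let N := Γ₀.normalCore
  have : Fact (N ≤ Γ₀) := ⟨Γ₀.normalCore_le⟩
  obtain ⟨Q, hQ⟩ := exists_plc (Γ₀ := N) g
  set δ := g * TT ^ log (P.v (xK ℂ (F Γ₀))) * g⁻¹ with hδ
  refine (pm Γ₀).inv_mem_iff.mp ((fix_iff hΓ _).mp fun x hx => ?_)
  have key := fix_of_tame Q (algebraMap (F Γ₀) (F N)) (act N δ⁻¹).toRingHom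
    (fun c => ((act N δ⁻¹).restrictScalars ℂ).commutes c)
    (fun c => (IsScalarTower.algebraMap_apply _ _ _ c).symm)
    (fun u hu => R013.GR2_921.exists_const Q hu.le) (fun y hy => ?_) (j := xK ℂ (F Γ₀))
    (by rw [xK, ← IsScalarTower.algebraMap_apply]; exact (act N δ⁻¹).commutes _)
    (by rw [xK, ← IsScalarTower.algebraMap_apply]; exact one_lt_of_isEquiv hQ) ⟨x, hx⟩
  · have h1 := coe_act N δ⁻¹ (algebraMap (F Γ₀) (F N) ⟨x, hx⟩)
    rw [coe_algebraMap_FF] at h1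
    rw [← h1]
    exact congrArg Subtype.val key
  · rw [hQ.lt_iff_lt, vG_apply, vG_apply, AddSubgroupClass.coe_sub _ (algebraMap (F Γ₀) (F N) y)]
    change vH0 (qx (g⁻¹ • (δ⁻¹ • (y : FF) - y))) < vH0 (qx (g⁻¹ • (y : FF)))
    rw [smul_sub, ← mul_smul, show g⁻¹ * δ⁻¹ = (TT ^ log (P.v (xK ℂ (F Γ₀))))⁻¹ * g⁻¹ by
      rw [hδ]; group, mul_smul, map_sub, qx_T_zpow]
    exact vH0_tw ((map_ne_zero qx).mpr ((smul_ne_zero_iff_ne _).mpr fun h => hy (Subtype.ext h)))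
      (divf_of_isEquiv h hy)

/-- **the places at the cusps** -/
theorem exists_cusp (hΓ : IsCongruenceSubgroup Γ₀) [Γ₀.FiniteIndex] (P : Pl ℂ (F Γ₀))
    (h : 1 < P.v (xK ℂ (F Γ₀))) : ∃ (g : SL(2, ℤ)) (e : ℤ), g * TT ^ e * g⁻¹ ∈ pm Γ₀ ∧
      ∀ f : F Γ₀, f ≠ 0 → (e : ℚ) * (qx (g⁻¹ • (f : FF))).order = divf (k := ℂ) f P := by
  obtain ⟨g, hg⟩ := exists_isEquiv_vG P h
  exact ⟨g, _, mem_pm_of_isEquiv hΓ hg, fun f hf => divf_of_isEquiv hg hf⟩

variable {n : ℕ} [NeZero n]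

/-- **the divisor of a parabolic Kummer function is divisible by `n`** -/
theorem IsK.dvd_divf (hΓ : IsCongruenceSubgroup Γ₀) [Γ₀.FiniteIndex] (h4 : Γ₀ ≤ Gamma1 4) {f : F Γ₀}
    {φ : HH (Γ₀.map Mf.sq) (ZMod n)} (hK : IsK n (Γ₀.map Mf.sq) (f : FF) φ) (hp : ParS Γ₀ φ)
    (P : Pl ℂ (F Γ₀)) : (n : ℤ) ∣ divf (k := ℂ) f P := by
  rcases le_or_gt (P.v (xK ℂ (F Γ₀))) 1 with h | h
  · exact hK.dvd_divf_fin h4 P h
  obtain ⟨g, e, h1, h2⟩ := exists_cusp hΓ P h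
  obtain ⟨m, hm⟩ := hK.parS_iff.mp hp g e h1
  rw [h2 f fun h => hK.ne (by rw [h]; rfl)] at hm
  exact ⟨m, by exact_mod_cast hm⟩

/-- the ramification index of a cusp divides every period -/
theorem dvd_of_mem_pm {g : SL(2, ℤ)} {P : Pl ℂ (F Γ₀)} [Γ₀.FiniteIndex]
    (h : P.v.IsEquiv (vG Γ₀ g)) {a : ℤ} (ha : g * TT ^ a * g⁻¹ ∈ pm Γ₀) :
    log (P.v (xK ℂ (F Γ₀))) ∣ a := by
  obtain ⟨t, ht⟩ := P.surj (exp (-1))
  have h0 : t ≠ 0 := fun h => exp_ne_zero (by rw [← ht, h, map_zero])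
  have h1 := divf_of_isEquiv h h0
  rw [v_eq (k := ℂ) h0, exp_inj, neg_inj] at ht
  have hK : IsK 1 (Γ₀.map Mf.sq) ((t : FF) ^ 1) 0 := IsK.of_fixed (fun h => h0 (Subtype.ext h))
    (by rintro _ ⟨γ, hγ, rfl⟩; exact t.2 γ hγ)
  obtain ⟨m, hm⟩ := hK.parS_iff.mp (fun _ _ _ => val_zero _) g a ha
  rw [pow_one] at hm
  rw [ht] at h1
  refine ⟨m, Int.cast_injective (α := ℚ) ?_⟩
  push_cast at h1 hm ⊢
  linear_combination (-a : ℚ) * h1 + ((log (P.v (xK ℂ (F Γ₀))) : ℤ) : ℚ) * hm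

omit [NeZero n] in
theorem ck_of_dvd [Γ₀.FiniteIndex] {f : F Γ₀} (hf : f ≠ 0)
    (h : ∀ P : Pl ℂ (F Γ₀), 1 < P.v (xK ℂ (F Γ₀)) → (n : ℤ) ∣ divf (k := ℂ) f P) :
    CK n Γ₀ (f : FF) := fun g a ha => by
  obtain ⟨P, hP⟩ := exists_plc (Γ₀ := Γ₀) g
  obtain ⟨b, rfl⟩ := dvd_of_mem_pm hP ha
  obtain ⟨m, hm⟩ := h P (one_lt_of_isEquiv hP)
  have := divf_of_isEquiv hP hf
  rw [hm] at this
  exact ⟨m * b, by push_cast at this ⊢; linear_combination (b : ℚ) * this⟩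

/-- a function whose divisor is divisible by `n` is a parabolic Kummer function -/
theorem exists_parS_of_dvd [Γ₀.FiniteIndex] (h4 : Γ₀ ≤ Gamma1 4) {f : F Γ₀} (hf : f ≠ 0)
    (h : ∀ P : Pl ℂ (F Γ₀), (n : ℤ) ∣ divf (k := ℂ) f P) :
    ∃ φ, IsK n (Γ₀.map Mf.sq) (f : FF) φ ∧ ParS Γ₀ φ := by
  obtain ⟨φ, hφ⟩ := exists_isK_of_dvd h4 hf fun P _ => h P
  exact ⟨φ, hφ, hφ.parS_iff.mpr (ck_of_dvd hf fun P _ => h P)⟩

end Crest.Agent.T15.Bet
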