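import Crest.Agent.T15.BetCus_91
import Crest.Agent.R013.GR2_921

/-!
# T15 / BetPl (helper91): the places of `F Γ` above finite values of `j`

`plz hΓ z : Pl ℂ (F Γ)` (`Γ ≤ Γ₁(4)`), `exists_plz` (exhaustion), `IsK.dvd_divf`.
-/

set_option autoImplicit false

noncomputable section

namespace Crest.Agent.T15.Bet

open UpperHalfPlane hiding I
open CongruenceSubgroup WithZero Polynomial
open scoped MatrixGroups
open Crest.Agent.T15.Mf Crest.Agent.T15.Hk Crest.Agent.T15.Hs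
open Crest.Agent.R007 Crest.Agent.R007.Rat
open Crest.Agent.R013.RR7_948 Crest.Agent.R013.RR8_948 Crest.Agent.R013.RR11_948
open Crest.Agent.R013.RR18_948 Crest.Agent.R013.RR21_948 Crest.Agent.R013.RR22_948

/-- the place `X = c` of the rational function field -/
lemma ratFunc_le_one {k : Type*} [Field k] (P : Pl k (RatFunc k)) {c : k}
    (hc : P.v (RatFunc.X - algebraMap k _ c) < 1) (a : RatFunc k) :
    P.v a ≤ 1 ↔ a.denom.eval c ≠ 0 := by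
  have hC : ∀ b : k, algebraMap k[X] (RatFunc k) (C b) = algebraMap k _ b := fun b => rfl
  have h0 : ∀ b : k, P.v (algebraMap k _ b) ≤ 1 := fun b => by
    rcases eq_or_ne b 0 with rfl | hb
    · simp
    · exact (P.const b hb).le
  have h1 : ∀ p : k[X], P.v (algebraMap k[X] _ p) ≤ 1 := le_one_poly P.v h0 (by
    rw [RatFunc.algebraMap_X, ← sub_add_cancel RatFunc.X (algebraMap k _ c)]
    exact P.v.map_add_le hc.le (h0 c))
  have h2 : ∀ p : k[X], P.v (algebraMap k[X] _ p - algebraMap k _ (p.eval c)) < 1 := fun p => by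
    obtain ⟨q, hq⟩ := X_sub_C_dvd_sub_C_eval (a := c) (p := p)
    rw [← hC, ← map_sub, hq, map_mul, map_mul, map_sub, RatFunc.algebraMap_X, hC]
    exact mul_lt_one_of_lt_of_le hc (h1 q)
  have h3 : ∀ p : k[X], p.eval c ≠ 0 → P.v (algebraMap k[X] _ p) = 1 := fun p hp => by
    rw [← P.const _ hp]
    exact P.v.map_eq_of_sub_lt (by rw [P.const _ hp]; exact h2 p)
  have hd : P.v (algebraMap k[X] _ a.denom) ≠ 0 :=
    (Valuation.ne_zero_iff _).mpr (RatFunc.algebraMap_ne_zero a.denom_ne_zero)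
  conv_lhs => rw [← a.num_div_denom, map_div₀, div_le_one₀ (zero_lt_iff.mpr hd)]
  refine ⟨fun h hd0 => ?_, fun h => by rw [h3 _ h]; exact h1 _⟩
  have h4 := h2 a.denom
  rw [hd0, map_zero, sub_zero] at h4
  obtain ⟨u, w, e⟩ := a.isCoprime_num_denom
  have h5 := congrArg (eval c) e
  rw [eval_add, eval_mul, eval_mul, hd0, mul_zero, add_zero, eval_one] at h5
  rw [h3 _ (right_ne_zero_of_mul_eq_one h5)] at h
  exact h.not_gt h4

variable {Γ₀ : Subgroup SL(2, ℤ)}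

/-- the order of vanishing at `z` -/
def vF (Γ₀ : Subgroup SL(2, ℤ)) (z : ℍ) : Valuation (F Γ₀) ℤᵐ⁰ :=
  (vM z).comap (FF.val.toRingHom.comp (F Γ₀).val.toRingHom)

lemma vF_apply (z : ℍ) (f : F Γ₀) : vF Γ₀ z f = vM z ((f : FF) : Mer) := rfl

/-- the place of `F Γ₀` at `z` -/
def plz (hΓ : Γ₀ ≤ Gamma1 4) (z : ℍ) : Pl ℂ (F Γ₀) where
  v := vF Γ₀ z
  const _ hc := vM_const z hc
  surj a := by
    rcases eq_or_ne a 0 with rfl | ha
    · exact ⟨0, map_zero _⟩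
    · obtain ⟨x, h1, h2⟩ := exists_unif z
      refine ⟨(⟨x, fun γ hγ => h1 γ (hΓ hγ)⟩ : F Γ₀) ^ (-log a), ?_⟩
      rw [map_zpow₀, vF_apply, h2, ← exp_zsmul, smul_eq_mul, neg_mul_neg, mul_one, exp_log ha]

lemma plz_v (hΓ : Γ₀ ≤ Gamma1 4) (z : ℍ) (f : F Γ₀) : (plz hΓ z).v f = vM z ((f : FF) : Mer) := rfl

lemma coe_xK : ((xK ℂ (F Γ₀) : F Γ₀) : FF) = jj := algebraMap_X

lemma vM_jj_sub {z : ℍ} {c : ℂ} :
    vM z ((jj - algebraMap ℂ FF c : FF) : Mer) < 1 ↔ e4 z ^ 3 = c * dl z := by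
  have e : jj - algebraMap ℂ FF c = quo (e4 ^ 3 - c • dl) dl := by
    rw [sub_eq_iff_eq_add, jj]
    apply Subtype.ext
    have h1 := isF_e4_cube.sub (isF_dl.smul c)
    have h2 := mer_ne_zero isF_dl.holo dl_ne_zero
    rw [AddMemClass.coe_add, coe_quo one_ne_zero isF_e4_cube isF_dl, coe_quo one_ne_zero h1 isF_dl,
      mer_sub isF_e4_cube.holo (isF_dl.smul c).holo, mer_smul isF_dl.holo]
    change _ = _ + algebraMap ℂ Mer c
    field_simp
    ring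
  have h1 := isF_e4_cube.sub (isF_dl.smul c)
  rw [e, coe_quo one_ne_zero h1 isF_dl, map_div₀, (vM_mer_eq_one isF_dl.holo).mpr (Mf.dl_ne z),
    div_one, vM_mer_lt_one h1.holo]
  simp [sub_eq_zero]

lemma vM_jj_le (z : ℍ) : vM z (jj : Mer) ≤ 1 := by
  rw [jj, coe_quo one_ne_zero isF_e4_cube isF_dl, map_div₀,
    (vM_mer_eq_one isF_dl.holo).mpr (Mf.dl_ne z), div_one]
  exact vM_mer_le z isF_e4_cube.holo

/-- **every place at which `j` is finite is a point of the upper half plane** -/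
theorem exists_plz [Γ₀.FiniteIndex] (hΓ : Γ₀ ≤ Gamma1 4) (P : Pl ℂ (F Γ₀))
    (h : P.v (xK ℂ (F Γ₀)) ≤ 1) : ∃ z, P = plz hΓ z := by
  let N := Γ₀.normalCore
  have : Fact (N ≤ Γ₀) := ⟨Γ₀.normalCore_le⟩
  have hN : N ≤ Gamma1 4 := Γ₀.normalCore_le.trans hΓ
  obtain ⟨Q, hQ⟩ := above_nonempty (L := F N) P
  rw [mem_above] at hQ
  subst hQ
  obtain ⟨c, hc⟩ := R013.GR2_921.exists_const _ h
  obtain ⟨z, hz⟩ := j_onto c
  have e : ∀ R : Pl ℂ (F N), (under (RatFunc ℂ) R).v (RatFunc.X - algebraMap ℂ _ c) < 1 ↔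
      R.v (xK ℂ (F N) - algebraMap ℂ _ c) < 1 := fun R => by
    rw [under_lt_one_iff, map_sub, ← IsScalarTower.algebraMap_apply]; rfl
  have h1 := (e (plz hN z)).mpr (by
    rw [plz_v, AddSubgroupClass.coe_sub (xK ℂ (F N)), coe_xK, coe_algebraMap_F]
    exact vM_jj_sub.mpr hz)
  have h2 := (e Q).mpr (by
    rwa [under_lt_one_iff, map_sub, ← IsScalarTower.algebraMap_apply, xK,
      ← IsScalarTower.algebraMap_apply] at hc)
  obtain ⟨σ, hσ⟩ := exists_mapPl_eq (K := RatFunc ℂ) (Q := plz hN z) (Q' := Q)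
    (pl_eq_of_le fun f => by rw [ratFunc_le_one _ h1, ratFunc_le_one _ h2]; exact id)
  obtain ⟨γ, rfl⟩ := act_surjective N σ
  refine ⟨rr (Mf.sq γ) • z, pl_eq_of_le fun f hf => ?_⟩
  rw [under_le_one_iff, ← hσ, mapPl_v, plz_v] at hf
  rw [plz_v, ← vM_inv_smul, ← Mf.coe_smul, ← map_inv, ← sl_smul]
  have e2 : (((act N γ).restrictScalars ℂ).symm (algebraMap (F Γ₀) (F N) f) : FF) = γ⁻¹ • (f : FF) := by
    rw [← coe_algebraMap_FF Γ₀ N, ← coe_act, map_inv]; rfl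
  rwa [e2] at hf

variable {n : ℕ} [NeZero n]

/-- off the cusps the divisor of a Kummer function is divisible by `n` -/
theorem IsK.dvd_divf_fin [Γ₀.FiniteIndex] (hΓ : Γ₀ ≤ Gamma1 4) {f : F Γ₀}
    {φ : HH (Γ₀.map Mf.sq) (ZMod n)} (hK : IsK n (Γ₀.map Mf.sq) (f : FF) φ) (P : Pl ℂ (F Γ₀))
    (h : P.v (xK ℂ (F Γ₀)) ≤ 1) : (n : ℤ) ∣ divf (k := ℂ) f P := by
  obtain ⟨z, rfl⟩ := exists_plz hΓ P h
  have h0 : f ≠ 0 := fun h => hK.ne (by rw [h]; rfl)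
  have := hK.dvd z
  rwa [← plz_v hΓ, v_eq h0, log_exp, dvd_neg] at this

theorem exists_isK_of_dvd [Γ₀.FiniteIndex] (hΓ : Γ₀ ≤ Gamma1 4) {f : F Γ₀} (h0 : f ≠ 0)
    (h : ∀ P : Pl ℂ (F Γ₀), P.v (xK ℂ (F Γ₀)) ≤ 1 → (n : ℤ) ∣ divf (k := ℂ) f P) :
    ∃ φ, IsK n (Γ₀.map Mf.sq) (f : FF) φ :=
  exists_isK (fun h => h0 (Subtype.ext h)) (by rintro _ ⟨γ, hγ, rfl⟩; exact f.2 γ hγ) fun z => by
    rw [← plz_v hΓ, v_eq h0, log_exp, dvd_neg]
    exact h _ (by rw [plz_v, coe_xK]; exact vM_jj_le z)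

end Crest.Agent.T15.Bet
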