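import Mathlib

/-!
# T15 / BetPoi (helper91): Poincaré series with a unitary character

For every subgroup `Γ ≤ SL(2,ℤ)` and every unitary character `χ` of `Γ` (trivial on `-1`) there is a
non-zero holomorphic `P` of weight `12 m` with `P ∣ γ = χ(γ) P`, bounded at all cusps:
`P z = ∑_{γ ∈ Γ} χ(γ)⁻¹ (a z + b + 2 i (c z + d))^(-12 m)`, `m` large.
-/

set_option autoImplicit false

noncomputable section

namespace Crest.Agent.T15.Bet

open UpperHalfPlane hiding I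
open ModularForm Complex Filter Topology EisensteinSeries
open scoped MatrixGroups Manifold

/-- the linear form of `γ` -/
def Lf (γ : SL(2, ℤ)) (z : ℂ) : ℂ :=
  ((γ 0 0 : ℤ) * z + (γ 0 1 : ℤ)) + 2 * I * ((γ 1 0 : ℤ) * z + (γ 1 1 : ℤ))

lemma det_real (γ : SL(2, ℤ)) :
    ((γ 0 0 : ℤ) : ℝ) * (γ 1 1 : ℤ) - (γ 0 1 : ℤ) * (γ 1 0 : ℤ) = 1 := by
  have h := γ.det_coe
  rw [Matrix.det_fin_two] at h
  exact_mod_cast h

lemma Lf_smul (γ δ : SL(2, ℤ)) (z : ℍ) :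
    Lf γ ((δ • z : ℍ) : ℂ) * denom δ z = Lf (γ * δ) z := by
  have hd : denom δ z = (δ 1 0 : ℤ) * (z : ℂ) + (δ 1 1 : ℤ) := by
    simp [denom]
  have hz : ((δ • z : ℍ) : ℂ) * denom δ z = (δ 0 0 : ℤ) * (z : ℂ) + (δ 0 1 : ℤ) := by
    have h0 := denom_ne_zero δ z
    rw [hd] at h0
    rw [coe_specialLinearGroup_apply, hd]
    simp only [eq_intCast, ofReal_intCast]
    rw [div_mul_cancel₀ _ h0]
  have e : ∀ i j, (γ * δ) i j = γ i 0 * δ 0 j + γ i 1 * δ 1 j := by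
    intro i j
    simp [Matrix.mul_apply, Fin.sum_univ_two]
  simp only [Lf, e]
  push_cast
  rw [hd] at hz ⊢
  linear_combination ((γ 0 0 : ℤ) + 2 * I * (γ 1 0 : ℤ) : ℂ) * hz

lemma row_ne (γ : SL(2, ℤ)) (i : Fin 2) : (γ i : Fin 2 → ℤ) ≠ 0 := by
  intro h
  have h0 : γ i 0 = 0 := congrFun h 0
  have h1 : γ i 1 = 0 := congrFun h 1
  have := det_real γ
  fin_cases i <;> simp_all

lemma one_le_row (γ : SL(2, ℤ)) (i : Fin 2) : 1 ≤ ‖(γ i : Fin 2 → ℤ)‖ := by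
  have h := row_ne γ i
  rw [EisensteinSeries.norm_eq_max_natAbs]
  by_contra hc
  push Not at hc
  have h2 : max (γ i 0).natAbs (γ i 1).natAbs < 1 := by exact_mod_cast hc
  apply h
  ext j
  fin_cases j <;> simp <;> omega

lemma sq_Lf (γ : SL(2, ℤ)) (z : ℍ) :
    r z ^ 2 * (‖(γ 0 : Fin 2 → ℤ)‖ * ‖(γ 1 : Fin 2 → ℤ)‖) ≤ ‖Lf γ z‖ ^ 2 := by
  set u : ℂ := (γ 0 0 : ℤ) * (z : ℂ) + (γ 0 1 : ℤ) with hu
  set v : ℂ := (γ 1 0 : ℤ) * (z : ℂ) + (γ 1 1 : ℤ) with hv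
  have h1 : r z * ‖(γ 0 : Fin 2 → ℤ)‖ ≤ ‖u‖ := r_mul_max_le z (row_ne γ 0)
  have h2 : r z * ‖(γ 1 : Fin 2 → ℤ)‖ ≤ ‖v‖ := r_mul_max_le z (row_ne γ 1)
  have hr := r_pos z
  have h3 : r z ^ 2 * (‖(γ 0 : Fin 2 → ℤ)‖ * ‖(γ 1 : Fin 2 → ℤ)‖) ≤ ‖u‖ * ‖v‖ := by
    calc _ = (r z * ‖(γ 0 : Fin 2 → ℤ)‖) * (r z * ‖(γ 1 : Fin 2 → ℤ)‖) := by ring
      _ ≤ _ := mul_le_mul h1 h2 (by positivity) (norm_nonneg _)
  have him : u.im * v.re - u.re * v.im = z.im := by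
    have := det_real γ
    simp only [hu, hv, add_im, add_re, mul_im, mul_re, intCast_re, intCast_im, coe_re, coe_im]
    linear_combination z.im * this
  have h4 : ‖Lf γ z‖ ^ 2 = ‖u‖ ^ 2 + 4 * ‖v‖ ^ 2 + 4 * z.im := by
    have : Lf γ z = u + 2 * I * v := rfl
    rw [this, Complex.sq_norm, Complex.sq_norm, Complex.sq_norm, ← him]
    simp [normSq_apply]
    ring
  have := z.im_pos
  nlinarith [sq_nonneg (‖u‖ - ‖v‖), sq_nonneg ‖v‖, sq_nonneg ‖u‖]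

/-- summable weight -/
def wt (γ : SL(2, ℤ)) : ℝ := (‖(γ 0 : Fin 2 → ℤ)‖ * ‖(γ 1 : Fin 2 → ℤ)‖)⁻¹ ^ 3

lemma wt_nonneg (γ : SL(2, ℤ)) : 0 ≤ wt γ := by unfold wt; positivity

lemma summable_wt : Summable wt := by
  have h := summable_one_div_norm_rpow (k := 3) (by norm_num)
  have h2 := h.mul_of_nonneg h (fun _ => by positivity) (fun _ => by positivity)
  have hi : Function.Injective (fun γ : SL(2, ℤ) => ((γ 0 : Fin 2 → ℤ), (γ 1 : Fin 2 → ℤ))) := by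
    intro a b hab
    have h0 : (a 0 : Fin 2 → ℤ) = b 0 := congrArg Prod.fst hab
    have h1 : (a 1 : Fin 2 → ℤ) = b 1 := congrArg Prod.snd hab
    ext i j
    fin_cases i
    · exact congrFun h0 j
    · exact congrFun h1 j
  refine (h2.comp_injective hi).congr fun γ => ?_
  simp only [Function.comp, wt]
  rw [Real.rpow_neg (norm_nonneg _), Real.rpow_neg (norm_nonneg _)]
  rw [show (3 : ℝ) = ((3 : ℕ) : ℝ) by norm_num, Real.rpow_natCast, Real.rpow_natCast]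
  rw [mul_inv, mul_pow, inv_pow, inv_pow]

lemma Lf_ge (γ : SL(2, ℤ)) (z : ℍ) : r z ≤ ‖Lf γ z‖ := by
  have h := sq_Lf γ z
  have h0 := one_le_row γ 0
  have h1 := one_le_row γ 1
  have hr := r_pos z
  have : r z ^ 2 ≤ ‖Lf γ z‖ ^ 2 := le_trans (by nlinarith [sq_nonneg (r z), mul_le_mul h0 h1 zero_le_one (by linarith)]) h
  exact (pow_le_pow_iff_left₀ hr.le (norm_nonneg _) two_ne_zero).mp this

lemma Lf_ne (γ : SL(2, ℤ)) (z : ℍ) : Lf γ z ≠ 0 :=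
  norm_pos_iff.mp ((r_pos z).trans_le (Lf_ge γ z))

lemma term_le (γ : SL(2, ℤ)) (z : ℍ) {ρ : ℝ} (hρ : 0 < ρ) (hz : ρ ≤ r z) {k : ℕ} (hk : 6 ≤ k) :
    ‖(Lf γ z)⁻¹ ^ k‖ ≤ ρ⁻¹ ^ k * wt γ := by
  obtain ⟨j, rfl⟩ := Nat.exists_eq_add_of_le hk
  have h0 := one_le_row γ 0
  have h1 := one_le_row γ 1
  have hL : 0 < ‖Lf γ z‖ := (r_pos z).trans_le (Lf_ge γ z)
  have h2 : ‖Lf γ z‖⁻¹ ≤ ρ⁻¹ := inv_anti₀ hρ (hz.trans (Lf_ge γ z))
  have h3 : ‖Lf γ z‖⁻¹ ^ 2 ≤ ρ⁻¹ ^ 2 * (‖(γ 0 : Fin 2 → ℤ)‖ * ‖(γ 1 : Fin 2 → ℤ)‖)⁻¹ := by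
    rw [inv_pow, inv_pow, ← mul_inv]
    refine inv_anti₀ (by positivity) (le_trans ?_ (sq_Lf γ z))
    gcongr
  rw [norm_pow, norm_inv, pow_add, pow_add, wt]
  calc _ = (‖Lf γ z‖⁻¹ ^ 2) ^ 3 * ‖Lf γ z‖⁻¹ ^ j := by ring
    _ ≤ (ρ⁻¹ ^ 2 * (‖(γ 0 : Fin 2 → ℤ)‖ * ‖(γ 1 : Fin 2 → ℤ)‖)⁻¹) ^ 3 * ρ⁻¹ ^ j := by gcongr
    _ = _ := by ring

section series

variable {ι : Type*} (e : ι → SL(2, ℤ)) (c : ι → ℂ)

/-- the series -/
def ser (k : ℕ) (z : ℍ) : ℂ := ∑' i, c i * (Lf (e i) z)⁻¹ ^ k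

lemma ser_slash (k : ℕ) (g : SL(2, ℤ)) :
    (ser e c k) ∣[(k : ℤ)] g = ser (fun i => e i * g) c k := by
  ext z
  rw [SL_slash_apply, ser, ser, ← tsum_mul_right]
  refine tsum_congr fun i => ?_
  rw [← Lf_smul, mul_inv, mul_pow, zpow_neg, zpow_natCast, inv_pow (denom _ _), mul_assoc]

variable {e c}

lemma ser_term_le (hc : ∀ i, ‖c i‖ ≤ 1) (z : ℍ) {ρ : ℝ} (hρ : 0 < ρ) (hz : ρ ≤ r z) {k : ℕ}
    (hk : 6 ≤ k) (i : ι) : ‖c i * (Lf (e i) z)⁻¹ ^ k‖ ≤ ρ⁻¹ ^ k * wt (e i) := by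
  rw [norm_mul]
  exact (mul_le_of_le_one_left (norm_nonneg _) (hc i)).trans (term_le _ z hρ hz hk)

lemma ser_holo (he : Function.Injective e) (hc : ∀ i, ‖c i‖ ≤ 1) {k : ℕ} (hk : 6 ≤ k) :
    MDiff (ser e c k) := by
  intro τ
  rw [mdifferentiableAt_iff]
  have hB : 0 < τ.im / 2 := by have := τ.im_pos; positivity
  let U : Set ℂ := {z | |z.re| < |τ.re| + 1 ∧ τ.im / 2 < z.im}
  have hU : IsOpen U :=
    (isOpen_lt (continuous_abs.comp Complex.continuous_re) continuous_const).inter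
      (isOpen_lt continuous_const Complex.continuous_im)
  have hτ : (τ : ℂ) ∈ U := ⟨by simp, by simp only [coe_im]; linarith⟩
  set ρ := r ⟨⟨|τ.re| + 1, τ.im / 2⟩, hB⟩
  have hd : DifferentiableOn ℂ (fun z : ℂ => ∑' i, c i * (Lf (e i) z)⁻¹ ^ k) U := by
    refine differentiableOn_tsum_of_summable_norm
      ((summable_wt.comp_injective he).mul_left (ρ⁻¹ ^ k)) (fun i => ?_) hU (fun i w hw => ?_)
    · intro w hw
      have hw' : 0 < w.im := hB.trans hw.2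
      have : Lf (e i) w ≠ 0 := Lf_ne (e i) ⟨w, hw'⟩
      have hL : DifferentiableAt ℂ (Lf (e i)) w := by unfold Lf; fun_prop
      exact (((hL.inv this).pow k).const_mul _).differentiableWithinAt
    · have hw' : 0 < w.im := hB.trans hw.2
      exact ser_term_le hc ⟨w, hw'⟩ (r_pos _)
        (r_lower_bound_on_verticalStrip _ hB ⟨hw.1.le, hw.2.le⟩) hk i
  refine (hd.differentiableAt (hU.mem_nhds hτ)).congr_of_eventuallyEq ?_
  filter_upwards [hU.mem_nhds hτ] with w hw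
  have hw' : 0 < w.im := hB.trans hw.2
  simp only [Function.comp, ser, ofComplex_apply_of_im_pos hw']

lemma ser_bdd (he : Function.Injective e) (hc : ∀ i, ‖c i‖ ≤ 1) {k : ℕ} (hk : 6 ≤ k) :
    IsBoundedAtImInfty (ser e c k) := by
  rw [isBoundedAtImInfty_iff]
  set ρ := r ⟨⟨(1 : ℝ), (1 : ℝ)⟩, one_pos⟩
  refine ⟨ρ⁻¹ ^ k * ∑' γ, wt γ, 1, fun z hz => ?_⟩
  obtain ⟨n, hn⟩ := ModularGroup_T_zpow_mem_verticalStrip z (N := 1) one_pos
  set g : SL(2, ℤ) := ModularGroup.T ^ (((1 : ℕ) : ℤ) * n) with hg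
  have hden : denom g z = 1 := by
    rw [ModularGroup.denom_apply, hg, ModularGroup.coe_T_zpow]; simp
  have him : (g • z).im = z.im := by
    rw [ModularGroup.im_smul_eq_div_normSq, hden]; simp
  have hs : g • z ∈ verticalStrip 1 1 := ⟨by simpa using hn.1, by rw [him]; exact hz⟩
  have he' : Function.Injective (fun i => e i * g⁻¹) := fun a b h => he (mul_right_cancel h)
  have key : ∀ i, ‖c i * (Lf (e i) z)⁻¹ ^ k‖ ≤ ρ⁻¹ ^ k * wt (e i * g⁻¹) := by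
    intro i
    have h1 := Lf_smul (e i * g⁻¹) g z
    rw [hden, mul_one, inv_mul_cancel_right] at h1
    rw [← h1]
    exact ser_term_le (e := fun i => e i * g⁻¹) hc (g • z) (r_pos _)
      (r_lower_bound_on_verticalStrip _ one_pos hs) hk i
  have hsum : Summable fun i => wt (e i * g⁻¹) := summable_wt.comp_injective he'
  refine (tsum_of_norm_bounded (hsum.mul_left (ρ⁻¹ ^ k)).hasSum key).trans ?_
  rw [tsum_mul_left]
  have hρ : 0 < ρ := r_pos _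
  gcongr
  exact hsum.tsum_le_tsum_of_inj _ he' (fun γ _ => wt_nonneg γ) (fun _ => le_rfl) summable_wt

end series

/-- the base point `2 i` -/
def z2 : ℍ := ⟨2 * I, by simp⟩

lemma four_lt_Lf {γ : SL(2, ℤ)} (h1 : γ ≠ 1) (h2 : γ ≠ -1) : 4 < ‖Lf γ z2‖ := by
  have hdet : γ 0 0 * γ 1 1 - γ 0 1 * γ 1 0 = 1 := by exact_mod_cast det_real γ
  have hs : ‖Lf γ z2‖ ^ 2 = (((γ 0 1 + 4 * γ 1 0) ^ 2 + 4 * (γ 0 0 - γ 1 1) ^ 2 + 16 : ℤ) : ℝ) := by
    have := det_real γ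
    rw [Complex.sq_norm]
    simp [Lf, z2, normSq_apply]
    linear_combination 16 * this
  have hpos : 0 < (γ 0 1 + 4 * γ 1 0) ^ 2 + 4 * (γ 0 0 - γ 1 1) ^ 2 := by
    by_contra hc
    have ha : γ 0 1 + 4 * γ 1 0 = 0 := by nlinarith [sq_nonneg (γ 0 1 + 4 * γ 1 0), sq_nonneg (γ 0 0 - γ 1 1)]
    have hb : γ 0 0 - γ 1 1 = 0 := by nlinarith [sq_nonneg (γ 0 1 + 4 * γ 1 0), sq_nonneg (γ 0 0 - γ 1 1)]
    have hb' : γ 1 1 = γ 0 0 := by linarith
    have ha' : γ 0 1 = -4 * γ 1 0 := by linarith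
    rw [hb', ha'] at hdet
    have hc0 : γ 1 0 = 0 := by
      by_contra h0
      have := Int.one_le_abs h0
      nlinarith [sq_nonneg (γ 0 0), sq_abs (γ 1 0)]
    rw [hc0] at hdet ha'
    have : γ 0 0 = 1 ∨ γ 0 0 = -1 := Int.eq_one_or_neg_one_of_mul_eq_one (v := γ 0 0) (by linarith)
    rcases this with h | h
    · apply h1; ext i j; fin_cases i <;> fin_cases j <;> simp_all
    · apply h2; ext i j; fin_cases i <;> fin_cases j <;> simp_all
  have : (16 : ℝ) < ‖Lf γ z2‖ ^ 2 := by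
    rw [hs]; exact_mod_cast (by linarith)
  nlinarith [norm_nonneg (Lf γ z2)]

lemma Lf_one : Lf 1 z2 = 4 * I := by simp [Lf, z2]; ring

lemma Lf_neg_one : Lf (-1) z2 = -(4 * I) := by simp [Lf, z2]; ring

/-- **Poincaré series with a unitary character.** -/
theorem exists_poincare (Γ : Subgroup SL(2, ℤ)) (χ : Γ →* ℂˣ) (hχ : ∀ γ, ‖(χ γ : ℂ)‖ = 1)
    (hneg : ∀ h : (-1 : SL(2, ℤ)) ∈ Γ, χ ⟨-1, h⟩ = 1) :
    ∃ (m : ℕ) (P : ℍ → ℂ), MDiff P ∧ P ≠ 0 ∧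
      (∀ γ : Γ, P ∣[((12 * m : ℕ) : ℤ)] (γ : SL(2, ℤ)) = (χ γ : ℂ) • P) ∧
      ∀ g : SL(2, ℤ), IsBoundedAtImInfty (P ∣[((12 * m : ℕ) : ℤ)] g) := by
  classical
  let c : Γ → ℂ := fun γ => ((χ γ)⁻¹ : ℂˣ)
  have hc : ∀ γ, ‖c γ‖ ≤ 1 := fun γ => by simp [c, hχ]
  let e : Γ → SL(2, ℤ) := Subtype.val
  have he : Function.Injective e := Subtype.val_injective
  -- non-vanishing
  have hlim : Tendsto (fun m : ℕ => ∑' γ : Γ, c γ * (4 * I * (Lf (e γ) z2)⁻¹) ^ (12 * (m + 1))) atTop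
      (𝓝 (∑' γ : Γ, if e γ = 1 ∨ e γ = -1 then (1 : ℂ) else 0)) := by
    refine tendsto_tsum_of_dominated_convergence
      (bound := fun γ => 4 ^ 6 * ((r z2)⁻¹ ^ 6 * wt (e γ)))
      (((summable_wt.comp_injective he).mul_left _).mul_left _) (fun γ => ?_) (.of_forall fun m γ => ?_)
    · split_ifs with h
      · refine tendsto_const_nhds.congr fun m => ?_
        rcases h with h | h
        · have : γ = 1 := Subtype.ext h
          rw [h, Lf_one, mul_inv_cancel₀ (by simp), this]; simp [c]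
        · have : γ = ⟨-1, h ▸ γ.2⟩ := Subtype.ext h
          rw [h, Lf_neg_one, inv_neg, mul_neg, mul_inv_cancel₀ (by simp), pow_mul, this]
          simp only [c, hneg]; norm_num
      · push Not at h
        have h4 := four_lt_Lf h.1 h.2
        have : ‖4 * I * (Lf (e γ) z2)⁻¹‖ < 1 := by
          rw [norm_mul, norm_inv, mul_inv_lt_iff₀ (by linarith)]; simpa using h4
        have h5 := (tendsto_pow_atTop_nhds_zero_of_norm_lt_one this).comp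
          (tendsto_atTop_mono (f := fun m : ℕ => m) (g := fun m : ℕ => 12 * (m + 1))
            (fun m => by omega) tendsto_id)
        simpa using h5.const_mul (c γ)
    · have h1 : ‖4 * I * (Lf (e γ) z2)⁻¹‖ ≤ 1 := by
        by_cases h : e γ = 1 ∨ e γ = -1
        · rcases h with h | h
          · rw [h, Lf_one, mul_inv_cancel₀ (by simp)]; simp
          · rw [h, Lf_neg_one, inv_neg, mul_neg, mul_inv_cancel₀ (by simp)]; simp
        · push Not at h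
          have h4 := four_lt_Lf h.1 h.2
          rw [norm_mul, norm_inv, mul_inv_le_iff₀ (by linarith)]; simpa using h4.le
      rw [norm_mul, norm_pow]
      refine (mul_le_of_le_one_left (by positivity) (hc γ)).trans ?_
      refine (pow_le_pow_of_le_one (norm_nonneg _) h1 (show 6 ≤ 12 * (m + 1) by omega)).trans ?_
      have := term_le (e γ) z2 (r_pos z2) le_rfl (le_refl 6)
      rw [norm_pow] at this
      rw [norm_mul, mul_pow]
      gcongr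
      simp
  have hne : (∑' γ : Γ, if e γ = 1 ∨ e γ = -1 then (1 : ℂ) else 0) ≠ 0 := by
    have hs : Summable fun γ : Γ => if e γ = 1 ∨ e γ = -1 then (1 : ℝ) else 0 := by
      refine summable_of_hasFiniteSupport ?_
      refine (((Set.finite_singleton (-1 : SL(2, ℤ))).insert 1).preimage he.injOn).subset ?_
      intro γ hγ
      by_contra h
      simp only [Set.mem_preimage, Set.mem_insert_iff, Set.mem_singleton_iff] at h
      simp [h] at hγ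
    have hp := hs.tsum_pos (fun γ => by split_ifs <;> norm_num) 1 (by simp [e])
    have : (∑' γ : Γ, if e γ = 1 ∨ e γ = -1 then (1 : ℂ) else 0) =
        ((∑' γ : Γ, if e γ = 1 ∨ e γ = -1 then (1 : ℝ) else 0 : ℝ) : ℂ) := by
      rw [ofReal_tsum]
      refine tsum_congr fun γ => ?_
      split_ifs <;> simp
    rw [this]
    exact_mod_cast hp.ne'
  obtain ⟨m, hm⟩ := (hlim.eventually_ne hne).exists
  have hk : 6 ≤ 12 * (m + 1) := by omega
  refine ⟨m + 1, ser e c (12 * (m + 1)), ser_holo he hc hk, fun h0 => hm ?_, fun δ => ?_, fun g => ?_⟩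
  · have : ser e c (12 * (m + 1)) z2 = 0 := congrFun h0 z2
    rw [← mul_zero ((4 * I) ^ (12 * (m + 1))), ← this, ser, ← tsum_mul_left]
    refine tsum_congr fun γ => ?_
    rw [mul_pow]; ring
  · rw [ser_slash]
    ext z
    rw [Pi.smul_apply, smul_eq_mul, ser, ser, ← tsum_mul_left, ← (Equiv.mulRight δ).tsum_eq
      (fun γ => (χ δ : ℂ) * (c γ * (Lf (e γ) z)⁻¹ ^ (12 * (m + 1))))]
    refine tsum_congr fun γ => ?_
    simp only [Equiv.coe_mulRight, c, e, map_mul, Subgroup.coe_mul, mul_inv, Units.val_mul]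
    have : (χ δ : ℂ) * ((χ δ)⁻¹ : ℂˣ) = 1 := (χ δ).mul_inv
    linear_combination (-((χ γ)⁻¹ : ℂˣ) * (Lf (γ * δ) z)⁻¹ ^ (12 * (m + 1)) : ℂ) * this
  · rw [ser_slash]
    exact ser_bdd (fun a b h => he (mul_right_cancel h)) hc hk

end Crest.Agent.T15.Bet
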