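import Mathlib

/-!
# T15 / BetRoot (helper91): `n`-th roots of holomorphic functions on the upper half plane

`ordH f z` is the order of vanishing of `f : ℍ → ℂ` at `z`.  `exists_root` : a holomorphic function
all of whose orders are divisible by `n` is the `n`-th power of a holomorphic function.
-/

set_option autoImplicit false

noncomputable section

namespace Crest.Agent.T15.Bet

open UpperHalfPlane hiding I
open Complex Filter Topology Metric
open scoped MatrixGroups Manifold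

/-- root of a function without zeros on a disc -/
lemma root_ball_ne {F : ℂ → ℂ} {c : ℂ} {R : ℝ} (hF : AnalyticOnNhd ℂ F (ball c R))
    (h0 : ∀ z ∈ ball c R, F z ≠ 0) {n : ℕ} (hn : n ≠ 0) :
    ∃ g : ℂ → ℂ, AnalyticOnNhd ℂ g (ball c R) ∧ ∀ z ∈ ball c R, g z ^ n = F z := by
  have hd : DifferentiableOn ℂ (fun z => deriv F z / F z) (ball c R) :=
    (hF.deriv.differentiableOn).div hF.differentiableOn h0
  obtain ⟨L, hL⟩ := hd.isExactOn_ball
  have hder : ∀ z ∈ ball c R, HasDerivAt (fun z => F z * cexp (-L z)) 0 z := by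
    intro z hz
    have h1 := ((hF z hz).differentiableAt.hasDerivAt).mul (hL z hz).neg.cexp
    refine h1.congr_deriv ?_
    have := h0 z hz
    simp only [Pi.neg_apply]
    field_simp
    simp
  obtain ⟨a, ha⟩ := isOpen_ball.exists_is_const_of_deriv_eq_zero (convex_ball c R).isPreconnected
    (fun z hz => (hder z hz).differentiableAt.differentiableWithinAt) (fun z hz => (hder z hz).deriv)
  obtain ⟨b, hb⟩ := IsAlgClosed.exists_pow_nat_eq a (Nat.pos_of_ne_zero hn)
  have hLd : DifferentiableOn ℂ L (ball c R) :=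
    fun z hz => (hL z hz).differentiableAt.differentiableWithinAt
  refine ⟨fun z => b * cexp (L z / n), ?_, fun z hz => ?_⟩
  · exact DifferentiableOn.analyticOnNhd (by fun_prop) isOpen_ball
  · rw [mul_pow, hb, ← Complex.exp_nat_mul, mul_div_cancel₀ _ (by exact_mod_cast hn), ← ha z hz,
      mul_assoc, ← Complex.exp_add]
    simp

/-- root of a function with finitely many zeros on a disc -/
lemma root_ball {c : ℂ} {R : ℝ} {n : ℕ} (hn : n ≠ 0) (Z : Finset ℂ) :
    ∀ F : ℂ → ℂ, AnalyticOnNhd ℂ F (ball c R) → (∀ z ∈ ball c R, z ∉ Z → F z ≠ 0) →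
      (∀ z ∈ ball c R, ∃ m : ℕ, analyticOrderAt F z = (n * m : ℕ)) →
      ∃ g : ℂ → ℂ, AnalyticOnNhd ℂ g (ball c R) ∧ ∀ z ∈ ball c R, g z ^ n = F z := by
  classical
  induction Z using Finset.induction_on with
  | empty => exact fun F hF h0 _ => root_ball_ne hF (fun z hz => h0 z hz (by simp)) hn
  | insert a Z ha ih =>
    intro F hF h0 hord
    by_cases haB : a ∈ ball c R
    swap
    · exact ih F hF (fun z hz hzZ => h0 z hz (by
        rw [Finset.mem_insert]; rintro (rfl | h); exacts [haB hz, hzZ h])) hord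
    obtain ⟨m, hm⟩ := hord a haB
    obtain ⟨G, hG, hG0, hFG⟩ := ((hF a haB).analyticOrderAt_eq_natCast).mp hm
    let F1 : ℂ → ℂ := fun w => if w = a then G a else F w / (w - a) ^ (n * m)
    have hF1 : ∀ w, F w = (w - a) ^ (n * m) * F1 w := by
      intro w
      by_cases hw : w = a
      · subst hw; simpa [F1] using hFG.self_of_nhds
      · have : (w - a) ^ (n * m) ≠ 0 := pow_ne_zero _ (sub_ne_zero.mpr hw)
        simp only [F1, if_neg hw]; field_simp
    have hG1 : F1 =ᶠ[𝓝 a] G := by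
      filter_upwards [hFG] with w hw
      by_cases hwa : w = a
      · simp [F1, hwa]
      · have : (w - a) ^ (n * m) ≠ 0 := pow_ne_zero _ (sub_ne_zero.mpr hwa)
        simp only [F1, if_neg hwa, hw, smul_eq_mul]; field_simp
    have hA : AnalyticOnNhd ℂ F1 (ball c R) := by
      intro w hw
      by_cases hwa : w = a
      · subst hwa; exact hG.congr hG1.symm
      · have h1 : AnalyticAt ℂ (fun w => F w / (w - a) ^ (n * m)) w :=
          (hF w hw).div (by fun_prop) (pow_ne_zero _ (sub_ne_zero.mpr hwa))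
        refine h1.congr ?_
        filter_upwards [isOpen_ne.mem_nhds hwa] with u hu
        simp [F1, hu]
    obtain ⟨g, hg, hgn⟩ := ih F1 hA (fun z hz hzZ => by
      by_cases hza : z = a
      · simpa [F1, hza] using hG0
      · intro h
        exact h0 z hz (by simp [hza, hzZ]) (by rw [hF1, h, mul_zero])) (fun z hz => by
      by_cases hza : z = a
      · refine ⟨0, ?_⟩
        rw [mul_zero, Nat.cast_zero, (hA z hz).analyticOrderAt_eq_zero]
        simpa [F1, hza] using hG0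
      · obtain ⟨m', hm'⟩ := hord z hz
        refine ⟨m', ?_⟩
        have hp : AnalyticAt ℂ (fun w => (w - a) ^ (n * m)) z := by fun_prop
        have h2 : F = (fun w => (w - a) ^ (n * m)) * F1 := funext hF1
        rw [h2, analyticOrderAt_mul hp (hA z hz),
          hp.analyticOrderAt_eq_zero.mpr (pow_ne_zero _ (sub_ne_zero.mpr hza)), zero_add] at hm'
        exact hm')
    refine ⟨fun w => (w - a) ^ m * g w, fun w hw => (by fun_prop : AnalyticAt ℂ (fun w => (w - a) ^ m) w).mul (hg w hw),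
      fun z hz => ?_⟩
    rw [mul_pow, hgn z hz, hF1, ← pow_mul, mul_comm m n]

/-- uniqueness of roots -/
lemma root_unique {V : Set ℂ} (hV : IsPreconnected V) (hVo : IsOpen V) {g₁ g₂ : ℂ → ℂ}
    (h₁ : AnalyticOnNhd ℂ g₁ V) (h₂ : AnalyticOnNhd ℂ g₂ V) {n : ℕ} (hn : n ≠ 0)
    (h : ∀ z ∈ V, g₁ z ^ n = g₂ z ^ n) {a : ℂ} (ha : a ∈ V) (he : g₁ a = g₂ a) (h0 : g₂ a ≠ 0) :
    Set.EqOn g₁ g₂ V := by
  refine h₁.eqOn_of_preconnected_of_eventuallyEq h₂ hV ha ?_
  have hc : ContinuousAt (fun z => ∑ i ∈ Finset.range n, g₁ z ^ i * g₂ z ^ (n - 1 - i)) a :=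
    tendsto_finsetSum _ fun i _ =>
      (((h₁ a ha).continuousAt.pow i).mul ((h₂ a ha).continuousAt.pow _))
  have hne : (∑ i ∈ Finset.range n, g₁ a ^ i * g₂ a ^ (n - 1 - i)) ≠ 0 := by
    rw [he, geom_sum₂_self]
    exact mul_ne_zero (by exact_mod_cast hn) (pow_ne_zero _ h0)
  filter_upwards [hc.eventually_ne hne, hVo.mem_nhds ha] with z hz hzV
  have := (Commute.all (g₁ z) (g₂ z)).geom_sum₂_mul n
  rw [h z hzV, sub_self] at this
  exact sub_eq_zero.mp ((mul_eq_zero.mp this).resolve_left hz)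

/-- order of vanishing at a point of the upper half plane -/
def ordH (f : ℍ → ℂ) (z : ℍ) : ℕ∞ := analyticOrderAt (f ∘ ofComplex) z

lemma anal {f : ℍ → ℂ} (hf : MDiff f) : AnalyticOnNhd ℂ (f ∘ ofComplex) {z | 0 < z.im} :=
  (UpperHalfPlane.mdifferentiable_iff.mp hf).analyticOnNhd isOpen_upperHalfPlaneSet

lemma analAt {f : ℍ → ℂ} (hf : MDiff f) (z : ℍ) : AnalyticAt ℂ (f ∘ ofComplex) z :=
  anal hf z z.im_pos

lemma conn : IsConnected {z : ℂ | 0 < z.im} :=
  Complex.isConnected_of_upperHalfPlane subset_rfl (by grind)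

lemma ordH_eq_zero {f : ℍ → ℂ} (hf : MDiff f) {z : ℍ} : ordH f z = 0 ↔ f z ≠ 0 := by
  rw [ordH, (analAt hf z).analyticOrderAt_eq_zero]; simp

lemma ordH_ne_top {f : ℍ → ℂ} (hf : MDiff f) (h0 : f ≠ 0) (z : ℍ) : ordH f z ≠ ⊤ := by
  obtain ⟨a, ha⟩ := Function.ne_iff.mp h0
  refine (anal hf).analyticOrderAt_ne_top_of_isPreconnected conn.isPreconnected a.im_pos z.im_pos ?_
  have := (ordH_eq_zero hf).mpr ha
  rw [ordH] at this
  rw [this]; simp

lemma ordH_zero (z : ℍ) : ordH 0 z = ⊤ := by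
  rw [ordH, analyticOrderAt_eq_top]; simp

lemma ordH_mul {f g : ℍ → ℂ} (hf : MDiff f) (hg : MDiff g) (z : ℍ) :
    ordH (f * g) z = ordH f z + ordH g z :=
  analyticOrderAt_mul (analAt hf z) (analAt hg z)

lemma ordH_pow {f : ℍ → ℂ} (hf : MDiff f) (n : ℕ) (z : ℍ) : ordH (f ^ n) z = n • ordH f z :=
  analyticOrderAt_pow (analAt hf z) n

lemma le_ordH_add (f g : ℍ → ℂ) (z : ℍ) : min (ordH f z) (ordH g z) ≤ ordH (f + g) z :=
  le_analyticOrderAt_add

lemma ordH_smul (f : ℍ → ℂ) {g : GL (Fin 2) ℝ} (hg : 0 < g.val.det) (z : ℍ) :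
    ordH (fun w => f (g • w)) z = ordH f (g • z) := by
  have : ((fun w => f (g • w)) ∘ ofComplex) =
      (f ∘ ofComplex) ∘ (fun z ↦ ↑(g • ofComplex z) : ℂ → ℂ) := by ext; simp
  rw [ordH, this, analyticOrderAt_comp_of_deriv_ne_zero (z.analyticAt_smul hg)
    (z.deriv_smul_ne_zero hg), ofComplex_apply, ordH]

/-- **roots** -/
theorem exists_root {h : ℍ → ℂ} (hh : MDiff h) {n : ℕ} (hn : n ≠ 0)
    (hd : ∀ z, n ∣ (ordH h z).toNat) : ∃ g : ℍ → ℂ, MDiff g ∧ g ^ n = h := by
  by_cases h0 : h = 0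
  · exact ⟨0, mdifferentiable_const, by rw [h0, zero_pow hn]⟩
  obtain ⟨a, ha⟩ := Function.ne_iff.mp h0
  replace ha : h a ≠ 0 := ha
  obtain ⟨b, hb⟩ := IsAlgClosed.exists_pow_nat_eq (h a) (Nat.pos_of_ne_zero hn)
  have hb0 : b ≠ 0 := by rintro rfl; rw [zero_pow hn] at hb; exact ha hb.symm
  let B : ℝ → Set ℂ := fun r => ball ↑(a.center r) (a.im * Real.sinh r)
  have hB : ∀ r (z : ℍ), (z : ℂ) ∈ B r ↔ dist z a < r := fun r z =>
    dist_lt_iff_dist_coe_center_lt.symm
  have hBc : ∀ r, closedBall (a.center r : ℂ) (a.im * Real.sinh r) ⊆ {z | 0 < z.im} :=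
    fun r w hw => im_pos_of_dist_center_le hw
  have hBs : ∀ r, B r ⊆ {z | 0 < z.im} := fun r => ball_subset_closedBall.trans (hBc r)
  have key : ∀ r : ℝ, ∃ g : ℂ → ℂ, 0 < r → AnalyticOnNhd ℂ g (B r) ∧
      (∀ z ∈ B r, g z ^ n = (h ∘ ofComplex) z) ∧ g a = b := by
    intro r
    by_cases hr : 0 < r
    swap
    · exact ⟨0, fun h => absurd h hr⟩
    have haB : (a : ℂ) ∈ B r := (hB r a).mpr (by simpa using hr)
    have hcod := (anal hh).preimage_zero_mem_codiscreteWithin (x := (a : ℂ)) (by simpa using ha) a.im_pos conn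
    have hfin := (isCompact_closedBall (a.center r : ℂ) (a.im * Real.sinh r)).finite_sdiff_of_mem_codiscreteWithin
      (codiscreteWithin_mono (hBc r) hcod)
    obtain ⟨g, hg, hgn⟩ := root_ball (c := a.center r) (R := a.im * Real.sinh r) hn hfin.toFinset
      (h ∘ ofComplex) ((anal hh).mono (hBs r)) (fun z hz hzZ hz0 => hzZ (by
        rw [Set.Finite.mem_toFinset]
        exact ⟨ball_subset_closedBall hz, by simpa using hz0⟩)) (fun z hz => by
        obtain ⟨m, hm⟩ := hd ⟨z, hBs r hz⟩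
        refine ⟨m, ?_⟩
        rw [← hm, ENat.natCast_toNat (ordH_ne_top hh h0 _)]; rfl)
    have hga : g a ^ n = b ^ n := by rw [hgn a haB, hb]; simp
    have hg0 : g a ≠ 0 := by
      intro h1; rw [h1, zero_pow hn] at hga; exact pow_ne_zero n hb0 hga.symm
    refine ⟨fun z => b / g a * g z, fun _ => ⟨fun z hz => analyticAt_const.mul (hg z hz),
      fun z hz => ?_, by field_simp⟩⟩
    rw [mul_pow, div_pow, hga, div_self (pow_ne_zero n hb0), one_mul, hgn z hz]
  choose g hg using key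
  have hpos : ∀ z : ℍ, 0 < dist z a + 1 := fun z => by positivity
  have hmem : ∀ z : ℍ, (z : ℂ) ∈ B (dist z a + 1) := fun z => (hB _ z).mpr (by linarith)
  have hag : ∀ r s, 0 < r → 0 < s → Set.EqOn (g r) (g s) (B r ∩ B s) := by
    intro r s hr hs
    refine root_unique ((convex_ball _ _).inter (convex_ball _ _)).isPreconnected
      (isOpen_ball.inter isOpen_ball) ((hg r hr).1.mono Set.inter_subset_left)
      ((hg s hs).1.mono Set.inter_subset_right) hn
      (fun z hz => by rw [(hg r hr).2.1 z hz.1, (hg s hs).2.1 z hz.2]) (a := a)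
      ⟨(hB r a).mpr (by simpa using hr), (hB s a).mpr (by simpa using hs)⟩
      (by rw [(hg r hr).2.2, (hg s hs).2.2]) (by rw [(hg s hs).2.2]; exact hb0)
  refine ⟨fun z => g (dist z a + 1) z, fun τ => ?_, funext fun z => ?_⟩
  · rw [UpperHalfPlane.mdifferentiableAt_iff]
    refine ((hg _ (hpos τ)).1 τ (hmem τ)).differentiableAt.congr_of_eventuallyEq ?_
    filter_upwards [isOpen_ball.mem_nhds (hmem τ)] with w hw
    have hw' : 0 < w.im := hBs _ hw
    simp only [Function.comp, ofComplex_apply_of_im_pos hw']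
    exact hag _ _ (hpos _) (hpos _) ⟨hmem ⟨w, hw'⟩, hw⟩
  · simpa using (hg _ (hpos z)).2.1 z (hmem z)

end Crest.Agent.T15.Bet
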