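import Crest.Agent.T15.BetKap_91
import Crest.Agent.T15.BetPoi_91
import Crest.Agent.T15.BetUni_91
import Crest.Agent.T15.MfB_79

/-!
# T15 / Bet (helper91): Kummer = Betti

`IsK n Γ x φ` (`x : FF`, `Γ ≤ GQ`, `φ : HH Γ (ZMod n)`): `x = y ^ n` in `Mer` and
`y ∘ γ = e(φ(γ)/n) y` on `Γ`.
* `exists_isK`, `IsK.unique`, `IsK.mul` …, `IsK.corr` (Hecke), `IsK.exists_pow` (kernel),
  `exists_of_hom` (onto), `IsK.par` (values at parabolic elements = orders at the cusps).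
-/

set_option autoImplicit false

noncomputable section

namespace Crest.Agent.T15.Bet

open UpperHalfPlane hiding I
open Filter Topology WithZero ModularForm CongruenceSubgroup
open scoped MatrixGroups Manifold Real
open Crest.Agent.T15.Mf Crest.Agent.T15.Hk Crest.Agent.T15.Hs Crest.Agent.R007 Crest.Agent.R007.Rat

/-- shortcut instances -/
instance (priority := high) mulActGQMer : MulAction GQ Mer :=
  (instMulSemiringActionGQMer).toDistribMulAction.toMulAction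

instance (priority := high) smulGQMer : SMul GQ Mer := mulActGQMer.toSMul

instance (priority := high) mulActGQFF : MulAction GQ FF :=
  (inferInstance : MulSemiringAction GQ FF).toDistribMulAction.toMulAction

instance (priority := high) smulGQFF : SMul GQ FF := mulActGQFF.toSMul

variable {n : ℕ} [NeZero n]

/-- `a ↦ e(a/n)` in `Mer` -/
def psi (n : ℕ) [NeZero n] : AddChar (ZMod n) Mer :=
  (algebraMap ℂ Mer : ℂ →* Mer).compAddChar ZMod.stdAddChar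

lemma psi_apply (a : ZMod n) : psi n a = algebraMap ℂ Mer (ZMod.stdAddChar a) := rfl

lemma chr_psi : Chr GQ (psi n) where
  fix g a := smul_const g _
  inj := (algebraMap ℂ Mer).injective.comp ZMod.injective_stdAddChar
  onto u hu := by
    have h := (Complex.isPrimitiveRoot_exp n (NeZero.ne n)).map_of_injective
      (f := algebraMap ℂ Mer) (algebraMap ℂ Mer).injective
    obtain ⟨i, -, hi⟩ := h.eq_pow_of_pow_eq_one hu
    refine ⟨(i : ℤ), ?_⟩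
    rw [psi_apply, ZMod.stdAddChar_coe, ← hi, ← map_pow, ← Complex.exp_nat_mul]
    congr 2
    push_cast; ring
  ne := NeZero.ne n

/-- `φ` is the Kummer cocycle of the modular function `x` -/
def IsK (n : ℕ) [NeZero n] (Γ : Subgroup GQ) (x : FF) (φ : HH Γ (ZMod n)) : Prop :=
  IsR (psi n) Γ (x : Mer) φ

variable {Γ Γ' : Subgroup GQ} {x x' : FF} {φ φ' : HH Γ (ZMod n)}

lemma IsK.ne (h : IsK n Γ x φ) : x ≠ 0 := fun h0 => IsR.ne h (by rw [h0]; rfl)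

lemma IsK.fixed (h : IsK n Γ x φ) : ∀ γ ∈ Γ, γ • x = x :=
  fun γ hγ => Subtype.ext (IsR.fixed h γ hγ)

lemma IsK.dvd (h : IsK n Γ x φ) (z : ℍ) : (n : ℤ) ∣ log (vM z (x : Mer)) := by
  obtain ⟨y, -, hy, -⟩ := h
  rw [← hy, map_pow, log_pow, nsmul_eq_mul]
  exact dvd_mul_right _ _

theorem IsK.unique (h : IsK n Γ x φ) (h' : IsK n Γ x φ') : φ = φ' := IsR.unique chr_psi h h'

theorem exists_isK (h0 : x ≠ 0) (hx : ∀ γ ∈ Γ, γ • x = x)
    (hd : ∀ z, (n : ℤ) ∣ log (vM z (x : Mer))) : ∃ φ, IsK n Γ x φ := by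
  obtain ⟨y, hy⟩ := exists_rootM (NeZero.ne n) hd
  have hy0 : y ≠ 0 := by
    rintro rfl
    rw [zero_pow (NeZero.ne n)] at hy
    exact h0 (Subtype.ext hy.symm)
  obtain ⟨φ, hφ⟩ := exists_isR (Γ := Γ) chr_psi hy0 fun γ hγ => by
    rw [hy]; exact congrArg Subtype.val (hx γ hγ)
  exact ⟨φ, by rw [hy] at hφ; exact hφ⟩

lemma IsK.mul (h : IsK n Γ x φ) (h' : IsK n Γ x' φ') : IsK n Γ (x * x') (φ + φ') := IsR.mul h h'

lemma IsK.inv (h : IsK n Γ x φ) : IsK n Γ x⁻¹ (-φ) := IsR.inv h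

lemma IsK.div (h : IsK n Γ x φ) (h' : IsK n Γ x' φ') : IsK n Γ (x / x') (φ - φ') := IsR.div h h'

lemma IsK.pow (h : IsK n Γ x φ) (m : ℕ) : IsK n Γ (x ^ m) (m • φ) := IsR.pow h m

lemma IsK.zpow (h : IsK n Γ x φ) (m : ℤ) : IsK n Γ (x ^ m) (m • φ) := by
  have := IsR.zpow h m
  rwa [show (x : Mer) ^ m = ((x ^ m : FF) : Mer) from (map_zpow₀ FF.val x m).symm] at this

lemma IsK.one : IsK n Γ 1 0 := IsR.one

lemma IsK.of_fixed {y : FF} (h0 : y ≠ 0) (hy : ∀ γ ∈ Γ, γ • y = y) : IsK n Γ (y ^ n) 0 :=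
  IsR.of_fixed (y := (y : Mer)) (fun h => h0 (Subtype.ext h))
    fun γ hγ => congrArg Subtype.val (hy γ hγ)

lemma IsK.const {c : ℂ} (hc : c ≠ 0) : IsK n Γ (algebraMap ℂ FF c) 0 := by
  obtain ⟨b, rfl⟩ := IsAlgClosed.exists_pow_nat_eq c (NeZero.pos n)
  rw [map_pow]
  exact IsK.of_fixed (by simpa using ne_zero_pow (NeZero.ne n) hc) fun γ _ => smul_algebraMap_FF γ b

lemma IsK.prod {ι : Type*} (s : Finset ι) {x : ι → FF} {φ : ι → HH Γ (ZMod n)}
    (h : ∀ i ∈ s, IsK n Γ (x i) (φ i)) : IsK n Γ (∏ i ∈ s, x i) (∑ i ∈ s, φ i) := by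
  have := IsR.prod s h
  rwa [← SubmonoidClass.coe_finsetProd] at this

lemma coe_nrm (c : MonoidAlgebra ℤ GQ) (x : FF) : ((nrm c x : FF) : Mer) = nrm c (x : Mer) :=
  map_nrm FF.val.toRingHom (fun _ _ => rfl) c x

/-- **Hecke equivariance** -/
theorem IsK.corr (h : IsK n Γ x φ) (c : Corr ℤ Γ Γ') : IsK n Γ' (nrm c.1 x) (T (ZMod n) c φ) := by
  rw [IsK, coe_nrm]; exact IsR.corr chr_psi h c

theorem IsK.corr_prod (h : IsK n Γ x φ) {ι : Type*} (s : Finset ι) {α : ι → GQ}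
    (hc : ∑ i ∈ s, e ℤ (α i) ∈ Corr ℤ Γ Γ') :
    IsK n Γ' (∏ i ∈ s, (α i)⁻¹ • x) (T (ZMod n) ⟨_, hc⟩ φ) := by
  rw [← nrm_sum_e s α h.ne]; exact h.corr ⟨_, hc⟩

theorem IsK.corr_e (h : IsK n Γ x φ) {g : GQ} (hc : e ℤ g ∈ Corr ℤ Γ Γ') :
    IsK n Γ' (g⁻¹ • x) (T (ZMod n) ⟨_, hc⟩ φ) := by
  rw [← nrm_e]; exact h.corr ⟨_, hc⟩

/-- restriction to a smaller group -/
theorem IsK.of_val (h : IsK n Γ x φ) (hle : Γ' ≤ Γ) {ψ : HH Γ' (ZMod n)}
    (hψ : ∀ γ ∈ Γ', val ψ γ = val φ γ) : IsK n Γ' x ψ := by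
  obtain ⟨y, h0, hy, h⟩ := h
  exact ⟨y, h0, hy, fun γ hγ => by rw [hψ γ hγ, h γ (hle hγ)]⟩

/-- `y · G` is holomorphic if `y ^ n = F / G` -/
lemma exists_W {y : Mer} {F G : ℍ → ℂ} (hF : MDiff F) (hG : MDiff G) (h0 : G ≠ 0)
    (hy : y ^ n = mer F / mer G) :
    ∃ W : ℍ → ℂ, MDiff W ∧ mer W = y * mer G ∧ W ^ n = F * G ^ (n - 1) := by
  have hG0 := mer_ne_zero hG h0
  have h1 : (y * mer G) ^ n = mer (F * G ^ (n - 1)) := by
    obtain ⟨m, hm⟩ := Nat.exists_eq_succ_of_ne_zero (NeZero.ne n)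
    rw [mul_pow, hy, mer_mul hF (hG.pow _), mer_pow hG, hm, pow_succ]
    field_simp
    simp
  obtain ⟨W, hW⟩ := exists_hol (x := y * mer G) fun z => by
    have := vM_mer_le z (hF.mul (hG.pow (n - 1)))
    rw [← h1, map_pow] at this
    exact (pow_le_one_iff (NeZero.ne n)).mp this
  rw [← mer_coe] at hW
  refine ⟨W, W.2, hW.symm, mer_inj (W.2.pow n) (hF.mul (hG.pow _)) ?_⟩
  rw [mer_pow W.2, ← hW, h1]

lemma bdd_of_pow {W : ℍ → ℂ} (h : IsBoundedAtImInfty (W ^ n)) : IsBoundedAtImInfty W := by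
  rw [isBoundedAtImInfty_iff] at h ⊢
  obtain ⟨C, A, h⟩ := h
  refine ⟨max C 1, A, fun z hz => ?_⟩
  have h1 := h z hz
  rw [Pi.pow_apply, norm_pow] at h1
  rcases le_or_gt ‖W z‖ 1 with h2 | h2
  · exact h2.trans (le_max_right _ _)
  · exact ((le_self_pow₀ h2.le (NeZero.ne n)).trans h1).trans (le_max_left _ _)

lemma isF_mul_pow {M : ℕ} {k : ℤ} {F G : ℍ → ℂ} (hF : IsF M k F) (hG : IsF M k G) :
    IsF M ((n : ℤ) * k) (F * G ^ (n - 1)) :=
  (hF.mul (hG.pow (n - 1))).cast (by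
    rw [Nat.cast_sub (NeZero.one_le)]; push_cast; ring)

/-- a root of a modular function which has a level is a modular function -/
theorem root_mem_FF {y : Mer} (hy : y ^ n = (x : Mer)) {M : ℕ} (hM : M ≠ 0)
    (h : ∀ γ ∈ Gamma M, Mf.sq γ • y = y) : y ∈ FF := by
  obtain ⟨k, F, G, hF, hG, hG0, rfl⟩ := exists_quo_level (M := M) (x := x) fun γ hγ =>
    Subtype.ext (by rw [sl_smul, Mf.coe_smul, ← hy, smul_pow', h γ hγ])
  have hG' : IsF M k G := hG.mono (one_dvd M)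
  rw [coe_quo hM hF hG'] at hy
  obtain ⟨W, hW, hW1, hW2⟩ := exists_W hF.holo hG.holo hG0 hy
  have hWF : IsF M k W := ⟨fun γ hγ => mer_inj (hW.slash k _) hW (by
      have e1 := mer_slash hW k (Mf.sq γ)
      have e2 := mer_slash hG.holo k (Mf.sq γ)
      rw [slash_sq] at e1 e2
      rw [e1, hW1, smul_mul', mul_assoc, ← e2, hG.slash_one_level, ← map_inv, h _ (inv_mem hγ)]),
    hW, fun g => bdd_of_pow (n := n) (by
      rw [← pow_slash', hW2]; exact (isF_mul_pow hF hG').bdd g)⟩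
  rw [(eq_div_iff (mer_ne_zero hG.holo hG0)).mpr hW1.symm]
  exact div_mem_FF hM hWF hG'

/-- **the kernel** -/
theorem IsK.exists_pow (h : IsK n Γ x 0) {M : ℕ} (hM : M ≠ 0) (hΓ : ∀ γ ∈ Gamma M, Mf.sq γ ∈ Γ) :
    ∃ y : FF, (∀ γ ∈ Γ, γ • y = y) ∧ y ^ n = x := by
  obtain ⟨y, -, hy, h⟩ := h
  have h1 : ∀ γ ∈ Γ, γ • y = y := fun γ hγ => by
    have := h _ (Γ.inv_mem hγ)
    rwa [inv_inv, val_zero, AddChar.map_zero_eq_one, one_mul] at this
  exact ⟨⟨y, root_mem_FF hy hM fun γ hγ => h1 _ (hΓ γ hγ)⟩, fun γ hγ => Subtype.ext (h1 γ hγ),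
    Subtype.ext hy⟩

theorem IsK.exists_mul_pow (h : IsK n Γ x φ) (h' : IsK n Γ x' φ) {M : ℕ} (hM : M ≠ 0)
    (hΓ : ∀ γ ∈ Gamma M, Mf.sq γ ∈ Γ) : ∃ y : FF, y ≠ 0 ∧ (∀ γ ∈ Γ, γ • y = y) ∧ x = x' * y ^ n := by
  have := h.div h'
  rw [sub_self] at this
  obtain ⟨y, h1, h2⟩ := this.exists_pow hM hΓ
  refine ⟨y, ?_, h1, by rw [h2, mul_div_cancel₀ _ h'.ne]⟩
  rintro rfl
  exact this.ne (by rw [← h2, zero_pow (NeZero.ne n)])

/-- **onto** -/
theorem exists_of_hom {Γ₀ : Subgroup SL(2, ℤ)} {M : ℕ} (hM : M ≠ 0) (hΓ : Gamma M ≤ Γ₀)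
    (φ : HH (Γ₀.map Mf.sq) (ZMod n)) (hneg : (-1 : SL(2, ℤ)) ∈ Γ₀ → val φ (Mf.sq (-1)) = 0) :
    ∃ x : FF, IsK n (Γ₀.map Mf.sq) x φ := by
  let χ : Γ₀ →* ℂˣ := MonoidHom.toHomUnits
    { toFun := fun γ => ZMod.stdAddChar (val φ (Mf.sq γ))
      map_one' := by simp
      map_mul' := fun a b => by
        rw [Subgroup.coe_mul, map_mul, val_mul φ (Subgroup.mem_map_of_mem _ a.2)
          (Subgroup.mem_map_of_mem _ b.2), AddChar.map_add_eq_mul] }
  have hχ : ∀ γ, (χ γ : ℂ) = ZMod.stdAddChar (val φ (Mf.sq γ)) := fun _ => rfl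
  obtain ⟨m, P, hP, hP0, hPs, hPb⟩ := exists_poincare Γ₀ χ
    (fun γ => by rw [hχ, ZMod.stdAddChar_apply, Circle.norm_coe])
    (fun h => Units.ext (by rw [hχ, hneg h]; simp))
  set k : ℤ := ((12 * m : ℕ) : ℤ)
  have hD : IsF 1 k (dl ^ m) := (isF_dl.pow m).cast (by simp [k, mul_comm])
  have hPn : IsF M ((n : ℤ) * k) (P ^ n) := ⟨fun γ hγ => by
      rw [pow_slash', hPs ⟨γ, hΓ hγ⟩, smul_pow, hχ, psi_pow, one_smul], hP.pow n, fun g => by
      rw [pow_slash']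
      exact (boundedAtImInftySubalgebra ℂ).pow_mem (hPb g) n⟩
  have hDn : IsF M ((n : ℤ) * k) ((dl ^ m) ^ n) := (hD.pow n).mono (one_dvd M)
  refine ⟨quo (P ^ n) ((dl ^ m) ^ n), mer P / mer (dl ^ m),
    div_ne_zero (mer_ne_zero hP hP0) (mer_ne_zero hD.holo (pow_ne_zero m dl_ne_zero)), ?_, ?_⟩
  · rw [coe_quo hM hPn hDn, mer_pow hP, mer_pow hD.holo, div_pow]
  · rintro _ ⟨γ, hγ, rfl⟩
    rw [inv_smul_div hP hD.holo k, slash_sq, slash_sq, hPs ⟨γ, hγ⟩, hD.slash_one_level, mer_smul hP,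
      mul_div_assoc]
    rfl

theorem exists_of_hom' {Γ₀ : Subgroup SL(2, ℤ)} {M : ℕ} (hM : M ≠ 0) (hΓ : Gamma M ≤ Γ₀)
    (hneg : (-1 : SL(2, ℤ)) ∉ Γ₀) (φ : HH (Γ₀.map Mf.sq) (ZMod n)) :
    ∃ x : FF, IsK n (Γ₀.map Mf.sq) x φ := exists_of_hom hM hΓ φ fun h => absurd h hneg

/-! ### parabolic elements -/

lemma par_core {W : ℍ → ℂ} (hW : Continuous W) {h : ℝ} {ω c : ℂ} (hc : c ≠ 0)
    (hω : ∀ z, W (h +ᵥ z) = ω * W z) (hl : Tendsto (W ^ n) atImInfty (𝓝 c)) : ω = 1 := by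
  have hn := NeZero.ne n
  have hv : Tendsto (fun z : ℍ => h +ᵥ z) atImInfty atImInfty := by
    rw [atImInfty, tendsto_comap_iff]
    exact tendsto_comap.congr fun z => (vadd_im h z).symm
  have hωn : ω ^ n = 1 := by
    have h1 : Tendsto (fun z => ω ^ n * (W ^ n) z) atImInfty (𝓝 c) :=
      (hl.comp hv).congr fun z => by simp [hω, mul_pow]
    exact mul_right_cancel₀ hc ((tendsto_nhds_unique (hl.const_mul _) h1).trans (one_mul c).symm)
  have h2 : ∀ᶠ z in atImInfty, W z ^ n / c ∈ Complex.slitPlane := by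
    have := hl.div_const c
    rw [div_self hc] at this
    exact this.eventually (Complex.isOpen_slitPlane.mem_nhds Complex.one_mem_slitPlane)
  obtain ⟨A, hA⟩ := (atImInfty_mem _).mp h2
  let z : ℍ := ⟨Complex.I * (max A 1 : ℝ), by simp⟩
  have hz : ∀ t : ℝ, W (t +ᵥ z) ^ n / c ∈ Complex.slitPlane := fun t =>
    hA _ (by rw [vadd_im]; simp [z])
  have hp : Continuous fun t : ℝ => W (t +ᵥ z) :=
    hW.comp (isOpenEmbedding_coe.isInducing.continuous_iff.mpr (by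
      simp only [Function.comp_def, coe_vadd]; fun_prop))
  let ρ : ℝ → ℂ := fun t => (W (t +ᵥ z) ^ n / c) ^ ((n : ℂ)⁻¹)
  have hρ : Continuous ρ := ((hp.pow n).div_const c).cpow continuous_const hz
  have hρn : ∀ t, ρ t ^ n = W (t +ᵥ z) ^ n / c := fun t => Complex.cpow_nat_inv_pow _ hn
  have hρ0 : ∀ t, ρ t ≠ 0 := fun t h0 => Complex.slitPlane_ne_zero (hz t) (by
    rw [← hρn, h0, zero_pow hn])
  have hW0 : ∀ t : ℝ, W (t +ᵥ z) ≠ 0 := fun t h0 => Complex.slitPlane_ne_zero (hz t) (by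
    rw [h0, zero_pow hn, zero_div])
  have hfin : {u : ℂ | u ^ n = c}.Finite :=
    (Polynomial.nthRoots n c).toFinset.finite_toSet.subset fun u hu => by
      simpa [Polynomial.mem_nthRoots (NeZero.pos n)] using hu
  have key := isPreconnected_univ.constant_of_mapsTo hfin.isDiscrete
    (f := fun t : ℝ => W (t +ᵥ z) / ρ t) (hp.div hρ hρ0).continuousOn (fun t _ => by
      have := hW0 t
      simp only [Set.mem_ofPred_eq, div_pow, hρn]
      field_simp) (Set.mem_univ h) (Set.mem_univ 0)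
  have h3 : ρ h = ρ 0 := by simp only [ρ, hω, mul_pow, hωn, one_mul, zero_vadd]
  have h4 := hW0 0
  have h5 := hρ0 0
  simp only [h3, hω, zero_vadd] at key h4
  field_simp at key
  exact key

/-- leading term of a form at infinity -/
lemma tendsto_lead {M : ℕ} (hM : M ≠ 0) {k : ℤ} {F : ℍ → ℂ} (hF : IsF M k F) (h0 : F ≠ 0) :
    ∃ c : ℂ, c ≠ 0 ∧ Tendsto (fun z : ℍ => F z * ex (-(qf F).order) z) atImInfty (𝓝 c) := by
  have : NeZero M := ⟨hM⟩
  have hq0 := qf_ne_zero hM hF h0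
  have hc := HahnSeries.coeff_order_eq_zero.not.mpr hq0
  obtain ⟨N, hN⟩ := lev_qf hM hF _ hc
  have hM' : (0 : ℚ) < M := by exact_mod_cast Nat.pos_of_ne_zero hM
  have hord : analyticOrderAt (cuspFunction (M : ℝ) F) 0 = N := by
    rw [analyticOrderAt_eq_nat_iff_iteratedDeriv_eq_zero hF.analytic]
    constructor
    · intro j hj
      have h1 : (qf F).coeff ((j : ℚ) / M) = 0 := HahnSeries.coeff_eq_zero_of_lt_order (by
        rw [hN]; gcongr)
      rw [coeff_qf hM hF, qe, qExpansion_coeff, mul_eq_zero] at h1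
      exact h1.resolve_left (inv_ne_zero (by exact_mod_cast j.factorial_ne_zero))
    · rw [hN, coeff_qf hM hF, qe, qExpansion_coeff] at hc
      exact right_ne_zero_of_mul hc
  obtain ⟨Ψ, hΨ, hΨ0, he⟩ := hF.analytic.analyticOrderAt_eq_natCast.mp hord
  have ht := qParam_tendsto_atImInfty (h := (M : ℝ)) Mpos
  refine ⟨Ψ 0, hΨ0, (hΨ.continuousAt.tendsto.comp ht).congr' ?_⟩
  filter_upwards [ht.eventually he] with z hz
  rw [eq_cuspFunction z Mpos.ne' hF.periodic, sub_zero, smul_eq_mul, ← ex_div, ← hN] at hz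
  rw [Function.comp_apply, hz, mul_right_comm, ex, ex, ← Complex.exp_add]
  simp

/-- **values at parabolic elements are orders at the cusps** -/
theorem IsK.par (hK : IsK n Γ x φ) {γ : GQ} (hγ : γ ∈ Γ) (g : GQ) (h : ℤ)
    (hg : ∀ τ : ℍ, rr (g⁻¹ * γ * g) • τ = (h : ℝ) +ᵥ τ) :
    ∃ m : ℤ, (h : ℚ) * (qx (g⁻¹ • x)).order = m ∧ val φ γ = (m : ZMod n) := by
  have hn := NeZero.ne n
  have hx0 : g⁻¹ • x ≠ 0 := smul_ne0 _ hK.ne
  obtain ⟨y, -, hy, hK⟩ := hK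
  obtain ⟨M, k, F, G, hM, hF, hG, hG0, hx⟩ := exists_quo_one (g⁻¹ • x)
  have hG' : IsF M k G := hG.mono (one_dvd M)
  have hF0 : F ≠ 0 := fun h0 => hx0 (by rw [hx, quo_eq_zero hM hF hG' hG0]; exact h0)
  obtain ⟨W, hW, hW1, hW2⟩ := exists_W (n := n) (y := g⁻¹ • y) hF.holo hG.holo hG0 (by
    rw [← smul_pow', hy, ← Mf.coe_smul, hx, coe_quo hM hF hG'])
  have hGp : ∀ τ : ℍ, G ((h : ℝ) +ᵥ τ) = G τ := fun τ => by
    have := congrFun (hG.slash_one_level (ModularGroup.T ^ h)) τ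
    rw [SL_slash_apply, modular_T_zpow_smul, ModularGroup.denom_apply, ModularGroup.coe_T_zpow] at this
    simpa using this
  set ω := ZMod.stdAddChar (val φ γ) with hω
  have hWp : ∀ τ : ℍ, W ((h : ℝ) +ᵥ τ) = ω * W τ := by
    have e1 := inv_smul_mer hW (g⁻¹ * γ * g)
    have e2 := inv_smul_mer hG.holo (g⁻¹ * γ * g)
    simp only [hg, hGp] at e2
    have e3 : (g⁻¹ * γ * g)⁻¹ • g⁻¹ • y = algebraMap ℂ Mer ω * g⁻¹ • y := by
      rw [← mul_smul, show (g⁻¹ * γ * g)⁻¹ * g⁻¹ = g⁻¹ * γ⁻¹ by group, mul_smul, hK γ hγ, smul_mul',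
        chr_psi.fix, psi_apply]
    rw [hW1, smul_mul', e2, e3, mul_assoc, ← hW1, ← mer_smul hW] at e1
    have := mer_inj (hW.const_smul ω) (mdiff_comp hW _) e1
    intro τ
    rw [← hg]
    exact (congrFun this τ).symm
  have hΦ := isF_mul_pow (n := n) hF hG'
  have hΦ0 : F * G ^ (n - 1) ≠ 0 := fun h0 => by
    have := qf_mul hM hF (hG'.pow (n - 1))
    rw [h0, qf_zero, qf_pow hM hG'] at this
    exact mul_ne_zero (qf_ne_zero hM hF hF0) (pow_ne_zero _ (qf_ne_zero hM hG' hG0)) this.symm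
  obtain ⟨c, hc, hl⟩ := tendsto_lead hM hΦ hΦ0
  set r := (qf (F * G ^ (n - 1))).order with hr
  have hnC : (n : ℂ) ≠ 0 := by exact_mod_cast hn
  have h1 : ω * ex (-r / n) h = 1 := by
    refine par_core (n := n) (W := fun z => W z * ex (-r / n) z) (h := h) ?_ hc (fun z => ?_)
      (hl.congr fun z => ?_)
    · exact hW.continuous.mul (by unfold ex; fun_prop)
    · rw [hWp, coe_vadd, ex, ex, ex, mul_add, Complex.exp_add]
      push_cast; ring
    · rw [Pi.pow_apply, mul_pow, ← hW2, ex, ex, ← Complex.exp_nat_mul, Pi.pow_apply]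
      congr 2
      push_cast; field_simp
  obtain ⟨a, ha⟩ := ZMod.intCast_surjective (val φ γ)
  rw [hω, ← ha, ZMod.stdAddChar_coe, ex, ← Complex.exp_add, Complex.exp_eq_one_iff] at h1
  obtain ⟨t, ht⟩ := h1
  have h2 : (a : ℚ) - r * h = t * n := by
    have := Complex.two_pi_I_ne_zero
    have h3 : (a : ℂ) - r * h = t * n := by
      refine mul_left_cancel₀ this ?_
      push_cast at ht
      field_simp at ht
      linear_combination (2 * π * Complex.I) * ht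
    exact_mod_cast h3
  have hqG := qf_ne_zero hM hG' hG0
  have hqF := qf_ne_zero hM hF hF0
  obtain ⟨N, hN⟩ := lev_qf one_ne_zero hG _ (HahnSeries.coeff_order_eq_zero.not.mpr hqG)
  have h4 : r = (qf F).order + ((n - 1 : ℕ) : ℚ) * (qf G).order := by
    rw [hr, qf_mul hM hF (hG'.pow (n - 1)), qf_pow hM hG',
      HahnSeries.order_mul hqF (pow_ne_zero _ hqG), HahnSeries.order_pow, nsmul_eq_mul]
  have h5 : (qx (g⁻¹ • x)).order + (qf G).order = (qf F).order := by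
    rw [← HahnSeries.order_mul ((map_ne_zero qx).mpr hx0) hqG, hx, qx_quo hM hF hG', div_mul_cancel₀ _ hqG]
  rw [Nat.cast_sub NeZero.one_le] at h4
  refine ⟨a - t * n - n * N * h, ?_, by rw [← ha]; simp⟩
  rw [h4, ← h5, hN] at h2
  push_cast at h2 ⊢
  linear_combination -h2

theorem IsK.par_SL (hK : IsK n Γ x φ) {γ : SL(2, ℤ)} (hγ : Mf.sq γ ∈ Γ) (g : SL(2, ℤ)) (h : ℤ)
    (hg : g⁻¹ * γ * g = ModularGroup.T ^ h ∨ g⁻¹ * γ * g = -ModularGroup.T ^ h) :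
    ∃ m : ℤ, (h : ℚ) * (qx (g⁻¹ • x)).order = m ∧ val φ (Mf.sq γ) = (m : ZMod n) := by
  rw [sl_smul, map_inv]
  refine hK.par hγ (Mf.sq g) h fun τ => ?_
  rw [← map_inv, ← map_mul, ← map_mul, rr_sq_smul]
  rcases hg with e | e <;> rw [e]
  · exact modular_T_zpow_smul τ h
  · rw [ModularGroup.SL_neg_smul]; exact modular_T_zpow_smul τ h

end Crest.Agent.T15.Bet
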