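import Crest.Agent.T15.Ps_28

/-!
# Row 15, block R (helper78): Boston–Lenstra–Ribet over a commutative ring

A group `G` acts in a `T`-algebra `B` by `ρ` with the Cayley–Hamilton identity
`ρ g + d g • ρ g⁻¹ = t g`.  Then `t` is an odd pseudo-representation, and as soon as some value
`x g₀ h₀` is a unit, `ρ` factors through `σ : G →* M₂(T)` and an injective algebra map
`M₂(T) → B`.
-/

set_option autoImplicit false

noncomputable section

namespace Crest.Agent.T15.Blr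

open Matrix Crest.Agent.T15.Ps

variable {G : Type*} [Group G] {T : Type*} [CommRing T] {B : Type*} [Ring B] [Algebra T B]

/-- Cayley–Hamilton data in an algebra -/
structure CH (ρ : G →* B) (d : G →* T) (t : G → T) (h : T) (c : G) : Prop where
  ch : ∀ g, ρ g + d g • ρ g⁻¹ = t g • (1 : B)
  half : 2 * h = 1
  cc : c * c = 1
  dc : d c = -1

/-- the idempotent `(1 + c)/2` -/
def ee (ρ : G →* B) (h : T) (c : G) : B := h • (1 + ρ c)
/-- the idempotent `(1 - c)/2` -/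
def ff (ρ : G →* B) (h : T) (c : G) : B := h • (1 - ρ c)

namespace CH
variable {ρ : G →* B} {d : G →* T} {t : G → T} {h : T} {c : G} (H : CH ρ d t h c)
include H

lemma cinv : c⁻¹ = c := inv_eq_of_mul_eq_one_right H.cc
lemma JJ : ρ c * ρ c = 1 := by rw [← map_mul, H.cc, map_one]
lemma e_add_f : ee ρ h c + ff ρ h c = 1 := by
  rw [ee, ff, ← smul_add, add_add_sub_cancel, ← two_smul T, smul_smul, mul_comm, H.half, one_smul]
lemma e_sub_f : ee ρ h c - ff ρ h c = ρ c := by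
  rw [ee, ff, ← smul_sub, add_sub_sub_cancel, ← two_smul T, smul_smul, mul_comm, H.half, one_smul]
lemma e_mul_J : ee ρ h c * ρ c = ee ρ h c := by
  rw [ee, smul_mul_assoc, add_mul, one_mul, H.JJ, add_comm]
lemma J_mul_e : ρ c * ee ρ h c = ee ρ h c := by
  rw [ee, mul_smul_comm, mul_add, mul_one, H.JJ, add_comm]
lemma f_mul_J : ff ρ h c * ρ c = -ff ρ h c := by
  rw [ff, smul_mul_assoc, sub_mul, one_mul, H.JJ, ← smul_neg, neg_sub]
lemma J_mul_f : ρ c * ff ρ h c = -ff ρ h c := by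
  rw [ff, mul_smul_comm, mul_sub, mul_one, H.JJ, ← smul_neg, neg_sub]
lemma e_mul_f : ee ρ h c * ff ρ h c = 0 := by
  rw [ff, mul_smul_comm, mul_sub, mul_one, H.e_mul_J, sub_self, smul_zero]
lemma f_mul_e : ff ρ h c * ee ρ h c = 0 := by
  conv_lhs => rw [ee, mul_smul_comm, mul_add, mul_one, H.f_mul_J, add_neg_cancel, smul_zero]
lemma e_mul_e : ee ρ h c * ee ρ h c = ee ρ h c := by
  have := congrArg (ee ρ h c * ·) H.e_add_f
  simpa only [mul_add, H.e_mul_f, add_zero, mul_one] using this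
lemma f_mul_f : ff ρ h c * ff ρ h c = ff ρ h c := by
  have := congrArg (ff ρ h c * ·) H.e_add_f
  simpa only [mul_add, H.f_mul_e, zero_add, mul_one] using this

/-- `c g + (c g)* = t (c g)` -/
lemma ch_c (g : G) : ρ c * ρ g - d g • (ρ g⁻¹ * ρ c) = t (c * g) • (1 : B) := by
  rw [← H.ch, map_mul, map_mul, H.dc, _root_.mul_inv_rev, map_mul, H.cinv, neg_one_mul, neg_smul,
    sub_eq_add_neg]

lemma e_g (g : G) :
    ee ρ h c * ρ g + d g • (ρ g⁻¹ * ff ρ h c) = pa h c t g • (1 : B) := by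
  rw [pa, mul_smul, add_smul, ← H.ch, ← H.ch_c, ee, ff]
  simp only [smul_mul_assoc, mul_smul_comm, add_mul, mul_sub, one_mul, mul_one, smul_add, smul_sub]
  rw [smul_comm h (d g), smul_comm h (d g)]
  abel

lemma f_g (g : G) :
    ff ρ h c * ρ g + d g • (ρ g⁻¹ * ee ρ h c) = pd h c t g • (1 : B) := by
  rw [pd, mul_smul, sub_smul, ← H.ch, ← H.ch_c, ee, ff]
  simp only [smul_mul_assoc, mul_smul_comm, sub_mul, mul_add, one_mul, mul_one, smul_add, smul_sub]
  rw [smul_comm h (d g), smul_comm h (d g)]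
  abel

lemma ege (g : G) : ee ρ h c * ρ g * ee ρ h c = pa h c t g • ee ρ h c := by
  have := congrArg (· * ee ρ h c) (H.e_g g)
  simpa only [add_mul, smul_mul_assoc, mul_assoc, H.f_mul_e, mul_zero, smul_zero, add_zero,
    one_mul] using this

lemma fgf (g : G) : ff ρ h c * ρ g * ff ρ h c = pd h c t g • ff ρ h c := by
  have := congrArg (· * ff ρ h c) (H.f_g g)
  simpa only [add_mul, smul_mul_assoc, mul_assoc, H.e_mul_f, mul_zero, smul_zero, add_zero,
    one_mul] using this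

lemma split (X Y : B) : X * Y = X * ee ρ h c * Y + X * ff ρ h c * Y := by
  rw [← add_mul, ← mul_add, H.e_add_f, mul_one]

lemma ege' (g : G) (X : B) :
    ee ρ h c * (ρ g * (ee ρ h c * X)) = pa h c t g • (ee ρ h c * X) := by
  rw [← mul_assoc, ← mul_assoc, H.ege, smul_mul_assoc]
lemma fgf' (g : G) (X : B) :
    ff ρ h c * (ρ g * (ff ρ h c * X)) = pd h c t g • (ff ρ h c * X) := by
  rw [← mul_assoc, ← mul_assoc, H.fgf, smul_mul_assoc]

lemma egfke (g k : G) :
    ee ρ h c * ρ g * ff ρ h c * ρ k * ee ρ h c = px h c t g k • ee ρ h c := by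
  have h1 := H.ege (g * k)
  have h2 := H.split (ee ρ h c * ρ g) (ρ k * ee ρ h c)
  rw [map_mul] at h1
  rw [H.ege, smul_mul_assoc, ← mul_assoc (ee ρ h c), H.ege, smul_smul] at h2
  rw [px, sub_smul, ← h1]
  simp only [mul_assoc] at h2 ⊢
  rw [h2]; abel

/-- `e g⁻¹ f` is minus `e g f` up to the determinant -/
lemma e_inv_f (g : G) : d g • (ee ρ h c * ρ g⁻¹ * ff ρ h c) = -(ee ρ h c * ρ g * ff ρ h c) := by
  have := congrArg (fun X => ee ρ h c * X * ff ρ h c) (H.ch g)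
  simp only [mul_add, add_mul, mul_smul_comm, smul_mul_assoc, mul_one, H.e_mul_f, smul_zero] at this
  exact eq_neg_of_add_eq_zero_right this

lemma f_inv_e (g : G) : d g • (ff ρ h c * ρ g⁻¹ * ee ρ h c) = -(ff ρ h c * ρ g * ee ρ h c) := by
  have := congrArg (fun X => ff ρ h c * X * ee ρ h c) (H.ch g)
  simp only [mul_add, add_mul, mul_smul_comm, smul_mul_assoc, mul_one, H.f_mul_e, smul_zero] at this
  exact eq_neg_of_add_eq_zero_right this

lemma f_inv_f (g : G) : d g • (ff ρ h c * ρ g⁻¹ * ff ρ h c) = pa h c t g • ff ρ h c := by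
  have := congrArg (fun X => ff ρ h c * X) (H.e_g g)
  simpa only [mul_add, mul_smul_comm, mul_one, ← mul_assoc, H.f_mul_e, zero_mul, zero_add]
    using this

lemma fkegf (g k : G) :
    ff ρ h c * ρ k * ee ρ h c * ρ g * ff ρ h c = px h c t g k • ff ρ h c := by
  -- apply the involution: `f (gk)* f = a(gk) f`
  have h1 := H.f_inv_f (g * k)
  have h2 := H.split (ff ρ h c * ρ k⁻¹) (ρ g⁻¹ * ff ρ h c)
  have h3 : d k • d g • (ff ρ h c * ρ k⁻¹ * ff ρ h c * (ρ g⁻¹ * ff ρ h c)) =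
      (pa h c t g * pa h c t k) • ff ρ h c := by
    rw [smul_comm, ← smul_mul_assoc, H.f_inv_f, smul_mul_assoc, smul_comm, ← mul_assoc,
      H.f_inv_f, smul_smul, mul_comm]
  have h4 : d k • d g • (ff ρ h c * ρ k⁻¹ * ee ρ h c * (ρ g⁻¹ * ff ρ h c)) =
      ff ρ h c * ρ k * ee ρ h c * ρ g * ff ρ h c := by
    have e1 : ff ρ h c * ρ k⁻¹ * ee ρ h c * (ρ g⁻¹ * ff ρ h c) =
        (ff ρ h c * ρ k⁻¹ * ee ρ h c) * (ee ρ h c * ρ g⁻¹ * ff ρ h c) := by
      simp only [mul_assoc]; rw [← mul_assoc (ee ρ h c) (ee ρ h c), H.e_mul_e]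
    rw [e1, ← mul_smul_comm, H.e_inv_f, ← smul_mul_assoc, H.f_inv_e, neg_mul_neg]
    simp only [mul_assoc]; rw [← mul_assoc (ee ρ h c) (ee ρ h c), H.e_mul_e]
  rw [_root_.mul_inv_rev, map_mul, map_mul, mul_comm (d g), mul_smul] at h1
  rw [px, sub_smul, ← h1, ← h3, ← h4]
  simp only [mul_assoc] at h2 ⊢
  rw [h2, smul_add, smul_add]; abel

lemma e_inv_e (g : G) : d g • (ee ρ h c * ρ g⁻¹ * ee ρ h c) = pd h c t g • ee ρ h c := by
  have := congrArg (fun X => ee ρ h c * X) (H.f_g g)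
  simpa only [mul_add, mul_smul_comm, mul_one, ← mul_assoc, H.e_mul_f, zero_mul, zero_add]
    using this

lemma egfke' (g k : G) (X : B) :
    ee ρ h c * (ρ g * (ff ρ h c * (ρ k * (ee ρ h c * X)))) = px h c t g k • (ee ρ h c * X) := by
  rw [← smul_mul_assoc, ← H.egfke]; simp only [mul_assoc]
lemma fkegf' (g k : G) (X : B) :
    ff ρ h c * (ρ k * (ee ρ h c * (ρ g * (ff ρ h c * X)))) = px h c t g k • (ff ρ h c * X) := by
  rw [← smul_mul_assoc, ← H.fkegf]; simp only [mul_assoc]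

lemma ext_ef (hB : ∀ s : T, s • (1 : B) = 0 → s = 0) {s s' : T}
    (h1 : s • ee ρ h c = s' • ee ρ h c) (h2 : s • ff ρ h c = s' • ff ρ h c) : s = s' := by
  refine sub_eq_zero.1 (hB _ ?_)
  rw [← H.e_add_f, smul_add, sub_smul, sub_smul, h1, h2, sub_self, sub_self, add_zero]

/-- **BLR/Wiles**: the Cayley–Hamilton identity makes `t` an odd pseudo-representation -/
theorem isPs (hB : ∀ s : T, s • (1 : B) = 0 → s = 0) : IsPs h c t := by
  have ee1 : ∀ X : B, ee ρ h c * (ee ρ h c * X) = ee ρ h c * X := fun X => by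
    rw [← mul_assoc, H.e_mul_e]
  have ff1 : ∀ X : B, ff ρ h c * (ff ρ h c * X) = ff ρ h c * X := fun X => by
    rw [← mul_assoc, H.f_mul_f]
  refine ⟨H.half, H.cc, ?_, ?_, fun g k g' k' => H.ext_ef hB ?_ ?_, fun g k l => H.ext_ef hB ?_ ?_,
    fun g k l => H.ext_ef hB ?_ ?_, fun g k => H.ext_ef hB ?_ ?_, fun g => H.ext_ef hB ?_ ?_⟩
  · refine sub_eq_zero.1 (hB _ ?_)
    have := H.ch 1
    simp only [map_one, inv_one, one_smul] at this
    rw [sub_smul, ← this, two_smul, sub_self]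
  · refine hB _ ?_
    rw [← H.ch, H.dc, H.cinv, neg_one_smul, add_neg_cancel]
  · have a := H.egfke' g k (ρ g' * (ff ρ h c * (ρ k' * (ee ρ h c * 1))))
    rw [H.fkegf' g' k, H.egfke' g' k', mul_smul_comm, mul_smul_comm, H.egfke', smul_smul, smul_smul,
      mul_one] at a
    rw [← a, mul_comm]
  · have a := H.fkegf' g k (ρ k' * (ee ρ h c * (ρ g' * (ff ρ h c * 1))))
    rw [H.egfke' g k', H.fkegf' g' k', mul_smul_comm, mul_smul_comm, H.fkegf', smul_smul, smul_smul,
      mul_one] at a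
    rw [← a]
  · have a := H.split (ee ρ h c * ρ g) (ρ k * (ff ρ h c * (ρ l * (ee ρ h c * 1))))
    have b := H.egfke' (g * k) l 1
    simp only [map_mul, mul_assoc] at a b
    rw [b, H.ege', H.egfke', H.fgf', mul_smul_comm, mul_smul_comm, H.egfke', smul_smul, smul_smul,
      mul_one] at a
    rw [a, add_smul, mul_comm (pd h c t k)]
  · have a := H.split (ff ρ h c * ρ l * ee ρ h c * ρ g) (ρ k * (ff ρ h c * 1))
    have b := H.fkegf' (g * k) l 1
    simp only [map_mul, mul_assoc] at a b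
    rw [b, H.ege', mul_smul_comm, mul_smul_comm, H.fkegf', H.fkegf', H.fgf', smul_smul, smul_smul,
      mul_one] at a
    rw [a, add_smul]
  · have a := H.split (ee ρ h c * ρ l * ff ρ h c * ρ g) (ρ k * (ee ρ h c * 1))
    have b := H.egfke' l (g * k) 1
    simp only [map_mul, mul_assoc] at a b
    rw [b, H.fgf', mul_smul_comm, mul_smul_comm, H.egfke', H.egfke', H.ege', smul_smul, smul_smul,
      mul_one] at a
    rw [a, add_smul]
  · have a := H.split (ff ρ h c * ρ g) (ρ k * (ee ρ h c * (ρ l * (ff ρ h c * 1))))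
    have b := H.fkegf' l (g * k) 1
    simp only [map_mul, mul_assoc] at a b
    rw [b, H.fgf', H.fkegf', H.ege', mul_smul_comm, mul_smul_comm, H.fkegf', smul_smul, smul_smul,
      mul_one] at a
    rw [a, add_smul, mul_comm (pa h c t k)]
  · have h1 := H.e_inv_e (g * k)
    have h2 := H.split (ee ρ h c * ρ k⁻¹) (ρ g⁻¹ * ee ρ h c)
    have h3 : d k • d g • (ee ρ h c * ρ k⁻¹ * ee ρ h c * (ρ g⁻¹ * ee ρ h c)) =
        (pd h c t g * pd h c t k) • ee ρ h c := by
      rw [smul_comm, ← smul_mul_assoc, H.e_inv_e, smul_mul_assoc, smul_comm, ← mul_assoc,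
        H.e_inv_e, smul_smul, mul_comm]
    have h4 : d k • d g • (ee ρ h c * ρ k⁻¹ * ff ρ h c * (ρ g⁻¹ * ee ρ h c)) =
        px h c t k g • ee ρ h c := by
      have e1 : ee ρ h c * ρ k⁻¹ * ff ρ h c * (ρ g⁻¹ * ee ρ h c) =
          (ee ρ h c * ρ k⁻¹ * ff ρ h c) * (ff ρ h c * ρ g⁻¹ * ee ρ h c) := by
        simp only [mul_assoc, ff1]
      rw [e1, ← mul_smul_comm, H.f_inv_e, ← smul_mul_assoc, H.e_inv_f, neg_mul_neg, ← H.egfke]
      simp only [mul_assoc, ff1]
    rw [_root_.mul_inv_rev, map_mul, map_mul, mul_comm (d g), mul_smul] at h1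
    rw [add_smul, ← h1, ← h3, ← h4]
    simp only [mul_assoc] at h2 ⊢
    rw [h2, smul_add, smul_add, add_comm]
  · have a := H.split (ff ρ h c * ρ g) (ρ k * (ff ρ h c * 1))
    have b := H.fgf' (g * k) 1
    simp only [map_mul, mul_assoc] at a b
    rw [b, H.fkegf', H.fgf', H.fgf', smul_smul, mul_one] at a
    rw [a, add_smul]
  · rw [← H.egfke, mul_assoc (ee ρ h c * ρ g), H.f_mul_J, mul_neg, neg_mul, mul_assoc, H.f_mul_e,
      mul_zero, neg_zero, zero_smul]
  · rw [← H.fkegf, H.f_mul_J, neg_mul, H.f_mul_e, neg_zero, zero_mul, zero_mul, zero_smul]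

section unit
variable {g₀ h₀ : G} {u : T} (hu : px h c t g₀ h₀ * u = 1)

/-- matrix unit `E₁₂` -/
def e12 (ρ : G →* B) (h : T) (c g₀ : G) : B := ee ρ h c * ρ g₀ * ff ρ h c
/-- matrix unit `E₂₁` -/
def e21 (ρ : G →* B) (h : T) (c h₀ : G) (u : T) : B := u • (ff ρ h c * ρ h₀ * ee ρ h c)

lemma e_e12 : ee ρ h c * e12 ρ h c g₀ = e12 ρ h c g₀ := by
  simp only [e12, ← mul_assoc, H.e_mul_e]
lemma f_e12 : ff ρ h c * e12 ρ h c g₀ = 0 := by
  simp only [e12, ← mul_assoc, H.f_mul_e, zero_mul]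
lemma e12_e : e12 ρ h c g₀ * ee ρ h c = 0 := by
  simp only [e12, mul_assoc, H.f_mul_e, mul_zero]
lemma e12_f : e12 ρ h c g₀ * ff ρ h c = e12 ρ h c g₀ := by
  simp only [e12, mul_assoc, H.f_mul_f]
lemma e_e21 : ee ρ h c * e21 ρ h c h₀ u = 0 := by
  simp only [e21, mul_smul_comm, ← mul_assoc, H.e_mul_f, zero_mul, smul_zero]
lemma f_e21 : ff ρ h c * e21 ρ h c h₀ u = e21 ρ h c h₀ u := by
  simp only [e21, mul_smul_comm, ← mul_assoc, H.f_mul_f]
lemma e21_e : e21 ρ h c h₀ u * ee ρ h c = e21 ρ h c h₀ u := by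
  simp only [e21, smul_mul_assoc, mul_assoc, H.e_mul_e]
lemma e21_f : e21 ρ h c h₀ u * ff ρ h c = 0 := by
  simp only [e21, smul_mul_assoc, mul_assoc, H.e_mul_f, mul_zero, smul_zero]
lemma e12_e12 : e12 ρ h c g₀ * e12 ρ h c g₀ = 0 := by
  rw [← H.e12_f (g₀ := g₀), mul_assoc, H.e12_f, H.f_e12, mul_zero]
lemma e21_e21 : e21 ρ h c h₀ u * e21 ρ h c h₀ u = 0 := by
  rw [← H.e21_e (h₀ := h₀) (u := u), mul_assoc, H.e21_e, H.e_e21, mul_zero]

include hu

lemma e12_e21 : e12 ρ h c g₀ * e21 ρ h c h₀ u = ee ρ h c := by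
  have := H.egfke g₀ h₀
  rw [e21, mul_smul_comm, ← mul_assoc, ← mul_assoc, H.e12_f, e12, this, smul_smul, mul_comm, hu,
    one_smul]
lemma e21_e12 : e21 ρ h c h₀ u * e12 ρ h c g₀ = ff ρ h c := by
  have := H.fkegf g₀ h₀
  rw [e12, ← mul_assoc, ← mul_assoc, H.e21_e, e21, smul_mul_assoc, smul_mul_assoc, this, smul_smul,
    mul_comm, hu, one_smul]

lemma egf (g : G) : ee ρ h c * ρ g * ff ρ h c = (px h c t g h₀ * u) • e12 ρ h c g₀ := by
  conv_lhs => rw [← H.f_mul_f, ← mul_assoc, ← H.e21_e12 hu, ← mul_assoc]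
  nth_rewrite 1 [H.e21_e12 hu]
  rw [e21, mul_smul_comm, ← mul_assoc, ← mul_assoc, mul_assoc (ee ρ h c * ρ g), H.f_mul_f,
    H.egfke, smul_smul, smul_mul_assoc, H.e_e12, mul_comm u]

lemma fge (g : G) : ff ρ h c * ρ g * ee ρ h c = px h c t g₀ g • e21 ρ h c h₀ u := by
  have a : ff ρ h c * ρ g * ee ρ h c =
      e21 ρ h c h₀ u * (e12 ρ h c g₀ * ρ g * ee ρ h c) := by
    rw [← mul_assoc, ← mul_assoc, H.e21_e12 hu]
  rw [a, e12, H.egfke, mul_smul_comm, H.e21_e]

/-- the algebra map `M₂(T) → B` -/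
def phi : M2 T →ₐ[T] B :=
  AlgHom.ofLinearMap
    { toFun := fun M => M 0 0 • ee ρ h c + M 0 1 • e12 ρ h c g₀ + M 1 0 • e21 ρ h c h₀ u +
        M 1 1 • ff ρ h c
      map_add' := fun M N => by simp only [Matrix.add_apply, add_smul]; abel
      map_smul' := fun s M => by
        simp only [Matrix.smul_apply, smul_eq_mul, mul_smul, smul_add, RingHom.id_apply] }
    (by simpa using H.e_add_f)
    (fun M N => by
      simp only [LinearMap.coe_mk, AddHom.coe_mk, mul_apply, Fin.sum_univ_two, add_smul, mul_add,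
        add_mul, smul_mul_assoc, mul_smul_comm, H.e_mul_e, H.e_mul_f, H.f_mul_e,
        H.f_mul_f, H.e_e12, H.f_e12, H.e12_e, H.e12_f, H.e_e21, H.f_e21, H.e21_e, H.e21_f,
        H.e12_e12, H.e21_e21, H.e12_e21 hu, H.e21_e12 hu, smul_zero, add_zero, zero_add]
      module)

lemma phi_apply (M : M2 T) : H.phi hu M = M 0 0 • ee ρ h c + M 0 1 • e12 ρ h c g₀ +
    M 1 0 • e21 ρ h c h₀ u + M 1 1 • ff ρ h c := rfl

/-- `ρ` factors through the representation attached to `t` -/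
theorem phi_rep (P : IsPs h c t) (g : G) : H.phi hu (P.rep g₀ h₀ u hu g) = ρ g := by
  rw [phi_apply, IsPs.rep_apply]
  simp only [of_apply, cons_val', cons_val_zero, cons_val_one, cons_val_fin_one]
  rw [← H.ege, ← H.fgf, ← H.egf hu, ← H.fge hu]
  conv_rhs => rw [← one_mul (ρ g), ← mul_one (1 * ρ g), ← H.e_add_f]
  simp only [add_mul, mul_add]; abel

theorem phi_injective (hB : ∀ s : T, s • (1 : B) = 0 → s = 0) :
    Function.Injective (H.phi hu) := by
  have he : ∀ s : T, s • ee ρ h c = 0 → s = 0 := fun s hs => by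
    refine H.ext_ef hB (by rw [hs, zero_smul]) ?_
    rw [zero_smul, ← H.e21_e12 hu, ← H.e_e12, ← mul_smul_comm, ← smul_mul_assoc, hs, zero_mul,
      mul_zero]
  rw [injective_iff_map_eq_zero]
  intro M hM
  have key : ∀ (i j : Fin 2), M i j = 0 := fun i j => by
    have h1 : (Matrix.single 0 i 1 * M * Matrix.single j 0 1 : M2 T) = !![M i j, 0; 0, 0] := by
      ext a b
      fin_cases a <;> fin_cases b <;> fin_cases i <;> fin_cases j <;>
        simp [mul_apply, Matrix.single]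
    have h2 := congrArg (H.phi hu) h1
    rw [map_mul, map_mul, hM, mul_zero, zero_mul, phi_apply] at h2
    apply he
    simpa using h2.symm
  ext i j; exact key i j

theorem det_rep (hB : ∀ s : T, s • (1 : B) = 0 → s = 0) (P : IsPs h c t) (g : G) :
    (P.rep g₀ h₀ u hu g).det = d g := by
  set σ := P.rep g₀ h₀ u hu with hσ
  have h1 : σ g + d g • σ g⁻¹ = t g • (1 : M2 T) := H.phi_injective hu hB (by
    rw [map_add, map_smul, map_smul, map_one, hσ, H.phi_rep hu, H.phi_rep hu, H.ch])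
  have h2 : σ g * σ g⁻¹ = 1 := by rw [← map_mul, mul_inv_cancel, map_one]
  have h3 := congrArg (σ g * ·) h1
  simp only [mul_add, mul_smul_comm, h2, mul_one] at h3
  have h4 := congrFun (congrFun h3 0) 0
  have h5 := P.trace_rep hu g
  rw [← hσ, trace_fin_two] at h5
  simp only [Matrix.add_apply, mul_apply, Fin.sum_univ_two, Matrix.smul_apply, one_apply_eq,
    smul_eq_mul, mul_one] at h4
  rw [det_fin_two]
  linear_combination σ g 0 0 * h5 - h4

end unit

end CH

/-! ### consumer form: a commutative ring of operators commuting with `G` -/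

section consumer
variable {O : Type*} [CommRing O] {E : Type*} [Ring E] [Algebra O E] {R : Type*} [CommRing R]
  [Algebra O R]

/-- **BLR**, in an `O`-algebra `E` (e.g. `Module.End O H`). -/
theorem blr (ρ : G →* E) (ι : R →ₐ[O] E) (hι : Function.Injective ι)
    (hcomm : ∀ s g, ι s * ρ g = ρ g * ι s) (d : G →* R) (t : G → R)
    (hCH : ∀ g, ρ g + ι (d g) * ρ g⁻¹ = ι (t g)) {h : R} (h2 : 2 * h = 1) {c : G}
    (hc : c * c = 1) (hd : d c = -1) :
    ∃ P : IsPs h c t, ∀ (g₀ h₀ : G) (u : R) (hu : px h c t g₀ h₀ * u = 1),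
      (∀ g, (P.rep g₀ h₀ u hu g).det = d g) ∧
      ∃ Φ : M2 R →ₐ[O] E, Function.Injective Φ ∧ (∀ g, Φ (P.rep g₀ h₀ u hu g) = ρ g) ∧
        ∀ s, Φ (s • 1) = ι s := by
  let C : Subalgebra O E := Subalgebra.centralizer O (Set.range ι)
  have hιC : ∀ s, ι s ∈ C := fun s => by
    rw [Subalgebra.mem_centralizer_iff]
    rintro _ ⟨s', rfl⟩
    rw [← map_mul, mul_comm, map_mul]
  have hρC : ∀ g, ρ g ∈ C := fun g => by
    rw [Subalgebra.mem_centralizer_iff]
    rintro _ ⟨s', rfl⟩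
    exact hcomm s' g
  let ι' : R →ₐ[O] C := ι.codRestrict C hιC
  let _ : Algebra R C := ι'.toRingHom.toAlgebra' fun s x => Subtype.ext
    ((Subalgebra.mem_centralizer_iff O).1 x.2 _ ⟨s, rfl⟩)
  have hsm : ∀ (s : R) (x : C), ((s • x : C) : E) = ι s * x := fun s x => rfl
  have _ : IsScalarTower O R C := IsScalarTower.of_algebraMap_eq fun r => (ι'.commutes r).symm
  let ρ' : G →* C := ρ.codRestrict C.toSubmonoid hρC
  have H : CH ρ' d t h c := ⟨fun g => Subtype.ext (by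
    rw [hsm, Subalgebra.coe_add, hsm, Subalgebra.coe_one, mul_one]; exact hCH g), h2, hc, hd⟩
  have hB : ∀ s : R, s • (1 : C) = 0 → s = 0 := fun s hs => hι (by
    have := congrArg Subtype.val hs
    rwa [hsm, Subalgebra.coe_one, mul_one, Subalgebra.coe_zero, ← map_zero ι] at this)
  refine ⟨H.isPs hB, fun g₀ h₀ u hu => ⟨H.det_rep hu hB _, C.val.comp
    ((H.phi hu).restrictScalars O), Subtype.val_injective.comp (H.phi_injective hu hB),
    fun g => ?_, fun s => ?_⟩⟩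
  · exact congrArg Subtype.val (H.phi_rep hu _ g)
  · show ((H.phi hu (s • 1) : C) : E) = ι s
    rw [map_smul, map_one, hsm, Subalgebra.coe_one, mul_one]

variable {H : Type*} [AddCommGroup H] [Module O H]

/-- a vector as the first column of a matrix -/
def col0 (w : Fin 2 → R) : M2 R := !![w 0, 0; w 1, 0]

lemma col0_mulVec (M : M2 R) (w : Fin 2 → R) : col0 (M *ᵥ w) = M * col0 w := by
  ext i j
  fin_cases i <;> fin_cases j <;> simp [col0, mul_apply, mulVec, dotProduct, Fin.sum_univ_two]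

/-- the map `R² → H` attached to `v ∈ H` -/
def emb (Φ : M2 R →ₐ[O] Module.End O H) (v : H) : (Fin 2 → R) →ₗ[O] H where
  toFun w := Φ (col0 w) v
  map_add' w w' := by
    rw [← LinearMap.add_apply, ← map_add]; congr 2
    ext i j; fin_cases i <;> fin_cases j <;> simp [col0]
  map_smul' r w := by
    rw [RingHom.id_apply, ← LinearMap.smul_apply, ← map_smul]; congr 2
    ext i j; fin_cases i <;> fin_cases j <;> simp [col0]

lemma emb_mulVec (Φ : M2 R →ₐ[O] Module.End O H) (v : H) (M : M2 R) (w : Fin 2 → R) :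
    emb Φ v (M *ᵥ w) = Φ M (emb Φ v w) := by
  show Φ (col0 (M *ᵥ w)) v = _
  rw [col0_mulVec, map_mul]; rfl

lemma emb_smul (Φ : M2 R →ₐ[O] Module.End O H) (v : H) (s : R) (w : Fin 2 → R) :
    emb Φ v (s • w) = Φ (s • 1) (emb Φ v w) := by
  rw [← emb_mulVec, smul_mulVec, one_mulVec]

/-- `R²` embeds in `H^κ` -/
theorem emb_injective {Φ : M2 R →ₐ[O] Module.End O H} (hΦ : Function.Injective Φ) {κ : Type*}
    {v : κ → H} (hv : Submodule.span O (Set.range v) = ⊤) :
    Function.Injective (LinearMap.pi fun i => emb Φ (v i)) := by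
  rw [injective_iff_map_eq_zero]
  intro w hw
  have h1 : Φ (col0 w) = 0 := LinearMap.ext_on_range hv fun i => congrFun hw i
  have h2 : col0 w = 0 := hΦ (by rw [h1, map_zero])
  ext i
  fin_cases i
  · simpa [col0] using congrFun (congrFun h2 0) 0
  · simpa [col0] using congrFun (congrFun h2 1) 0

/-- every vector of `H` is a sum of two vectors in images of `R²` -/
theorem emb_sum (Φ : M2 R →ₐ[O] Module.End O H) (v : H) :
    emb Φ v ![1, 0] + emb Φ (Φ !![0, 1; 0, 0] v) ![0, 1] = v := by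
  show Φ (col0 _) v + (Φ (col0 _) * Φ _) v = v
  rw [← map_mul, ← LinearMap.add_apply, ← map_add]
  have : (col0 ![1, 0] + col0 ![0, 1] * !![0, 1; 0, 0] : M2 R) = 1 := by
    ext i j; fin_cases i <;> fin_cases j <;> simp [col0]
  rw [this, map_one, Module.End.one_apply]

/-- **BLR on a module**, residually irreducible local case: the representation `σ` over `R`, its
trace, determinant, kernel, residual representation, and the equivariant maps `R² → H`, jointly
injective and jointly surjective. -/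
theorem blr_mod {k : Type*} [Field k] (π : R →+* k) [IsLocalHom π] {ρ₀ : G →* M2 k} (hirr : Irr ρ₀)
    (ρ : G →* Module.End O H) (ι : R →ₐ[O] Module.End O H) (hι : Function.Injective ι)
    (hcomm : ∀ s g, ι s * ρ g = ρ g * ι s) (d : G →* R) (t : G → R)
    (hCH : ∀ g, ρ g + ι (d g) * ρ g⁻¹ = ι (t g)) (ht : ∀ g, π (t g) = (ρ₀ g).trace)
    {h : R} (h2 : 2 * h = 1) {c : G} (hc : c * c = 1) (hd : d c = -1) :
    ∃ (σ : G →* M2 R) (P : GL (Fin 2) k) (j : H → (Fin 2 → R) →ₗ[O] H),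
      (∀ g, (σ g).trace = t g) ∧ (∀ g, (σ g).det = d g) ∧ σ c = !![1, 0; 0, -1] ∧
      (∀ g g', σ g = σ g' ↔ ρ g = ρ g') ∧ (∀ g, (σ g).map π = conj ρ₀ P g) ∧
      (∀ v g w, j v (σ g *ᵥ w) = ρ g (j v w)) ∧ (∀ v s w, j v (s • w) = ι s (j v w)) ∧
      (∀ (S : Set H), Submodule.span O S = ⊤ → ∀ w, (∀ v ∈ S, j v w = 0) → w = 0) ∧
      ∃ b : Module.End O H, ∀ v, j v ![1, 0] + j (b v) ![0, 1] = v := by
  obtain ⟨P, hP⟩ := blr ρ ι hι hcomm d t hCH h2 hc hd
  obtain ⟨g₀, h₀, hx⟩ := exists_unit π hirr ht h2 hc P.tc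
  obtain ⟨u, hu⟩ := hx.exists_right_inv
  obtain ⟨hdet, Φ, hΦ, hρ, hs⟩ := hP g₀ h₀ u hu
  have h5 : 2 * π h = 1 := by simpa [map_ofNat] using congrArg π h2
  obtain ⟨Q, hQ⟩ := conj_of_trace_eq ρ₀ (π.mapMatrix.toMonoidHom.comp (P.rep g₀ h₀ u hu))
    (fun g => by rw [← ht, ← P.trace_rep hu]; simp [trace_fin_two]) h5 hc
    (by rw [← ht, P.tc, map_zero]) (g₀ := g₀) (h₀ := h₀) (by
      rw [← show π ∘ t = fun g => (ρ₀ g).trace from funext ht, ← map_px]; exact hx.map π)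
  refine ⟨P.rep g₀ h₀ u hu, Q, emb Φ, P.trace_rep hu, hdet, P.rep_c hu, fun g g' => ?_,
    fun g => by rw [hQ]; rfl, fun v g w => by rw [emb_mulVec, hρ],
    fun v s w => by rw [emb_smul, hs], fun S hS w hw => ?_, Φ !![0, 1; 0, 0], emb_sum Φ⟩
  · rw [← hρ, ← hρ, hΦ.eq_iff]
  · refine (injective_iff_map_eq_zero _).1
      (emb_injective hΦ (v := ((↑) : S → H)) (by rwa [Subtype.range_coe])) w ?_
    ext i; exact hw i i.2

end consumer

/-! ### where the hypothesis comes from -/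

section source
variable {E : Type*} [Ring E]

/-- the operator `g + D(g) g⁻¹` -/
def tr (ρ D : G →* E) (g : G) : E := ρ g + D g * ρ g⁻¹

/-- Eichler–Shimura on a set of representatives of the conjugacy classes (Chebotarev) gives the
operator at every `g`. -/
lemma tr_conj (ρ D : G →* E) (hD : ∀ g k, D g * ρ k = ρ k * D g) {g φ : G} (k : G)
    (h1 : ρ g = ρ (k * φ * k⁻¹)) (h2 : D g = D φ) (h3 : tr ρ D φ * ρ k = ρ k * tr ρ D φ) :
    tr ρ D g = tr ρ D φ := by
  have hk : ρ k * ρ k⁻¹ = 1 := by rw [← map_mul, mul_inv_cancel, map_one]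
  have h4 : ρ g⁻¹ = ρ (k * φ⁻¹ * k⁻¹) := by
    have a : ρ g⁻¹ * ρ g = 1 := by rw [← map_mul, inv_mul_cancel, map_one]
    have b : ρ g * ρ (k * φ⁻¹ * k⁻¹) = 1 := by rw [h1, ← map_mul]; simp
    rw [← mul_one (ρ g⁻¹), ← b, ← mul_assoc, a, one_mul]
  have h5 : tr ρ D g = ρ k * tr ρ D φ * ρ k⁻¹ := by
    rw [tr, tr, h1, h4, h2]
    simp only [map_mul, mul_add, add_mul, ← mul_assoc, hD φ k]
  rw [h5, ← h3, mul_assoc, hk, mul_one]

/-- if all `tr g` commute with `G`, they commute with each other -/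
lemma tr_comm (ρ D : G →* E) (hT : ∀ g k, tr ρ D g * ρ k = ρ k * tr ρ D g)
    (hD : ∀ g k, tr ρ D g * D k = D k * tr ρ D g) (g k : G) :
    tr ρ D g * tr ρ D k = tr ρ D k * tr ρ D g := by
  have : tr ρ D k = ρ k + D k * ρ k⁻¹ := rfl
  rw [this, mul_add, add_mul, hT, ← mul_assoc, hD, mul_assoc, hT, mul_assoc]

end source

end Crest.Agent.T15.Blr

end
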