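import Mathlib
import Crest.Agent.T15.MumA_4

/-!
# Row 15, block Ht: the Mumford pair of a meromorphic family is meromorphic (helper4)
-/

set_option autoImplicit false

open Polynomial Filter Topology

noncomputable section

namespace Crest.Agent.T15.Mum

/-- a field of germs of functions, with chosen representatives -/
structure Sp {T M k : Type*} [Field M] [Field k] (l : Filter T) (ι : k →+* M) (ρ : M → T → k) :
    Prop where
  zero : ∀ t, ρ 0 t = 0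
  add : ∀ a b, ∀ᶠ t in l, ρ (a + b) t = ρ a t + ρ b t
  mul : ∀ a b, ∀ᶠ t in l, ρ (a * b) t = ρ a t * ρ b t
  const : ∀ c, ∀ᶠ t in l, ρ (ι c) t = c

section Sp

variable {T M k : Type*} [Field M] [Field k] {l : Filter T} {ι : k →+* M} {ρ : M → T → k}

/-- specialisation of a polynomial -/
def rep (ρ : M → T → k) (p : M[X]) (t : T) : k[X] := p.sum fun n a => monomial n (ρ a t)

lemma Sp.one (h : Sp l ι ρ) : ∀ᶠ t in l, ρ 1 t = 1 := by simpa using h.const 1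

lemma Sp.coeff_rep (h : Sp l ι ρ) (p : M[X]) (t : T) (n : ℕ) :
    (rep ρ p t).coeff n = ρ (p.coeff n) t := by
  classical
  rw [rep, Polynomial.sum, finsetSum_coeff]
  simp only [coeff_monomial, Finset.sum_ite_eq', mem_support_iff]
  split_ifs with h0
  · rfl
  · rw [not_not.1 h0, h.zero]

/-- constants -/
def Sp.γ (h : Sp l ι ρ) : M →+* Germ l k[X] where
  toFun a := ((fun t => C (ρ a t) : T → k[X]) : Germ l k[X])
  map_one' := Germ.coe_eq.2 (h.one.mono fun t ht => by simp [ht])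
  map_mul' a b := Germ.coe_eq.2 ((h.mul a b).mono fun t ht => by simp [ht])
  map_zero' := Germ.coe_eq.2 (Eventually.of_forall fun t => by simp [h.zero])
  map_add' a b := Germ.coe_eq.2 ((h.add a b).mono fun t ht => by simp [ht])

/-- polynomials -/
def Sp.Ψ (h : Sp l ι ρ) : M[X] →+* Germ l k[X] :=
  eval₂RingHom h.γ ((fun _ => X : T → k[X]) : Germ l k[X])

lemma Sp.Ψ_eq (h : Sp l ι ρ) (p : M[X]) : h.Ψ p = (rep ρ p : Germ l k[X]) := by
  have : rep ρ p = ∑ n ∈ p.support, (fun t => C (ρ (p.coeff n) t)) * (fun _ => X) ^ n := by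
    funext t
    simp [rep, Polynomial.sum, C_mul_X_pow_eq_monomial]
  rw [this, Sp.Ψ, coe_eval₂RingHom, eval₂_eq_sum, Polynomial.sum, ← Germ.coe_coeRingHom, map_sum]
  refine Finset.sum_congr rfl fun n _ => ?_
  rw [map_mul, map_pow]
  rfl

lemma Sp.rep_mul (h : Sp l ι ρ) (p q : M[X]) :
    ∀ᶠ t in l, rep ρ (p * q) t = rep ρ p t * rep ρ q t := by
  have := map_mul h.Ψ p q
  rw [h.Ψ_eq, h.Ψ_eq, h.Ψ_eq] at this
  exact Germ.coe_eq.1 this

lemma Sp.rep_sub (h : Sp l ι ρ) (p q : M[X]) :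
    ∀ᶠ t in l, rep ρ (p - q) t = rep ρ p t - rep ρ q t := by
  have := map_sub h.Ψ p q
  rw [h.Ψ_eq, h.Ψ_eq, h.Ψ_eq] at this
  exact Germ.coe_eq.1 this

lemma Sp.rep_neg (h : Sp l ι ρ) (p : M[X]) : ∀ᶠ t in l, rep ρ (-p) t = -rep ρ p t := by
  have := map_neg h.Ψ p
  rw [h.Ψ_eq, h.Ψ_eq] at this
  exact Germ.coe_eq.1 this

lemma Sp.rep_C (h : Sp l ι ρ) (a : M) (t : T) : rep ρ (C a) t = C (ρ a t) := by
  ext n
  rw [h.coeff_rep, coeff_C, coeff_C]
  split_ifs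
  · rfl
  · exact h.zero t

lemma Sp.rep_X (h : Sp l ι ρ) : ∀ᶠ t in l, rep ρ X t = X := by
  have : h.Ψ X = ((fun _ => X : T → k[X]) : Germ l k[X]) := by simp [Sp.Ψ]
  rw [h.Ψ_eq] at this
  exact Germ.coe_eq.1 this

lemma Sp.rep_lin (h : Sp l ι ρ) (a : M) : ∀ᶠ t in l, rep ρ (X - C a) t = X - C (ρ a t) := by
  filter_upwards [h.rep_sub X (C a), h.rep_X] with t h1 h2
  rw [h1, h2, h.rep_C]

lemma Sp.rep_map (h : Sp l ι ρ) (F : k[X]) : ∀ᶠ t in l, rep ρ (F.map ι) t = F := by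
  filter_upwards [(eventually_all_finset F.support).2 fun n _ => h.const (F.coeff n)] with t ht
  ext n
  rw [h.coeff_rep, coeff_map]
  by_cases hn : n ∈ F.support
  · exact ht n hn
  · rw [notMem_support_iff.1 hn, map_zero, h.zero]

lemma Sp.rep_dvd (h : Sp l ι ρ) {p q : M[X]} (hd : p ∣ q) : ∀ᶠ t in l, rep ρ p t ∣ rep ρ q t := by
  obtain ⟨s, rfl⟩ := hd
  filter_upwards [h.rep_mul p s] with t ht
  exact ⟨_, ht⟩

lemma Sp.rep_eval (h : Sp l ι ρ) (p : M[X]) (a : M) :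
    ∀ᶠ t in l, (rep ρ p t).eval (ρ a t) = ρ (p.eval a) t := by
  filter_upwards [h.rep_dvd (X_sub_C_dvd_sub_C_eval (p := p) (a := a)), h.rep_lin a,
    h.rep_sub p (C (p.eval a))] with t h1 h2 h3
  rw [h2, h3, h.rep_C, dvd_iff_isRoot] at h1
  simpa [sub_eq_zero] using h1

lemma Sp.degree_le (h : Sp l ι ρ) (p : M[X]) (t : T) : (rep ρ p t).degree ≤ p.degree := by
  rw [degree_le_iff_coeff_zero]
  intro m hm
  rw [h.coeff_rep, coeff_eq_zero_of_degree_lt hm, h.zero]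

lemma Sp.monic (h : Sp l ι ρ) {p : M[X]} (hp : p.Monic) :
    ∀ᶠ t in l, (rep ρ p t).Monic ∧ (rep ρ p t).degree = p.degree := by
  filter_upwards [h.one] with t ht
  have h1 : (rep ρ p t).coeff p.natDegree = 1 := by rw [h.coeff_rep, hp.coeff_natDegree, ht]
  have h2 := h.degree_le p t
  rw [degree_eq_natDegree hp.ne_zero] at h2 ⊢
  exact ⟨monic_of_degree_le _ h2 h1, degree_eq_of_le_of_coeff_ne_zero h2 (by simp [h1])⟩

lemma Sp.ne_zero (h : Sp l ι ρ) {c : M} (hc : c ≠ 0) : ∀ᶠ t in l, ρ c t ≠ 0 := by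
  filter_upwards [h.mul c c⁻¹, h.one] with t h1 h2
  rw [mul_inv_cancel₀ hc, h2] at h1
  exact left_ne_zero_of_mul_eq_one h1.symm

lemma Sp.neg (h : Sp l ι ρ) (c : M) : ∀ᶠ t in l, ρ (-c) t = -ρ c t := by
  filter_upwards [h.add c (-c)] with t h1
  rw [add_neg_cancel, h.zero] at h1
  linear_combination -h1

lemma Sp.rep_sub_sq (h : Sp l ι ρ) (F : k[X]) (v : M[X]) :
    ∀ᶠ t in l, rep ρ (F.map ι - v ^ 2) t = F - rep ρ v t ^ 2 := by
  filter_upwards [h.rep_sub (F.map ι) (v ^ 2), h.rep_map F, h.rep_mul v v] with t h1 h2 h3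
  rw [h1, h2, sq, sq, h3]

lemma Sp.on (h : Sp l ι ρ) {F : k[X]} {x w : M} (hw : w ^ 2 = (F.map ι).eval x) :
    ∀ᶠ t in l, ρ w t ^ 2 = F.eval (ρ x t) := by
  filter_upwards [h.rep_eval (F.map ι) x, h.rep_map F, h.mul w w] with t h1 h2 h3
  rw [h2, ← hw, sq, h3] at h1
  rw [h1, sq]

variable {A : Type*} [AddCommGroup A] {F : k[X]} {g : ℕ} {cl : k × k → A}

lemma Sp.rules (h : Sp l ι ρ) (hc : Cls F g cl) : Rules (F.map ι) fun u v D =>
    ∀ᶠ t in l, Phi cl (rep ρ u t) (rep ρ v t) = (D.map fun p => cl (ρ p.1 t, ρ p.2 t)).sum where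
  r0 := Eventually.of_forall fun t => by
    rw [← C_1, h.rep_C, Phi_C]; simp
  r1 u v v' D _ hd hP := by
    filter_upwards [hP, h.rep_dvd hd, h.rep_sub v' v] with t h1 h2 h3
    rw [h3] at h2
    rw [Phi_congr h2, h1]
  r2 u v D x hu hP := by
    filter_upwards [hP, h.rep_mul (X - C x) u, h.rep_lin x, h.monic hu, h.rep_eval v x]
      with t h1 h2 h3 h4 h5
    rw [h2, h3, Phi_mul ((monic_X_sub_C _).mul h4.1).ne_zero, Phi_lin, h1, h5]; simp
  r3 u v D x w hu hw hv hP := by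
    filter_upwards [hP, h.rep_mul (X - C x) u, h.rep_lin x, h.monic hu, h.rep_eval v x,
      h.neg w, h.on hw] with t h1 h2 h3 h4 h5 h6 h7
    rw [h2, h3, Phi_mul ((monic_X_sub_C _).mul h4.1).ne_zero, Phi_lin, h5, hv, h6] at h1
    rw [Multiset.map_cons, Multiset.sum_cons, ← h1, ← add_assoc, hc.a2 _ _ h7, zero_add]
  r4 u u' v c D _ _ hc0 he hP := by
    filter_upwards [hP, h.rep_mul u u', h.rep_mul (C c) (F.map ι - v ^ 2), h.rep_sub_sq F v,
      h.ne_zero hc0, h.rep_neg v] with t h1 h2 h3 h4 h5 h6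
    rw [he, h3, h4, h.rep_C] at h2
    rw [h6, hc.Phi_flip h5 h2.symm, h1]

theorem Sp.fam [IsAlgClosed k] (h : Sp l ι ρ) (hc : Cls F g cl) (D : Multiset (M × M))
    (hD : ∀ p ∈ D, p.2 ^ 2 = (F.map ι).eval p.1) : ∃ u v : M[X], Red (F.map ι) g u v ∧
      ∀ᶠ t in l, mum F g cl (D.map fun p => cl (ρ p.1 t, ρ p.2 t)).sum = (rep ρ u t, rep ρ v t) := by
  obtain ⟨u, v, r, hP⟩ := (h.rules hc).cantor (g := g) (by rw [natDegree_map, hc.deg]) D hD
  refine ⟨u, v, r, ?_⟩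
  filter_upwards [hP, h.monic r.monic, h.rep_dvd r.dvd, h.rep_sub_sq F v] with t h1 h2 h3 h4
  refine hc.mum_eq ⟨h2.1, ?_, ?_, h4 ▸ h3⟩ h1
  · rw [natDegree_eq_of_degree_eq h2.2]; exact r.deg
  · rw [h2.2]; exact (h.degree_le v t).trans_lt r.lt

end Sp

/-- meromorphic germs at a point -/
def MG (t₀ : ℂ) : Subring (Germ (𝓝[≠] t₀) ℂ) where
  carrier := {a | ∃ f : ℂ → ℂ, MeromorphicAt f t₀ ∧ (f : Germ (𝓝[≠] t₀) ℂ) = a}
  mul_mem' := by
    rintro _ _ ⟨f, hf, rfl⟩ ⟨f', hf', rfl⟩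
    exact ⟨f * f', hf.mul hf', rfl⟩
  one_mem' := ⟨fun _ => 1, .const 1 t₀, rfl⟩
  add_mem' := by
    rintro _ _ ⟨f, hf, rfl⟩ ⟨f', hf', rfl⟩
    exact ⟨f + f', hf.add hf', rfl⟩
  zero_mem' := ⟨fun _ => 0, .const 0 t₀, rfl⟩
  neg_mem' := by
    rintro _ ⟨f, hf, rfl⟩
    exact ⟨-f, hf.neg, rfl⟩

lemma MG.isField (t₀ : ℂ) : IsField (MG t₀) where
  exists_pair_ne := ⟨0, 1, fun h => by
    have h1 : ((fun _ => 0 : ℂ → ℂ) : Germ (𝓝[≠] t₀) ℂ) = (fun _ => 1 : ℂ → ℂ) :=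
      congrArg Subtype.val h
    exact zero_ne_one (Germ.coe_eq.1 h1).exists.choose_spec⟩
  mul_comm := mul_comm
  mul_inv_cancel := by
    rintro ⟨_, f, hf, rfl⟩ h0
    refine ⟨⟨_, f⁻¹, hf.inv, rfl⟩, Subtype.ext ?_⟩
    rcases hf.eventually_eq_zero_or_eventually_ne_zero with h | h
    · exact (h0 (Subtype.ext (Germ.coe_eq.2 h))).elim
    · exact Germ.coe_eq.2 (h.mono fun t ht => mul_inv_cancel₀ ht)

open Classical in
/-- chosen representative -/
def MG.ρ (t₀ : ℂ) (a : MG t₀) : ℂ → ℂ := if a = 0 then fun _ => 0 else a.2.choose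

lemma MG.ρ_spec (t₀ : ℂ) (a : MG t₀) :
    MeromorphicAt (MG.ρ t₀ a) t₀ ∧ (MG.ρ t₀ a : Germ (𝓝[≠] t₀) ℂ) = a := by
  unfold MG.ρ
  split_ifs with h
  · exact ⟨.const 0 t₀, by rw [h]; rfl⟩
  · exact a.2.choose_spec

/-- constants -/
def MG.ι (t₀ : ℂ) : ℂ →+* MG t₀ :=
  ((Germ.coeRingHom (𝓝[≠] t₀)).comp (Pi.constRingHom ℂ ℂ)).codRestrict _
    fun c => ⟨fun _ => c, .const c t₀, rfl⟩

variable {A : Type*} [AddCommGroup A] {F : ℂ[X]} {g : ℕ} {cl : ℂ × ℂ → A}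

/-- **(FAM)**, points -/
theorem Cls.fam (hc : Cls F g cl) {t₀ : ℂ} {J : Type*} [Fintype J] {x w : J → ℂ → ℂ}
    (hx : ∀ j, MeromorphicAt (x j) t₀) (hw : ∀ j, MeromorphicAt (w j) t₀)
    (on : ∀ j, ∀ᶠ t in 𝓝[≠] t₀, w j t ^ 2 = F.eval (x j t)) {a : ℂ → A}
    (ha : ∀ᶠ t in 𝓝[≠] t₀, a t = ∑ j, cl (x j t, w j t)) (n : ℕ) :
    MeromorphicAt (fun t => (mum F g cl (a t)).1.coeff n) t₀ ∧
      MeromorphicAt (fun t => (mum F g cl (a t)).2.coeff n) t₀ := by
  let _ : Field (MG t₀) := (MG.isField t₀).toField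
  have eq : ∀ {a : MG t₀} {f : ℂ → ℂ}, (f : Germ (𝓝[≠] t₀) ℂ) = a →
      ∀ᶠ t in 𝓝[≠] t₀, MG.ρ t₀ a t = f t := fun {a f} h =>
    Germ.coe_eq.1 ((MG.ρ_spec t₀ a).2.trans h.symm)
  have sp : Sp (𝓝[≠] t₀) (MG.ι t₀) (MG.ρ t₀) :=
    { zero := fun t => by simp [MG.ρ]
      add := fun a b => eq (f := MG.ρ t₀ a + MG.ρ t₀ b) (by
        rw [Germ.coe_add, (MG.ρ_spec t₀ a).2, (MG.ρ_spec t₀ b).2]; rfl)
      mul := fun a b => eq (f := MG.ρ t₀ a * MG.ρ t₀ b) (by
        rw [Germ.coe_mul, (MG.ρ_spec t₀ a).2, (MG.ρ_spec t₀ b).2]; rfl)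
      const := fun c => eq (f := fun _ => c) rfl }
  let X' : J → MG t₀ := fun j => ⟨x j, x j, hx j, rfl⟩
  let W' : J → MG t₀ := fun j => ⟨w j, w j, hw j, rfl⟩
  have eX : ∀ᶠ t in 𝓝[≠] t₀, ∀ j, MG.ρ t₀ (X' j) t = x j t := eventually_all.2 fun j => eq rfl
  have eW : ∀ᶠ t in 𝓝[≠] t₀, ∀ j, MG.ρ t₀ (W' j) t = w j t := eventually_all.2 fun j => eq rfl
  obtain ⟨u, v, -, huv⟩ := sp.fam hc (Finset.univ.val.map fun j => (X' j, W' j)) (by
    intro p hp
    obtain ⟨j, -, rfl⟩ := Multiset.mem_map.1 hp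
    apply Subtype.ext
    rw [← (MG.ρ_spec t₀ _).2, ← (MG.ρ_spec t₀ _).2, Germ.coe_eq]
    filter_upwards [sp.rep_eval (F.map (MG.ι t₀)) (X' j), sp.rep_map F, sp.mul (W' j) (W' j), eX,
      eW, on j] with t h1 h2 h3 h4 h5 h6
    rw [← h1, h2, sq, h3, h4, h5, ← h6, sq])
  have key : ∀ᶠ t in 𝓝[≠] t₀, mum F g cl (a t) = (rep (MG.ρ t₀) u t, rep (MG.ρ t₀) v t) := by
    filter_upwards [huv, ha, eX, eW] with t h1 h2 h3 h4
    rw [← h1, h2, Multiset.map_map]
    simp only [Function.comp_apply, h3, h4]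
    rfl
  constructor
  · refine (MG.ρ_spec t₀ (u.coeff n)).1.congr (key.mono fun t ht => ?_)
    simp only [ht, sp.coeff_rep]
  · refine (MG.ρ_spec t₀ (v.coeff n)).1.congr (key.mono fun t ht => ?_)
    simp only [ht, sp.coeff_rep]

/-- local inverse of the Abel map at one base divisor -/
structure LocInv (F : ℂ[X]) (g : ℕ) (cl : ℂ × ℂ → A) {E : Type*} [NormedAddCommGroup E]
    [NormedSpace ℂ E] (ex : E →+ A) (x w : Fin g → E → ℂ) : Prop where
  anx : ∀ j, AnalyticAt ℂ (x j) 0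
  anw : ∀ j, AnalyticAt ℂ (w j) 0
  on : ∀ j, ∀ᶠ z in 𝓝 (0 : E), w j z ^ 2 = F.eval (x j z)
  eq : ∀ᶠ z in 𝓝 (0 : E), ∑ j, cl (x j z, w j z) = ∑ j, cl (x j 0, w j 0) + ex z

variable {E : Type*} [NormedAddCommGroup E] [NormedSpace ℂ E] {ex : E →+ A} {x w : Fin g → E → ℂ}

lemma LocInv.isSum (h : LocInv F g cl ex x w) (hc : Cls F g cl) (z : E) : IsSum F cl (ex z) := by
  have h1 : ∀ᶠ z in 𝓝 (0 : E), IsSum F cl (ex z) := by
    filter_upwards [h.eq, eventually_all.2 h.on] with z h1 h2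
    rw [eq_sub_of_add_eq' h1.symm, sub_eq_add_neg]
    exact (IsSum.sum (P := fun j => (x j z, w j z)) h2).add
      ((IsSum.sum (P := fun j => (x j 0, w j 0)) fun j => (h.on j).self_of_nhds).neg hc)
  have h2 : Tendsto (fun n : ℕ => ((n : ℂ))⁻¹ • z) atTop (𝓝 0) := by
    simpa using (tendsto_inv_atTop_nhds_zero_nat (𝕜 := ℂ)).smul_const z
  obtain ⟨n, hn, hn0⟩ := ((h2.eventually h1).and (eventually_gt_atTop 0)).exists
  have := hn.nsmul n
  rwa [← map_nsmul, ← Nat.cast_smul_eq_nsmul ℂ, smul_inv_smul₀ (by exact_mod_cast hn0.ne')] at this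

/-- **(FAM)** -/
theorem LocInv.fam (h : LocInv F g cl ex x w) (hc : Cls F g cl) {c : A} (hs : IsSum F cl c)
    {Φ : ℂ → E} {t₀ : ℂ} (hΦ : AnalyticAt ℂ Φ t₀) (n : ℕ) :
    MeromorphicAt (fun t => (mum F g cl (c + ex (Φ t))).1.coeff n) t₀ ∧
      MeromorphicAt (fun t => (mum F g cl (c + ex (Φ t))).2.coeff n) t₀ := by
  obtain ⟨D, hD, hD'⟩ := (hs.add (h.isSum hc (Φ t₀))).add
    ((IsSum.sum (P := fun j => (x j 0, w j 0)) fun j => (h.on j).self_of_nhds).neg hc)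
  have an : AnalyticAt ℂ (fun t => Φ t - Φ t₀) t₀ := hΦ.sub analyticAt_const
  have td : Tendsto (fun t => Φ t - Φ t₀) (𝓝[≠] t₀) (𝓝 0) := by
    have := an.continuousAt.tendsto
    rw [sub_self] at this
    exact this.mono_left nhdsWithin_le_nhds
  induction D using Quotient.inductionOn with
  | h L =>
    refine hc.fam (J := Fin L.length ⊕ Fin g)
      (x := Sum.elim (fun i _ => (L.get i).1) fun j t => x j (Φ t - Φ t₀))
      (w := Sum.elim (fun i _ => (L.get i).2) fun j t => w j (Φ t - Φ t₀)) ?_ ?_ ?_ ?_ n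
    · rintro (i | j)
      · exact .const _ _
      · exact ((h.anx j).comp_of_eq an (sub_self _)).meromorphicAt
    · rintro (i | j)
      · exact .const _ _
      · exact ((h.anw j).comp_of_eq an (sub_self _)).meromorphicAt
    · rintro (i | j)
      · exact Eventually.of_forall fun t => hD _ (List.get_mem L i)
      · exact td.eventually (h.on j)
    · filter_upwards [td.eventually h.eq] with t ht
      rw [Fintype.sum_sum_type]
      simp only [Sum.elim_inl, Sum.elim_inr]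
      have e : ∑ i : Fin L.length, cl ((L.get i).1, (L.get i).2) = (L.map cl).sum := by
        simp [← List.sum_ofFn, List.ofFn_getElem_eq_map]
      have e' : (L.map cl).sum = c + ex (Φ t₀) + -∑ j, cl (x j 0, w j 0) := by
        simpa using hD'
      rw [ht, e, e', map_sub]
      abel

/-- analytic family of polynomials -/
def AnP (P : E → ℂ[X]) (z₀ : E) : Prop := ∀ n, AnalyticAt ℂ (fun z => (P z).coeff n) z₀

lemma AnP.const (p : ℂ[X]) (z₀ : E) : AnP (fun _ => p) z₀ := fun _ => analyticAt_const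

lemma AnP.C {f : E → ℂ} {z₀ : E} (hf : AnalyticAt ℂ f z₀) : AnP (fun z => C (f z)) z₀ := by
  intro n
  simp only [coeff_C]
  split_ifs
  exacts [hf, analyticAt_const]

lemma AnP.add {P Q : E → ℂ[X]} {z₀ : E} (hP : AnP P z₀) (hQ : AnP Q z₀) :
    AnP (fun z => P z + Q z) z₀ := fun n => by
  simpa only [coeff_add] using (hP n).fun_add (hQ n)

lemma AnP.sub {P Q : E → ℂ[X]} {z₀ : E} (hP : AnP P z₀) (hQ : AnP Q z₀) :
    AnP (fun z => P z - Q z) z₀ := fun n => by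
  simpa only [coeff_sub] using (hP n).fun_sub (hQ n)

lemma AnP.mul {P Q : E → ℂ[X]} {z₀ : E} (hP : AnP P z₀) (hQ : AnP Q z₀) :
    AnP (fun z => P z * Q z) z₀ := fun n => by
  simp only [coeff_mul]
  exact Finset.analyticAt_fun_sum _ fun c _ => (hP c.1).fun_mul (hQ c.2)

lemma AnP.sum {J : Type*} (s : Finset J) {P : J → E → ℂ[X]} {z₀ : E}
    (hP : ∀ j ∈ s, AnP (P j) z₀) : AnP (fun z => ∑ j ∈ s, P j z) z₀ := fun n => by
  simp only [finsetSum_coeff]
  exact Finset.analyticAt_fun_sum _ fun j hj => hP j hj n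

lemma AnP.prod {J : Type*} (s : Finset J) {P : J → E → ℂ[X]} {z₀ : E}
    (hP : ∀ j ∈ s, AnP (P j) z₀) : AnP (fun z => ∏ j ∈ s, P j z) z₀ := by
  classical
  induction s using Finset.induction_on with
  | empty => simpa using AnP.const 1 z₀
  | insert a s ha ih =>
    simp only [Finset.prod_insert ha]
    exact (hP a (by simp)).mul (ih fun j hj => hP j (by simp [hj]))

lemma AnP.congr {P Q : E → ℂ[X]} {z₀ : E} (hP : AnP P z₀) (h : ∀ᶠ z in 𝓝 z₀, P z = Q z) :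
    AnP Q z₀ := fun n => (hP n).congr (h.mono fun z hz => by simp only [hz])

lemma LocInv.mum_near (h : LocInv F g cl ex x w) (hc : Cls F g cl)
    (hi : Function.Injective fun j => x j 0) : ∀ᶠ z in 𝓝 (0 : E),
      Function.Injective (fun j => x j z) ∧ mum F g cl (∑ j, cl (x j 0, w j 0) + ex z) =
        (∏ j, (X - Polynomial.C (x j z)),
          Lagrange.interpolate Finset.univ (fun j => x j z) fun j => w j z) := by
  have h1 : ∀ᶠ z in 𝓝 (0 : E), ∀ i j, i ≠ j → x i z ≠ x j z := by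
    refine eventually_all.2 fun i => eventually_all.2 fun j => ?_
    by_cases e : i = j
    · simp [e]
    · exact (((h.anx i).fun_sub (h.anx j)).continuousAt.eventually_ne
        (sub_ne_zero.2 (hi.ne e))).mono fun z hz _ => sub_ne_zero.1 hz
  filter_upwards [h1, h.eq, eventually_all.2 h.on] with z h1 h2 h3
  have hz : Function.Injective fun j => x j z := fun i j e => by_contra fun n => h1 i j n e
  exact ⟨hz, by rw [← h2]; exact hc.mum_sum (by simp) hz h3⟩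

/-- near the base divisor the Mumford pair is analytic -/
theorem LocInv.anP (h : LocInv F g cl ex x w) (hc : Cls F g cl)
    (hi : Function.Injective fun j => x j 0) :
    AnP (fun z => (mum F g cl (∑ j, cl (x j 0, w j 0) + ex z)).1) 0 ∧
      AnP (fun z => (mum F g cl (∑ j, cl (x j 0, w j 0) + ex z)).2) 0 := by
  have lin : ∀ j, AnP (fun z => X - Polynomial.C (x j z)) 0 := fun j =>
    (AnP.const X 0).sub (AnP.C (h.anx j))
  constructor
  · exact (AnP.prod Finset.univ fun j _ => lin j).congr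
      ((h.mum_near hc hi).mono fun z hz => by rw [hz.2])
  · refine AnP.congr (P := fun z =>
      Lagrange.interpolate Finset.univ (fun j => x j z) fun j => w j z) ?_
      ((h.mum_near hc hi).mono fun z hz => by rw [hz.2])
    simp only [Lagrange.interpolate_apply, Lagrange.basis, Lagrange.basisDivisor]
    refine AnP.sum _ fun i _ => (AnP.C (h.anw i)).mul (AnP.prod _ fun j hj => ?_)
    refine (AnP.C (((h.anx i).fun_sub (h.anx j)).fun_inv ?_)).mul (lin j)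
    exact sub_ne_zero.2 (hi.ne (Finset.ne_of_mem_erase hj).symm)

end Crest.Agent.T15.Mum
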