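import Crest.Agent.T15.BrA_37
import Crest.Agent.T15.MumB_4
import Crest.Agent.T15.AxC_14
import Crest.Agent.T15.HonDef_54

/-!
# Row 15, block Ht: the Taylor series of the Mumford coordinates is the formal solution

* `sol_map`, `sol_unique` : base change and uniqueness of `Hon.Sol`;
* `taylor_sol` : Taylor series at `q = 0` of the Mumford coordinates of `c + ex (Φ q)`;
* `alg_roots` : algebraicity of the points and of the second Mumford polynomial.
-/

set_option autoImplicit false

open Set Filter Topology Metric Polynomial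
open scoped PowerSeries
open Crest.Agent.T15.AlgM Crest.Agent.T15.Hon Crest.Agent.T15.Mum Crest.Agent.T15.Ax

noncomputable section

namespace Crest.Agent.T15.Br

section formal

variable {K K' : Type*} [Field K] [Field K'] {g : ℕ}

lemma map_derivative (σ : K →+* K') (f : K⟦X⟧) :
    PowerSeries.map σ (PowerSeries.derivative K f) =
      PowerSeries.derivative K' (PowerSeries.map σ f) := by
  ext n
  simp [PowerSeries.coeff_derivative]

lemma map_aeval (σ : K →+* K') (f : K⟦X⟧) (F : K[X]) :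
    PowerSeries.map σ (aeval f F) = aeval (PowerSeries.map σ f) (F.map σ) := by
  induction F using Polynomial.induction_on' with
  | add p q hp hq => simp only [Polynomial.map_add, map_add, hp, hq]
  | monomial n c => simp [← C_mul_X_pow_eq_monomial]

theorem sol_map (σ : K →+* K') {F : K[X]} {a b : Fin g → K} {Φ x w η : Fin g → K⟦X⟧}
    (h : Sol F a b Φ x w η) :
    Sol (F.map σ) (fun i => σ (a i)) (fun i => σ (b i)) (fun i => PowerSeries.map σ (Φ i))
      (fun i => PowerSeries.map σ (x i)) (fun i => PowerSeries.map σ (w i))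
      fun i => PowerSeries.map σ (η i) where
  sq i := by rw [← map_pow, h.sq, map_aeval]
  x0 i := by rw [← h.x0, ← PowerSeries.coeff_zero_eq_constantCoeff_apply, PowerSeries.coeff_map,
    PowerSeries.coeff_zero_eq_constantCoeff_apply]
  w0 i := by rw [← h.w0, ← PowerSeries.coeff_zero_eq_constantCoeff_apply, PowerSeries.coeff_map,
    PowerSeries.coeff_zero_eq_constantCoeff_apply]
  dx i := by rw [← map_derivative, h.dx, map_mul]
  sum m := by rw [← map_derivative, ← h.sum, map_sum]; simp only [map_mul, map_pow]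

/-- **uniqueness of the formal solution** -/
theorem sol_unique [CharZero K] {F : K[X]} {a b : Fin g → K} (ha : Function.Injective a)
    (hb : ∀ i, b i ≠ 0) {Φ Φ' x w η x' w' η' : Fin g → K⟦X⟧} (h : Sol F a b Φ x w η)
    (h' : Sol F a b Φ' x' w' η')
    (hΦ : ∀ m, PowerSeries.derivative K (Φ m) = PowerSeries.derivative K (Φ' m)) :
    x = x' ∧ w = w' ∧ η = η' := by
  have hu : ∀ i, IsUnit (w i + w' i) := fun i => by
    rw [PowerSeries.isUnit_iff_constantCoeff, map_add, h.w0, h'.w0, ← two_mul]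
    exact (mul_ne_zero two_ne_zero (hb i)).isUnit
  have hw : ∀ i, x i - x' i ∣ w i - w' i := fun i => by
    rw [← (hu i).dvd_mul_right]
    have : (w i - w' i) * (w i + w' i) = aeval (x i) F - aeval (x' i) F := by
      rw [← h.sq, ← h'.sq]
      ring
    rw [this, ← eval_map_algebraMap, ← eval_map_algebraMap]
    exact sub_dvd_eval_sub _ _ _
  have hwu : ∀ i, IsUnit (w i) := fun i => by
    rw [PowerSeries.isUnit_iff_constantCoeff, h.w0]
    exact (hb i).isUnit
  have key : ∀ n : ℕ, ∀ i, PowerSeries.X ^ (n + 1) ∣ x i - x' i := by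
    intro n
    induction n with
    | zero =>
      intro i
      rw [zero_add, pow_one, PowerSeries.X_dvd_iff, map_sub, h.x0, h'.x0, sub_self]
    | succ n ih =>
      choose ε hε using ih
      choose ω hω using fun i => (Dvd.intro _ (hε i).symm).trans (hw i)
      have h1 : ∀ i, ∃ κ, η i - η' i = PowerSeries.X ^ n * κ ∧
          PowerSeries.constantCoeff κ * b i = (n + 1) * PowerSeries.constantCoeff (ε i) := by
        intro i
        obtain ⟨u, hu⟩ := (hwu i).exists_right_inv
        have d1 : PowerSeries.derivative K (x i - x' i) = PowerSeries.X ^ n *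
            (((n : K⟦X⟧) + 1) * ε i + PowerSeries.X * PowerSeries.derivative K (ε i)) := by
          rw [hε, Derivation.leibniz, Derivation.leibniz_pow, PowerSeries.derivative_X]
          simp only [smul_eq_mul, nsmul_eq_mul, Nat.add_sub_cancel]
          push_cast
          ring
        rw [map_sub, h.dx, h'.dx] at d1
        refine ⟨(((n : K⟦X⟧) + 1) * ε i + PowerSeries.X * PowerSeries.derivative K (ε i) -
          η' i * PowerSeries.X * ω i) * u, ?_, ?_⟩
        · have := hω i
          linear_combination u * d1 - η' i * u * this - (η i - η' i) * hu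
        · have := congrArg PowerSeries.constantCoeff hu
          rw [map_mul, h.w0, map_one] at this
          simp only [map_mul, map_sub, map_add, PowerSeries.constantCoeff_X, map_natCast, map_one]
          linear_combination (n + 1) * PowerSeries.constantCoeff (ε i) * this
      choose κ hκ hκ0 using h1
      have h2 : (fun i => PowerSeries.constantCoeff (κ i)) = 0 := by
        refine Matrix.eq_zero_of_forall_pow_sum_mul_pow_eq_zero ha fun m => ?_
        choose ρ hρ using fun i => (Dvd.intro _ (hε i).symm).trans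
          (sub_dvd_pow_sub_pow (x i) (x' i) m)
        have h3 : PowerSeries.X ^ n * ∑ i, (x i ^ (m : ℕ) * κ i + PowerSeries.X * ρ i * η' i) = 0 := by
          have h4 := h.sum m
          rw [hΦ, ← h'.sum m, ← sub_eq_zero, ← Finset.sum_sub_distrib] at h4
          rw [Finset.mul_sum, ← h4]
          refine Finset.sum_congr rfl fun i _ => ?_
          linear_combination (-x i ^ (m : ℕ)) * hκ i - η' i * hρ i
        have h5 := congrArg PowerSeries.constantCoeff
          ((mul_eq_zero.mp h3).resolve_left (pow_ne_zero n PowerSeries.X_ne_zero))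
        simpa [h.x0, mul_comm] using h5
      intro i
      have h3 := hκ0 i
      rw [show PowerSeries.constantCoeff (κ i) = 0 from congrFun h2 i, zero_mul] at h3
      have h4 : PowerSeries.X ∣ ε i := PowerSeries.X_dvd_iff.mpr
        ((mul_eq_zero.mp h3.symm).resolve_left (by exact_mod_cast n.succ_ne_zero))
      rw [hε, pow_succ]
      exact mul_dvd_mul_left _ h4
  have hx : x = x' := by
    funext i
    rw [← sub_eq_zero]
    ext n
    exact PowerSeries.X_pow_dvd_iff.mp (key n i) n n.lt_succ_self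
  have hw' : w = w' := by
    funext i
    have := hw i
    rw [hx, sub_self, zero_dvd_iff, sub_eq_zero] at this
    exact this
  refine ⟨hx, hw', funext fun i => ?_⟩
  have := h.dx i
  rw [hx, h'.dx, ← hw'] at this
  exact ((hwu i).mul_left_inj.mp this).symm

end formal

/-- functions analytic at the origin -/
def A0 : Subalgebra ℂ (ℂ → ℂ) where
  carrier := {U | AnalyticAt ℂ U 0}
  mul_mem' ha hb := ha.mul hb
  add_mem' ha hb := ha.add hb
  algebraMap_mem' _ := analyticAt_const

/-- Taylor series -/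
def tay0 : A0 →ₐ[ℂ] ℂ⟦X⟧ where
  toFun U := tay U.1
  map_one' := tay_one
  map_mul' a b := tay_mul a.2 b.2
  map_zero' := tay_zero
  map_add' a b := tay_add a.2 b.2
  commutes' c := tay_const c

/-- evaluation -/
def ev0 (q : ℂ) : A0 →ₐ[ℂ] ℂ := (Pi.evalAlgHom ℂ (fun _ : ℂ => ℂ) q).comp A0.val

lemma tay_deriv (f : ℂ → ℂ) : tay (deriv f) = PowerSeries.derivative ℂ (tay f) := by
  ext n
  rw [PowerSeries.coeff_derivative, coeff_tay, coeff_tay, iteratedDeriv_succ', Nat.factorial_succ]
  have h1 : ((n.factorial : ℕ) : ℂ) ≠ 0 := by exact_mod_cast n.factorial_ne_zero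
  have h2 : (n : ℂ) + 1 ≠ 0 := by exact_mod_cast n.succ_ne_zero
  push_cast
  field_simp

lemma tay_eval {x : ℂ → ℂ} (hx : AnalyticAt ℂ x 0) (F : ℂ[X]) :
    tay (fun q => F.eval (x q)) = aeval (tay x) F := by
  have h1 := aeval_algHom_apply tay0 (⟨x, hx⟩ : A0) F
  have h2 : (fun q => F.eval (x q)) = (aeval (⟨x, hx⟩ : A0) F).1 := by
    funext q
    have := aeval_algHom_apply (ev0 q) (⟨x, hx⟩ : A0) F
    rw [coe_aeval_eq_eval] at this
    exact this
  rw [h2]
  exact h1.symm

lemma tay_coeff_prod {ι : Type*} [Fintype ι] {x : ι → ℂ → ℂ} (hx : ∀ i, AnalyticAt ℂ (x i) 0)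
    (n : ℕ) : tay (fun q => (∏ i, (X - C (x i q))).coeff n) =
      (∏ i, (X - C (tay (x i)))).coeff n := by
  set P : A0[X] := ∏ i, (X - C (⟨x i, hx i⟩ : A0)) with hP
  have h1 : ∀ {B : Type} [CommRing B] (φ : A0 →+* B),
      φ (P.coeff n) = (∏ i, (X - C (φ ⟨x i, hx i⟩))).coeff n := by
    intro B _ φ
    rw [← coeff_map, hP, Polynomial.map_prod]
    simp
  have h2 : (fun q => (∏ i, (X - C (x i q))).coeff n) = (P.coeff n).1 :=
    funext fun q => (h1 (ev0 q).toRingHom).symm
  rw [h2]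
  exact h1 tay0.toRingHom

variable {F : ℂ[X]} {g : ℕ} {A : Type*} [AddCommGroup A] {cl : ℂ × ℂ → A}
  {ex : (Fin g → ℂ) →+ A}

lemma ch_eta (c : Ch F g) : AnalyticAt ℂ c.η 0 := by
  have h1 : AnalyticAt ℂ (fun τ => c.α * c.w τ + c.β * F.derivative.eval (c.x τ) / 2) 0 :=
    (analyticAt_const.mul c.anw).add ((analyticAt_const.mul
      ((an_eval _ _).comp c.anx)).div analyticAt_const two_ne_zero)
  have h0 := c.ev.self_of_nhds.2.2.2.2.1
  refine (h1.inv (right_ne_zero_of_mul_eq_one h0)).congr ?_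
  filter_upwards [c.ev] with τ hτ
  exact (eq_inv_of_mul_eq_one_left hτ.2.2.2.2.1).symm

/-- the local inverse of the Abel-Jacobi map at a base divisor with distinct `x` -/
theorem exists_locInv (hF : Squarefree F) (he : IsExp F g cl ex) {a b : Fin g → ℂ}
    (ha : Function.Injective a) (hb : ∀ i, b i ^ 2 = F.eval (a i)) :
    ∃ x w : Fin g → (Fin g → ℂ) → ℂ, LocInv F g cl ex x w ∧ (∀ i, x i 0 = a i) ∧
      (∀ i, w i 0 = b i) ∧ ∀ Φ : ℂ → Fin g → ℂ, AnalyticAt ℂ Φ 0 → Φ 0 = 0 →
        ∃ η, Sol F a b (fun m => tay fun q => Φ q m) (fun i => tay fun q => x i (Φ q))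
          (fun i => tay fun q => w i (Φ q)) η := by
  choose c hcx hcw using fun i => exists_ch hF g (P := (a i, b i)) (hb i)
  have hx : Function.Injective fun j => (c j).x 0 := by
    simpa only [hcx] using ha
  obtain ⟨ψ, aψ, ψ0, hψ, -⟩ := vinv c hx
  have aj : ∀ j, AnalyticAt ℂ (fun z => ψ z j) 0 := fun j => (an_apply j _).comp aψ
  have tψ : Tendsto ψ (𝓝 0) (𝓝 0) := by simpa [ψ0] using aψ.continuousAt.tendsto
  have tj : ∀ j, Tendsto (fun z => ψ z j) (𝓝 0) (𝓝 0) := fun j => by
    simpa [ψ0] using (aj j).continuousAt.tendsto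
  have cmp : ∀ {f : ℂ → ℂ}, AnalyticAt ℂ f 0 → ∀ j, AnalyticAt ℂ (fun z => f (ψ z j)) 0 :=
    fun hf j => AnalyticAt.comp_of_eq hf (aj j) (by simp [ψ0])
  refine ⟨fun j z => (c j).x (ψ z j), fun j z => (c j).w (ψ z j),
    ⟨fun j => cmp (c j).anx j, fun j => cmp (c j).anw j,
      fun j => ((tj j).eventually (c j).ev).mono fun z h => h.1, ?_⟩,
    fun i => by simp [ψ0, hcx], fun i => by simp [ψ0, hcw], ?_⟩
  · filter_upwards [tψ.eventually (he.sum c), hψ] with z h1 h2
    rw [h2] at h1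
    simpa [Ch.pt, ψ0] using h1
  · intro Φ aΦ Φ0
    have tΦ : Tendsto Φ (𝓝 0) (𝓝 0) := by simpa [Φ0] using aΦ.continuousAt.tendsto
    set s : Fin g → ℂ → ℂ := fun j q => ψ (Φ q) j with hs
    have as : ∀ j, AnalyticAt ℂ (s j) 0 := fun j => AnalyticAt.comp_of_eq (aj j) aΦ Φ0
    have s0 : ∀ j, s j 0 = 0 := fun j => by simp [hs, Φ0, ψ0]
    have ts : ∀ j, Tendsto (s j) (𝓝 0) (𝓝 0) := fun j => (tj j).comp tΦ
    have cs : ∀ {f : ℂ → ℂ}, AnalyticAt ℂ f 0 → ∀ j, AnalyticAt ℂ (fun q => f (s j q)) 0 :=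
      fun hf j => AnalyticAt.comp_of_eq hf (as j) (s0 j)
    have ax := fun j => cs (c j).anx j
    have aw := fun j => cs (c j).anw j
    have aη : ∀ j, AnalyticAt ℂ (fun q => (c j).η (s j q) * deriv (s j) q) 0 :=
      fun j => (cs (ch_eta (c j)) j).mul (as j).deriv
    have ev := fun j => (ts j).eventually (c j).ev
    have ds : ∀ j, ∀ᶠ q in 𝓝 (0 : ℂ), HasDerivAt (s j) (deriv (s j) q) q := fun j =>
      (as j).eventually_analyticAt.mono fun q h => h.differentiableAt.hasDerivAt
    refine ⟨fun j => tay fun q => (c j).η (s j q) * deriv (s j) q, fun i => ?_, fun i => ?_,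
      fun i => ?_, fun i => ?_, fun m => ?_⟩
    · rw [← tay_pow (aw i), ← tay_eval (ax i)]
      exact tay_congr ((ev i).mono fun q h => h.1)
    · rw [constantCoeff_tay]
      simp [Φ0, ψ0, hcx]
    · rw [constantCoeff_tay]
      simp [Φ0, ψ0, hcw]
    · rw [← tay_deriv, ← tay_mul (aη i) (aw i)]
      refine tay_congr ?_
      filter_upwards [ev i, ds i] with q h1 h2
      refine (h1.2.1.comp q h2).deriv.trans ?_
      simp only [Pi.mul_apply]
      ring
    · rw [← tay_deriv]
      have e1 : ∀ i, tay (fun q => (c i).x (s i q)) ^ (m : ℕ) *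
          tay (fun q => (c i).η (s i q) * deriv (s i) q) =
          tay ((fun q => (c i).x (s i q)) ^ (m : ℕ) * fun q => (c i).η (s i q) * deriv (s i) q) :=
        fun i => by rw [tay_mul ((ax i).pow m) (aη i), tay_pow (ax i)]
      refine (Finset.sum_congr rfl fun i _ => e1 i).trans ?_
      rw [← tay_sum _ fun i _ => ((ax i).pow m).mul (aη i)]
      refine tay_congr ?_
      filter_upwards [eventually_all.mpr ev, eventually_all.mpr ds,
        (tΦ.eventually hψ).eventually_nhds] with q h1 h2 h3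
      have h4 : HasDerivAt (fun q => ∑ i, (c i).ab (s i q) m)
          (∑ i, (c i).x (s i q) ^ (m : ℕ) * (c i).η (s i q) * deriv (s i) q) q :=
        HasDerivAt.fun_sum fun i _ => ((hasDerivAt_pi.mp (h1 i).2.2.2.1) m).comp q (h2 i)
      have h5 : (fun q => Φ q m) =ᶠ[𝓝 q] fun q => ∑ i, (c i).ab (s i q) m := by
        filter_upwards [h3] with q' h
        rw [← h]
        simp [sab, hs]
      rw [h5.deriv_eq, h4.deriv]
      simp [mul_assoc]

variable (F cl ex) in
/-- coefficients of the first Mumford polynomial of `c + ex (Φ q)` -/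
def cU (c : A) (Φ : ℂ → Fin g → ℂ) (n : ℕ) (q : ℂ) : ℂ := (mum F g cl (c + ex (Φ q))).1.coeff n

variable (F cl ex) in
/-- coefficients of the second Mumford polynomial of `c + ex (Φ q)` -/
def cV (c : A) (Φ : ℂ → Fin g → ℂ) (n : ℕ) (q : ℂ) : ℂ := (mum F g cl (c + ex (Φ q))).2.coeff n

/-- **the Taylor series of the Mumford coordinates** -/
theorem taylor_sol (hc : Cls F g cl) (he : IsExp F g cl ex) {a b : Fin g → ℂ}
    (ha : Function.Injective a) (hb : ∀ i, b i ^ 2 = F.eval (a i)) {Φ : ℂ → Fin g → ℂ}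
    (aΦ : AnalyticAt ℂ Φ 0) (Φ0 : Φ 0 = 0) :
    ∃ x w η : Fin g → ℂ⟦X⟧, Sol F a b (fun m => tay fun q => Φ q m) x w η ∧
      (∀ n, AnalyticAt ℂ (cU F cl ex (∑ i, cl (a i, b i)) Φ n) 0 ∧
        AnalyticAt ℂ (cV F cl ex (∑ i, cl (a i, b i)) Φ n) 0) ∧
      (∀ n, tay (cU F cl ex (∑ i, cl (a i, b i)) Φ n) = (∏ i, (X - C (x i))).coeff n) ∧
      (∀ n, g ≤ n → tay (cV F cl ex (∑ i, cl (a i, b i)) Φ n) = 0) ∧
      ∀ i, ∑ k : Fin g, x i ^ (k : ℕ) * tay (cV F cl ex (∑ i, cl (a i, b i)) Φ k) = w i := by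
  obtain ⟨x, w, L, x0, w0, hs⟩ := exists_locInv hc.sep.squarefree he ha hb
  obtain ⟨η, hη⟩ := hs Φ aΦ Φ0
  have hi : Function.Injective fun j => x j 0 := by simpa only [x0] using ha
  have tΦ : Tendsto Φ (𝓝 0) (𝓝 0) := by simpa [Φ0] using aΦ.continuousAt.tendsto
  have near := tΦ.eventually (L.mum_near hc hi)
  obtain ⟨a1, a2⟩ := L.anP hc hi
  simp only [x0, w0] at near a1 a2
  have aU : ∀ n, AnalyticAt ℂ (cU F cl ex (∑ i, cl (a i, b i)) Φ n) 0 :=
    fun n => AnalyticAt.comp_of_eq (a1 n) aΦ Φ0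
  have aV : ∀ n, AnalyticAt ℂ (cV F cl ex (∑ i, cl (a i, b i)) Φ n) 0 :=
    fun n => AnalyticAt.comp_of_eq (a2 n) aΦ Φ0
  have ax : ∀ i, AnalyticAt ℂ (fun q => x i (Φ q)) 0 :=
    fun i => AnalyticAt.comp_of_eq (L.anx i) aΦ Φ0
  have hdeg : ∀ᶠ q in 𝓝 (0 : ℂ), (mum F g cl (∑ i, cl (a i, b i) + ex (Φ q))).2.degree < g := by
    filter_upwards [near] with q h
    rw [h.2]
    simpa only [Finset.card_univ, Fintype.card_fin] using
      Lagrange.degree_interpolate_lt (s := Finset.univ) (fun j => w j (Φ q)) h.1.injOn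
  refine ⟨_, _, η, hη, fun n => ⟨aU n, aV n⟩, fun n => ?_, fun n hn => ?_, fun i => ?_⟩
  · rw [← tay_coeff_prod ax]
    exact tay_congr (near.mono fun q h => by simp only [cU, h.2])
  · rw [← tay_zero]
    exact tay_congr (hdeg.mono fun q h =>
      coeff_eq_zero_of_degree_lt (h.trans_le (by exact_mod_cast hn)))
  · have e1 : ∀ k : Fin g, tay (fun q => x i (Φ q)) ^ (k : ℕ) *
        tay (cV F cl ex (∑ i, cl (a i, b i)) Φ k) =
        tay ((fun q => x i (Φ q)) ^ (k : ℕ) * cV F cl ex (∑ i, cl (a i, b i)) Φ k) :=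
      fun k => by rw [tay_mul ((ax i).pow k) (aV k), tay_pow (ax i)]
    refine (Finset.sum_congr rfl fun k _ => e1 k).trans ?_
    rw [← tay_sum _ fun k _ => ((ax i).pow (k : Fin g)).mul (aV k)]
    refine tay_congr ?_
    filter_upwards [near, hdeg] with q h hd
    have h1 : (mum F g cl (∑ i, cl (a i, b i) + ex (Φ q))).2.eval (x i (Φ q)) = w i (Φ q) := by
      rw [h.2]
      exact Lagrange.eval_interpolate_at_node _ h.1.injOn (Finset.mem_univ i)
    rw [← h1, Finset.sum_apply, eval_eq_sum_degreeLTEquiv (mem_degreeLT.mpr hd)]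
    exact Finset.sum_congr rfl fun k _ => mul_comm _ _

/-- the Mumford coordinates are meromorphic on the disc -/
theorem cUV_mero (hc : Cls F g cl) (he : IsExp F g cl ex) {c : A} (hs : IsSum F cl c)
    {Φ : ℂ → Fin g → ℂ} {q : ℂ} (aΦ : AnalyticAt ℂ Φ q) (n : ℕ) :
    MeromorphicAt (cU F cl ex c Φ n) q ∧ MeromorphicAt (cV F cl ex c Φ n) q := by
  obtain ⟨ch, hx, -⟩ := exists_charts hc.sep.squarefree g (Fin g) ∅
  obtain ⟨x, w, L, -⟩ := exists_locInv hc.sep.squarefree he hx fun i => (ch i).on0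
  exact L.fam hc hs aΦ n

theorem isSum_ex (hc : Cls F g cl) (he : IsExp F g cl ex) (z : Fin g → ℂ) : IsSum F cl (ex z) := by
  obtain ⟨ch, hx, -⟩ := exists_charts hc.sep.squarefree g (Fin g) ∅
  obtain ⟨x, w, L, -⟩ := exists_locInv hc.sep.squarefree he hx fun i => (ch i).on0
  exact L.isSum hc z

/-- algebraicity of the points and of the second Mumford polynomial -/
theorem alg_roots {t : ℂ⟦X⟧} (nc : NC t) {x w v : Fin g → ℂ⟦X⟧} (hx : Function.Injective x)
    (hU : ∀ n, AlgRel t ((∏ i, (X - C (x i))).coeff n)) (hw : ∀ i, w i ^ 2 = aeval (x i) F)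
    (hv : ∀ i, ∑ k : Fin g, x i ^ (k : ℕ) * v k = w i) :
    (∀ i, AlgRel t (x i)) ∧ (∀ i, AlgRel t (w i)) ∧ ∀ k, AlgRel t (v k) := by
  simp only [algRel_iff nc] at hU ⊢
  set R := Algebra.adjoin ℂ {t}
  set B := Subalgebra.algebraicClosure R ℂ⟦X⟧
  have h1 : ∀ i, IsAlgebraic R (x i) := by
    intro i
    have hm : (∏ i, (X - C (x i))).Monic := monic_prod_of_monic _ _ fun _ _ => monic_X_sub_C _
    have hl : (∏ i, (X - C (x i))) ∈ Polynomial.lifts (algebraMap B ℂ⟦X⟧) :=
      (lifts_iff_coeff_lifts _).mpr fun n => ⟨⟨_, hU n⟩, rfl⟩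
    obtain ⟨p, hp, -, hpm⟩ := lifts_and_degree_eq_and_monic hl hm
    refine IsIntegral.trans_isAlgebraic (S := B) R ⟨p, hpm, ?_⟩
    rw [← eval_map, hp, eval_prod]
    exact Finset.prod_eq_zero (Finset.mem_univ i) (by simp)
  have h2 : ∀ i, IsAlgebraic R (w i) := by
    intro i
    refine IsAlgebraic.of_pow two_pos ?_
    rw [hw]
    have : aeval (x i) F ∈ B.restrictScalars ℂ :=
      (Algebra.adjoin_le_iff.mpr (singleton_subset_iff.mpr (h1 i)))
        (Polynomial.aeval_mem_adjoin_singleton ℂ (x i))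
    exact this
  refine ⟨h1, h2, fun k => ?_⟩
  let M : Matrix (Fin g) (Fin g) B := Matrix.vandermonde fun i => ⟨x i, h1 i⟩
  let r : Fin g → B := fun i => ⟨w i, h2 i⟩
  have hM : B.val.toRingHom.mapMatrix M = Matrix.vandermonde x := by
    ext1 i j
    simp [M, Matrix.vandermonde_apply]
  have hd : (Matrix.vandermonde x).det ≠ 0 := Matrix.det_vandermonde_ne_zero_iff.mpr hx
  have hdet : ((M.det : B) : ℂ⟦X⟧) = (Matrix.vandermonde x).det := by
    rw [← hM]
    exact B.val.toRingHom.map_det M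
  have h3 : (Matrix.vandermonde x).mulVec (fun k => ((M.cramer r k : B) : ℂ⟦X⟧)) =
      (Matrix.vandermonde x).mulVec ((Matrix.vandermonde x).det • v) := by
    funext i
    have e1 := congrArg B.val (congrFun (Matrix.mulVec_cramer M r) i)
    rw [Matrix.mulVec_smul, Pi.smul_apply, smul_eq_mul]
    have e2 : (Matrix.vandermonde x).mulVec v i = w i := hv i
    rw [e2, ← hdet]
    simpa [Matrix.mulVec, dotProduct, M, r, Matrix.vandermonde_apply] using e1
  have h4 := congrFun (Matrix.mulVec_injective_of_det_ne_zero hd h3) k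
  refine IsAlgebraic.of_mul (mem_nonZeroDivisors_of_ne_zero hd) (hdet ▸ M.det.2) ?_
  rw [Pi.smul_apply, smul_eq_mul] at h4
  exact h4 ▸ (M.cramer r k).2

end Crest.Agent.T15.Br
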