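import Crest.Agent.T15.BrA_37
import Crest.Agent.T15.UndA_98

/-!
# Row 15, block Ht: the Eichler integral of a cusp form as a function on the disc
-/

set_option autoImplicit false

open Set Filter Topology Metric UpperHalfPlane Function
open scoped MatrixGroups Manifold ModularForm
open Crest.Agent.T15.AlgM Crest.Agent.T15.Esc Crest.Agent.T15.Und

noncomputable section

namespace Crest.Agent.T15.Br

lemma qParam_one (z : ℂ) : Periodic.qParam 1 z = ee z := by
  simp [Periodic.qParam, ee]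

lemma exists_ee {q : ℂ} (h0 : q ≠ 0) (h1 : ‖q‖ < 1) : ∃ τ : ℍ, ee τ = q :=
  ⟨⟨_, Periodic.im_invQParam_pos_of_norm_lt_one one_pos h1 h0⟩, by
    rw [← qParam_one]
    exact Periodic.qParam_right_inv one_ne_zero h0⟩

lemma tay_eq_of_ee {U V : ℂ → ℂ} (hU : AnalyticAt ℂ U 0) (hV : AnalyticAt ℂ V 0)
    (h : ∀ τ : ℍ, U (ee τ) = V (ee τ)) : tay U = tay V := by
  refine tay_congr ((hU.frequently_eq_iff_eventually_eq hV).mp (Eventually.frequently ?_))
  filter_upwards [self_mem_nhdsWithin, mem_nhdsWithin_of_mem_nhds (ball_mem_nhds (0 : ℂ) one_pos)]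
    with q h0 h1
  obtain ⟨τ, rfl⟩ := exists_ee h0 (mem_ball_zero_iff.mp h1)
  exact h τ

lemma hasDerivAt_ee (z : ℂ) : HasDerivAt ee (2 * Real.pi * Complex.I * ee z) z := by
  have := ((hasDerivAt_id z).const_mul (2 * Real.pi * Complex.I)).cexp
  simp only [id, mul_one] at this
  rw [mul_comm (2 * Real.pi * Complex.I : ℂ) (ee z)]
  exact this

variable {Γ : Subgroup SL(2, ℤ)} {f : ℍ → ℂ} {c : ℕ → ℂ}

/-- **the Eichler integral on the disc** -/
theorem exists_Phi (hT : ModularGroup.T ∈ Γ) (hf : f ∈ CS Γ 2) (hc : QS c f) :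
    ∃ Φ : ℂ → ℂ, AnalyticOnNhd ℂ Φ (ball 0 1) ∧ Φ 0 = 0 ∧
      tay Φ = PowerSeries.mk (fun n => c n / n) ∧
      ∀ γ ∈ Γ, ∀ τ : ℍ,
        Φ (ee (γ • τ : ℍ)) = 2 * Real.pi * Complex.I * per f γ + Φ (ee τ) := by
  have hF := isPrim_prim hf.1
  have hp : Periodic (f ∘ ofComplex) (1 : ℝ) := periodic_of_vadd fun z => by
    have := slash_T_pow (k := 2) f 1 z
    rw [pow_one, hf.2.1 _ hT, Nat.cast_one] at this
    exact this.symm
  have hz : IsZeroAtImInfty f := by simpa using hf.2.2 1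
  obtain ⟨Ψ, dΨ, hΨ⟩ := hF.cusp one_pos hp hz.isBoundedAtImInfty
  simp only [hz.valueAtInfty_eq_zero, zero_mul, zero_add, qParam_one] at hΨ
  have aΨ : AnalyticOnNhd ℂ Ψ (ball 0 1) := dΨ.analyticOnNhd isOpen_ball
  set Φ : ℂ → ℂ := fun q => 2 * Real.pi * Complex.I * (Ψ q - Ψ 0) with hΦ
  have aΦ : AnalyticOnNhd ℂ Φ (ball 0 1) := fun q hq =>
    analyticAt_const.mul ((aΨ q hq).sub analyticAt_const)
  have a0 := aΦ 0 (mem_ball_self one_pos)
  have Φ0 : Φ 0 = 0 := by simp [hΦ]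
  refine ⟨Φ, aΦ, Φ0, ?_, fun γ hγ τ => ?_⟩
  · have ac := analyticAt_cuspFunction_zero one_pos hp hf.1 hz.isBoundedAtImInfty
    have h1 : tay (cuspFunction 1 f) = PowerSeries.mk c := by
      have h2 := (hasFPowerSeriesOnBall_cuspFunction (c := c) one_pos ac fun τ => by
        convert hc τ using 2 with n
        rw [qParam_one, ee_pow, ee, smul_eq_mul]
        congr 2
        ring).hasFPowerSeriesAt.eq_formalMultilinearSeries ac.hasFPowerSeriesAt
      ext n
      have h3 := congr_arg (FormalMultilinearSeries.coeff · n) h2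
      simp only [FormalMultilinearSeries.coeff_ofScalars] at h3
      rw [coeff_tay, PowerSeries.coeff_mk, h3, div_eq_inv_mul]
    have h2 : tay (id * deriv Φ) = tay (cuspFunction 1 f) := by
      refine tay_eq_of_ee (analyticAt_id.mul a0.deriv) ac fun τ => ?_
      have h3 : HasDerivAt (Ψ ∘ ee) (deriv Ψ (ee τ) * (2 * Real.pi * Complex.I * ee τ)) τ :=
        (aΨ _ (ee_mem τ)).differentiableAt.hasDerivAt.comp _ (hasDerivAt_ee τ)
      have h4 : prim f ∘ ofComplex =ᶠ[𝓝 (τ : ℂ)] Ψ ∘ ee := by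
        filter_upwards [isOpen_upperHalfPlaneSet.mem_nhds τ.im_pos] with z hz
        rw [comp_apply, hΨ, ofComplex_apply_of_im_pos hz]
        rfl
      have h5 := (hF τ).unique (h3.congr_of_eventuallyEq h4)
      have h6 : HasDerivAt Φ (2 * Real.pi * Complex.I * deriv Ψ (ee τ)) (ee τ) :=
        ((aΨ _ (ee_mem τ)).differentiableAt.hasDerivAt.sub_const _).const_mul _
      rw [Pi.mul_apply, h6.deriv, ← qParam_one τ, eq_cuspFunction τ one_ne_zero hp, h5, qParam_one,
        id]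
      ring
    rw [h1, tay_mul analyticAt_id a0.deriv, tay_id] at h2
    ext n
    rw [PowerSeries.coeff_mk]
    rcases n with _ | n
    · rw [PowerSeries.coeff_zero_eq_constantCoeff_apply, constantCoeff_tay, Φ0]
      simp
    · have h3 := congrArg (PowerSeries.coeff (n + 1)) h2
      rw [PowerSeries.coeff_succ_X_mul, PowerSeries.coeff_mk, coeff_tay] at h3
      rw [← h3, coeff_tay, iteratedDeriv_succ', Nat.factorial_succ]
      have h4 : ((n.factorial : ℕ) : ℂ) ≠ 0 := by exact_mod_cast n.factorial_ne_zero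
      have h5 : (n : ℂ) + 1 ≠ 0 := by exact_mod_cast n.succ_ne_zero
      push_cast
      field_simp
  · simp only [hΦ, ← hΨ, per_SL hF (hf.2.1 γ hγ)]
    ring

/-- a parabolic element at the cusp `0` -/
theorem exists_gN (Γ : Subgroup SL(2, ℤ)) [Γ.FiniteIndex] :
    ∃ N, 0 < N ∧ gN N ∈ Γ ∧ ∀ f ∈ CS Γ 2, per f (gN N) = 0 := by
  obtain ⟨N, hN⟩ := exists_wid Γ
  have h1 := hN.2 ModularGroup.S
  refine ⟨N, hN.1, gN_eq N ▸ Γ.inv_mem h1, fun f hf => ?_⟩
  have h2 := (mem_CS_iff hN (CS_le_MS hf)).mp hf ModularGroup.S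
  have h3 := per_SL (isPrim_prim hf.1) (hf.2.1 _ h1) (gN N • I)
  rw [h2, zero_add, ← mul_smul, gN_eq, mul_inv_cancel, one_smul, ← gN_eq] at h3
  rw [per, ← ModularGroup.sl_moeb, ← h3, sub_self]

end Crest.Agent.T15.Br
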