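import Crest.Agent.T15.BrB_37
import Crest.Agent.T15.BrC_37

/-!
# Row 15, block Ht: integral formal solutions have torsion periods (over a number field)
-/

set_option autoImplicit false

open Set Filter Topology Metric Polynomial UpperHalfPlane
open scoped PowerSeries MatrixGroups
open Crest.Agent.T15.AlgM Crest.Agent.T15.Hon Crest.Agent.T15.Mum Crest.Agent.T15.Ax
open Crest.Agent.T15.Esc Crest.Agent.T15.Und

noncomputable section

namespace Crest.Agent.T15.Br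

/-- series `y` such that `d ^ k * y` has integral coefficients for some `k` -/
def IntS (K : Type*) [Field K] : Subring K⟦X⟧ where
  carrier := {y | ∃ d : ℕ, 0 < d ∧ ∀ n, IsIntegral ℤ ((d : K) * PowerSeries.coeff n y)}
  mul_mem' := by
    rintro y z ⟨d, hd, hy⟩ ⟨e, he, hz⟩
    refine ⟨d * e, Nat.mul_pos hd he, fun n => ?_⟩
    rw [PowerSeries.coeff_mul, Finset.mul_sum]
    refine IsIntegral.sum _ fun p _ => ?_
    convert (hy p.1).mul (hz p.2) using 1
    push_cast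
    ring
  one_mem' := ⟨1, one_pos, fun n => by
    rw [PowerSeries.coeff_one]
    split_ifs <;> simp [isIntegral_one, isIntegral_zero]⟩
  add_mem' := by
    rintro y z ⟨d, hd, hy⟩ ⟨e, he, hz⟩
    refine ⟨d * e, Nat.mul_pos hd he, fun n => ?_⟩
    have : ((d * e : ℕ) : K) * PowerSeries.coeff n (y + z) =
        e * (d * PowerSeries.coeff n y) + d * (e * PowerSeries.coeff n z) := by
      push_cast
      rw [map_add]
      ring
    rw [this]
    exact ((isIntegral_natCast e).mul (hy n)).add ((isIntegral_natCast d).mul (hz n))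
  zero_mem' := ⟨1, one_pos, fun n => by simp [isIntegral_zero]⟩
  neg_mem' := by
    rintro y ⟨d, hd, hy⟩
    exact ⟨d, hd, fun n => by simpa using (hy n).neg⟩

lemma coeff_prod_mem {R ι : Type*} [CommRing R] [Fintype ι] (S : Subring R) {x : ι → R}
    (hx : ∀ i, x i ∈ S) (n : ℕ) : (∏ i, (X - C (x i))).coeff n ∈ S := by
  have : ∏ i, (X - C (x i)) = (∏ i, (X - C (⟨x i, hx i⟩ : S))).map S.subtype := by
    simp [Polynomial.map_prod]
  rw [this, coeff_map]
  exact Subtype.prop _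

lemma constantCoeff_aeval {K : Type*} [Field K] (y : K⟦X⟧) (F : K[X]) :
    PowerSeries.constantCoeff (aeval y F) = F.eval (PowerSeries.constantCoeff y) := by
  induction F using Polynomial.induction_on' with
  | add p q hp hq => simp only [map_add, eval_add, hp, hq]
  | monomial n c => simp [← C_mul_X_pow_eq_monomial]

variable {g : ℕ}

/-- the analytic Jacobian exists -/
def HasJac (F : ℂ[X]) (g : ℕ) : Prop :=
  ∃ (A : Type) (_ : AddCommGroup A) (cl : ℂ × ℂ → A) (ex : (Fin g → ℂ) →+ A),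
    Cls F g cl ∧ IsExp F g cl ex

section one

variable {F : ℂ[X]} {A : Type*} [AddCommGroup A] {cl : ℂ × ℂ → A} {ex : (Fin g → ℂ) →+ A}
  {Γ : Subgroup SL(2, ℤ)}

/-- the Mumford coordinates along the Eichler integrals -/
theorem coords (hc : Cls F g cl) (he : IsExp F g cl ex) {a b : Fin g → ℂ}
    (ha : Function.Injective a) (hb : ∀ i, b i ≠ 0) {c : Fin g → ℕ → ℂ} {x w η : Fin g → ℂ⟦X⟧}
    (hs : Sol F a b (fun m => PowerSeries.mk fun n => c m n / n) x w η)
    (hT : ModularGroup.T ∈ Γ) {f : Fin g → ℍ → ℂ} (hf : ∀ m, f m ∈ CS Γ 2)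
    (hq : ∀ m, QS (c m) (f m)) :
    ∃ (Φ : ℍ → Fin g → ℂ) (U V : ℕ → ℂ → ℂ),
      (∀ γ ∈ Γ, ∀ τ, Φ (γ • τ) = (fun m => 2 * Real.pi * Complex.I * per (f m) γ) + Φ τ) ∧
      (∀ n, U n ∈ MD ∧ V n ∈ MD) ∧ (∀ n, tay (U n) = (∏ i, (X - C (x i))).coeff n) ∧
      (∀ i, ∑ k : Fin g, x i ^ (k : ℕ) * tay (V k) = w i) ∧
      (∀ τ τ' : ℍ, Φ τ = Φ τ' → ∀ n, U n (ee τ) = U n (ee τ')) ∧
      ∀ τ τ' : ℍ, (∀ n ≤ g, U n (ee τ) = U n (ee τ')) → (∀ n < g, V n (ee τ) = V n (ee τ')) →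
        ex (Φ τ) = ex (Φ τ') := by
  choose Φ aΦ Φ0 tΦ hΦ using fun m => exists_Phi hT (hf m) (hq m)
  have on : ∀ i, b i ^ 2 = F.eval (a i) := fun i => by
    have := congrArg PowerSeries.constantCoeff (hs.sq i)
    rwa [map_pow, hs.w0, constantCoeff_aeval, hs.x0] at this
  have an : ∀ q ∈ ball (0 : ℂ) 1, AnalyticAt ℂ (fun q m => Φ m q) q :=
    fun q hq => AnalyticAt.pi fun m => aΦ m q hq
  obtain ⟨x', w', η', hs', h1, h2, -, h4⟩ := taylor_sol hc he ha on (an 0 (mem_ball_self one_pos))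
    (funext Φ0)
  obtain ⟨rfl, rfl, -⟩ := sol_unique ha hb hs hs' fun m => by rw [← tΦ m]
  have hsum : IsSum F cl (∑ i, cl (a i, b i)) := IsSum.sum (P := fun i => (a i, b i)) on
  refine ⟨fun τ m => Φ m (ee τ), _, _, fun γ hγ τ => funext fun m => hΦ m γ hγ τ,
    fun n => ⟨⟨fun q hq => (cUV_mero hc he hsum (an q hq) n).1, (h1 n).1⟩,
      ⟨fun q hq => (cUV_mero hc he hsum (an q hq) n).2, (h1 n).2⟩⟩, h2, h4,
    fun τ τ' h n => ?_, fun τ τ' hU hV => ?_⟩
  · simp only [cU]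
    rw [show (fun m => Φ m (ee τ)) = fun m => Φ m (ee τ') from h]
  · have s1 := hsum.add (isSum_ex hc he fun m => Φ m (ee τ))
    have s2 := hsum.add (isSum_ex hc he fun m => Φ m (ee τ'))
    have r1 := (hc.mum_spec s1).1
    have r2 := (hc.mum_spec s2).1
    refine add_left_cancel (hc.mum_inj s1 s2 (Prod.ext ?_ ?_))
    · ext n
      rcases le_or_gt n g with hn | hn
      · exact hU n hn
      · rw [coeff_eq_zero_of_natDegree_lt (r1.deg.trans_lt hn),
          coeff_eq_zero_of_natDegree_lt (r2.deg.trans_lt hn)]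
    · ext n
      rcases lt_or_ge n g with hn | hn
      · exact hV n hn
      · rw [coeff_eq_zero_of_degree_lt (r1.lt.trans_le (degree_le_of_natDegree_le (r1.deg.trans hn))),
          coeff_eq_zero_of_degree_lt (r2.lt.trans_le (degree_le_of_natDegree_le (r2.deg.trans hn)))]

end one

/-- **torsion periods** -/
theorem periods {K : Type*} [Field K] [NumberField K] {F : K[X]} {a b : Fin g → K}
    (ha : Function.Injective a) (hb : ∀ i, b i ≠ 0) {c : Fin g → ℕ → K} {x w η : Fin g → K⟦X⟧}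
    (hs : Sol F a b (fun m => PowerSeries.mk fun n => c m n / n) x w η) (hx : ∀ i, x i ∈ IntS K)
    {Γ : Subgroup SL(2, ℤ)} [Γ.FiniteIndex] (hT : ModularGroup.T ∈ Γ)
    (jac : ∀ σ : K →+* ℂ, HasJac (F.map σ) g)
    (hf : ∀ (σ : K →+* ℂ) m, ∃ f ∈ CS Γ 2, QS (fun n => σ (c m n)) f) (σ₀ : K →+* ℂ)
    {A : Type*} [AddCommGroup A] {cl : ℂ × ℂ → A} {ex : (Fin g → ℂ) →+ A}
    (hc : Cls (F.map σ₀) g cl) (he : IsExp (F.map σ₀) g cl ex) {f : Fin g → ℍ → ℂ}
    (h1 : ∀ m, f m ∈ CS Γ 2) (h2 : ∀ m, QS (fun n => σ₀ (c m n)) (f m)) {δ : SL(2, ℤ)}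
    (hδ : δ ∈ Γ) : ∃ k : ℕ, 0 < k ∧ k • ex (fun m => 2 * Real.pi * Complex.I * per (f m) δ) = 0 := by
  obtain ⟨N, hN, hNΓ, hper⟩ := exists_gN Γ
  have hsσ : ∀ σ : K →+* ℂ, Sol (F.map σ) (fun i => σ (a i)) (fun i => σ (b i))
      (fun m => PowerSeries.mk fun n => σ (c m n) / n) (fun i => PowerSeries.map σ (x i))
      (fun i => PowerSeries.map σ (w i)) fun i => PowerSeries.map σ (η i) := fun σ => by
    convert sol_map σ hs using 2 with m
    ext n
    simp
  have haσ : ∀ σ : K →+* ℂ, Function.Injective fun i => σ (a i) := fun σ => σ.injective.comp ha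
  have hbσ : ∀ (σ : K →+* ℂ) i, σ (b i) ≠ 0 := fun σ i => (map_ne_zero σ).mpr (hb i)
  have hall : ∀ σ : K →+* ℂ, ∃ U : ℕ → ℂ → ℂ, ∀ n, U n ∈ MD ∧ InvBy (gN N) (U n) ∧
      tay (U n) = PowerSeries.map σ ((∏ i, (X - C (x i))).coeff n) := fun σ => by
    obtain ⟨A', _, cl', ex', hc', he'⟩ := jac σ
    choose f' hf1 hf2 using hf σ
    obtain ⟨Φ, U, V, k1, k2, k3, -, k5, -⟩ := coords hc' he' (haσ σ) (hbσ σ) (hsσ σ) hT hf1 hf2
    refine ⟨U, fun n => ⟨(k2 n).1, Eventually.of_forall fun τ => k5 _ _ ?_ n, ?_⟩⟩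
    · rw [k1 _ hNΓ]
      funext m
      simp [hper _ (hf1 m)]
    · rw [k3, ← coeff_map, Polynomial.map_prod]
      simp
  choose U' hU' using hall
  have alg : ∀ n, AlgRel (tay Xf) ((∏ i, (X - C (PowerSeries.map σ₀ (x i)))).coeff n) := fun n => by
    obtain ⟨d, hd, hy⟩ := coeff_prod_mem (IntS K) hx n
    have := algK hN Xf_mem (Xf_invBy _) tay_Xf Xf_nc hd hy (U := fun σ => U' σ n)
      (fun σ => (hU' σ n).1) (fun σ => (hU' σ n).2.1) (fun σ => (hU' σ n).2.2) σ₀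
    rw [(hU' σ₀ n).2.2, ← coeff_map, Polynomial.map_prod] at this
    simpa using this
  obtain ⟨Φ, U, V, k1, k2, k3, k4, -, k6⟩ := coords hc he (haσ σ₀) (hbσ σ₀) (hsσ σ₀) hT h1 h2
  have xinj : Function.Injective fun i => PowerSeries.map σ₀ (x i) := fun i j h =>
    haσ σ₀ (by
      have := congrArg PowerSeries.constantCoeff h
      rwa [(hsσ σ₀).x0, (hsσ σ₀).x0] at this)
  obtain ⟨-, -, algV⟩ := alg_roots Xf_nc xinj alg (hsσ σ₀).sq k4
  obtain ⟨k, hk, hk'⟩ := per_mul_mem ex.ker (k1 δ hδ)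
    (U := Sum.elim (fun n : Fin (g + 1) => U n) fun n : Fin g => V n)
    (fun i => by rcases i with i | i <;> simp [k2])
    (fun i => by
      rcases i with i | i
      · simpa [k3] using alg i
      · exact algV i)
    (p := fun _ => True) (Eventually.of_forall fun _ => trivial)
    fun τ τ' _ _ h => by
      rw [AddMonoidHom.mem_ker, map_sub, sub_eq_zero]
      exact k6 τ τ' (fun n hn => h (Sum.inl ⟨n, Nat.lt_succ_of_le hn⟩))
        fun n hn => h (Sum.inr ⟨n, hn⟩)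
  exact ⟨k, hk, by rwa [AddMonoidHom.mem_ker, map_nsmul] at hk'⟩

end Crest.Agent.T15.Br
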