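import Crest.Agent.T15.HonDef_54

/-!
# Row 15, block Ht (helper85): existence of the formal solution, descent to a number field

* `fix_ps` : fixed points of `X`-adic contractions;
* `exists_sol` : `Hon.Sol` has a solution over every field of characteristic zero;
* `descent` : an integral formal solution comes from a number field.
-/

set_option autoImplicit false

open Polynomial Matrix
open scoped PowerSeries
open Crest.Agent.T15.Hon

noncomputable section

namespace Crest.Agent.T15.Br

section formal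

variable {K : Type*} [Field K] {g : ℕ}

/-- fixed points of `X`-adic contractions -/
theorem fix_ps {R ι : Type*} [CommRing R] (T : (ι → R⟦X⟧) → ι → R⟦X⟧)
    (hT : ∀ (n : ℕ) (u v : ι → R⟦X⟧), (∀ i, PowerSeries.X ^ n ∣ u i - v i) →
      ∀ i, PowerSeries.X ^ (n + 1) ∣ T u i - T v i) : ∃ u, T u = u := by
  have h1 : ∀ n i, PowerSeries.X ^ n ∣ (T^[n + 1] 0) i - (T^[n] 0) i := by
    intro n
    induction n with
    | zero => intro i; simp
    | succ n ih =>
      intro i
      have := hT n _ _ ih i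
      rwa [← Function.iterate_succ_apply' T (n + 1), ← Function.iterate_succ_apply' T n] at this
  have h2 : ∀ n k i, PowerSeries.X ^ n ∣ (T^[n + k] 0) i - (T^[n] 0) i := by
    intro n k i
    induction k with
    | zero => simp
    | succ k ih =>
      have := ((pow_dvd_pow _ (Nat.le_add_right n k)).trans (h1 (n + k) i)).add ih
      rwa [sub_add_sub_cancel] at this
  set u : ι → R⟦X⟧ := fun i => PowerSeries.mk fun n => PowerSeries.coeff n ((T^[n + 1] 0) i)
    with hu
  have h3 : ∀ n i, PowerSeries.X ^ n ∣ u i - (T^[n] 0) i := by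
    intro n i
    rw [PowerSeries.X_pow_dvd_iff]
    intro m hm
    obtain ⟨k, rfl⟩ := Nat.exists_eq_add_of_le (Nat.succ_le_of_lt hm)
    have := PowerSeries.X_pow_dvd_iff.1 (h2 (m + 1) k i) m m.lt_succ_self
    rw [map_sub, sub_eq_zero] at this ⊢
    rw [hu]
    simp only [PowerSeries.coeff_mk]
    exact this.symm
  refine ⟨u, funext fun i => ?_⟩
  rw [← sub_eq_zero]
  ext n
  have a1 := hT n _ _ (h3 n) i
  rw [← Function.iterate_succ_apply' T n] at a1
  have a2 := a1.sub (h3 (n + 1) i)
  rw [sub_sub_sub_cancel_right] at a2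
  exact PowerSeries.X_pow_dvd_iff.1 a2 n n.lt_succ_self

/-- the primitive with constant term `a` -/
def intg (a : K) (p : K⟦X⟧) : K⟦X⟧ :=
  PowerSeries.mk fun n => Nat.casesOn n a fun m => PowerSeries.coeff m p / (m + 1)

lemma intg_zero (a : K) (p : K⟦X⟧) : PowerSeries.constantCoeff (intg a p) = a := by
  rw [← PowerSeries.coeff_zero_eq_constantCoeff_apply, intg, PowerSeries.coeff_mk]
  rfl

lemma d_intg [CharZero K] (a : K) (p : K⟦X⟧) : PowerSeries.derivative K (intg a p) = p := by
  ext n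
  rw [PowerSeries.coeff_derivative, intg, PowerSeries.coeff_mk]
  have : (n : K) + 1 ≠ 0 := by exact_mod_cast n.succ_ne_zero
  exact div_mul_cancel₀ _ this

lemma intg_dvd (a : K) {p q : K⟦X⟧} {n : ℕ} (h : PowerSeries.X ^ n ∣ p - q) :
    PowerSeries.X ^ (n + 1) ∣ intg a p - intg a q := by
  rw [PowerSeries.X_pow_dvd_iff] at h ⊢
  intro m hm
  rw [map_sub, intg, intg, PowerSeries.coeff_mk, PowerSeries.coeff_mk]
  rcases m with _ | m
  · exact sub_self _
  · have := h m (by omega)
    rw [map_sub, sub_eq_zero] at this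
    simp only [this, sub_self]

lemma cc_aeval (x : K⟦X⟧) (F : K[X]) :
    PowerSeries.constantCoeff (aeval x F) = F.eval (PowerSeries.constantCoeff x) := by
  induction F using Polynomial.induction_on' with
  | add p q hp hq => simp only [map_add, eval_add, hp, hq]
  | monomial n c => simp [← C_mul_X_pow_eq_monomial]

lemma vdm_unit {a : Fin g → K} (ha : Function.Injective a) {x : Fin g → K⟦X⟧}
    (hx : ∀ i, PowerSeries.constantCoeff (x i) = a i) : IsUnit (vandermonde x)ᵀ.det := by
  rw [det_transpose, PowerSeries.isUnit_iff_constantCoeff, RingHom.map_det]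
  have : (PowerSeries.constantCoeff (R := K)).mapMatrix (vandermonde x) = vandermonde a := by
    ext i j
    simp [vandermonde_apply, hx]
  rw [this]
  exact (det_vandermonde_ne_zero_iff.2 ha).isUnit

lemma vdm_mulVec {R : Type*} [CommRing R] (x η : Fin g → R) (m : Fin g) :
    ((vandermonde x)ᵀ *ᵥ η) m = ∑ i, x i ^ (m : ℕ) * η i := by
  simp [mulVec, dotProduct, vandermonde_apply]

lemma vdm_dvd {R : Type*} [CommRing R] {x x' η η' : Fin g → R} (hu : IsUnit (vandermonde x)ᵀ.det)
    {d : R} (hx : ∀ i, d ∣ x i - x' i)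
    (h : ∀ m : Fin g, ∑ i, x i ^ (m : ℕ) * η i = ∑ i, x' i ^ (m : ℕ) * η' i) (i : Fin g) :
    d ∣ η i - η' i := by
  have h1 : ∀ m, d ∣ ((vandermonde x)ᵀ *ᵥ (η - η')) m := fun m => by
    have : ((vandermonde x)ᵀ *ᵥ (η - η')) m = -∑ i, (x i ^ (m : ℕ) - x' i ^ (m : ℕ)) * η' i := by
      rw [mulVec_sub, Pi.sub_apply, vdm_mulVec, vdm_mulVec, h m, ← Finset.sum_sub_distrib,
        ← Finset.sum_neg_distrib]
      exact Finset.sum_congr rfl fun i _ => by ring
    rw [this, dvd_neg]
    exact Finset.dvd_sum fun i _ => ((hx i).trans (sub_dvd_pow_sub_pow _ _ _)).mul_right _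
  have h2 : η - η' = (vandermonde x)ᵀ⁻¹ *ᵥ ((vandermonde x)ᵀ *ᵥ (η - η')) := by
    rw [mulVec_mulVec, nonsing_inv_mul _ hu, one_mulVec]
  rw [← Pi.sub_apply, h2, mulVec, dotProduct]
  exact Finset.dvd_sum fun m _ => (h1 m).mul_left _

/-- **existence of the formal solution** -/
theorem exists_sol [CharZero K] (F : K[X]) {a b : Fin g → K} (ha : Function.Injective a)
    (hb : ∀ i, b i ^ 2 = F.eval (a i)) (Φ : Fin g → K⟦X⟧) : ∃ x w η, Sol F a b Φ x w η := by
  set xx : (Fin g ⊕ Fin g → K⟦X⟧) → Fin g → K⟦X⟧ := fun u i => intg (a i) (u (.inl i))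
  set ww : (Fin g ⊕ Fin g → K⟦X⟧) → Fin g → K⟦X⟧ := fun u i => intg (b i) (u (.inr i))
  have hu : ∀ u, IsUnit (vandermonde (xx u))ᵀ.det := fun u => vdm_unit ha fun i => intg_zero _ _
  set ee : (Fin g ⊕ Fin g → K⟦X⟧) → Fin g → K⟦X⟧ := fun u =>
    (vandermonde (xx u))ᵀ⁻¹ *ᵥ fun m => PowerSeries.derivative K (Φ m) with hee
  have he : ∀ u (m : Fin g), ∑ i, xx u i ^ (m : ℕ) * ee u i = PowerSeries.derivative K (Φ m) :=
    fun u m => by
      rw [← vdm_mulVec, hee]
      simp only
      rw [mulVec_mulVec, mul_nonsing_inv _ (hu u), one_mulVec]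
  obtain ⟨u, hfix⟩ := fix_ps (fun u => Sum.elim (fun i => ee u i * ww u i)
      fun i => ee u i * aeval (xx u i) (C (2 : K)⁻¹ * derivative F)) fun n u v h => by
    have hx : ∀ i, PowerSeries.X ^ (n + 1) ∣ xx u i - xx v i := fun i => intg_dvd _ (h _)
    have hw : ∀ i, PowerSeries.X ^ (n + 1) ∣ ww u i - ww v i := fun i => intg_dvd _ (h _)
    have hη := vdm_dvd (hu u) hx fun m => (he u m).trans (he v m).symm
    rintro (i | i)
    · simp only [Sum.elim_inl]
      have := ((hη i).mul_right (ww u i)).add ((hw i).mul_left (ee v i))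
      convert this using 1
      ring
    · simp only [Sum.elim_inr]
      have h1 : PowerSeries.X ^ (n + 1) ∣ aeval (xx u i) (C (2 : K)⁻¹ * derivative F) -
          aeval (xx v i) (C (2 : K)⁻¹ * derivative F) := by
        rw [← eval_map_algebraMap, ← eval_map_algebraMap]
        exact (hx i).trans (sub_dvd_eval_sub _ _ _)
      have := ((hη i).mul_right (aeval (xx u i) (C (2 : K)⁻¹ * derivative F))).add
        (h1.mul_left (ee v i))
      convert this using 1
      ring
  have dx : ∀ i, PowerSeries.derivative K (xx u i) = ee u i * ww u i := fun i =>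
    (d_intg _ _).trans (congrFun hfix (.inl i)).symm
  have dw : ∀ i, PowerSeries.derivative K (ww u i) =
      ee u i * aeval (xx u i) (C (2 : K)⁻¹ * derivative F) := fun i =>
    (d_intg _ _).trans (congrFun hfix (.inr i)).symm
  refine ⟨xx u, ww u, ee u, fun i => ?_, fun i => intg_zero _ _, fun i => intg_zero _ _, dx, he u⟩
  refine PowerSeries.derivative.ext ?_ ?_
  · have h2 : (2 : K⟦X⟧) * algebraMap K K⟦X⟧ (2 : K)⁻¹ = 1 := by
      rw [← map_ofNat (algebraMap K K⟦X⟧) 2, ← map_mul, mul_inv_cancel₀ two_ne_zero, map_one]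
    rw [Derivation.comp_aeval_eq, Derivation.leibniz_pow, dx, dw, map_mul, aeval_C]
    simp only [smul_eq_mul, nsmul_eq_mul, Nat.cast_ofNat, Nat.add_one_sub_one, pow_one]
    linear_combination (ww u i * ee u i * aeval (xx u i) (derivative F)) * h2
  · rw [map_pow, cc_aeval, intg_zero, intg_zero, hb]

lemma sol_map' {K' : Type*} [Field K'] (σ : K →+* K') {F : K[X]} {a b : Fin g → K}
    {Φ x w η : Fin g → K⟦X⟧} (h : Sol F a b Φ x w η) :
    Sol (F.map σ) (fun i => σ (a i)) (fun i => σ (b i)) (fun i => PowerSeries.map σ (Φ i))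
      (fun i => PowerSeries.map σ (x i)) (fun i => PowerSeries.map σ (w i))
      fun i => PowerSeries.map σ (η i) := by
  have md : ∀ f : K⟦X⟧, PowerSeries.map σ (PowerSeries.derivative K f) =
      PowerSeries.derivative K' (PowerSeries.map σ f) := fun f => by
    ext n
    simp [PowerSeries.coeff_derivative]
  have ma : ∀ (f : K⟦X⟧) (F : K[X]),
      PowerSeries.map σ (aeval f F) = aeval (PowerSeries.map σ f) (F.map σ) := fun f F => by
    induction F using Polynomial.induction_on' with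
    | add p q hp hq => simp only [Polynomial.map_add, map_add, hp, hq]
    | monomial n c => simp [← C_mul_X_pow_eq_monomial]
  have mc : ∀ f : K⟦X⟧, PowerSeries.constantCoeff (PowerSeries.map σ f) =
      σ (PowerSeries.constantCoeff f) := fun f => by
    rw [← PowerSeries.coeff_zero_eq_constantCoeff_apply, PowerSeries.coeff_map,
      PowerSeries.coeff_zero_eq_constantCoeff_apply]
  exact ⟨fun i => by rw [← map_pow, h.sq, ma], fun i => by rw [mc, h.x0], fun i => by rw [mc, h.w0],
    fun i => by rw [← md, h.dx, map_mul],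
    fun m => by rw [← md, ← h.sum, map_sum]; simp only [map_mul, map_pow]⟩

end formal

/-- embeddings into `ℂ` extend to algebraic extensions -/
lemma exists_ext_C {Om : Type*} [Field Om] [CharZero Om] [Algebra.IsAlgebraic ℚ Om]
    (K : IntermediateField ℚ Om) (σ : K →+* ℂ) : ∃ σ' : Om →+* ℂ, ∀ z : K, σ' z = σ z := by
  let _ : Algebra K ℂ := σ.toAlgebra
  exact ⟨(IsAlgClosed.lift : Om →ₐ[K] ℂ).toRingHom, fun z =>
    (IsAlgClosed.lift : Om →ₐ[K] ℂ).commutes z⟩

/-- **descent to a number field** -/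
theorem descent {Om : Type*} [Field Om] [CharZero Om] [Algebra.IsAlgebraic ℚ Om] {g : ℕ}
    (K0 : IntermediateField ℚ Om) [FiniteDimensional ℚ K0] (F : Om[X]) {a b : Fin g → Om}
    {c : ℕ → Fin g → Om} (hc : ∀ n k, c n k ∈ K0) (ha : Function.Injective a)
    (hb : ∀ i, b i ^ 2 = F.eval (a i))
    (hI : ∀ x w η : Fin g → Om⟦X⟧, Sol F a b (fun k => PowerSeries.mk fun n => c n k / n) x w η →
      ∀ i n, 0 < n → IsIntegral ℤ (PowerSeries.coeff n (x i))) :
    ∃ (K : IntermediateField ℚ Om) (_ : NumberField K) (F0 : K[X]) (a0 b0 : Fin g → K)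
      (c0 : ℕ → Fin g → K) (x w η : Fin g → K⟦X⟧) (d : ℕ), F0.map (algebraMap K Om) = F ∧
      (∀ i, (a0 i : Om) = a i) ∧ (∀ i, (b0 i : Om) = b i) ∧ (∀ n k, (c0 n k : Om) = c n k) ∧
      Sol F0 a0 b0 (fun k => PowerSeries.mk fun n => c0 n k / n) x w η ∧ 0 < d ∧
      ∀ i n, IsIntegral ℤ ((d : K) * PowerSeries.coeff n (x i)) := by
  classical
  set S : Set Om := (F.coeffs : Set Om) ∪ (Set.range a ∪ Set.range b) with hS
  have hfin : Finite S :=
    ((F.coeffs.finite_toSet).union ((Set.finite_range a).union (Set.finite_range b))).to_subtype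
  have hK1 : FiniteDimensional ℚ (IntermediateField.adjoin ℚ S) :=
    IntermediateField.finiteDimensional_adjoin fun z _ => (Algebra.IsAlgebraic.isAlgebraic z).isIntegral
  set K : IntermediateField ℚ Om := K0 ⊔ IntermediateField.adjoin ℚ S with hK
  have hKf : FiniteDimensional ℚ K := IntermediateField.finiteDimensional_sup _ _
  have hNF : NumberField K := ⟨⟩
  have hS' : ∀ z ∈ S, z ∈ K := fun z hz =>
    (le_sup_right : _ ≤ K) (IntermediateField.subset_adjoin ℚ S hz)
  obtain ⟨F0, hF0⟩ : F ∈ Polynomial.lifts (algebraMap K Om) := by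
    rw [lifts_iff_coeff_lifts]
    intro n
    by_cases h : F.coeff n = 0
    · exact ⟨0, by rw [h, map_zero]⟩
    · exact ⟨⟨_, hS' _ (Or.inl (coeff_mem_coeffs h))⟩, rfl⟩
  replace hF0 : F0.map (algebraMap K Om) = F := hF0
  set a0 : Fin g → K := fun i => ⟨a i, hS' _ (Or.inr (Or.inl ⟨i, rfl⟩))⟩
  set b0 : Fin g → K := fun i => ⟨b i, hS' _ (Or.inr (Or.inr ⟨i, rfl⟩))⟩
  set c0 : ℕ → Fin g → K := fun n k => ⟨c n k, (le_sup_left : _ ≤ K) (hc n k)⟩
  have ha0 : Function.Injective a0 := fun i j h => ha (congrArg Subtype.val h)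
  have hb0 : ∀ i, b0 i ^ 2 = F0.eval (a0 i) := fun i => by
    apply (algebraMap K Om).injective
    rw [map_pow, ← eval₂_at_apply, ← eval_map, hF0]
    exact hb i
  obtain ⟨x, w, η, hs⟩ := exists_sol F0 ha0 hb0 fun k => PowerSeries.mk fun n => c0 n k / n
  have hs' := sol_map' (algebraMap K Om) hs
  have e1 : (fun k => PowerSeries.map (algebraMap K Om) (PowerSeries.mk fun n => c0 n k / n)) =
      fun k => PowerSeries.mk fun n => c n k / n := by
    funext k
    ext n
    simp only [PowerSeries.coeff_map, PowerSeries.coeff_mk, map_div₀, map_natCast]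
    rfl
  rw [hF0, e1] at hs'
  have h1 := hI _ _ _ hs'
  have h2 : ∀ i, ∃ d : ℕ, 0 < d ∧ IsIntegral ℤ ((d : K) * a0 i) := fun i => by
    obtain ⟨y, hy, h⟩ := ((IsFractionRing.isAlgebraic_iff ℤ ℚ K).2
      (Algebra.IsAlgebraic.isAlgebraic (a0 i))).exists_integral_multiple
    refine ⟨y.natAbs, Int.natAbs_pos.2 hy, ?_⟩
    rw [zsmul_eq_mul] at h
    rcases Int.natAbs_eq y with e | e
    · rw [e] at h; simpa using h
    · rw [e] at h; simpa using h.neg
  choose d hd hd' using h2
  refine ⟨K, hNF, F0, a0, b0, c0, x, w, η, ∏ i, d i, hF0, fun _ => rfl, fun _ => rfl,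
    fun _ _ => rfl, hs, Finset.prod_pos fun i _ => hd i, fun i n => ?_⟩
  have hn : ∀ m : ℕ, IsIntegral ℤ (m : K) := fun m => by
    simpa using isIntegral_algebraMap (R := ℤ) (A := K) (x := (m : ℤ))
  rcases n.eq_zero_or_pos with rfl | h0
  · rw [PowerSeries.coeff_zero_eq_constantCoeff_apply, hs.x0,
      ← Finset.prod_erase_mul _ _ (Finset.mem_univ i), Nat.cast_mul, mul_assoc]
    exact (hn _).mul (hd' i)
  · refine (hn _).mul ?_
    have := h1 i n h0
    rw [PowerSeries.coeff_map] at this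
    exact (isIntegral_algHom_iff (IsScalarTower.toAlgHom ℤ K Om) (algebraMap K Om).injective).1 this

end Crest.Agent.T15.Br
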