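import Crest.Agent.T15.BrD_37
import Crest.Agent.T15.BrE_85
import Crest.Agent.T15.AjC_55

/-!
# Row 15, block Ht: integral formal solutions have torsion periods (over an algebraic field)
-/

set_option autoImplicit false

open Polynomial UpperHalfPlane
open scoped PowerSeries MatrixGroups
open Crest.Agent.T15.Hon Crest.Agent.T15.Mum Crest.Agent.T15.Ax
open Crest.Agent.T15.Esc Crest.Agent.T15.Und

noncomputable section

namespace Crest.Agent.T15.Br

variable {g : ℕ}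

theorem hasJac {F : ℂ[X]} (hs : F.Separable) (hg : F.natDegree = 2 * g + 1) : HasJac F g := by
  have : Hy.HF F := ⟨two_ne_zero, hs, by omega⟩
  obtain ⟨ex, he⟩ := (Aj.dat0 (Hy.Hf.hyp F) hg).exists_exp
  exact ⟨_, inferInstance, _, ex, Aj.mumCls (Hy.Hf.hyp F) hg, he⟩

/-- **torsion periods** -/
theorem periods_alg {Om : Type*} [Field Om] [CharZero Om] [Algebra.IsAlgebraic ℚ Om]
    (ι : Om →+* ℂ) {F : Om[X]} {A : Type*} [AddCommGroup A] {cl : ℂ × ℂ → A}
    {ex : (Fin g → ℂ) →+ A} (hc : Cls (F.map ι) g cl) (he : IsExp (F.map ι) g cl ex)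
    {c : ℕ → Fin g → Om} {a b : Fin g → Om} (K0 : IntermediateField ℚ Om)
    [FiniteDimensional ℚ K0] (hK : ∀ n k, c n k ∈ K0) (ha : Function.Injective a)
    (hb : ∀ i, b i ≠ 0) (on : ∀ i, b i ^ 2 = F.eval (a i))
    (hI : ∀ x w η : Fin g → Om⟦X⟧, Sol F a b (fun k => PowerSeries.mk fun n => c n k / n) x w η →
      ∀ i n, 0 < n → IsIntegral ℤ (PowerSeries.coeff n (x i)))
    {Γ : Subgroup SL(2, ℤ)} [Γ.FiniteIndex] (hT : ModularGroup.T ∈ Γ)
    (hf : ∀ (σ : Om →+* ℂ) k, ∃ f ∈ CS Γ 2, QS (fun n => σ (c n k)) f) {f : Fin g → ℍ → ℂ}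
    (h1 : ∀ k, f k ∈ CS Γ 2) (h2 : ∀ k, QS (fun n => ι (c n k)) (f k)) {δ : SL(2, ℤ)}
    (hδ : δ ∈ Γ) : ∃ k : ℕ, 0 < k ∧ k • ex (fun m => 2 * Real.pi * Complex.I * per (f m) δ) = 0 := by
  obtain ⟨K, _, F0, a0, b0, c0, x, w, η, d, rfl, ea, eb, ec, hs, hd, hx⟩ :=
    descent K0 F hK ha on hI
  rw [Polynomial.map_map] at hc he
  have sep : F0.Separable := (separable_map _).mp hc.sep
  have deg : F0.natDegree = 2 * g + 1 := by rw [← hc.deg, natDegree_map]
  refine periods (c := fun m n => c0 n m) (fun i j h => ha (by rw [← ea, ← ea, h]))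
    (fun i h => hb i (by rw [← eb, h]; rfl)) hs (fun i => ⟨d, hd, hx i⟩) hT
    (fun σ => hasJac sep.map (by rw [natDegree_map, deg])) (fun σ m => ?_) _ hc he h1
    (fun m => ?_) hδ
  · obtain ⟨σ', h⟩ := exists_ext_C K σ
    simpa only [← ec, h] using hf σ' m
  · have := h2 m
    simp only [← ec] at this
    exact this

end Crest.Agent.T15.Br
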