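import Crest.Agent.T15.MumA_4
import Crest.Agent.T15.AxC_14
import Crest.Agent.R007.RatDesc

/-!
# Row 15, block Ht (helper85): the Jacobians of the conjugate curves

`exists_jac` : the data `Cls`, `Dat`, `IsExp` for `F^ι` give the same data for every conjugate `F^σ`.
-/

set_option autoImplicit false

open Polynomial
open Crest.Agent.T15.Mum Crest.Agent.T15.Ax

noncomputable section

namespace Crest.Agent.T15.Br

/-- two embeddings of a normal field differ by an automorphism of `ℂ` -/
theorem exists_conj_aut {E : Type} [Field E] [CharZero E] [Normal ℚ E] (ι σ : E →+* ℂ) :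
    ∃ s : ℂ ≃+* ℂ, ∀ x, s (ι x) = σ x := by
  let _ := ι.toAlgebra
  have : IsScalarTower ℚ E ℂ := IsScalarTower.of_algebraMap_eq fun q => by
    simp [RingHom.algebraMap_toAlgebra]
  let φ : E →ₐ[ℚ] ℂ := σ.toRatAlgHom
  obtain ⟨s, hs⟩ := Crest.Agent.R007.RatAlg.exists_extend (F := E) (φ.restrictNormal' E).toRingEquiv
  exact ⟨s, fun x => (hs x).trans (φ.restrictNormal_commutes E x)⟩

variable {A : Type*} [AddCommGroup A] {g : ℕ}

section

variable {k k' : Type*} [Field k] [Field k'] (s : k ≃+* k') {F : k[X]}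

lemma symm_eval (p : k'[X]) (x : k') :
    s.symm (p.eval x) = (p.map (s.symm : k' →+* k)).eval (s.symm x) := by
  rw [eval_map]
  exact (eval₂_at_apply (s.symm : k' →+* k) x).symm

lemma map_map_symm (p : k[X]) : (p.map (s : k →+* k')).map (s.symm : k' →+* k) = p := by
  ext n
  simp

lemma on_symm {x w : k'} (h : w ^ 2 = (F.map (s : k →+* k')).eval x) :
    s.symm w ^ 2 = F.eval (s.symm x) := by
  rw [← map_pow, h, symm_eval, map_map_symm]

lemma roots_symm (p : k'[X]) : (p.map (s.symm : k' →+* k)).roots = p.roots.map s.symm := by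
  by_cases hp : p = 0
  · simp [hp]
  refine le_antisymm ?_ (map_roots_le_of_injective p (s.symm : k' →+* k).injective)
  have h1 := map_roots_le_of_injective (p.map (s.symm : k' →+* k)) (s : k →+* k').injective
  have h2 : (p.map (s.symm : k' →+* k)).map (s : k →+* k') = p := map_map_symm s.symm p
  rw [h2] at h1
  simpa using Multiset.map_le_map (f := s.symm) h1

theorem cls_conj {cl : k × k → A} (h : Cls F g cl) :
    Cls (F.map (s : k →+* k')) g fun p => cl (s.symm p.1, s.symm p.2) where
  deg := by rw [natDegree_map, h.deg]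
  sep := h.sep.map
  two := fun e => h.two (by simpa [map_ofNat] using congrArg s.symm e)
  a1 v := by
    have h1 := h.a1 (v.map (s.symm : k' →+* k))
    have h2 : F - (v.map (s.symm : k' →+* k)) ^ 2 =
        (F.map (s : k →+* k') - v ^ 2).map (s.symm : k' →+* k) := by
      rw [Polynomial.map_sub, Polynomial.map_pow, map_map_symm]
    rw [h2, Phi, pts, roots_symm] at h1
    rw [← h1, Phi, pts]
    simp only [Multiset.map_map, Function.comp_def, symm_eval]
  a2 x w hw := by
    have := h.a2 _ _ (on_symm s hw)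
    simpa only [map_neg] using this
  a3 D hD hc h0 := by
    obtain ⟨E, hE⟩ := h.a3 (D.map fun p => (s.symm p.1, s.symm p.2))
      (fun p hp => by
        obtain ⟨q, hq, rfl⟩ := Multiset.mem_map.1 hp
        exact on_symm s (hD q hq))
      (by simpa using hc) (by simpa only [Multiset.map_map, Function.comp_def] using h0)
    refine ⟨E.map fun p => (s p.1, s p.2), ?_⟩
    have := congrArg (Multiset.map fun p : k × k => (s p.1, s p.2)) hE
    simpa [Multiset.map_map, Function.comp_def, Mum.conj] using this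

end

theorem dat_conj (s : ℂ ≃+* ℂ) {F : ℂ[X]} {cl : ℂ × ℂ → A} {δ : A} (h : Dat F g cl δ) :
    Dat (F.map (s : ℂ →+* ℂ)) g (fun p => cl (s.symm p.1, s.symm p.2)) δ where
  sqf := (PerfectField.separable_iff_squarefree.2 h.sqf).map.squarefree
  lo := by rw [natDegree_map]; exact h.lo
  hi := by rw [natDegree_map]; exact h.hi
  h1 n ι _ P a b hc hi hP hb ha hb' he :=
    h.h1 n ι (fun j => (s.symm (P j).1, s.symm (P j).2)) (a.map (s.symm : ℂ →+* ℂ))
      (b.map (s.symm : ℂ →+* ℂ)) hc (fun _ _ e => hi (s.symm.injective e))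
      (fun j => on_symm s (hP j)) (map_ne_zero hb) (by rwa [natDegree_map])
      (by rwa [natDegree_map]) fun j => by
        simp only [← symm_eval, ← map_mul, ← map_add, he, map_zero]
  h2 P Q hP hQ iP iQ e i := by
    obtain ⟨j, hj⟩ := h.h2 (fun j => (s.symm (P j).1, s.symm (P j).2))
      (fun j => (s.symm (Q j).1, s.symm (Q j).2)) (fun j => on_symm s (hP j))
      (fun j => on_symm s (hQ j)) (fun _ _ e => iP (s.symm.injective e))
      (fun _ _ e => iQ (s.symm.injective e)) e i
    exact ⟨j, Prod.ext (s.symm.injective (congrArg Prod.fst hj))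
      (s.symm.injective (congrArg Prod.snd hj))⟩
  h3 x w hw := by
    have := h.h3 _ _ (on_symm s hw)
    simpa only [map_neg] using this
  h4 e₀ T h0 hT hn hne hc := by
    have z : ∀ e, (F.map (s : ℂ →+* ℂ)).eval e = 0 → F.eval (s.symm e) = 0 := fun e he => by
      have := on_symm s (w := 0) (x := e) (F := F) (by rw [he]; simp)
      simpa using this.symm
    have := h.h4 (s.symm e₀) (T.map s.symm.toEquiv.toEmbedding) (z _ h0)
      (fun e he => by
        obtain ⟨q, hq, rfl⟩ := Finset.mem_map.1 he
        exact z _ (hT q hq))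
      (by simpa using hn) (by simpa using hne) (by simpa using hc)
    simpa [Finset.sum_map] using this

/-- **the Jacobians of the conjugate curves** -/
theorem exists_jac {E : Type} [Field E] [CharZero E] [Normal ℚ E] {ι : E →+* ℂ} {F : E[X]}
    {cl : ℂ × ℂ → A} {δ : A} (hc : Cls (F.map ι) g cl) (hd : Dat (F.map ι) g cl δ) (σ : E →+* ℂ) :
    ∃ (cl' : ℂ × ℂ → A) (ex' : (Fin g → ℂ) →+ A), Cls (F.map σ) g cl' ∧ Dat (F.map σ) g cl' δ ∧
      IsExp (F.map σ) g cl' ex' := by
  obtain ⟨s, hs⟩ := exists_conj_aut ι σ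
  have e : (F.map ι).map (s : ℂ →+* ℂ) = F.map σ := by
    ext n
    simp [hs]
  have h1 := cls_conj s hc
  have h2 := dat_conj s hd
  rw [e] at h1 h2
  obtain ⟨ex', h3⟩ := h2.exists_exp
  exact ⟨_, ex', h1, h2, h3⟩

end Crest.Agent.T15.Br
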