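import Crest.Agent.R272.AJi_956
import Crest.Agent.R272.Cur5_297

/-!
# Row 15, block Ht, bridge (iii): Jacobi inversion along a holomorphic curve is meromorphic

`𝒞` a genus two curve with Abel-Jacobi description `IsJac q Λ π` (R272), `Φ` analytic at `τ₀` with
values in `ℂ²`, `x τ` any pair of points with `q (x τ) = π (Φ τ)`.  For every meromorphic function
`φ` on the curve, `φ (x τ).1 + φ (x τ).2` is meromorphic at `τ₀` (`tr_mero`).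
-/

set_option autoImplicit false

open Set Filter Topology Metric Complex
open scoped ContDiff
open Crest.Agent.R272.AJ_956 Crest.Agent.R272.AJa_956 Crest.Agent.R272.AJb_956
open Crest.Agent.R272.AJc_956 Crest.Agent.R272.AJd_956 Crest.Agent.R272.AJd_956.Basic
open Crest.Agent.R272.AJe_956 Crest.Agent.R272.AJf_956 Crest.Agent.R272.AJg_956
open Crest.Agent.R272.AJh_956

noncomputable section

namespace Crest.Agent.T15.BrJ

/-- lifting an analytic curve through a local isomorphism -/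
theorem inv_lift {F : Type*} [NormedAddCommGroup F] [NormedSpace ℂ F] [CompleteSpace F]
    {K : ℂ × ℂ → F} (hK : AnalyticAt ℂ K 0) {L : (ℂ × ℂ) ≃L[ℂ] F}
    (hL : HasFDerivAt K (L : (ℂ × ℂ) →L[ℂ] F) 0) {g : ℂ → F} {τ₀ : ℂ} (hg : AnalyticAt ℂ g τ₀)
    (h0 : g τ₀ = K 0) :
    ∃ p : ℂ → ℂ × ℂ, AnalyticAt ℂ p τ₀ ∧ p τ₀ = 0 ∧ ∀ᶠ τ in 𝓝 τ₀, K (p τ) = g τ := by
  have hc : ContDiffAt ℂ ω K 0 := hK.contDiffAt
  have hs : HasStrictFDerivAt K (L : (ℂ × ℂ) →L[ℂ] F) 0 := by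
    have := hK.hasStrictFDerivAt
    rwa [hL.fderiv] at this
  have h1 : ContDiffAt ℂ ω (hc.localInverse hL (by simp)) (K 0) := hc.to_localInverse hL (by simp)
  have h2 : ∀ᶠ v in 𝓝 (K 0), K (hc.localInverse hL (by simp) v) = v :=
    hs.eventually_right_inverse
  refine ⟨fun τ => hc.localInverse hL (by simp) (g τ), ?_, ?_, ?_⟩
  · have h3 := h1.analyticAt
    rw [← h0] at h3
    exact h3.comp hg
  · show hc.localInverse hL (by simp) (g τ₀) = 0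
    rw [h0]
    exact hc.localInverse_apply_image hL (by simp)
  · have h3 := hg.continuousAt.tendsto
    rw [h0] at h3
    exact h3.eventually h2

theorem sumK1 {G₁ G₂ : ℂ → E2} (h₁ : AnalyticAt ℂ G₁ 0) (h₂ : AnalyticAt ℂ G₂ 0)
    (hd : det2 (deriv G₁ 0) (deriv G₂ 0) ≠ 0) :
    AnalyticAt ℂ (fun p : ℂ × ℂ => G₁ p.1 + G₂ p.2) 0 ∧ ∃ L : (ℂ × ℂ) ≃L[ℂ] E2,
      HasFDerivAt (fun p : ℂ × ℂ => G₁ p.1 + G₂ p.2) (L : (ℂ × ℂ) →L[ℂ] E2) 0 := by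
  have an : AnalyticAt ℂ (fun p : ℂ × ℂ => G₁ p.1 + G₂ p.2) 0 := by
    refine AnalyticAt.add ?_ ?_
    · exact analytic_comp0 h₁ analyticAt_fst rfl
    · exact analytic_comp0 h₂ analyticAt_snd rfl
  have hL := an.differentiableAt.hasFDerivAt
  set K : ℂ × ℂ → E2 := fun p => G₁ p.1 + G₂ p.2 with hK
  set L := fderiv ℂ K 0
  have d10 : HasDerivAt (fun σ : ℂ => ((σ, 0) : ℂ × ℂ)) (1, 0) 0 :=
    (hasDerivAt_id (0 : ℂ)).prodMk (hasDerivAt_const (0 : ℂ) (0 : ℂ))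
  have d01 : HasDerivAt (fun δ : ℂ => ((0, δ) : ℂ × ℂ)) (0, 1) 0 :=
    (hasDerivAt_const (0 : ℂ) (0 : ℂ)).prodMk (hasDerivAt_id (0 : ℂ))
  have h10 : HasDerivAt (fun σ : ℂ => K (σ, 0)) (L (1, 0)) 0 :=
    HasFDerivAt.comp_hasDerivAt (f := fun σ : ℂ => ((σ, 0) : ℂ × ℂ)) (0 : ℂ) hL d10
  have h01 : HasDerivAt (fun σ : ℂ => K (0, σ)) (L (0, 1)) 0 :=
    HasFDerivAt.comp_hasDerivAt (f := fun σ : ℂ => ((0, σ) : ℂ × ℂ)) (0 : ℂ) hL d01
  have k10 : HasDerivAt (fun σ : ℂ => G₁ σ + G₂ 0) (deriv G₁ 0) 0 :=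
    (h₁.differentiableAt.hasDerivAt).add_const (G₂ 0)
  have k01 : HasDerivAt (fun σ : ℂ => G₁ 0 + G₂ σ) (deriv G₂ 0) 0 :=
    (h₂.differentiableAt.hasDerivAt).const_add (G₁ 0)
  have e1 := h10.unique k10
  have e2 := h01.unique k01
  obtain ⟨L', hL'⟩ := exists_equiv_E2 L (by rw [e1, e2]; exact hd)
  rw [← hL'] at hL
  exact ⟨an, L', hL⟩

/-- (proof copied from `R272.AJc_956.sumN2`) -/
theorem sumK2 {G : ℂ → E2} (hG : AnalyticAt ℂ G 0)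
    (hd : det2 (deriv G 0) (deriv (deriv G) 0) ≠ 0) :
    ∃ (K : ℂ × ℂ → E2) (L : (ℂ × ℂ) ≃L[ℂ] E2), AnalyticAt ℂ K 0 ∧
      HasFDerivAt K (L : (ℂ × ℂ) →L[ℂ] E2) 0 ∧
      ∀ᶠ p in 𝓝 (0 : ℂ × ℂ), G p.1 + G p.2 = K (sqm p) := by
  -- descend
  let f : ℂ × ℂ → E2 := fun q => G ((q.2 + q.1) / 2) + G ((q.2 - q.1) / 2)
  have hf : AnalyticAt ℂ f 0 := by
    refine AnalyticAt.add ?_ ?_
    · exact analytic_comp0 (g := fun q : ℂ × ℂ => (q.2 + q.1) / 2) hG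
        ((analyticAt_snd.add analyticAt_fst).div analyticAt_const two_ne_zero) (by simp)
    · exact analytic_comp0 (g := fun q : ℂ × ℂ => (q.2 - q.1) / 2) hG
        ((analyticAt_snd.sub analyticAt_fst).div analyticAt_const two_ne_zero) (by simp)
  have hev : ∀ᶠ q in 𝓝 (0 : ℂ × ℂ), f (-q.1, q.2) = f q := by
    refine Eventually.of_forall fun q => ?_
    show G ((q.2 + -q.1) / 2) + G ((q.2 - -q.1) / 2) = G ((q.2 + q.1) / 2) + G ((q.2 - q.1) / 2)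
    rw [sub_neg_eq_add, ← sub_eq_add_neg, add_comm]
  obtain ⟨h, hh, hfh⟩ := even_descent hf hev
  -- the map in symmetric coordinates
  let K : ℂ × ℂ → E2 := fun p => h (p.2, p.1)
  have hK : AnalyticAt ℂ K 0 := analytic_comp0 hh an_swap rfl
  have hrel : ∀ᶠ p in 𝓝 (0 : ℂ × ℂ), G p.1 + G p.2 = K (sqm p) := by
    have c1 : Tendsto (fun p : ℂ × ℂ => ((p.1 - p.2, p.1 + p.2) : ℂ × ℂ)) (𝓝 0) (𝓝 0) :=
      tend0 (by fun_prop) (by ext <;> simp)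
    filter_upwards [c1.eventually hfh] with p hp
    show _ = h ((p.1 - p.2) ^ 2, p.1 + p.2)
    rw [← hp]
    show G p.1 + G p.2 = G ((p.1 + p.2 + (p.1 - p.2)) / 2) + G ((p.1 + p.2 - (p.1 - p.2)) / 2)
    congr 2
    · ring
    · ring
  have hL := hK.differentiableAt.hasFDerivAt
  set L := fderiv ℂ K 0
  have d10 : HasDerivAt (fun σ : ℂ => ((σ, 0) : ℂ × ℂ)) (1, 0) 0 :=
    (hasDerivAt_id (0 : ℂ)).prodMk (hasDerivAt_const (0 : ℂ) (0 : ℂ))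
  have d01 : HasDerivAt (fun δ : ℂ => ((0, δ) : ℂ × ℂ)) (0, 1) 0 :=
    (hasDerivAt_const (0 : ℂ) (0 : ℂ)).prodMk (hasDerivAt_id (0 : ℂ))
  have h10 : HasDerivAt (fun σ : ℂ => K (σ, 0)) (L (1, 0)) 0 :=
    HasFDerivAt.comp_hasDerivAt (f := fun σ : ℂ => ((σ, 0) : ℂ × ℂ)) (0 : ℂ) hL d10
  have h01 : HasDerivAt (fun σ : ℂ => K (0, σ)) (L (0, 1)) 0 :=
    HasFDerivAt.comp_hasDerivAt (f := fun σ : ℂ => ((0, σ) : ℂ × ℂ)) (0 : ℂ) hL d01
  have hG1 : HasDerivAt G (deriv G 0) (0 / 2) := by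
    rw [zero_div]; exact hG.differentiableAt.hasDerivAt
  have dh : HasDerivAt (fun σ : ℂ => σ / 2) (1 / 2) 0 := (hasDerivAt_id (0 : ℂ)).div_const 2
  -- L (1,0) = G' 0
  have k10 : HasDerivAt (fun σ : ℂ => K (σ, 0)) (deriv G 0) 0 := by
    have c1 : Tendsto (fun σ : ℂ => ((0, σ) : ℂ × ℂ)) (𝓝 0) (𝓝 0) := tend0 (by fun_prop) rfl
    have e : (fun σ : ℂ => K (σ, 0)) =ᶠ[𝓝 0] fun σ => G (σ / 2) + G (σ / 2) := by
      filter_upwards [c1.eventually hfh] with σ hσ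
      show h (0, σ) = _
      have h0 : ((0 : ℂ) ^ 2, σ) = ((0, σ) : ℂ × ℂ) := by simp
      rw [h0] at hσ
      rw [← hσ]
      show G ((σ + 0) / 2) + G ((σ - 0) / 2) = _
      rw [add_zero, sub_zero]
    have d1 := hG1.scomp (0 : ℂ) dh
    have d2 := (d1.add d1).congr_of_eventuallyEq e
    refine d2.congr_deriv ?_
    rw [← add_smul]
    norm_num
  -- L (0,1) = G'' 0 / 4
  let m : ℂ → E2 := fun δ => h (δ, 0)
  have hm : AnalyticAt ℂ m 0 := analytic_comp0 hh (analyticAt_id.prod analyticAt_const) rfl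
  have k01 : HasDerivAt (fun σ : ℂ => K (0, σ)) (deriv m 0) 0 := hm.differentiableAt.hasDerivAt
  have hmg : ∀ᶠ d in 𝓝 (0 : ℂ), G (d / 2) + G (-(d / 2)) = m (d ^ 2) := by
    have c1 : Tendsto (fun d : ℂ => ((d, 0) : ℂ × ℂ)) (𝓝 0) (𝓝 0) := tend0 (by fun_prop) rfl
    filter_upwards [c1.eventually hfh] with d hd
    show _ = h (d ^ 2, 0)
    rw [← hd]
    show _ = G ((0 + d) / 2) + G ((0 - d) / 2)
    congr 2
    · rw [zero_add]
    · ring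
  have hmd : deriv m 0 = (4 : ℂ)⁻¹ • deriv (deriv G) 0 := by
    have e1 := deriv_of_sq hm hmg
    have hGev := hG.eventually_analyticAt
    have c2 : Tendsto (fun d : ℂ => d / 2) (𝓝 0) (𝓝 0) := tend0 (by fun_prop) (by simp)
    have c3 : Tendsto (fun d : ℂ => -(d / 2)) (𝓝 0) (𝓝 0) := tend0 (by fun_prop) (by simp)
    have e2 : deriv (fun d => G (d / 2) + G (-(d / 2))) =ᶠ[𝓝 0]
        fun d => (1 / 2 : ℂ) • deriv G (d / 2) + (-(1 / 2) : ℂ) • deriv G (-(d / 2)) := by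
      filter_upwards [c2.eventually hGev, c3.eventually hGev] with d d1 d2
      have dh' : HasDerivAt (fun σ : ℂ => σ / 2) (1 / 2) d := (hasDerivAt_id d).div_const 2
      have a1 := d1.differentiableAt.hasDerivAt.scomp d dh'
      have a2 := d2.differentiableAt.hasDerivAt.scomp d dh'.neg
      exact (a1.add a2).deriv
    rw [Filter.EventuallyEq.deriv_eq e2] at e1
    have g2 : HasDerivAt (deriv G) (deriv (deriv G) 0) (0 / 2) := by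
      rw [zero_div]; exact hG.deriv.differentiableAt.hasDerivAt
    have g3 : HasDerivAt (deriv G) (deriv (deriv G) 0) (-(0 / 2)) := by
      rw [zero_div, neg_zero]; exact hG.deriv.differentiableAt.hasDerivAt
    have b1 := (g2.scomp (0 : ℂ) dh).const_smul (1 / 2 : ℂ)
    have b2 := (g3.scomp (0 : ℂ) dh.neg).const_smul (-(1 / 2) : ℂ)
    have b3 := (b1.add b2).deriv
    have b4 : (fun d => (1 / 2 : ℂ) • deriv G (d / 2) + (-(1 / 2) : ℂ) • deriv G (-(d / 2))) =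
      ((1 / 2 : ℂ) • (deriv G ∘ fun σ : ℂ => σ / 2) + (-(1 / 2) : ℂ) • (deriv G ∘ (-fun σ : ℂ => σ / 2))) := by
      funext d
      rfl
    rw [b4, b3, smul_smul, smul_smul, ← add_smul] at e1
    have e5 : deriv m 0 = (2 : ℂ)⁻¹ • ((2 : ℂ) • deriv m 0) := by
      rw [smul_smul]; norm_num
    rw [e5, ← e1, smul_smul]
    norm_num
  have e1 := h10.unique k10
  have e2 := h01.unique k01
  obtain ⟨L', hL'⟩ := exists_equiv_E2 L (by
    rw [e1, e2, hmd]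
    have : det2 (deriv G 0) ((4 : ℂ)⁻¹ • deriv (deriv G) 0) =
        (4 : ℂ)⁻¹ * det2 (deriv G 0) (deriv (deriv G) 0) := by
      simp only [det2, Pi.smul_apply, smul_eq_mul]
      ring
    rw [this]
    exact mul_ne_zero (by norm_num) hd)
  rw [← hL'] at hL
  exact ⟨K, L', hK, hL, hrel⟩

/-- symmetric analytic functions descend -/
theorem sym_descent {N : ℂ × ℂ → ℂ} (hN : AnalyticAt ℂ N 0) (hs : ∀ p : ℂ × ℂ, N p.swap = N p) :
    ∃ H : ℂ × ℂ → ℂ, AnalyticAt ℂ H 0 ∧ ∀ᶠ p in 𝓝 (0 : ℂ × ℂ), N p = H (sqm p) := by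
  let f : ℂ × ℂ → ℂ := fun q => N ((q.2 + q.1) / 2, (q.2 - q.1) / 2)
  have hf : AnalyticAt ℂ f 0 :=
    analytic_comp0 (g := fun q : ℂ × ℂ => (((q.2 + q.1) / 2, (q.2 - q.1) / 2) : ℂ × ℂ)) hN
      (((analyticAt_snd.add analyticAt_fst).div analyticAt_const two_ne_zero).prod
        ((analyticAt_snd.sub analyticAt_fst).div analyticAt_const two_ne_zero)) (by ext <;> simp)
  have hev : ∀ᶠ q in 𝓝 (0 : ℂ × ℂ), f (-q.1, q.2) = f q := by
    refine Eventually.of_forall fun q => ?_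
    show N ((q.2 + -q.1) / 2, (q.2 - -q.1) / 2) = N ((q.2 + q.1) / 2, (q.2 - q.1) / 2)
    rw [sub_neg_eq_add, ← sub_eq_add_neg, ← hs]
    rfl
  obtain ⟨h, hh, hfh⟩ := even_descent hf hev
  refine ⟨fun p => h (p.2, p.1), analytic_comp0 hh an_swap rfl, ?_⟩
  have c1 : Tendsto (fun p : ℂ × ℂ => ((p.1 - p.2, p.1 + p.2) : ℂ × ℂ)) (𝓝 0) (𝓝 0) :=
    tend0 (by fun_prop) (by ext <;> simp)
  filter_upwards [c1.eventually hfh] with p hp
  show _ = h ((p.1 - p.2) ^ 2, p.1 + p.2)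
  rw [← hp]
  show N p = N ((p.1 + p.2 + (p.1 - p.2)) / 2, (p.1 + p.2 - (p.1 - p.2)) / 2)
  congr 1
  ext <;> simp

/-- all preimages under `sqm` of small points are small -/
theorem sqm_ev {Q : ℂ × ℂ → Prop} (hQ : ∀ᶠ p in 𝓝 (0 : ℂ × ℂ), Q p) :
    ∀ᶠ v in 𝓝 (0 : ℂ × ℂ), (∃ p, sqm p = v) ∧ ∀ p, sqm p = v → Q p := by
  have h1 : ∀ᶠ p in 𝓝 (0 : ℂ × ℂ), Q p.swap :=
    (tend0 (f := fun p : ℂ × ℂ => p.swap) continuous_swap rfl).eventually hQ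
  have h2 : sqm '' {p | Q p ∧ Q p.swap} ∈ 𝓝 (0 : ℂ × ℂ) := by
    have := map_sqm 0
    rw [sqm_zero] at this
    rw [← this]
    exact image_mem_map (hQ.and h1)
  filter_upwards [h2] with v hv
  obtain ⟨p, hp, rfl⟩ := hv
  refine ⟨⟨p, rfl⟩, fun p' h => ?_⟩
  rcases (sqm_eq_iff p p').1 h.symm with rfl | rfl
  · exact hp.1
  · exact hp.2

variable {C : Type} [TopologicalSpace C] (𝒞 : Cur C)

/-- a Hausdorff model of `(C × C)/(swap, Γ ↦ pt)` -/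
theorem exists_isQ [CompactSpace C] [T2Space C] :
    ∃ (A : Type) (_ : TopologicalSpace A) (_ : T2Space A) (q : C × C → A), 𝒞.IsQ q := by
  let I : Type := {g : C(C × C, ℝ) // ∀ x ∈ 𝒞.Gam, g x = 0}
  let r : C × C → I → ℝ := fun x g => g.1 x + g.1 x.swap
  have hr : Continuous r := continuous_pi fun g =>
    g.1.continuous.add (g.1.continuous.comp continuous_swap)
  have key : ∀ x x' : C × C, x ∉ 𝒞.Gam → x' ≠ x → x' ≠ x.swap → r x ≠ r x' := by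
    intro x x' hx h1 h2 h
    have hc1 : IsClosed (𝒞.Gam ∪ {x', x'.swap}) :=
      (isClosed_Gam 𝒞).union (Set.toFinite _).isClosed
    have hc2 : IsClosed ({x, x.swap} : Set (C × C)) := (Set.toFinite _).isClosed
    have hd : Disjoint (𝒞.Gam ∪ {x', x'.swap}) ({x, x.swap} : Set (C × C)) := by
      rw [Set.disjoint_right]
      rintro y (rfl | rfl) (h | h | h)
      · exact hx h
      · exact h1 h.symm
      · exact h2 (by rw [h]; rfl)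
      · exact hx (swap_mem_Gam 𝒞 h)
      · exact h2 h.symm
      · exact h1 (Prod.swap_injective h).symm
    obtain ⟨g, g0, g1, -⟩ := exists_continuous_zero_one_of_isClosed hc1 hc2 hd
    have := congrFun h ⟨g, fun y hy => g0 (Or.inl hy)⟩
    change g x + g x.swap = g x' + g x'.swap at this
    rw [g1 (by simp), g1 (by simp), g0 (by simp), g0 (by simp)] at this
    norm_num at this
  refine ⟨range r, inferInstance, inferInstance, fun x => ⟨r x, mem_range_self x⟩,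
    hr.subtype_mk _, ?_, ?_⟩
  · rintro ⟨_, x, rfl⟩
    exact ⟨x, rfl⟩
  · intro x x'
    rw [Subtype.ext_iff]
    change r x = r x' ↔ _
    constructor
    · intro h
      by_contra hn
      push Not at hn
      obtain ⟨h1, h2, h3⟩ := hn
      by_cases hx : x ∈ 𝒞.Gam
      · exact key x' x (h3 hx) h1.symm (fun e => h2 (by rw [e]; rfl)) h.symm
      · exact key x x' hx h1 h2 h
    · rintro (rfl | rfl | ⟨h1, h2⟩)
      · rfl
      · funext g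
        exact add_comm _ _
      · funext g
        change g.1 x + g.1 x.swap = g.1 x' + g.1 x'.swap
        rw [g.2 _ h1, g.2 _ h2, g.2 _ (swap_mem_Gam 𝒞 h1), g.2 _ (swap_mem_Gam 𝒞 h2)]

/-- local analytic form of a pair-valued function, distinct centres -/
def LiftA (x : ℂ → C × C) (τ₀ : ℂ) (c : C × C) : Prop :=
  ∃ p : ℂ → ℂ × ℂ, AnalyticAt ℂ p τ₀ ∧ p τ₀ = 0 ∧ ∀ᶠ τ in 𝓝[≠] τ₀,
    x τ = ((𝒞.k c.1).symm (p τ).1, (𝒞.k c.2).symm (p τ).2) ∨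
    x τ = ((𝒞.k c.2).symm (p τ).2, (𝒞.k c.1).symm (p τ).1)

/-- local analytic form of a pair-valued function, on the diagonal -/
def LiftB (x : ℂ → C × C) (τ₀ : ℂ) (c : C) : Prop :=
  ∃ v : ℂ → ℂ × ℂ, AnalyticAt ℂ v τ₀ ∧ v τ₀ = 0 ∧ ∀ᶠ τ in 𝓝[≠] τ₀,
    ∃ p, sqm p = v τ ∧ x τ = ((𝒞.k c).symm p.1, (𝒞.k c).symm p.2)

/-- meromorphic function on the curve (junk values at the poles are allowed) -/
def Mero (φ : C → ℂ) : Prop := ∀ c, MeromorphicAt (fun s => φ ((𝒞.k c).symm s)) 0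

variable {𝒞}

theorem Mero.add {φ ψ : C → ℂ} (h : Mero 𝒞 φ) (h' : Mero 𝒞 ψ) : Mero 𝒞 fun c => φ c + ψ c :=
  fun c => (h c).add (h' c)

theorem Mero.mul {φ ψ : C → ℂ} (h : Mero 𝒞 φ) (h' : Mero 𝒞 ψ) : Mero 𝒞 fun c => φ c * ψ c :=
  fun c => (h c).mul (h' c)

theorem Mero.inv {φ : C → ℂ} (h : Mero 𝒞 φ) : Mero 𝒞 fun c => (φ c)⁻¹ :=
  fun c => (h c).inv

theorem Mero.pow {φ : C → ℂ} (h : Mero 𝒞 φ) (n : ℕ) : Mero 𝒞 fun c => φ c ^ n :=
  fun c => (h c).pow n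

theorem Mero.const (a : ℂ) : Mero 𝒞 fun _ => a := fun _ => MeromorphicAt.const a 0

theorem mero_comp {f s : ℂ → ℂ} {τ₀ : ℂ} (hf : MeromorphicAt f 0) (hs : AnalyticAt ℂ s τ₀)
    (h0 : s τ₀ = 0) : MeromorphicAt (fun τ => f (s τ)) τ₀ :=
  MeromorphicAt.comp_analyticAt (f := f) (g := s) (by rwa [h0]) hs

theorem LiftA.mero {x : ℂ → C × C} {τ₀ : ℂ} {c : C × C} (h : LiftA 𝒞 x τ₀ c) {φ : C → ℂ}
    (hφ : Mero 𝒞 φ) : MeromorphicAt (fun τ => φ (x τ).1 + φ (x τ).2) τ₀ := by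
  obtain ⟨p, hp, h0, he⟩ := h
  have h1 := mero_comp (hφ c.1) (analyticAt_fst.comp hp) (by simp [h0])
  have h2 := mero_comp (hφ c.2) (analyticAt_snd.comp hp) (by simp [h0])
  refine (h1.add h2).congr ?_
  filter_upwards [he] with τ hτ
  rcases hτ with h | h <;> simp [h, add_comm]

theorem LiftB.mero {x : ℂ → C × C} {τ₀ : ℂ} {c : C} (h : LiftB 𝒞 x τ₀ c) {φ : C → ℂ}
    (hφ : Mero 𝒞 φ) : MeromorphicAt (fun τ => φ (x τ).1 + φ (x τ).2) τ₀ := by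
  obtain ⟨v, hv, h0, he⟩ := h
  have hv1 : AnalyticAt ℂ (fun τ => (v τ).1) τ₀ := analyticAt_fst.comp hv
  have hv2 : AnalyticAt ℂ (fun τ => (v τ).2) τ₀ := analyticAt_snd.comp hv
  have hm : AnalyticAt ℂ (fun τ => ((v τ).1 ^ 2 - (v τ).2) / 4) τ₀ :=
    ((hv1.pow 2).sub hv2).div analyticAt_const (by norm_num)
  have hpm : ∀ (p : ℂ × ℂ) (τ : ℂ), sqm p = v τ → ((v τ).1 ^ 2 - (v τ).2) / 4 = p.1 * p.2 := by
    intro p τ h
    rw [← h]
    simp only [sqm]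
    ring
  rcases hm.eventually_eq_zero_or_eventually_ne_zero with hz | hz
  · have h1 := mero_comp (hφ c) hv1 (by simp [h0])
    refine ((MeromorphicAt.const (φ ((𝒞.k c).symm 0)) τ₀).add h1).congr ?_
    filter_upwards [he, nhdsWithin_le_nhds hz] with τ hτ hτz
    obtain ⟨p, hp, hx⟩ := hτ
    rw [hpm p τ hp] at hτz
    have e : (v τ).1 = p.1 + p.2 := by rw [← hp]; rfl
    rcases mul_eq_zero.mp hτz with h | h <;> simp [hx, e, h, add_comm]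
  · obtain ⟨n, hn⟩ := hφ c
    set g : ℂ → ℂ := fun z => (z - 0) ^ n • φ ((𝒞.k c).symm z) with hg
    have hN : AnalyticAt ℂ (fun p : ℂ × ℂ => p.2 ^ n * g p.1 + p.1 ^ n * g p.2) 0 :=
      ((analyticAt_snd.pow n).mul (analytic_comp0 hn analyticAt_fst rfl)).add
        ((analyticAt_fst.pow n).mul (analytic_comp0 hn analyticAt_snd rfl))
    obtain ⟨H, hH, hNH⟩ := sym_descent hN (fun p => add_comm _ _)
    have hHv : AnalyticAt ℂ (fun τ => H (v τ)) τ₀ := by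
      rw [← h0] at hH
      exact hH.comp hv
    refine (hHv.meromorphicAt.div (hm.pow n).meromorphicAt).congr ?_
    have ht : Tendsto v (𝓝 τ₀) (𝓝 0) := by
      rw [← h0]
      exact hv.continuousAt.tendsto
    filter_upwards [he, hz, nhdsWithin_le_nhds (ht.eventually (sqm_ev hNH))] with τ hτ hτz hq
    obtain ⟨p, hp, hx⟩ := hτ
    have h1 := hq.2 p hp
    rw [hp] at h1
    rw [hpm p τ hp] at hτz
    have a1 := left_ne_zero_of_mul hτz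
    have a2 := right_ne_zero_of_mul hτz
    simp only [Pi.div_apply, Pi.pow_apply, ← h1, hpm p τ hp, hx, hg, sub_zero, smul_eq_mul]
    field_simp
    ring

variable {A : Type} [TopologicalSpace A] {q : C × C → A} {Λ : AddSubgroup E2} {π : E2 → A}

theorem gam_iff (hq : 𝒞.IsQ q) (J : 𝒞.IsJac q Λ π) {x : C × C} {z : E2} (h : q x = π z) :
    x ∈ 𝒞.Gam ↔ z ∈ Λ := by
  have h0 := J.zero x.1
  have h1 : z ∈ Λ ↔ π z = π 0 := by rw [J.eq_iff, sub_zero]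
  rw [h1, h0, ← h, hq.fib]
  constructor
  · intro hx
    exact Or.inr (Or.inr ⟨hx, gam_mem 𝒞 _⟩)
  · rintro (e | e | e)
    · rw [← e]; exact gam_mem 𝒞 _
    · have := swap_mem_Gam 𝒞 (gam_mem 𝒞 x.1)
      rw [e] at this
      exact this
    · exact e.1

theorem eq_or_swap (hq : 𝒞.IsQ q) (J : 𝒞.IsJac q Λ π) {x y : C × C} {z : E2} (hx : q x = π z)
    (hy : q y = π z) (hz : z ∉ Λ) : x = y ∨ x = y.swap := by
  rcases (hq.fib y x).1 (hy.trans hx.symm) with h | h | h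
  · exact Or.inl h
  · exact Or.inr h
  · exact absurd ((gam_iff hq J hx).1 h.2) hz

theorem tend_kk (c : C × C) : Tendsto
    (fun p : ℂ × ℂ => (((𝒞.k c.1).symm p.1, (𝒞.k c.2).symm p.2) : C × C)) (𝓝 0) (𝓝 c) :=
  ((tend_symm 𝒞 c.1).comp (continuous_fst.tendsto (0 : ℂ × ℂ))).prodMk_nhds
    ((tend_symm 𝒞 c.2).comp (continuous_snd.tendsto (0 : ℂ × ℂ)))

theorem ev_kk (c : C × C) : ∀ᶠ p : ℂ × ℂ in 𝓝 0,
    𝒞.k c.1 ((𝒞.k c.1).symm p.1) = p.1 ∧ 𝒞.k c.2 ((𝒞.k c.2).symm p.2) = p.2 := by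
  have h1 : ∀ c : C, ∀ᶠ s : ℂ in 𝓝 0, 𝒞.k c ((𝒞.k c).symm s) = s := fun c => by
    filter_upwards [(𝒞.k c).open_target.mem_nhds (zero_mem_target 𝒞 c)] with s hs
    exact (𝒞.k c).right_inv hs
  exact ((continuous_fst.tendsto (0 : ℂ × ℂ)).eventually (h1 c.1)).and
    ((continuous_snd.tendsto (0 : ℂ × ℂ)).eventually (h1 c.2))

/-- Abel-Jacobi in charts -/
theorem loc_chart (J : 𝒞.IsJac q Λ π) (c : C × C) {z₀ : E2} (h : π z₀ = q c) :
    ∀ᶠ p : ℂ × ℂ in 𝓝 0, q ((𝒞.k c.1).symm p.1, (𝒞.k c.2).symm p.2) =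
      π (z₀ + (𝒞.G c.1 p.1 + 𝒞.G c.2 p.2)) := by
  filter_upwards [(tend_kk c).eventually (J.loc c z₀ h), ev_kk (𝒞 := 𝒞) c] with p hp he
  rw [hp]
  simp only [Cur.P, he.1, he.2]

/-- the generic case, with the Abel-Jacobi equation -/
theorem lift_gen (J : 𝒞.IsJac q Λ π) {Φ : ℂ → E2} {τ₀ : ℂ} (hΦ : AnalyticAt ℂ Φ τ₀) {c : C × C}
    (hc : π (Φ τ₀) = q c) (h1 : c.2 ≠ c.1) (h2 : c.2 ≠ 𝒞.iv c.1) :
    ∃ p : ℂ → ℂ × ℂ, AnalyticAt ℂ p τ₀ ∧ p τ₀ = 0 ∧ ∀ᶠ τ in 𝓝 τ₀,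
      𝒞.G c.1 (p τ).1 + 𝒞.G c.2 (p τ).2 = Φ τ - Φ τ₀ ∧
      q ((𝒞.k c.1).symm (p τ).1, (𝒞.k c.2).symm (p τ).2) = π (Φ τ) := by
  obtain ⟨hK, L, hL⟩ := sumK1 (G_an0 𝒞 c.1) (G_an0 𝒞 c.2) (𝒞.nd2 _ _ h1 h2)
  obtain ⟨p, hp, p0, he⟩ := inv_lift hK hL (g := fun τ => Φ τ - Φ τ₀) (hΦ.sub analyticAt_const)
    (by simp [𝒞.G_zero])
  refine ⟨p, hp, p0, ?_⟩
  have ht : Tendsto p (𝓝 τ₀) (𝓝 0) := by
    rw [← p0]
    exact hp.continuousAt.tendsto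
  filter_upwards [he, ht.eventually (loc_chart J c hc)] with τ a b
  refine ⟨a, ?_⟩
  rw [b, a, add_sub_cancel]

theorem exists_lift [CompactSpace C] [T2Space C] (hq : 𝒞.IsQ q) (J : 𝒞.IsJac q Λ π)
    (hsl : ∀ v : E2, ∃ c, det2 (𝒞.w c) v = 0) {Φ : ℂ → E2} {τ₀ : ℂ} (hΦ : AnalyticAt ℂ Φ τ₀)
    (hne : ∀ᶠ τ in 𝓝[≠] τ₀, Φ τ ∉ Λ) {x : ℂ → C × C} (hx : ∀ τ, q (x τ) = π (Φ τ)) :
    (∃ c, LiftA 𝒞 x τ₀ c) ∨ ∃ c, LiftB 𝒞 x τ₀ c := by
  have fromA : ∀ (c : C × C) (p : ℂ → ℂ × ℂ), AnalyticAt ℂ p τ₀ → p τ₀ = 0 → (∀ᶠ τ in 𝓝[≠] τ₀,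
      q ((𝒞.k c.1).symm (p τ).1, (𝒞.k c.2).symm (p τ).2) = π (Φ τ)) → LiftA 𝒞 x τ₀ c := by
    intro c p hp p0 he
    refine ⟨p, hp, p0, ?_⟩
    filter_upwards [he, hne] with τ a b
    exact eq_or_swap hq J (hx τ) a b
  have fromB : ∀ (c : C) (v : ℂ → ℂ × ℂ), AnalyticAt ℂ v τ₀ → v τ₀ = 0 → (∀ᶠ τ in 𝓝[≠] τ₀,
      ∃ p, sqm p = v τ ∧ q ((𝒞.k c).symm p.1, (𝒞.k c).symm p.2) = π (Φ τ)) → LiftB 𝒞 x τ₀ c := by
    intro c v hv v0 he
    refine ⟨v, hv, v0, ?_⟩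
    filter_upwards [he, hne] with τ a b
    obtain ⟨p, hp, a⟩ := a
    rcases eq_or_swap hq J (hx τ) a b with h | h
    · exact ⟨p, hp, h⟩
    · exact ⟨p.swap, by rw [← hp]; exact ((sqm_eq_iff p p.swap).2 (Or.inr rfl)).symm, h⟩
  by_cases hΛ : Φ τ₀ ∈ Λ
  · -- the blown-down point
    have hu : AnalyticAt ℂ (fun τ => Φ τ - Φ τ₀) τ₀ := hΦ.sub analyticAt_const
    have hnz : ¬ ∀ᶠ τ in 𝓝 τ₀, Φ τ - Φ τ₀ = 0 := by
      intro h
      obtain ⟨τ, a, b⟩ := (hne.and (nhdsWithin_le_nhds h)).exists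
      exact a (by rw [sub_eq_zero.mp b]; exact hΛ)
    obtain ⟨n, g, hg, g0, hug⟩ := hu.exists_eventuallyEq_pow_smul_nonzero_iff.mpr hnz
    obtain ⟨c, hc⟩ := hsl (g τ₀)
    obtain ⟨i, hi⟩ := exists_w 𝒞 c
    have hgi : g τ₀ i ≠ 0 ∧ g τ₀ (1 - i) / g τ₀ i = 𝒞.w c (1 - i) / 𝒞.w c i := by
      have key : 𝒞.w c i * g τ₀ (1 - i) = 𝒞.w c (1 - i) * g τ₀ i := by
        simp only [det2] at hc
        fin_cases i
        · simpa using sub_eq_zero.mp hc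
        · simpa using (sub_eq_zero.mp hc).symm
      have h1 : g τ₀ i ≠ 0 := by
        intro h
        rw [h, mul_zero] at key
        have h2 := (mul_eq_zero.mp key).resolve_left hi
        apply g0
        funext j
        fin_cases i <;> fin_cases j <;> simp_all
      refine ⟨h1, ?_⟩
      rw [div_eq_div_iff h1 hi, mul_comm, key]
    have gi : ∀ j, AnalyticAt ℂ (fun τ => g τ j) τ₀ := comp_apply_analytic1 hg
    have ui : ∀ j, AnalyticAt ℂ (fun τ => (Φ τ - Φ τ₀) j) τ₀ := comp_apply_analytic1 hu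
    have hT : AnalyticAt ℂ (fun τ => ((g τ (1 - i) / g τ i, (Φ τ - Φ τ₀) i) : ℂ × ℂ)) τ₀ :=
      ((gi _).div (gi _) hgi.1).prod (ui i)
    have : Nonempty C := ⟨c⟩
    obtain ⟨N, U, hN⟩ := exists_nearE 𝒞
    have hgam := gam_mem 𝒞 c
    have hTT : (𝒞.TT U i (c, 𝒞.iv c), U (c, 𝒞.iv c) i) =
        (g τ₀ (1 - i) / g τ₀ i, (Φ τ₀ - Φ τ₀) i) := by
      rw [hgi.2, (hN.zero _ (hN.sub hgam)).2 hgam, sub_self]
      simp only [Cur.TT, if_pos hgam]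
    have hnear : ∀ᶠ y in 𝓝 ((c, 𝒞.iv c) : C × C), y ∈ N ∧ q y = π (U y) :=
      Filter.Eventually.and (hN.open_N.mem_nhds (hN.sub hgam))
        (nhds_le_nhdsSet hgam (J.near N U hN))
    have fin : ∀ᶠ τ in 𝓝[≠] τ₀, ∀ y : C × C, y ∈ N ∧ q y = π (U y) →
        (𝒞.TT U i y, U y i) = (g τ (1 - i) / g τ i, (Φ τ - Φ τ₀) i) → q y = π (Φ τ) := by
      filter_upwards [self_mem_nhdsWithin, nhdsWithin_le_nhds hug,
        nhdsWithin_le_nhds ((gi i).continuousAt.eventually_ne hgi.1)] with τ h1 h2 h3 y hy he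
      have h4 : (τ - τ₀) ^ n ≠ 0 := pow_ne_zero _ (sub_ne_zero.mpr h1)
      obtain ⟨e1, e2⟩ := Prod.mk.inj he
      have h5 : (Φ τ - Φ τ₀) i ≠ 0 := by
        rw [h2]
        exact mul_ne_zero h4 h3
      have h6 : y ∉ 𝒞.Gam := fun h => h5 (by rw [← e2, (hN.zero y hy.1).2 h]; rfl)
      simp only [Cur.TT, if_neg h6] at e1
      have h7 : U y (1 - i) = (Φ τ - Φ τ₀) (1 - i) := by
        rw [e2, div_eq_div_iff h5 h3, h2] at e1
        rw [h2]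
        simp only [Pi.smul_apply, smul_eq_mul] at e1 ⊢
        apply mul_right_cancel₀ h3
        rw [e1]
        ring
      have h8 : U y = Φ τ - Φ τ₀ := by
        funext j
        fin_cases i <;> fin_cases j <;> simp_all
      rw [hy.2, h8, J.eq_iff]
      simpa using hΛ
    by_cases hW : 𝒞.iv c = c
    · obtain ⟨F, F', hF, hF', hFe⟩ := hN.coordW c i hW hi
      rw [hW] at hTT hnear
      have hF0 : (g τ₀ (1 - i) / g τ₀ i, (Φ τ₀ - Φ τ₀) i) = F 0 := by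
        rw [← hTT, hFe.self_of_nhds]
        simp [𝒞.k_zero]
        rfl
      obtain ⟨v, hv, v0, he⟩ := inv_lift hF hF' hT hF0
      refine Or.inr ⟨c, fromB c v hv v0 ?_⟩
      have ht : Tendsto v (𝓝 τ₀) (𝓝 0) := by
        rw [← v0]
        exact hv.continuousAt.tendsto
      have hQ := ((tend_kk (𝒞 := 𝒞) (c, c)).eventually (hnear.and hFe)).and (ev_kk (𝒞 := 𝒞) (c, c))
      filter_upwards [fin, nhdsWithin_le_nhds he, nhdsWithin_le_nhds (ht.eventually (sqm_ev hQ))]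
        with τ a b d
      obtain ⟨p, hp⟩ := d.1
      obtain ⟨⟨d1, d2⟩, d3, d4⟩ := d.2 p hp
      refine ⟨p, hp, a _ d1 ?_⟩
      rw [d2, ← b, ← hp]
      rw [d3, d4]
      rfl
    · obtain ⟨F, F', hF, hF', hFe⟩ := hN.coord c i hW hi
      have hF0 : (g τ₀ (1 - i) / g τ₀ i, (Φ τ₀ - Φ τ₀) i) = F 0 := by
        rw [← hTT, hFe.self_of_nhds]
        simp [𝒞.k_zero]
        rfl
      obtain ⟨p, hp, p0, he⟩ := inv_lift hF hF' hT hF0
      refine Or.inl ⟨(c, 𝒞.iv c), fromA _ p hp p0 ?_⟩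
      have ht : Tendsto p (𝓝 τ₀) (𝓝 0) := by
        rw [← p0]
        exact hp.continuousAt.tendsto
      have hQ := ((tend_kk (𝒞 := 𝒞) (c, 𝒞.iv c)).eventually (hnear.and hFe)).and
        (ev_kk (𝒞 := 𝒞) (c, 𝒞.iv c))
      filter_upwards [fin, nhdsWithin_le_nhds he, nhdsWithin_le_nhds (ht.eventually hQ)]
        with τ a b d
      obtain ⟨⟨d1, d2⟩, d3, d4⟩ := d
      refine a _ d1 ?_
      rw [d2, ← b]
      rw [d3, d4]
  · have hG : x τ₀ ∉ 𝒞.Gam := fun h => hΛ ((gam_iff hq J (hx τ₀)).1 h)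
    by_cases hd : (x τ₀).2 = (x τ₀).1
    · set c := (x τ₀).1 with hc
      have hx0 : x τ₀ = (c, c) := Prod.ext rfl hd
      have hW : 𝒞.iv c ≠ c := fun h => hG (by rw [hx0]; exact h.symm)
      obtain ⟨K, L, hK, hL, hrel⟩ := sumK2 (G_an0 𝒞 c) (𝒞.nd c hW)
      have hK0 : K 0 = 0 := by
        have := hrel.self_of_nhds
        rw [sqm_zero] at this
        rw [← this]
        simp [𝒞.G_zero]
      obtain ⟨v, hv, v0, he⟩ := inv_lift hK hL (g := fun τ => Φ τ - Φ τ₀)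
        (hΦ.sub analyticAt_const) (by simp [hK0])
      refine Or.inr ⟨c, fromB c v hv v0 (nhdsWithin_le_nhds ?_)⟩
      have ht : Tendsto v (𝓝 τ₀) (𝓝 0) := by
        rw [← v0]
        exact hv.continuousAt.tendsto
      have hQ := hrel.and (loc_chart J (c, c) (z₀ := Φ τ₀) (by rw [← hx τ₀, hx0]))
      filter_upwards [he, ht.eventually (sqm_ev hQ)] with τ b d
      obtain ⟨p, hp⟩ := d.1
      obtain ⟨d1, d2⟩ := d.2 p hp
      refine ⟨p, hp, ?_⟩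
      rw [d2, d1, hp, b, add_sub_cancel]
    · obtain ⟨p, hp, p0, he⟩ := lift_gen J hΦ (c := x τ₀) (hx τ₀).symm hd hG
      exact Or.inl ⟨x τ₀, fromA _ p hp p0 (nhdsWithin_le_nhds (he.mono fun _ h => h.2))⟩

/-- **traces of meromorphic functions along a holomorphic curve in the Jacobian are meromorphic** -/
theorem tr_mero [CompactSpace C] [T2Space C] (hq : 𝒞.IsQ q) (J : 𝒞.IsJac q Λ π)
    (hsl : ∀ v : E2, ∃ c, det2 (𝒞.w c) v = 0) {Φ : ℂ → E2} {τ₀ : ℂ} (hΦ : AnalyticAt ℂ Φ τ₀)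
    (hne : ∀ᶠ τ in 𝓝[≠] τ₀, Φ τ ∉ Λ) {x : ℂ → C × C} (hx : ∀ τ, q (x τ) = π (Φ τ))
    {φ : C → ℂ} (hφ : Mero 𝒞 φ) : MeromorphicAt (fun τ => φ (x τ).1 + φ (x τ).2) τ₀ := by
  rcases exists_lift hq J hsl hΦ hne hx with ⟨c, h⟩ | ⟨c, h⟩
  · exact h.mero hφ
  · exact h.mero hφ

/-- an analytic curve that is not inside the lattice meets it in a discrete set -/
theorem ne_lattice (J : 𝒞.IsJac q Λ π) {Φ : ℂ → E2} {U : Set ℂ} (hU : IsPreconnected U)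
    (hΦ : AnalyticOnNhd ℂ Φ U) {a : ℂ} (ha : a ∈ U) (hΛ : Φ a ∉ Λ) {τ₀ : ℂ} (h₀ : τ₀ ∈ U) :
    ∀ᶠ τ in 𝓝[≠] τ₀, Φ τ ∉ Λ := by
  obtain ⟨δ, hδ, hinj⟩ := Crest.Agent.R272.AJi_956.IsJac.inj_near J (Φ τ₀)
  have hb : ∀ᶠ τ in 𝓝 τ₀, Φ τ ∈ ball (Φ τ₀) δ :=
    (hΦ τ₀ h₀).continuousAt.tendsto.eventually (ball_mem_nhds _ hδ)
  by_contra hn
  have hfr : ∃ᶠ τ in 𝓝[≠] τ₀, Φ τ ∈ Λ := by simpa [Filter.not_eventually] using hn
  obtain ⟨τ₁, h1, h2⟩ := (hfr.and_eventually (nhdsWithin_le_nhds hb)).exists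
  have hfr2 : ∃ᶠ τ in 𝓝[≠] τ₀, Φ τ = Φ τ₁ := by
    refine (hfr.and_eventually (nhdsWithin_le_nhds hb)).mono fun τ h => ?_
    exact hinj _ h.2 _ h2 ((J.eq_iff _ _).2 (Λ.sub_mem h.1 h1))
  have := hΦ.eqOn_of_preconnected_of_frequently_eq (g := fun _ => Φ τ₁) analyticOnNhd_const hU h₀
    hfr2 ha
  exact hΛ (by rw [this]; exact h1)

end Crest.Agent.T15.BrJ
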