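import Crest.Agent.T15.CDef_7

/-!
# Row 15, block C (helper25): the leaf `UnrStmt`
-/

set_option autoImplicit false

noncomputable section

namespace Crest.Agent.T15.C

open NumberField Module MulAction Crest.Agent.R018.Placesx484 Crest.Agent.T15.Ps
open scoped Pointwise

section dec

variable {F E : Type*} [Field F] [NumberField F] [Field E] [CharZero E] [Algebra F E] [IsGalois F E]

omit [NumberField F] [CharZero E] [IsGalois F E] in
theorem pow_act {G : Type*} [Group G] [MulSemiringAction G E] (P : Place E) {q : ℕ} {φ : G}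
    (hφ : ∀ x : 𝓞 E, φ • x - x ^ q ∈ P.ideal) (k : ℕ) (x : 𝓞 E) :
    φ ^ k • x - x ^ q ^ k ∈ P.ideal := by
  induction k generalizing x with
  | zero => simp
  | succ k ih =>
    have h4 := P.ideal.add_mem (hφ (φ ^ k • x))
      (Ideal.mem_of_dvd _ (sub_dvd_pow_sub_pow (φ ^ k • x) (x ^ q ^ k) q) (ih x))
    rw [pow_succ', mul_smul, pow_succ, pow_mul]
    simpa using h4

omit [NumberField F] [IsGalois F E] in
theorem smul_mem_of {G : Type*} [Group G] [MulSemiringAction G E] {P : Place E} {g : G}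
    (hg : g • P = P) {x : 𝓞 E} (hx : x ∈ P.ideal) : g • x ∈ P.ideal :=
  (Place.smul_eq_iff P g).1 hg x hx

omit [NumberField F] [IsGalois F E] in
theorem conj_inertia {G : Type*} [Group G] [MulSemiringAction G E] {P : Place E} {d t : G}
    (hd : d • P = P) (ht : t ∈ P.ideal.inertia G) : d * t * d⁻¹ ∈ P.ideal.inertia G := fun x => by
  have h := smul_mem_of hd (ht (d⁻¹ • x))
  rw [smul_sub, smul_inv_smul, ← mul_smul, ← mul_smul] at h
  exact h

/-- the decomposition group is topologically generated by a Frobenius and the inertia group -/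
theorem dec_gen (P : Place E) (V : Subgroup (E ≃ₐ[F] E)) (hV : IsOpen (V : Set (E ≃ₐ[F] E)))
    {φ : E ≃ₐ[F] E} (h0 : φ • P = P) (hφ : ∀ x : 𝓞 E, φ • x - x ^ P.qv F ∈ P.ideal)
    {g : E ≃ₐ[F] E} (hg : g • P = P) :
    ∃ j : ℕ, ∃ τ ∈ P.ideal.inertia (E ≃ₐ[F] E), ∃ v ∈ V, g = φ ^ j * τ * v := by
  let M := IntermediateField.fixedField V
  have hfix : M.fixingSubgroup = V :=
    InfiniteGalois.fixingSubgroup_fixedField ⟨V, V.isClosed_of_isOpen hV⟩
  have hfin : FiniteDimensional F M := (InfiniteGalois.isOpen_iff_finite M).1 (by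
    rw [hfix]; exact hV)
  have : NumberField M := NumberField.of_module_finite F M
  have hres : (P.res M).res F = P.res F := Place.res_res F M P
  have : (P.res M).ideal.LiesOver (P.res F).ideal := ⟨by rw [← hres]; rfl⟩
  have := P.isMaximal
  have := (P.res M).isMaximal
  have := (P.res F).isMaximal
  let _ := Ideal.Quotient.field P.ideal
  let _ := Ideal.Quotient.field (P.res M).ideal
  let _ := Ideal.Quotient.field (P.res F).ideal
  have := Place.finite_residue (P.res M)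
  have := Place.finite_residue (P.res F)
  let _ := Fintype.ofFinite (𝓞 F ⧸ (P.res F).ideal)
  have : IsScalarTower (𝓞 F ⧸ (P.res F).ideal) (𝓞 M ⧸ (P.res M).ideal) (𝓞 E ⧸ P.ideal) :=
    IsScalarTower.of_algebraMap_eq fun x => by
      obtain ⟨x, rfl⟩ := Ideal.Quotient.mk_surjective x
      simp only [Ideal.Quotient.algebraMap_mk_of_liesOver, ← IsScalarTower.algebraMap_apply]
  let b := Ideal.Quotient.stabilizerHom P.ideal (P.res F).ideal (E ≃ₐ[F] E)
    ⟨g, congrArg Place.ideal hg⟩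
  obtain ⟨j, hj⟩ := (FiniteField.bijective_frobeniusAlgEquivOfAlgebraic_pow (𝓞 F ⧸ (P.res F).ideal)
    (𝓞 M ⧸ (P.res M).ideal)).2 (b.restrictNormal (𝓞 M ⧸ (P.res M).ideal))
  have h1 : ∀ x : 𝓞 M, g • algebraMap (𝓞 M) (𝓞 E) x - algebraMap (𝓞 M) (𝓞 E) x ^ P.qv F ^ (j : ℕ) ∈
      P.ideal := fun x => by
    have h := b.restrictNormal_commutes (𝓞 M ⧸ (P.res M).ideal) (Ideal.Quotient.mk _ x)
    rw [← hj] at h
    simp only [AlgEquiv.coe_pow, FiniteField.coe_frobeniusAlgEquivOfAlgebraic_iterate, map_pow,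
      Ideal.Quotient.algebraMap_mk_of_liesOver, ← Nat.card_eq_fintype_card] at h
    rw [← Ideal.Quotient.eq, map_pow]
    exact h.symm
  have hh : ((φ ^ (j : ℕ))⁻¹ * g) • P = P :=
    (stabilizer _ P).mul_mem ((stabilizer _ P).inv_mem ((stabilizer _ P).pow_mem h0 _)) hg
  let b' := Ideal.Quotient.stabilizerHom P.ideal (P.res F).ideal (E ≃ₐ[F] E)
    ⟨_, congrArg Place.ideal hh⟩
  obtain ⟨v, hv, hv'⟩ := Place.exists_lift_residue (M := M) P
    (AlgEquiv.ofRingEquiv (f := b'.toRingEquiv) fun x => by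
      obtain ⟨x, rfl⟩ := Ideal.Quotient.mk_surjective x
      rw [Ideal.Quotient.algebraMap_mk_of_liesOver]
      refine Ideal.Quotient.eq.2 ?_
      have h := smul_mem_of ((stabilizer _ P).inv_mem ((stabilizer _ P).pow_mem h0 (j : ℕ)))
        (P.ideal.sub_mem (h1 x) (pow_act P hφ j (algebraMap (𝓞 M) (𝓞 E) x)))
      rw [sub_sub_sub_cancel_right, smul_sub, inv_smul_smul, ← mul_smul] at h
      exact h)
  refine ⟨j, (φ ^ (j : ℕ))⁻¹ * g * (v.restrictScalars F)⁻¹, fun x => ?_, v.restrictScalars F, ?_,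
    by group⟩
  · obtain ⟨y, rfl⟩ := MulAction.surjective (v.restrictScalars F) x
    rw [mul_smul _ _⁻¹, inv_smul_smul]
    exact Ideal.Quotient.eq.1 (hv' y).symm
  · rw [← hfix]
    exact fun x => v.commutes x

end dec

theorem grp_unr {G : Type*} [Group G] (D I N : Subgroup G) [hN : N.Normal] (hI : I ≤ D)
    (hc : ∀ d ∈ D, ∀ t ∈ I, d * t * d⁻¹ ∈ I) {φ : G} (hφ : φ ∈ D) :
    ∃ f ∈ N, ∀ V : Subgroup G, V.Normal → V ≤ N → I ⊓ N ≤ V →
      (∀ d ∈ D, ∃ j : ℕ, ∃ t ∈ I, ∃ v ∈ V, d = φ ^ j * t * v) →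
      (∀ d ∈ D, d * f * d⁻¹ * f⁻¹ ∈ V) ∧ (f ∈ V → D ⊓ N ≤ V) := by
  have : (I.subgroupOf D).Normal := ⟨fun t ht d => hc d d.2 t ht⟩
  let π := QuotientGroup.mk' (I.subgroupOf D)
  have hπ : ∀ x : D, π x = 1 ↔ (x : G) ∈ I := fun x => QuotientGroup.eq_one_iff x
  let Z : AddSubgroup ℤ :=
    { carrier := {j | π ⟨φ, hφ⟩ ^ j ∈ (N.subgroupOf D).map π}
      zero_mem' := by rw [Set.mem_ofPred_eq, zpow_zero]; exact one_mem _
      add_mem' := fun ha hb => by
        rw [Set.mem_ofPred_eq, zpow_add]; exact mul_mem ha hb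
      neg_mem' := fun ha => by
        rw [Set.mem_ofPred_eq, zpow_neg]; exact inv_mem ha }
  obtain ⟨m, hm⟩ := Int.subgroup_cyclic Z
  obtain ⟨f, hf, hfm⟩ : m ∈ Z := hm ▸ AddSubgroup.mem_closure_singleton_self m
  refine ⟨f, hf, fun V hV hVN hIV hgen => ⟨fun d hd => ?_, fun hfV n hn => ?_⟩⟩
  · obtain ⟨j, t, ht, v, hv, rfl⟩ := hgen d hd
    let e : D := ⟨φ, hφ⟩ ^ j * ⟨t, hI ht⟩
    have he : π e = π ⟨φ, hφ⟩ ^ (j : ℤ) := by
      rw [map_mul, (hπ ⟨t, hI ht⟩).2 ht, mul_one, map_pow, zpow_natCast]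
    have h1 : π (e * f * e⁻¹ * f⁻¹) = 1 := by
      simp only [map_mul, map_inv, he, hfm]
      group
    have h2 : (e : G) * f * (e : G)⁻¹ * (f : G)⁻¹ ∈ V :=
      hIV ⟨(hπ _).1 h1, N.mul_mem (hN.conj_mem _ hf _) (N.inv_mem hf)⟩
    have h3 := hV.conj_mem _ (V.mul_mem hv (hV.conj_mem _ (V.inv_mem hv) f)) e
    have h4 := V.mul_mem h3 h2
    have he' : (e : G) = φ ^ j * t := by simp [e]
    rw [he'] at h4
    convert h4 using 1
    group
  · obtain ⟨j, t, ht, v, hv, rfl⟩ := hgen n hn.1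
    let e : D := ⟨φ, hφ⟩ ^ j * ⟨t, hI ht⟩
    have he' : (e : G) = φ ^ j * t := by simp [e]
    have he : π e = π ⟨φ, hφ⟩ ^ (j : ℤ) := by
      rw [map_mul, (hπ ⟨t, hI ht⟩).2 ht, mul_one, map_pow, zpow_natCast]
    have heN : (e : G) ∈ N := by
      rw [he']; exact (N.mul_mem_cancel_right (hVN hv)).1 hn.2
    have hj : (j : ℤ) ∈ Z := ⟨e, heN, he⟩
    rw [hm, AddSubgroup.mem_closure_singleton] at hj
    obtain ⟨i, hi⟩ := hj
    have h1 : π ((f ^ i)⁻¹ * e) = 1 := by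
      rw [map_mul, map_inv, map_zpow, hfm, he, ← hi, ← zpow_mul, smul_eq_mul, mul_comm i,
        inv_mul_cancel]
    have h2 : ((f : G) ^ i)⁻¹ * e ∈ V :=
      hIV ⟨(hπ _).1 h1, N.mul_mem (N.inv_mem (N.zpow_mem hf i)) heN⟩
    rw [← he']
    exact V.mul_mem ((V.mul_mem_cancel_left (V.inv_mem (V.zpow_mem hfV i))).1 h2) hv

section cls

variable {k : Type} [Field k] {ρ : Gam →* M2 k} {c : Gam → M2 k}

theorem Cls.one (h : Cls ρ c) : c 1 = 0 := by
  have := h.add 1 1 (map_one ρ) (map_one ρ)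
  rw [mul_one] at this
  exact left_eq_add.1 this

/-- the kernel of a class -/
def Cls.ker (h : Cls ρ c) : Subgroup Gam where
  carrier := {n | ρ n = 1 ∧ c n = 0}
  one_mem' := ⟨map_one ρ, h.one⟩
  mul_mem' := fun {a b} ha hb => ⟨by rw [map_mul, ha.1, hb.1, mul_one], by
    rw [h.add a b ha.1 hb.1, ha.2, hb.2, add_zero]⟩
  inv_mem' := fun {a} ha => by
    have h1 : ρ a⁻¹ = 1 := ρ.ker.inv_mem ha.1
    have := h.add a a⁻¹ ha.1 h1
    rw [mul_inv_cancel, h.one, ha.2, zero_add] at this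
    exact ⟨h1, this.symm⟩

theorem Cls.ker_normal (h : Cls ρ c) : h.ker.Normal :=
  ⟨fun n hn g => ⟨(MonoidHom.normal_ker ρ).conj_mem n hn.1 g, by
    rw [h.conj g n hn.1, hn.2, mul_zero, zero_mul]⟩⟩

theorem Cls.ker_open (h : Cls ρ c) (ho : IsOpen (ρ.ker : Set Gam)) : IsOpen (h.ker : Set Gam) := by
  obtain ⟨U, hU, h0⟩ := h.opn
  exact Subgroup.isOpen_mono (H₁ := U ⊓ ρ.ker) (fun n hn => ⟨hn.2, h0 n hn.1 hn.2⟩) (hU.inter ho)

end cls

theorem unrStmt : UnrStmt := by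
  intro k _ ρ ho P
  obtain ⟨φ, h0, hφ⟩ := Place.exists_frob (F := ℚ) P
  obtain ⟨f, hf, H⟩ := grp_unr (De P) (In P) ρ.ker (Place.inertia_le_stabilizer P)
    (fun d hd t ht => conj_inertia hd ht) h0
  refine ⟨f, fun c hc ht => ?_⟩
  obtain ⟨h1, h2⟩ := H hc.ker hc.ker_normal (fun n hn => hn.1)
    (fun n hn => ⟨hn.2, ht n hn.1 hn.2⟩) fun d hd => dec_gen P _ (hc.ker_open ho) h0 hφ hd
  refine ⟨⟨hc.tr f hf, fun d hd => ?_⟩, fun h n hn hn' => (h2 ⟨hf, h⟩ ⟨hn, hn'⟩).2⟩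
  have h3 := hc.add _ f (h1 d hd).1 hf
  rw [inv_mul_cancel_right, (h1 d hd).2, zero_add, hc.conj d f hf] at h3
  rw [← h3, mul_assoc (ρ d * c f), ← map_mul, inv_mul_cancel, map_one, mul_one, h3]

end Crest.Agent.T15.C
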