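import Crest.Agent.T15.CDef_7
import Crest.Agent.T15.ArtO_49

/-!
# Row 15, block C: modularity of a representation induced from `ℚ(i)`; output `ModI` and leaves
-/

set_option autoImplicit false

noncomputable section

namespace Crest.Agent.T15.C

open NumberField Crest.Agent.R018.Placesx484 Crest.Agent.T15.Ps Crest.Agent.T15.Art
  Crest.Agent.T15.Ex

/-- Gaussian integers -/
abbrev Zi : Type := GaussianInt

/-- the Gaussian integer `i` -/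
abbrev ii : Zi := Zsqrtd.sqrtd

/-- the image of `i` in the algebraic numbers -/
abbrev dl (j : Zi →+* 𝓞 Om) : Om := ((j ii : 𝓞 Om) : Om)

/-- the field `ℚ(i)` -/
abbrev Ki (j : Zi →+* 𝓞 Om) : IntermediateField ℚ Om := IntermediateField.adjoin ℚ {dl j}

/-- a quartic character modulo `m` such that `x ↦ x ε(x)` is a character of ideals with trivial
nebentypus -/
structure Eps (m : ℕ) (ε : Zi → Zi) : Prop where
  pos : m ≠ 0
  two : 2 ∣ m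
  one : ε 1 = 1
  mul : ∀ x y, ε (x * y) = ε x * ε y
  per : ∀ x y, ε (x + m * y) = ε x
  zero : ∀ x, ¬ IsCoprime x (m : Zi) → ε x = 0
  unit : ∀ x, IsCoprime x (m : Zi) → ε x ^ 4 = 1
  ei : ii * ε ii = 1
  conj : ∀ x, ε (star x) = star (ε x)
  int : ∀ n : ℕ, n.Coprime m → ε n = (ZMod.χ₄ (n : ZMod 4) : ℤ)

/-- `ξ` takes the value `f x` at the Frobenius elements over `ℚ(i)` above a prime `x ∤ 3 S` -/
def Rec {A : Type} (j : Zi →+* 𝓞 Om) (S : Finset ℕ) (ξ : Gam → A) (f : Zi → A) : Prop :=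
  ∀ (P : Place Om) (s : Gam) (x : Zi), Prime x → j x ∈ P.ideal → P.rchar ≠ 3 → P.rchar ∉ S →
    s (dl j) = dl j → IsFr P x.norm.natAbs s → ξ s = f x

/-- leaf QI: the ring of integers of `ℚ(i)` -/
def QiStmt : Prop :=
  ∀ j : Zi →+* 𝓞 Om, FiniteDimensional ℚ (Ki j) ∧ IsTotallyComplex (Ki j) ∧
    ∃ e : Zi ≃+* 𝓞 (Ki j), ∀ x, algebraMap (𝓞 (Ki j)) (𝓞 Om) (e x) = j x

/-- leaf TAME: the reciprocity law at one tamely ramified prime -/
def TameStmt : Prop :=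
  ∀ (K : Type) [Field K] [NumberField K] [IsTotallyComplex K] [Algebra K Om] [IsGalois K Om]
    (A : Type) [CommGroup A] (ξ : (Om ≃ₐ[K] Om) →* A) (N : ℕ) (T : Finset (Pr K)) (f : Pr K → A),
    IsOpen (ξ.ker : Set (Om ≃ₐ[K] Om)) → N ≠ 0 → (∀ g, ξ g ^ N = 1) → (∀ w ∈ T, f w = 1) →
    Av T f ξ → ∀ (P : Place Om) (π : K) (z : Om) (t : Om ≃ₐ[K] Om) (u : Kˣ), pr K P ∈ T →
    ¬ P.rchar ∣ N → (pr K P).valuation K π = WithZero.exp (-1 : ℤ) →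
    P.v z ^ (P.qv K - 1) = P.v (algebraMap K Om π) → t ∈ P.ideal.inertia (Om ≃ₐ[K] Om) →
    P.v (t z / z - algebraMap K Om u) < 1 →
    (∀ w ∈ T, w ≠ pr K P → w.valuation K ((u : K) - 1) < w.valuation K (N : K) ^ 2) →
    ev f u = ξ t

/-- leaf EPS: the character of a dihedral representation -/
def EpsStmt : Prop :=
  ∃ e : ℕ, ∀ (k : Type) [Field k] (ρ : Gam →* M2 k) (red : 𝓞 Om →+* k) (S : Finset ℕ)
    (j : Zi →+* 𝓞 Om), Dih ρ red S 1 (dl j) → (∀ g, (ρ g).trace ^ 3 = (ρ g).trace) →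
    ∃ (m : ℕ) (ε : Zi → Zi), Eps m ε ∧ m ∣ (∏ l ∈ S, l) ^ e ∧ (∀ l ∈ S, l ∣ m) ∧
      Rec j S (fun g => ρ g 0 0) fun x => red (j (x * ε x))

/-- leaf THETA -/
def ThStmt : Prop :=
  ∀ (m : ℕ) (ε : Zi → Zi), Eps m ε → ∃ a : ℕ → ℤ, IsEig (4 * m ^ 2) (fun n => (a n : ℂ)) ∧
    (∀ n, ¬ n.Coprime m → a n = 0) ∧ (∀ p : ℕ, p.Prime → p % 4 = 3 → a p = 0) ∧
    ∀ x : Zi, x.norm.natAbs.Prime → (a x.norm.natAbs : Zi) = x * ε x + star (x * ε x)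

/-- leaf XI: the `3`-adic character `(x) ↦ x ^ u` of `ℚ(i)`, unramified outside `3` -/
def XiStmt : Prop :=
  ∀ (j : Zi →+* 𝓞 Om) (A : Type) [CommRing A] [Finite A] (φ : Zi →+* A), IsNilpotent (3 : A) →
    ∀ u : ℕ, 8 ∣ u → ∃ ξ : Gam → A, ξ 1 = 1 ∧
      (∀ g h : Gam, g (dl j) = dl j → h (dl j) = dl j → ξ (g * h) = ξ g * ξ h) ∧
      (∃ U : Subgroup Gam, IsOpen (U : Set Gam) ∧ ∀ g ∈ U, g (dl j) = dl j → ξ g = 1) ∧
      (∀ P : Place Om, P.rchar ≠ 3 → ∀ t ∈ In P, t (dl j) = dl j → ξ t = 1) ∧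
      Rec j ∅ ξ fun x => φ x ^ u

/-- **Output MOD for `ℚ(i)`**: the residual representation comes from a theta series with integer
coefficients, whose `3`-adic representation exists at every finite level and is minimally
ramified. -/
def ModI : Prop :=
  ∃ e : ℕ, ∀ (k : Type) [Field k] (ρ : Gam →* M2 k) (red : 𝓞 Om →+* k) (S : Finset ℕ) (δ : Om),
    Dih ρ red S 1 δ → (∀ g, (ρ g).trace ^ 3 = (ρ g).trace) →
    ∃ (N : ℕ) (a : ℕ → ℤ), N ∣ (∏ l ∈ S, l) ^ e ∧ 16 ∣ N ∧ (∀ l ∈ S, l ∣ N) ∧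
      IsEig N (fun n => (a n : ℂ)) ∧ (∀ n, ¬ n.Coprime N → a n = 0) ∧
      (∀ p : ℕ, p.Prime → p % 4 = 3 → a p = 0) ∧
      (∀ (P : Place Om) (s : Gam), P.rchar ≠ 3 → P.rchar ∉ S → IsFr P P.rchar s →
        (a P.rchar : k) = (ρ s).trace) ∧
      ∀ (A : Type) [CommRing A] [Finite A] (i : A), i ^ 2 = -1 → IsNilpotent (3 : A) →
        ∃ σ : Gam →* M2 A, IsOpen (σ.ker : Set Gam) ∧
          (∀ P : Place Om, P.rchar ≠ 3 → In P ⊓ ρ.ker ≤ σ.ker) ∧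
          ∀ (P : Place Om) (s : Gam), P.rchar ≠ 3 → P.rchar ∉ S → IsFr P P.rchar s →
            (σ s).trace = a P.rchar ∧ (σ s).det = P.rchar

end Crest.Agent.T15.C
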