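import Crest.Agent.T15.TameA_25
import Crest.Agent.T15.MDef_7
import Crest.Agent.T15.CUnr_25

/-!
# Row 15, block C (helper25): the leaf `TameStmt`
-/

set_option autoImplicit false

noncomputable section

open NumberField IsDedekindDomain WithZero
open scoped Pointwise

namespace Crest.Agent.T15.Tame

open Crest.Agent.T15.Art Crest.Agent.T15.Ex Crest.Agent.R018.Placesx484
  Crest.Agent.R018.Selmerx380 Crest.Agent.R018.Tamex31 Crest.Agent.R018.SLatx824

section basic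

variable {F E : Type*} [Field F] [Field E] [Algebra F E]

theorem openKer_of {A : Type*} [Group A] {ψ : (E ≃ₐ[F] E) →* A}
    (ho : IsOpen (ψ.ker : Set (E ≃ₐ[F] E))) (V : Subgroup (E ≃ₐ[F] E)) :
    OpenKer (ψ.comp V.subtype) := by
  obtain ⟨L, hL, h⟩ := (krullTopology_mem_nhds_one_iff F E _).1 (ho.mem_nhds ψ.ker.one_mem)
  exact ⟨L, hL, fun u hu => h fun x => hu x x.2⟩

theorem isOpen_comap (L : Type*) [Field L] [Algebra F L] [Algebra L E] [IsScalarTower F L E]
    [Algebra.IsIntegral L E] {U : Subgroup (E ≃ₐ[F] E)} (hU : IsOpen (U : Set (E ≃ₐ[F] E))) :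
    IsOpen ((U.comap (AlgEquiv.restrictScalarsHom F) : Subgroup (E ≃ₐ[L] E)) : Set (E ≃ₐ[L] E)) := by
  obtain ⟨M, hM, h⟩ := (krullTopology_mem_nhds_one_iff F E _).1 (hU.mem_nhds U.one_mem)
  let b := Module.finBasis F M
  refine Subgroup.isOpen_mono (H₁ := ⨅ i, MulAction.stabilizer (E ≃ₐ[L] E) (b i : E))
    (fun g hg => h fun x => ?_) ?_
  · have : (g.restrictScalars F).toLinearMap.comp M.val.toLinearMap = M.val.toLinearMap :=
      b.ext fun i => Subgroup.mem_iInf.1 hg i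
    exact LinearMap.congr_fun this x
  · rw [Subgroup.coe_iInf]
    exact isOpen_iInter_of_finite fun i => stabilizer_isOpen_of_isIntegral _

variable [NumberField F] [CharZero E] [Algebra.IsAlgebraic ℚ E] [IsGalois F E]

omit [NumberField F] [IsGalois F E] in
theorem inertia_unit {P : Place E} {t : E ≃ₐ[F] E} (ht : t ∈ P.ideal.inertia (E ≃ₐ[F] E)) {e : E}
    (he : P.v e = 1) : P.v (t e / e - 1) < 1 := by
  have h0 : e ≠ 0 := by rintro rfl; simp at he
  rw [div_sub_one h0, map_div₀, he, div_one]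
  exact P.v_smul_sub_lt_one ht e he.le

/-- a character of `G_F` of order prime to the residue characteristic is killed by `q - 1` on the
inertia group -/
theorem pow_qv {ψ : (E ≃ₐ[F] E) →* Eˣ} (ho : IsOpen (ψ.ker : Set (E ≃ₐ[F] E))) {N : ℕ}
    (hψ : ∀ g, ψ g ^ N = 1) {P : Place E} (hPN : ¬ P.rchar ∣ N) {t : E ≃ₐ[F] E}
    (ht : t ∈ P.ideal.inertia (E ≃ₐ[F] E)) : ψ t ^ (P.qv F - 1) = 1 := by
  have hψ' : ∀ g, (ψ g : E) ^ N = 1 := fun g => by
    rw [← Units.val_pow_eq_pow_val, hψ, Units.val_one]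
  obtain ⟨x, hx0, hx⟩ := exists_resolvent _ (openKer_of ho (P.ideal.inertia (E ≃ₐ[F] E)))
    fun a b => P.inertia_root a.2 hPN (hψ' _)
  obtain ⟨φ, hφ⟩ := exists_isF (K := F) P
  have h1 := hx ⟨_, C.conj_inertia ((MulAction.stabilizer _ P).inv_mem hφ.smul_eq) ht⟩
  have h2 : φ (ψ t) = ψ t ^ P.qv F := P.frob_root hφ hPN (hψ' t)
  have h3 : t (φ x) = ψ t ^ P.qv F * φ x := by
    have := congrArg φ h1
    simp only [inv_inv, MonoidHom.comp_apply, Subgroup.subtype_apply, map_mul, map_inv,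
      inv_mul_cancel_comm, AlgEquiv.mul_apply, h2] at this
    rw [← this, ← AlgEquiv.mul_apply φ, mul_inv_cancel, AlgEquiv.one_apply]
  have h4 : t x = ψ t * x := hx ⟨t, ht⟩
  have h5 := inertia_unit ht (e := φ x / x) (by
    rw [map_div₀, show P.v (φ x) = P.v x from P.v_smul_eq φ hφ.smul_eq x,
      div_self ((map_ne_zero _).2 hx0)])
  have e : t (φ x / x) / (φ x / x) = ψ t ^ (P.qv F - 1) := by
    have : φ x ≠ 0 := by simpa using hx0
    rw [map_div₀, h3, h4, ← pow_sub_one_mul (Place.one_lt_qv (F := F) P).ne_bot (ψ t : E)]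
    field_simp
  rw [e] at h5
  exact Units.ext (P.root_eq_of_sub hPN (by
    rw [Units.val_pow_eq_pow_val, ← pow_mul, mul_comm, pow_mul, hψ', one_pow]) (one_pow _) h5)

theorem exists_exp {n : ℕ} {ζ : F} (hζ : IsPrimitiveRoot ζ (n + 1)) {ψ : (E ≃ₐ[F] E) →* Eˣ}
    (ho : IsOpen (ψ.ker : Set (E ≃ₐ[F] E))) {P : Place E} (hPn : ¬ P.rchar ∣ n + 1)
    (hψ : ∀ t ∈ P.ideal.inertia (E ≃ₐ[F] E), ψ t ^ (n + 1) = 1) {π : Fˣ}
    (hπ : ord (𝓞 F) (pr F P) π = 1) {y : E} (hy0 : y ≠ 0) (hy : y ^ (n + 1) = algebraMap F E π) :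
    ∃ m : ℕ, ∀ t ∈ P.ideal.inertia (E ≃ₐ[F] E), ψ t * kum hζ hy0 hy t ^ m = 1 := by
  obtain ⟨a, b, hab, h⟩ := char_dependent (rankOne P) (V := P.ideal.inertia (E ≃ₐ[F] E))
    (fun g hg => (mem_inS_val P g).2 hg) (val_natCast_eq_one P hPn) (openKer_of ho _)
    (openKer_of (kum_opn hζ hy0 hy) _) (fun t => hψ t t.2) fun t => kum_pow hζ hy0 hy t
  have hζ' := hζ.map_of_injective (algebraMap F E).injective
  obtain ⟨τ, hτ, hτy⟩ := exists_inertia_root P (n + 1) hPn _ y hζ' π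
    (by rw [show ord (𝓞 F) (hos (P.res F)) π = 1 from hπ]; exact isCoprime_one_left) hy
  have hκ : IsPrimitiveRoot (kum hζ hy0 hy τ) (n + 1) := IsPrimitiveRoot.coe_units_iff.1 (by
    rwa [kum_val, hτy, mul_div_cancel_right₀ _ hy0])
  have hcop : IsCoprime a ((n + 1 : ℕ) : ℤ) := by
    obtain ⟨e, he⟩ := Int.gcd_dvd_right a ((n + 1 : ℕ) : ℤ)
    obtain ⟨a', ha'⟩ := Int.gcd_dvd_left a ((n + 1 : ℕ) : ℤ)
    have h1 : (ψ τ ^ a * kum hζ hy0 hy τ ^ b) ^ e = 1 := by
      rw [show ψ τ ^ a * kum hζ hy0 hy τ ^ b = 1 from h ⟨τ, hτ⟩, one_zpow]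
    have h2 : a * e = ((n + 1 : ℕ) : ℤ) * a' := by
      linear_combination e * ha' - a' * he
    rw [mul_zpow, ← zpow_mul, h2, zpow_mul, zpow_natCast, hψ τ hτ, one_zpow, one_mul, ← zpow_mul,
      hκ.zpow_eq_one_iff_dvd] at h1
    have he0 : e ≠ 0 := by
      rintro rfl
      rw [mul_zero] at he
      omega
    have h3 : (Int.gcd a ((n + 1 : ℕ) : ℤ) : ℤ) ∣ b := by
      rw [← mul_dvd_mul_iff_right he0, ← he]; exact h1
    exact Int.isCoprime_iff_gcd_eq_one.2 (by
      simpa using Int.isUnit_iff_natAbs_eq.1 (hab.isUnit_of_dvd' (Int.gcd_dvd_left _ _) h3))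
  obtain ⟨i, j, hij⟩ := hcop
  refine ⟨(b * i % (n + 1 : ℕ)).toNat, fun t ht => ?_⟩
  have h1 : (ψ t ^ a * kum hζ hy0 hy t ^ b) ^ i = 1 := by
    rw [show ψ t ^ a * kum hζ hy0 hy t ^ b = 1 from h ⟨t, ht⟩, one_zpow]
  have h2 : a * i = 1 + ((n + 1 : ℕ) : ℤ) * -j := by linear_combination hij
  rw [mul_zpow, ← zpow_mul, ← zpow_mul, h2, zpow_add, zpow_mul, zpow_natCast, hψ t ht, one_zpow,
    mul_one, zpow_one, ← Int.mul_ediv_add_emod (b * i) (n + 1 : ℕ), zpow_add, zpow_mul,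
    zpow_natCast, kum_pow, one_zpow, one_mul] at h1
  rwa [← zpow_natCast, Int.toNat_of_nonneg (Int.emod_nonneg _ (by omega))]

omit [Algebra.IsAlgebraic ℚ E] in
theorem av_res (L : Type*) [Field L] [NumberField L] [Algebra F L] [Algebra L E]
    [IsScalarTower F L E] {A : Type*} [CommGroup A] {T : Finset (Pr F)} {f : Pr F → A}
    {ξ : (E ≃ₐ[F] E) →* A} (h : Av T f ξ) {T' : Finset (Pr L)}
    (hT : ∀ W : Pr L, W.under (𝓞 F) ∈ T → W ∈ T') :
    Av T' (nf L f) (ξ.comp (AlgEquiv.restrictScalarsHom F)) := fun Q hQ s hs => by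
  have hu : (pr L Q).under (𝓞 F) = pr F Q :=
    HeightOneSpectrum.ext (congrArg Place.ideal (Place.res_res F L Q))
  have hQ' : pr F Q ∉ T := fun h => hQ (hT _ (hu ▸ h))
  have : (pr L Q).asIdeal.LiesOver (pr F Q).asIdeal := ⟨by rw [← hu]; rfl⟩
  have := (pr L Q).isPrime
  obtain ⟨φ, hφ⟩ := exists_isF (K := F) Q
  have h1 : (s.restrictScalars F) * (φ ^ (pr L Q).asIdeal.inertiaDeg (𝓞 F))⁻¹ ∈
      Q.ideal.inertia (E ≃ₐ[F] E) := fun x => by
    have h2 := C.pow_act Q hφ ((pr L Q).asIdeal.inertiaDeg (𝓞 F))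
      ((φ ^ (pr L Q).asIdeal.inertiaDeg (𝓞 F))⁻¹ • x)
    rw [qv_eq, Ideal.absNorm_pow_inertiaDeg, ← qv_eq] at h2
    have := Q.ideal.sub_mem (hs ((φ ^ (pr L Q).asIdeal.inertiaDeg (𝓞 F))⁻¹ • x)) h2
    rw [sub_sub_sub_cancel_right, smul_inv_smul] at this
    exact this
  have h2 := h.inertia_le hQ' h1
  rw [MonoidHom.mem_ker, map_mul, map_inv, mul_inv_eq_one, map_pow, h Q hQ' φ hφ] at h2
  rw [nf, hu]
  exact h2

omit [CharZero E] [Algebra.IsAlgebraic ℚ E] [IsGalois F E] [NumberField F] in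
theorem exists_over (L : Type*) [Field L] [NumberField L] [Algebra F L] (T : Finset (Pr F)) :
    ∃ T' : Finset (Pr L), ∀ W : Pr L, W ∈ T' ↔ W.under (𝓞 F) ∈ T := by
  have : ((fun W : Pr L => W.under (𝓞 F)) ⁻¹' T).Finite := T.finite_toSet.preimage' fun w _ =>
    (Ideal.finite_factors (I := w.asIdeal.map (algebraMap (𝓞 F) (𝓞 L)))
      (Ideal.map_ne_bot_of_ne_bot w.ne_bot)).subset fun W hW => by
        obtain rfl : W.under (𝓞 F) = w := hW
        exact Ideal.dvd_iff_le.2 Ideal.map_comap_le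
  exact ⟨this.toFinset, fun W => by simp⟩

end basic

section main

variable {K E : Type} [Field K] [NumberField K] [IsTotallyComplex K] [Field E] [CharZero E]
  [IsAlgClosed E] [Algebra.IsAlgebraic ℚ E] [Algebra K E] [IsGalois K E]

omit [IsTotallyComplex K] [IsAlgClosed E] [Algebra.IsAlgebraic ℚ E] in
theorem not_dvd (P : Place E) : ¬ P.rchar ∣ P.qv K - 1 := fun h => by
  obtain ⟨k, hk, e⟩ := Place.exists_qv_eq (F := K) P
  have h1 : P.rchar ∣ P.qv K := e ▸ dvd_pow_self _ hk.ne'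
  have h2 := (Nat.dvd_sub_iff_right (Place.one_lt_qv (F := K) P).le h1).1 h
  exact P.rchar_prime.one_lt.ne' (Nat.dvd_one.1 h2)

omit [IsTotallyComplex K] [IsAlgClosed E] in
theorem unit_of {P : Place E} {π : K} {z : E} {t : E ≃ₐ[K] E} {u : E}
    (hπ : (pr K P).valuation K π = exp (-1 : ℤ))
    (hz : P.v z ^ (P.qv K - 1) = P.v (algebraMap K E π)) (ht : t ∈ P.ideal.inertia (E ≃ₐ[K] E))
    (hu : P.v (t z / z - u) < 1) : z ≠ 0 ∧ P.v (t z / z) = 1 ∧ P.v u = 1 := by
  have hπ0 : π ≠ 0 := by rintro rfl; rw [map_zero] at hπ; exact exp_ne_zero hπ.symm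
  have hz0 : z ≠ 0 := by
    rintro rfl
    have := Place.one_lt_qv (F := K) P
    rw [map_zero, zero_pow (by omega), eq_comm, map_eq_zero, map_eq_zero] at hz
    exact hπ0 hz
  have h1 : P.v (t z / z) = 1 := by
    rw [map_div₀, show P.v (t z) = P.v z from P.v_smul_eq t (P.smul_eq_of_mem_inertia ht) z,
      div_self ((map_ne_zero _).2 hz0)]
  refine ⟨hz0, h1, ?_⟩
  rw [← h1]
  exact Valuation.map_eq_of_sub_lt _ (by rwa [h1, Valuation.map_sub_swap])

theorem tame_full (hA : ArtStmt) {P : Place E} {ζ : K} (hζ : IsPrimitiveRoot ζ (P.qv K - 1))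
    {ψ : (E ≃ₐ[K] E) →* Eˣ} (ho : IsOpen (ψ.ker : Set (E ≃ₐ[K] E))) {N : ℕ} (hN : N ≠ 0)
    (hψ : ∀ g, ψ g ^ N = 1) {T : Finset (Pr K)} {f : Pr K → Eˣ} (h1 : ∀ w ∈ T, f w = 1)
    (hav : Av T f ψ) {π : K} {z : E} {t : E ≃ₐ[K] E} {u : Kˣ} (hPN : ¬ P.rchar ∣ N)
    (hπ : (pr K P).valuation K π = exp (-1 : ℤ))
    (hz : P.v z ^ (P.qv K - 1) = P.v (algebraMap K E π)) (ht : t ∈ P.ideal.inertia (E ≃ₐ[K] E))
    (hu : P.v (t z / z - algebraMap K E u) < 1)
    (hu' : ∀ w ∈ T, w ≠ pr K P → w.valuation K ((u : K) - 1) < w.valuation K (N : K) ^ 2) :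
    ev f u = ψ t := by
  obtain ⟨hz0, hz1, hu1⟩ := unit_of hπ hz ht hu
  have hπ0 : π ≠ 0 := by rintro rfl; rw [map_zero] at hπ; exact exp_ne_zero hπ.symm
  have hPn := not_dvd (K := K) P
  have hq := fun s hs => pow_qv ho hψ hPN (t := s) hs
  obtain ⟨φ, hφ⟩ := exists_isF (K := K) P
  have hφ' := fun x hx => isF_unit hφ (x := x) hx
  obtain ⟨n, hn⟩ : ∃ n, P.qv K - 1 = n + 1 :=
    ⟨P.qv K - 2, by have := Place.one_lt_qv (F := K) P; omega⟩
  rw [hn] at hζ hz hPn hq hφ'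
  have hπ1 : ord (𝓞 K) (pr K P) (Units.mk0 π hπ0) = 1 := by
    have := valuation_eq_exp (R := 𝓞 K) (pr K P) (Units.mk0 π hπ0)
    rw [Units.val_mk0, hπ, exp_inj] at this
    omega
  obtain ⟨y, hy0, hy⟩ := exists_rt (E := E) n (Units.mk0 π hπ0)
  obtain ⟨x, hx0, hx⟩ := exists_rt (E := E) n u
  obtain ⟨m, hm⟩ := exists_exp hζ ho hPn hq hπ1 hy0 hy
  have h2 := tame_kum hA hζ ho hN hψ h1 hav hPN hPn hπ1 hy0 hy hm
    ((v_equiv (K := K) P).eq_one_iff_eq_one.1 hu1) hu' hx0 hx hφ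
  have h3 : kum hζ hx0 hx φ = kum hζ hy0 hy t := by
    refine Units.ext (P.root_eq_of_sub hPn (quot_pow hx0 hx φ) (quot_pow hy0 hy t) ?_)
    have h4 := hφ' x (Place.pow_eq_one_aux n.succ_ne_zero (by rw [← map_pow, hx, hu1]))
    have h5 := inertia_unit ht (e := y / z) (Place.pow_eq_one_aux n.succ_ne_zero (by
      rw [map_div₀, div_pow, hz, ← map_pow, hy, Units.val_mk0, div_self (by simpa using hπ0)]))
    have e : (kum hζ hx0 hx φ : E) - kum hζ hy0 hy t = (φ x / x - x ^ (n + 1)) -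
        (t z / z - algebraMap K E u) - (t (y / z) / (y / z) - 1) * (t z / z) := by
      have : t z ≠ 0 := by simpa using hz0
      rw [kum_val, kum_val, hx, map_div₀]
      field_simp
      ring
    rw [e]
    exact P.v.map_sub_lt (P.v.map_sub_lt h4 hu) (by rwa [map_mul, hz1, mul_one])
  rw [h3, ← hm t ht] at h2
  exact mul_right_cancel h2

attribute [local instance] actH

theorem tame_units (hA : ArtStmt) {P : Place E}
    {ψ : (E ≃ₐ[K] E) →* Eˣ} (ho : IsOpen (ψ.ker : Set (E ≃ₐ[K] E))) {N : ℕ} (hN : N ≠ 0)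
    (hψ : ∀ g, ψ g ^ N = 1) {T : Finset (Pr K)} {f : Pr K → Eˣ} (h1 : ∀ w ∈ T, f w = 1)
    (hav : Av T f ψ) {π : K} {z : E} {t : E ≃ₐ[K] E} {u : Kˣ} (hT : pr K P ∈ T)
    (hPN : ¬ P.rchar ∣ N) (hπ : (pr K P).valuation K π = exp (-1 : ℤ))
    (hz : P.v z ^ (P.qv K - 1) = P.v (algebraMap K E π)) (ht : t ∈ P.ideal.inertia (E ≃ₐ[K] E))
    (hu : P.v (t z / z - algebraMap K E u) < 1)
    (hu' : ∀ w ∈ T, w ≠ pr K P → w.valuation K ((u : K) - 1) < w.valuation K (N : K) ^ 2) :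
    ev f u = ψ t := by
  classical
  obtain ⟨-, -, hu1⟩ := unit_of hπ hz ht hu
  have hPn := not_dvd (K := K) P
  have hq := Place.one_lt_qv (F := K) P
  have : NeZero (P.qv K - 1) := ⟨by omega⟩
  have : NeZero ((P.qv K - 1 : ℕ) : E) := ⟨by exact_mod_cast NeZero.ne _⟩
  obtain ⟨ζ, hζ⟩ := HasEnoughRootsOfUnity.exists_primitiveRoot E (P.qv K - 1)
  let F := IntermediateField.adjoin K {ζ}
  have := hζ.intermediateField_adjoin_isCyclotomicExtension K
  have : IsGalois K F := IsCyclotomicExtension.isGalois {P.qv K - 1} K F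
  have : FiniteDimensional K F :=
    IntermediateField.adjoin.finiteDimensional (Algebra.IsIntegral.isIntegral ζ)
  have : NumberField F := NumberField.of_module_finite K F
  have : IsTotallyComplex F := isTotallyComplex_of_algebra K F
  have hfix : MulAction.stabilizer (E ≃ₐ[K] E) ζ ≤ F.fixingSubgroup :=
    (IntermediateField.le_iff_le _ _).1 (IntermediateField.adjoin_le_iff.2 (by
      rintro _ rfl g
      exact g.2))
  have hI : P.ideal.inertia (E ≃ₐ[K] E) ≤ MulAction.stabilizer (E ≃ₐ[K] E) ζ := fun g hg =>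
    P.inertia_root hg hPn hζ.pow_eq_one
  set W := pr F P with hW
  have hWu : W.under (𝓞 K) = pr K P :=
    HeightOneSpectrum.ext (congrArg Place.ideal (Place.res_res K F P))
  have : W.asIdeal.LiesOver (pr K P).asIdeal := ⟨by rw [← hWu]; rfl⟩
  have := W.isPrime
  have hst : ∀ σ : F ≃ₐ[K] F, σ • W.asIdeal = W.asIdeal → σ = 1 := fun σ hσ => by
    obtain ⟨g, hg, hg'⟩ := exists_dec_lift P σ (Place.ext hσ)
    obtain ⟨φ, hφ⟩ := exists_isF (K := K) P
    obtain ⟨j, τ, hτ, v, hv, rfl⟩ := C.dec_gen P _ (stabilizer_isOpen_of_isIntegral ζ) hφ.smul_eq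
      hφ hg
    have h2 : φ ∈ MulAction.stabilizer (E ≃ₐ[K] E) ζ := by
      rw [MulAction.mem_stabilizer_iff, P.frob_root hφ hPn hζ.pow_eq_one,
        ← pow_sub_one_mul hq.ne_bot, hζ.pow_eq_one, one_mul]
    have h3 := hfix (mul_mem (mul_mem (pow_mem h2 j) (hI hτ)) hv)
    exact AlgEquiv.ext fun x => Subtype.ext ((hg' x).symm.trans (h3 x))
  have hef := R018.FrobCountx389.card_stab' (F := K) (F ≃ₐ[K] F) W.asIdeal W.ne_bot
  rw [(Subgroup.eq_bot_iff_forall (MulAction.stabilizer (F ≃ₐ[K] F) W.asIdeal)).2 hst, Subgroup.card_bot, eq_comm, mul_eq_one] at hef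
  have hqF : P.qv F = P.qv K := by
    rw [qv_eq, qv_eq, ← Ideal.absNorm_pow_inertiaDeg (pr K P).asIdeal W.asIdeal, hef.2, pow_one]
  have hval : ∀ x : K, W.valuation F (algebraMap K F x) = (pr K P).valuation K x := fun x => by
    rw [← HeightOneSpectrum.valuation_liesOver F (pr K P) W,
      Ideal.ramificationIdx'_eq_ramificationIdx _ _ (pr K P).ne_bot, hef.1, pow_one]
  obtain ⟨T', hT'⟩ := exists_over F T
  have hN0 : (N : F) ≠ 0 := by exact_mod_cast hN
  choose m hm using fun V : Pr F => T24.Asa.exists_exp_le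
    (show V.valuation F (N : F) ^ 2 ≠ 0 by simp [hN])
  obtain ⟨u', hx, -⟩ := T24.Asa.approx_fin T' (fun V => if V = W then algebraMap K F u else 1)
    (T'.sup m + 1)
  have hN1 : ∀ V : Pr F, V.valuation F (N : F) ^ 2 ≤ 1 := fun V => pow_le_one' (val_nat_le V _) _
  have hx' : ∀ V ∈ T', V.valuation F (u' - if V = W then algebraMap K F u else 1) <
      V.valuation F (N : F) ^ 2 := fun V hV => by
    refine ((hx V hV).trans_lt ?_).trans_le (hm V)
    have := Finset.le_sup (f := m) hV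
    rw [exp_lt_exp]
    omega
  have hxW : W.valuation F (u' - algebraMap K F u) < 1 := by
    simpa using (hx' W ((hT' W).2 (hWu ▸ hT))).trans_le (hN1 W)
  have hxV : ∀ V ∈ T', V ≠ W → V.valuation F (u' - 1) < V.valuation F (N : F) ^ 2 :=
    fun V hV hne => by simpa [hne] using hx' V hV
  have hu2 : (pr K P).valuation K (u : K) = 1 := (v_equiv (K := K) P).eq_one_iff_eq_one.1 hu1
  have hu3 : W.valuation F u' = 1 := by
    rw [← hu2, ← hval]
    exact Valuation.map_eq_of_sub_lt _ (by rwa [hval, hu2])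
  have hu0 : u' ≠ 0 := by rintro rfl; simp at hu3
  let t' : E ≃ₐ[F] E := F.fixingSubgroupEquiv ⟨t, hfix (hI ht)⟩
  have h2 := tame_full (K := F) hA (P := P) (ζ := IntermediateField.AdjoinSimple.gen K ζ)
    (by rw [hqF]; exact IsPrimitiveRoot.coe_submonoidClass_iff.1 hζ)
    (ψ := ψ.comp (AlgEquiv.restrictScalarsHom K)) (isOpen_comap F ho) hN (fun g => hψ _)
    (T := T') (f := nf F f) (fun V hV => by rw [nf, h1 _ ((hT' V).1 hV), one_pow])
    (av_res F hav fun V => (hT' V).2) (π := algebraMap K F π) (z := z) (t := t')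
    (u := Units.mk0 u' hu0) hPN (by rw [hval, hπ]) (by rw [hqF]; exact hz) ht (by
      have h3 := (v_lt_iff P (u' - algebraMap K F u) 1).2 (by rw [map_one]; exact hxW)
      rw [map_one, map_one, map_sub] at h3
      have h4 := P.v.map_sub_lt hu h3
      rw [show algebraMap F E (algebraMap K F u) = algebraMap K E u from rfl,
        sub_sub_sub_cancel_right] at h4
      exact h4) hxV
  rw [ev_norm] at h2
  have h3 := artin_av hA ho hN hψ h1 hav (Units.map (Algebra.norm K) (Units.mk0 u' hu0) / u)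
    fun w hw => by
      rw [Units.val_div_eq_div_val, div_sub_one u.ne_zero, map_div₀]
      change w.valuation K (Algebra.norm K u' - u) / _ < _
      by_cases h : w = pr K P
      · subst h
        rw [hu2, div_one, (val_nat_iff P _).2 hPN, one_pow, ← hval, map_sub,
          Algebra.norm_eq_prod_automorphisms, ← Finset.mul_prod_erase _ _ (Finset.mem_univ 1)]
        have h4 := v_prod_sub_one (W.valuation F) (Finset.univ.erase 1)
          (fun σ : F ≃ₐ[K] F => σ u') one_ne_zero le_rfl fun σ hσ => by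
            have h5 := (hxV (σ⁻¹ • W) ((hT' _).2 (by
              have : (σ⁻¹ • W).under (𝓞 K) = W.under (𝓞 K) :=
                HeightOneSpectrum.ext (Ideal.under_smul _ _ _)
              rwa [this, hWu])) fun h => (Finset.mem_erase.1 hσ).1
                (inv_eq_one.1 (hst _ (congrArg HeightOneSpectrum.asIdeal h)))).trans_le (hN1 _)
            rwa [← val_smul σ, smul_inv_smul, map_sub, map_one] at h5
        have e : ∀ a b c : F, a * b - c = a * (b - 1) + (a - c) := fun a b c => by ring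
        rw [e]
        exact Valuation.map_add_lt _ (by rwa [map_mul, AlgEquiv.one_apply, hu3, one_mul]) hxW
      · have h4 := hu' w hw h
        have h5 : w.valuation K (N : K) ^ 2 ≤ 1 := pow_le_one' (val_nat_le w _) _
        have h6 : w.valuation K (u : K) = 1 := by
          simpa using Valuation.map_one_add_of_lt _ (h4.trans_le h5)
        have h7 := norm_deep w (c := (N : K) ^ 2) (by simpa using hN) (by rwa [map_pow]) u'
          fun V hV => by
            rw [map_pow, map_natCast, map_pow]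
            exact hxV V ((hT' V).2 (hV ▸ hw)) fun h' => h (by rw [← hV, h', hWu])
        rw [h6, div_one, ← sub_sub_sub_cancel_right _ _ 1]
        exact Valuation.map_sub_lt _ (by rwa [map_pow] at h7) h4
  rw [map_div, div_eq_one] at h3
  rw [← h3, h2]
  rfl

/-- **the tame reciprocity law** -/
theorem tame (hA : ArtStmt) {A : Type} [CommGroup A] {P : Place E}
    {ξ : (E ≃ₐ[K] E) →* A} (ho : IsOpen (ξ.ker : Set (E ≃ₐ[K] E))) {N : ℕ} (hN : N ≠ 0)
    (hξ : ∀ g, ξ g ^ N = 1) {T : Finset (Pr K)} {f : Pr K → A} (h1 : ∀ w ∈ T, f w = 1)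
    (hav : Av T f ξ) {π : K} {z : E} {t : E ≃ₐ[K] E} {u : Kˣ} (hT : pr K P ∈ T)
    (hPN : ¬ P.rchar ∣ N) (hπ : (pr K P).valuation K π = exp (-1 : ℤ))
    (hz : P.v z ^ (P.qv K - 1) = P.v (algebraMap K E π)) (ht : t ∈ P.ideal.inertia (E ≃ₐ[K] E))
    (hu : P.v (t z / z - algebraMap K E u) < 1)
    (hu' : ∀ w ∈ T, w ≠ pr K P → w.valuation K ((u : K) - 1) < w.valuation K (N : K) ^ 2) :
    ev f u = ξ t := by
  have hf : ∀ w, f w ∈ ξ.range := fun w => by
    by_cases hw : w ∈ T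
    · rw [h1 w hw]; exact one_mem _
    · obtain ⟨Q, rfl⟩ := exists_pr (E := E) w
      obtain ⟨φ, hφ⟩ := exists_isF (K := K) Q
      exact ⟨φ, hav Q hw φ hφ⟩
  have := Subgroup.quotient_finite_of_isOpen ξ.ker ho
  have : Finite ξ.range := Finite.of_equiv _ (QuotientGroup.quotientKerEquivRange ξ).toEquiv
  have : NeZero ((Monoid.exponent ξ.range : ℕ) : E) :=
    ⟨by exact_mod_cast Monoid.exponent_ne_zero_of_finite⟩
  let f' : Pr K → ξ.range := fun w => ⟨f w, hf w⟩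
  have key : ev f' u = ξ.rangeRestrict t := by
    by_contra hne
    obtain ⟨χ, hχ⟩ := CommGroup.exists_apply_ne_one_of_hasEnoughRootsOfUnity ξ.range E
      (div_ne_one.2 hne)
    refine hχ ?_
    rw [map_div, div_eq_one, map_ev]
    refine tame_units hA (ψ := χ.comp ξ.rangeRestrict) (Subgroup.isOpen_mono (fun g hg => ?_) ho) hN
      (fun g => ?_) (fun w hw => ?_) (fun Q hQ φ hφ => ?_) hT hPN hπ hz ht hu hu'
    · rw [MonoidHom.mem_ker, MonoidHom.comp_apply, show ξ.rangeRestrict g = 1 from Subtype.ext hg,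
        map_one]
    · rw [MonoidHom.comp_apply, ← map_pow, show ξ.rangeRestrict g ^ N = 1 from Subtype.ext (hξ g),
        map_one]
    · rw [show f' w = 1 from Subtype.ext (h1 w hw), map_one]
    · exact congrArg χ (Subtype.ext (hav Q hQ φ hφ))
  exact (map_ev ξ.range.subtype f' u).symm.trans (congrArg ξ.range.subtype key)

end main

theorem tameStmt (hA : ArtStmt) : C.TameStmt :=
  fun _ _ _ _ _ _ _ _ _ _ _ _ ho hN hξ h1 hav _ _ _ _ _ hT hPN hπ hz ht hu hu' =>
    tame hA ho hN hξ h1 hav hT hPN hπ hz ht hu hu'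

end Crest.Agent.T15.Tame
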