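import Crest.Agent.T15.Zer_7
import Crest.Agent.T15.Tame_25

/-!
# Row 15, block C: the output `TWStmt`
-/

set_option autoImplicit false

namespace Crest.Agent.T15.C

theorem twStmt_all : TWStmt := Zr.twStmt (Tame.tameStmt Art.artin)

end Crest.Agent.T15.C
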