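import Crest.Agent.T15.CDef_7

/-!
# Row 15, block C (helper25): the leaf `CubeStmt`
-/

set_option autoImplicit false

noncomputable section

namespace Crest.Agent.T15.C

open NumberField Module MulAction Crest.Agent.R018.Placesx484 IsDedekindDomain WithZero
open scoped Pointwise

section fin

variable {K L : Type*} [Field K] [NumberField K] [Field L] [NumberField L] [Algebra K L]

theorem val_le_iff' (w : HeightOneSpectrum (𝓞 K)) (Q : HeightOneSpectrum (𝓞 L))
    [Q.asIdeal.LiesOver w.asIdeal] (x y : K) :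
    Q.valuation L (algebraMap K L x) ≤ Q.valuation L (algebraMap K L y) ↔
      w.valuation K x ≤ w.valuation K y := by
  rw [← w.valuation_liesOver L Q, ← w.valuation_liesOver L Q, pow_le_pow_iff_left₀ zero_le zero_le
    (Ideal.IsDedekindDomain.ramificationIdx'_ne_zero_of_liesOver Q.asIdeal w.ne_bot)]

/-- an element integral at the primes dividing `m` has a denominator `≡ 1 mod m` -/
theorem exists_den (m : 𝓞 K) (c : K)
    (h : ∀ w : HeightOneSpectrum (𝓞 K), m ∈ w.asIdeal → w.valuation K c ≤ 1) :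
    ∃ s u : 𝓞 K, (1 + (m : K) * s) * c = u := by
  let J : Ideal (𝓞 K) :=
    { carrier := {d | ∃ u : 𝓞 K, (d : K) * c = u}
      zero_mem' := ⟨0, by simp⟩
      add_mem' := by
        rintro a b ⟨u, hu⟩ ⟨v, hv⟩
        exact ⟨u + v, by simp [add_mul, hu, hv]⟩
      smul_mem' := by
        rintro a b ⟨u, hu⟩
        exact ⟨a * u, by simp [mul_assoc, hu]⟩ }
  have hJ : J ⊔ Ideal.span {m} = ⊤ := by
    by_contra hne
    obtain ⟨W, hW, hle⟩ := Ideal.exists_le_maximal _ hne
    let Q : Place K := ⟨W, hW.isPrime, Ring.ne_bot_of_isMaximal_of_not_isField hW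
      (RingOfIntegers.not_isField K)⟩
    obtain ⟨u, d, hd, hu⟩ := (Q.v_le_one_iff c).1 ((Place.numberField_val_iff Q c).2
      (h _ (hle (Ideal.mem_sup_right (Ideal.mem_span_singleton_self m)))))
    exact hd (hle (Ideal.mem_sup_left ⟨u, by rw [mul_comm]; exact hu⟩))
  obtain ⟨d, ⟨u, hu⟩, e, he, h1⟩ := Submodule.mem_sup.1 ((Ideal.eq_top_iff_one _).1 hJ)
  obtain ⟨s, rfl⟩ := Ideal.mem_span_singleton'.1 he
  refine ⟨-s, u, ?_⟩
  rw [← hu, eq_sub_of_add_eq h1]
  simp [mul_comm, sub_eq_add_neg]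

/-- if the primes over `m` split completely, elements of `𝓞 L` are approximated from `𝓞 K` -/
theorem exists_approx_split [IsGalois K L] {m : 𝓞 K} (hm : m ≠ 0)
    (h : ∀ Q : Ideal (𝓞 L), Q.IsMaximal → algebraMap _ _ m ∈ Q → ∀ g : L ≃ₐ[K] L, g • Q = Q → g = 1)
    (z : 𝓞 L) {b : 𝓞 L} (hb : b ≠ 0) : ∃ x : 𝓞 K, ∀ w : HeightOneSpectrum (𝓞 K), m ∈ w.asIdeal →
      ∃ Q : HeightOneSpectrum (𝓞 L), Q.asIdeal.LiesOver w.asIdeal ∧
        Q.intValuation (algebraMap _ _ x - z) ≤ Q.intValuation b := by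
  classical
  have hex : ∀ w : Ideal (𝓞 K), ∃ (Q : Ideal (𝓞 L)) (n : ℕ), ∀ hw : w.IsMaximal,
      ∃ Q' : HeightOneSpectrum (𝓞 L), Q'.asIdeal = Q ∧ Q.LiesOver w ∧
        exp (-(n : ℤ)) ≤ Q'.intValuation b := fun w => by
    by_cases hw : w.IsMaximal
    · obtain ⟨Q, hQ, hQw⟩ := Ideal.exists_maximal_ideal_liesOver_of_isIntegral (S := 𝓞 L) w
      let Q' : HeightOneSpectrum (𝓞 L) := ⟨Q, hQ.isPrime, Ring.ne_bot_of_isMaximal_of_not_isField hQ
        (RingOfIntegers.not_isField L)⟩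
      have h0 : Q'.intValuation b ≠ 0 := Q'.intValuation_ne_zero b hb
      refine ⟨Q, (log (Q'.intValuation b)).natAbs, fun _ => ⟨Q', rfl, hQw, ?_⟩⟩
      rw [← exp_log h0, exp_le_exp, log_exp]
      omega
    · exact ⟨⊥, 0, fun h => absurd h hw⟩
  choose ch n hch using hex
  have hm' : algebraMap (𝓞 K) (𝓞 L) m ≠ 0 :=
    (map_ne_zero_iff _ (FaithfulSMul.algebraMap_injective _ _)).2 hm
  have hfin := Ideal.finite_factors (I := Ideal.span {algebraMap (𝓞 K) (𝓞 L) m})
    (by simpa using hm')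
  obtain ⟨y, hy⟩ := IsDedekindDomain.exists_forall_sub_mem_ideal (s := hfin.toFinset)
    (fun Q => Q.asIdeal) (fun Q => n (Q.asIdeal.under (𝓞 K))) (fun Q _ => Q.prime)
    (fun Q _ Q' _ hne h => hne (HeightOneSpectrum.ext h))
    (fun Q => if Q.1.asIdeal = ch (Q.1.asIdeal.under (𝓞 K)) then z else 0)
  have := Algebra.isInvariant_of_isGalois (𝓞 K) K L (𝓞 L)
  obtain ⟨x, hx⟩ := Algebra.IsInvariant.isInvariant (A := 𝓞 K) (G := L ≃ₐ[K] L)
    (∑ g : L ≃ₐ[K] L, g • y) fun g => by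
      rw [Finset.smul_sum]
      exact Fintype.sum_equiv (Equiv.mulLeft g) _ _ fun t => (mul_smul g t y).symm
  refine ⟨x, fun w hw => ?_⟩
  obtain ⟨Q, hQ, hQw, hn⟩ := hch w.asIdeal w.isMaximal
  rw [← hQ] at hQw
  refine ⟨Q, hQw, le_trans ((Q.intValuation_le_pow_iff_mem _ _).2 ?_) hn⟩
  have hmQ : algebraMap (𝓞 K) (𝓞 L) m ∈ Q.asIdeal := by
    rw [hQw.over] at hw; exact hw
  rw [hx, ← Finset.add_sum_erase _ _ (Finset.mem_univ 1), one_smul, add_sub_right_comm]
  refine add_mem ?_ (sum_mem fun g hg => ?_)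
  · have := hy Q (by simpa using hmQ)
    simp only [← hQw.over, ← hQ, if_true] at this
    exact this
  · have := Q.isMaximal
    let Q' : HeightOneSpectrum (𝓞 L) := ⟨g⁻¹ • Q.asIdeal, inferInstance, fun h0 => Q.ne_bot (by
      rw [← smul_inv_smul g Q.asIdeal, h0, Ideal.smul_bot])⟩
    have hu : Q'.asIdeal.under (𝓞 K) = w.asIdeal := (Ideal.under_smul _ _ _).trans hQw.over.symm
    have := hy Q' (by
      have : m ∈ Q'.asIdeal.under (𝓞 K) := hu ▸ hw
      simpa using this)
    simp only [hu, ← hQ] at this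
    rw [if_neg fun h0 => (Finset.mem_erase.1 hg).1 (inv_eq_one.1 (h _ Q.isMaximal hmQ g⁻¹ h0)),
      sub_zero] at this
    change y ∈ (g⁻¹ • Q.asIdeal) ^ _ at this
    rwa [← smul_pow', Ideal.mem_pointwise_smul_iff_inv_smul_mem, inv_inv] at this

end fin

theorem cube_int (K : Type) [Field K] [NumberField K] [Algebra K Om] {M : ℕ} {a : 𝓞 K} {z : Om}
    (hM : M ≠ 0) (hM1 : M ≠ 1) (ha : a ≠ 0) (hom : om ∈ (algebraMap K Om).range)
    (hz : z ^ 3 = algebraMap K Om a)
    (h : ∀ (P : Place Om) (g : Om ≃ₐ[K] Om), P.rchar ∣ M → g • P = P → g z = z) :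
    ∃ (x : K) (s t : 𝓞 K), x ≠ 0 ∧
      a * (1 + (M : K) * s) = x ^ 3 * (1 + (M : K) * t) ∧ 1 + (M : K) * s ≠ 0 := by
  have : IsGalois K Om := IsGalois.tower_top_of_isGalois ℚ K Om
  let L := IntermediateField.adjoin K {z}
  have : FiniteDimensional K L :=
    IntermediateField.adjoin.finiteDimensional (Algebra.IsIntegral.isIntegral z)
  have : NumberField L := NumberField.of_module_finite K L
  let z₀ : L := IntermediateField.AdjoinSimple.gen K z
  have ha' : (a : K) ≠ 0 := by simpa using ha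
  have hz0 : z ≠ 0 := by
    rintro rfl
    exact ha' ((map_eq_zero _).1 (by rw [← hz]; simp))
  have : Normal K L := IntermediateField.normal_iff_forall_map_le'.2 fun σ => by
    rw [IntermediateField.adjoin_map, IntermediateField.adjoin_le_iff]
    rintro _ ⟨y, hy, rfl⟩
    obtain rfl : z = y := hy.symm
    obtain ⟨i, -, hi⟩ := om_spec.eq_pow_of_pow_eq_one (ξ := σ z / z) (by
      rw [div_pow, ← map_pow, hz, AlgEquiv.commutes, div_self ((map_ne_zero _).2 ha')])
    obtain ⟨o, ho⟩ := hom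
    have h1 : σ z = om ^ i * z := by rw [hi, div_mul_cancel₀ _ hz0]
    change σ z ∈ L
    rw [h1, ← ho]
    exact mul_mem (pow_mem (L.algebraMap_mem o) _) z₀.2
  have : IsGalois K L := ⟨⟩
  have hz3 : z₀ ^ 3 = algebraMap K L a := Subtype.ext hz
  have hint : IsIntegral ℤ z₀ := IsIntegral.of_pow three_pos (by
    rw [hz3]; exact (RingOfIntegers.isIntegral_coe a).algebraMap)
  let z₁ : 𝓞 L := ⟨z₀, hint⟩
  have hz1 : z₁ ^ 3 = algebraMap _ _ a := RingOfIntegers.coe_injective hz3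
  have hM' : (M : 𝓞 K) ≠ 0 := by exact_mod_cast hM
  obtain ⟨x, hx⟩ := exists_approx_split (L := L) hM' (fun Q hQ hMQ g hg => by
    let Q' : Place L := ⟨Q, hQ.isPrime, Ring.ne_bot_of_isMaximal_of_not_isField hQ
      (RingOfIntegers.not_isField L)⟩
    obtain ⟨P, hP⟩ := Place.exists_res_eq (E := Om) L Q'
    obtain ⟨g', hg'⟩ := AlgEquiv.restrictNormalHom_surjective (F := K) (K₁ := L) Om g
    have hc : ∀ (u : Om ≃ₐ[K] Om) (y : L), u y = (u.restrictNormalHom L y : L) := fun u y =>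
      (u.restrictNormal_commutes L y).symm
    have h1 : (g' • P).res L = P.res L := by
      refine Place.ext (Ideal.ext fun y => ?_)
      have h2 : g'⁻¹ • algebraMap (𝓞 L) (𝓞 Om) y = algebraMap (𝓞 L) (𝓞 Om) (g⁻¹ • y) :=
        RingOfIntegers.coe_injective (by
          rw [← hg', ← map_inv]; exact hc g'⁻¹ y)
      rw [Place.mem_res, Place.mem_smul_ideal, h2, ← Place.mem_res, hP]
      change _ ∈ Q ↔ _ ∈ Q
      rw [← Ideal.mem_pointwise_smul_iff_inv_smul_mem, hg]
    obtain ⟨u, hu⟩ := Place.exists_smul_eq_of_res_eq _ _ h1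
    have hPM : P.rchar ∣ M := by
      rw [← Place.rchar_res L, hP, ← Place.natCast_mem_iff]
      simpa using hMQ
    have h3 := h P (u.restrictScalars K * g') hPM (by rw [mul_smul]; exact hu)
    have h4 : (g z₀ : Om) = z := by
      have := hc g' z₀
      rw [hg'] at this
      rw [← h3]
      change _ = u (g' z₀)
      rw [this]
      exact (u.commutes _).symm
    exact AlgEquiv.coe_toAlgHom_injective (IntermediateField.adjoin_algHom_ext K fun y hy => by
      obtain rfl : y = z := hy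
      exact Subtype.ext h4)) z₁ (b := algebraMap _ _ (a * M))
    ((map_ne_zero_iff _ (FaithfulSMul.algebraMap_injective _ _)).2 (mul_ne_zero ha hM'))
  have hMK : (M : K) ≠ 0 := by exact_mod_cast hM
  obtain ⟨s, u, hu⟩ := exists_den (M : 𝓞 K) (((x : K) ^ 3 - a) / (a * M)) fun w hw => by
    obtain ⟨Q, hQ, h1⟩ := hx w hw
    rw [map_div₀, div_le_one₀ (zero_lt_iff.2 ((map_ne_zero _).2 (mul_ne_zero ha' hMK))),
      ← val_le_iff' w Q]
    have h2 : Q.intValuation (algebraMap _ _ (x ^ 3 - a)) ≤ Q.intValuation (algebraMap _ _ (a * M)) := by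
      obtain ⟨c, hc⟩ := sub_dvd_pow_sub_pow (algebraMap _ _ x) z₁ 3
      rw [map_sub, map_pow, ← hz1, hc, map_mul]
      exact (mul_le_of_le_one_right' (Q.intValuation_le_one c)).trans h1
    rw [← Q.valuation_of_algebraMap (K := L), ← Q.valuation_of_algebraMap (K := L)] at h2
    have h3 : Q.valuation L (algebraMap K L (algebraMap (𝓞 K) K (x ^ 3 - a))) ≤
      Q.valuation L (algebraMap K L (algebraMap (𝓞 K) K (a * M))) := h2
    simpa only [map_sub, map_pow, map_mul, map_natCast] using h3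
  have h0 : 1 + (M : K) * ((s + u : 𝓞 K) : K) ≠ 0 := fun h0 => by
    have h1 : (M : 𝓞 K) * -(s + u) = 1 := RingOfIntegers.coe_injective (by
      simp only [map_mul, map_natCast, map_neg, map_one]
      linear_combination -h0)
    have h2 := congrArg (Algebra.norm ℤ) h1
    rw [map_mul, map_one, ← map_natCast (algebraMap ℤ (𝓞 K)), Algebra.norm_algebraMap] at h2
    have h3 := (isUnit_pow_iff finrank_pos.ne').1 (IsUnit.of_mul_eq_one _ h2)
    exact hM1 (by simpa using Int.isUnit_iff_natAbs_eq.1 h3)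
  have he : (a : K) * (1 + (M : K) * ((s + u : 𝓞 K) : K)) = (x : K) ^ 3 * (1 + (M : K) * s) := by
    simp only [map_natCast, map_add] at hu ⊢
    change (a : K) * (1 + (M : K) * (s + u)) = _
    rw [← hu]
    field_simp
    ring
  refine ⟨x, s + u, s, fun hx0 => mul_ne_zero ha' h0 ?_, he, h0⟩
  rw [he, hx0]; simp

theorem cubeStmt : CubeStmt := by
  intro K _ _ _ M a z hM ha hom hz h
  obtain ⟨u, v, hv, rfl⟩ := IsFractionRing.div_surjective (A := 𝓞 K) a
  have hv0 : v ≠ 0 := nonZeroDivisors.ne_zero hv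
  have hv' : algebraMap (𝓞 K) K v ≠ 0 := by simpa using hv0
  have hu0 : u ≠ 0 := by rintro rfl; simp at ha
  by_cases hM1 : M = 1
  · subst hM1
    refine ⟨1, v - 1, u - 1, one_ne_zero, ?_, by simpa using hv0⟩
    simp [div_mul_cancel₀ _ hv']
  obtain ⟨x, s, t, hx, he, h0⟩ := cube_int K (a := u * v ^ 2) (z := z * algebraMap K Om v) hM hM1
    (mul_ne_zero hu0 (pow_ne_zero _ hv0)) hom (by
      rw [mul_pow, hz, ← map_pow, ← map_mul]
      congr 1
      simp only [map_mul, map_pow]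
      field_simp)
    fun P g hP hg => by rw [map_mul, h P g hP hg, AlgEquiv.commutes]
  refine ⟨x / v, s, t, div_ne_zero hx hv', ?_, h0⟩
  simp only [map_mul, map_pow] at he
  field_simp
  linear_combination he

end Crest.Agent.T15.C
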