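import Mathlib

/-!
# Row 15: the predicate `Pz p y` (`y = 0 ∨ 0 < v_p y`) and its calculus (helper15)
-/

set_option autoImplicit false

namespace Crest.Agent.T15.Val

open WithZero

/-- `y` lies in the maximal ideal at `p` -/
def Pz (p : ℕ) (y : ℚ) : Prop := y = 0 ∨ 0 < padicValRat p y

variable {p : ℕ} {x y : ℚ}

theorem pv_eq [Fact p.Prime] (h : y ≠ 0) : Rat.padicValuation p y = exp (-padicValRat p y) := by
  simp [Rat.padicValuation, h]

theorem pz_iff_val [Fact p.Prime] : Pz p y ↔ Rat.padicValuation p y < 1 := by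
  by_cases h : y = 0
  · simp [Pz, h]
  · rw [pv_eq h, ← exp_zero, exp_lt_exp]; simp [Pz, h]

theorem pz_iff_norm [Fact p.Prime] : Pz p y ↔ ‖(y : ℚ_[p])‖ < 1 := by
  by_cases h : y = 0
  · simp [Pz, h]
  · have hp : (1 : ℝ) < p := by exact_mod_cast (Fact.out : p.Prime).one_lt
    rw [Padic.eq_padicNorm, padicNorm.eq_zpow_of_nonzero h]
    push_cast
    rw [zpow_lt_one_iff_right₀ hp]
    simp [Pz, h]

theorem pz_int (hp : p.Prime) {m : ℤ} : Pz p m ↔ (p : ℤ) ∣ m := by
  have := Fact.mk hp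
  rw [pz_iff_val, Rat.padicValuation_cast, Int.padicValuation_lt_one_iff]

theorem pz_nat (hp : p.Prime) {m : ℕ} : Pz p m ↔ p ∣ m := by
  rw [← Int.natCast_dvd_natCast, ← pz_int hp, Int.cast_natCast]

theorem Pz.add (hp : p.Prime) (hx : Pz p x) (hy : Pz p y) : Pz p (x + y) := by
  have := Fact.mk hp
  rw [pz_iff_val] at *
  exact Valuation.map_add_lt _ hx hy

theorem Pz.neg (hp : p.Prime) (hx : Pz p x) : Pz p (-x) := by
  have := Fact.mk hp
  rw [pz_iff_val] at *
  rwa [Valuation.map_neg]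

theorem Pz.sub (hp : p.Prime) (hx : Pz p x) (hy : Pz p y) : Pz p (x - y) :=
  sub_eq_add_neg x y ▸ hx.add hp (hy.neg hp)

theorem Pz.mul_of_le [Fact p.Prime] (hx : Pz p x) (hy : Rat.padicValuation p y ≤ 1) :
    Pz p (x * y) := by
  rw [pz_iff_val] at *
  rw [map_mul]
  exact lt_of_le_of_lt (mul_le_of_le_one_right' hy) hx

theorem Pz.mul (hp : p.Prime) (hx : Pz p x) (hy : Pz p y) : Pz p (x * y) :=
  have := Fact.mk hp
  hx.mul_of_le (pz_iff_val.1 hy).le

theorem Pz.mul_int (hp : p.Prime) (hx : Pz p x) (m : ℤ) : Pz p (x * m) :=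
  have := Fact.mk hp
  hx.mul_of_le (by rw [Rat.padicValuation_cast]; exact Int.padicValuation_le_one p m)

theorem not_pz_one : ¬ Pz p 1 := by simp [Pz]

theorem pz_iff_num (hp : p.Prime) : Pz p y ↔ (p : ℤ) ∣ y.num := by
  have := Fact.mk hp
  refine ⟨fun h => (pz_int hp).1 (by simpa [Rat.mul_den_eq_num] using h.mul_int hp y.den), fun h => ?_⟩
  have h1 : ¬ p ∣ y.den := fun h' => hp.one_lt.ne' (Nat.eq_one_of_dvd_coprimes y.reduced
    (Int.natCast_dvd.1 h) h')
  have h2 : Rat.padicValuation p (y.den : ℤ) = 1 := by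
    rw [Rat.padicValuation_cast, Int.padicValuation_eq_one_iff]; exact_mod_cast h1
  have h3 := pz_iff_val.1 ((pz_int hp).2 h)
  rw [← Rat.mul_den_eq_num, map_mul, ← Int.cast_natCast, h2, mul_one] at h3
  exact pz_iff_val.2 h3

/-- the primes at which `w` has odd valuation form a finite set -/
theorem finite_odd (w : ℚ) : {p : ℕ | p.Prime ∧ Odd (padicValRat p w)}.Finite := by
  by_cases hw : w = 0
  · simp [hw]
  refine (w.num.natAbs * w.den).primeFactors.finite_toSet.subset fun p ⟨hp, ho⟩ => ?_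
  have h0 : w.num.natAbs * w.den ≠ 0 := mul_ne_zero (by simpa using hw) w.den_nz
  refine Finset.mem_coe.2 (Nat.mem_primeFactors.2 ⟨hp, ?_, h0⟩)
  by_contra h
  have h1 : padicValNat p w.den = 0 := padicValNat.eq_zero_of_not_dvd fun h' => h (h'.mul_left _)
  have h2 : padicValNat p w.num.natAbs = 0 :=
    padicValNat.eq_zero_of_not_dvd fun h' => h (h'.mul_right _)
  simp [padicValRat, padicValInt, h1, h2] at ho

theorem odd_prime {l : ℕ} (hl : l.Prime) (hp : p.Prime) : Odd (padicValRat p l) ↔ p = l := by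
  have := Fact.mk hl
  have := Fact.mk hp
  refine ⟨fun h => by_contra fun e => ?_, fun e => e ▸ by rw [padicValRat.self hp.one_lt]; exact odd_one⟩
  rw [padicValRat.of_nat, padicValNat_primes e] at h
  exact absurd h (by decide)

/-- a value of the cyclotomic polynomial in the maximal ideal forces `p ≡ 1 mod M` -/
theorem modEq_of_cyc (hp : p.Prime) {M : ℕ} (hM : 0 < M) (hpM : ¬ p ∣ M) {z : ℚ}
    (h : Pz p (Polynomial.aeval z (Polynomial.cyclotomic M ℤ))) : p ≡ 1 [MOD M] := by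
  have := Fact.mk hp
  open Polynomial in
  have e : ((aeval z (cyclotomic M ℤ) : ℚ) : ℚ_[p]) = aeval (z : ℚ_[p]) (cyclotomic M ℤ) :=
    (Polynomial.aeval_algHom_apply (Rat.castHom ℚ_[p]).toIntAlgHom z _).symm
  rw [pz_iff_norm, e] at h
  open Polynomial in
  have h1 : IsIntegral ℤ_[p] (z : ℚ_[p]) := by
    refine ⟨cyclotomic M ℤ_[p] - C ⟨_, h.le⟩, (cyclotomic.monic M _).sub_of_left
      (lt_of_le_of_lt degree_C_le (degree_cyclotomic_pos M _ hM)), ?_⟩
    rw [eval₂_sub, eval₂_C, ← map_cyclotomic_int, eval₂_map, sub_eq_zero]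
    exact congrArg (fun f => eval₂ f _ _) (Subsingleton.elim _ _)
  obtain ⟨u, hu⟩ := IsIntegrallyClosed.isIntegral_iff.1 h1
  have : NeZero (M : ZMod p) := ⟨by rwa [Ne, ZMod.natCast_eq_zero_iff]⟩
  open Polynomial in
  have h2 : IsRoot (cyclotomic M (ZMod p)) (PadicInt.toZMod u) := by
    have h3 : PadicInt.toZMod (aeval u (cyclotomic M ℤ)) = 0 := by
      rw [← RingHom.mem_ker, PadicInt.ker_toZMod, IsLocalRing.mem_maximalIdeal,
        PadicInt.mem_nonunits, PadicInt.norm_def]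
      rw [← hu] at h
      exact (congrArg _ (Polynomial.aeval_algHom_apply
        (algebraMap ℤ_[p] ℚ_[p]).toIntAlgHom u _)).symm.trans_lt h
    rw [IsRoot, ← map_cyclotomic_int, ← algebraMap_int_eq, eval_map_algebraMap]
    exact (Polynomial.aeval_algHom_apply (PadicInt.toZMod (p := p)).toIntAlgHom u _).trans h3
  have h4 := Polynomial.isRoot_cyclotomic_iff.1 h2
  have h5 := h4.dvd_of_pow_eq_one _ (ZMod.pow_card_sub_one_eq_one (h4.ne_zero hM.ne'))
  exact ((Nat.modEq_iff_dvd' hp.one_le).2 h5).symm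

theorem exists_cyc (hp : p.Prime) {M : ℕ} (hM : 0 < M) (h : p ≡ 1 [MOD M]) :
    ∃ z : ℚ, Pz p (Polynomial.aeval z (Polynomial.cyclotomic M ℤ)) := by
  have := Fact.mk hp
  have h1 : M ∣ Nat.card (ZMod p)ˣ := by
    rw [Nat.card_eq_fintype_card, ZMod.card_units]
    exact (Nat.modEq_iff_dvd' hp.one_le).1 h.symm
  obtain ⟨g, hg⟩ := IsCyclic.exists_ofOrder_eq_natCard (α := (ZMod p)ˣ)
  have h2 : orderOf (g ^ (Nat.card (ZMod p)ˣ / M)) = M := by
    rw [← hg] at h1 ⊢
    exact orderOf_pow_orderOf_div (orderOf_pos g).ne' h1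
  have h3 := (IsPrimitiveRoot.coe_units_iff.2 (h2 ▸ IsPrimitiveRoot.orderOf _)).isRoot_cyclotomic hM
  obtain ⟨z, hz⟩ := ZMod.intCast_surjective ((g ^ (Nat.card (ZMod p)ˣ / M) : (ZMod p)ˣ) : ZMod p)
  refine ⟨z, ?_⟩
  have e : ∀ (R : Type) [CommRing R], Polynomial.aeval (z : R) (Polynomial.cyclotomic M ℤ) =
      ((Polynomial.aeval z (Polynomial.cyclotomic M ℤ) : ℤ) : R) := fun R _ =>
    Polynomial.aeval_algHom_apply (Int.castRingHom R).toIntAlgHom z _
  rw [e, pz_int hp, ← ZMod.intCast_zmod_eq_zero_iff_dvd, ← e, hz, ← Polynomial.eval_map_algebraMap,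
    algebraMap_int_eq, Polynomial.map_cyclotomic_int]
  exact h3

end Crest.Agent.T15.Val
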