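import Crest.Agent.T15.Top_88
import Crest.Agent.T15.Val_15
import Crest.Agent.T24.HilD_56

/-!
# Row 15: the maximal ideal at a fixed prime is Diophantine over `ℚ` (`QFix`) (helper15)

A quaternion algebra `(a, -l)` ramified exactly at `l` and `∞`; the form `⟨1, l, -a, a e⟩` is
isotropic iff `e > 0` and `-l e` is not a square at `l`.
-/

set_option autoImplicit false

namespace Crest.Agent.T15.Zl

open Crest.Agent.T24 Hn Hil WithZero Val

theorem exists_pl (l : ℕ) [Fact l.Prime] : ∃ v : Pl ℚ, ∀ x : ℚˣ, x ∈ Sq v ↔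
    ∃ y : ℚ, Rat.padicValuation l ((x : ℚ) * y ^ 2 - 1) < Rat.padicValuation l 4 := by
  obtain ⟨v, hv⟩ := (Rat.HeightOneSpectrum.primesEquiv (R := NumberField.RingOfIntegers ℚ)).surjective
    ⟨l, Fact.out⟩
  obtain rfl : (Rat.HeightOneSpectrum.primesEquiv v).1 = l := congrArg Subtype.val hv
  exact ⟨v, fun x => exists_congr fun y =>
    (Rat.HeightOneSpectrum.valuation_equiv_padicValuation v).lt_iff_lt⟩

theorem exists_T (l : ℕ) [Fact l.Prime] : ∃ T : ℚ → Prop, Dio T ∧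
    (∀ t, Rat.padicValuation l t ≤ 1 → T t) ∧
    ∀ t, T t → Rat.padicValuation l (16 * l * t ^ 2) ≤ 1 := by
  have hl : l.Prime := Fact.out
  have hl1 : (1 : ℚ) < l := by exact_mod_cast hl.one_lt
  obtain ⟨v, hv⟩ := exists_pl l
  set w := Rat.padicValuation l with hw
  have wl : w l < 1 := by rw [hw, Rat.padicValuation_self, ← exp_zero, exp_lt_exp]; decide
  have w4 : 0 < w 4 := zero_lt_iff.2 (by simp)
  have w4l : w (4 * l) < w 4 := by rw [map_mul]; exact mul_lt_of_lt_one_right w4 wl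
  have w41 : w 4 ≤ 1 := by exact_mod_cast Int.padicValuation_le_one l 4
  let d : ℚˣ := Units.mk0 (-l) (by simp [hl.ne_zero])
  have hd : d ∉ SqP (.inl v) := fun h => by
    obtain ⟨y, hy⟩ := (hv d).1 h
    have h1 : w (d * y ^ 2) = 1 := by simpa using w.map_one_add_of_lt (hy.trans_le w41)
    have hy0 : y ≠ 0 := by rintro rfl; simp at h1
    rw [map_mul, map_pow, Units.val_mk0, Valuation.map_neg, hw, Rat.padicValuation_self, pv_eq hy0,
      ← exp_nsmul, ← exp_add, ← exp_zero, exp_inj, nsmul_eq_mul] at h1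
    omega
  let φ : ℚ →+* ℝ := Rat.castHom ℝ
  have hd' : d ∉ SqP (.inr φ) := notMem_Pos.2 (by simpa [d, φ] using hl.pos)
  obtain ⟨c1, hc1⟩ := exists_hil_neg hd
  obtain ⟨c2, hc2⟩ := exists_hil_neg hd'
  classical
  obtain ⟨a, ha1, ha2⟩ := preStmt ℚ d {.inl v, .inr φ} (Sum.elim (fun _ => c1) fun _ => c2)
    (by rw [Finset.prod_pair (by simp)]; simp [hc1, hc2])
  have ha : hil (.inl v) a d = -1 := (hil_congr_left (ha1 _ (by simp)) d).trans hc1
  let κ : ℚ := 4 * l * (4 * l - 1)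
  have hκ : 0 < κ := mul_pos (by linarith) (by linarith)
  have he : ∀ t : ℚ, 0 < 1 + κ * t ^ 2 := fun t => by positivity
  let e : ℚ → ℚˣ := fun t => Units.mk0 _ (he t).ne'
  refine ⟨fun t => ∃ u : ℚ × ℚ × ℚ × ℚ, u.1 ^ 2 - (1 + κ * t ^ 2) * u.2.1 ^ 2 ≠ 0 ∧
    a * (u.1 ^ 2 - (1 + κ * t ^ 2) * u.2.1 ^ 2) = u.2.2.1 ^ 2 - d * u.2.2.2 ^ 2,
    .ex (.and (.ne_zero (by fun_prop)) (.eq (by fun_prop) (by fun_prop))), fun t ht => ?_, ?_⟩
  · obtain ⟨c, ⟨x, y, h1⟩, x', y', h2⟩ := hm4 a d (e t) fun p => by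
      by_cases hp : p ∈ ({.inl v, .inr φ} : Finset (Pc ℚ))
      · refine ⟨a⁻¹, (LNP_eq_top (d := e t) ?_).symm ▸ trivial, by simp⟩
        simp only [Finset.mem_insert, Finset.mem_singleton] at hp
        rcases hp with rfl | rfl
        · refine (hv _).2 ⟨1, ?_⟩
          have : ((e t : ℚˣ) : ℚ) * 1 ^ 2 - 1 = 4 * l * (((4 * l - 1 : ℤ) : ℚ) * t ^ 2) := by
            simp only [e, κ, Units.val_mk0]; push_cast; ring
          rw [this, map_mul]
          refine lt_of_le_of_lt (mul_le_of_le_one_right' ?_) w4l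
          rw [map_mul, map_pow]
          exact mul_le_one' (Int.padicValuation_le_one l _) (pow_le_one' ht 2)
        · exact mem_Pos.2 (Rat.cast_pos.2 (he t))
      · exact ⟨1, one_mem _, by simpa using hil_eq_one.1 (ha2 p hp)⟩
    refine ⟨(x, y, x', y'), ?_, ?_⟩
    · exact (h1.symm.trans_ne c.ne_zero :)
    · exact (congrArg ((a : ℚ) * ·) h1).symm.trans h2
  · rintro t ⟨⟨x, y, x', y'⟩, h0, h1⟩
    by_contra h
    rw [not_le] at h
    have ht : t ≠ 0 := by rintro rfl; simp at h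
    have h2 : d * e t ∈ SqP (.inl v) := (hv _).2 ⟨(2 * l * t)⁻¹, by
      have : ((d * e t : ℚˣ) : ℚ) * (2 * l * t)⁻¹ ^ 2 - 1 = -(4 * (16 * l * t ^ 2)⁻¹ + 4 * l) := by
        simp only [d, e, κ, Units.val_mul, Units.val_mk0]; field_simp; ring
      rw [this, Valuation.map_neg]
      refine w.map_add_lt ?_ w4l
      rw [map_mul, map_inv₀]
      exact mul_lt_of_lt_one_right w4 (inv_lt_one_of_one_lt₀ h)⟩
    let c : ℚˣ := Units.mk0 _ h0
    have h3 : hil (.inl v) c (e t) = 1 := hil_of_nr ⟨x, y, rfl⟩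
    have h4 : hil (.inl v) (a * c) d = 1 := hil_of_nr ⟨x', y', h1⟩
    have h5 := hil_of_sq_right c h2
    rw [hil_mul_right, h3, mul_one] at h5
    rw [hil_mul_left, ha, h5] at h4
    exact absurd h4 (by decide)

/-- `y = 0 ∨ 0 < v_l y` is Diophantine for every fixed prime `l` -/
theorem dio_pz {l : ℕ} (hl : l.Prime) : Dio (Pz l) := by
  have := Fact.mk hl
  obtain ⟨T, hT, h1, h2⟩ := exists_T l
  have hl0 : (l : ℚ) ≠ 0 := by exact_mod_cast hl.ne_zero
  refine (hT.comp (g := fun y : ℚ => (y / l) ^ 3) (by fun_prop)).congr fun y => ⟨fun h => ?_, fun h => ?_⟩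
  · refine or_iff_not_imp_left.2 fun hy => ?_
    have h3 := h2 _ h
    have h4 : padicValRat l 2 ≤ 1 := by
      have : padicValNat l 2 ≤ 1 := by
        by_contra h
        have := Nat.le_of_dvd two_pos (pow_dvd_pow l (not_le.1 h) |>.trans pow_padicValNat_dvd)
        nlinarith [hl.two_le]
      rw [← Nat.cast_ofNat, padicValRat.of_nat]; exact_mod_cast this
    have e : (16 : ℚ) = 2 ^ 4 := by norm_num
    simp only [e, map_mul, map_pow, map_div₀, Rat.padicValuation_self, pv_eq hy,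
      pv_eq (two_ne_zero (α := ℚ)), ← exp_sub, ← exp_nsmul, ← exp_add, nsmul_eq_mul] at h3
    rw [← exp_zero, exp_le_exp] at h3
    omega
  · refine h1 _ ?_
    rw [map_pow, map_div₀, Rat.padicValuation_self]
    refine pow_le_one' (div_le_one_of_le₀ ?_ zero_le) 3
    rcases eq_or_ne y 0 with rfl | hy
    · simp
    · have := h.resolve_left hy
      rw [pv_eq hy, exp_le_exp]; omega

theorem qFix {l : ℕ} (hl : l.Prime) : Top.QFix l := dio_pz hl

/-- block Q only has to deal with primes `> 3` -/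
theorem q_of_q1 (h : Top.Q1Stmt) : Top.QStmt := Top.q_of h (qFix Nat.prime_two) (qFix Nat.prime_three)

/-- `v_l y ≥ k` -/
theorem dio_le_val {l : ℕ} (hl : l.Prime) (k : ℤ) : Dio fun y : ℚ => y = 0 ∨ k ≤ padicValRat l y := by
  have := Fact.mk hl
  have hl0 : (l : ℚ) ^ (1 - k) ≠ 0 := zpow_ne_zero _ (by exact_mod_cast hl.ne_zero)
  refine ((dio_pz hl).comp (g := fun y : ℚ => y * l ^ (1 - k)) (by fun_prop)).congr fun y => ?_
  rcases eq_or_ne y 0 with rfl | hy
  · simp [Pz]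
  · simp only [Pz, mul_eq_zero, hy, hl0, false_or]
    rw [padicValRat.mul hy hl0, padicValRat.zpow, padicValRat.self hl.one_lt]
    omega

end Crest.Agent.T15.Zl
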