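import Crest.Agent.T15.Fin_15
import Crest.Agent.T15.Zl_15
import Crest.Agent.T15.PrAP_15

/-!
# Row 15, block L: the size certificate from Q, H and long progressions of primes (helper15)
-/

set_option autoImplicit false

namespace Crest.Agent.T15.Cert

open Val LDef Height _root_.Crest.Agent.T15.Top

theorem vis_ap (H : PrAP.APStmt) {M : ℕ} (hM : 0 < M) (h24 : 24 ∣ M) (h17 : ¬ 17 ∣ M) (k B : ℕ) :
    ∃ x d : ℕ, 0 < d ∧ B < x ∧ ∀ i < k, Vis (x + i * d) ∧ x + i * d ≡ 1 [MOD M] := by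
  have hc : M.Coprime 17 := ((Nat.Prime.coprime_iff_not_dvd (by norm_num)).2 h17).symm
  obtain ⟨t, h1, h2⟩ := Nat.chineseRemainder hc 1 3
  have : NeZero (M * 17) := ⟨by omega⟩
  have hu : IsUnit (t : ZMod (M * 17)) := (ZMod.isUnit_iff_coprime _ _).2 (Nat.Coprime.mul_right
    (by rw [Nat.Coprime, h1.gcd_eq, Nat.gcd_one_left]) (by rw [Nat.Coprime, h2.gcd_eq]; norm_num))
  obtain ⟨x, d, hd, hx, h⟩ := PrAP.prime_ap H hu k B
  refine ⟨x, d, hd, hx, fun i hi => ?_⟩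
  have h3 := (ZMod.natCast_eq_natCast_iff _ _ _).1 (h i hi).2
  have h4 := (h3.of_mul_right 17).trans h1
  exact ⟨⟨(h i hi).1, h4.of_dvd h24, (h3.of_mul_left M).trans h2⟩, h4⟩

variable (D : Nb) (J : ℚ × ℚ → Prop)

theorem fm_add (j : Fin D.m) (b t : ℚ) : D.fm j (b + t) = D.fm j b + D.c j * t := by
  simp only [Nb.fm]; ring

theorem polM_fm (j : Fin D.m) : PolM (D.fm j) := by unfold Nb.fm; fun_prop

/-- the certificate for one point `y` -/
def Cy (y : ℚ) (w : Fin (D.m + 1) → ℚ) : Prop :=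
  (D.b - D.δ < y ∧ y < D.b + D.δ) ∧
  (∀ p ∈ D.M.primeFactors, y - D.b = 0 ∨ (padicValNat p D.M : ℤ) ≤ padicValRat p (y - D.b)) ∧
  w (Fin.last _) ≠ 0 ∧ (∀ j : Fin D.m, D.fm j y * w (Fin.last _) = D.fm j D.b * w j.castSucc) ∧
  ∀ j, ∃ z : ℚ, J (w j, Polynomial.aeval z (Polynomial.cyclotomic D.M ℤ))

variable {J}

theorem dio_cy (dJ : Dio J) : Dio fun q : ℚ × (Fin (D.m + 1) → ℚ) => Cy D J q.1 q.2 :=
  .and (.and (.lt (by fun_prop) (by fun_prop)) (.lt (by fun_prop) (by fun_prop)))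
    (.and (.forall_mem _ fun p hp => (Zl.dio_le_val (Nat.prime_of_mem_primeFactors hp) _).comp
      (g := fun q : ℚ × (Fin (D.m + 1) → ℚ) => q.1 - D.b) (by fun_prop))
    (.and (.ne_zero (by fun_prop)) (.and
      (.forall_fin fun j => .eq (.mul ((polM_fm D j).comp (by fun_prop)) (by fun_prop)) (by fun_prop))
      (.forall_fin fun j => .ex (dJ.comp (.prodMk (by fun_prop) (.aeval_poly _ (by fun_prop))))))))

theorem cy_side (sJ : ∀ w y, J (w, y) → InJ w y) {y : ℚ} {w : Fin (D.m + 1) → ℚ} (h : Cy D J y w)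
    {S : Finset ℕ} (hS : ∀ p ∈ S, p.Prime)
    (hS' : ∀ p : ℕ, p.Prime → ∀ j, Odd (padicValRat p (w j)) → p ∈ S) :
    Side D y (S.filter fun p => p ≡ 1 [MOD D.M]) := by
  obtain ⟨⟨h1, h2⟩, h3, h4, h5, h6⟩ := h
  refine ⟨abs_lt.2 ⟨by linarith, by linarith⟩, fun p hp hd => (h3 p (Nat.mem_primeFactors.2
    ⟨hp, hd, D.hM.ne'⟩)).imp_left sub_eq_zero.1, fun p hp => hS p (Finset.mem_filter.1 hp).1,
    fun p hp => (Finset.mem_filter.1 hp).2, fun p hp hd hn j => ?_⟩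
  have := Fact.mk hp
  have he : ∀ i, Even (padicValRat p (w i)) := fun i => Int.not_odd_iff_even.1 fun ho => by
    obtain ⟨z, hz⟩ := h6 i
    exact hn (Finset.mem_filter.2 ⟨hS' p hp i ho, modEq_of_cyc hp D.hM hd (sJ _ _ hz p hp ho)⟩)
  by_cases h0 : D.fm j y = 0
  · simp [h0]
  have h7 : w j.castSucc ≠ 0 := fun h => mul_ne_zero h0 h4 (by rw [h5, h, mul_zero])
  have h8 := congrArg (padicValRat p) (h5 j)
  rw [padicValRat.mul h0 h4, padicValRat.mul (q := D.fm j D.b) (D.ne j) h7,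
    show padicValRat p (D.fm j D.b) = 0 from D.unit p hp hd j, zero_add] at h8
  rw [eq_sub_of_add_eq h8]
  exact (he _).sub (he _)

theorem exists_mult : ∃ (N0 : ℕ) (n : Fin D.m → ℤ), 0 < N0 ∧
    ∀ j, (n j : ℚ) * D.fm j D.b = D.c j * (D.M * N0) := by
  have : ∀ j : Fin D.m, ∃ n : ℤ, (n : ℚ) * D.fm j D.b = D.c j * (D.M * (∏ i, (D.fm i D.b)⁻¹.den : ℕ)) := by
    intro j
    obtain ⟨t, ht⟩ := Finset.dvd_prod_of_mem (fun i => (D.fm i D.b)⁻¹.den) (Finset.mem_univ j)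
    refine ⟨D.c j * D.M * t * (D.fm j D.b)⁻¹.num, ?_⟩
    have : D.fm j D.b ≠ 0 := D.ne j
    rw [ht]
    push_cast
    rw [← Rat.mul_den_eq_num]
    field_simp
  choose n hn using this
  exact ⟨_, n, Finset.prod_pos fun _ _ => Rat.den_pos _, hn⟩

theorem cy_complete (cJ : ∀ l : ℕ, l.Prime → l % 8 = 1 → ∀ y, InJ l y → J ((l : ℚ), y)) {N0 : ℕ} {n : Fin D.m → ℤ}
    (hn : ∀ j, (n j : ℚ) * D.fm j D.b = D.c j * (D.M * N0)) {x d m : ℕ} (hx : 0 < x)
    (h : ∀ i < 2 * m + 1, Vis (x + i * d) ∧ x + i * d ≡ 1 [MOD D.M]) {a : ℤ}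
    (h1 : (|a| : ℚ) * (D.M * N0) < D.δ * m) (h2 : ∀ j, |a * n j| ≤ m) :
    ∃ w : Fin (D.m + 1) → ℕ, (∀ j, Vis (w j) ∧ x ≤ w j) ∧
      Cy D J (D.b + a * (D.M * N0 * d / (x + m * d : ℕ))) fun j => w j := by
  let i : Fin (D.m + 1) → ℕ := Fin.snoc (α := fun _ => ℕ) (fun j => (m + a * n j).toNat) m
  have i4 : i (Fin.last _) = m := by simp [i]
  have ij : ∀ j : Fin D.m, (i j.castSucc : ℤ) = m + a * n j := fun j => by
    simp only [i, Fin.snoc_castSucc]
    exact Int.toNat_of_nonneg (by linarith [neg_abs_le (a * n j), h2 j])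
  have hi : ∀ j, i j < 2 * m + 1 := fun j => by
    refine Fin.lastCases (by omega) (fun j => ?_) j
    have := ij j
    have := (le_abs_self _).trans (h2 j)
    omega
  set A := x + m * d with hA
  have hA0 : (0 : ℚ) < A := by exact_mod_cast (by omega : 0 < A)
  have hAp := h m (by omega)
  have hr : |a * (D.M * N0 * d / A : ℚ)| < D.δ := by
    rw [abs_mul, abs_of_nonneg (a := (_ / _ : ℚ)) (by positivity), ← mul_div_assoc, div_lt_iff₀ hA0, hA,
      ← mul_assoc]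
    have := mul_le_mul_of_nonneg_right h1.le (Nat.cast_nonneg (α := ℚ) d)
    have := mul_pos D.hδ (Nat.cast_pos.2 hx)
    push_cast
    nlinarith
  refine ⟨fun j => x + i j * d, fun j => ⟨(h _ (hi j)).1, Nat.le_add_right _ _⟩,
    ⟨by linarith [(abs_lt.1 hr).1], by linarith [(abs_lt.1 hr).2]⟩, fun p hp => ?_, by simpa only [i4] using hA0.ne',
    fun j => ?_, fun j => ?_⟩
  · obtain ⟨hp, hd, -⟩ := Nat.mem_primeFactors.1 hp
    have := Fact.mk hp
    have := Fact.mk hAp.1.1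
    have e : D.b + a * (D.M * N0 * d / A : ℚ) - D.b = D.M * ((a * N0 * d : ℤ) : ℚ) / A := by
      push_cast; ring
    rw [e]
    refine or_iff_not_imp_left.2 fun h0 => ?_
    have h3 := left_ne_zero_of_mul (div_eq_mul_inv _ (A : ℚ) ▸ h0)
    have h4 : p ≠ A := fun e => hp.one_lt.ne' (Nat.dvd_one.1
      (((hAp.2.of_dvd hd).dvd_iff dvd_rfl).1 (e ▸ dvd_rfl)))
    rw [padicValRat.div h3 hA0.ne', padicValRat.mul (left_ne_zero_of_mul h3) (right_ne_zero_of_mul h3),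
      padicValRat.of_nat, padicValRat.of_nat, padicValRat.of_int, padicValNat_primes h4]
    omega
  · have e : ((x + i j.castSucc * d : ℕ) : ℚ) = A + a * n j * d := by
      have : ((x + i j.castSucc * d : ℕ) : ℤ) = A + a * n j * d := by
        rw [hA]; push_cast; rw [ij]; ring
      exact_mod_cast this
    simp only [i4, ← hA]
    rw [e, fm_add]
    field_simp
    linear_combination -(a * d) * hn j
  · obtain ⟨z, hz⟩ := exists_cyc (h _ (hi j)).1.1 D.hM (h _ (hi j)).2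
    exact ⟨z, cJ _ (h _ (hi j)).1.1 ((h _ (hi j)).1.2.1.of_dvd (by decide : 8 ∣ 24)) _ ((inJ_prime (h _ (hi j)).1.1 _).2 hz)⟩

theorem szStmt_of (H : PrAP.APStmt) (hQ : QStmt) (hH : HStmt) : SzStmt := by
  obtain ⟨J, dJ, sJ, cJ⟩ := hQ
  obtain ⟨D, C, k, hH⟩ := hH
  let c : ℝ := totalWeight ℚ * Real.log 2 + logHeight₁ D.b
  have hc : 0 ≤ c := by have := Real.log_nonneg one_le_two; positivity
  refine ⟨(D.m + 1) + (D.m + 1), fun r w => ∃ y : ℚ × ℚ, (Cy D J y.1 fun j => w (Fin.castAdd _ j)) ∧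
    (Cy D J y.2 fun j => w (Fin.natAdd _ j)) ∧ y.2 - D.b ≠ 0 ∧ r * (y.2 - D.b) = y.1 - D.b,
    2 * (c + |C|), k, .ex (.and ((dio_cy D dJ).comp
      (g := fun q : (ℚ × (Fin ((D.m + 1) + (D.m + 1)) → ℚ)) × ℚ × ℚ => (q.2.1, fun j => q.1.2 (Fin.castAdd _ j)))
      (by fun_prop)) (.and ((dio_cy D dJ).comp
      (g := fun q : (ℚ × (Fin ((D.m + 1) + (D.m + 1)) → ℚ)) × ℚ × ℚ => (q.2.2, fun j => q.1.2 (Fin.natAdd _ j)))
      (by fun_prop)) (.and (.ne_zero (by fun_prop)) (.eq (by fun_prop) (by fun_prop))))), ?_, ?_⟩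
  · rintro r w ⟨⟨y1, y2⟩, h1, h2, h3, h4⟩ S hS hS'
    have hP : 1 ≤ ∏ p ∈ S, (p : ℝ) := Finset.one_le_prod fun p hp => by exact_mod_cast (hS p hp).one_le
    have key : ∀ y (u : Fin (D.m + 1) → ℚ), Cy D J y u →
        (∀ p : ℕ, p.Prime → ∀ j, Odd (padicValRat p (u j)) → p ∈ S) →
        logHeight₁ (y - D.b) ≤ (c + |C|) * (∏ p ∈ S, (p : ℝ)) ^ k := fun y u hy hu => by
      have e1 : logHeight₁ y ≤ |C| * (∏ p ∈ S, (p : ℝ)) ^ k := by
        refine (hH _ _ (cy_side D sJ hy hS hu)).trans ?_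
        gcongr
        · exact le_abs_self C
        · exact fun p hp _ => by exact_mod_cast (hS p hp).one_le
        · exact Finset.filter_subset _ _
      have e2 := logHeight₁_sub_le y D.b
      have e3 := le_mul_of_one_le_right hc (one_le_pow₀ (n := k) hP)
      simp only [c] at e3 ⊢
      linarith
    have e1 := key _ _ h1 fun p hp j => hS' p hp _
    have e2 := key _ _ h2 fun p hp j => hS' p hp _
    have e3 := logHeight₁_mul_le (y1 - D.b) (y2 - D.b)⁻¹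
    rw [logHeight₁_inv, ← div_eq_mul_inv, ← eq_div_of_mul_eq h3 h4] at e3
    linarith
  · intro r B
    obtain ⟨N0, n, hN, hn⟩ := exists_mult D
    let T : ℤ := |r.num| + r.den
    obtain ⟨m, hm⟩ := exists_nat_gt (max ((T : ℚ) * (D.M * N0) / D.δ) ((T * ∑ j, |n j| : ℤ) : ℚ))
    obtain ⟨x, d, hd, hx, h⟩ := vis_ap H D.hM D.h24 D.h17 (2 * m + 1) B
    have key : ∀ a : ℤ, |a| ≤ T → ∃ w : Fin (D.m + 1) → ℕ, (∀ j, Vis (w j) ∧ x ≤ w j) ∧
        Cy D J (D.b + a * (D.M * N0 * d / (x + m * d : ℕ))) fun j => w j := fun a ha => by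
      refine cy_complete D cJ hn (by omega) h ?_ fun j => ?_
      · have := (div_lt_iff₀' D.hδ).1 ((le_max_left _ _).trans_lt hm)
        refine lt_of_le_of_lt ?_ this
        gcongr
        exact_mod_cast ha
      · have : T * ∑ j, |n j| < m := by exact_mod_cast (le_max_right _ _).trans_lt hm
        rw [abs_mul]
        exact (mul_le_mul ha (Finset.single_le_sum (fun i _ => abs_nonneg (n i)) (Finset.mem_univ j))
          (abs_nonneg _) ((abs_nonneg _).trans ha)).trans this.le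
    obtain ⟨w1, a1, b1⟩ := key r.num (by simp [T])
    obtain ⟨w2, a2, b2⟩ := key r.den (by simp [T])
    refine ⟨Fin.append w1 w2, fun j => ?_, (_, _), by simpa only [Fin.append_left] using b1,
      by simpa only [Fin.append_right] using b2, ?_, ?_⟩
    · refine Fin.addCases (fun j => ?_) (fun j => ?_) j
      · rw [Fin.append_left]; exact ⟨(a1 j).1, hx.trans_le (a1 j).2⟩
      · rw [Fin.append_right]; exact ⟨(a2 j).1, hx.trans_le (a2 j).2⟩
    · have := D.hM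
      have := r.den_pos
      have : 0 < x := by omega
      rw [add_sub_cancel_left]
      positivity
    · rw [add_sub_cancel_left, add_sub_cancel_left, ← mul_assoc, Int.cast_natCast,
        Rat.mul_den_eq_num]

/-- **block L**: only the curve and the link remain -/
theorem lglue_of (H : PrAP.APStmt) (hL : LkStmt) : LGlue := Fin.lglue_of (szStmt_of H) hL

end Crest.Agent.T15.Cert
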