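import Mathlib

/-!
# Row 15, block T: Frobenius on Hahn series (helper84)

`(x ^ p).coeff (p • g) = (x.coeff g) ^ p` in characteristic `p`.
-/

set_option autoImplicit false

noncomputable section

namespace Crest.Agent.T15.Cg

open HahnSeries Pointwise

section gen
variable {Γ R : Type*} [AddCommGroup Γ] [LinearOrder Γ] [IsOrderedAddMonoid Γ] [CommRing R]

lemma isPWO_nsmul {s : Set Γ} (hs : s.IsPWO) : ∀ n : ℕ, (n • s).IsPWO
  | 0 => by rw [zero_nsmul]; exact (Set.finite_singleton 0).isPWO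
  | n + 1 => by rw [succ_nsmul]; exact (isPWO_nsmul hs n).add hs

lemma support_pow_subset {s : Set Γ} {z : HahnSeries Γ R} (hz : z.support ⊆ s) :
    ∀ n : ℕ, (z ^ n).support ⊆ n • s
  | 0 => by
      rw [pow_zero, zero_nsmul]
      exact support_single_subset
  | n + 1 => by
      rw [pow_succ, succ_nsmul]
      exact support_mul_subset.trans (Set.add_subset_add (support_pow_subset hz n) hz)

lemma charP_hahn (p : ℕ) [CharP R p] : CharP (HahnSeries Γ R) p :=
  charP_of_injective_ringHom (C_injective (Γ := Γ) (R := R)) p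

/-- the coefficients of a `p`-th power in characteristic `p` -/
theorem coeff_pow_char' (p : ℕ) [hp : Fact p.Prime] [CharP R p] (x : HahnSeries Γ R) (g : Γ) :
    ∃ S : Finset Γ, (∀ a, x.coeff a ≠ 0 → p • a = g → a ∈ S) ∧
      (x ^ p).coeff g = ∑ a ∈ S, if g = p • a then x.coeff a ^ p else 0 := by
  classical
  have := charP_hahn (Γ := Γ) (R := R) p
  obtain ⟨m, hm⟩ : ∃ m, p = m + 1 := ⟨p - 1, (Nat.sub_add_cancel hp.1.one_le).symm⟩
  let A := Finset.antidiagonal (isPWO_nsmul x.isPWO_support m) x.isPWO_support g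
  let S : Finset Γ := A.image Prod.snd
  let y : HahnSeries Γ R := ∑ a ∈ S, single a (x.coeff a)
  have hy : ∀ b, y.coeff b = if b ∈ S then x.coeff b else 0 := fun b => by
    simp only [y, coeff_sum, coeff_single]
    convert Finset.sum_ite_eq S b fun a => x.coeff a
  have hz : ∀ b, (x - y).coeff b = if b ∈ S then 0 else x.coeff b := fun b => by
    rw [coeff_sub, hy]; split_ifs <;> simp
  have hzs : (x - y).support ⊆ x.support := fun b hb => by
    rw [mem_support, hz] at hb
    split_ifs at hb with h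
    · exact absurd rfl hb
    · exact hb
  have h0 : ((x - y) ^ p).coeff g = 0 := by
    rw [hm, pow_succ, coeff_mul]
    refine Finset.sum_eq_zero fun ij hij => ?_
    rw [Finset.mem_antidiagonal] at hij
    have : ij.2 ∈ S := Finset.mem_image.2 ⟨ij, Finset.mem_antidiagonal.2
      ⟨support_pow_subset hzs m hij.1, hzs hij.2.1, hij.2.2⟩, rfl⟩
    rw [hz, if_pos this, mul_zero]
  refine ⟨S, fun a ha hag => Finset.mem_image.2 ⟨(m • a, a), Finset.mem_antidiagonal.2
    ⟨Set.nsmul_mem_nsmul ha, ha, by rw [← hag, hm, succ_nsmul]⟩, rfl⟩, ?_⟩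
  have e : x ^ p = y ^ p + (x - y) ^ p := by rw [← add_pow_char]; congr 1; ring
  rw [e, coeff_add, h0, add_zero, sum_pow_char, coeff_sum]
  refine Finset.sum_congr rfl fun a _ => ?_
  rw [single_pow, coeff_single]
  congr

theorem coeff_pow_char_nsmul (p : ℕ) [hp : Fact p.Prime] [CharP R p] (x : HahnSeries Γ R)
    (a : Γ) : (x ^ p).coeff (p • a) = x.coeff a ^ p := by
  classical
  obtain ⟨S, h1, h2⟩ := coeff_pow_char' p x (p • a)
  have hi : ∀ b : Γ, p • a = p • b ↔ a = b := fun b => nsmul_right_inj hp.1.ne_zero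
  rw [h2]
  simp only [hi, Finset.sum_ite_eq]
  split_ifs with h
  · rfl
  · by_contra h3
    refine h (h1 a (fun h4 => h3 ?_) rfl)
    rw [h4, zero_pow hp.1.ne_zero]

end gen

/-- Frobenius on Hahn series with rational exponents -/
theorem coeff_pow_char {R : Type*} [CommRing R] (p : ℕ) [hp : Fact p.Prime] [CharP R p]
    (x : HahnSeries ℚ R) (g : ℚ) : (x ^ p).coeff g = x.coeff (g / p) ^ p := by
  have h : (p : ℚ) ≠ 0 := Nat.cast_ne_zero.2 hp.1.ne_zero
  rw [← coeff_pow_char_nsmul p x (g / p), nsmul_eq_mul, mul_div_cancel₀ _ h]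

end Crest.Agent.T15.Cg

end
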