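import Crest.Agent.T15.CgA_84
import Crest.Agent.T15.Inj_71

/-!
# Row 15, block T: the congruence relation on `q`-expansions (helper84)

* `IntS`, `UnS` integral / primitive Hahn series, `rd` coefficientwise reduction;
* `Pr v x` : `x ∈ Cˣ · (1 + 𝔪)` for the Gauss norm;
* `pr_T`, `pr_V`, `pr_I` : `∏ f((z+i)/l) ~ σ f`, `f(lz) ~ (σ⁻¹ f)^l`, `τ f ~ f`;
* `IsG v qx w` : `w` is the Gauss norm of the expansion `qx`; `pow_of_pr`.
-/

set_option autoImplicit false
set_option linter.unusedSectionVars false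

noncomputable section

namespace Crest.Agent.T15.Cg

open HahnSeries
open scoped NNReal
open Crest.Agent.R013.GR4_921 Crest.Agent.R013.RR7_948 Crest.Agent.R013.RR8_948
open Crest.Agent.R013.RR9_948 Crest.Agent.R013.RR11_948 Crest.Agent.R013.RR12_948

section hahn

variable {K k : Type*} [Field K] [Field k] {v : Valuation K ℝ≥0} {r : K → k}

/-- integral coefficients -/
def IntS (v : Valuation K ℝ≥0) (x : HahnSeries ℚ K) : Prop := ∀ g, v (x.coeff g) ≤ 1

/-- integral coefficients, one of them a unit -/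
def UnS (v : Valuation K ℝ≥0) (x : HahnSeries ℚ K) : Prop := IntS v x ∧ ∃ g, v (x.coeff g) = 1

lemma IntS.mul {x y : HahnSeries ℚ K} (hx : IntS v x) (hy : IntS v y) : IntS v (x * y) := fun g => by
  rw [coeff_mul]
  exact Valuation.map_sum_le _ fun ij _ => by rw [map_mul]; exact mul_le_one' (hx _) (hy _)

lemma IntS.sub {x y : HahnSeries ℚ K} (hx : IntS v x) (hy : IntS v y) : IntS v (x - y) := fun g => by
  rw [coeff_sub]
  exact (Valuation.map_sub _ _ _).trans (max_le (hx g) (hy g))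

lemma IntS.one : IntS v (1 : HahnSeries ℚ K) := fun g => by
  rw [coeff_one]; split_ifs <;> simp

lemma IntS.prod {ι : Type*} (s : Finset ι) {x : ι → HahnSeries ℚ K} (hx : ∀ i ∈ s, IntS v (x i)) :
    IntS v (∏ i ∈ s, x i) :=
  Finset.prod_induction x (IntS v) (fun _ _ => IntS.mul) IntS.one hx

lemma IntS.pow {x : HahnSeries ℚ K} (hx : IntS v x) (n : ℕ) : IntS v (x ^ n) := by
  induction n with
  | zero => rw [pow_zero]; exact IntS.one
  | succ n ih => rw [pow_succ]; exact ih.mul hx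

lemma le_one_of_sub_lt {a b : K} (h : v (a - b) < 1) (hb : v b ≤ 1) : v a ≤ 1 := by
  rw [← sub_add_cancel a b]
  exact (Valuation.map_add _ _ _).trans (max_le h.le hb)

/-- coefficientwise reduction -/
def rd (h : IsRes v r) (x : HahnSeries ℚ K) : HahnSeries ℚ k where
  coeff g := r (x.coeff g)
  isPWO_support' := x.isPWO_support.mono fun g hg h0 => hg (by beta_reduce; rw [h0, h.zero])

variable (h : IsRes v r)

lemma rd_coeff (x : HahnSeries ℚ K) (g : ℚ) : (rd h x).coeff g = r (x.coeff g) := rfl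

lemma rd_mul {x y : HahnSeries ℚ K} (hx : IntS v x) (hy : IntS v y) :
    rd h (x * y) = rd h x * rd h y := by
  ext g
  rw [rd_coeff, coeff_mul, coeff_mul,
    h.sum _ _ fun ij _ => by rw [map_mul]; exact mul_le_one' (hx _) (hy _)]
  simp only [h.mul _ _ (hx _) (hy _), rd_coeff]
  refine (Finset.sum_subset (fun ij hij => ?_) fun ij hij hn => ?_).symm
  · rw [Finset.mem_antidiagonal] at hij ⊢
    exact ⟨fun h0 => hij.1 (by rw [rd_coeff, h0, h.zero]),
      fun h0 => hij.2.1 (by rw [rd_coeff, h0, h.zero]), hij.2.2⟩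
  · rw [Finset.mem_antidiagonal] at hij hn
    by_contra h0
    exact hn ⟨left_ne_zero_of_mul h0, right_ne_zero_of_mul h0, hij.2.2⟩

lemma rd_one : rd h (1 : HahnSeries ℚ K) = 1 := by
  ext g
  rw [rd_coeff, coeff_one, coeff_one]
  split_ifs
  · exact h.one
  · exact h.zero

lemma rd_prod {ι : Type*} (s : Finset ι) {x : ι → HahnSeries ℚ K} (hx : ∀ i ∈ s, IntS v (x i)) :
    rd h (∏ i ∈ s, x i) = ∏ i ∈ s, rd h (x i) := by
  classical
  induction s using Finset.induction_on with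
  | empty => simp [rd_one]
  | insert a s ha ih =>
    rw [Finset.prod_insert ha, Finset.prod_insert ha, rd_mul h (hx a (by simp))
      (IntS.prod s fun i hi => hx i (by simp [hi])), ih fun i hi => hx i (by simp [hi])]

lemma rd_pow {x : HahnSeries ℚ K} (hx : IntS v x) (n : ℕ) : rd h (x ^ n) = rd h x ^ n := by
  induction n with
  | zero => rw [pow_zero, pow_zero, rd_one]
  | succ n ih => rw [pow_succ, pow_succ, rd_mul h (hx.pow n) hx, ih]

lemma rd_eq_iff {x y : HahnSeries ℚ K} (hx : IntS v x) (hy : IntS v y) :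
    rd h x = rd h y ↔ ∀ g, v (x.coeff g - y.coeff g) < 1 := by
  rw [HahnSeries.ext_iff, funext_iff]
  exact forall_congr' fun g => h.eq_iff (hx g) (hy g)

lemma unS_iff {x : HahnSeries ℚ K} : UnS v x ↔ IntS v x ∧ rd h x ≠ 0 := by
  refine and_congr_right fun hx => ?_
  rw [Ne, HahnSeries.ext_iff, funext_iff, not_forall]
  exact exists_congr fun g => (h.ne_zero_iff (hx g)).symm

end hahn

section pr

variable {K : Type*} [Field K] {v : Valuation K ℝ≥0}

lemma UnS.mul {x y : HahnSeries ℚ K} (hx : UnS v x) (hy : UnS v y) : UnS v (x * y) := by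
  obtain ⟨r, h, -⟩ := exists_isRes v
  rw [unS_iff h] at hx hy ⊢
  exact ⟨hx.1.mul hy.1, by rw [rd_mul h hx.1 hy.1]; exact mul_ne_zero hx.2 hy.2⟩

lemma UnS.one : UnS v (1 : HahnSeries ℚ K) := ⟨IntS.one, 0, by simp⟩

lemma UnS.ne_zero {x : HahnSeries ℚ K} (hx : UnS v x) : x ≠ 0 := by
  rintro rfl
  obtain ⟨g, hg⟩ := hx.2
  simp at hg

/-- congruence modulo the maximal ideal -/
def Cgr (v : Valuation K ℝ≥0) (x y : HahnSeries ℚ K) : Prop := ∀ g, v (x.coeff g - y.coeff g) < 1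

lemma Cgr.int {x y : HahnSeries ℚ K} (h : Cgr v x y) (hy : IntS v y) : IntS v x :=
  fun g => le_one_of_sub_lt (h g) (hy g)

lemma Cgr.symm {x y : HahnSeries ℚ K} (h : Cgr v x y) : Cgr v y x :=
  fun g => by rw [Valuation.map_sub_swap]; exact h g

lemma Cgr.un {x y : HahnSeries ℚ K} (h : Cgr v x y) (hy : UnS v y) : UnS v x := by
  obtain ⟨r, hr, -⟩ := exists_isRes v
  have hx := h.int hy.1
  rw [unS_iff hr] at hy ⊢
  exact ⟨hx, by rw [(rd_eq_iff hr hx hy.1).2 h]; exact hy.2⟩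

lemma Cgr.mul {x y x' y' : HahnSeries ℚ K} (h : Cgr v x y) (h' : Cgr v x' y') (hy : IntS v y)
    (hy' : IntS v y') : Cgr v (x * x') (y * y') := by
  obtain ⟨r, hr, -⟩ := exists_isRes v
  have hx := h.int hy
  have hx' := h'.int hy'
  refine (rd_eq_iff hr (hx.mul hx') (hy.mul hy')).1 ?_
  rw [rd_mul hr hx hx', rd_mul hr hy hy', (rd_eq_iff hr hx hy).2 h, (rd_eq_iff hr hx' hy').2 h']

/-- `x ∈ Kˣ · (1 + 𝔪)` -/
def Pr (v : Valuation K ℝ≥0) (x : HahnSeries ℚ K) : Prop :=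
  ∃ (c : K) (a b : HahnSeries ℚ K), c ≠ 0 ∧ UnS v b ∧ Cgr v a b ∧ x * b = C c * a

lemma Pr.mul {x y : HahnSeries ℚ K} (hx : Pr v x) (hy : Pr v y) : Pr v (x * y) := by
  obtain ⟨c, a, b, hc, hb, hab, e⟩ := hx
  obtain ⟨c', a', b', hc', hb', hab', e'⟩ := hy
  refine ⟨c * c', a * a', b * b', mul_ne_zero hc hc', hb.mul hb', hab.mul hab' hb.1 hb'.1, ?_⟩
  rw [map_mul]
  linear_combination (y * b') * e + (C c * a) * e'

/-- two quotients with congruent numerators and denominators -/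
lemma pr_div {x y a b a' b' : HahnSeries ℚ K} {c c' : K} (hc : c ≠ 0) (hc' : c' ≠ 0)
    (ha' : UnS v a') (hb' : UnS v b') (ha : Cgr v a a') (hb : Cgr v b b')
    (e : x * b = C c * a) (e' : y * b' = C c' * a') : Pr v (x / y) := by
  have hC : (C c' : HahnSeries ℚ K) ≠ 0 := by simpa using hc'
  have hy : y ≠ 0 := by
    rintro rfl
    rw [zero_mul] at e'
    exact mul_ne_zero hC ha'.ne_zero e'.symm
  refine ⟨c / c', a * b', a' * b, div_ne_zero hc hc', ha'.mul (hb.un hb'),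
    ha.mul hb.symm ha'.1 (hb.un hb').1, ?_⟩
  rw [map_div₀]
  field_simp
  linear_combination (a' * C c') * e - (C c * a) * e'

lemma charP_res {k : Type*} [Field k] {r : K → k} (h : IsRes v r) {l : ℕ} (hl : l.Prime)
    (hv : v (l : K) < 1) : CharP k l := by
  have h1 : ∀ n : ℕ, v (n : K) ≤ 1 ∧ r (n : K) = n := fun n => by
    induction n with
    | zero => simp [h.zero]
    | succ n ih =>
      rw [Nat.cast_succ, Nat.cast_succ, h.add _ _ ih.1 (by simp), ih.2, h.one]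
      exact ⟨(Valuation.map_add _ _ _).trans (max_le ih.1 (by simp)), rfl⟩
  exact (CharP.charP_iff_prime_eq_zero hl).2
    (by rw [← (h1 l).2]; exact (h.zero_iff _ hv.le).2 hv)

/-- `∏ a((z+i)/l) ≡ Frob a` -/
lemma cgr_T {l : ℕ} (hl : l.Prime) (hv : v (l : K) < 1) {ι : Type*} [Fintype ι]
    (hι : Fintype.card ι = l) {a a' : HahnSeries ℚ K} (ha : IntS v a) {A : ι → HahnSeries ℚ K}
    (hA : ∀ i g, v ((A i).coeff g - a.coeff (l * g)) < 1)
    (ha' : ∀ g, v (a'.coeff g - a.coeff g ^ l) < 1) : Cgr v (∏ i, A i) a' := by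
  obtain ⟨r, h, -⟩ := exists_isRes v
  have := charP_res h hl hv
  have : Fact l.Prime := ⟨hl⟩
  have hp : ∀ g, v (a.coeff g ^ l) ≤ 1 := fun g => by rw [map_pow]; exact pow_le_one' (ha g) l
  have hAi : ∀ i, IntS v (A i) := fun i g => le_one_of_sub_lt (hA i g) (ha _)
  have hai : IntS v a' := fun g => le_one_of_sub_lt (ha' g) (hp g)
  obtain ⟨i0⟩ : Nonempty ι := Fintype.card_pos_iff.1 (hι ▸ hl.pos)
  have h1 : ∀ i g, (rd h (A i)).coeff g = r (a.coeff (l * g)) := fun i g =>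
    (h.eq_iff (hAi i g) (ha _)).2 (hA i g)
  have h2 : ∀ i, rd h (A i) = rd h (A i0) := fun i => by ext g; rw [h1, h1]
  refine (rd_eq_iff h (IntS.prod _ fun i _ => hAi i) hai).1 ?_
  rw [rd_prod h _ fun i _ => hAi i]
  simp only [h2, Finset.prod_const, Finset.card_univ, hι]
  ext g
  rw [coeff_pow_char, h1, mul_div_cancel₀ _ (Nat.cast_ne_zero.2 hl.ne_zero), rd_coeff,
    ← h.pow (ha g)]
  exact ((h.eq_iff (hai g) (hp g)).2 (ha' g)).symm

/-- `a(lz) ≡ (Frob⁻¹ a)^l` -/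
lemma cgr_V {l : ℕ} (hl : l.Prime) (hv : v (l : K) < 1) {A a' : HahnSeries ℚ K} (ha' : IntS v a')
    (hA : ∀ g, v (A.coeff g - a'.coeff (g / l) ^ l) < 1) : Cgr v A (a' ^ l) := by
  obtain ⟨r, h, -⟩ := exists_isRes v
  have := charP_res h hl hv
  have : Fact l.Prime := ⟨hl⟩
  have hp : ∀ g, v (a'.coeff g ^ l) ≤ 1 := fun g => by rw [map_pow]; exact pow_le_one' (ha' g) l
  have hAi : IntS v A := fun g => le_one_of_sub_lt (hA g) (hp _)
  refine (rd_eq_iff h hAi (ha'.pow l)).1 ?_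
  rw [rd_pow h ha']
  ext g
  rw [coeff_pow_char, rd_coeff, rd_coeff, ← h.pow (ha' _)]
  exact (h.eq_iff (hAi g) (hp _)).2 (hA g)

lemma UnS.pow {x : HahnSeries ℚ K} (hx : UnS v x) (n : ℕ) : UnS v (x ^ n) := by
  induction n with
  | zero => rw [pow_zero]; exact UnS.one
  | succ n ih => rw [pow_succ]; exact ih.mul hx

lemma UnS.of_eq {x y : HahnSeries ℚ K} (hx : UnS v x) (h : ∀ g, v (y.coeff g) = v (x.coeff g)) :
    UnS v y := ⟨fun g => (h g).trans_le (hx.1 g), hx.2.imp fun g hg => (h g).trans hg⟩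

/-- `∏ f((z+i)/l) ~ σ f` -/
theorem pr_T {l : ℕ} (hl : l.Prime) (hv : v (l : K) < 1) {ι : Type*} [Fintype ι]
    (hι : Fintype.card ι = l) {σ : K → K} (hσv : ∀ c, v (σ c) = v c)
    (hσ : ∀ c, v c ≤ 1 → v (σ c - c ^ l) < 1)
    {a b a' b' x' : HahnSeries ℚ K} (ha : UnS v a) (hb : UnS v b) {A B X : ι → HahnSeries ℚ K}
    (hA : ∀ i g, v ((A i).coeff g - a.coeff (l * g)) < 1)
    (hB : ∀ i g, v ((B i).coeff g - b.coeff (l * g)) < 1)
    (ha' : ∀ g, a'.coeff g = σ (a.coeff g)) (hb' : ∀ g, b'.coeff g = σ (b.coeff g))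
    {c c' : K} (hc : c ≠ 0) (hc' : c' ≠ 0) (e : ∀ i, X i * B i = C c * A i)
    (e' : x' * b' = C c' * a') : Pr v ((∏ i, X i) / x') := by
  refine pr_div (pow_ne_zero l hc) hc' (ha.of_eq fun g => by rw [ha', hσv])
    (hb.of_eq fun g => by rw [hb', hσv])
    (cgr_T hl hv hι ha.1 hA fun g => by rw [ha']; exact hσ _ (ha.1 g))
    (cgr_T hl hv hι hb.1 hB fun g => by rw [hb']; exact hσ _ (hb.1 g)) ?_ e'
  rw [← Finset.prod_mul_distrib]
  simp only [e, Finset.prod_mul_distrib, Finset.prod_const, Finset.card_univ, hι, map_pow]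

/-- `f(lz) ~ (σ⁻¹ f)^l` -/
theorem pr_V {l : ℕ} (hl : l.Prime) (hv : v (l : K) < 1) {σ : K → K} (hσv : ∀ c, v (σ c) = v c)
    (hσ : ∀ c, v c ≤ 1 → v (σ c - c ^ l) < 1)
    {a b a' b' x' A B X : HahnSeries ℚ K} (ha : UnS v a) (hb : UnS v b)
    (hA : ∀ g, A.coeff g = a.coeff (g / l)) (hB : ∀ g, B.coeff g = b.coeff (g / l))
    (ha' : ∀ g, σ (a'.coeff g) = a.coeff g) (hb' : ∀ g, σ (b'.coeff g) = b.coeff g)
    {c c' : K} (hc : c ≠ 0) (hc' : c' ≠ 0) (e : X * B = C c * A)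
    (e' : x' * b' = C c' * a') : Pr v (X / x' ^ l) := by
  have h1 : UnS v a' := ha.of_eq fun g => by rw [← ha', hσv]
  have h2 : UnS v b' := hb.of_eq fun g => by rw [← hb', hσv]
  refine pr_div hc (pow_ne_zero l hc') (h1.pow l) (h2.pow l)
    (cgr_V hl hv h1.1 fun g => by rw [hA, ← ha']; exact hσ _ (h1.1 _))
    (cgr_V hl hv h2.1 fun g => by rw [hB, ← hb']; exact hσ _ (h2.1 _)) e ?_
  rw [← mul_pow, e', mul_pow, map_pow]

/-- `τ f ~ f` -/
theorem pr_I {τ : K → K} (hτ : ∀ c, v c ≤ 1 → v (τ c - c) < 1)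
    {a b a' b' x x' : HahnSeries ℚ K} (ha : UnS v a) (hb : UnS v b)
    (ha' : ∀ g, a'.coeff g = τ (a.coeff g)) (hb' : ∀ g, b'.coeff g = τ (b.coeff g))
    {c c' : K} (hc : c ≠ 0) (hc' : c' ≠ 0) (e : x * b = C c * a) (e' : x' * b' = C c' * a') :
    Pr v (x' / x) :=
  pr_div hc' hc ha hb (fun g => by rw [ha']; exact hτ _ (ha.1 g))
    (fun g => by rw [hb']; exact hτ _ (hb.1 g)) e' e

variable {L : Type*} [Field L]

/-- `w` is the Gauss norm of the expansion `qx` -/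
def IsG (v : Valuation K ℝ≥0) (qx : L →+* HahnSeries ℚ K) (w : Valuation L ℝ≥0) : Prop :=
  ∀ f : L, f ≠ 0 → ∃ (c : K) (a b : HahnSeries ℚ K), UnS v a ∧ UnS v b ∧ qx f * b = C c * a ∧
    w f = v c

lemma IsG.lt_one {qx : L →+* HahnSeries ℚ K} {w : Valuation L ℝ≥0} (h : IsG v qx w) {f : L}
    {a b : HahnSeries ℚ K} (hb : UnS v b) (ha : ∀ g, v (a.coeff g) < 1) (e : qx f * b = a) :
    w f < 1 := by
  by_cases hf : f = 0
  · simp [hf]
  obtain ⟨c, a', b', ha', hb', e', hw⟩ := h f hf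
  obtain ⟨g, hg⟩ := (ha'.mul hb).2
  have h1 : C c * (a' * b) = a * b' := by linear_combination b' * e - b * e'
  have h2 : Cgr v (a * b') (0 * b') :=
    Cgr.mul (fun g => by simpa using ha g) (fun g => by simp) (fun g => by simp) hb'.1
  have h3 := h2 g
  rw [← h1, zero_mul, coeff_zero, sub_zero, C_mul_eq_smul, coeff_smul, smul_eq_mul, map_mul, hg,
    mul_one] at h3
  rwa [hw]

lemma IsG.of_pr [Algebra K L] {qx : L →+* HahnSeries ℚ K} {w : Valuation L ℝ≥0} (h : IsG v qx w)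
    (hq : ∀ c, qx (algebraMap K L c) = C c) {f : L} (hf : Pr v (qx f)) :
    ∃ c : K, c ≠ 0 ∧ w (f * algebraMap K L c⁻¹ - 1) < 1 := by
  obtain ⟨c, a, b, hc, hb, hab, e⟩ := hf
  refine ⟨c, hc, h.lt_one hb (a := a - b) (fun g => by rw [coeff_sub]; exact hab g) ?_⟩
  have hC : (C c : HahnSeries ℚ K) ≠ 0 := by simpa using hc
  rw [map_sub, map_mul, hq, map_one, map_inv₀]
  field_simp
  linear_combination e

end pr

section good

variable {K : Type*} [Field K] [IsAlgClosed K] [CharZero K] {L : Type*} [Field L] [Algebra K L]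
  [Algebra (RatFunc K) L] [IsScalarTower K (RatFunc K) L] [FiniteDimensional (RatFunc K) L]
  {k κ : Type*} [Field k] [IsAlgClosed k] [Field κ] [Algebra k κ]
  [Algebra (RatFunc k) κ] [IsScalarTower k (RatFunc k) κ] [FiniteDimensional (RatFunc k) κ]
  [Algebra.IsSeparable (RatFunc k) κ]
  {v : Valuation K ℝ≥0} {r : K → k} {w : Valuation L ℝ≥0} {ρ : L → κ} {sp : Pl K L → Pl k κ}

/-- a Kummer class which is `1` modulo the maximal ideal is trivial -/
theorem pow_of_lt (h : Disc.Good v r w ρ sp) {n : ℕ} (hn : (n : k) ≠ 0) {f : L} {c : K}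
    (hc : c ≠ 0) (hw : w (f * algebraMap K L c⁻¹ - 1) < 1) (S : Set (Pl K L))
    (hS : Set.InjOn sp S) (hdiv : ∀ P, P ∉ S → (n : ℤ) ∣ divf (k := K) f P) :
    ∃ g : L, f = g ^ n := by
  have hn0 : n ≠ 0 := by rintro rfl; simp at hn
  have h1 : w (f * algebraMap K L c⁻¹) = 1 := by
    have := Valuation.map_add_eq_of_lt_right w (x := f * algebraMap K L c⁻¹ - 1) (y := 1)
      (by simpa using hw)
    simpa using this
  have hf : f ≠ 0 := by rintro rfl; simp at h1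
  have h2 : ρ (f * algebraMap K L c⁻¹) = 1 ^ n := by
    rw [one_pow, ← h.rd.res.one]
    exact (h.rd.res.eq_iff h1.le (by simp)).2 hw
  obtain ⟨g, hg⟩ := h.inj_pow hn h1 S hS (fun P hP => by
    rw [divf_mul hf (by simpa using hc), Disc.divf_const (inv_ne_zero hc), add_zero]
    exact hdiv P hP) h2
  obtain ⟨e, he⟩ := IsAlgClosed.exists_pow_nat_eq c (Nat.pos_of_ne_zero hn0)
  refine ⟨g * algebraMap K L e, ?_⟩
  have hC : algebraMap K L c ≠ 0 := by simpa using hc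
  rw [mul_pow, ← map_pow, he, ← hg, map_inv₀, inv_mul_cancel_right₀ hC]

theorem pow_of_pr (h : Disc.Good v r w ρ sp) {qx : L →+* HahnSeries ℚ K} (hG : IsG v qx w)
    (hq : ∀ c, qx (algebraMap K L c) = C c) {n : ℕ} (hn : (n : k) ≠ 0) {f : L}
    (hf : Pr v (qx f)) (S : Set (Pl K L)) (hS : Set.InjOn sp S)
    (hdiv : ∀ P, P ∉ S → (n : ℤ) ∣ divf (k := K) f P) : ∃ g : L, f = g ^ n := by
  obtain ⟨c, hc, hw⟩ := hG.of_pr hq hf
  exact pow_of_lt h hn hc hw S hS hdiv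

end good

end Crest.Agent.T15.Cg

end
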