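import Crest.Agent.T15.CgC_84
import Crest.Agent.T15.MfB_79

/-!
# Row 15, block T: the congruence relation for modular functions (helper84)

`Rep v x` : `x = c a / b` with primitive series `a`, `b`.  For `f : FF` with `Rep v (qx f)`:
`pr_up`, `pr_dg`, `pr_hecke` (`T_l f ~ σ f · (σ⁻¹ ⟨l⟩ f)^l`), `pr_inertia` (`τ f ~ f`).
-/

set_option autoImplicit false
set_option linter.unusedSectionVars false

noncomputable section

namespace Crest.Agent.T15.Cg

open HahnSeries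
open scoped NNReal MatrixGroups
open Crest.Agent.R013.GR4_921 Crest.Agent.T15.Hs Crest.Agent.T15.Mf

section rep

variable {K : Type*} [Field K] {v : Valuation K ℝ≥0}

/-- a quotient of primitive series up to a constant -/
def Rep (v : Valuation K ℝ≥0) (x : HS K) : Prop :=
  ∃ (c : K) (a b : HS K), c ≠ 0 ∧ UnS v a ∧ UnS v b ∧ x * b = C c * a

lemma IsG.rep {L : Type*} [Field L] {qx : L →+* HS K} {w : Valuation L ℝ≥0} (h : IsG v qx w)
    {f : L} (hf : f ≠ 0) : Rep v (qx f) := by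
  obtain ⟨c, a, b, ha, hb, e, -⟩ := h f hf
  refine ⟨c, a, b, ?_, ha, hb, e⟩
  rintro rfl
  rw [map_zero, zero_mul] at e
  exact mul_ne_zero (by simpa using hf) hb.ne_zero e

lemma IsG.comp {L L' : Type*} [Field L] [Field L'] {qx : L →+* HS K} {w : Valuation L ℝ≥0}
    (h : IsG v qx w) (i : L' →+* L) : IsG v (qx.comp i) (w.comap i) :=
  fun f hf => h (i f) (by simpa using hf)

/-- integral exponents -/
def IntE (x : HS K) : Prop := ∀ r, x.coeff r ≠ 0 → ∃ n : ℤ, r = n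

open Classical in
/-- the part with integral exponents -/
def prj (x : HS K) : HS K where
  coeff r := if ∃ n : ℤ, r = n then x.coeff r else 0
  isPWO_support' := x.isPWO_support.mono fun g hg h0 => hg (by beta_reduce; rw [h0, ite_self])

open Classical in
lemma prj_coeff (x : HS K) (r : ℚ) :
    (prj x).coeff r = if ∃ n : ℤ, r = n then x.coeff r else 0 := rfl

lemma intE_prj (x : HS K) : IntE (prj x) := fun r hr => by
  by_contra h
  exact hr (by rw [prj_coeff, if_neg h])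

lemma IntS.prj {x : HS K} (hx : IntS v x) : IntS v (prj x) := fun r => by
  rw [prj_coeff]
  split_ifs
  · exact hx r
  · simp

lemma prj_mul {x : HS K} (hx : IntE x) (y : HS K) : prj (x * y) = x * prj y := by
  ext r
  rw [coeff_mul_of (y := prj y) x.isPWO_support y.isPWO_support subset_rfl fun t ht h0 =>
    ht (by rw [prj_coeff, h0, ite_self]), prj_coeff, coeff_mul]
  have key : ∀ ij ∈ Finset.antidiagonal x.isPWO_support y.isPWO_support r,
      ((∃ n : ℤ, ij.2 = n) ↔ ∃ n : ℤ, r = n) := fun ij hij => by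
    rw [Finset.mem_antidiagonal] at hij
    obtain ⟨m, hm⟩ := hx _ hij.1
    rw [← hij.2.2, hm]
    exact ⟨fun ⟨n, hn⟩ => ⟨m + n, by rw [hn]; push_cast; rfl⟩,
      fun ⟨n, hn⟩ => ⟨n - m, by push_cast; rw [← hn]; ring⟩⟩
  split_ifs with h
  · exact Finset.sum_congr rfl fun ij hij => by rw [prj_coeff, if_pos ((key ij hij).2 h)]
  · exact (Finset.sum_eq_zero fun ij hij => by
      rw [prj_coeff, if_neg fun h' => h ((key ij hij).1 h'), mul_zero]).symm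

lemma intE_C (c : K) : IntE (C c : HS K) := fun r hr => by
  rw [C_apply, coeff_single] at hr
  split_ifs at hr with h
  · exact ⟨0, by simpa using h⟩
  · exact absurd rfl hr

lemma unS_single (t : ℚ) : UnS v (single t 1 : HS K) :=
  ⟨fun g => by rw [coeff_single]; split_ifs <;> simp, t, by simp⟩

lemma UnS.of_mul {a b : HS K} (ha : IntS v a) (hb : IntS v b) (h : UnS v (a * b)) : UnS v a := by
  obtain ⟨r, hr, -⟩ := exists_isRes v
  rw [unS_iff hr] at h ⊢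
  exact ⟨ha, left_ne_zero_of_mul (by rw [← rd_mul hr ha hb]; exact h.2)⟩

/-- numerator and denominator with integral exponents -/
lemma Rep.int {x : HS K} (h : Rep v x) (hx : IntE x) :
    ∃ (c : K) (a b : HS K), c ≠ 0 ∧ UnS v a ∧ UnS v b ∧ IntE a ∧ IntE b ∧ x * b = C c * a := by
  obtain ⟨c, a, b, hc, ha, hb, e⟩ := h
  obtain ⟨t, ht⟩ := hb.2
  have ha1 := (unS_single (-t)).mul ha
  have hb1 := (unS_single (-t)).mul hb
  have e1 : x * (single (-t) 1 * b) = C c * (single (-t) 1 * a) := by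
    linear_combination single (-t) 1 * e
  have e2 := congrArg prj e1
  rw [prj_mul hx, prj_mul (intE_C c)] at e2
  have hb2 : UnS v (prj (single (-t) 1 * b)) := ⟨hb1.1.prj, 0, by
    have := coeff_single_mul_add (r := (1 : K)) (x := b) (a := t) (b := -t)
    rw [add_neg_cancel, one_mul] at this
    rw [prj_coeff, if_pos ⟨0, by simp⟩, this, ht]⟩
  refine ⟨c, _, _, hc, UnS.of_mul ha1.1.prj hb1.1 ?_, hb2, intE_prj _, intE_prj _, e2⟩
  have hC : (C c : HS K) ≠ 0 := by simpa using hc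
  have e3 : prj (single (-t) 1 * a) * (single (-t) 1 * b) =
      (single (-t) 1 * a) * prj (single (-t) 1 * b) := by
    apply mul_left_cancel₀ hC
    linear_combination prj (single (-t) 1 * b) * e1 - (single (-t) 1 * b) * e2
  rw [e3]
  exact ha1.mul hb2

lemma root_sub_one {l : ℕ} (hl : l.Prime) (hv : v (l : K) < 1) {z : K} (hz : z ^ l = 1) :
    v (z - 1) < 1 := by
  obtain ⟨r, h, -⟩ := exists_isRes v
  have := charP_res h hl hv
  have : Fact l.Prime := ⟨hl⟩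
  have h1 : v z = 1 := by
    have := congrArg v hz
    rwa [map_pow, map_one, pow_eq_one_iff_left hl.ne_zero] at this
  refine (h.eq_iff h1.le (by simp)).1 ?_
  have h2 : (r z - 1) ^ l = 0 := by rw [sub_pow_char, ← h.pow h1.le, hz, h.one, one_pow, sub_self]
  rw [h.one, ← sub_eq_zero]
  exact pow_eq_zero_iff hl.ne_zero |>.1 h2

end rep

variable {v : Valuation ℂ ℝ≥0}

lemma ex_pow {l : ℕ} (hl : l ≠ 0) (n m : ℤ) : ex (n : ℚ) (((m : ℚ) / l : ℚ) : ℂ) ^ l = 1 := by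
  have : (l : ℂ) ≠ 0 := Nat.cast_ne_zero.2 hl
  rw [ex, ← Complex.exp_nat_mul, ← Complex.exp_int_mul_two_pi_mul_I (n * m)]
  congr 1
  push_cast
  field_simp

/-- invariance under `z ↦ z + 1` means integral exponents -/
lemma intE_qx {f : FF} (hf : ModularGroup.T • f = f) : IntE (qx f) := fun r hr => by
  have h1 : (sq ModularGroup.T)⁻¹ • f = f := by rw [inv_smul_eq_iff, ← sl_smul, hf]
  have h2 := qx_upper (g := sq ModularGroup.T) (by rw [sq_apply]; simp [ModularGroup.T]) f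
  rw [h1] at h2
  simp only [sq_apply] at h2
  simp only [ModularGroup.T, Matrix.SpecialLinearGroup.coe_mk, Matrix.of_apply, Matrix.cons_val',
    Matrix.cons_val_zero, Matrix.cons_val_one, Matrix.cons_val_fin_one, Int.cast_one, div_one,
    sc_one] at h2
  have h3 := congrArg (fun z : HS ℂ => z.coeff r) h2
  simp only [coeff_tw, ee_apply] at h3
  have h4 : ex r ((1 : ℚ) : ℂ) = 1 := mul_right_cancel₀ hr (by rw [← h3, one_mul])
  rw [ex, Complex.exp_eq_one_iff] at h4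
  obtain ⟨n, hn⟩ := h4
  refine ⟨n, ?_⟩
  have h5 : ((r : ℚ) : ℂ) = n := by
    apply mul_left_cancel₀ Complex.two_pi_I_ne_zero
    rw [mul_comm _ (n : ℂ), ← hn]
    simp
  exact_mod_cast h5

/-- `∏ f((z+i)/l) ~ σ f` -/
theorem pr_up {l : ℕ} (hl : l.Prime) (hv : v (l : ℂ) < 1) {σ : ℂ ≃+* ℂ}
    (hσv : ∀ c, v (σ c) = v c) (hσ : ∀ c, v c ≤ 1 → v (σ c - c ^ l) < 1)
    {ι : Type*} [Fintype ι] (hι : Fintype.card ι = l) {α : ι → GQ}
    (h10 : ∀ i, (α i : GL (Fin 2) ℚ) 1 0 = 0)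
    (h00 : ∀ i, (α i : GL (Fin 2) ℚ) 0 0 / (α i : GL (Fin 2) ℚ) 1 1 = 1 / l)
    (h01 : ∀ i, ∃ m : ℤ, (α i : GL (Fin 2) ℚ) 0 1 / (α i : GL (Fin 2) ℚ) 1 1 = m / l)
    {f : FF} (hf : Rep v (qx f)) (hT : ModularGroup.T • f = f) :
    Pr v (qx ((∏ i, (α i)⁻¹ • f) / σ • f)) := by
  obtain ⟨c, a, b, hc, ha, hb, hia, hib, e⟩ := hf.int (intE_qx hT)
  choose m hm using h01
  have hp := inv_pos' hl.ne_zero
  have key : ∀ {y : HS ℂ}, IntS v y → IntE y → ∀ i g,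
      v ((sc (1 / l) (tw (ee (m i / l)) y)).coeff g - y.coeff (l * g)) < 1 := by
    intro y hy hi i g
    rw [coeff_sc hp, coeff_tw, ee_apply, div_div_eq_mul_div, div_one, mul_comm g]
    by_cases h0 : y.coeff (l * g) = 0
    · simp [h0]
    obtain ⟨n, hn⟩ := hi _ h0
    rw [← sub_one_mul, map_mul]
    refine mul_lt_one_of_lt_of_le ?_ (hy _)
    rw [hn]
    exact root_sub_one hl hv (ex_pow hl.ne_zero n (m i))
  rw [map_div₀, map_prod]
  refine pr_T hl hv hι hσv hσ ha hb (key ha.1 hia) (key hb.1 hib)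
    (a' := Hs.hm (σ : ℂ →+* ℂ) a) (b' := Hs.hm (σ : ℂ →+* ℂ) b) (fun _ => rfl) (fun _ => rfl) hc
    (c' := σ c) (by simpa using hc) (fun i => ?_) ?_
  · rw [qx_upper (h10 i), h00, hm, ← map_mul, ← map_mul, e, map_mul, map_mul, tw_C, sc_C hp]
  · rw [qx_aut, ← map_mul, e, map_mul, hm_C]
    rfl

/-- `f(lz) ~ (σ⁻¹ f)^l` -/
theorem pr_dg {l : ℕ} (hl : l.Prime) (hv : v (l : ℂ) < 1) {σ : ℂ ≃+* ℂ}
    (hσv : ∀ c, v (σ c) = v c) (hσ : ∀ c, v c ≤ 1 → v (σ c - c ^ l) < 1) {β : GQ}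
    (h10 : (β : GL (Fin 2) ℚ) 1 0 = 0)
    (h00 : (β : GL (Fin 2) ℚ) 0 0 / (β : GL (Fin 2) ℚ) 1 1 = l)
    (h01 : (β : GL (Fin 2) ℚ) 0 1 = 0) {f : FF} (hf : Rep v (qx f)) :
    Pr v (qx (β⁻¹ • f / (σ⁻¹ • f) ^ l)) := by
  obtain ⟨c, a, b, hc, ha, hb, e⟩ := hf
  have hp : (0 : ℚ) < l := Nat.cast_pos.2 hl.pos
  have ht : ∀ y : HS ℂ, tw (ee 0) y = y := fun y => by
    ext g
    rw [coeff_tw, ee_zero, MonoidHom.one_apply, one_mul]
  rw [map_div₀, map_pow]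
  refine pr_V hl hv hσv hσ ha hb (coeff_sc hp a) (coeff_sc hp b)
    (a' := Hs.hm ((σ⁻¹ : ℂ ≃+* ℂ) : ℂ →+* ℂ) a) (b' := Hs.hm ((σ⁻¹ : ℂ ≃+* ℂ) : ℂ →+* ℂ) b)
    (fun g => σ.apply_symm_apply _) (fun g => σ.apply_symm_apply _) hc
    (c' := σ⁻¹ c) (by simpa using hc) ?_ ?_
  · rw [qx_upper h10, h00, h01, zero_div, ht, ← map_mul, e, map_mul, sc_C hp]
  · rw [qx_aut, ← map_mul, e, map_mul, hm_C]
    rfl

/-- **the congruence relation** -/
theorem pr_hecke {l : ℕ} (hl : l.Prime) (hv : v (l : ℂ) < 1) {σ : ℂ ≃+* ℂ}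
    (hσv : ∀ c, v (σ c) = v c) (hσ : ∀ c, v c ≤ 1 → v (σ c - c ^ l) < 1)
    {ι : Type*} [Fintype ι] (hι : Fintype.card ι = l) {α : ι → GQ}
    (h10 : ∀ i, (α i : GL (Fin 2) ℚ) 1 0 = 0)
    (h00 : ∀ i, (α i : GL (Fin 2) ℚ) 0 0 / (α i : GL (Fin 2) ℚ) 1 1 = 1 / l)
    (h01 : ∀ i, ∃ m : ℤ, (α i : GL (Fin 2) ℚ) 0 1 / (α i : GL (Fin 2) ℚ) 1 1 = m / l) {β : GQ}
    (k10 : (β : GL (Fin 2) ℚ) 1 0 = 0)
    (k00 : (β : GL (Fin 2) ℚ) 0 0 / (β : GL (Fin 2) ℚ) 1 1 = l)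
    (k01 : (β : GL (Fin 2) ℚ) 0 1 = 0) {f f' : FF} (hf : Rep v (qx f))
    (hT : ModularGroup.T • f = f) (hf' : Rep v (qx f')) :
    Pr v (qx ((∏ i, (α i)⁻¹ • f) * β⁻¹ • f' / (σ • f * (σ⁻¹ • f') ^ l))) := by
  rw [mul_div_mul_comm, map_mul]
  exact (pr_up hl hv hσv hσ hι h10 h00 h01 hf hT).mul (pr_dg hl hv hσv hσ k10 k00 k01 hf')

/-- inertia acts trivially on the reduction -/
theorem pr_inertia {τ : ℂ ≃+* ℂ} (hτ : ∀ c, v c ≤ 1 → v (τ c - c) < 1) {f : FF}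
    (hf : Rep v (qx f)) : Pr v (qx (τ • f / f)) := by
  obtain ⟨c, a, b, hc, ha, hb, e⟩ := hf
  rw [map_div₀]
  refine pr_I hτ ha hb (a' := Hs.hm (τ : ℂ →+* ℂ) a) (b' := Hs.hm (τ : ℂ →+* ℂ) b)
    (fun _ => rfl) (fun _ => rfl) hc (c' := τ c) (by simpa using hc) e ?_
  rw [qx_aut, ← map_mul, e, map_mul, hm_C]
  rfl

end Crest.Agent.T15.Cg

end
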