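import Crest.Agent.T15.CgG_84
import Crest.Agent.T15.CgF_84
import Crest.Agent.T15.Bet_91
import Crest.Agent.T15.LvT_10

/-!
# Row 15, block T: the congruence relation on `Hom(Γ, ℤ/n)` (helper84)

`Inj v n Γ E` : reduction is injective on the Kummer classes in `E`; `inj_of_good`;
`es_K`, `inert_K`.
-/

set_option autoImplicit false
set_option linter.unusedSectionVars false

noncomputable section

namespace Crest.Agent.T15.Cg

open scoped NNReal MatrixGroups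
open Crest.Agent.T15.Hs Crest.Agent.T15.Mf Crest.Agent.T15.Lv Crest.Agent.T15.Bet
open Crest.Agent.T15.Hk Crest.Agent.R013.RR7_948 Crest.Agent.R013.RR8_948
open Crest.Agent.R013.RR9_948 Crest.Agent.R013.RR11_948 Crest.Agent.R013.RR12_948

variable {n : ℕ} [NeZero n] {v : Valuation ℂ ℝ≥0} {w : Valuation FF ℝ≥0}

/-- reduction is injective on the Kummer classes in `E` -/
def Inj (v : Valuation ℂ ℝ≥0) (n : ℕ) [NeZero n] (Γ : Subgroup GQ) (E : Set (HH Γ (ZMod n))) :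
    Prop := ∀ x φ, φ ∈ E → IsK n Γ x φ → Pr v (qx x) → φ = 0

theorem Inj.mono {Γ : Subgroup GQ} {E E' : Set (HH Γ (ZMod n))} (h : Inj v n Γ E) (hE : E' ⊆ E) :
    Inj v n Γ E' := fun x φ hφ => h x φ (hE hφ)

theorem Inj.eq {Γ : Subgroup GQ} {E : Set (HH Γ (ZMod n))} (h : Inj v n Γ E) {x y : FF}
    {φ ψ : HH Γ (ZMod n)} (hx : IsK n Γ x φ) (hy : IsK n Γ y ψ) (hE : φ - ψ ∈ E)
    (hp : Pr v (qx (x / y))) : φ = ψ := sub_eq_zero.1 (h _ _ hE (hx.div hy) hp)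

theorem inj_of_good {K : Type*} [Field K] [Algebra ℂ K] [Algebra (RatFunc ℂ) K]
    [IsScalarTower ℂ (RatFunc ℂ) K] [FiniteDimensional (RatFunc ℂ) K]
    {k κ : Type*} [Field k] [IsAlgClosed k] [Field κ] [Algebra k κ]
    [Algebra (RatFunc k) κ] [IsScalarTower k (RatFunc k) κ] [FiniteDimensional (RatFunc k) κ]
    [Algebra.IsSeparable (RatFunc k) κ] {r : ℂ → k} {wK : Valuation K ℝ≥0} {ρ : K → κ}
    {sp : Pl ℂ K → Pl k κ} (hG : Disc.Good v r wK ρ sp) (hw : IsG v qx w) (i : K →+* FF)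
    (hi : ∀ c, i (algebraMap ℂ K c) = algebraMap ℂ FF c) (hwK : ∀ y, wK y = w (i y))
    {Γ : Subgroup GQ} (hfix : ∀ x : FF, (∀ γ ∈ Γ, γ • x = x) ↔ ∃ y, i y = x) (hn : (n : k) ≠ 0)
    {E : Set (HH Γ (ZMod n))}
    (hdvd : ∀ y φ, φ ∈ E → IsK n Γ (i y) φ → ∀ P : Pl ℂ K, (n : ℤ) ∣ divf (k := ℂ) y P) :
    Inj v n Γ E := fun x φ hφ hx hp => by
  obtain ⟨y, rfl⟩ := (hfix x).1 hx.fixed
  have hw' : IsG v (qx.comp i) wK := by
    rw [show wK = w.comap i from Valuation.ext hwK]; exact hw.comp i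
  obtain ⟨g, rfl⟩ := pow_of_pr hG hw' (fun c => by rw [RingHom.comp_apply, hi, qx_algebraMap]) hn
    (f := y) hp ∅ (Set.injOn_empty _) fun P _ => hdvd y φ hφ hx P
  have h0 : i g ≠ 0 := fun h => hx.ne (by rw [map_pow, h, zero_pow (NeZero.ne n)])
  rw [map_pow] at hx
  exact hx.unique (IsK.of_fixed h0 ((hfix _).2 ⟨g, rfl⟩))

variable {L : ℕ} {H : Subgroup (ZMod L)ˣ} {E : Set (HH (Gq L H) (ZMod n))}

/-- **Eichler–Shimura congruence relation** on Kummer classes -/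
theorem es_K (hI : Inj v n (Gq L H) E) (hw : IsG v qx w) {l : ℕ} (hl : l.Prime) (hlL : ¬ l ∣ L)
    (hv : v (l : ℂ) < 1) {σ : ℂ ≃+* ℂ} (hσv : ∀ c, v (σ c) = v c)
    (hσ : ∀ c, v c ≤ 1 → v (σ c - c ^ l) < 1) {x : FF} {φ φT φ₁ φ₂ : HH (Gq L H) (ZMod n)}
    (hx : IsK n _ x φ) (hT : IsK n _ (nrm (Tp ℤ L l) x) φT) (h₁ : IsK n _ (σ • x) φ₁)
    (h₂ : IsK n _ (σ⁻¹ • nrm (Dia ℤ L l) x) φ₂) (hE : φT - (φ₁ + l • φ₂) ∈ E) :
    φT = φ₁ + l • φ₂ :=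
  hI.eq hT (h₁.mul (h₂.pow l)) hE (pr_Tp hw hl hlL hv hσv hσ hx.ne (T_fixed hx.fixed))

/-- inertia acts trivially -/
theorem inert_K {Γ : Subgroup GQ} {E : Set (HH Γ (ZMod n))} (hI : Inj v n Γ E) (hw : IsG v qx w)
    {τ : ℂ ≃+* ℂ} (hτ : ∀ c, v c ≤ 1 → v (τ c - c) < 1) {x : FF} {φ φ₁ : HH Γ (ZMod n)}
    (hx : IsK n _ x φ) (h₁ : IsK n _ (τ • x) φ₁) (hE : φ₁ - φ ∈ E) : φ₁ = φ :=
  hI.eq h₁ hx hE (pr_inertia hτ (hw.rep hx.ne))

end Crest.Agent.T15.Cg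

end
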