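import Crest.Agent.T15.HkChi_62
import Crest.Agent.T15.LvL_10

/-!
# Row 15, block T (helper62): the Hecke side of the Taylor–Wiles modules

`EQ` is the localisation at the Taylor–Wiles level (with `U_q ≡ α q`): it is free over `O[Δ]`
(`Aux.free`), compares with the base level (`Aux.kap_lam`), and its invariants are old (`Aux.old`).
-/

set_option autoImplicit false
set_option linter.unusedSectionVars false

noncomputable section

namespace Crest.Agent.T15.Hk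

open Finset Function
open Crest.Agent.T15.Mf Crest.Agent.T15.Lv

variable {O : Type*} [CommRing O] (A : Type*) [AddCommGroup A] [Module O A]

lemma GE_eq {M κ : Type*} [AddCommGroup M] [Module O M] (t : κ → Module.End O M) (a : κ → O) :
    GE t a = Loc t a := Submodule.ext fun _ => mem_GE

lemma tp_eq {L : ℕ} (H : Subgroup (ZMod L)ˣ) (p : Nat.Primes) : tp O A L H p = TT O A L H p :=
  (TT_eq p.2).symm

/-- the localisation of `Hom(Γ_H(L), A)` at the system `a p`, `p ∈ P` -/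
def EL (P : ℕ → Prop) (a : ℕ → O) (L : ℕ) (H : Subgroup (ZMod L)ˣ) : Submodule O (HH (Gq L H) A) :=
  Loc (fun k : Subtype P => TT O A L H k) fun k => a k

variable {A} in
lemma mem_EL {P : ℕ → Prop} {a : ℕ → O} {L : ℕ} {H : Subgroup (ZMod L)ˣ} {x : HH (Gq L H) A} :
    x ∈ EL A P a L H ↔ ∀ p, P p → LN (TT O A L H p - a p • 1) x :=
  ⟨fun h p hp => h ⟨p, hp⟩, fun h k => h k.1 k.2⟩

variable {A} in
lemma EL_comm {P : ℕ → Prop} {a : ℕ → O} {L : ℕ} {H : Subgroup (ZMod L)ˣ} {x : HH (Gq L H) A}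
    (hx : x ∈ EL A P a L H) {g : Module.End O (HH (Gq L H) A)}
    (hg : ∀ p, P p → Commute g (TT O A L H p)) : g x ∈ EL A P a L H :=
  Loc.comm hx fun k => hg k.1 k.2

variable {A} in
lemma EL_TT {P : ℕ → Prop} {a : ℕ → O} {L : ℕ} {H : Subgroup (ZMod L)ˣ} {x : HH (Gq L H) A}
    (hx : x ∈ EL A P a L H) (p : ℕ) : TT O A L H p x ∈ EL A P a L H :=
  EL_comm hx fun _ _ => TT_comm _ _

lemma GE_EL {P : ℕ → Prop} (hP : ∀ p, P p → p.Prime) (a : ℕ → O) {L : ℕ} (H : Subgroup (ZMod L)ˣ) :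
    GE (fun k : Subtype P => tp O A L H ⟨k.1, hP _ k.2⟩) (fun k => a k) = EL A P a L H := by
  rw [GE_eq, EL]
  exact congrArg (Loc · _) (funext fun k => tp_eq A H ⟨k.1, hP _ k.2⟩)

lemma EL_cen {P : ℕ → Prop} (a : ℕ → O) {L : ℕ} {H H' : Subgroup (ZMod L)ˣ} (h : H ≤ H') :
    Loc (fun k : Subtype P => T₁ A (Tc O h k)) (fun k => a k) = EL A P a L H := by
  simp only [T₁_Tc, EL]

lemma EL_cen₀ {P : ℕ → Prop} (a : ℕ → O) {L : ℕ} {H H' : Subgroup (ZMod L)ˣ} (h : H ≤ H')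
    (h' : Gq L H ≤ Gq L H') :
    Loc (fun k : Subtype P => T₀ A h' (Tc O h k)) (fun k => a k) = EL A P a L H' := by
  simp only [T₀_Tc, EL]

/-- the system with `α` at the primes of `S` -/
def aS (S : Finset ℕ) (a α : ℕ → O) (p : ℕ) : O := if p ∈ S then α p else a p

variable {r L m : ℕ} {q : Fin r → ℕ}

/-- the data of the localisation -/
structure Sy (L : ℕ) (q : Fin r → ℕ) (P : ℕ → Prop) (a α : ℕ → O) : Prop where
  prime : ∀ p, P p → p.Prime
  hq : ∀ i, P (q i)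
  un : ∀ i, Lev.Un (q i : O) (a (q i)) (α (q i))
  neis : ∃ p, P p ∧ ¬ p ∣ LQ L q ∧ IsUnit (a p - (p + 1))

/-- the localisation at the Taylor–Wiles level -/
abbrev EQ (L : ℕ) (q : Fin r → ℕ) (m : ℕ) (P : ℕ → Prop) (a α : ℕ → O) :
    Submodule O (HH (Gq (LQ L q) (H1 L q m)) A) :=
  EL A P (aS (univ.image q) a α) (LQ L q) (H1 L q m)

namespace Aux
variable [NeZero m] (h : Aux L q m) {P : ℕ → Prop} {a α : ℕ → O} (s : Sy L q P a α)
include h

variable (O) in
/-- the diamond operators -/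
abbrev dia : Dl m r →* Module.End O (HH (Gq (LQ L q) (H1 L q m)) A) := h.cov.dia O A

lemma dia_TT (δ : Dl m r) (p : ℕ) : Commute (h.dia O A δ) (TT O A (LQ L q) (H1 L q m) p) :=
  LinearMap.ext fun φ => by
    rw [← T₁_Tc (H1_le L q m), Module.End.mul_apply, Module.End.mul_apply, h.cov.dia_T₁]

lemma dia_mem (δ : Dl m r) {x : HH (Gq (LQ L q) (H1 L q m)) A} (hx : x ∈ EQ A L q m P a α) :
    h.dia O A δ x ∈ EQ A L q m P a α := EL_comm hx fun p _ => h.dia_TT A δ p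

lemma dia_eq {n : ℤ} (hn : dU (LQ L q) (sg (LQ L q) n) ∈ H0 (LQ L q)) :
    h.dia O A (chi L q m (dU (LQ L q) (sg (LQ L q) n))) = DD O A (LQ L q) (H1 L q m) n :=
  dia_eq_DD h.cov hn

lemma fin₁ [Finite A] : Finite (HH (Gq (LQ L q) (H1 L q m)) A) :=
  have := h.neZero
  have := fg_H h.four' (H1_le L q m)
  fin_HH A

include s

omit h in
lemma unit : ∃ k : Subtype P,
    IsUnit (aS (univ.image q) a α k - deg (Tc O (H1_le L q m) k).1) := by
  obtain ⟨p, h1, h2, h3⟩ := s.neis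
  refine ⟨⟨p, h1⟩, ?_⟩
  rwa [deg_Tc _ (s.prime p h1) h2, aS, if_neg]
  simp only [mem_image, mem_univ, true_and, not_exists]
  rintro i rfl
  exact h2 (q_dvd_LQ L q i)

/-- **freeness** -/
theorem free [IsLocalRing O] [Finite A] [Module.Free O A] {p : ℕ} (hp : p.Prime)
    (hO : IsNilpotent (p : O)) (hΔ : IsPGroup p (Dl m r)) :
    ∃ (d : ℕ) (b : Fin d → HH (Gq (LQ L q) (H1 L q m)) A),
      LinearIndependent O (fun x : Dl m r × Fin d => h.dia O A x.1 (b x.2)) ∧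
      Submodule.span O (Set.range fun x : Dl m r × Fin d => h.dia O A x.1 (b x.2)) =
        EQ A L q m P a α := by
  obtain ⟨k, hk⟩ := unit (m := m) s
  have := h.neZero
  have := h.fin₁ A
  have := free_H h.four' le_rfl
  have := fg_H h.four' le_rfl
  obtain ⟨d, b, -, -, h1, h2⟩ := free_loc' (A := A) h.cov hp hO hΔ
    (t := fun k : Subtype P => Tc O (H1_le L q m) k) (fun i j => T₁_comm (Tc_comm _ _ _))
    (a := fun k => aS (univ.image q) a α k) hk
  exact ⟨d, b, h1, h2.trans (EL_cen A _ _)⟩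

/-- the invariants come from the level `Γ₀(Q)` -/
theorem exists_res [Finite A] {x : HH (Gq (LQ L q) (H1 L q m)) A} (hx : x ∈ EQ A L q m P a α)
    (hd : ∀ δ, h.dia O A δ x = x) :
    ∃ y ∈ EL A P (aS (univ.image q) a α) (LQ L q) (H0 (LQ L q)), res O A h.cov.le y = x := by
  obtain ⟨k, hk⟩ := unit (m := m) s
  have := h.fin₁ A
  have := free_H h.four' le_rfl
  rw [← EL_cen₀ A _ (H1_le L q m) h.cov.le]
  exact exists_res_loc h.cov (t := fun k : Subtype P => Tc O (H1_le L q m) k)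
    (fun i j => T₁_comm (Tc_comm _ _ _)) hk (by rwa [EL_cen]) hd

/-- **the invariants are old at `q i`** -/
theorem old [Finite A] (i : Fin r) {x : HH (Gq (LQ L q) (H1 L q m)) A} (hx : x ∈ EQ A L q m P a α)
    (hd : ∀ δ, h.dia O A δ x = x) :
    ∃ y ∈ EL A P (aS ((univ.image q).erase (q i)) a α) (LQ' L q i) (H0 (LQ' L q i)),
    ∃ z ∈ EL A P (aS ((univ.image q).erase (q i)) a α) (LQ' L q i) (H0 (LQ' L q i)),
      x = res O A h.cov.le (res O A (h.stp i).le y) + res O A h.cov.le ((h.stp i).dgn O A z) := by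
  obtain ⟨v, hv, rfl⟩ := h.exists_res A s hx hd
  rw [← GE_EL A s.prime] at hv ⊢
  obtain ⟨y, hy, z, hz, rfl⟩ := (h.stp i).old A (pr := fun k : Subtype P => ⟨k.1, s.prime _ k.2⟩)
    (k₀ := ⟨q i, s.hq i⟩) (a := fun k => aS ((univ.image q).erase (q i)) a α k)
    (fun k => ⟨fun e => Subtype.ext e, fun e => congrArg Subtype.val e⟩) (by simpa [aS] using s.un i)
    (fun k hk => by simp only [aS, mem_erase, ne_eq, Subtype.ext_iff.not.1 hk, not_false_iff,
      true_and]) hv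
  exact ⟨y, hy, z, hz, map_add _ _ _⟩

/-- **comparison with the base level** -/
theorem kap_lam [Finite A] :
    ∃ (kap : HH (Gq (LQ L q) (H1 L q m)) A →ₗ[O] HH (Gq L (H0 L)) A)
      (lam : HH (Gq L (H0 L)) A →ₗ[O] HH (Gq (LQ L q) (H1 L q m)) A),
      (∀ x ∈ EQ A L q m P a α, kap x = 0 → ∑ y, h.dia O A y x = 0) ∧
      (∀ p, p.Prime → (∀ i, p ≠ q i) → ∀ x ∈ EQ A L q m P a α,
        kap (TT O A (LQ L q) (H1 L q m) p x) = TT O A L (H0 L) p (kap x)) ∧
      (∀ φ, lam φ ∈ EQ A L q m P a α) ∧ (∀ y φ, h.dia O A y (lam φ) = lam φ) ∧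
      (∀ p, p.Prime → (∀ i, p ≠ q i) → ∀ φ,
        TT O A (LQ L q) (H1 L q m) p (lam φ) = lam (TT O A L (H0 L) p φ)) ∧
      ∀ φ ∈ EL A P a L (H0 L), lam φ = 0 → φ = 0 := by
  obtain ⟨k, hk⟩ := unit (m := m) s
  have : NeZero L := ⟨h.pos.ne'⟩
  have := fg_H h.four le_rfl
  have := fin_HH (Γ := Gq L (H0 L)) A
  obtain ⟨tr, h1, h2⟩ := h.tw.chain A (pr := fun k : Subtype P => ⟨k.1, s.prime _ k.2⟩)
    (a := fun k => a k) (α := fun k => α k)
    (fun k k' e => Subtype.ext (congrArg (fun p : Nat.Primes => p.1) e))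
    (by simpa using s.hq) (fun k hk => by
      obtain ⟨i, -, hi⟩ := mem_image.1 hk
      simpa [← show q i = k.1 from hi] using s.un i)
  have e0 := GE_EL A s.prime (aS (univ.image q) a α) (H0 (LQ L q))
  simp only [aS] at e0
  rw [e0, GE_EL A s.prime] at h1
  rw [e0] at h2
  simp only [tp_eq] at h2
  have h3 : ∀ p, p.Prime → (∀ i, p ≠ q i) → ∀ v ∈ EL A P (aS (univ.image q) a α) (LQ L q)
      (H0 (LQ L q)), tr (TT O A _ _ p v) = TT O A L (H0 L) p (tr v) := fun p hp hq =>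
    h2 ⟨p, hp⟩ (by simpa using fun i => (hq i).symm)
  obtain ⟨η, h4, h5⟩ := exists_proj₀ (s := fun k : Subtype P => TT O A L (H0 L) k)
    (fun _ _ => TT_comm _ _) fun k => a k
  let e := LinearEquiv.ofBijective (tr.restrict (p := EL A P _ _ _) (q := EL A P a L (H0 L))
    fun _ hx => h1.mapsTo hx) h1.bijective
  let σ := (EL A P _ _ _).subtype ∘ₗ e.symm.toLinearMap ∘ₗ η.codRestrict (EL A P a L (H0 L)) h5.1
  have σ1 : ∀ φ, σ φ ∈ EL A P (aS (univ.image q) a α) (LQ L q) (H0 (LQ L q)) := fun φ =>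
    (e.symm _).2
  have σ2 : ∀ φ, tr (σ φ) = η φ := fun φ => congrArg Subtype.val (e.apply_symm_apply _)
  have c1 : ∀ x ∈ EQ A L q m P a α, h.cov.cores O A x ∈
      EL A P (aS (univ.image q) a α) (LQ L q) (H0 (LQ L q)) := fun x hx => by
    rw [← EL_cen₀ A _ (H1_le L q m) h.cov.le]
    exact cores_loc h.cov (by rwa [EL_cen])
  refine ⟨tr ∘ₗ h.cov.cores O A, res O A h.cov.le ∘ₗ σ, fun x hx h0 => ?_, fun p hp hq x hx => ?_,
    fun φ => ?_, fun y φ => h.cov.dia_res y _, fun p hp hq φ => ?_, fun φ hφ h0 => ?_⟩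
  · rw [← h.cov.res_cores, h1.injOn (c1 x hx) (zero_mem _) (h0.trans (map_zero tr).symm), map_zero]
  · rw [LinearMap.comp_apply, ← T₁_Tc (H1_le L q m), h.cov.cores_T₁, T₀_Tc, h3 p hp hq _ (c1 x hx)]
    rfl
  · rw [EQ, ← EL_cen A _ (H1_le L q m)]
    exact res_loc h.cov.le (by rw [EL_cen₀]; exact σ1 φ)
  · rw [LinearMap.comp_apply, ← T₁_Tc (H1_le L q m), ← res_T₀ h.cov.le, T₀_Tc, LinearMap.comp_apply]
    refine congrArg _ (h1.injOn (EL_TT (σ1 φ) p) (σ1 _) ?_)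
    rw [h3 p hp hq _ (σ1 φ), σ2, σ2]
    exact LinearMap.congr_fun (Algebra.commute_of_mem_adjoin_of_forall_mem_commute
      (a := TT O A L (H0 L) p) h4 (by
      rintro _ ⟨k, rfl⟩; exact TT_comm _ _)).eq φ
  · rw [← h5.2 φ hφ, ← σ2, res_inj_loc h.cov.le (t := fun k : Subtype P => Tc O (H1_le L q m) k)
      (a := fun k => aS (univ.image q) a α k) hk (by rw [EL_cen₀]; exact σ1 φ) h0, map_zero]

end Aux

end Crest.Agent.T15.Hk

end
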