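import Crest.Agent.T15.CgJ_84
import Crest.Agent.T15.HkTw_62
import Crest.Agent.T15.Par_12

/-!
# Row 15, block T: non Eisenstein localisations are parabolic (helper84)

`NE P a`, `parS_of_EL`, `NE.parS`, `NE.hE`.
-/

set_option autoImplicit false
set_option linter.unusedSectionVars false

noncomputable section

namespace Crest.Agent.T15.Cg

open Crest.Agent.T15.Mf Crest.Agent.T15.Lv Crest.Agent.T15.Bet Crest.Agent.T15.Hk

variable {O : Type*} [CommRing O] {A : Type*} [AddCommGroup A] [Module O A] {P : ℕ → Prop}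
  {a : ℕ → O} {M : ℕ} {H : Subgroup (ZMod M)ˣ} {x : HH (Gq M H) A}

theorem parS_of_EL (hx : x ∈ EL A P a M H) {p : ℕ} (hP : P p) (hp : p.Prime) (hM : p ≡ 1 [MOD M])
    (hu : IsUnit (a p - (p + 1))) : ParS (GH M H) x := fun γ hγ ht => by
  obtain ⟨k, hk⟩ := mem_EL.1 hx p hP
  rw [TT_eq hp, ← Algebra.algebraMap_eq_smul_one] at hk
  exact Par.parabolic_of_nil hp (by exact_mod_cast hM.symm.dvd) _ hu hk hγ ht

/-- the system `a p`, `p ∈ P`, is not Eisenstein -/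
def NE (P : ℕ → Prop) (a : ℕ → O) : Prop :=
  ∀ M B : ℕ, M ≠ 0 → ∃ p, P p ∧ p.Prime ∧ B < p ∧ p ≡ 1 [MOD M] ∧ IsUnit (a p - (p + 1))

/-- from the words of `R.NEis`, `R.Gd` -/
theorem NE.of {O' : Type*} [CommRing O'] (f : O →+* O') {N : ℕ} (hN : N ≠ 0)
    (hP : ∀ p, p.Prime ∧ ¬ p ∣ N → P p)
    (h : ∀ M B : ℕ, M ≠ 0 → ∃ p : ℕ, p.Prime ∧ B < p ∧ p ≡ 1 [MOD M] ∧ IsUnit (a p - p - 1)) :
    NE P fun p => f (a p) := fun M B hM => by
  obtain ⟨p, h1, h2, h3, h4⟩ := h M (max B N) hM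
  refine ⟨p, hP p ⟨h1, fun h => ?_⟩, h1, (le_max_left _ _).trans_lt h2, h3, ?_⟩
  · exact absurd (Nat.le_of_dvd (Nat.pos_of_ne_zero hN) h) (not_le.2 ((le_max_right _ _).trans_lt h2))
  · simpa [sub_sub] using h4.map f

theorem NE.aS (h : NE P a) (S : Finset ℕ) (α : ℕ → O) : NE P (aS S a α) := fun M B hM => by
  obtain ⟨p, h1, h2, h3, h4, h5⟩ := h M (max B (S.sup id)) hM
  refine ⟨p, h1, h2, (le_max_left _ _).trans_lt h3, h4, ?_⟩
  rwa [Hk.aS, if_neg fun hp =>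
    absurd (Finset.le_sup (f := id) hp) (not_le.2 ((le_max_right _ _).trans_lt h3))]

/-- the field `neis` of `Hk.Sy` -/
theorem NE.neis (h : NE P a) {N : ℕ} (hN : N ≠ 0) : ∃ p, P p ∧ ¬ p ∣ N ∧ IsUnit (a p - (p + 1)) := by
  obtain ⟨p, h1, -, h3, -, h5⟩ := h 1 N one_ne_zero
  exact ⟨p, h1, fun h => absurd (Nat.le_of_dvd (Nat.pos_of_ne_zero hN) h) (not_le.2 h3), h5⟩

theorem NE.parS (h : NE P a) (hM : M ≠ 0) (hx : x ∈ EL A P a M H) : ParS (GH M H) x := by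
  obtain ⟨p, h1, h2, -, h4, h5⟩ := h M 0 hM
  exact parS_of_EL hx h1 h2 h4 h5

/-- all levels, `α` at the primes of `S` -/
theorem NE.parS' (h : NE P a) (hM : M ≠ 0) {S : Finset ℕ} {α : ℕ → O}
    (hx : x ∈ EL A P (Hk.aS S a α) M H) : ParS (GH M H) x := (h.aS S α).parS hM hx

/-- the hypothesis `hE` of `gal_unr`, `gal_es` -/
theorem NE.hE (h : NE P a) (hM : M ≠ 0) {S : Finset ℕ} {α : ℕ → O} {B : Type*} [AddCommGroup B]
    (l : A →+ B) (hx : x ∈ EL A P (Hk.aS S a α) M H) :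
    l.comp x ∈ {φ : HH (Gq M H) B | ParS (GH M H) φ} := (h.parS' hM hx).comp l

end Crest.Agent.T15.Cg

end
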