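import Crest.Agent.T15.PlB_32

/-!
# T15 / PlC (helper32): the places of `F Γ`

* `pz Γ z`, `pc Γ g : Pl ℂ (F Γ)`; `exists_pz`, `exists_pc`, `pl_cases` (exhaustion);
* `pz_v` (`Γ ≤ Γ₁(4)`): `(pz Γ z).v f = vM z f`; `exists_vM`;
* `Wd Γ g h` the width, `wd Γ g`; `pc_log`, `divf_pc`, `divf_pz`, `dvd_divf_iff`;
* `eR_pz = 1`, `eR_pc * wd Γ g = wd Γ' g`, `pc_eq_iff`.
-/

set_option autoImplicit false
set_option linter.all false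

noncomputable section

namespace Crest.Agent.T15.Pl

open UpperHalfPlane hiding I
open WithZero ModularForm CongruenceSubgroup
open scoped MatrixGroups Manifold
open Crest.Agent.T15.Mf Crest.Agent.T15.Hs Crest.Agent.T15.Bet
open Crest.Agent.R013.RR7_948 Crest.Agent.R013.RR8_948 Crest.Agent.R013.RR9_948
open Crest.Agent.R013.RR11_948 Crest.Agent.R013.RR12_948 Crest.Agent.R013.RR13_948
open Crest.Agent.R013.RR18_948 Crest.Agent.R013.RR19_948 Crest.Agent.R013.RR20_948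
open Crest.Agent.R013.RR21_948 Crest.Agent.R013.RR22_948

instance algFFF (Γ : Subgroup SL(2, ℤ)) : Algebra (F Γ) FF := inferInstance

theorem algebraMap_F (Γ : Subgroup SL(2, ℤ)) (x : F Γ) : algebraMap (F Γ) FF x = (x : FF) := rfl

instance (Γ : Subgroup SL(2, ℤ)) : IsScalarTower ℂ (F Γ) FF :=
  IsScalarTower.of_algebraMap_eq fun _ => rfl

instance (Γ Γ' : Subgroup SL(2, ℤ)) [Fact (Γ' ≤ Γ)] : IsScalarTower (F Γ) (F Γ') FF :=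
  IsScalarTower.of_algebraMap_eq fun _ => rfl

theorem coe_xK (Γ : Subgroup SL(2, ℤ)) : ((xK ℂ (F Γ) : F Γ) : FF) = jj := algebraMap_X

theorem map_xK (Γ : Subgroup SL(2, ℤ)) : algebraMap (F Γ) FF (xK ℂ (F Γ)) = jj := algebraMap_X

instance (Γ : Subgroup SL(2, ℤ)) : HasJ (F Γ) := ⟨⟨xK ℂ (F Γ), coe_xK Γ⟩⟩

instance (Γ Γ' : Subgroup SL(2, ℤ)) [Fact (Γ' ≤ Γ)] [Γ'.FiniteIndex] :
    Algebra.IsSeparable (F Γ) (F Γ') :=
  Algebra.isSeparable_tower_top_of_isSeparable (RatFunc ℂ) (F Γ) (F Γ')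

theorem gal_act (N : Subgroup SL(2, ℤ)) [N.Normal] [N.FiniteIndex] : Gal (act N) :=
  ⟨coe_xK N, act_surjective N, fun g x => coe_act N g x⟩

variable (Γ : Subgroup SL(2, ℤ)) [Γ.FiniteIndex]

instance factCore : Fact (Γ.normalCore ≤ Γ) := ⟨Γ.normalCore_le⟩

/-- the place of a point of `ℍ` -/
abbrev pz (z : ℍ) : Pl ℂ (F Γ) := plz (F Γ) z

/-- the place of the cusp `g ∞` -/
abbrev pc (g : SL(2, ℤ)) : Pl ℂ (F Γ) := plc (F Γ) g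

variable {Γ}

theorem exists_pz (P : Pl ℂ (F Γ)) (hP : P.v (xK ℂ (F Γ)) ≤ 1) : ∃ z, P = pz Γ z :=
  (gal_act Γ.normalCore).exists_plz (map_xK Γ) P hP

theorem exists_pc (P : Pl ℂ (F Γ)) (hP : 1 < P.v (xK ℂ (F Γ))) : ∃ g, P = pc Γ g :=
  (gal_act Γ.normalCore).exists_plc (map_xK Γ) P hP

/-- **every place is a point of `ℍ` or a cusp** -/
theorem pl_cases (P : Pl ℂ (F Γ)) : (∃ z, P = pz Γ z) ∨ ∃ g, P = pc Γ g :=
  (le_or_gt (P.v (xK ℂ (F Γ))) 1).imp (exists_pz P) (exists_pc P)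

theorem pz_j (z : ℍ) : (pz Γ z).v (xK ℂ (F Γ)) ≤ 1 := plz_j (map_xK Γ) z

theorem pc_j (g : SL(2, ℤ)) : 1 < (pc Γ g).v (xK ℂ (F Γ)) := plc_j (map_xK Γ) g

theorem pz_le_one {z : ℍ} {f : F Γ} : (pz Γ z).v f ≤ 1 ↔ vM z ((f : FF) : Mer) ≤ 1 := plz_le_one

theorem pz_lt_one {z : ℍ} {f : F Γ} : (pz Γ z).v f < 1 ↔ vM z ((f : FF) : Mer) < 1 := plz_lt_one

theorem pc_le_one {g : SL(2, ℤ)} {f : F Γ} :
    (pc Γ g).v f ≤ 1 ↔ 0 ≤ (qx (g⁻¹ • (f : FF))).order := plc_le_one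

theorem pc_lt_one {g : SL(2, ℤ)} {f : F Γ} (hf : f ≠ 0) :
    (pc Γ g).v f < 1 ↔ 0 < (qx (g⁻¹ • (f : FF))).order := plc_lt_one hf

theorem pz_smul {γ : SL(2, ℤ)} (h : γ ∈ pm Γ) (z : ℍ) : pz Γ (γ • z) = pz Γ z :=
  plz_smul (fun x => smul_eq_of_mem_pm h x.2) z

theorem pc_mul {γ : SL(2, ℤ)} (h : γ ∈ pm Γ) (g : SL(2, ℤ)) : pc Γ (γ * g) = pc Γ g :=
  plc_mul (fun x => smul_eq_of_mem_pm h x.2) g

theorem exists_unif' (h4 : Γ ≤ Gamma1 4) (z : ℍ) :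
    ∃ x : F Γ, vz z (algebraMap (F Γ) FF x) = exp (-1) := by
  obtain ⟨x, hx, hx'⟩ := exists_unif z
  exact ⟨⟨x, fun γ hγ => hx γ (h4 hγ)⟩, hx'⟩

/-- for `Γ ≤ Γ₁(4)` the place of `z` is the order at `z` -/
theorem pz_v (h4 : Γ ≤ Gamma1 4) (z : ℍ) (f : F Γ) : (pz Γ z).v f = vM z ((f : FF) : Mer) :=
  plz_v (exists_unif' h4 z) f

theorem exists_vM (h4 : Γ ≤ Gamma1 4) (P : Pl ℂ (F Γ)) (hP : P.v (xK ℂ (F Γ)) ≤ 1) :
    ∃ z, ∀ f : F Γ, P.v f = vM z ((f : FF) : Mer) := by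
  obtain ⟨z, rfl⟩ := exists_pz P hP
  exact ⟨z, pz_v h4 z⟩

theorem divf_eq_log {f : F Γ} (hf : f ≠ 0) (P : Pl ℂ (F Γ)) :
    divf (k := ℂ) f P = -log (P.v f) := by
  rw [v_eq hf, log_exp, neg_neg]

theorem divf_pz (h4 : Γ ≤ Gamma1 4) {f : F Γ} (hf : f ≠ 0) (z : ℍ) :
    divf (k := ℂ) f (pz Γ z) = -log (vM z ((f : FF) : Mer)) := by
  rw [divf_eq_log hf, pz_v h4]

/-! ### widths -/

variable (Γ) in
/-- `h` is the width of the cusp `g ∞` -/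
def Wd (g : SL(2, ℤ)) (h : ℕ) : Prop :=
  ∀ n : ℤ, g * ModularGroup.T ^ n * g⁻¹ ∈ pm Γ ↔ (h : ℤ) ∣ n

theorem isWd_iff (hΓ : IsCongruenceSubgroup Γ) {g : SL(2, ℤ)} {h : ℕ} :
    IsWd (F Γ) g h ↔ Wd Γ g h :=
  forall_congr' fun n => by
    rw [← fix_iff hΓ]
    exact iff_congr ⟨fun H x hx => H ⟨x, hx⟩, fun H x => H x x.2⟩ Iff.rfl

variable (Γ) in
/-- the width of the cusp `g ∞` -/
def wd (g : SL(2, ℤ)) : ℕ := ((gal_act Γ.normalCore).exists_wd (K := F Γ) g).choose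

theorem wd_pos (g : SL(2, ℤ)) : 0 < wd Γ g :=
  ((gal_act Γ.normalCore).exists_wd (K := F Γ) g).choose_spec.1

theorem isWd_wd (g : SL(2, ℤ)) : IsWd (F Γ) g (wd Γ g) :=
  ((gal_act Γ.normalCore).exists_wd (K := F Γ) g).choose_spec.2

theorem wd_spec (hΓ : IsCongruenceSubgroup Γ) (g : SL(2, ℤ)) : Wd Γ g (wd Γ g) :=
  (isWd_iff hΓ).mp (isWd_wd g)

theorem Wd.unique {g : SL(2, ℤ)} {h h' : ℕ} (H : Wd Γ g h) (H' : Wd Γ g h') : h = h' :=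
  Nat.dvd_antisymm (Int.natCast_dvd_natCast.mp ((H _).mp ((H' _).mpr dvd_rfl)))
    (Int.natCast_dvd_natCast.mp ((H' _).mp ((H _).mpr dvd_rfl)))

theorem Wd.eq (hΓ : IsCongruenceSubgroup Γ) {g : SL(2, ℤ)} {h : ℕ} (H : Wd Γ g h) : wd Γ g = h :=
  (wd_spec hΓ g).unique H

/-- the pole order of `j` at a cusp is the width -/
theorem pc_v_j (g : SL(2, ℤ)) : (pc Γ g).v (xK ℂ (F Γ)) = exp (wd Γ g : ℤ) :=
  (gal_act Γ.normalCore).plc_v_j (isWd_wd g)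

/-- **the order at a cusp** -/
theorem pc_log (g : SL(2, ℤ)) (f : F Γ) :
    ((log ((pc Γ g).v f) : ℤ) : ℚ) = -(wd Γ g * (qx (g⁻¹ • (f : FF))).order) :=
  (gal_act Γ.normalCore).plc_log (isWd_wd g) f

theorem divf_pc {f : F Γ} (hf : f ≠ 0) (g : SL(2, ℤ)) :
    (divf (k := ℂ) f (pc Γ g) : ℚ) = wd Γ g * (qx (g⁻¹ • (f : FF))).order := by
  rw [divf_eq_log hf, Int.cast_neg, pc_log, neg_neg]

theorem divf_pc_eq {f : F Γ} (hf : f ≠ 0) {g : SL(2, ℤ)} {m : ℤ}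
    (h : ((wd Γ g : ℤ) : ℚ) * (qx (g⁻¹ • (f : FF))).order = m) : divf (k := ℂ) f (pc Γ g) = m := by
  have := divf_pc hf g
  rw [Int.cast_natCast] at h
  rw [h] at this
  exact_mod_cast this

/-- divisibility of the divisor off the cusps -/
theorem dvd_divf_off (h4 : Γ ≤ Gamma1 4) {f : F Γ} (hf : f ≠ 0) (n : ℤ) :
    (∀ P : Pl ℂ (F Γ), P.v (xK ℂ (F Γ)) ≤ 1 → n ∣ divf (k := ℂ) f P) ↔
      ∀ z, n ∣ log (vM z ((f : FF) : Mer)) := by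
  refine ⟨fun h z => ?_, fun h P hP => ?_⟩
  · have := h _ (pz_j z)
    rwa [divf_pz h4 hf, dvd_neg] at this
  · obtain ⟨z, rfl⟩ := exists_pz P hP
    rw [divf_pz h4 hf, dvd_neg]
    exact h z

/-- divisibility of the divisor -/
theorem dvd_divf_iff (h4 : Γ ≤ Gamma1 4) {f : F Γ} (hf : f ≠ 0) (n : ℤ) :
    (∀ P : Pl ℂ (F Γ), n ∣ divf (k := ℂ) f P) ↔ (∀ z, n ∣ log (vM z ((f : FF) : Mer))) ∧
      ∀ (g : SL(2, ℤ)) (m : ℤ), ((wd Γ g : ℤ) : ℚ) * (qx (g⁻¹ • (f : FF))).order = m → n ∣ m := by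
  refine ⟨fun h => ⟨(dvd_divf_off h4 hf n).mp fun P _ => h P, fun g m hm => ?_⟩, fun h P => ?_⟩
  · rw [← divf_pc_eq hf hm]; exact h _
  · rcases pl_cases P with ⟨z, rfl⟩ | ⟨g, rfl⟩
    · exact (dvd_divf_off h4 hf n).mpr h.1 _ (pz_j z)
    · exact h.2 g _ (by rw [divf_pc hf, Int.cast_natCast])

/-- two cusps give the same place -/
theorem pc_eq_iff (hΓ : IsCongruenceSubgroup Γ) {g g' : SL(2, ℤ)} :
    pc Γ g' = pc Γ g ↔ ∃ γ ∈ pm Γ, ∃ n : ℤ, g' = γ * g * ModularGroup.T ^ n := by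
  constructor
  · intro h
    obtain ⟨γ, n, h1, h2⟩ := (gal_act Γ.normalCore).plc_eq h
    exact ⟨γ, (fix_iff hΓ γ).mp fun x hx => h1 ⟨x, hx⟩, n, h2⟩
  · rintro ⟨γ, hγ, n, rfl⟩
    exact (plc_mul_T _ n).trans (pc_mul hγ g)

/-! ### two levels -/

variable {Γ' : Subgroup SL(2, ℤ)} [Γ'.FiniteIndex] [Fact (Γ' ≤ Γ)]

theorem under_pz (z : ℍ) : under (F Γ) (pz Γ' z) = pz Γ z := under_plz z

theorem under_pc (g : SL(2, ℤ)) : under (F Γ) (pc Γ' g) = pc Γ g := under_plc g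

theorem eR_pz (h4 : Γ ≤ Gamma1 4) (z : ℍ) : eR (F Γ) (pz Γ' z) = 1 := eR_plz (exists_unif' h4 z)

/-- no ramification off the cusps -/
theorem eR_off (h4 : Γ ≤ Gamma1 4) (Q : Pl ℂ (F Γ')) (hQ : Q.v (xK ℂ (F Γ')) ≤ 1) :
    eR (F Γ) Q = 1 := by
  obtain ⟨z, rfl⟩ := exists_pz Q hQ
  exact eR_pz h4 z

theorem eR_pc (g : SL(2, ℤ)) : eR (F Γ) (pc Γ' g) * wd Γ g = wd Γ' g := by
  have h := v_algebraMap_exp (K := F Γ) (pc Γ' g) (f := xK ℂ (F Γ)) (n := wd Γ g)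
    (by rw [under_pc, pc_v_j])
  rw [algebraMap_xK, pc_v_j, exp_inj] at h
  exact_mod_cast h.symm

theorem eR_pc_rat (g : SL(2, ℤ)) : eR (RatFunc ℂ) (pc Γ g) = wd Γ g := by
  have h1 : 1 < (under (RatFunc ℂ) (pc Γ g)).v RatFunc.X :=
    not_le.mp fun h => (pc_j g).not_ge ((under_le_one_iff _ _).mp h)
  have h2 := v_algebraMap_exp (pc Γ g) (Crest.Agent.R013.RR28_948.ratFunc_infinite _ h1).1
  have h3 := pc_v_j (Γ := Γ) g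
  rw [xK] at h3
  rw [map_inv₀, map_inv₀, h3, ← exp_neg, exp_inj] at h2
  omega

end Crest.Agent.T15.Pl
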