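import Crest.Agent.T15.CgJ_84
import Crest.Agent.T15.PlC_32

/-!
# Row 15, block T: `DvdStmt` (helper84)
-/

set_option autoImplicit false

noncomputable section

namespace Crest.Agent.T15.Cg

open CongruenceSubgroup
open Crest.Agent.T15.Mf Crest.Agent.T15.Lv Crest.Agent.T15.Bet Crest.Agent.T15.Hk

theorem dvdStmt : DvdStmt := fun M _ H h4 hH n _ y φ hφ hy => by
  have h0 : y ≠ 0 := fun h => hy.ne (by rw [h]; rfl)
  refine (Pl.dvd_divf_iff (GH_le_G4 h4 hH) h0 n).2 ⟨hy.dvd, fun g m hm => ?_⟩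
  obtain ⟨m', e⟩ := (IsK.parS_iff hy).1 hφ g (Pl.wd (GH M H) g)
    ((Pl.wd_spec ⟨M, NeZero.ne M, Gamma_le_GH⟩ g _).2 dvd_rfl)
  exact ⟨m', by exact_mod_cast hm.symm.trans e⟩

end Crest.Agent.T15.Cg

end
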