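import Crest.Agent.T27.HeckeG_87
import Crest.Agent.T27.EulZ_52
import Crest.Agent.T27.Split_52

/-!
# Row 15, Chebotarev, part A: logarithmic densities and primes of `K` with prescribed norm class
-/

set_option autoImplicit false

noncomputable section

namespace Crest.Agent.T15.Cheb

open NumberField Filter Topology Complex LSeries
open Crest.Agent.T27
open Crest.Agent.R014.EulC_534 (rE)
open scoped ComplexOrder

/-- bounded coefficients -/
def Bd (a : ℕ → ℂ) : Prop := ∃ C, ∀ n ≠ 0, ‖a n‖ ≤ C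

/-- `∑ a(n) log n n^{-s} ∼ d / (s - 1)` -/
def Res (a : ℕ → ℂ) (d : ℂ) : Prop :=
  Tendsto (fun s : ℝ => ((s : ℂ) - 1) * LSeries (logMul a) s) (𝓝[>] 1) (𝓝 d)

theorem Bd.abs {a : ℕ → ℂ} (h : Bd a) {s : ℂ} (hs : 1 < s.re) : abscissaOfAbsConv a < s.re :=
  (abscissaOfAbsConv_le_of_le_const h).trans_lt (by exact_mod_cast hs)

theorem Bd.summ {a : ℕ → ℂ} (h : Bd a) {s : ℂ} (hs : 1 < s.re) : LSeriesSummable (logMul a) s :=
  LSeriesSummable_logMul_of_lt_re (h.abs hs)

theorem Res.unique {a : ℕ → ℂ} {d d' : ℂ} (h : Res a d) (h' : Res a d') : d = d' :=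
  tendsto_nhds_unique h h'

theorem Res.sum {ι : Type*} (T : Finset ι) {a : ι → ℕ → ℂ} {d : ι → ℂ} (c : ι → ℂ)
    (hb : ∀ i, Bd (a i)) (h : ∀ i ∈ T, Res (a i) (d i)) {b : ℕ → ℂ}
    (hs : ∀ n, b n = ∑ i ∈ T, c i * a i n) : Res b (∑ i ∈ T, c i * d i) := by
  have h1 := tendsto_finsetSum T fun i hi => (h i hi).const_mul (c i)
  refine h1.congr' ?_
  filter_upwards [self_mem_nhdsWithin] with s hs1
  have hs2 : 1 < (s : ℂ).re := by simpa using hs1
  have h2 : HasSum (fun n => ∑ i ∈ T, c i * term (logMul (a i)) s n)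
      (∑ i ∈ T, c i * LSeries (logMul (a i)) s) :=
    hasSum_sum fun i _ => ((hb i).summ hs2).hasSum.mul_left (c i)
  have h3 : LSeries (logMul b) s = ∑ i ∈ T, c i * LSeries (logMul (a i)) s := by
    refine (h2.congr_fun fun n => ?_).tsum_eq
    rcases eq_or_ne n 0 with rfl | hn
    · simp
    · simp only [term_of_ne_zero hn, logMul, hs n, Finset.mul_sum, Finset.sum_div]
      exact Finset.sum_congr rfl fun i _ => by ring
  rw [h3, Finset.mul_sum]
  exact Finset.sum_congr rfl fun i _ => by ring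

theorem Res.nonneg {a : ℕ → ℂ} {d : ℂ} (h : Res a d) (ha : ∀ n, 0 ≤ a n) : 0 ≤ d := by
  refine ge_of_tendsto h ?_
  filter_upwards [self_mem_nhdsWithin] with s hs
  have hs1 : (1 : ℝ) < s := hs
  refine mul_nonneg (by exact_mod_cast sub_nonneg.2 hs1.le) (tsum_nonneg fun n => ?_)
  refine term_nonneg ?_ s
  rw [logMul, ← natCast_log]
  exact mul_nonneg (by exact_mod_cast Real.log_natCast_nonneg n) (ha n)

theorem res_zero {a : ℕ → ℂ} {B : ℕ} (h : ∀ n, B < n → a n = 0) : Res a 0 := by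
  have h1 : LSeriesSummable (logMul a) (0 : ℝ) := by
    refine summable_of_ne_finset_zero (s := Finset.range (B + 1)) fun n hn => ?_
    have hn' : B < n := by simpa using hn
    rw [term_of_ne_zero (by omega), logMul, h n hn']
    simp
  have h2 : abscissaOfAbsConv (logMul a) < (1 : ℂ).re :=
    h1.abscissaOfAbsConv_le.trans_lt (by simp)
  have h3 : ContinuousAt (fun s : ℂ => (s - 1) * LSeries (logMul a) s) 1 :=
    (continuousAt_id.sub continuousAt_const).mul (LSeries_hasDerivAt h2).continuousAt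
  have h4 := (h3.tendsto.comp (continuous_ofReal.tendsto' 1 1 ofReal_one)).mono_left
    (nhdsWithin_le_nhds (s := Set.Ioi 1))
  simpa [Res, Function.comp_def] using h4

/-- sets with `∑ log n / n < ∞` -/
def Sm (A : Set ℕ) : Prop := Summable fun n : ℕ => A.indicator (fun n => Real.log n / n) n

theorem sm_le (B : ℕ) : Sm {n | n ≤ B} :=
  summable_of_ne_finset_zero (s := Finset.range (B + 1)) fun n hn =>
    Set.indicator_of_notMem (by simpa using hn) _

theorem Sm.union {A A' : Set ℕ} (h : Sm A) (h' : Sm A') : Sm (A ∪ A') := by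
  have h0 : ∀ n : ℕ, 0 ≤ Real.log n / n := fun n =>
    div_nonneg (Real.log_natCast_nonneg n) n.cast_nonneg
  refine (Summable.add h h').of_nonneg_of_le (fun n => Set.indicator_nonneg (fun n _ => h0 n) n)
    fun n => ?_
  have := h0 n
  by_cases h1 : n ∈ A <;> by_cases h2 : n ∈ A' <;> simp [h1, h2, this]

theorem res_small {a : ℕ → ℂ} (ha : Bd a) {A : Set ℕ} (hA : Sm A) (h : ∀ n, n ∉ A → a n = 0) :
    Res a 0 := by
  obtain ⟨C, hC⟩ := ha
  have h1 : Tendsto (fun s : ℝ => (s - 1) * ∑' n : ℕ, C * A.indicator (fun n => Real.log n / n) n)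
      (𝓝[>] 1) (𝓝 0) := by
    have : Continuous fun s : ℝ => (s - 1) * ∑' n : ℕ, C * A.indicator (fun n => Real.log n / n) n :=
      by fun_prop
    simpa using (this.tendsto 1).mono_left (nhdsWithin_le_nhds (s := Set.Ioi 1))
  refine squeeze_zero_norm' ?_ h1
  filter_upwards [self_mem_nhdsWithin] with s hs
  have hs1 : (1 : ℝ) < s := hs
  rw [norm_mul, ← ofReal_one, ← ofReal_sub, norm_real, Real.norm_of_nonneg (by linarith)]
  refine mul_le_mul_of_nonneg_left (tsum_of_norm_bounded (hA.mul_left C).hasSum fun n => ?_)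
    (by linarith)
  rcases eq_or_ne n 0 with rfl | hn
  · by_cases h0 : 0 ∈ A <;> simp [h0]
  by_cases hn' : n ∈ A
  · have h2 : (1 : ℝ) ≤ n := by exact_mod_cast Nat.pos_of_ne_zero hn
    rw [norm_term_eq, if_neg hn, Set.indicator_of_mem hn', logMul, norm_mul, ← natCast_log,
      norm_real, Real.norm_of_nonneg (Real.log_natCast_nonneg n), ofReal_re, mul_comm,
      ← mul_div_assoc]
    refine div_le_div₀ (mul_nonneg ((norm_nonneg _).trans (hC n hn)) (Real.log_natCast_nonneg n))
      (mul_le_mul_of_nonneg_right (hC n hn) (Real.log_natCast_nonneg n)) (by linarith) ?_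
    simpa using Real.rpow_le_rpow_of_exponent_le h2 hs1.le
  · simp [term_of_ne_zero hn, logMul, h n hn', hn']

theorem Res.congr {a b : ℕ → ℂ} {d : ℂ} (h : Res a d) (ha : Bd a) (hb : Bd b) {B : ℕ}
    (hab : ∀ n, B < n → a n = b n) : Res b d := by
  have h1 : Res (fun n => b n - a n) 0 := res_zero (B := B) fun n hn => by rw [hab n hn, sub_self]
  have h2 : Bd fun n => b n - a n := by
    obtain ⟨C, hC⟩ := ha
    obtain ⟨C', hC'⟩ := hb
    exact ⟨C' + C, fun n hn => (norm_sub_le _ _).trans (add_le_add (hC' n hn) (hC n hn))⟩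
  have := Res.sum (Finset.univ : Finset Bool) (a := fun i => bif i then a else fun n => b n - a n)
    (d := fun i => bif i then d else 0) (fun _ => 1) (fun i => by cases i <;> assumption)
    (fun i _ => by cases i <;> assumption) (b := b) fun n => by simp
  simpa using this

/-- the order of a continuation at `s = 1` -/
theorem res_of_cont' {a : ℕ → ℂ} (ha : Bd a) {R f : ℂ → ℂ}
    (hR : DifferentiableOn ℂ R {s | 3 / 4 < s.re}) (hf : DifferentiableOn ℂ f {s | 0 < s.re})
    (h : ∀ s : ℂ, 1 < s.re → f s = (s - 1) * exp (LSeries a s + R s)) :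
    ∃ n : ℕ, Res a (1 - n) ∧ (f 1 ≠ 0 ↔ n = 0) := by
  have o1 : {s : ℂ | 3 / 4 < s.re} ∈ 𝓝 (1 : ℂ) :=
    (isOpen_lt continuous_const continuous_re).mem_nhds (by simp; norm_num)
  have o2 : {s : ℂ | 0 < s.re} ∈ 𝓝 (1 : ℂ) :=
    (isOpen_lt continuous_const continuous_re).mem_nhds (by simp)
  have hf1 : AnalyticAt ℂ f 1 := hf.analyticAt o2
  have hR1 : AnalyticAt ℂ R 1 := hR.analyticAt o1
  have ht : Tendsto (fun s : ℝ => (s : ℂ)) (𝓝[>] 1) (𝓝 1) :=
    (continuous_ofReal.tendsto' 1 1 ofReal_one).mono_left nhdsWithin_le_nhds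
  have hgt : ∀ᶠ s : ℝ in 𝓝[>] 1, 1 < (s : ℂ).re := by
    filter_upwards [self_mem_nhdsWithin] with s hs using by simpa using hs
  have hne : ∀ s : ℂ, 1 < s.re → s - 1 ≠ 0 := fun s hs h0 => by
    rw [sub_eq_zero.1 h0] at hs; simp at hs
  obtain ⟨n, g, hg, hg1, hfg⟩ := hf1.exists_eventuallyEq_pow_smul_nonzero_iff.2 fun h0 => by
    obtain ⟨s, h1, h2⟩ := ((ht.eventually h0).and hgt).exists
    rw [h s h2] at h1
    exact mul_ne_zero (hne s h2) (exp_ne_zero _) h1
  refine ⟨n, ?_, fun h1 => ?_, fun h1 => ?_⟩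
  · have c1 : ContinuousAt (fun s : ℂ => 1 - n - (s - 1) * (deriv g s / g s - deriv R s)) 1 :=
      continuousAt_const.sub ((continuousAt_id.sub continuousAt_const).mul
        ((hg.deriv.continuousAt.div hg.continuousAt hg1).sub hR1.deriv.continuousAt))
    have c2 := c1.tendsto.comp ht
    simp only [sub_self, zero_mul, sub_zero] at c2
    refine c2.congr' ?_
    filter_upwards [hgt, ht.eventually hfg.eventually_nhds, ht.eventually hg.eventually_analyticAt,
      ht.eventually hR1.eventually_analyticAt,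
      ht.eventually (hg.continuousAt.eventually_ne hg1)] with s h1 h2 h3 h4 h5
    have d1 : HasDerivAt (fun z : ℂ => (z - 1) * exp (LSeries a z + R z)) _ s :=
      ((hasDerivAt_id (s : ℂ)).sub_const 1).mul
        ((LSeries_hasDerivAt (ha.abs h1)).add h4.differentiableAt.hasDerivAt).cexp
    have d2 : HasDerivAt (fun z : ℂ => (z - 1) ^ n * g z) _ s :=
      (((hasDerivAt_id (s : ℂ)).sub_const 1).pow n).mul h3.differentiableAt.hasDerivAt
    have e : (fun z : ℂ => (z - 1) * exp (LSeries a z + R z)) =ᶠ[𝓝 (s : ℂ)]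
        fun z : ℂ => (z - 1) ^ n * g z := by
      filter_upwards [h2, (isOpen_lt continuous_const continuous_re).mem_nhds h1] with z z1 z2
      rw [← h z z2, z1, smul_eq_mul]
    have e1 := (d1.congr_of_eventuallyEq e.symm).unique d2
    have e2 := e.self_of_nhds
    simp only [id, Pi.add_apply, Pi.pow_apply, one_mul, mul_one] at e1 e2
    have e3 : ((s : ℂ) - 1) * (n * ((s : ℂ) - 1) ^ (n - 1)) = n * ((s : ℂ) - 1) ^ n := by
      cases n with
      | zero => simp
      | succ n => simp [pow_succ]; ring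
    have e4 : ((s : ℂ) - 1) ^ n ≠ 0 := pow_ne_zero _ (hne s h1)
    simp only [Function.comp_apply]
    apply mul_left_cancel₀ e4
    apply mul_left_cancel₀ h5
    have e5 : g s * (deriv g s / g s) = deriv g s := by field_simp
    linear_combination ((s : ℂ) - 1) * e1 + g s * e3 - (((s : ℂ) - 1) ^ n * (s - 1)) * e5 -
      (1 - ((s : ℂ) - 1) * (LSeries (logMul a) s - deriv R s)) * e2
  · by_contra hn
    apply h1
    rw [hfg.self_of_nhds]
    simp [hn]
  · rw [hfg.self_of_nhds]
    simpa [h1] using hg1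

theorem res_of_cont {a : ℕ → ℂ} (ha : Bd a) {R f : ℂ → ℂ}
    (hR : DifferentiableOn ℂ R {s | 3 / 4 < s.re}) (hf : DifferentiableOn ℂ f {s | 0 < s.re})
    (h : ∀ s : ℂ, 1 < s.re → f s = (s - 1) * exp (LSeries a s + R s)) :
    ∃ n : ℕ, Res a (1 - n) ∧ (f 1 ≠ 0 → n = 0) := by
  obtain ⟨n, h1, h2⟩ := res_of_cont' ha hR hf h
  exact ⟨n, h1, h2.1⟩

theorem Res.re_nonneg {a : ℕ → ℂ} {d : ℂ} (h : Res a d) (hb : Bd a) (ha : ∀ n, 0 ≤ (a n).re) :
    0 ≤ d.re := by
  refine ge_of_tendsto ((continuous_re.tendsto d).comp h) ?_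
  filter_upwards [self_mem_nhdsWithin] with s hs
  have hs1 : (1 : ℝ) < s := hs
  simp only [Function.comp_apply]
  rw [← ofReal_one, ← ofReal_sub, re_ofReal_mul, LSeries, re_tsum (hb.summ (by simpa using hs1))]
  refine mul_nonneg (by linarith) (tsum_nonneg fun n => ?_)
  rcases eq_or_ne n 0 with rfl | hn
  · simp
  · rw [term_of_ne_zero hn, logMul, ← natCast_log, ← ofReal_natCast,
      ← ofReal_cpow (Nat.cast_nonneg n), div_ofReal_re, re_ofReal_mul]
    exact div_nonneg (mul_nonneg (Real.log_natCast_nonneg n) (ha n)) (by positivity)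

end Crest.Agent.T15.Cheb
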