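import Crest.Agent.T15.ChebA_25
import Crest.Agent.T27.Cheb_52

/-!
# Row 15, Chebotarev, part B: cyclotomic extensions of a totally complex field
-/

set_option autoImplicit false

noncomputable section

namespace Crest.Agent.T15.Cheb

open NumberField Filter Topology Complex LSeries Ideal
open Crest.Agent.T27
open Crest.Agent.R014.EulC_534 (rE)
open scoped ComplexOrder

theorem bd_pc (K : Type*) [Field K] [NumberField K] {c : ℕ →* ℂ} (hc : ∀ n, ‖c n‖ ≤ 1) :
    Bd (pc K c) := ⟨_, fun n _ => Desc52.norm_pc_le K hc n⟩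

theorem res_pc (K : Type) [Field K] [NumberField K] [hK : IsTotallyComplex K] {m : ℕ} (hm : m ≠ 0)
    {c : ℕ →* ℂ} (hc : ∀ n, ‖c n‖ ≤ 1) (hp : ∀ a b, a ≡ b [MOD m] → c a = c b) :
    ∃ n : ℕ, Res (pc K c) (1 - n) ∧ (c = 1 → n = 0) := by
  obtain ⟨g, hg1, hg2⟩ := lCont_87 K hK (span {(m : 𝓞 K)}) (by simpa using hm)
    (fun I => c (absNorm I)) (fun I J => by rw [map_mul, map_mul]) (fun I => hc _)
    (fun x y h => hp _ _ (absNorm_congr_52 m h))
  obtain ⟨C, -, hC⟩ := euler_52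
  obtain ⟨R, h1, -, h2⟩ := hC K c hc
  obtain ⟨n, h3, h4⟩ := res_of_cont (bd_pc K hc) h1 hg1 fun s hs => by rw [hg2 s hs, h2 s hs]
  refine ⟨n, h3, fun h => h4 (Desc52.at_one (K := K) hg1 fun s hs => ?_)⟩
  rw [hg2 s hs, zeta_eq_tsum_52 K hs, h]
  simp

theorem res_one (K : Type) [Field K] [NumberField K] [IsTotallyComplex K] : Res (pc K 1) 1 := by
  obtain ⟨n, h1, h2⟩ := res_pc K one_ne_zero (c := 1) Desc52.norm_one_le fun _ _ _ => rfl
  simpa [h2 rfl] using h1

/-- a probability vector with integral Fourier coefficient -/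
theorem fourier_int {U : Type*} [Fintype U] {d χ : U → ℂ} (hd : ∀ u, 0 ≤ d u) (h1 : ∑ u, d u = 1)
    (hχ : ∀ u, ‖χ u‖ ≤ 1) {n : ℕ} (hn : ∑ u, χ u * d u = 1 - n) {o : U} (ho : d o ≠ 0)
    (hχo : χ o = 1) {u : U} (hu : d u ≠ 0) : χ u = 1 ∨ n = 1 := by
  have hre : ∀ u, 0 ≤ (d u).re := fun u => (Complex.nonneg_iff.1 (hd u)).1
  have him : ∀ u, (d u).im = 0 := fun u => (Complex.nonneg_iff.1 (hd u)).2.symm
  have hpos : ∀ u, d u ≠ 0 → 0 < (d u).re := fun u hu =>
    (hre u).lt_of_ne fun h => hu (Complex.ext h.symm (him u))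
  have hab : ∀ u, |(χ u).re| ≤ 1 := fun u => (abs_re_le_norm _).trans (hχ u)
  have e1 := congrArg re h1
  have e2 := congrArg re hn
  simp only [re_sum, mul_re, him, mul_zero, sub_zero, one_re, sub_re, natCast_re] at e1 e2
  rcases Nat.lt_trichotomy n 1 with h | h | h
  · obtain rfl : n = 0 := by omega
    have e3 : ∑ u, (1 - (χ u).re) * (d u).re = 0 := by
      simp only [sub_mul, one_mul, Finset.sum_sub_distrib, e1, e2]; simp
    have e4 := (Finset.sum_eq_zero_iff_of_nonneg fun u _ =>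
      mul_nonneg (sub_nonneg.2 (abs_le.1 (hab u)).2) (hre u)).1 e3 u (Finset.mem_univ u)
    have e5 : (χ u).re = 1 := by
      have := (mul_eq_zero.1 e4).resolve_right (hpos u hu).ne'
      linarith
    left
    have e6 : ‖χ u‖ ^ 2 ≤ 1 := pow_le_one₀ (norm_nonneg _) (hχ u)
    rw [Complex.sq_norm, normSq_apply, e5] at e6
    exact Complex.ext e5 (mul_self_eq_zero.1 (le_antisymm (by linarith) (mul_self_nonneg _)))
  · exact Or.inr h
  · exfalso
    have e3 : 0 < ∑ u, (1 + (χ u).re) * (d u).re :=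
      Finset.sum_pos' (fun u _ => mul_nonneg (by linarith [(abs_le.1 (hab u)).1]) (hre u))
        ⟨o, Finset.mem_univ o, mul_pos (by rw [hχo]; norm_num) (hpos o ho)⟩
    simp only [add_mul, one_mul, Finset.sum_add_distrib, e1, e2] at e3
    have : (2 : ℝ) ≤ n := by exact_mod_cast h
    linarith

/-- a Dirichlet character on the natural numbers -/
def cn {m : ℕ} (χ : DirichletCharacter ℂ m) : ℕ →* ℂ where
  toFun n := χ n
  map_one' := by simp
  map_mul' a b := by simp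

/-- primes of degree one with norm in a class -/
def cl (K : Type*) [Field K] [NumberField K] {m : ℕ} (u : (ZMod m)ˣ) (n : ℕ) : ℂ :=
  if n.Prime ∧ (u : ZMod m) = n then rE K n else 0

theorem bd_cl (K : Type*) [Field K] [NumberField K] {m : ℕ} (u : (ZMod m)ˣ) : Bd (cl K u) := by
  refine ⟨Module.finrank ℚ K, fun n _ => ?_⟩
  unfold cl
  split_ifs with h
  · rw [norm_natCast]; exact_mod_cast rE_le_52 K h.1
  · simp

section Frob

variable {K F : Type*} [Field K] [NumberField K] [Field F] [NumberField F] [Algebra K F]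

/-- a Frobenius element above an ideal of prime norm -/
theorem exists_frob [IsGalois K F] {p : ℕ} (hp : p.Prime) (h : rE K p ≠ 0) :
    ∃ (Q : Ideal (𝓞 F)) (φ : Gal(F/K)), Q.IsPrime ∧ (p : 𝓞 F) ∈ Q ∧
      ∀ x : 𝓞 F, φ • x - x ^ p ∈ Q := by
  obtain ⟨⟨P, hP⟩⟩ := (Nat.card_ne_zero.1 h).1
  obtain ⟨h1, h2, h3⟩ := prime_of_norm_52 hp hP
  obtain ⟨⟨Q, hQ, hQP⟩⟩ := (inferInstance : Nonempty (P.primesOver (𝓞 F)))
  have hpQ : (p : 𝓞 F) ∈ Q := by
    have := (mem_of_liesOver Q P _).1 h3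
    rwa [map_natCast] at this
  have hQ0 : Q ≠ ⊥ := fun h0 => by
    rw [h0, Ideal.mem_bot] at hpQ
    exact hp.ne_zero (by exact_mod_cast hpQ)
  have : Finite (𝓞 F ⧸ Q) := finiteQuotientOfFreeOfNeBot Q hQ0
  obtain ⟨φ, hφ⟩ := IsArithFrobAt.exists_of_isInvariant (𝓞 K) Gal(F/K) Q
  refine ⟨Q, φ, hQ, hpQ, fun x => ?_⟩
  have h4 := hφ x
  rwa [← hQP.over, ← Submodule.cardQuot_apply, ← absNorm_apply, hP] at h4

omit [NumberField K] in
theorem frob_root {Q : Ideal (𝓞 F)} (hQ : Q.IsPrime) {p m : ℕ} (hp : p.Prime) (hm : m ≠ 0)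
    (hpQ : (p : 𝓞 F) ∈ Q) (hpm : ¬ p ∣ m) {φ : Gal(F/K)} (h : ∀ x : 𝓞 F, φ • x - x ^ p ∈ Q)
    {ζ : F} (hζ : ζ ^ m = 1) : φ ζ = ζ ^ p := by
  let z : 𝓞 F := ⟨ζ, IsIntegral.of_pow (Nat.pos_of_ne_zero hm) (hζ ▸ isIntegral_one)⟩
  have hz : z ^ m = 1 := by
    apply RingOfIntegers.ext; push_cast; exact hζ
  have h4 : φ • z = z ^ p := root_eq_of_sub_mem_79 Q (q := m) (a := 1)
    (by rw [← smul_pow', hz, smul_one]) (by rw [pow_right_comm, hz, one_pow])
    (int_mem_52 hp hpQ hpm) ((ne_top_iff_one Q).1 hQ.ne_top) (h z)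
  exact congrArg (fun w : 𝓞 F => (w : F)) h4

end Frob

theorem modEq_of_pow {F : Type*} [Field F] {ζ : F} {m : ℕ} (hζ : IsPrimitiveRoot ζ m) (hm : m ≠ 0)
    {a b : ℕ} (h : ζ ^ a = ζ ^ b) : a ≡ b [MOD m] := by
  refine hζ.pow_inj (Nat.mod_lt _ (Nat.pos_of_ne_zero hm)) (Nat.mod_lt _ (Nat.pos_of_ne_zero hm)) ?_
  rw [← pow_eq_pow_mod a hζ.pow_eq_one, ← pow_eq_pow_mod b hζ.pow_eq_one, h]

/-- **Chebotarev, cyclotomic case.** -/
theorem cheb_cyc' {K F : Type} [Field K] [NumberField K] [Field F] [NumberField F] [Algebra K F]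
    [IsTotallyComplex K] [IsGalois K F] {m : ℕ} (hm : m ≠ 0) {ζ : F} (hζ : IsPrimitiveRoot ζ m)
    (hgen : Algebra.adjoin K {ζ} = ⊤) (σ : Gal(F/K)) {A : Set ℕ} (hA : Sm A) :
    ∃ p : ℕ, p.Prime ∧ p ∉ A ∧ ∃ Q : Ideal (𝓞 F), Q.IsPrime ∧ (p : 𝓞 F) ∈ Q ∧
      ∀ x : 𝓞 F, σ • x - x ^ p ∈ Q := by
  classical
  have : NeZero m := ⟨hm⟩
  have hm0 := Nat.pos_of_ne_zero hm
  have : IsTotallyComplex F := isTotallyComplex_of_algebra K F
  have hc : ∀ (χ : DirichletCharacter ℂ m) (n : ℕ), ‖cn χ n‖ ≤ 1 := fun χ n => χ.norm_le_one _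
  choose k hk hk' using fun χ : DirichletCharacter ℂ m => res_pc K hm (hc χ) fun a b h =>
    show χ a = χ b by rw [(ZMod.natCast_eq_natCast_iff a b m).2 h]
  have hφ : (m.totient : ℂ) ≠ 0 := by exact_mod_cast (Nat.totient_pos.2 hm0).ne'
  -- the densities
  let d : (ZMod m)ˣ → ℂ := fun u =>
    ∑ χ : DirichletCharacter ℂ m, (m.totient : ℂ)⁻¹ * χ (u : ZMod m)⁻¹ * (1 - k χ)
  have hd : ∀ u, Res (cl K u) (d u) := fun u =>
    Res.sum Finset.univ _ (fun χ => bd_pc K (hc χ)) (fun χ _ => hk χ) fun n => by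
      have h1 := DirichletCharacter.sum_char_inv_mul_char_eq ℂ u.isUnit (n : ZMod m)
      unfold cl pc
      by_cases hn : n.Prime
      · have h2 : ∑ χ : DirichletCharacter ℂ m, (m.totient : ℂ)⁻¹ * χ (u : ZMod m)⁻¹ *
            (cn χ n * rE K n) = (m.totient : ℂ)⁻¹ * rE K n *
            ∑ χ : DirichletCharacter ℂ m, χ (u : ZMod m)⁻¹ * χ n := by
          rw [Finset.mul_sum]
          exact Finset.sum_congr rfl fun χ _ => by
            change _ * (χ n * _) = _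
            ring
        simp only [hn, true_and, if_true, h2, h1]
        split_ifs
        · field_simp
        · simp
      · simp [hn]
  have hd0 : ∀ u, 0 ≤ d u := fun u => (hd u).nonneg fun n => by
    unfold cl
    split_ifs
    · exact Nat.cast_nonneg _
    · exact le_rfl
  have hinv : ∀ χ : DirichletCharacter ℂ m, ∑ u : (ZMod m)ˣ, χ u * d u = 1 - k χ := fun χ =>
    (Res.sum Finset.univ _ (bd_cl K) (fun u _ => hd u) fun n => by
      unfold cl pc
      by_cases hn : n.Prime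
      · by_cases hu : IsUnit (n : ZMod m)
        · obtain ⟨v, hv⟩ := hu
          rw [Finset.sum_eq_single v (fun u _ h => by
            rw [if_neg fun h' => h (Units.ext (h'.2.trans hv.symm)), mul_zero]) (by simp),
            if_pos hn, if_pos ⟨hn, hv⟩, hv]
          rfl
        · rw [if_pos hn, Finset.sum_eq_zero fun u _ => by
            rw [if_neg fun h' : n.Prime ∧ (u : ZMod m) = n => hu (h'.2 ▸ u.isUnit), mul_zero]]
          change χ n * _ = _
          rw [χ.map_nonunit hu, zero_mul]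
      · simp [hn]).unique (hk χ)
  have hbig : ∀ {p : ℕ}, m < p → ¬ p ∣ m := fun h h' => (Nat.le_of_dvd hm0 h').not_gt h
  have hsum : ∑ u, d u = 1 := by
    have h1 : Res (pc K (cn (1 : DirichletCharacter ℂ m))) 1 :=
      (res_one K).congr (bd_pc K Desc52.norm_one_le) (bd_pc K (hc 1)) (B := m) fun n hn => by
        unfold pc
        split_ifs with h
        · change _ = (1 : DirichletCharacter ℂ m) n * _
          rw [MulChar.one_apply ((ZMod.isUnit_iff_coprime n m).2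
            ((Nat.Prime.coprime_iff_not_dvd h).2 (hbig hn)))]
          rfl
        · rfl
    have h2 := hinv 1
    rw [← h1.unique (hk 1)] at h2
    simpa using h2
  set D : ℕ := Module.finrank K F with hD
  have hone : (D : ℂ) * d 1 = 1 := by
    have h1 : Res (fun n => (D : ℂ) * cl K (1 : (ZMod m)ˣ) n) (D * d 1) := by
      simpa using Res.sum ({()} : Finset Unit) (a := fun _ => cl K (1 : (ZMod m)ˣ))
        (d := fun _ => d 1) (fun _ => (D : ℂ)) (fun _ => bd_cl K 1) (fun _ _ => hd 1)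
        (b := fun n => (D : ℂ) * cl K (1 : (ZMod m)ˣ) n) fun n => by simp
    refine h1.unique ((res_one F).congr (bd_pc F Desc52.norm_one_le) ?_ (B := m) fun n hn => ?_)
    · obtain ⟨C, hC⟩ := bd_cl K (1 : (ZMod m)ˣ)
      exact ⟨D * C, fun n hn => by
        rw [norm_mul, Complex.norm_natCast]; exact mul_le_mul_of_nonneg_left (hC n hn) (Nat.cast_nonneg _)⟩
    · unfold pc cl
      by_cases h : n.Prime
      · have h2 : ((1 : (ZMod m)ˣ) : ZMod m) = n ↔ m ∣ n - 1 := by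
          rw [Units.val_one, ← Nat.cast_one, ZMod.natCast_eq_natCast_iff,
            Nat.modEq_iff_dvd' h.one_le]
        simp only [h, true_and, if_true, h2, MonoidHom.one_apply, one_mul]
        split_ifs with h3
        · rw [rE_split_52 (K := K) hm0 hζ hgen h h3]; push_cast; rfl
        · rw [rE_zero_52 hm0 hζ h (hbig hn) h3]; simp
      · simp [h]
  have hd1 : d 1 ≠ 0 := right_ne_zero_of_mul_eq_one hone
  have hconst : ∀ u, d u ≠ 0 → d u = d 1 := fun u hu => Finset.sum_congr rfl fun χ _ => by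
    rcases fourier_int hd0 hsum (χ := fun u : (ZMod m)ˣ => χ u) (fun u => χ.norm_le_one _) (hinv χ) hd1
      (by simp) hu with h | h
    · have h1 : χ (u : ZMod m)⁻¹ = 1 := by
        have h2 : χ (u : ZMod m)⁻¹ * χ u = 1 := by
          rw [← map_mul, ZMod.inv_mul_of_unit _ u.isUnit, map_one]
        rwa [h, mul_one] at h2
      rw [h1]; simp
    · simp [h]
  -- classes of positive density are Frobenius classes
  have hfr : ∀ u, d u ≠ 0 → ∃ p : ℕ, p.Prime ∧ p ∉ A ∧ ∃ (Q : Ideal (𝓞 F)) (φ : Gal(F/K)),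
      Q.IsPrime ∧ (p : 𝓞 F) ∈ Q ∧ (∀ x : 𝓞 F, φ • x - x ^ p ∈ Q) ∧ hζ.autToPow K φ = u := by
    intro u hu
    obtain ⟨p, h1, h2⟩ : ∃ p, p ∉ A ∪ {n | n ≤ m} ∧ cl K u p ≠ 0 := by
      by_contra h
      push Not at h
      exact hu ((hd u).unique (res_small (bd_cl K u) (hA.union (sm_le m)) h))
    unfold cl at h2
    split_ifs at h2 with h3
    · obtain ⟨Q, φ, h4, h5, h6⟩ := exists_frob (K := K) (F := F) h3.1 (by exact_mod_cast h2)
      refine ⟨p, h3.1, fun h => h1 (Or.inl h), Q, φ, h4, h5, h6, Units.ext ?_⟩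
      have h7 := frob_root h4 h3.1 hm h5 (hbig (not_le.1 fun h => h1 (Or.inr h))) h6 hζ.pow_eq_one
      rw [← hζ.autToPow_spec K φ] at h7
      rw [h3.2, ← ZMod.natCast_zmod_val (hζ.autToPow K φ : ZMod m), ZMod.natCast_eq_natCast_iff]
      exact modEq_of_pow hζ hm h7
    · exact absurd rfl h2
  let S : Finset (ZMod m)ˣ := Finset.univ.filter fun u => d u ≠ 0
  have hS : S.card = D := by
    have h1 : ∑ u ∈ S, d u = 1 := by rw [← hsum]; exact Finset.sum_filter_ne_zero _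
    rw [Finset.sum_congr rfl fun u hu => hconst u (Finset.mem_filter.1 hu).2, Finset.sum_const,
      nsmul_eq_mul, ← hone] at h1
    exact_mod_cast mul_right_cancel₀ hd1 h1
  have hsub : S ⊆ Finset.univ.image (hζ.autToPow K) := fun u hu => by
    obtain ⟨-, -, -, -, φ, -, -, -, h⟩ := hfr u (Finset.mem_filter.1 hu).2
    exact Finset.mem_image.2 ⟨φ, Finset.mem_univ _, h⟩
  have heq := Finset.eq_of_subset_of_card_le hsub (Finset.card_image_le.trans (by
    rw [hS, Finset.card_univ, ← Nat.card_eq_fintype_card, IsGalois.card_aut_eq_finrank]))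
  have hσ : hζ.autToPow K σ ∈ S := heq ▸ Finset.mem_image_of_mem _ (Finset.mem_univ σ)
  obtain ⟨p, h1, h2, Q, φ, h3, h4, h5, h6⟩ := hfr _ (Finset.mem_filter.1 hσ).2
  obtain rfl : φ = σ := by
    apply AlgEquiv.coe_toAlgHom_injective
    refine AlgHom.ext_of_adjoin_eq_top hgen fun x hx => ?_
    rw [Set.mem_singleton_iff.1 hx]
    change φ ζ = σ ζ
    rw [← hζ.autToPow_spec K φ, ← hζ.autToPow_spec K σ, h6]
  exact ⟨p, h1, h2, Q, h3, h4, h5⟩

theorem cheb_cyc {K F : Type} [Field K] [NumberField K] [Field F] [NumberField F] [Algebra K F]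
    [IsTotallyComplex K] [IsGalois K F] {m : ℕ} (hm : m ≠ 0) {ζ : F} (hζ : IsPrimitiveRoot ζ m)
    (hgen : Algebra.adjoin K {ζ} = ⊤) (σ : Gal(F/K)) (B : ℕ) :
    ∃ p : ℕ, p.Prime ∧ B < p ∧ ∃ Q : Ideal (𝓞 F), Q.IsPrime ∧ (p : 𝓞 F) ∈ Q ∧
      ∀ x : 𝓞 F, σ • x - x ^ p ∈ Q := by
  obtain ⟨p, h1, h2, h3⟩ := cheb_cyc' hm hζ hgen σ (sm_le B)
  exact ⟨p, h1, not_le.1 h2, h3⟩

end Crest.Agent.T15.Cheb
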