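import Crest.Agent.T15.CmDef_13

/-!
# Row 15, block Q (helper28): lattices with multiplication by `θ`, `θ² = θ - m`, `4 m - 1` squarefree

* `Qd θ m D`; `sp a = ℤ a`; `Nm θ S N` : `S * cj S = N ℤ[θ]`; `exists_nm`, `Nm.unique`;
* `OL.mul'`, `OL.cj`, the commutative group `Gp h` of these lattices.
-/

set_option autoImplicit false
set_option linter.unusedSectionVars false

noncomputable section

namespace Crest.Agent.T15.Cm

open Submodule ComplexConjugate

/-- `θ² = θ - m`, `4 m - 1 = D` squarefree -/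
structure Qd (θ : ℂ) (m : ℤ) (D : ℕ) : Prop where
  sq : θ * θ = θ - m
  hD : 4 * m = 1 + D
  pos : 0 < D
  sqf : Squarefree D

/-- `ℤ a` -/
def sp (a : ℂ) : Sm := span ℤ {a}

lemma sp_mul_sp (a b : ℂ) : sp a * sp b = sp (a * b) := by
  simp [sp, span_mul_span]

lemma mem_sp_mul {a z : ℂ} {S : Sm} : z ∈ sp a * S ↔ ∃ w ∈ S, a * w = z :=
  mem_span_singleton_mul

lemma mem_sp_mul' {a z : ℂ} (ha : a ≠ 0) {S : Sm} : z ∈ sp a * S ↔ a⁻¹ * z ∈ S := by
  rw [mem_sp_mul]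
  constructor
  · rintro ⟨w, hw, rfl⟩; rwa [inv_mul_cancel_left₀ ha]
  · intro h; exact ⟨_, h, mul_inv_cancel_left₀ ha _⟩

lemma sp_one_mul (S : Sm) : sp 1 * S = S := by
  ext z; rw [mem_sp_mul' one_ne_zero]; simp

lemma dv_eq {a : ℂ} (ha : a ≠ 0) (S : Sm) : dv a S = sp a⁻¹ * S := by
  ext z; rw [mem_sp_mul' (inv_ne_zero ha), inv_inv, mem_dv]

lemma sp_mul_eq {a : ℂ} (ha : a ≠ 0) (S : Sm) : sp a * S = dv a⁻¹ S := by
  rw [dv_eq (inv_ne_zero ha), inv_inv]

lemma cj_eq_map (S : Sm) : cj S = S.map (starRingEnd ℂ).toIntAlgHom.toLinearMap := by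
  ext z
  rw [mem_cj, mem_map]
  constructor
  · intro h; exact ⟨_, h, by simp⟩
  · rintro ⟨w, hw, rfl⟩; simpa using hw

lemma cj_mul (S T : Sm) : cj (S * T) = cj S * cj T := by
  rw [cj_eq_map, cj_eq_map, cj_eq_map, Submodule.map_mul]

lemma cj_cj (S : Sm) : cj (cj S) = S := by ext z; simp [mem_cj]

lemma cj_sp (a : ℂ) : cj (sp a) = sp (conj a) := by
  rw [cj_eq_map, sp, map_span]; simp [sp]

lemma conj_mem_cj {S : Sm} {z : ℂ} (h : z ∈ S) : conj z ∈ cj S := by simpa [mem_cj] using h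

lemma mem_ord28 {θ z : ℂ} : z ∈ ord θ ↔ ∃ x y : ℤ, x + y * θ = z := by
  simp [ord, mem_span_pair]

lemma one_mem_ord (θ : ℂ) : (1 : ℂ) ∈ ord θ := mem_ord28.2 ⟨1, 0, by simp⟩

lemma int_mem_ord (θ : ℂ) (k : ℤ) : (k : ℂ) ∈ ord θ := mem_ord28.2 ⟨k, 0, by simp⟩

lemma self_mem_ord (θ : ℂ) : θ ∈ ord θ := mem_ord28.2 ⟨0, 1, by simp⟩

lemma int_mul_mem {S : Sm} (k : ℤ) {z : ℂ} (h : z ∈ S) : (k : ℂ) * z ∈ S := by
  simpa using S.smul_mem k h

lemma IsLat.exists_ne {S : Sm} (h : IsLat S) : ∃ a ∈ S, a ≠ 0 := by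
  obtain ⟨a, b, h1, h2⟩ := h.basis
  refine ⟨a, (h1 a).2 ⟨1, 0, by simp⟩, fun ha => ?_⟩
  exact one_ne_zero (h2 1 0 (by simp [ha])).1

lemma OL.mul_mem {θ : ℂ} {S : Sm} (h : OL θ S) {g z : ℂ} (hg : g ∈ ord θ) (hz : z ∈ S) :
    g * z ∈ S := by
  obtain ⟨x, y, rfl⟩ := mem_ord28.1 hg
  rw [add_mul, mul_assoc]
  exact S.add_mem (int_mul_mem x hz) (int_mul_mem y (h.mul z hz))

lemma OL.ord_mul28 {θ : ℂ} {S : Sm} (h : OL θ S) : ord θ * S = S := by
  apply le_antisymm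
  · exact Submodule.mul_le.2 fun g hg z hz => h.mul_mem hg hz
  · intro z hz
    simpa using mul_mem_mul (one_mem_ord θ) hz

lemma OL.sp_mul {θ : ℂ} {S : Sm} (h : OL θ S) {a : ℂ} (ha : a ≠ 0) : OL θ (sp a * S) := by
  refine ⟨by rw [sp_mul_eq ha]; exact h.lat.dv (inv_ne_zero ha), fun z hz => ?_⟩
  rw [mem_sp_mul' ha] at hz ⊢
  rw [mul_left_comm]; exact h.mul _ hz

/-- `S * cj S = N ℤ[θ]` -/
structure Nm (θ : ℂ) (S : Sm) (N : ℝ) : Prop where
  pos : 0 < N
  eq : S * cj S = sp N * ord θ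

lemma Nm.ne {θ : ℂ} {S : Sm} {N : ℝ} (h : Nm θ S N) : (N : ℂ) ≠ 0 := by exact_mod_cast h.pos.ne'

lemma Nm.mem {θ : ℂ} {S : Sm} {N : ℝ} (h : Nm θ S N) {z w : ℂ} (hz : z ∈ S) (hw : w ∈ S) :
    (N : ℂ)⁻¹ * (z * conj w) ∈ ord θ := by
  rw [← mem_sp_mul' h.ne, ← h.eq]
  exact mul_mem_mul hz (conj_mem_cj hw)

namespace Qd

variable {θ : ℂ} {m : ℤ} {D : ℕ} (h : Qd θ m D)
include h

lemma dsq : (2 * θ - 1) * (2 * θ - 1) = -(D : ℂ) := by
  have : (4 : ℂ) * m = 1 + D := by exact_mod_cast h.hD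
  linear_combination 4 * h.sq - this

lemma re_im : θ.re = 1 / 2 ∧ 4 * θ.im ^ 2 = D := by
  have h1 := congrArg Complex.re h.dsq
  have h2 := congrArg Complex.im h.dsq
  simp at h1 h2
  have hp : (0 : ℝ) < D := by exact_mod_cast h.pos
  have h3 : (2 * θ.re - 1) * θ.im = 0 := by linarith
  rcases mul_eq_zero.1 h3 with h4 | h4
  · refine ⟨by linarith, ?_⟩
    rw [h4] at h1; linarith
  · rw [h4] at h1; nlinarith [mul_self_nonneg (2 * θ.re - 1)]

lemma im_ne : θ.im ≠ 0 := by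
  intro h0
  have := h.re_im.2
  have hp : (0 : ℝ) < D := by exact_mod_cast h.pos
  rw [h0] at this; linarith

lemma conj_eq : conj θ = 1 - θ := by
  apply Complex.ext
  · simp [h.re_im.1]; norm_num
  · simp

lemma indep {s t : ℝ} (e : (s : ℂ) + t * θ = 0) : s = 0 ∧ t = 0 := by
  have h2 := congrArg Complex.im e
  have h1 := congrArg Complex.re e
  simp [h.im_ne] at h1 h2
  exact ⟨by simpa [h2] using h1, h2⟩

lemma indep_int {s t : ℤ} (e : (s : ℂ) + t * θ = 0) : s = 0 ∧ t = 0 := by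
  have := h.indep (s := s) (t := t) (by exact_mod_cast e)
  exact_mod_cast this

lemma ol_ord : OL θ (ord θ) := by
  refine ⟨isLat_of (a := 1) (b := θ) (fun z => by simp [mem_ord28]) fun s t e => h.indep (by simpa using e),
    fun z hz => ?_⟩
  obtain ⟨x, y, rfl⟩ := mem_ord28.1 hz
  exact mem_ord28.2 ⟨-(y * m), x + y, by push_cast; linear_combination (-y) * h.sq⟩

lemma ord_mul_ord : ord θ * ord θ = ord θ := h.ol_ord.ord_mul28

lemma ol_cj {S : Sm} (hS : OL θ S) : OL θ (cj S) := by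
  refine ⟨?_, fun z hz => ?_⟩
  · obtain ⟨a, b, h1, h2⟩ := hS.lat.basis
    refine isLat_of (a := conj a) (b := conj b) (fun z => ?_) fun s t e => h2 s t ?_
    · rw [mem_cj, h1]
      constructor
      · rintro ⟨x, y, e⟩; exact ⟨x, y, by simpa using congrArg conj e⟩
      · rintro ⟨x, y, e⟩; exact ⟨x, y, by simpa using congrArg conj e⟩
    · simpa using congrArg conj e
  · rw [mem_cj] at hz ⊢
    rw [map_mul, h.conj_eq, sub_mul, one_mul]
    exact S.sub_mem hz (hS.mul _ hz)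

lemma cj_ord : cj (ord θ) = ord θ := by
  have key : ∀ z ∈ ord θ, conj z ∈ ord θ := by
    intro z hz
    obtain ⟨x, y, rfl⟩ := mem_ord28.1 hz
    exact mem_ord28.2 ⟨x + y, -y, by simp [h.conj_eq]; ring⟩
  ext z
  rw [mem_cj]
  exact ⟨fun hz => by simpa using key _ hz, key z⟩

lemma real_mem {r : ℝ} (hr : (r : ℂ) ∈ ord θ) : ∃ k : ℤ, r = k := by
  obtain ⟨x, y, e⟩ := mem_ord28.1 hr
  have := h.indep (s := x - r) (t := y) (by push_cast; linear_combination e)
  exact ⟨x, by linarith [this.1]⟩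

/-- the norm form is a square modulo `D`, up to the factor `4` -/
lemma norm_form {g : ℂ} (hg : g ∈ ord θ) : ∃ u v : ℤ, 4 * (g * conj g) = u ^ 2 + D * v ^ 2 := by
  obtain ⟨x, y, rfl⟩ := mem_ord28.1 hg
  have : (4 : ℂ) * m = 1 + D := by exact_mod_cast h.hD
  refine ⟨2 * x + y, y, ?_⟩
  simp only [map_add, map_mul, map_intCast, h.conj_eq]
  push_cast
  linear_combination (-4 * y ^ 2) * h.sq + y ^ 2 * this

theorem exists_nm {S : Sm} (hS : OL θ S) : ∃ N, Nm θ S N := by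
  obtain ⟨a, b, h1, h2⟩ := hS.lat.basis
  have haS : a ∈ S := (h1 a).2 ⟨1, 0, by simp⟩
  have hbS : b ∈ S := (h1 b).2 ⟨0, 1, by simp⟩
  have ha : a ≠ 0 := fun ha => one_ne_zero (h2 1 0 (by simp [ha])).1
  have ha' : conj a ≠ 0 := by simpa using ha
  obtain ⟨x, y, e1⟩ := (h1 _).1 (hS.mul a haS)
  obtain ⟨z, w, e2⟩ := (h1 _).1 (hS.mul b hbS)
  have hy : y ≠ 0 := by
    rintro rfl
    have : ((x : ℤ) : ℂ) + ((-1 : ℤ) : ℂ) * θ = 0 := by
      apply mul_right_cancel₀ ha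
      push_cast at e1 ⊢
      linear_combination e1
    exact absurd (h.indep_int this).2 (by decide)
  have e3 : ((x * w - y * z - m : ℤ) : ℂ) + ((1 - x - w : ℤ) : ℂ) * θ = 0 := by
    apply mul_right_cancel₀ ha
    push_cast
    linear_combination (w - θ) * e1 - y * e2 - a * h.sq
  obtain ⟨e4, e5⟩ := h.indep_int e3
  have hw : w = 1 - x := by omega
  subst hw
  -- primitive form
  have hg : ∃ s t u : ℤ, s * y + t * z + u * (1 - 2 * x) = 1 := by
    set g := Int.gcd (Int.gcd y z) (1 - 2 * x) with hg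
    have d1 : (g : ℤ) ∣ y := (Int.gcd_dvd_left _ _).trans (Int.gcd_dvd_left _ _)
    have d2 : (g : ℤ) ∣ z := (Int.gcd_dvd_left _ _).trans (Int.gcd_dvd_right _ _)
    have d3 : (g : ℤ) ∣ 1 - 2 * x := Int.gcd_dvd_right _ _
    have d4 : (g : ℤ) * g ∣ D := by
      have : (D : ℤ) = -(4 * (y * z)) - (1 - 2 * x) * (1 - 2 * x) := by linarith [h.hD]
      rw [this]
      exact dvd_sub ((dvd_neg).2 ((mul_dvd_mul d1 d2).mul_left 4)) (mul_dvd_mul d3 d3)
    have d5 : g = 1 := Nat.isUnit_iff.1 (h.sqf g (by exact_mod_cast d4))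
    have b1 := Int.gcd_eq_gcd_ab (Int.gcd y z) (1 - 2 * x)
    have b2 := Int.gcd_eq_gcd_ab y z
    rw [← hg, d5] at b1
    refine ⟨Int.gcdA y z * Int.gcdA (Int.gcd y z) (1 - 2 * x),
      Int.gcdB y z * Int.gcdA (Int.gcd y z) (1 - 2 * x), Int.gcdB (Int.gcd y z) (1 - 2 * x), ?_⟩
    push_cast at b1
    linear_combination -b1 - Int.gcdA (Int.gcd y z) (1 - 2 * x) * b2
  obtain ⟨s, t, u, hg⟩ := hg
  have hy' : (y : ℂ) ≠ 0 := by exact_mod_cast hy
  have e1' := congrArg conj e1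
  simp only [map_add, map_mul, map_intCast, h.conj_eq] at e1'
  have e4' : (x : ℂ) * (1 - x) - y * z - m = 0 := by exact_mod_cast e4
  -- `c = a ā / y`
  set c : ℂ := a * conj a / y with hc
  have hc0 : c ≠ 0 := div_ne_zero (mul_ne_zero ha ha') hy'
  have p1 : a * conj a = c * y := by rw [hc]; field_simp
  have p2 : b * conj a = c * (θ - x) := by
    rw [hc]; field_simp; linear_combination e1
  have p3 : a * conj b = c * (1 - θ - x) := by
    rw [hc]; field_simp; linear_combination e1'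
  have p4 : b * conj b = c * (-z) := by
    apply mul_left_cancel₀ (mul_ne_zero hy' hc0)
    have : (b * conj a) * (a * conj b) = (a * conj a) * (b * conj b) := by ring
    rw [p1, p2, p3] at this
    linear_combination -this - c ^ 2 * h.sq + c ^ 2 * e4' * (-1)
  have key : S * cj S = sp c * ord θ := by
    apply le_antisymm
    · refine Submodule.mul_le.2 fun v hv v' hv' => ?_
      rw [mem_cj] at hv'
      obtain ⟨i, j, rfl⟩ := (h1 _).1 hv
      obtain ⟨k, l, e⟩ := (h1 _).1 hv'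
      have e' := congrArg conj e
      simp only [map_add, map_mul, map_intCast, Complex.conj_conj] at e'
      rw [← e', mem_sp_mul]
      refine ⟨_, mem_ord28.2 ⟨i * k * y - j * k * x + i * l * (1 - x) - j * l * z, j * k - i * l, rfl⟩, ?_⟩
      push_cast
      linear_combination (-i * k) * p1 - j * k * p2 - i * l * p3 - j * l * p4
    · have q1 := mul_mem_mul haS (conj_mem_cj haS)
      have q2 := mul_mem_mul hbS (conj_mem_cj haS)
      have q3 := mul_mem_mul haS (conj_mem_cj hbS)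
      have q4 := mul_mem_mul hbS (conj_mem_cj hbS)
      have q5 : c ∈ S * cj S := by
        have := (S * cj S).add_mem ((S * cj S).sub_mem (int_mul_mem s q1) (int_mul_mem t q4))
          (int_mul_mem u ((S * cj S).add_mem q2 q3))
        have hg' : (s : ℂ) * y + t * z + u * (1 - 2 * x) = 1 := by exact_mod_cast hg
        convert this using 1
        rw [p1, p2, p3, p4]
        linear_combination -c * hg'
      intro v hv
      obtain ⟨g, hg, rfl⟩ := mem_sp_mul.1 hv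
      obtain ⟨i, j, rfl⟩ := mem_ord28.1 hg
      have := (S * cj S).add_mem (int_mul_mem (i + j * x) q5) (int_mul_mem j q2)
      convert this using 1
      rw [p2]; push_cast; ring
  refine ⟨Complex.normSq a / |(y : ℝ)|, div_pos (Complex.normSq_pos.2 ha)
    (abs_pos.2 (by exact_mod_cast hy)), ?_⟩
  rw [key]
  congr 1
  rw [hc, Complex.mul_conj]
  rcases abs_choice (y : ℝ) with e | e <;> rw [e]
  · simp
  · simp only [sp]
    rw [show ((Complex.normSq a / -(y : ℝ) : ℝ) : ℂ) = -((Complex.normSq a : ℂ) / y) by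
      push_cast; ring, ← Set.neg_singleton, span_neg]

lemma nm_unique {S : Sm} {N N' : ℝ} (h1 : Nm θ S N) (h2 : Nm θ S N') : N = N' := by
  have key : ∀ {A B : ℝ}, Nm θ S A → Nm θ S B → A ≤ B := by
    intro A B hA hB
    have : (B : ℂ) ∈ sp A * ord θ := by
      rw [← hA.eq, hB.eq]; exact mem_sp_mul.2 ⟨1, one_mem_ord θ, mul_one _⟩
    rw [mem_sp_mul' hA.ne] at this
    obtain ⟨k, hk⟩ := h.real_mem (r := A⁻¹ * B) (by exact_mod_cast this)
    have hpos : (0 : ℝ) < k := hk ▸ mul_pos (inv_pos.2 hA.pos) hB.pos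
    have h1 : (1 : ℝ) ≤ k := by exact_mod_cast (show (0 : ℤ) < k by exact_mod_cast hpos)
    have : B = A * k := by rw [← hk]; field_simp [hA.pos.ne']
    nlinarith [hA.pos]
  exact le_antisymm (key h1 h2) (key h2 h1)

lemma nm_int {S : Sm} {N : ℝ} (hN : Nm θ S N) {z : ℂ} (hz : z ∈ S) :
    ∃ n : ℕ, z * conj z = N * n := by
  have := hN.mem hz hz
  rw [Complex.mul_conj] at this
  obtain ⟨k, hk⟩ := h.real_mem (r := N⁻¹ * Complex.normSq z) (by exact_mod_cast this)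
  have h0 : (0 : ℝ) ≤ k := hk ▸ mul_nonneg (inv_pos.2 hN.pos).le (Complex.normSq_nonneg z)
  obtain ⟨n, rfl⟩ := Int.eq_ofNat_of_zero_le (show (0 : ℤ) ≤ k by exact_mod_cast h0)
  refine ⟨n, ?_⟩
  rw [Complex.mul_conj]
  have : Complex.normSq z = N * n := by
    rw [show (n : ℝ) = N⁻¹ * Complex.normSq z by rw [hk]; simp]; field_simp [hN.pos.ne']
  exact_mod_cast this

lemma nm_mul {S T : Sm} {N M : ℝ} (h1 : Nm θ S N) (h2 : Nm θ T M) : Nm θ (S * T) (N * M) := by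
  refine ⟨mul_pos h1.pos h2.pos, ?_⟩
  rw [cj_mul, mul_mul_mul_comm, h1.eq, h2.eq, mul_mul_mul_comm, sp_mul_sp, h.ord_mul_ord]
  push_cast; rfl

lemma nm_sp {S : Sm} {N : ℝ} (h1 : Nm θ S N) {a : ℂ} (ha : a ≠ 0) :
    Nm θ (sp a * S) (Complex.normSq a * N) := by
  refine ⟨mul_pos (Complex.normSq_pos.2 ha) h1.pos, ?_⟩
  rw [cj_mul, cj_sp, mul_mul_mul_comm, sp_mul_sp, h1.eq, ← mul_assoc, sp_mul_sp, Complex.mul_conj]
  push_cast; rfl

lemma nm_ord : Nm θ (ord θ) 1 :=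
  ⟨one_pos, by rw [h.cj_ord, h.ord_mul_ord, Complex.ofReal_one, sp_one_mul]⟩

lemma nm_cj {S : Sm} {N : ℝ} (h1 : Nm θ S N) : Nm θ (cj S) N :=
  ⟨h1.pos, by rw [cj_cj, mul_comm, h1.eq]⟩

lemma ol_mul {S T : Sm} (hS : OL θ S) (hT : OL θ T) : OL θ (S * T) := by
  refine ⟨?_, fun z hz => ?_⟩
  · obtain ⟨N, hN⟩ := h.exists_nm hS
    obtain ⟨s, hs, hs0⟩ := hS.lat.exists_ne
    obtain ⟨n, hn⟩ := h.nm_int hN hs
    have hn0 : n ≠ 0 := by
      rintro rfl
      simp [hs0] at hn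
    refine (hT.sp_mul hs0).lat.of_le hn0 ?_ fun z hz => ?_
    · exact mul_le_mul_left ((span_singleton_le_iff_mem _ _).2 hs) T
    · refine Submodule.mul_induction_on hz (fun u hu v hv => ?_) fun u v hu hv => ?_
      · refine mem_sp_mul.2 ⟨_, hT.mul_mem (hN.mem hu hs) hv, ?_⟩
        have := hN.ne
        field_simp
        linear_combination u * v * hn
      · rw [mul_add]; exact Submodule.add_mem _ hu hv
  · refine Submodule.mul_induction_on hz (fun u hu v hv => ?_) fun u v hu hv => ?_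
    · rw [← mul_assoc]; exact mul_mem_mul (hS.mul u hu) hv
    · rw [mul_add]; exact Submodule.add_mem _ hu hv

end Qd

end Crest.Agent.T15.Cm
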