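import Crest.Agent.T15.ClA_28

/-!
# Row 15, block Q (helper28): `clStmt : ClStmt` (class group and genus character)
-/

set_option autoImplicit false
set_option linter.unusedSectionVars false

noncomputable section

namespace Crest.Agent.T15.Cm

open Submodule ComplexConjugate

namespace Qd

variable {θ : ℂ} {m : ℤ} {D : ℕ} (h : Qd θ m D)

/-- the lattices with multiplication by `θ` -/
@[ext] structure Gp (_ : Qd θ m D) : Type where
  /-- the lattice -/
  val : Sm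
  ol : OL θ val

instance : Mul h.Gp := ⟨fun S T => ⟨S.1 * T.1, h.ol_mul S.2 T.2⟩⟩
instance : One h.Gp := ⟨⟨ord θ, h.ol_ord⟩⟩

/-- the norm -/
def nr (S : h.Gp) : ℝ := (h.exists_nm S.2).choose

lemma nr_spec (S : h.Gp) : Nm θ S.1 (h.nr S) := (h.exists_nm S.2).choose_spec

instance : Inv h.Gp :=
  ⟨fun S => ⟨sp (h.nr S : ℂ)⁻¹ * cj S.1, (h.ol_cj S.2).sp_mul (inv_ne_zero (h.nr_spec S).ne)⟩⟩

lemma val_mul (S T : h.Gp) : (S * T).1 = S.1 * T.1 := rfl
lemma val_one : (1 : h.Gp).1 = ord θ := rfl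
lemma val_inv (S : h.Gp) : (S⁻¹).1 = sp (h.nr S : ℂ)⁻¹ * cj S.1 := rfl

instance : Group h.Gp := Group.ofLeftAxioms
  (fun a b c => Gp.ext (mul_assoc a.1 b.1 c.1))
  (fun a => Gp.ext a.2.ord_mul28)
  (fun a => Gp.ext (by
    rw [val_mul, val_inv, val_one, mul_assoc, mul_comm (cj a.1), (h.nr_spec a).eq, ← mul_assoc,
      sp_mul_sp, inv_mul_cancel₀ (h.nr_spec a).ne, sp_one_mul]))

instance : CommGroup h.Gp := { mul_comm := fun a b => Gp.ext (mul_comm a.1 b.1) }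

/-- principal lattices -/
def prin : ℂˣ →* h.Gp where
  toFun a := ⟨sp a * ord θ, h.ol_ord.sp_mul a.ne_zero⟩
  map_one' := Gp.ext (by simp [val_one, sp_one_mul])
  map_mul' a b := Gp.ext (by
    rw [val_mul]; dsimp only
    rw [mul_mul_mul_comm, sp_mul_sp, h.ord_mul_ord, Units.val_mul])

lemma val_prin_mul (a : ℂˣ) (S : h.Gp) : (h.prin a * S).1 = sp a * S.1 := by
  rw [val_mul]
  show sp a * ord θ * S.1 = _
  rw [mul_assoc, S.2.ord_mul28]

/-- the class group -/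
abbrev Cl : Type := h.Gp ⧸ h.prin.range

open Classical in
/-- the class -/
def cl (S : Sm) : h.Cl := if hS : OL θ S then QuotientGroup.mk (⟨S, hS⟩ : h.Gp) else 1

lemma cl_val (S : h.Gp) : h.cl S.1 = QuotientGroup.mk S := by
  unfold cl; rw [dif_pos S.2]

lemma mk_prin (a : ℂˣ) : (QuotientGroup.mk (h.prin a) : h.Cl) = 1 :=
  (QuotientGroup.eq_one_iff _).2 ⟨a, rfl⟩

lemma mk_eq_iff (S T : h.Gp) :
    (QuotientGroup.mk S : h.Cl) = QuotientGroup.mk T ↔ ∃ a : ℂ, a ≠ 0 ∧ T.1 = sp a * S.1 := by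
  rw [QuotientGroup.eq]
  constructor
  · rintro ⟨a, ha⟩
    refine ⟨a, a.ne_zero, ?_⟩
    rw [← val_prin_mul, ha, mul_comm, mul_inv_cancel_left]
  · rintro ⟨a, ha, e⟩
    refine ⟨Units.mk0 a ha, ?_⟩
    have : T = h.prin (Units.mk0 a ha) * S := Gp.ext (by rw [val_prin_mul, e]; rfl)
    rw [this, mul_comm (h.prin _), inv_mul_cancel_left]

lemma cl_sp {S : Sm} (hS : OL θ S) {a : ℂ} (ha : a ≠ 0) : h.cl (sp a * S) = h.cl S := by
  have := (h.mk_eq_iff ⟨S, hS⟩ ⟨_, hS.sp_mul ha⟩).2 ⟨a, ha, rfl⟩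
  rw [← cl_val, ← cl_val] at this
  exact this.symm

lemma cl_cj {S : Sm} (hS : OL θ S) : h.cl (cj S) = (h.cl S)⁻¹ := by
  have e := h.cl_val (Inv.inv (α := h.Gp) ⟨S, hS⟩)
  rw [val_inv, h.cl_sp (h.ol_cj hS) (inv_ne_zero (h.nr_spec _).ne), QuotientGroup.mk_inv,
    ← cl_val] at e
  exact e

lemma qu_eq (T b : h.Gp) : qu T.1 b.1 = (T * b⁻¹).1 := by
  ext z
  rw [mem_qu]
  constructor
  · intro hz
    have h1 : z ∈ sp z * (b * b⁻¹).1 := by
      rw [mul_inv_cancel, val_one]; exact mem_sp_mul.2 ⟨1, one_mem_ord θ, mul_one _⟩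
    rw [val_mul, ← mul_assoc] at h1
    refine mul_le_mul_left (show sp z * b.1 ≤ T.1 from fun v hv => ?_) _ h1
    obtain ⟨w, hw, rfl⟩ := mem_sp_mul.1 hv
    rw [mul_comm]; exact hz w hw
  · intro hz β hβ
    have h1 : β * z ∈ (b * (T * b⁻¹)).1 := mul_mem_mul hβ hz
    rwa [mul_comm T, mul_inv_cancel_left] at h1

include h in
/-- a shortest vector, normalised to `1` -/
lemma exists_short {S : Sm} (hS : OL θ S) (P : ℂ → Prop) (hP : ∃ z ∈ S, z ≠ 0 ∧ P z) :
    ∃ a ∈ S, a ≠ 0 ∧ P a ∧ ∀ z ∈ S, P z → Complex.normSq z < Complex.normSq a → z = 0 := by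
  classical
  obtain ⟨N, hN⟩ := h.exists_nm hS
  have hex : ∃ n : ℕ, ∃ z ∈ S, z ≠ 0 ∧ P z ∧ z * conj z = N * n := by
    obtain ⟨z, hz, h0, hp⟩ := hP
    obtain ⟨n, hn⟩ := h.nm_int hN hz
    exact ⟨n, z, hz, h0, hp, hn⟩
  obtain ⟨a, ha, h0, hp, hn⟩ := Nat.find_spec hex
  refine ⟨a, ha, h0, hp, fun z hz hpz hlt => ?_⟩
  by_contra hz0
  obtain ⟨n, hn'⟩ := h.nm_int hN hz
  have := Nat.find_min' hex ⟨z, hz, hz0, hpz, hn'⟩
  rw [Complex.mul_conj] at hn hn'
  have e1 : Complex.normSq a = N * (Nat.find hex : ℕ) := by exact_mod_cast hn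
  have e2 : Complex.normSq z = N * n := by exact_mod_cast hn'
  have e3 : ((Nat.find hex : ℕ) : ℝ) ≤ n := by exact_mod_cast this
  nlinarith [hN.pos]

include h in
lemma exists_coord (z : ℂ) : ∃ s t : ℝ, z = s + t * θ := by
  refine ⟨z.re - z.im / θ.im * θ.re, z.im / θ.im, Complex.ext ?_ ?_⟩
  · simp [-Complex.ofReal_div]
  · simp [-Complex.ofReal_div, h.im_ne]

include h in
/-- Hurwitz: every lattice is homothetic to one between `O` and `O / D!` -/
lemma exists_between {S : Sm} (hS : OL θ S) : ∃ a : ℂ, a ≠ 0 ∧ ord θ ≤ sp a * S ∧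
    ∀ z ∈ sp a * S, ((D.factorial : ℕ) : ℂ) * z ∈ ord θ := by
  obtain ⟨a, ha, h0, -, hmin⟩ := h.exists_short hS (fun _ => True) (by
    obtain ⟨a, ha, h0⟩ := hS.lat.exists_ne
    exact ⟨a, ha, h0, trivial⟩)
  have hT := hS.sp_mul (inv_ne_zero h0)
  have h1 : (1 : ℂ) ∈ sp a⁻¹ * S := mem_sp_mul.2 ⟨a, ha, inv_mul_cancel₀ h0⟩
  have hle : ord θ ≤ sp a⁻¹ * S := fun g hg => by simpa using hT.mul_mem hg h1
  refine ⟨a⁻¹, inv_ne_zero h0, hle, fun z hz => ?_⟩
  obtain ⟨s, t, rfl⟩ := h.exists_coord z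
  obtain ⟨j, k, hk0, hk1, hjk⟩ := Real.exists_int_int_abs_mul_sub_le t h.pos
  set ε : ℝ := k * t - j with hε
  set i : ℤ := round (k * s + ε / 2) with hi
  have hi' : |k * s + ε / 2 - i| ≤ 1 / 2 := abs_sub_round _
  set v : ℂ := k * (s + t * θ) - (i + j * θ) with hv
  have hvT : v ∈ sp a⁻¹ * S := Submodule.sub_mem _ (int_mul_mem k hz) (hle (mem_ord28.2 ⟨i, j, rfl⟩))
  have hre : v.re = k * s + ε / 2 - i := by simp [hv, hε, h.re_im.1]; ring
  have him : v.im = ε * θ.im := by simp [hv, hε]; ring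
  have hn : Complex.normSq v < 1 := by
    rw [Complex.normSq_apply, hre, him]
    have hD : (0 : ℝ) < D := by exact_mod_cast h.pos
    have a1 : (k * s + ε / 2 - i) * (k * s + ε / 2 - i) ≤ 1 / 4 := by
      have := abs_le.1 hi'; nlinarith
    have a2 : |ε| * (D + 1) ≤ 1 := by rwa [← le_div_iff₀ (by positivity)]
    have a3 : ε * ε * (D + 1) ^ 2 ≤ 1 := by
      have := abs_nonneg ε
      have e := abs_mul_abs_self ε
      have : (|ε| * (D + 1)) ^ 2 ≤ 1 := pow_le_one₀ (by positivity) a2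
      nlinarith
    have a4 : ε * θ.im * (ε * θ.im) = ε * ε * D / 4 := by rw [← h.re_im.2]; ring
    have a5 : ε * ε * D ≤ 1 := by nlinarith [mul_self_nonneg ε, sq_nonneg (D : ℝ)]
    rw [a4]; linarith
  have hv0 : v = 0 := by
    rw [mem_sp_mul' (inv_ne_zero h0), inv_inv] at hvT
    have := hmin _ hvT trivial (by
      rw [map_mul]; nlinarith [Complex.normSq_pos.2 h0, Complex.normSq_nonneg v])
    exact (mul_eq_zero.1 this).resolve_left h0
  obtain ⟨k', rfl⟩ := Int.eq_ofNat_of_zero_le hk0.le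
  obtain ⟨c, hc⟩ := Nat.dvd_factorial (show 0 < k' by exact_mod_cast hk0)
    (show k' ≤ D by exact_mod_cast hk1)
  have : ((D.factorial : ℕ) : ℂ) * (s + t * θ) = (c : ℤ) * (i + j * θ) := by
    rw [hc]; push_cast at hv ⊢; linear_combination (c : ℂ) * hv0 - c * hv
  rw [this]
  exact int_mul_mem _ (mem_ord28.2 ⟨i, j, rfl⟩)

instance finite_cl : Finite h.Cl := by
  classical
  set M := D.factorial with hM
  have hM0 : 0 < M := Nat.factorial_pos D
  have hM' : (M : ℂ) ≠ 0 := by exact_mod_cast hM0.ne'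
  have key : ∀ g : h.Cl, ∃ T : h.Gp, QuotientGroup.mk T = g ∧ ord θ ≤ T.1 ∧
      ∀ z ∈ T.1, (M : ℂ) * z ∈ ord θ := by
    intro g
    obtain ⟨S, rfl⟩ := QuotientGroup.mk_surjective g
    obtain ⟨a, ha, h1, h2⟩ := h.exists_between S.2
    exact ⟨⟨_, S.2.sp_mul ha⟩, ((h.mk_eq_iff _ _).2 ⟨a, ha, rfl⟩).symm, h1, h2⟩
  choose T h1 h2 h3 using key
  let f : h.Cl → Fin M × Fin M → Prop := fun g p =>
    (((p.1 : ℕ) : ℂ) + ((p.2 : ℕ) : ℂ) * θ) / M ∈ (T g).1
  have le : ∀ g g', f g = f g' → (T g).1 ≤ (T g').1 := by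
    intro g g' e z hz
    obtain ⟨x, y, exy⟩ := mem_ord28.1 (h3 g z hz)
    have hMz : (M : ℤ) ≠ 0 := by exact_mod_cast hM0.ne'
    have hMz' : (0 : ℤ) < M := by exact_mod_cast hM0
    obtain ⟨x0, hx0⟩ := Int.eq_ofNat_of_zero_le (Int.emod_nonneg x hMz)
    obtain ⟨y0, hy0⟩ := Int.eq_ofNat_of_zero_le (Int.emod_nonneg y hMz)
    have hx1 : x0 < M := by have := Int.emod_lt_of_pos x hMz'; omega
    have hy1 : y0 < M := by have := Int.emod_lt_of_pos y hMz'; omega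
    have ex : (x : ℂ) = x0 + M * (x / M : ℤ) := by
      have := Int.emod_add_mul_ediv x M
      rw [hx0] at this
      exact_mod_cast this.symm
    have ey : (y : ℂ) = y0 + M * (y / M : ℤ) := by
      have := Int.emod_add_mul_ediv y M
      rw [hy0] at this
      exact_mod_cast this.symm
    have ez : ((x0 : ℂ) + y0 * θ) / M = z - ((x / M : ℤ) + (y / M : ℤ) * θ) := by
      field_simp
      linear_combination exy - ex - θ * ey
    have hm : ((x / M : ℤ) : ℂ) + (y / M : ℤ) * θ ∈ ord θ := mem_ord28.2 ⟨_, _, rfl⟩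
    have a1 : f g (⟨x0, hx1⟩, ⟨y0, hy1⟩) := by
      show ((x0 : ℂ) + y0 * θ) / M ∈ _
      rw [ez]; exact Submodule.sub_mem _ hz (h2 g hm)
    rw [e] at a1
    have a2 : ((x0 : ℂ) + y0 * θ) / M ∈ (T g').1 := a1
    rw [ez] at a2
    simpa using Submodule.add_mem _ a2 (h2 g' hm)
  refine Finite.of_injective f fun g g' e => ?_
  rw [← h1 g, ← h1 g', Gp.ext (le_antisymm (le g g' e) (le g' g e.symm))]

/-! ### the genus character -/

section genus

variable (p : ℕ) [Fact p.Prime] (hp : p ∣ D)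

/-- `S` represents `n` -/
def Rep (S : h.Gp) (n : ℕ) : Prop := ∃ z ∈ S.1, z * conj z = h.nr S * n

lemma rep_of {S : h.Gp} {N : ℝ} (hN : Nm θ S.1 N) {z : ℂ} (hz : z ∈ S.1) {n : ℕ}
    (e : z * conj z = N * n) : h.Rep S n := ⟨z, hz, by rw [h.nm_unique (h.nr_spec S) hN, e]⟩

lemma exists_rep (S : h.Gp) : ∃ n, h.Rep S n ∧ ¬ p ∣ n := by
  by_contra hc
  have hc' : ∀ z ∈ S.1, ∃ k : ℤ, z * conj z = h.nr S * (p * k) := by
    intro z hz
    obtain ⟨n, hn⟩ := h.nm_int (h.nr_spec S) hz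
    obtain ⟨k, rfl⟩ : p ∣ n := by
      by_contra hd; exact hc ⟨n, ⟨z, hz, hn⟩, hd⟩
    exact ⟨k, by rw [hn]; push_cast; rfl⟩
  have key : ∀ v ∈ S.1 * cj S.1, ∃ k : ℤ, v + conj v = h.nr S * (p * k) := by
    intro v hv
    refine Submodule.mul_induction_on hv (fun z hz w hw => ?_) ?_
    · rw [mem_cj] at hw
      obtain ⟨a, ha⟩ := hc' z hz
      obtain ⟨b, hb⟩ := hc' _ hw
      obtain ⟨c, hc⟩ := hc' _ (S.1.add_mem hz hw)
      simp only [map_add, map_mul, Complex.conj_conj] at ha hb hc ⊢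
      exact ⟨c - a - b, by push_cast; linear_combination hc - ha - hb⟩
    · rintro x y ⟨a, ha⟩ ⟨b, hb⟩
      exact ⟨a + b, by rw [map_add]; push_cast; linear_combination ha + hb⟩
  obtain ⟨k, hk⟩ := key (h.nr S * θ) (by
    rw [(h.nr_spec S).eq]; exact mem_sp_mul.2 ⟨θ, self_mem_ord θ, rfl⟩)
  rw [map_mul, h.conj_eq, Complex.conj_ofReal] at hk
  have h1 : (1 : ℂ) = p * k := by
    apply mul_left_cancel₀ (h.nr_spec S).ne
    linear_combination hk
  have h2 : (1 : ℤ) = p * k := by exact_mod_cast h1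
  have h3 : p ∣ 1 := by exact_mod_cast (Dvd.intro _ h2.symm : (p : ℤ) ∣ 1)
  exact (Fact.out : p.Prime).one_lt.ne' (Nat.dvd_one.1 h3)

lemma leg_ne {n : ℕ} (hn : ¬ p ∣ n) : ((n : ℤ) : ZMod p) ≠ 0 := by
  rw [Int.cast_natCast, Ne, ZMod.natCast_eq_zero_iff]; exact hn

include hp in
lemma leg_eq (h2 : p ≠ 2) {S : h.Gp} {a b : ℕ} (ha : h.Rep S a) (hb : h.Rep S b) (ha' : ¬ p ∣ a)
    (hb' : ¬ p ∣ b) : legendreSym p a = legendreSym p b := by
  obtain ⟨z, hz, ez⟩ := ha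
  obtain ⟨w, hw, ew⟩ := hb
  obtain ⟨u, v, e⟩ := h.norm_form ((h.nr_spec S).mem hz hw)
  have hN := (h.nr_spec S).ne
  have e1 : (4 : ℂ) * (a * b) = u ^ 2 + D * v ^ 2 := by
    rw [← e]
    simp only [map_mul, map_inv₀, Complex.conj_ofReal, Complex.conj_conj]
    field_simp
    linear_combination (-(w * conj w)) * ez - h.nr S * a * ew
  have e2 : (4 : ℤ) * (a * b) = u ^ 2 + D * v ^ 2 := by exact_mod_cast e1
  have hD : (D : ZMod p) = 0 := (ZMod.natCast_eq_zero_iff _ _).2 hp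
  have e3 : (4 : ZMod p) * (a * b) = (u : ZMod p) ^ 2 := by
    have := congrArg (Int.cast : ℤ → ZMod p) e2
    push_cast at this
    rw [this, hD]; ring
  have h2' : (2 : ZMod p) ≠ 0 := by
    have := leg_ne p (n := 2) fun hd =>
      h2 ((Nat.prime_dvd_prime_iff_eq Fact.out Nat.prime_two).1 hd)
    exact_mod_cast this
  have hab : legendreSym p (a * b) = 1 := by
    rw [legendreSym.eq_one_iff p (by
      push_cast; exact mul_ne_zero (by simpa using leg_ne p ha') (by simpa using leg_ne p hb'))]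
    refine ⟨u / 2, ?_⟩
    push_cast
    field_simp
    linear_combination e3
  rw [legendreSym.mul] at hab
  rcases legendreSym.eq_one_or_neg_one p (leg_ne p ha') with e | e <;>
    rcases legendreSym.eq_one_or_neg_one p (leg_ne p hb') with e' | e' <;>
    rw [e, e'] at hab ⊢ <;> omega

/-- the value of the genus character -/
def chi0 (S : h.Gp) : ℤ := legendreSym p (h.exists_rep p S).choose

include hp in
lemma chi0_eq (h2 : p ≠ 2) {S : h.Gp} {n : ℕ} (hn : h.Rep S n) (hn' : ¬ p ∣ n) :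
    h.chi0 p S = legendreSym p n :=
  h.leg_eq p hp h2 (h.exists_rep p S).choose_spec.1 hn (h.exists_rep p S).choose_spec.2 hn'

lemma not_dvd_one : ¬ p ∣ 1 := fun hd => (Fact.out : p.Prime).one_lt.ne' (Nat.dvd_one.1 hd)

include hp in
lemma chi0_prin (h2 : p ≠ 2) (a : ℂˣ) : h.chi0 p (h.prin a) = 1 := by
  rw [h.chi0_eq p hp h2 (n := 1) (h.rep_of (h.nm_sp h.nm_ord a.ne_zero) (z := a)
    (mem_sp_mul.2 ⟨1, one_mem_ord θ, mul_one _⟩) (by rw [Complex.mul_conj]; simp)) (not_dvd_one p)]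
  simp

/-- the genus character on lattices -/
def chi1 (h2 : p ≠ 2) : h.Gp →* ℤ where
  toFun := h.chi0 p
  map_one' := by rw [← map_one h.prin]; exact h.chi0_prin p hp h2 1
  map_mul' S T := by
    obtain ⟨a, ⟨z, hz, ez⟩, ha⟩ := h.exists_rep p S
    obtain ⟨b, ⟨w, hw, ew⟩, hb⟩ := h.exists_rep p T
    rw [h.chi0_eq p hp h2 ⟨z, hz, ez⟩ ha, h.chi0_eq p hp h2 ⟨w, hw, ew⟩ hb,
      h.chi0_eq p hp h2 (n := a * b) (h.rep_of (S := S * T) (h.nm_mul (h.nr_spec S) (h.nr_spec T))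
        (mul_mem_mul hz hw) (by
          rw [map_mul]; push_cast
          linear_combination (w * conj w) * ez + h.nr S * a * ew))
        (fun hd => ((Fact.out : p.Prime).dvd_mul.1 hd).elim ha hb)]
    push_cast
    exact legendreSym.mul p _ _

/-- the genus character -/
def chi (h2 : p ≠ 2) : h.Cl →* ℤˣ :=
  QuotientGroup.lift _ (h.chi1 p hp h2).toHomUnits (by
    rintro _ ⟨a, rfl⟩
    exact Units.ext (h.chi0_prin p hp h2 a))

lemma chi_eq (h2 : p ≠ 2) {S : Sm} (hS : OL θ S) {N : ℝ} (hN : Nm θ S N) {z : ℂ} (hz : z ∈ S)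
    {n : ℕ} (e : z * conj z = N * n) (hn : ¬ p ∣ n) :
    (h.chi p hp h2 (h.cl S) : ℤ) = legendreSym p n := by
  rw [h.cl_val ⟨S, hS⟩]
  exact h.chi0_eq p hp h2 (h.rep_of (S := ⟨S, hS⟩) hN hz e) hn

end genus

include h in
/-- a class of order two contains an ambiguous lattice `T ∋ 1` with `δ T ⊆ O` -/
lemma exists_amb {S : Sm} (hS : OL θ S) (hs : h.cl S * h.cl S = 1) :
    ∃ T, OL θ T ∧ h.cl T = h.cl S ∧ cj T = T ∧ (1 : ℂ) ∈ T ∧ ∀ z ∈ T, (2 * θ - 1) * z ∈ ord θ := by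
  -- Hilbert 90
  have h90 : ∃ T, OL θ T ∧ h.cl T = h.cl S ∧ cj T = T := by
    have e : h.cl S = h.cl (cj S) := by rw [h.cl_cj hS]; exact eq_inv_of_mul_eq_one_left hs
    rw [h.cl_val ⟨S, hS⟩, h.cl_val ⟨_, h.ol_cj hS⟩, h.mk_eq_iff] at e
    obtain ⟨a, ha, e⟩ := e
    dsimp only at e
    obtain ⟨N, hN⟩ := h.exists_nm hS
    have h1 := h.nm_unique (e ▸ h.nm_cj hN) (h.nm_sp hN ha)
    have h2 : Complex.normSq a = 1 := by
      apply mul_right_cancel₀ hN.pos.ne'; linarith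
    have h3 : a * conj a = 1 := by rw [Complex.mul_conj, h2]; simp
    by_cases hb : 1 + a = 0
    · refine ⟨S, hS, rfl, ?_⟩
      rw [e, show a = -1 by linear_combination hb]
      ext z; rw [mem_sp_mul' (by norm_num)]; simp
    · refine ⟨_, hS.sp_mul hb, h.cl_sp hS hb, ?_⟩
      rw [cj_mul, cj_sp, e, ← mul_assoc, sp_mul_sp]
      congr 2
      rw [map_add, map_one]; linear_combination h3
  obtain ⟨T, hT, e1, e2⟩ := h90
  have hc : ∀ z ∈ T, conj z ∈ T := fun z hz => e2 ▸ conj_mem_cj hz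
  obtain ⟨a, ha, h0, hr, hmin⟩ := h.exists_short hT (fun z => z.im = 0) (by
    obtain ⟨a, b, h1, h2⟩ := hT.lat.basis
    by_contra hne
    have key : ∀ z ∈ T, z.re = 0 := by
      intro z hz
      by_contra hz0
      refine hne ⟨z + conj z, T.add_mem hz (hc z hz), fun e => hz0 ?_, by simp⟩
      have := congrArg Complex.re e
      simp at this; linarith
    have ha := key a ((h1 a).2 ⟨1, 0, by simp⟩)
    have hb := key b ((h1 b).2 ⟨0, 1, by simp⟩)
    have h3 := h2 b.im (-a.im) (Complex.ext (by simp [ha, hb]) (by simp; ring))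
    have h4 : a = 0 := Complex.ext ha (by simpa using h3.2)
    exact one_ne_zero (h2 1 0 (by simp [h4])).1)
  obtain ⟨r, rfl⟩ : ∃ r : ℝ, a = r := ⟨a.re, Complex.ext rfl (by simpa using hr)⟩
  have hr0 : r ≠ 0 := by exact_mod_cast h0
  have hT' := hT.sp_mul (inv_ne_zero h0)
  have e3 : cj (sp (r : ℂ)⁻¹ * T) = sp (r : ℂ)⁻¹ * T := by
    rw [cj_mul, cj_sp, e2, map_inv₀, Complex.conj_ofReal]
  have hint : ∀ z ∈ sp (r : ℂ)⁻¹ * T, ∃ k : ℤ, z + conj z = k := by
    intro z hz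
    have h1 : z + conj z ∈ sp (r : ℂ)⁻¹ * T := Submodule.add_mem _ hz (e3 ▸ conj_mem_cj hz)
    rw [mem_sp_mul' (inv_ne_zero h0), inv_inv, Complex.add_conj] at h1
    set x : ℝ := 2 * z.re with hx
    have h2 := hmin _ (T.sub_mem h1 (int_mul_mem ⌊x⌋ ha)) (by simp) (by
      rw [show (r : ℂ) * x - ⌊x⌋ * r = (r * Int.fract x : ℝ) by
        rw [Int.fract]; push_cast; ring, Complex.normSq_ofReal, Complex.normSq_ofReal]
      have a1 := Int.fract_nonneg x
      have a2 := Int.fract_lt_one x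
      have a3 : 0 < r * r := mul_self_pos.2 hr0
      have a4 : Int.fract x * Int.fract x < 1 := by nlinarith
      nlinarith)
    refine ⟨⌊x⌋, ?_⟩
    rw [Complex.add_conj]
    apply mul_left_cancel₀ h0
    linear_combination h2
  refine ⟨_, hT', (h.cl_sp hT (inv_ne_zero h0)).trans e1, e3,
    mem_sp_mul.2 ⟨r, ha, inv_mul_cancel₀ h0⟩, fun z hz => ?_⟩
  obtain ⟨u, hu⟩ := hint z hz
  obtain ⟨k, hk⟩ := hint _ (hT'.mul z hz)
  rw [map_mul, h.conj_eq] at hk
  exact mem_ord28.2 ⟨k - u, u, by push_cast; linear_combination -hk + (1 - θ) * hu⟩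

end Qd

theorem clStmt : ClStmt := by
  intro p q hp hq hp8 hq8 hns δ θ hδ hθ
  have := Fact.mk hp
  have hpq : p ≠ q := by omega
  have hp2 : p ≠ 2 := by omega
  have h8 : (p * q) % 8 = 7 := by rw [Nat.mul_mod, hp8, hq8]
  obtain ⟨m', hm'⟩ : ∃ m' : ℕ, 8 * m' = 1 + p * q := ⟨(1 + p * q) / 8, by omega⟩
  have hm'' : (8 : ℂ) * m' = 1 + p * q := by exact_mod_cast hm'
  have h : Qd θ (2 * m') (p * q) := by
    refine ⟨?_, by push_cast; exact_mod_cast (by omega : 4 * (2 * m') = 1 + p * q),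
      Nat.mul_pos hp.pos hq.pos, ?_⟩
    · rw [hθ]; push_cast; linear_combination hδ / 4 + hm'' / 4
    · rw [Nat.squarefree_mul ((Nat.coprime_primes hp hq).2 hpq)]
      exact ⟨hp.squarefree, hq.squarefree⟩
  have hpd : p ∣ p * q := dvd_mul_right p q
  have hsq := h.sq
  push_cast at hsq
  have hm2 : ∀ z, z ∈ pr2 θ ↔ ∃ x y : ℤ, x * 2 + y * θ = z := fun z => by
    simp [pr2, mem_span_pair]
  have h2 : OL θ (pr2 θ) := by
    refine ⟨isLat_of hm2 fun s t e => ?_, fun z hz => ?_⟩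
    · have := h.indep (s := s * 2) (t := t) (by push_cast; exact e)
      exact ⟨by linarith [this.1], this.2⟩
    · obtain ⟨x, y, rfl⟩ := (hm2 z).1 hz
      exact (hm2 _).2 ⟨-(y * m'), 2 * x + y, by push_cast; linear_combination (-y) * hsq⟩
  have h22 : (2 : ℂ) ∈ pr2 θ := (hm2 _).2 ⟨1, 0, by simp⟩
  have h2t : θ ∈ pr2 θ := (hm2 _).2 ⟨0, 1, by simp⟩
  have hn2 : Nm θ (pr2 θ) 2 := by
    refine ⟨two_pos, le_antisymm (Submodule.mul_le.2 fun v hv w hw => ?_) fun v hv => ?_⟩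
    · rw [mem_cj] at hw
      obtain ⟨i, j, rfl⟩ := (hm2 _).1 hv
      obtain ⟨k, l, e⟩ := (hm2 _).1 hw
      have e' := congrArg conj e
      simp only [map_add, map_mul, map_intCast, Complex.conj_conj, h.conj_eq, map_ofNat] at e'
      rw [← e', mem_sp_mul]
      refine ⟨_, mem_ord28.2 ⟨2 * i * k + i * l + j * l * m', j * k - i * l, rfl⟩, ?_⟩
      push_cast
      linear_combination (j * l) * hsq
    · obtain ⟨g, hg, rfl⟩ := mem_sp_mul.1 hv
      obtain ⟨i, j, rfl⟩ := mem_ord28.1 hg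
      have q1 := mul_mem_mul h2t (conj_mem_cj h22)
      have q2 := mul_mem_mul h22 (conj_mem_cj h2t)
      rw [map_ofNat] at q1
      rw [h.conj_eq] at q2
      have := Submodule.add_mem _ (int_mul_mem (i + j) q1) (int_mul_mem i q2)
      convert this using 1
      push_cast; ring
  have hq' : legendreSym p q = -1 := (legendreSym.eq_neg_one_iff p).2 (by simpa using hns)
  have hpq' : ¬ p ∣ q := fun hd => hpq ((Nat.prime_dvd_prime_iff_eq hp hq).1 hd)
  refine ⟨h.Cl, inferInstance, Fintype.ofFinite _, h.cl, h.chi p hpd hp2, h.ol_ord, h2,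
    h.cl_val 1, fun S T hS hT => ?_, fun g => ?_, fun T b hT hb => ?_,
    fun S hS => ⟨h.ol_cj hS, h.cl_cj hS⟩, ?_, ?_⟩
  · rw [h.cl_val ⟨S, hS⟩, h.cl_val ⟨T, hT⟩, h.mk_eq_iff]
    constructor
    · rintro ⟨a, ha, e⟩; exact ⟨a⁻¹, inv_ne_zero ha, by rw [← sp_mul_eq ha]; exact e⟩
    · rintro ⟨a, ha, e⟩; exact ⟨a⁻¹, inv_ne_zero ha, by rw [← dv_eq ha]; exact e⟩
  · obtain ⟨S, rfl⟩ := QuotientGroup.mk_surjective g
    obtain ⟨s, hs, hs0⟩ := S.2.lat.exists_ne
    have hN := h.nr_spec S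
    have ha : (h.nr S : ℂ)⁻¹ * conj s ≠ 0 := mul_ne_zero (inv_ne_zero hN.ne) (by simpa using hs0)
    refine ⟨_, S.2.sp_mul ha, fun v hv => ?_, (h.cl_sp S.2 ha).trans (h.cl_val S)⟩
    obtain ⟨w, hw, rfl⟩ := mem_sp_mul.1 hv
    convert hN.mem hw hs using 1
    ring
  · have e := h.qu_eq ⟨T, hT⟩ ⟨b, hb⟩
    dsimp only at e
    rw [e, h.cl_val, h.cl_val ⟨T, hT⟩, h.cl_val ⟨b, hb⟩]
    exact ⟨Qd.Gp.ol _, rfl⟩
  · rw [← Nat.not_even_iff_odd, even_iff_two_dvd]
    intro hd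
    obtain ⟨⟨g, hg⟩, ho⟩ := exists_prime_orderOf_dvd_card' (G := (h.chi p hpd hp2).ker) 2 hd
    have hg1 : g ≠ 1 := by
      rintro rfl
      have : orderOf (⟨1, hg⟩ : (h.chi p hpd hp2).ker) = 1 := orderOf_one
      omega
    have hg2 : g * g = 1 := by
      have := pow_orderOf_eq_one (⟨g, hg⟩ : (h.chi p hpd hp2).ker)
      rw [ho, pow_two] at this
      exact congrArg Subtype.val this
    obtain ⟨S, rfl⟩ := QuotientGroup.mk_surjective g
    rw [← h.cl_val] at hg hg1 hg2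
    obtain ⟨T, hT, e1, e2, h1, hδT⟩ := h.exists_amb S.2 hg2
    rw [← e1] at hg hg1
    have hg' : (h.chi p hpd hp2 (h.cl T) : ℤ) = 1 := by rw [MonoidHom.mem_ker.1 hg]; rfl
    obtain ⟨N, hN⟩ := h.exists_nm hT
    obtain ⟨d, he⟩ := h.nm_int hN h1
    have hd1 : (N : ℂ) * d = 1 := by simpa using he.symm
    have hd1' : N * d = 1 := by exact_mod_cast hd1
    have hδ0 : 2 * θ - 1 ≠ 0 := by
      intro e
      have := h.dsq
      rw [e, mul_zero] at this
      have h3 : ((p * q : ℕ) : ℂ) = 0 := by linear_combination this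
      exact h.pos.ne' (by exact_mod_cast h3)
    have hT' := hT.sp_mul hδ0
    have hns' : Complex.normSq (2 * θ - 1) = (p * q : ℕ) := by
      have := h.dsq
      have h3 := Complex.mul_conj (2 * θ - 1)
      simp only [map_sub, map_mul, map_ofNat, map_one, h.conj_eq] at h3
      have h4 : (Complex.normSq (2 * θ - 1) : ℂ) = (p * q : ℕ) := by linear_combination -h3 - this
      exact_mod_cast h4
    have hN' := h.nm_sp hN hδ0
    rw [hns'] at hN'
    have hle : sp (2 * θ - 1) * T ≤ ord θ := fun v hv => by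
      obtain ⟨w, hw, rfl⟩ := mem_sp_mul.1 hv
      exact hδT w hw
    -- the norm of an ambiguous lattice
    have hcj : cj (sp (2 * θ - 1) * T) = sp (2 * θ - 1) * T := by
      rw [cj_mul, cj_sp, e2]
      simp only [map_sub, map_mul, map_ofNat, map_one, h.conj_eq]
      rw [show 2 * (1 - θ) - 1 = -(2 * θ - 1) by ring, sp, ← Set.neg_singleton, span_neg, sp]
    have hmem : (((p * q : ℕ) * N : ℝ) : ℂ) ∈ sp (2 * θ - 1) * T := by
      have a1 : (((p * q : ℕ) * N : ℝ) : ℂ) ∈ sp (2 * θ - 1) * T * cj (sp (2 * θ - 1) * T) := by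
        rw [hN'.eq]; exact mem_sp_mul.2 ⟨1, one_mem_ord θ, mul_one _⟩
      rw [hcj] at a1
      have a2 := mul_le_mul_left hle (sp (2 * θ - 1) * T) a1
      rwa [hT'.ord_mul28] at a2
    obtain ⟨k, hk⟩ := h.real_mem (hle hmem)
    have hdk : (p * q : ℕ) = (d : ℤ) * k := by
      have : ((p * q : ℕ) : ℝ) = d * k := by rw [← hk]; linear_combination (-(p * q : ℕ)) * hd1'
      exact_mod_cast this
    have hdd : d ∣ p * q := by exact_mod_cast (Dvd.intro _ hdk.symm : (d : ℤ) ∣ (p * q : ℕ))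
    have hone : ∀ {U : Sm}, OL θ U → (1 : ℂ) ∈ U → U ≤ ord θ → h.cl U = 1 := by
      intro U hU a1 a2
      rw [le_antisymm a2 fun g hg => by simpa using hU.mul_mem hg a1]
      exact h.cl_val 1
    obtain ⟨d1, d2, a1, a2, rfl⟩ := (Nat.dvd_mul).1 hdd
    rcases (Nat.dvd_prime hp).1 a1 with rfl | rfl <;> rcases (Nat.dvd_prime hq).1 a2 with rfl | rfl
    · refine hg1 (hone hT h1 fun z hz => ?_)
      have := hN.mem hz h1
      rwa [show (N : ℂ) = 1 by simpa using hd1, inv_one, map_one, one_mul, mul_one] at this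
    · rw [h.chi_eq p hpd hp2 hT hN h1 he (by simpa using hpq'), one_mul, hq'] at hg'
      omega
    · have hNq : ((d1 * q : ℕ) : ℝ) * N = q := by push_cast at hd1' ⊢; linear_combination q * hd1'
      rw [hNq] at hmem hN'
      rw [← h.cl_sp hT hδ0, h.chi_eq d1 hpd hp2 hT' hN' hmem (n := q)
        (by rw [Complex.conj_ofReal]; simp) hpq', hq'] at hg'
      omega
    · have hN1 : ((d1 * d2 : ℕ) : ℝ) * N = 1 := by linear_combination hd1'
      rw [hN1] at hmem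
      exact hg1 ((h.cl_sp hT hδ0).symm.trans (hone hT' (by simpa using hmem) hle))
  · apply Units.ext
    rw [h.chi_eq p hpd hp2 h2 hn2 h22 (n := 2) (by rw [map_ofNat]; simp)
      (fun hd => hp2 ((Nat.prime_dvd_prime_iff_eq hp Nat.prime_two).1 hd))]
    rw [show ((2 : ℕ) : ℤ) = 2 from rfl, legendreSym.at_two hp2, ZMod.χ₈_nat_eq_if_mod_eight]
    simp [hp8, show p % 2 = 1 by omega]

end Crest.Agent.T15.Cm
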