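import Mathlib

/-!
# Row 15, block L (helper47), part A: the curves `y² = x³ - n x` as `ℤ[i]`-modules

* `Tw V V' f u`, `Tw.hom`: the homomorphism `(x, y) ↦ (u² f x, u³ f y)` (field maps, twists, casts);
* `E ι n`: the curve `y² = x³ - n x` (`ι` is a phantom parameter, `Fact (ι ^ 2 = -1)`), with the
  instance `Module ℤ[i] (E ι n).Point`, `i • (x, y) = (-x, ι y)`;
* `co A : L × L` coordinates (`co 0 = (0, 1)`), `tt A = x / y`.
-/

set_option autoImplicit false
set_option linter.unusedSectionVars false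

namespace Crest.Agent.T15.Lk

open WeierstrassCurve WeierstrassCurve.Affine

local notation "ℤ[i]" => GaussianInt

section Tw

variable {L L' : Type*} [Field L] [Field L']

/-- `V'` is the image of `V` under `f`, scaled by `u`. -/
structure Tw (V : Affine L) (V' : Affine L') (f : L →+* L') (u : L') : Prop where
  ne : u ≠ 0
  a₁ : V'.a₁ = u * f V.a₁
  a₂ : V'.a₂ = u ^ 2 * f V.a₂
  a₃ : V'.a₃ = u ^ 3 * f V.a₃
  a₄ : V'.a₄ = u ^ 4 * f V.a₄
  a₆ : V'.a₆ = u ^ 6 * f V.a₆

namespace Tw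

variable {V : Affine L} {V' : Affine L'} {f : L →+* L'} {u : L'} (h : Tw V V' f u)
include h

theorem equation_iff' {x y : L} : V'.Equation (u ^ 2 * f x) (u ^ 3 * f y) ↔ V.Equation x y := by
  rw [equation_iff, equation_iff, h.a₁, h.a₂, h.a₃, h.a₄, h.a₆, ← f.injective.eq_iff]
  simp only [map_add, map_mul, map_pow]
  have := pow_ne_zero 6 h.ne
  constructor
  · intro e
    apply mul_left_cancel₀ this
    linear_combination e
  · intro e
    linear_combination u ^ 6 * e

theorem nonsingular {x y : L} (hn : V.Nonsingular x y) :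
    V'.Nonsingular (u ^ 2 * f x) (u ^ 3 * f y) := by
  rw [nonsingular_iff] at hn ⊢
  refine ⟨h.equation_iff'.2 hn.1, ?_⟩
  rw [h.a₁, h.a₂, h.a₃, h.a₄]
  refine hn.2.imp (fun h1 e => h1 (f.injective ?_)) (fun h1 e => h1 (f.injective ?_))
  · simp only [map_add, map_mul, map_pow, map_ofNat]
    apply mul_left_cancel₀ (pow_ne_zero 4 h.ne)
    linear_combination e
  · simp only [map_sub, map_mul, map_neg]
    apply mul_left_cancel₀ (pow_ne_zero 3 h.ne)
    linear_combination e

theorem negY (x y : L) : V'.negY (u ^ 2 * f x) (u ^ 3 * f y) = u ^ 3 * f (V.negY x y) := by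
  simp only [Affine.negY, h.a₁, h.a₃, map_sub, map_neg, map_mul]
  ring

theorem X_iff {x x' : L} : u ^ 2 * f x = u ^ 2 * f x' ↔ x = x' := by
  rw [mul_right_inj' (pow_ne_zero 2 h.ne), f.injective.eq_iff]

theorem Y_iff {x x' : L} : u ^ 3 * f x = u ^ 3 * f x' ↔ x = x' := by
  rw [mul_right_inj' (pow_ne_zero 3 h.ne), f.injective.eq_iff]

theorem addX (x₁ x₂ l : L) :
    V'.addX (u ^ 2 * f x₁) (u ^ 2 * f x₂) (u * f l) = u ^ 2 * f (V.addX x₁ x₂ l) := by
  simp only [Affine.addX, h.a₁, h.a₂, map_sub, map_add, map_mul, map_pow]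
  ring

theorem addY (x₁ x₂ y₁ l : L) :
    V'.addY (u ^ 2 * f x₁) (u ^ 2 * f x₂) (u ^ 3 * f y₁) (u * f l) =
      u ^ 3 * f (V.addY x₁ x₂ y₁ l) := by
  simp only [Affine.addY, Affine.negAddY, Affine.negY, Affine.addX, h.a₁, h.a₂, h.a₃, map_sub,
    map_add, map_mul, map_pow, map_neg]
  ring

variable [DecidableEq L] [DecidableEq L']

theorem slope (x₁ x₂ y₁ y₂ : L) :
    V'.slope (u ^ 2 * f x₁) (u ^ 2 * f x₂) (u ^ 3 * f y₁) (u ^ 3 * f y₂) =
      u * f (V.slope x₁ x₂ y₁ y₂) := by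
  have hu := h.ne
  by_cases hx : x₁ = x₂
  · by_cases hy : y₁ = V.negY x₂ y₂
    · rw [slope_of_Y_eq hx hy, slope_of_Y_eq (h.X_iff.2 hx) (by rw [h.negY, hy])]
      simp
    · rw [slope_of_Y_ne hx hy, slope_of_Y_ne (h.X_iff.2 hx) (by rw [h.negY]; exact mt h.Y_iff.1 hy),
        h.negY, h.a₁, h.a₂, h.a₄]
      simp only [map_div₀, map_sub, map_add, map_mul, map_pow, map_ofNat]
      rw [← mul_sub, ← mul_div_mul_left _ (f y₁ - f (V.negY x₁ y₁)) (pow_ne_zero 3 hu), ← mul_div_assoc]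
      congr 1
      ring
  · rw [slope_of_X_ne hx, slope_of_X_ne (mt h.X_iff.1 hx)]
    simp only [map_div₀, map_sub]
    rw [← mul_sub, ← mul_sub, ← mul_div_mul_left _ (f x₁ - f x₂) (pow_ne_zero 2 hu), ← mul_div_assoc]
    congr 1
    ring

/-- the map on points -/
def toFun : V.Point → V'.Point
  | .zero => 0
  | .some x y hn => .some (u ^ 2 * f x) (u ^ 3 * f y) (h.nonsingular hn)

/-- `(x, y) ↦ (u² f x, u³ f y)` as a homomorphism -/
noncomputable def hom : V.Point →+ V'.Point := AddMonoidHom.mk' h.toFun (by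
  rintro (_ | ⟨x₁, y₁, h₁⟩) (_ | ⟨x₂, y₂, h₂⟩)
  any_goals rfl
  by_cases hxy : x₁ = x₂ ∧ y₁ = V.negY x₂ y₂
  · rw [Point.add_of_Y_eq hxy.1 hxy.2]
    simp only [toFun]
    rw [Point.add_of_Y_eq (h.X_iff.2 hxy.1) (by rw [h.negY, hxy.2])]
  · rw [Point.add_some hxy]
    simp only [toFun]
    rw [Point.add_some (by rwa [h.negY, h.X_iff, h.Y_iff])]
    simp only [h.slope, h.addX, h.addY])

theorem hom_some {x y : L} (hn : V.Nonsingular x y) :
    h.hom (.some x y hn) = .some (u ^ 2 * f x) (u ^ 3 * f y) (h.nonsingular hn) := rfl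

theorem hom_injective : Function.Injective h.hom := by
  refine (injective_iff_map_eq_zero _).2 ?_
  rintro (_ | ⟨x, y, hn⟩) e
  · rfl
  · exact absurd e (Point.some_ne_zero _)

end Tw

end Tw

section Act

variable {M : Type*} [AddCommGroup M]

/-- A complex structure on an abelian group makes it a `ℤ[i]`-module. -/
@[reducible] def modOf (J : M →+ M) (hJ : ∀ x, J (J x) = -x) : Module ℤ[i] M where
  smul α x := α.re • x + α.im • J x
  one_smul x := show (1 : ℤ[i]).re • x + (1 : ℤ[i]).im • J x = x by simp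
  mul_smul α β x := show (α * β).re • x + (α * β).im • J x =
      α.re • (β.re • x + β.im • J x) + α.im • J (β.re • x + β.im • J x) by
    simp only [Zsqrtd.re_mul, Zsqrtd.im_mul, map_add, map_zsmul, hJ]
    module
  smul_zero α := show α.re • (0 : M) + α.im • J 0 = 0 by simp
  smul_add α x y := show α.re • (x + y) + α.im • J (x + y) =
      α.re • x + α.im • J x + (α.re • y + α.im • J y) by
    simp only [map_add]
    module
  add_smul α β x := show (α + β).re • x + (α + β).im • J x =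
      α.re • x + α.im • J x + (β.re • x + β.im • J x) by
    simp only [Zsqrtd.re_add, Zsqrtd.im_add]
    module
  zero_smul x := show (0 : ℤ[i]).re • x + (0 : ℤ[i]).im • J x = 0 by simp

end Act

section E

/-- The curve `y² = x³ - n x`; `ι` is the square root of `-1` that defines the `ℤ[i]`-action. -/
def E {R : Type*} [CommRing R] (_ι n : R) : Affine R := ⟨0, 0, 0, -n, 0⟩

section ring
variable {R : Type*} [CommRing R] (ι n : R)
@[simp] theorem E_a₁ : (E ι n).a₁ = 0 := rfl
@[simp] theorem E_a₂ : (E ι n).a₂ = 0 := rfl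
@[simp] theorem E_a₃ : (E ι n).a₃ = 0 := rfl
@[simp] theorem E_a₄ : (E ι n).a₄ = -n := rfl
@[simp] theorem E_a₆ : (E ι n).a₆ = 0 := rfl

theorem E_Δ : (E ι n).Δ = 64 * n ^ 3 := by
  simp only [WeierstrassCurve.Δ, b₂, b₄, b₆, b₈, E_a₁, E_a₂, E_a₃, E_a₄, E_a₆]
  ring

variable {ι n} in
theorem E_equation {x y : R} : (E ι n).Equation x y ↔ y ^ 2 = x ^ 3 - n * x := by
  rw [equation_iff]
  simp [sub_eq_add_neg]

@[simp] theorem E_negY (x y : R) : (E ι n).negY x y = -y := by simp [Affine.negY]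

end ring

variable {L L' : Type*} [Field L] [Field L']

theorem E_isElliptic (ι : L) {n : L} (h2 : (2 : L) ≠ 0) (hn : n ≠ 0) :
    WeierstrassCurve.IsElliptic (E ι n) := ⟨by
  rw [E_Δ, show (64 : L) = 2 ^ 6 by norm_num]
  exact (mul_ne_zero (pow_ne_zero _ h2) (pow_ne_zero _ hn)).isUnit⟩

theorem E_nonsingular {ι n : L} (h2 : (2 : L) ≠ 0) (hn : n ≠ 0) {x y : L} :
    (E ι n).Nonsingular x y ↔ y ^ 2 = x ^ 3 - n * x := by
  have := E_isElliptic ι h2 hn
  rw [← equation_iff_nonsingular, E_equation]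

theorem tw_E {ι n : L} {ι' n' : L'} {f : L →+* L'} {u : L'} (hu : u ≠ 0) (h : n' = u ^ 4 * f n) :
    Tw (E ι n) (E ι' n') f u := ⟨hu, by simp, by simp, by simp, by simp [h], by simp⟩

/-- the ring map `ℤ[i] → L`, `i ↦ ι` -/
def zi (ι : L) [h : Fact (ι ^ 2 = -1)] : ℤ[i] →+* L :=
  Zsqrtd.lift ⟨ι, by rw [← sq, h.out]; simp⟩

theorem zi_apply (ι : L) [Fact (ι ^ 2 = -1)] (α : ℤ[i]) : zi ι α = α.re + α.im * ι := rfl

/-- coordinates of a point; `0 ↦ (0, 1)` -/
def co {V : Affine L} : V.Point → L × L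
  | .zero => (0, 1)
  | .some x y _ => (x, y)

@[simp] theorem co_zero {V : Affine L} : co (0 : V.Point) = (0, 1) := rfl

@[simp] theorem co_some {V : Affine L} {x y : L} (h : V.Nonsingular x y) :
    co (.some x y h) = (x, y) := rfl

theorem co_injective {ι n : L} : Function.Injective (co : (E ι n).Point → L × L) := by
  rintro (_ | ⟨x₁, y₁, h₁⟩) (_ | ⟨x₂, y₂, h₂⟩) e
  · rfl
  · obtain ⟨rfl, rfl⟩ := Prod.mk.inj e
    simpa using E_equation.1 h₂.1
  · obtain ⟨rfl, rfl⟩ := Prod.mk.inj e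
    simpa using E_equation.1 h₁.1
  · obtain ⟨rfl, rfl⟩ := Prod.mk.inj e
    rfl

/-- the local parameter `x / y` at the origin -/
def tt {V : Affine L} (A : V.Point) : L := (co A).1 / (co A).2

@[simp] theorem tt_zero {V : Affine L} : tt (0 : V.Point) = 0 := by simp [tt]

@[simp] theorem tt_some {V : Affine L} {x y : L} (h : V.Nonsingular x y) :
    tt (.some x y h) = x / y := rfl

variable [DecidableEq L] [DecidableEq L']

theorem tw_J (ι n : L) [h : Fact (ι ^ 2 = -1)] : Tw (E ι n) (E ι n) (RingHom.id L) (-ι) :=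
  tw_E (fun e => by simpa [neg_eq_zero.1 e] using h.out) (by
    have := h.out
    simp only [RingHom.id_apply]
    linear_combination (1 - ι ^ 2) * n * this)

/-- the automorphism `(x, y) ↦ (-x, ι y)` -/
noncomputable def J (ι n : L) [Fact (ι ^ 2 = -1)] : (E ι n).Point →+ (E ι n).Point := (tw_J ι n).hom

variable {ι n : L} [hι : Fact (ι ^ 2 = -1)]

theorem J_nonsingular {x y : L} (h : (E ι n).Nonsingular x y) :
    (E ι n).Nonsingular (-x) (ι * y) := by
  have := (tw_J ι n).nonsingular h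
  have e := hι.out
  convert this using 1
  · simp [e]
  · simp only [RingHom.id_apply]
    linear_combination ι * y * e

theorem J_some {x y : L} (h : (E ι n).Nonsingular x y) :
    J ι n (.some x y h) = .some (-x) (ι * y) (J_nonsingular h) := by
  have e := hι.out
  rw [J, Tw.hom_some]
  congr 1
  · simp [e]
  · simp only [RingHom.id_apply]
    linear_combination -ι * y * e

theorem J_J (A : (E ι n).Point) : J ι n (J ι n A) = -A := by
  rcases A with _ | ⟨x, y, h⟩
  · rfl
  · rw [J_some, J_some, Point.neg_some]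
    have e := hι.out
    congr 1
    · simp
    · rw [E_negY]
      linear_combination y * e

noncomputable instance instModule : Module ℤ[i] (E ι n).Point := modOf (J ι n) J_J

theorem smul_def (α : ℤ[i]) (A : (E ι n).Point) : α • A = α.re • A + α.im • J ι n A := rfl

theorem I_smul (A : (E ι n).Point) : (⟨0, 1⟩ : ℤ[i]) • A = J ι n A := by simp [smul_def]

theorem intCast_smul (a : ℤ) (A : (E ι n).Point) : (a : ℤ[i]) • A = a • A := by simp [smul_def]

variable {ι' n' : L'} [hι' : Fact (ι' ^ 2 = -1)]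

/-- An additive map commuting with `J` is `ℤ[i]`-linear. -/
theorem map_smul_of_J (g : (E ι n).Point →+ (E ι' n').Point) (hg : ∀ A, g (J ι n A) = J ι' n' (g A))
    (α : ℤ[i]) (A : (E ι n).Point) : g (α • A) = α • g A := by
  simp [smul_def, hg]

theorem Tw.hom_J {f : L →+* L'} {u : L'} (h : Tw (E ι n) (E ι' n') f u) (hf : f ι = ι')
    (A : (E ι n).Point) : h.hom (J ι n A) = J ι' n' (h.hom A) := by
  rcases A with _ | ⟨x, y, hn⟩
  · rfl
  · rw [J_some, h.hom_some, h.hom_some, J_some]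
    congr 1
    · simp
    · rw [map_mul, hf]
      ring

theorem Tw.hom_smul {f : L →+* L'} {u : L'} (h : Tw (E ι n) (E ι' n') f u) (hf : f ι = ι')
    (α : ℤ[i]) (A : (E ι n).Point) : h.hom (α • A) = α • h.hom A :=
  map_smul_of_J _ (h.hom_J hf) α A

/-- A point of infinite order is not killed by a nonzero Gaussian integer. -/
theorem smul_ne_zero_of {P : (E ι n).Point} (hP : ∀ k : ℤ, k ≠ 0 → k • P ≠ 0) {α : ℤ[i]}
    (hα : α ≠ 0) : α • P ≠ 0 := fun e => by
  refine hP α.norm (mt GaussianInt.norm_eq_zero.1 hα) ?_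
  rw [← intCast_smul, Zsqrtd.norm_eq_mul_conj, mul_comm, mul_smul, e, smul_zero]

end E

end Crest.Agent.T15.Lk
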