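import Crest.Agent.T15.CmDef_13

/-!
# Row 15, block Q (helper13), part B: transport of lattices, torsion points, isogenies and
complex multiplications along an automorphism of `ℂ`
-/

set_option autoImplicit false
set_option linter.unusedSectionVars false

open Filter Topology PeriodPair
open Crest.Agent.R023.Unif630

noncomputable section

namespace Crest.Agent.T15.Cm

/-- `S'` is the `σ`-conjugate of the lattice `S` -/
structure Tr (σ : ℂ ≃+* ℂ) (S S' : Sm) : Prop where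
  l : IsLat S
  l' : IsLat S'
  g2 : g2 S' = σ (g2 S)
  g3 : g3 S' = σ (g3 S)

/-- the point `v` of `ℂ/S'` is the `σ`-conjugate of the point `u` of `ℂ/S` -/
def Rl (σ : ℂ ≃+* ℂ) (S S' : Sm) (u v : ℂ) : Prop :=
  (u ∈ S ∧ v ∈ S') ∨ (u ∉ S ∧ v ∉ S' ∧ wp S' v = σ (wp S u) ∧ dwp S' v = σ (dwp S u))

variable {σ : ℂ ≃+* ℂ} {S S' : Sm}

theorem IsLat.exists_tr (h : IsLat S) (σ : ℂ ≃+* ℂ) : ∃ S', Tr σ S S' := by
  obtain ⟨L, h2, h3⟩ := exists_lattice (σ (g2 S)) (σ (g3 S)) (by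
    have := (map_ne_zero σ).2 h.disc_ne
    simpa [map_ofNat] using this)
  exact ⟨L.lattice, h, ⟨L, rfl⟩, h2, h3⟩

theorem Tr.unique {S'' : Sm} (h : Tr σ S S') (h' : Tr σ S S'') : S' = S'' :=
  eq_of_g h.l' h'.l' (h.g2.trans h'.g2.symm) (h.g3.trans h'.g3.symm)

theorem Tr.symm (h : Tr σ S S') : Tr σ.symm S' S :=
  ⟨h.l', h.l, by rw [h.g2]; simp, by rw [h.g3]; simp⟩

theorem Tr.trans {τ : ℂ ≃+* ℂ} {S'' : Sm} (h : Tr σ S S') (h' : Tr τ S' S'') :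
    Tr (σ.trans τ) S S'' :=
  ⟨h.l, h'.l', by rw [h'.g2, h.g2]; rfl, by rw [h'.g3, h.g3]; rfl⟩

theorem IsLat.tr_refl (h : IsLat S) : Tr (RingEquiv.refl ℂ) S S := ⟨h, h, rfl, rfl⟩

theorem Rl.symm {u v : ℂ} (h : Rl σ S S' u v) : Rl σ.symm S' S v u := by
  rcases h with h | ⟨h1, h2, h3, h4⟩
  · exact Or.inl h.symm
  · exact Or.inr ⟨h2, h1, by rw [h3]; simp, by rw [h4]; simp⟩

theorem Rl.mem_iff {u v : ℂ} (h : Rl σ S S' u v) : u ∈ S ↔ v ∈ S' := by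
  rcases h with h | ⟨h1, h2, -⟩
  · exact iff_of_true h.1 h.2
  · exact iff_of_false h1 h2

theorem Tr.dv (h : Tr σ S S') {a : ℂ} (ha : a ≠ 0) : Tr σ (dv a S) (dv (σ a) S') := by
  have ha' : σ a ≠ 0 := (map_ne_zero σ).2 ha
  refine ⟨h.l.dv ha, h.l'.dv ha', ?_, ?_⟩
  · rw [g2_dv ha, g2_dv ha', h.g2]; simp
  · rw [g3_dv ha, g3_dv ha', h.g3]; simp

theorem rl_dv {a : ℂ} (ha : a ≠ 0) {u v : ℂ} :
    Rl σ (dv a S) (dv (σ a) S') u v ↔ Rl σ S S' (a * u) (σ a * v) := by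
  have ha' : σ a ≠ 0 := (map_ne_zero σ).2 ha
  unfold Rl
  rw [mem_dv, mem_dv, wp_dv ha, wp_dv ha', dwp_dv ha, dwp_dv ha', map_mul, map_mul, map_pow, map_pow,
    mul_right_inj' (pow_ne_zero _ ha'), mul_right_inj' (pow_ne_zero _ ha')]

/-- the short Weierstrass equation of `S` -/
def cW (S : Sm) : WeierstrassCurve ℂ := ⟨0, 0, 0, -g2 S / 4, -g3 S / 4⟩

lemma isPeriodOf_cW (L : PeriodPair) : IsPeriodOf L (cW L.lattice) := by
  constructor
  · simp only [cW, WeierstrassCurve.c₄, WeierstrassCurve.b₂, WeierstrassCurve.b₄, g2_lat]; ring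
  · simp only [cW, WeierstrassCurve.c₆, WeierstrassCurve.b₂, WeierstrassCurve.b₄,
      WeierstrassCurve.b₆, g3_lat]; ring

lemma ux_cW (L : PeriodPair) (u : ℂ) : ux L (cW L.lattice) u = wp L.lattice u := by
  simp [ux, cW, WeierstrassCurve.b₂, wp_lat]

lemma uy_cW (L : PeriodPair) (u : ℂ) : uy L (cW L.lattice) u = dwp L.lattice u / 2 := by
  simp [uy, cW, dwp_lat]

theorem Tr.pack (h : Tr σ S S') : ∃ (A : Type) (_ : AddCommGroup A) (e e' : ℂ →+ A),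
    Function.Surjective e' ∧ ∀ u v, Rl σ S S' u v ↔ e u = e' v := by
  obtain ⟨⟨L, rfl⟩, ⟨L', rfl⟩, h2, h3⟩ := h
  have tw : Lk.Tw (cW L.lattice).toAffine (cW L'.lattice).toAffine (σ : ℂ →+* ℂ) 1 := by
    refine ⟨one_ne_zero, ?_, ?_, ?_, ?_, ?_⟩ <;> simp [cW, h2, h3, map_ofNat]
  refine ⟨_, inferInstance, tw.hom.comp (expHom (isPeriodOf_cW L)), expHom (isPeriodOf_cW L'),
    expHom_surjective _, fun u v => ?_⟩
  simp only [AddMonoidHom.comp_apply, expHom_apply]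
  by_cases hu : u ∈ L.lattice
  · rw [expPt_of_mem _ hu, map_zero, eq_comm, expPt_eq_zero_iff]
    exact ⟨fun r => r.mem_iff.1 hu, fun hv => Or.inl ⟨hu, hv⟩⟩
  · rw [expPt_of_notMem _ hu, tw.hom_some]
    by_cases hv : v ∈ L'.lattice
    · rw [expPt_of_mem _ hv]
      exact iff_of_false (fun r => hu (r.mem_iff.2 hv)) (WeierstrassCurve.Affine.Point.some_ne_zero _)
    · rw [expPt_of_notMem _ hv, WeierstrassCurve.Affine.Point.some.injEq, ux_cW, ux_cW, uy_cW, uy_cW]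
      simp only [Rl, hu, hv, false_and, false_or, not_false_eq_true, true_and, one_pow, one_mul,
        RingHom.coe_coe, map_div₀, map_ofNat]
      constructor
      · rintro ⟨a, b⟩; exact ⟨a.symm, by rw [b]⟩
      · rintro ⟨a, b⟩; exact ⟨a.symm, by linear_combination -2 * b⟩

namespace Tr

variable (h : Tr σ S S')
include h

theorem ex (u : ℂ) : ∃ v, Rl σ S S' u v := by
  obtain ⟨A, _, e, e', hs, hr⟩ := h.pack
  obtain ⟨v, hv⟩ := hs (e u)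
  exact ⟨v, (hr _ _).2 hv.symm⟩

theorem ex' (v : ℂ) : ∃ u, Rl σ S S' u v := by
  obtain ⟨u, hu⟩ := h.symm.ex v
  exact ⟨u, hu.symm⟩

theorem add {u v u' v' : ℂ} (r : Rl σ S S' u v) (r' : Rl σ S S' u' v') :
    Rl σ S S' (u + u') (v + v') := by
  obtain ⟨A, _, e, e', -, hr⟩ := h.pack
  rw [hr] at r r' ⊢
  rw [map_add, map_add, r, r']

theorem sub {u v u' v' : ℂ} (r : Rl σ S S' u v) (r' : Rl σ S S' u' v') :
    Rl σ S S' (u - u') (v - v') := by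
  obtain ⟨A, _, e, e', -, hr⟩ := h.pack
  rw [hr] at r r' ⊢
  rw [map_sub, map_sub, r, r']

theorem zmul {u v : ℂ} (r : Rl σ S S' u v) (n : ℤ) : Rl σ S S' (n * u) (n * v) := by
  obtain ⟨A, _, e, e', -, hr⟩ := h.pack
  rw [hr] at r ⊢
  rw [← zsmul_eq_mul, ← zsmul_eq_mul, map_zsmul, map_zsmul, r]

theorem nmul {u v : ℂ} (r : Rl σ S S' u v) (n : ℕ) : Rl σ S S' (n * u) (n * v) := by
  simpa using h.zmul r n

theorem sub_iff {u v u' v' : ℂ} (r : Rl σ S S' u v) (r' : Rl σ S S' u' v') :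
    u - u' ∈ S ↔ v - v' ∈ S' := (h.sub r r').mem_iff

theorem congr {u v u' v' : ℂ} (r : Rl σ S S' u v) (hu : u' - u ∈ S) (hv : v' - v ∈ S') :
    Rl σ S S' u' v' := by
  simpa using h.add r (Or.inl ⟨hu, hv⟩)

theorem wp_eq {u v : ℂ} (r : Rl σ S S' u v) : wp S' v = σ (wp S u) := by
  rcases r with r | r
  · rw [h.l.wp_mem r.1, h.l'.wp_mem r.2, map_zero]
  · exact r.2.2.1

theorem dwp_eq {u v : ℂ} (r : Rl σ S S' u v) : dwp S' v = σ (dwp S u) := by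
  rcases r with r | r
  · rw [h.l.dwp_mem r.1, h.l'.dwp_mem r.2, map_zero]
  · exact r.2.2.2

/-- transport of an isogeny -/
theorem isog {M : Sm} {N : ℕ} (hN : N ≠ 0) (h1 : S ≤ M) (h2 : ∀ z ∈ M, (N : ℂ) * z ∈ S) :
    ∃ M', S' ≤ M' ∧ Tr σ M M' ∧ ∀ u v, Rl σ S S' u v → Rl σ M M' u v := by
  let M' : Sm :=
    { carrier := {v | ∃ u ∈ M, Rl σ S S' u v}
      add_mem' := by
        rintro _ _ ⟨u, hu, r⟩ ⟨u', hu', r'⟩
        exact ⟨_, M.add_mem hu hu', h.add r r'⟩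
      zero_mem' := ⟨0, M.zero_mem, Or.inl ⟨S.zero_mem, S'.zero_mem⟩⟩
      smul_mem' := by
        rintro c _ ⟨u, hu, r⟩
        refine ⟨_, M.smul_mem c hu, ?_⟩
        simpa using h.zmul r c }
  have hM' : ∀ v, v ∈ M' ↔ ∃ u ∈ M, Rl σ S S' u v := fun v => Iff.rfl
  have h1' : S' ≤ M' := fun v hv => ⟨0, M.zero_mem, Or.inl ⟨S.zero_mem, hv⟩⟩
  have hiff : ∀ u v, Rl σ S S' u v → (u ∈ M ↔ v ∈ M') := by
    refine fun u v r => ⟨fun hu => ⟨u, hu, r⟩, ?_⟩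
    rintro ⟨u', hu', r'⟩
    have := h1 ((h.sub_iff r r').2 (by simp))
    simpa using M.add_mem this hu'
  have lM := h.l.of_le hN h1 h2
  have lM' : IsLat M' := h.l'.of_le hN h1' (by
    rintro v ⟨u, hu, r⟩
    exact (h.nmul r N).mem_iff.1 (h2 u hu))
  obtain ⟨n, t, ht⟩ := h.l.exists_reps hN h1 h2
  choose t' ht' using fun i => h.ex (t i)
  have rp : Reps S' M' t' := by
    refine ⟨h1', fun i => ⟨_, ht.mem i, ht' i⟩,
      fun i j hij => ht.inj i j ((h.sub_iff (ht' i) (ht' j)).2 hij), ?_⟩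
    rintro v ⟨u, hu, r⟩
    obtain ⟨i, hi⟩ := ht.surj u hu
    exact ⟨i, (h.sub_iff r (ht' i)).1 hi⟩
  have k1 : ∀ u v, Rl σ S S' u v → wp M' v = σ (wp M u) := fun u v r => by
    rw [ht.wp h.l lM, rp.wp h.l' lM', map_sum]
    refine Finset.sum_congr rfl fun i _ => ?_
    rw [map_sub, h.wp_eq (h.add r (ht' i)), h.wp_eq (ht' i)]
  have k2 : ∀ u v, Rl σ S S' u v → dwp M' v = σ (dwp M u) := fun u v r => by
    rw [ht.dwp h.l lM, rp.dwp h.l' lM', map_sum]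
    exact Finset.sum_congr rfl fun i _ => h.dwp_eq (h.add r (ht' i))
  have k3 : ∀ c : ℂ, Cm.g2 M' * σ c + Cm.g3 M' = σ (Cm.g2 M) * σ c + σ (Cm.g3 M) := by
    intro c
    obtain ⟨u, hu, rfl⟩ := lM.exists_wp c
    obtain ⟨v, r⟩ := h.ex u
    have e1 := congrArg σ (lM.dwp_sq hu)
    have e2 := lM'.dwp_sq (mt (hiff u v r).2 hu)
    rw [k1 u v r, k2 u v r] at e2
    simp only [map_sub, map_mul, map_pow, map_ofNat] at e1
    linear_combination e2 - e1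
  have k4 := k3 0
  have k5 := k3 1
  simp only [map_zero, mul_zero, zero_add, map_one, mul_one] at k4 k5
  refine ⟨M', h1', ⟨lM, lM', by linear_combination k5 - k4, k4⟩, fun u v r => ?_⟩
  by_cases hu : u ∈ M
  · exact Or.inl ⟨hu, (hiff u v r).1 hu⟩
  · exact Or.inr ⟨hu, mt (hiff u v r).2 hu, k1 u v r, k2 u v r⟩

/-- transport of an isogeny, with a known conjugate of the target -/
theorem isog' {M M' : Sm} {N : ℕ} (hN : N ≠ 0) (h1 : S ≤ M) (h2 : ∀ z ∈ M, (N : ℂ) * z ∈ S)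
    (hM : Tr σ M M') : S' ≤ M' ∧ ∀ u v, Rl σ S S' u v → Rl σ M M' u v := by
  obtain ⟨M'', a, b, c⟩ := h.isog hN h1 h2
  rw [hM.unique b]
  exact ⟨a, c⟩

/-- transport of an endomorphism `a` dividing the integer `N` -/
theorem endo {a a' : ℂ} {N : ℕ} (hN : N ≠ 0) (ha : ∀ z ∈ S, a * z ∈ S) (ha' : ∀ z ∈ S, a' * z ∈ S)
    (hh : a' * a = N) : (∀ z ∈ S', σ a * z ∈ S') ∧
      ∀ u v, Rl σ S S' u v → Rl σ S S' (a * u) (σ a * v) := by
  have ha0 : a ≠ 0 := by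
    rintro rfl
    exact hN (by exact_mod_cast (hh.symm.trans (mul_zero _)))
  obtain ⟨b, c⟩ := h.isog' (M := Cm.dv a S) hN ha (fun z hz => by
    rw [← hh, mul_assoc]; exact ha' _ hz) (h.dv ha0)
  exact ⟨b, fun u v r => (rl_dv ha0).1 (c u v r)⟩

end Tr

/-! ### complex conjugation -/

/-- complex conjugation as a ring automorphism -/
abbrev cc : ℂ ≃+* ℂ := starRingAut

lemma tsum_cj (S : Sm) (f g : ℂ → ℂ) (h : ∀ l, f l = cc (g (cc l))) :
    ∑' l : cj S, f l = cc (∑' l : S, g l) := by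
  let e : cj S ≃ S :=
    { toFun := fun x => ⟨cc x, x.2⟩
      invFun := fun y => ⟨cc y, by rw [mem_cj]; simp⟩
      left_inv := fun x => by ext; simp
      right_inv := fun y => by ext; simp }
  rw [← e.tsum_eq]
  have : Complex.conjCLE (∑' l : cj S, g (e l)) = ∑' l : cj S, Complex.conjCLE (g (e l)) :=
    Complex.conjCLE.map_tsum
  refine Eq.trans (tsum_congr fun l => h l) this.symm

lemma wp_cj (S : Sm) (z : ℂ) : wp (cj S) (cc z) = cc (wp S z) :=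
  tsum_cj S (fun l => 1 / (cc z - l) ^ 2 - 1 / l ^ 2) (fun l => 1 / (z - l) ^ 2 - 1 / l ^ 2)
    fun l => by simp

lemma dwp_cj (S : Sm) (z : ℂ) : dwp (cj S) (cc z) = cc (dwp S z) := by
  unfold dwp
  rw [map_neg, neg_inj]
  exact tsum_cj S (fun l => 2 / (cc z - l) ^ 3) (fun l => 2 / (z - l) ^ 3) fun l => by
    simp [map_ofNat]

theorem tr_cj (h : IsLat S) (h' : IsLat (cj S)) : Tr cc S (cj S) := by
  refine ⟨h, h', ?_, ?_⟩
  · unfold g2
    rw [map_mul, map_ofNat, tsum_cj S (fun l => (l ^ 4)⁻¹) (fun l => (l ^ 4)⁻¹) fun l => by simp]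
  · unfold g3
    rw [map_mul, map_ofNat, tsum_cj S (fun l => (l ^ 6)⁻¹) (fun l => (l ^ 6)⁻¹) fun l => by simp]

theorem rl_cj (S : Sm) (z : ℂ) : Rl cc S (cj S) z (cc z) := by
  have : cc z ∈ cj S ↔ z ∈ S := by rw [mem_cj]; simp
  by_cases hz : z ∈ S
  · exact Or.inl ⟨hz, this.2 hz⟩
  · exact Or.inr ⟨hz, mt this.1 hz, wp_cj S z, dwp_cj S z⟩

/-! ### complex multiplication by `θ`, `θ² = θ - m` -/

lemma mem_ord {θ z : ℂ} : z ∈ ord θ ↔ ∃ a b : ℤ, a + b * θ = z := by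
  simp [ord, Submodule.mem_span_pair]

lemma mem_pr2 {θ z : ℂ} : z ∈ pr2 θ ↔ ∃ a b : ℤ, a * 2 + b * θ = z := by
  simp [pr2, Submodule.mem_span_pair]

lemma OL.lin {θ : ℂ} (h : OL θ S) (a b : ℤ) {z : ℂ} (hz : z ∈ S) : (a + b * θ) * z ∈ S := by
  have := S.add_mem (S.smul_mem a hz) (S.smul_mem b (h.mul z hz))
  simp only [zsmul_eq_mul] at this
  convert this using 1
  ring

lemma OL.ord_mul {θ : ℂ} (h : OL θ S) {β : ℂ} (hβ : β ∈ ord θ) {z : ℂ} (hz : z ∈ S) : β * z ∈ S := by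
  obtain ⟨a, b, rfl⟩ := mem_ord.1 hβ
  exact h.lin a b hz

lemma OL.dv {θ : ℂ} (h : OL θ S) {a : ℂ} (ha : a ≠ 0) : OL θ (dv a S) :=
  ⟨h.lat.dv ha, fun z hz => by rw [mem_dv, mul_left_comm]; exact h.mul _ hz⟩

lemma exists_nat_mem {θ : ℂ} {b : Sm} (hb : IsLat b) (h : b ≤ ord θ) :
    ∃ N : ℕ, N ≠ 0 ∧ (N : ℂ) ∈ b := by
  obtain ⟨x, y, hxy, hi⟩ := hb.basis
  have hx : x ∈ b := (hxy _).2 ⟨1, 0, by simp⟩
  have hy : y ∈ b := (hxy _).2 ⟨0, 1, by simp⟩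
  obtain ⟨m1, n1, e1⟩ := mem_ord.1 (h hx)
  obtain ⟨m2, n2, e2⟩ := mem_ord.1 (h hy)
  have hN : ((n2 * m1 - n1 * m2 : ℤ) : ℂ) ∈ b := (hxy _).2 ⟨n2, -n1, by
    rw [← e1, ← e2]; push_cast; ring⟩
  have hne : n2 * m1 - n1 * m2 ≠ 0 := by
    intro h0
    have h0' : (n2 : ℂ) * m1 - n1 * m2 = 0 := by exact_mod_cast h0
    have k := hi n2 (-n1) (by rw [← e1, ← e2]; push_cast; linear_combination h0')
    have z1 : (n1 : ℂ) = 0 := by have := neg_eq_zero.1 k.2; exact_mod_cast this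
    have z2 : (n2 : ℂ) = 0 := by have := k.1; exact_mod_cast this
    have k' := hi m2 (-m1) (by rw [← e1, ← e2, z1, z2]; push_cast; ring)
    have z3 : (m1 : ℂ) = 0 := by have := neg_eq_zero.1 k'.2; exact_mod_cast this
    have k4 := hi 1 0 (by rw [← e1, z1, z3]; simp)
    exact one_ne_zero k4.1
  refine ⟨(n2 * m1 - n1 * m2).natAbs, Int.natAbs_ne_zero.2 hne, ?_⟩
  rcases Int.natAbs_eq (n2 * m1 - n1 * m2) with e | e
  · rw [e] at hN; simpa using hN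
  · have := b.neg_mem hN
    rw [e] at this; simpa using this

section CM

variable {θ : ℂ} {m : ℕ} (hm : m ≠ 0) (hθ : θ ^ 2 = θ - m) (hσ : σ θ = θ) (hS : OL θ S)
  (h : Tr σ S S')
include hm hθ hσ hS h

theorem Tr.theta : OL θ S' ∧ ∀ u v, Rl σ S S' u v → Rl σ S S' (θ * u) (θ * v) := by
  have := h.endo (a := θ) (a' := 1 - θ) hm hS.mul (fun z hz => by
    simpa [sub_eq_add_neg] using hS.lin 1 (-1) hz) (by linear_combination -hθ)
  rw [hσ] at this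
  exact ⟨⟨h.l', this.1⟩, this.2⟩

theorem Tr.lin (a b : ℤ) {u v : ℂ} (r : Rl σ S S' u v) :
    Rl σ S S' ((a + b * θ) * u) ((a + b * θ) * v) := by
  have := h.add (h.zmul r a) (h.zmul ((h.theta hm hθ hσ hS).2 u v r) b)
  convert this using 1 <;> ring

theorem Tr.qu {b : Sm} (hb : IsLat b) (hbo : b ≤ ord θ) : Tr σ (qu S b) (qu S' b) := by
  obtain ⟨N, hN, hNb⟩ := exists_nat_mem hb hbo
  obtain ⟨M', -, t, c⟩ := h.isog (M := Cm.qu S b) hN
    (fun z hz β hβ => hS.ord_mul (hbo hβ) hz) (fun z hz => hz _ hNb)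
  have : M' = Cm.qu S' b := by
    ext v
    obtain ⟨u, r⟩ := h.ex' v
    rw [← (c u v r).mem_iff, mem_qu, mem_qu]
    refine forall₂_congr fun β hβ => ?_
    obtain ⟨x, y, rfl⟩ := mem_ord.1 (hbo hβ)
    exact (h.lin hm hθ hσ hS x y r).mem_iff
  rwa [this] at t

end CM

end Crest.Agent.T15.Cm
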