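import Crest.Agent.T15.CmB_13

/-!
# Row 15, block Q (helper13), part C: a point of `s⁴ + b² = 1` attached to a chain of five
2-isogenies; Landen's transformation and the reversal of the chain
-/

set_option autoImplicit false
set_option linter.unusedSectionVars false

noncomputable section

namespace Crest.Agent.T15.Cm

variable {S : Sm}

/-- a nonzero point of order two -/
structure Hp (S : Sm) (ω : ℂ) : Prop where
  two : 2 * ω ∈ S
  ne : ω ∉ S

lemma IsLat.root (h : IsLat S) {ω : ℂ} (hω : Hp S ω) :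
    4 * wp S ω ^ 3 - g2 S * wp S ω - g3 S = 0 := by
  rw [← h.dwp_sq hω.ne, (h.dwp_eq_zero_iff hω.ne).2 hω.two]; ring

lemma Hp.sub_iff {ω z : ℂ} (hω : Hp S ω) : z - ω ∈ S ↔ z + ω ∈ S := by
  constructor
  · intro h; convert S.add_mem h hω.two using 1; ring
  · intro h; convert S.sub_mem h hω.two using 1; ring

lemma IsLat.wp_ne (h : IsLat S) {ω z : ℂ} (hω : Hp S ω) (hz : z ∉ S) (hz' : z + ω ∉ S) :
    wp S z - wp S ω ≠ 0 := by
  rw [sub_ne_zero, Ne, h.wp_eq_iff hz hω.ne, hω.sub_iff, or_self]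
  exact hz'

/-- translation by a half period -/
theorem IsLat.hp (h : IsLat S) {ω z : ℂ} (hω : Hp S ω) (hz : z ∉ S) (hz' : z + ω ∉ S) :
    (wp S (z + ω) - wp S ω) * (wp S z - wp S ω) = 3 * wp S ω ^ 2 - g2 S / 4 := by
  have hne := h.wp_ne hω hz hz'
  have r := h.root hω
  have s := h.dwp_sq hz
  have d0 := (h.dwp_eq_zero_iff hω.ne).2 hω.two
  obtain ⟨L, rfl⟩ := h
  have := R023.Unif630.wp_add_formula (L := L) (z := z) (b := ω)
    ⟨hz, hω.ne, hz', mt hω.sub_iff.1 hz'⟩
  rw [← wp_lat, ← dwp_lat] at this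
  rw [this, d0]
  field_simp
  linear_combination 4 * s + 4 * r

section two

variable (h : IsLat S) {x y : ℂ} (hx : Hp S x) (hy : Hp S y) (hxy : x - y ∉ S)
include h hx hy hxy

lemma IsLat.e_ne : wp S x - wp S y ≠ 0 := h.wp_ne hy hx.ne (mt hy.sub_iff.2 hxy)

lemma IsLat.g2_eq : g2 S = 4 * (wp S x ^ 2 + wp S x * wp S y + wp S y ^ 2) := by
  apply mul_left_cancel₀ (h.e_ne hx hy hxy)
  linear_combination h.root hy - h.root hx

lemma IsLat.g3_eq : g3 S = -4 * wp S x * wp S y * (wp S x + wp S y) := by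
  have := h.root hx
  rw [h.g2_eq hx hy hxy] at this
  linear_combination -this

lemma IsLat.disc_eq : g2 S ^ 3 - 27 * g3 S ^ 2 =
    16 * ((wp S x - wp S y) * (2 * wp S x + wp S y) * (wp S x + 2 * wp S y)) ^ 2 := by
  rw [h.g2_eq hx hy hxy, h.g3_eq hx hy hxy]; ring

lemma IsLat.e_ne' : 2 * wp S x + wp S y ≠ 0 := by
  intro e
  apply h.disc_ne
  rw [h.disc_eq hx hy hxy, e]; ring

lemma IsLat.hp_add : Hp S (x + y) :=
  ⟨by convert S.add_mem hx.two hy.two using 1; ring, mt hy.sub_iff.2 hxy⟩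

lemma IsLat.e3 : wp S (x + y) = -wp S x - wp S y := by
  have h1 := h.hp hy hx.ne (mt hy.sub_iff.2 hxy)
  rw [h.g2_eq hx hy hxy] at h1
  apply mul_right_cancel₀ (h.e_ne hx hy hxy)
  linear_combination h1

lemma IsLat.two_tors {z : ℂ} (hz : 2 * z ∈ S) :
    z ∈ S ∨ z - x ∈ S ∨ z - y ∈ S ∨ z - (x + y) ∈ S := by
  by_cases h0 : z ∈ S
  · exact Or.inl h0
  right
  have r := h.root ⟨hz, h0⟩
  rw [h.g2_eq hx hy hxy, h.g3_eq hx hy hxy] at r
  have r' : (wp S z - wp S x) * ((wp S z - wp S y) * (wp S z - wp S (x + y))) = 0 := by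
    rw [h.e3 hx hy hxy]; linear_combination r / 4
  have k : ∀ {t}, Hp S t → wp S z - wp S t = 0 → z - t ∈ S := fun ht e => by
    by_contra hn
    exact h.wp_ne ht h0 (mt ht.sub_iff.2 hn) e
  rcases mul_eq_zero.1 r' with e | e
  · exact Or.inl (k hx e)
  rcases mul_eq_zero.1 e with e | e
  · exact Or.inr (Or.inl (k hy e))
  · exact Or.inr (Or.inr (k (h.hp_add hx hy hxy) e))

end two

/-- `S + ℤ ω` -/
def adj (S : Sm) (ω : ℂ) : Sm := S ⊔ Submodule.span ℤ {ω}

lemma Hp.mem_adj {ω z : ℂ} (hω : Hp S ω) : z ∈ adj S ω ↔ z ∈ S ∨ z - ω ∈ S := by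
  constructor
  · intro hz
    obtain ⟨a, ha, b, hb, rfl⟩ := Submodule.mem_sup.1 hz
    obtain ⟨k, rfl⟩ := Submodule.mem_span_singleton.1 hb
    obtain ⟨j, rfl | rfl⟩ := Int.even_or_odd' k
    · left
      have := S.add_mem ha (S.smul_mem j hω.two)
      simp only [zsmul_eq_mul] at this ⊢
      convert this using 1; push_cast; ring
    · right
      have := S.add_mem ha (S.smul_mem j hω.two)
      simp only [zsmul_eq_mul] at this ⊢
      convert this using 1; push_cast; ring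
  · rintro (hz | hz)
    · exact Submodule.mem_sup_left hz
    · have := Submodule.add_mem_sup hz (Submodule.mem_span_singleton_self (R := ℤ) ω)
      rwa [sub_add_cancel] at this

lemma Hp.lat_adj {ω : ℂ} (hω : Hp S ω) (h : IsLat S) : IsLat (adj S ω) :=
  h.of_le (N := 2) two_ne_zero le_sup_left fun z hz => by
    rcases hω.mem_adj.1 hz with e | e
    · simpa [two_mul] using S.add_mem e e
    · convert S.add_mem (S.add_mem e e) hω.two using 1; push_cast; ring

lemma Hp.wp_adj {ω : ℂ} (hω : Hp S ω) (h : IsLat S) (z : ℂ) :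
    wp (adj S ω) z = wp S z + wp S (z + ω) - wp S ω := by
  have rp : Reps S (adj S ω) (![0, ω] : Fin 2 → ℂ) := by
    refine ⟨le_sup_left, ?_, ?_, fun z hz => ?_⟩
    · intro i; fin_cases i
      · exact Submodule.zero_mem _
      · exact hω.mem_adj.2 (Or.inr (by simp))
    · intro i j; fin_cases i <;> fin_cases j <;> simp [hω.ne]
    · rcases hω.mem_adj.1 hz with e | e
      · exact ⟨0, by simpa using e⟩
      · exact ⟨1, by simpa using e⟩
  rw [rp.wp h (hω.lat_adj h)]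
  simp only [Fin.sum_univ_two, Matrix.cons_val_zero, Matrix.cons_val_one, add_zero,
    h.wp_mem S.zero_mem]
  ring

/-- a cyclic subgroup of order 8 and one of order 4 meeting trivially -/
structure Ch (S : Sm) (u v : ℂ) : Prop where
  lat : IsLat S
  hu : Hp S (4 * u)
  hv : Hp S (2 * v)
  huv : 4 * u - 2 * v ∉ S

/-- `℘` of `S + 4uℤ` -/
def p1 (S : Sm) (u z : ℂ) : ℂ := wp S z + wp S (z + 4 * u) - wp S (4 * u)

def al (S : Sm) (u v : ℂ) : ℂ := (wp S (2 * u) - wp S (4 * u)) / (wp S (4 * u) - wp S (2 * v))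

def be (S : Sm) (u v : ℂ) : ℂ := (wp S v - wp S (2 * v)) / (wp S (4 * u) - wp S (2 * v))

def a1 (S : Sm) (u v : ℂ) : ℂ := (p1 S u u - p1 S u (2 * u)) / (p1 S u (2 * u) - p1 S u (2 * v))

def ss (S : Sm) (u v : ℂ) : ℂ := a1 S u v * (1 + al S u v) / 2

/-- a point of order four -/
lemma IsLat.four (h : IsLat S) {z : ℂ} (hz : Hp S (2 * z)) :
    (wp S z - wp S (2 * z)) ^ 2 = 3 * wp S (2 * z) ^ 2 - g2 S / 4 := by
  have h0 : z ∉ S := fun e => hz.ne (by simpa [two_mul] using S.add_mem e e)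
  have h1 : z + 2 * z + z ∈ S := by convert hz.two using 1; ring
  have h2 := h.hp hz h0 (fun e => h0 (by simpa using S.sub_mem h1 e))
  rw [h.wp_congr' h1] at h2
  linear_combination h2

namespace Ch

variable {u v : ℂ} (c : Ch S u v)
include c

lemma hu' : Hp S (2 * (2 * u)) := by rw [show 2 * (2 * u) = 4 * u by ring]; exact c.hu

lemma l1 : IsLat (adj S (4 * u)) := c.hu.lat_adj c.lat

lemma p1_eq : p1 S u = wp (adj S (4 * u)) := funext fun z => (c.hu.wp_adj c.lat z).symm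

lemma h2u : Hp (adj S (4 * u)) (2 * u) := by
  refine ⟨c.hu.mem_adj.2 (Or.inr (by rw [show 2 * (2 * u) - 4 * u = 0 by ring]; exact S.zero_mem)), ?_⟩
  rw [c.hu.mem_adj]
  rintro (e | e)
  · exact c.hu.ne (by convert S.add_mem e e using 1; ring)
  · exact c.hu.ne (by convert S.neg_mem (S.add_mem e e) using 1; ring)

lemma h2v : Hp (adj S (4 * u)) (2 * v) := by
  refine ⟨c.hu.mem_adj.2 (Or.inl c.hv.two), ?_⟩
  rw [c.hu.mem_adj]
  rintro (e | e)
  · exact c.hv.ne e
  · exact c.huv (by convert S.neg_mem e using 1; ring)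

lemma h2uv : 2 * u - 2 * v ∉ adj S (4 * u) := by
  rw [c.hu.mem_adj]
  rintro (e | e)
  · exact c.hu.ne (by convert S.add_mem (S.add_mem e e) c.hv.two using 1; ring)
  · exact c.hu.ne (by convert S.neg_mem (S.add_mem (S.add_mem e e) c.hv.two) using 1; ring)

lemma d_ne : wp S (4 * u) - wp S (2 * v) ≠ 0 := c.lat.e_ne c.hu c.hv c.huv

lemma a_sq : (wp S (2 * u) - wp S (4 * u)) ^ 2 =
    (wp S (4 * u) - wp S (2 * v)) * (2 * wp S (4 * u) + wp S (2 * v)) := by
  have := c.lat.four c.hu'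
  rw [show 2 * (2 * u) = 4 * u by ring, c.lat.g2_eq c.hu c.hv c.huv] at this
  linear_combination this

lemma b_sq : (wp S v - wp S (2 * v)) ^ 2 =
    -(wp S (4 * u) - wp S (2 * v)) * (wp S (4 * u) + 2 * wp S (2 * v)) := by
  have := c.lat.four c.hv
  rw [c.lat.g2_eq c.hu c.hv c.huv] at this
  linear_combination this

lemma f1 : p1 S u (2 * u) = 2 * wp S (2 * u) - wp S (4 * u) := by
  rw [p1, c.lat.wp_congr' (z := 2 * u + 4 * u) (w := 2 * u) (by convert c.hu.two using 1; ring)]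
  ring

lemma f2 : p1 S u (2 * v) = -2 * wp S (4 * u) := by
  rw [p1, add_comm (2 * v), c.lat.e3 c.hu c.hv c.huv]; ring

lemma d1_ne : p1 S u (2 * u) - p1 S u (2 * v) ≠ 0 := by
  rw [c.p1_eq]; exact c.l1.e_ne c.h2u c.h2v c.h2uv

lemma a1_sq : (p1 S u u - p1 S u (2 * u)) ^ 2 =
    (p1 S u (2 * u) - p1 S u (2 * v)) * (4 * (wp S (2 * u) - wp S (4 * u))) := by
  have := c.l1.four c.h2u
  rw [c.l1.g2_eq c.h2u c.h2v c.h2uv, ← c.p1_eq] at this
  rw [this, c.f1, c.f2]; ring

lemma d1_eq : (p1 S u (2 * u) - p1 S u (2 * v)) =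
    (wp S (4 * u) - wp S (2 * v)) * (1 + al S u v) ^ 2 := by
  have h1 := c.d_ne
  have h2 := c.a_sq
  rw [c.f1, c.f2, al]
  generalize wp S (2 * u) = x at *
  generalize wp S (4 * u) = e1 at *
  generalize wp S (2 * v) = e2 at *
  field_simp
  linear_combination -h2

lemma al_ne : 1 + al S u v ≠ 0 := fun e => c.d1_ne (by rw [c.d1_eq, e]; ring)

theorem ss_sq : ss S u v ^ 2 = al S u v := by
  have h1 := c.d1_ne
  have h2 := c.d_ne
  have h3 := c.al_ne
  have : a1 S u v ^ 2 = 4 * al S u v / (1 + al S u v) ^ 2 := by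
    rw [a1, div_pow, c.a1_sq, c.d1_eq]
    nth_rewrite 3 [al]
    field_simp
  rw [ss, div_pow, mul_pow, this]
  field_simp
  ring

theorem quartic : ss S u v ^ 4 + be S u v ^ 2 = 1 := by
  have h2 := c.d_ne
  rw [show ss S u v ^ 4 = (ss S u v ^ 2) ^ 2 by ring, c.ss_sq, al, be, div_pow, div_pow, c.a_sq,
    c.b_sq]
  field_simp
  ring

theorem ss_ne : ss S u v ≠ 0 := by
  intro e
  have h1 := c.ss_sq
  rw [e, al, eq_comm, zero_pow two_ne_zero, div_eq_zero_iff, or_iff_left c.d_ne] at h1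
  have h2 := c.a_sq
  rw [h1, eq_comm, zero_pow two_ne_zero, mul_eq_zero, or_iff_right c.d_ne] at h2
  exact c.lat.e_ne' c.hu c.hv c.huv h2

theorem be_ne : be S u v ≠ 0 := by
  intro h1
  rw [be, div_eq_zero_iff, or_iff_left c.d_ne] at h1
  have h2 := c.b_sq
  rw [h1, eq_comm, zero_pow two_ne_zero, mul_eq_zero, or_iff_right (neg_ne_zero.2 c.d_ne)] at h2
  refine c.lat.e_ne' c.hv c.hu (fun e => c.huv ?_) (by linear_combination h2)
  simpa using S.neg_mem e

end Ch

/-- reversal of the chain -/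
theorem Ch.rev {u w : ℂ} (c : Ch S u (2 * w)) : Ch (adj S (4 * u)) w u ∧
    ss (adj S (4 * u)) w u = -be S u (2 * w) / (1 + ss S u (2 * w) ^ 2) ∧
    be (adj S (4 * u)) w u = -2 * ss S u (2 * w) / (1 + ss S u (2 * w) ^ 2) := by
  have e4 : 2 * (2 * w) = 4 * w := by ring
  have c' : Ch (adj S (4 * u)) w u := ⟨c.l1, e4 ▸ c.h2v, c.h2u, fun e => c.h2uv (by
    convert (adj S (4 * u)).neg_mem e using 1; ring)⟩
  have hd : adj (adj S (4 * u)) (4 * w) = dv 2 S := by
    ext z
    rw [c'.hu.mem_adj, c.hu.mem_adj, c.hu.mem_adj, mem_dv]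
    constructor
    · rintro ((e | e) | (e | e))
      · convert S.add_mem e e using 1; ring
      · convert S.add_mem (S.add_mem e e) c.hu.two using 1; ring
      · convert S.add_mem (S.add_mem e e) c.hv.two using 1; ring
      · convert S.add_mem (S.add_mem (S.add_mem e e) c.hu.two) c.hv.two using 1; ring
    · intro hz
      rcases c.lat.two_tors c.hu c.hv c.huv hz with e | e | e | e
      · exact Or.inl (Or.inl e)
      · exact Or.inl (Or.inr e)
      · exact Or.inr (Or.inl (e4 ▸ e))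
      · exact Or.inr (Or.inr (by convert e using 1; ring))
  have h1 := c.d_ne
  have h2 := c.d1_ne
  have h3 := c.al_ne
  have k1 : a1 (adj S (4 * u)) w u = -be S u (2 * w) := by
    rw [a1, c'.p1_eq, hd, wp_dv two_ne_zero, wp_dv two_ne_zero, wp_dv two_ne_zero, be,
      show 2 * (2 * u) = 4 * u by ring, ← mul_sub, ← mul_sub, mul_div_mul_left _ _ (by norm_num),
      ← div_neg, neg_sub]
  have hv0 : 2 * w ∉ S := fun e => c.hv.ne (by convert S.add_mem e e using 1; ring)
  have hv1 : 2 * w + 4 * u ∉ S := fun e =>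
    c.hv.ne (by convert S.sub_mem (S.add_mem e e) c.hu.two using 1; ring)
  have k0 : p1 S u (2 * w) = wp S (2 * (2 * w)) - (wp S (4 * u) - wp S (2 * (2 * w))) := by
    have t1 := c.lat.hp c.hu hv0 hv1
    rw [c.lat.g2_eq c.hu c.hv c.huv] at t1
    apply mul_right_cancel₀ (c.lat.wp_ne c.hu hv0 hv1)
    rw [p1]
    linear_combination t1 + c.b_sq
  have k2 : 1 + al (adj S (4 * u)) w u = 2 / (1 + al S u (2 * w)) := by
    have t := c.a_sq
    rw [al, ← c.p1_eq, ← e4, k0, ← neg_sub (p1 S u (2 * u)), c.d1_eq, c.f2, eq_div_iff h3]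
    have t3 : al S u (2 * w) * (wp S (4 * u) - wp S (2 * (2 * w))) =
        wp S (2 * u) - wp S (4 * u) := by rw [al, div_mul_cancel₀ _ h1]
    generalize al S u (2 * w) = A at *
    generalize wp S (2 * u) = x at *
    generalize wp S (4 * u) = e1 at *
    generalize wp S (2 * (2 * w)) = e2 at *
    have t4 : A ^ 2 * (e1 - e2) = 2 * e1 + e2 := by
      apply mul_left_cancel₀ h1
      rw [← t, ← t3]; ring
    field_simp
    linear_combination t4
  refine ⟨c', ?_, ?_⟩
  · rw [ss, k1, k2, c.ss_sq]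
    field_simp
  · rw [c.ss_sq, be, ← c.p1_eq, ← e4, ss, ← neg_sub (p1 S u (2 * u)) (p1 S u (2 * (2 * w))),
      div_neg, ← a1]
    field_simp

/-! ### invariance -/

theorem Tr.ss {σ : ℂ ≃+* ℂ} {S' : Sm} (h : Tr σ S S') {u v u' v' : ℂ} (ru : Rl σ S S' u u')
    (rv : Rl σ S S' v v') : ss S' u' v' = σ (ss S u v) ∧ be S' u' v' = σ (be S u v) := by
  have u2 : Rl σ S S' (2 * u) (2 * u') := by simpa using h.nmul ru 2
  have u4 : Rl σ S S' (4 * u) (4 * u') := by simpa using h.nmul ru 4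
  have v2 : Rl σ S S' (2 * v) (2 * v') := by simpa using h.nmul rv 2
  simp only [Cm.ss, a1, al, be, p1, map_div₀, map_mul, map_add, map_sub, map_one, map_ofNat,
    h.wp_eq ru, h.wp_eq rv, h.wp_eq u2, h.wp_eq u4, h.wp_eq v2, h.wp_eq (h.add ru u4),
    h.wp_eq (h.add u2 u4), h.wp_eq (h.add v2 u4), and_self]

theorem ss_dv {a : ℂ} (ha : a ≠ 0) (S : Sm) (u v : ℂ) :
    ss (dv a S) u v = ss S (a * u) (a * v) ∧ be (dv a S) u v = be S (a * u) (a * v) := by
  have h2 := pow_ne_zero 2 ha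
  simp only [ss, a1, al, be, p1, wp_dv ha, mul_add a, mul_left_comm a, ← mul_sub (a ^ 2),
    ← mul_add (a ^ 2), mul_div_mul_left _ _ h2, and_self]

theorem Ch.congr {u v u' v' : ℂ} (c : Ch S u v) (k : ℤ) (hu : u' - (2 * k + 1) * u ∈ S)
    (hv : v' - v ∈ S ∨ v' + v ∈ S) : ss S u' v' = ss S u v ∧ be S u' v' = be S u v := by
  have m : ∀ (n : ℤ) {z}, z ∈ S → n * z ∈ S := fun n z hz => by simpa using S.smul_mem n hz
  have e4 : 4 * u' - 4 * u ∈ S := by
    convert S.add_mem (m 4 hu) (m k c.hu.two) using 1; push_cast; ring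
  have w4 : wp S (4 * u') = wp S (4 * u) := c.lat.wp_congr e4
  have w2 : wp S (2 * u') = wp S (2 * u) := by
    obtain ⟨j, rfl | rfl⟩ := Int.even_or_odd' k
    · exact c.lat.wp_congr (by convert S.add_mem (m 2 hu) (m j c.hu.two) using 1; push_cast; ring)
    · exact c.lat.wp_congr' (by
        convert S.add_mem (m 2 hu) (m (j + 1) c.hu.two) using 1; push_cast; ring)
  have wv : wp S v' = wp S v := hv.elim c.lat.wp_congr c.lat.wp_congr'
  have e2 : 2 * v' - 2 * v ∈ S := by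
    rcases hv with e | e
    · convert m 2 e using 1; push_cast; ring
    · convert S.sub_mem (m 2 e) c.hv.two using 1; push_cast; ring
  have wv2 : wp S (2 * v') = wp S (2 * v) := c.lat.wp_congr e2
  have hp : p1 S u' = p1 S u := funext fun z => by
    rw [p1, p1, w4, c.lat.wp_congr (z := z + 4 * u') (w := z + 4 * u) (by convert e4 using 1; ring)]
  have le : S ≤ adj S (4 * u) := le_sup_left
  have m1 : ∀ n : ℤ, n * (4 * u) ∈ adj S (4 * u) := fun n => by
    simpa using (adj S (4 * u)).smul_mem n (c.hu.mem_adj.2 (Or.inr (by simp)))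
  have q1 : p1 S u u' = p1 S u u := by
    rw [c.p1_eq]
    obtain ⟨j, rfl | rfl⟩ := Int.even_or_odd' k
    · exact c.l1.wp_congr (by convert add_mem (le hu) (m1 j) using 1; push_cast; ring)
    · exact c.l1.wp_congr' (by convert add_mem (le hu) (m1 (j + 1)) using 1; push_cast; ring)
  have q2 : p1 S u (2 * u') = p1 S u (2 * u) := by
    rw [c.p1_eq]
    exact c.l1.wp_congr (by convert add_mem (le (m 2 hu)) (m1 k) using 1; push_cast; ring)
  have q3 : p1 S u (2 * v') = p1 S u (2 * v) := by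
    rw [c.p1_eq]
    exact c.l1.wp_congr (le e2)
  simp only [ss, a1, al, be, hp, q1, q2, q3, w4, w2, wv, wv2, and_self]

end Crest.Agent.T15.Cm
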