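import Crest.Agent.T15.CmB_13

/-!
# Row 15, block Q (helper33), (H3): an automorphism of `ℂ` fixing `√(-pq)` and the homothety class of
the lattice `ℤ[θ]` fixes `√p`

`∏_{u ∈ E[p]} ℘'(z + u) = K ℘'(p z)` (Liouville), `∏_{ω ∈ E[2]} ℘'(z + ω) = Δ`, so
`P = ∏_{u ∈ E[p] - 0} ℘'(u)` has `P⁴ p¹² = Δ^(p² - 1)`; `P = W²` with `W` an equivariant half product.
-/

set_option autoImplicit false
set_option linter.unusedSectionVars false

open Filter Topology PeriodPair
open Crest.Agent.R007.WpId Crest.Agent.R023.Unif630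

noncomputable section

namespace Crest.Agent.T15.CmD

open Cm

/-- the discriminant -/
def disc (S : Sm) : ℂ := g2 S ^ 3 - 27 * g3 S ^ 2

lemma analyticAt_dwp' {S : Sm} (h : IsLat S) {z : ℂ} (hz : z ∉ S) : AnalyticAt ℂ (dwp S) z := by
  obtain ⟨L, rfl⟩ := h
  exact analyticAt_dwp L hz

lemma dwp_pole {S : Sm} (h : IsLat S) : ∃ g : ℂ → ℂ, AnalyticAt ℂ g 0 ∧ g 0 = -2 ∧
    ∀ z, z ≠ 0 → dwp S z = g z / z ^ 3 := by
  obtain ⟨L, rfl⟩ := h
  refine ⟨fun z => -2 + z ^ 3 * E' L z, analyticAt_const.add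
    ((analyticAt_id.pow 3).mul (analyticAt_E' L)), by simp, fun z hz => ?_⟩
  rw [dwp_lat, dwp_eq L]
  field_simp

lemma dwp_ev {S : Sm} (h : IsLat S) (z : ℂ) : ∀ᶠ w in 𝓝[≠] z, w ∉ S ∧ dwp S w ≠ 0 := by
  obtain ⟨L, rfl⟩ := h
  exact dwp_ne_eventually z

lemma ddwp_ne {S : Sm} (h : IsLat S) {z : ℂ} (hz : z ∉ S) (h0 : dwp S z = 0) :
    6 * wp S z ^ 2 - g2 S / 2 ≠ 0 := by
  intro e
  have e1 := h.dwp_sq hz
  rw [h0] at e1
  apply h.disc_ne
  have a : g2 S = 12 * wp S z ^ 2 := by linear_combination -2 * e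
  have b : g3 S = 4 * wp S z ^ 3 - g2 S * wp S z := by linear_combination e1
  rw [b, a]; ring

/-- product formula for `℘'` along an isogeny of odd degree -/
theorem prod_dwp {ι : Type*} [Fintype ι] [DecidableEq ι] {S M : Sm} {t : ι → ℂ} (h : Reps S M t)
    (hS : IsLat S) (hM : IsLat M) {N : ℕ} (hN : Odd N) (hNM : ∀ z ∈ M, (N : ℂ) * z ∈ S) {i0 : ι}
    (h0 : t i0 ∈ S) {z : ℂ} (hz : z ∉ M) :
    ∏ i, dwp S (z + t i) = (∏ i ∈ Finset.univ.erase i0, dwp S (t i)) * dwp M z := by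
  set F : ℂ → ℂ := fun z => ∏ i, dwp S (z + t i) with hF
  have hnot : ∀ {z}, z ∉ M → ∀ i, z + t i ∉ S := fun {z} hz i hi =>
    hz (by simpa using M.sub_mem (h.le hi) (h.mem i))
  have hFa : ∀ {z}, z ∉ M → AnalyticAt ℂ F z := fun {z} hz =>
    Finset.analyticAt_fun_prod _ fun i _ => AnalyticAt.fun_comp (g := dwp S) (f := fun z => z + t i)
      (analyticAt_dwp' hS (hnot hz i)) (analyticAt_id.add analyticAt_const)
  -- behaviour at the points of `M`
  have pole : ∀ w ∈ M, ∀ j, w + t j ∈ S → ∃ g : ℂ → ℂ, AnalyticAt ℂ g 0 ∧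
      g 0 = ∏ i ∈ Finset.univ.erase j, dwp S (w + t i) ∧
      ∀ᶠ x in 𝓝[≠] (0 : ℂ), F (w + x) / dwp M (w + x) = g x := by
    intro w hw j hj
    obtain ⟨g1, a1, v1, e1⟩ := dwp_pole hS
    obtain ⟨g2, a2, v2, e2⟩ := dwp_pole hM
    have hne : ∀ i ∈ Finset.univ.erase j, w + t i ∉ S := fun i hi hs =>
      Finset.ne_of_mem_erase hi (h.inj i j (by simpa using S.sub_mem hs hj))
    refine ⟨fun x => g1 x / g2 x * ∏ i ∈ Finset.univ.erase j, dwp S (w + x + t i), ?_, ?_, ?_⟩
    · refine (a1.fun_div a2 (by rw [v2]; norm_num)).fun_mul ?_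
      refine Finset.analyticAt_fun_prod _ fun i hi => AnalyticAt.fun_comp (g := dwp S)
        (f := fun x => w + x + t i) (analyticAt_dwp' hS (by simpa using hne i hi)) ?_
      exact (analyticAt_const.add analyticAt_id).add analyticAt_const
    · simp [v1, v2]
    · filter_upwards [self_mem_nhdsWithin] with x hx
      have hx0 : x ≠ 0 := hx
      simp only [hF]
      rw [← Finset.mul_prod_erase _ _ (Finset.mem_univ j),
        show w + x + t j = x + (w + t j) by ring, hS.dwp_add hj, add_comm w x, hM.dwp_add hw,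
        e1 x hx0, e2 x hx0]
      by_cases hg : g2 x = 0
      · simp [hg]
      · field_simp
  obtain ⟨L, hL⟩ := id hS
  obtain ⟨c, hc⟩ := liouville L (fun z => F z / dwp M z) (by
    intro l z
    have hl : (l : ℂ) ∈ S := hL ▸ l.2
    simp only [hF]
    rw [hM.dwp_add (h.le hl)]
    congr 1
    exact Finset.prod_congr rfl fun i _ => by
      rw [show z + l + t i = z + t i + l by ring, hS.dwp_add hl]) (by
    intro w
    by_cases hw : w ∈ M
    · obtain ⟨j, hj⟩ := h.surj (-w) (M.neg_mem hw)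
      obtain ⟨g, a, -, e⟩ := pole w hw j (by
        have := S.neg_mem hj
        convert this using 1; ring)
      exact removable_of_origin _ w ⟨g, a, e⟩
    by_cases hd : dwp M w = 0
    · have h2 : 2 * w ∈ M := (hM.dwp_eq_zero_iff hw).1 hd
      obtain ⟨k, rfl⟩ := hN
      obtain ⟨j, hj⟩ := h.surj ((k : ℂ) * (2 * w)) (by simpa using M.smul_mem (k : ℤ) h2)
      have hF0 : F w = 0 := by
        refine Finset.prod_eq_zero (Finset.mem_univ j) ((hS.dwp_eq_zero_iff (hnot hw j)).2 ?_)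
        have := S.sub_mem (hNM _ h2) (S.add_mem hj hj)
        convert this using 1
        push_cast; ring
      obtain ⟨R1, a1, -, e1⟩ := taylor1 (hFa hw)
      obtain ⟨R2, a2, v2, e2⟩ := taylor1 (analyticAt_dwp' hM hw)
      rw [(hM.hasDerivAt_dwp hw).deriv] at v2
      refine removable_of_origin _ w ⟨fun x => R1 x / R2 x,
        a1.fun_div a2 (v2 ▸ ddwp_ne hM hw hd), ?_⟩
      filter_upwards [self_mem_nhdsWithin] with x hx
      have hx0 : x ≠ 0 := hx
      rw [e1, e2, hF0, hd, zero_add, zero_add, mul_div_mul_left _ _ hx0]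
    · exact ⟨_, (hFa hw).fun_div (analyticAt_dwp' hM hw) hd, EventuallyEq.rfl⟩)
  obtain ⟨g, a, v, e⟩ := pole 0 M.zero_mem i0 (by simpa using h0)
  simp only [zero_add] at v e
  have c1 : c = g 0 := tendsto_nhds_unique
    (tendsto_const_nhds.congr' (by filter_upwards [hc 0, e] with x h1 h2 using h1.symm.trans h2))
    (a.continuousAt.tendsto.mono_left (nhdsWithin_le_nhds (s := {0}ᶜ)))
  rw [← v, ← c1]
  refine tendsto_nhds_unique ((hFa hz).continuousAt.tendsto.mono_left (nhdsWithin_le_nhds (s := {z}ᶜ)))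
    ((((analyticAt_dwp' hM hz).continuousAt.tendsto.const_mul c).mono_left
      nhdsWithin_le_nhds).congr' ?_)
  filter_upwards [hc z, dwp_ev hM z] with x h1 h2
  rw [← h1, div_mul_cancel₀ _ h2.2]

/-- translation of `℘'` by a point of order two -/
lemma dwp_half {S : Sm} (h : IsLat S) {z b : ℂ} (hz : 2 * z ∉ S) (hb : b ∉ S) (h2 : 2 * b ∈ S) :
    dwp S (z + b) * (wp S z - wp S b) ^ 2 = -(3 * wp S b ^ 2 - g2 S / 4) * dwp S z := by
  have hz' : z ∉ S := fun e => hz (by simpa [two_mul] using S.add_mem e e)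
  have y0 : dwp S b = 0 := (h.dwp_eq_zero_iff hb).2 h2
  have s1 := h.dwp_sq hz'
  have s2 := h.dwp_sq hb
  rw [y0] at s2
  obtain ⟨L, rfl⟩ := h
  have G : Gen L z b := ⟨hz', hb, fun e => hz (by
      have := L.lattice.sub_mem (L.lattice.add_mem e e) h2
      convert this using 1; ring), fun e => hz (by
      have := L.lattice.add_mem (L.lattice.add_mem e e) h2
      convert this using 1; ring)⟩
  have hne := G.ne
  simp only [wp_lat, dwp_lat, g2_lat, g3_lat] at *
  rw [dwp_add_formula G, wp_add_formula G, y0]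
  field_simp
  linear_combination (-4 * ℘'[L] z) * s1 + 4 * ℘'[L] z * s2

/-- the product of the translates of `℘'` by the points of order two is the discriminant -/
theorem exists_half {S : Sm} (h : IsLat S) : ∃ a b c : ℂ, 2 * a ∈ S ∧ 2 * b ∈ S ∧ 2 * c ∈ S ∧
    ∀ z, 2 * z ∉ S → dwp S z * dwp S (z + a) * dwp S (z + b) * dwp S (z + c) = disc S := by
  obtain ⟨L, hL⟩ := id h
  have n1 : L.ω₁ / 2 ∉ S := hL ▸ L.ω₁_div_two_notMem_lattice
  have n2 : L.ω₂ / 2 ∉ S := hL ▸ L.ω₂_div_two_notMem_lattice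
  have n3 : (L.ω₁ + L.ω₂) / 2 ∉ S := hL ▸ half3_notMem L
  have w1 : L.ω₁ ∈ S := hL ▸ L.ω₁_mem_lattice
  have w2 : L.ω₂ ∈ S := hL ▸ L.ω₂_mem_lattice
  have m1 : 2 * (L.ω₁ / 2) ∈ S := by convert w1 using 1; ring
  have m2 : 2 * (L.ω₂ / 2) ∈ S := by convert w2 using 1; ring
  have m3 : 2 * ((L.ω₁ + L.ω₂) / 2) ∈ S := by convert S.add_mem w1 w2 using 1; ring
  refine ⟨_, _, _, m1, m2, m3, fun z hz => ?_⟩
  have hz' : z ∉ S := fun e => hz (by simpa [two_mul] using S.add_mem e e)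
  have d1 := dwp_half h hz n1 m1
  have d2 := dwp_half h hz n2 m2
  have d3 := dwp_half h hz n3 m3
  have r1 := h.dwp_sq n1
  have r2 := h.dwp_sq n2
  have r3 := h.dwp_sq n3
  rw [(h.dwp_eq_zero_iff n1).2 m1] at r1
  rw [(h.dwp_eq_zero_iff n2).2 m2] at r2
  rw [(h.dwp_eq_zero_iff n3).2 m3] at r3
  have hab : wp S (L.ω₁ / 2) - wp S (L.ω₂ / 2) ≠ 0 := fun e => by
    rcases (h.wp_eq_iff n1 n2).1 (sub_eq_zero.1 e) with e | e
    · exact n3 (by convert S.add_mem e w2 using 1; ring)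
    · exact n3 (by convert e using 1; ring)
  have hac : wp S (L.ω₁ / 2) - wp S ((L.ω₁ + L.ω₂) / 2) ≠ 0 := fun e => by
    rcases (h.wp_eq_iff n1 n3).1 (sub_eq_zero.1 e) with e | e
    · exact n2 (by convert S.neg_mem e using 1; ring)
    · exact n2 (by convert S.sub_mem e w1 using 1; ring)
  have hbc : wp S (L.ω₂ / 2) - wp S ((L.ω₁ + L.ω₂) / 2) ≠ 0 := fun e => by
    rcases (h.wp_eq_iff n2 n3).1 (sub_eq_zero.1 e) with e | e
    · exact n1 (by convert S.neg_mem e using 1; ring)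
    · exact n1 (by convert S.sub_mem e w2 using 1; ring)
  have s := h.dwp_sq hz'
  have y0 : dwp S z ≠ 0 := fun e => hz ((h.dwp_eq_zero_iff hz').1 e)
  generalize wp S (L.ω₁ / 2) = a at *
  generalize wp S (L.ω₂ / 2) = b at *
  generalize wp S ((L.ω₁ + L.ω₂) / 2) = c at *
  generalize dwp S (z + L.ω₁ / 2) = A at *
  generalize dwp S (z + L.ω₂ / 2) = B at *
  generalize dwp S (z + (L.ω₁ + L.ω₂) / 2) = C at *
  generalize dwp S z = y at *
  generalize wp S z = x at *
  unfold disc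
  generalize g2 S = u at *
  generalize g3 S = v at *
  have e1 : u = 4 * (a ^ 2 + a * b + b ^ 2) := by
    apply mul_right_cancel₀ hab
    linear_combination r1 - r2
  have e2 : u = 4 * (a ^ 2 + a * c + c ^ 2) := by
    apply mul_right_cancel₀ hac
    linear_combination r1 - r3
  have e3 : a + b + c = 0 := by
    apply mul_right_cancel₀ hbc
    linear_combination (e2 - e1) / 4
  have e4 : c = - a - b := by linear_combination e3
  have e5 : v = 4 * a ^ 3 - u * a := by linear_combination r1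
  have k : y ^ 2 = 4 * ((x - a) * (x - b) * (x - c)) := by rw [s, e5, e1, e4]; ring
  have k2 : u ^ 3 - 27 * v ^ 2 =
      -16 * ((3 * a ^ 2 - u / 4) * (3 * b ^ 2 - u / 4) * (3 * c ^ 2 - u / 4)) := by
    rw [e5, e1, e4]; ring
  have k3 : A * B * C * ((x - a) * (x - b) * (x - c)) ^ 2 =
      -((3 * a ^ 2 - u / 4) * (3 * b ^ 2 - u / 4) * (3 * c ^ 2 - u / 4)) * y ^ 3 := by
    calc _ = (A * (x - a) ^ 2) * (B * (x - b) ^ 2) * (C * (x - c) ^ 2) := by ring
      _ = _ := by rw [d1, d2, d3]; ring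
  rw [k2]
  apply mul_right_cancel₀ (pow_ne_zero 4 y0)
  linear_combination 16 * y * k3 + y * A * B * C * (y ^ 2 + 4 * ((x - a) * (x - b) * (x - c))) * k

/-- `P⁴ n¹² Δ = Δ^(#E[n])` -/
theorem prod_tors {ι : Type*} [Fintype ι] [DecidableEq ι] {S : Sm} {n : ℕ} {t : ι → ℂ}
    (h : Reps S (dv n S) t) (hS : IsLat S) (hn : Odd n) {i0 : ι} (h0 : t i0 ∈ S) :
    (∏ i ∈ Finset.univ.erase i0, dwp S (t i)) ^ 4 * n ^ 12 * disc S = disc S ^ Fintype.card ι := by
  have n0 : (n : ℂ) ≠ 0 := by exact_mod_cast hn.pos.ne'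
  obtain ⟨a, b, c, ha, hb, hc, hD⟩ := exists_half hS
  obtain ⟨w, hw1, hw2⟩ := (dwp_ev hS 0).exists
  have hw : 2 * w ∉ S := fun e => hw2 ((hS.dwp_eq_zero_iff hw1).2 e)
  have key : ∀ x : ℂ, 2 * x ∈ S → ∏ i, dwp S (w / n + t i + x) =
      (∏ i ∈ Finset.univ.erase i0, dwp S (t i)) * (n ^ 3 * dwp S (w + x)) := by
    intro x hx
    obtain ⟨k, hk⟩ := hn
    have e : (n : ℂ) * (w / n + x) = w + x + k * (2 * x) := by
      rw [mul_add, mul_div_cancel₀ _ n0, hk]; push_cast; ring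
    have hk2 : (k : ℂ) * (2 * x) ∈ S := by simpa using S.smul_mem (k : ℤ) hx
    have := prod_dwp h hS (hS.dv n0) ⟨k, hk⟩ (fun z hz => hz) h0 (z := w / n + x) (by
      rw [mem_dv, e]
      intro e'
      have := S.sub_mem e' hk2
      exact hw (by convert S.sub_mem (S.add_mem this this) hx using 1; ring))
    rw [dwp_dv n0, e, hS.dwp_add hk2] at this
    rw [← this]
    exact Finset.prod_congr rfl fun i _ => by rw [add_right_comm]
  have k0 := key 0 (by simp)
  simp only [add_zero] at k0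
  have hall : ∀ i, dwp S (w / n + t i) * dwp S (w / n + t i + a) * dwp S (w / n + t i + b) *
      dwp S (w / n + t i + c) = disc S := fun i => hD _ fun e => hw (by
    have h1 : (n : ℂ) * t i ∈ S := h.mem i
    have h2 : (n : ℂ) * (2 * (w / n + t i)) ∈ S := by simpa using S.smul_mem (n : ℤ) e
    convert S.sub_mem h2 (S.add_mem h1 h1) using 1
    field_simp; ring)
  rw [← Finset.card_univ, ← Finset.prod_const, ← Finset.prod_congr rfl fun i _ => hall i]
  simp only [Finset.prod_mul_distrib]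
  rw [k0, key a ha, key b hb, key c hc, ← hD w hw]
  ring

/-! ### half products -/

section half

variable {p : ℕ} [hp : Fact p.Prime]

/-- the product over `1 ≤ x ≤ p / 2` -/
def hf (G : ZMod p → ℂ) : ℂ := ∏ x ∈ Finset.Ico 1 (p / 2).succ, G (x : ℕ)

lemma hf_mul {G : ZMod p → ℂ} (hG : ∀ j, G (-j) = G j) {k : ZMod p} (hk : k ≠ 0) :
    hf (fun j => G (k * j)) = hf G := by
  have h := congrArg (fun m : Multiset ℕ => (m.map fun x : ℕ => G x).prod)
    (ZMod.Ico_map_valMinAbs_natAbs_eq_Ico_map_id p k hk)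
  simp only [Multiset.map_map, Function.comp_def] at h
  unfold hf
  rw [Finset.prod_eq_multiset_prod, Finset.prod_eq_multiset_prod, ← h]
  congr 1
  refine Multiset.map_congr rfl fun x _ => ?_
  rw [ZMod.natCast_natAbs_valMinAbs]
  split_ifs
  · rfl
  · exact (hG _).symm

lemma hf_sq {G : ZMod p → ℂ} (hG : ∀ j, G (-j) = G j) (h2 : p % 2 = 1) :
    ∏ j ∈ Finset.univ.erase 0, G j = hf G ^ 2 := by
  have h1 := hp.out.one_lt
  have e : ∏ j ∈ Finset.univ.erase 0, G j = ∏ x ∈ Finset.Ico 1 p, G (x : ℕ) := by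
    refine Finset.prod_bij' (fun j _ => j.val) (fun x _ => (x : ZMod p)) ?_ ?_ ?_ ?_ ?_
    · intro j hj
      have := (ZMod.val_ne_zero j).2 (Finset.ne_of_mem_erase hj)
      exact Finset.mem_Ico.2 ⟨by omega, j.val_lt⟩
    · intro x hx
      obtain ⟨a, b⟩ := Finset.mem_Ico.1 hx
      refine Finset.mem_erase.2 ⟨fun e => ?_, Finset.mem_univ _⟩
      exact absurd (Nat.le_of_dvd (by omega) ((ZMod.natCast_eq_zero_iff _ _).1 e)) (by omega)
    · intro j _; simp
    · intro x hx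
      exact ZMod.val_cast_of_lt (Finset.mem_Ico.1 hx).2
    · intro j _; simp
  rw [e, ← Finset.prod_Ico_consecutive _ (n := (p / 2).succ) (by omega) (by omega), sq]
  congr 1
  unfold hf
  refine Finset.prod_bij' (fun x _ => p - x) (fun x _ => p - x) ?_ ?_ ?_ ?_ ?_
  · intro x hx
    rw [Finset.mem_Ico] at hx ⊢
    omega
  · intro x hx
    rw [Finset.mem_Ico] at hx ⊢
    omega
  · intro x hx
    rw [Finset.mem_Ico] at hx
    omega
  · intro x hx
    rw [Finset.mem_Ico] at hx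
    omega
  · intro x hx
    rw [Finset.mem_Ico] at hx
    rw [Nat.cast_sub hx.2.le, ZMod.natCast_self, zero_sub, hG]

/-- one "line" of the half system -/
def ln (f : ZMod p → ZMod p → ℂ) (j : ZMod p) : ℂ := f j 0 * ∏ i, f i j

lemma ln_neg {f : ZMod p → ZMod p → ℂ} (hf : ∀ i j, f (-i) (-j) = -f i j) (h2 : p % 2 = 1)
    (j : ZMod p) : ln f (-j) = ln f j := by
  unfold ln
  have a := hf j 0
  rw [neg_zero] at a
  rw [a, ← Equiv.prod_comp (Equiv.neg (ZMod p))]
  simp only [Equiv.neg_apply, hf]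
  rw [Finset.prod_neg, Finset.card_univ, ZMod.card, (Nat.odd_iff.2 h2).neg_one_pow]
  ring

lemma prod_ln (f : ZMod p → ZMod p → ℂ) :
    ∏ x ∈ Finset.univ.erase ((0, 0) : ZMod p × ZMod p), f x.1 x.2 =
      ∏ j ∈ Finset.univ.erase 0, ln f j := by
  classical
  let g : ZMod p × ZMod p → ℂ := fun x => if x = (0, 0) then 1 else f x.1 x.2
  have e1 : ∏ x ∈ Finset.univ.erase ((0, 0) : ZMod p × ZMod p), f x.1 x.2 = ∏ x, g x := by
    rw [← Finset.mul_prod_erase _ g (Finset.mem_univ (0, 0))]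
    simp only [g, if_true, one_mul]
    exact Finset.prod_congr rfl fun x hx => by rw [if_neg (Finset.ne_of_mem_erase hx)]
  rw [e1, Fintype.prod_prod_type_right, ← Finset.mul_prod_erase _ _ (Finset.mem_univ 0),
    ← Finset.mul_prod_erase _ _ (Finset.mem_univ 0)]
  simp only [ln, Finset.prod_mul_distrib, g, if_true, one_mul]
  congr 1
  · exact Finset.prod_congr rfl fun i hi => if_neg fun e =>
      Finset.ne_of_mem_erase hi (congrArg Prod.fst e)
  · exact Finset.prod_congr rfl fun j hj => Finset.prod_congr rfl fun i _ => if_neg fun e =>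
      Finset.ne_of_mem_erase hj (congrArg Prod.snd e)

end half

/-! ### the theorem -/

/-- (H3) -/
theorem sqrtp (p q : ℕ) (hp : p.Prime) (_hq : q.Prime) (hp8 : p % 8 = 5) (hq8 : q % 8 = 3)
    {δ θ π a : ℂ} (hδ : δ ^ 2 = -(p * q)) (hθ : θ = (1 + δ) / 2) (hπ : π ^ 2 = p) (σ : ℂ ≃+* ℂ)
    (hσ : σ θ = θ) (hO : OL θ (ord θ)) (ha : a ≠ 0) (hT : Tr σ (ord θ) (dv a (ord θ))) :
    σ π = π := by
  classical
  have := Fact.mk hp
  set S := ord θ with hSdef
  have hS := hO.lat
  have p0 : (p : ℂ) ≠ 0 := by exact_mod_cast hp.ne_zero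
  have p2 : p % 2 = 1 := by omega
  have hδθ : δ = 2 * θ - 1 := by rw [hθ]; ring
  obtain ⟨m, hm⟩ : ∃ m : ℕ, p * q + 1 = 4 * m := ⟨(p * q + 1) / 4, by
    have : (p * q) % 4 = 3 := by
      rw [Nat.mul_mod, show p % 4 = 1 by omega, show q % 4 = 3 by omega]
    omega⟩
  have hm0 : m ≠ 0 := by omega
  have hm' : (p : ℂ) * q + 1 = 4 * m := by exact_mod_cast hm
  have hθ2 : θ ^ 2 = θ - m := by
    rw [hθ]; linear_combination hδ / 4 - hm' / 4
  have cδ : cc δ = -δ := by
    have h1 : (cc δ - δ) * (cc δ + δ) = 0 := by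
      have := congrArg cc hδ
      simp only [map_pow, map_neg, map_mul, map_natCast] at this
      linear_combination this - hδ
    rcases mul_eq_zero.1 h1 with h | h
    · exfalso
      obtain ⟨r, rfl⟩ := Complex.conj_eq_iff_real.1 (sub_eq_zero.1 h)
      have h2 : r ^ 2 = -(p * q) := by exact_mod_cast hδ
      have h3 : (0 : ℝ) < p * q := by
        have : 0 < p * q := Nat.mul_pos hp.pos (by omega)
        exact_mod_cast this
      nlinarith [sq_nonneg r]
    · exact eq_neg_of_add_eq_zero_left h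
  have δ0 : δ ≠ 0 := by
    rintro rfl
    have : ((p * q : ℕ) : ℂ) = 0 := by push_cast; linear_combination hδ
    exact (Nat.mul_pos hp.pos (show 0 < q by omega)).ne' (by exact_mod_cast this)
  have memS : ∀ i j : ℤ, (i : ℂ) * δ + j ∈ S := fun i j =>
    mem_ord.2 ⟨j - i, 2 * i, by rw [hδθ]; push_cast; ring⟩
  have dvdS : ∀ i j : ℤ, ((i : ℂ) * δ + j) / p ∈ S → (p : ℤ) ∣ i ∧ (p : ℤ) ∣ j := by
    intro i j h
    obtain ⟨x, y, e⟩ := mem_ord.1 h
    rw [eq_div_iff p0, hθ] at e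
    have e2 := congrArg cc e
    simp only [map_mul, map_add, map_intCast, map_natCast, map_div₀, map_one, map_ofNat, cδ] at e2
    have e3 : (y : ℂ) * p = 2 * i := by
      apply mul_right_cancel₀ δ0
      linear_combination e - e2
    have e4 : (2 * x + y : ℂ) * p = 2 * j := by linear_combination e + e2
    have e3' : y * p = 2 * i := by exact_mod_cast e3
    have e4' : (2 * x + y) * p = 2 * j := by exact_mod_cast e4
    have cop : IsCoprime (p : ℤ) 2 := ⟨1, -(p / 2 : ℕ), by push_cast; omega⟩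
    exact ⟨cop.dvd_of_dvd_mul_left ⟨y, by linarith⟩,
      cop.dvd_of_dvd_mul_left ⟨2 * x + y, by linarith⟩⟩
  -- the `p`-torsion
  let t : ZMod p × ZMod p → ℂ := fun x => (((x.1.val : ℤ) : ℂ) * δ + (x.2.val : ℤ)) / p
  have ht : ∀ (i j : ℤ), ((i : ℂ) * δ + j) / p - t (i, j) ∈ S := by
    intro i j
    obtain ⟨x, hx⟩ := (ZMod.intCast_eq_intCast_iff_dvd_sub ((i : ZMod p).val : ℤ) i p).1 (by simp)
    obtain ⟨y, hy⟩ := (ZMod.intCast_eq_intCast_iff_dvd_sub ((j : ZMod p).val : ℤ) j p).1 (by simp)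
    have hx' : (i : ℂ) - ((i : ZMod p).val : ℤ) = p * x := by exact_mod_cast hx
    have hy' : (j : ℂ) - ((j : ZMod p).val : ℤ) = p * y := by exact_mod_cast hy
    convert memS x y using 1
    simp only [t]
    field_simp
    linear_combination δ * hx' + hy'
  have rp : Reps S (dv p S) t := by
    refine ⟨fun z hz => by simpa using S.smul_mem (p : ℤ) hz, fun x => ?_, fun x y h => ?_,
      fun z hz => ?_⟩
    · rw [mem_dv, mul_div_cancel₀ _ p0]; exact memS _ _
    · obtain ⟨h1, h2⟩ := dvdS (x.1.val - y.1.val) (x.2.val - y.2.val) (by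
        convert h using 1
        simp only [t]; push_cast; ring)
      have k1 := (ZMod.intCast_eq_intCast_iff_dvd_sub _ _ p).2 h1
      have k2 := (ZMod.intCast_eq_intCast_iff_dvd_sub _ _ p).2 h2
      rw [Int.cast_natCast, Int.cast_natCast, ZMod.natCast_zmod_val, ZMod.natCast_zmod_val] at k1 k2
      exact Prod.ext k1.symm k2.symm
    · obtain ⟨x, y, e⟩ := mem_ord.1 (mem_dv.1 hz)
      obtain ⟨k, hk⟩ : ∃ k : ℕ, p + 1 = 2 * k := ⟨(p + 1) / 2, by omega⟩
      have hk' : (p : ℂ) + 1 = 2 * k := by exact_mod_cast hk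
      refine ⟨(((y * k : ℤ) : ZMod p), ((x + y * k : ℤ) : ZMod p)), ?_⟩
      have h1 := S.sub_mem (ht (y * k) (x + y * k)) (mem_ord.2 ⟨0, y, rfl⟩)
      convert h1 using 1
      have : z = (x + y * θ) / p := by rw [e]; field_simp
      rw [this, hδθ]
      push_cast
      field_simp
      linear_combination (-(y : ℂ) * θ) * hk' * (-1)
  let f : ZMod p → ZMod p → ℂ := fun i j => dwp S (t (i, j))
  have hfi : ∀ i j : ℤ, f i j = dwp S (((i : ℂ) * δ + j) / p) := fun i j =>
    (hS.dwp_congr (ht i j)).symm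
  have surj := ZMod.intCast_surjective (n := p)
  have fneg : ∀ i j, f (-i) (-j) = -f i j := by
    intro i j
    obtain ⟨i, rfl⟩ := surj i
    obtain ⟨j, rfl⟩ := surj j
    rw [← Int.cast_neg, ← Int.cast_neg, hfi, hfi, ← hS.dwp_neg]
    congr 1; push_cast; ring
  have hG := ln_neg fneg p2
  set W := hf (ln f) with hW
  have D0 : disc S ≠ 0 := hS.disc_ne
  have main := prod_tors rp hS (Nat.odd_iff.2 p2) (i0 := (0, 0)) (by simp [t])
  rw [show (∏ i ∈ Finset.univ.erase ((0, 0) : ZMod p × ZMod p), dwp S (t i)) = W ^ 2 from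
    (prod_ln f).trans (hf_sq hG p2), Fintype.card_prod, ZMod.card] at main
  obtain ⟨e, he⟩ : ∃ e : ℕ, p * p = 8 * e + 1 := ⟨p * p / 8, by
    have : (p * p) % 8 = 1 := by rw [Nat.mul_mod, hp8]
    omega⟩
  have main' : (W * p ^ 2 / disc S ^ e) ^ 8 = (p : ℂ) ^ 4 := by
    rw [he, pow_succ (disc S), mul_left_inj' D0] at main
    rw [div_pow, ← pow_mul, mul_comm e 8, ← main]
    have W0 : W ≠ 0 := by
      rintro h
      rw [h] at main
      exact pow_ne_zero _ D0 (by rw [← main]; simp)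
    field_simp
  -- complex conjugation
  have cjS : cj S = S := by
    have cθ : cc θ = 1 - θ := by
      rw [hθ]; simp only [map_div₀, map_add, map_one, map_ofNat, cδ]; ring
    have k : ∀ z ∈ S, cc z ∈ S := fun z hz => by
      obtain ⟨x, y, rfl⟩ := mem_ord.1 hz
      exact mem_ord.2 ⟨x + y, -y, by
        simp only [map_add, map_mul, map_intCast, cθ]; push_cast; ring⟩
    ext z
    exact ⟨fun h => by simpa using k _ (mem_cj.1 h), fun h => mem_cj.2 (k z h)⟩
  have cf : ∀ i j, cc (f i j) = f (-i) j := by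
    intro i j
    obtain ⟨i, rfl⟩ := surj i
    obtain ⟨j, rfl⟩ := surj j
    rw [← Int.cast_neg, hfi, hfi, ← dwp_cj, cjS]
    congr 1
    simp only [map_div₀, map_add, map_mul, map_intCast, map_natCast, cδ]; push_cast; ring
  have cW : cc W = W := by
    have k : ∀ j, cc (ln f j) = -ln f j := fun j => by
      unfold ln
      have a := fneg j 0
      rw [neg_zero] at a
      rw [map_mul, map_prod, cf, a, neg_mul]
      simp only [cf]
      rw [← Equiv.prod_comp (Equiv.neg (ZMod p)) (fun i => f i j)]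
      rfl
    rw [hW]
    unfold hf
    rw [map_prod]
    simp only [k]
    rw [Finset.prod_neg, Nat.card_Ico, Even.neg_one_pow ⟨p / 4, by omega⟩, one_mul]
  have cD : cc (disc S) = disc S := by
    have := tr_cj hS (cjS.symm ▸ hS)
    rw [cjS] at this
    simp only [disc, map_sub, map_mul, map_pow, map_ofNat, ← this.g2, ← this.g3]
  have real : (W * p ^ 2 / disc S ^ e) ^ 2 = p := by
    obtain ⟨r, hr⟩ := Complex.conj_eq_iff_real.1 (show cc (W * p ^ 2 / disc S ^ e) = _ by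
      simp only [map_div₀, map_mul, map_pow, map_natCast, cW, cD])
    rw [hr] at main' ⊢
    have h1 : (r ^ 2) ^ 4 = (p : ℝ) ^ 4 := by rw [← pow_mul]; exact_mod_cast main'
    have h2 : r ^ 2 = p := (pow_left_inj₀ (sq_nonneg r) (Nat.cast_nonneg p) (by norm_num)).1 h1
    exact_mod_cast h2
  -- the automorphism
  obtain ⟨x0, r0⟩ := hT.ex (1 / p)
  have hx0 : a * x0 ∈ dv p S := by
    have := (hT.nmul r0 p).mem_iff.1 (by
      rw [mul_one_div_cancel p0]; simpa using memS 0 1)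
    rw [mem_dv] at this ⊢
    rwa [mul_left_comm]
  obtain ⟨⟨s, k⟩, hsk⟩ := rp.surj _ hx0
  have sf : ∀ i j, σ (f i j) = a ^ 3 * f (k * i + s * j) (k * j) := by
    intro i j
    obtain ⟨i, rfl⟩ := surj i
    obtain ⟨j, rfl⟩ := surj j
    obtain ⟨s, rfl⟩ := surj s
    obtain ⟨k, rfl⟩ := surj k
    have r := hT.dwp_eq (hT.lin hm0 hθ2 hσ hO (j - i) (2 * i) r0)
    have e0 : ((j - i : ℤ) : ℂ) + (2 * i : ℤ) * θ = i * δ + j := by rw [hδθ]; push_cast; ring
    rw [e0, dwp_dv ha, mul_one_div] at r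
    rw [hfi, ← r, ← Int.cast_mul, ← Int.cast_mul, ← Int.cast_mul, ← Int.cast_add, hfi]
    congr 1
    refine hS.dwp_congr ?_
    have h1 := hO.ord_mul (memS i j) (S.sub_mem hsk (ht s k))
    convert S.add_mem h1 (memS 0 (-(i * s * q))) using 1
    push_cast
    field_simp
    linear_combination ((i : ℂ) * s) * hδ
  have k0 : k ≠ 0 := by
    rintro rfl
    have h1 := sf 1 0
    have h2 : f 0 0 = 0 := hS.dwp_mem (by simp [t])
    simp only [zero_mul, mul_zero, add_zero, h2, map_eq_zero] at h1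
    have h3 := hfi 1 0
    simp only [Int.cast_one, Int.cast_zero] at h3
    have n1 : (((1 : ℤ) : ℂ) * δ + (0 : ℤ)) / p ∉ S := fun h =>
      hp.one_lt.ne' (by exact_mod_cast Int.eq_one_of_dvd_one (Nat.cast_nonneg p) (dvdS 1 0 h).1)
    simp only [Int.cast_one, Int.cast_zero] at n1
    have h4 := (hS.dwp_eq_zero_iff n1).1 (h3 ▸ h1)
    have h5 := (dvdS 2 0 (by convert h4 using 1; push_cast; ring)).1
    have h6 : p ∣ 2 := by exact_mod_cast h5
    have := Nat.le_of_dvd two_pos h6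
    omega
  have sW : σ W = (a ^ 12) ^ e * W := by
    have k1 : ∀ j, σ (ln f j) = (a ^ 3) ^ (p + 1) * ln f (k * j) := fun j => by
      unfold ln
      rw [map_mul, map_prod, sf]
      simp only [sf, mul_zero, add_zero]
      rw [Finset.prod_mul_distrib, Finset.prod_const, Finset.card_univ, ZMod.card,
        ← Equiv.prod_comp ((Equiv.mulLeft₀ k k0).trans (Equiv.addRight (s * j)))
          (fun i => f i (k * j))]
      simp only [Equiv.trans_apply, Equiv.mulLeft₀_apply, Equiv.coe_addRight]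
      ring
    rw [hW, ← hf_mul hG k0]
    conv_lhs => rw [hf_mul hG k0]
    unfold hf
    rw [map_prod]
    simp only [k1]
    rw [Finset.prod_mul_distrib, Finset.prod_const, Nat.card_Ico, ← pow_mul, ← pow_mul, ← pow_mul]
    congr 2
    obtain ⟨u, rfl⟩ : ∃ u, p = 2 * u + 1 := ⟨p / 2, by omega⟩
    rw [show (2 * u + 1) / 2 = u by omega]
    simp only [Nat.succ_eq_add_one, Nat.add_sub_cancel]
    nlinarith
  have sD : σ (disc S) = a ^ 12 * disc S := by
    simp only [disc, map_sub, map_mul, map_pow, map_ofNat, ← hT.g2, ← hT.g3, g2_dv ha, g3_dv ha]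
    ring
  have sR : σ (W * p ^ 2 / disc S ^ e) = W * p ^ 2 / disc S ^ e := by
    simp only [map_div₀, map_mul, map_pow, map_natCast, sW, sD]
    rw [mul_pow, mul_assoc, mul_div_mul_left _ _ (pow_ne_zero _ (pow_ne_zero _ ha))]
  rcases sq_eq_sq_iff_eq_or_eq_neg.1 (hπ.trans real.symm) with h | h
  · rw [h, sR]
  · rw [h, map_neg, sR]

end Crest.Agent.T15.CmD
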