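import Crest.Agent.T15.CmA_13

/-!
# Row 15, block Q (helper13): the class group leaf `ClStmt` of `CMStmt`
-/

set_option autoImplicit false

noncomputable section

namespace Crest.Agent.T15.Cm

/-- a lattice with multiplication by `θ` -/
structure OL (θ : ℂ) (S : Sm) : Prop where
  lat : IsLat S
  mul : ∀ z ∈ S, θ * z ∈ S

/-- the order `ℤ[θ]` -/
def ord (θ : ℂ) : Sm := Submodule.span ℤ {1, θ}

/-- the ideal `(2, θ)` -/
def pr2 (θ : ℂ) : Sm := Submodule.span ℤ {2, θ}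

/-- `T / b = {z | b z ⊆ T}` -/
def qu (T b : Sm) : Sm where
  carrier := {z | ∀ β ∈ b, β * z ∈ T}
  add_mem' hx hy β hβ := by rw [mul_add]; exact T.add_mem (hx β hβ) (hy β hβ)
  zero_mem' β _ := by rw [mul_zero]; exact T.zero_mem
  smul_mem' c x hx β hβ := by rw [mul_smul_comm]; exact T.smul_mem c (hx β hβ)

lemma mem_qu {T b : Sm} {z : ℂ} : z ∈ qu T b ↔ ∀ β ∈ b, β * z ∈ T := Iff.rfl

/-- complex conjugate of a subgroup -/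
def cj (S : Sm) : Sm := S.comap (Complex.conjAe.toLinearMap.restrictScalars ℤ)

lemma mem_cj {S : Sm} {z : ℂ} : z ∈ cj S ↔ (starRingEnd ℂ) z ∈ S := Iff.rfl

/-- (H4) homothety classes of `ℤ[θ]`-lattices, `θ = (1 + √(-pq))/2`, and the genus character -/
def ClStmt : Prop := ∀ p q : ℕ, p.Prime → q.Prime → p % 8 = 5 → q % 8 = 3 →
  ¬ IsSquare (q : ZMod p) → ∀ δ θ : ℂ, δ ^ 2 = -(p * q) → θ = (1 + δ) / 2 →
  ∃ (Cl : Type) (_ : CommGroup Cl) (_ : Fintype Cl) (cl : Sm → Cl) (χ : Cl →* ℤˣ),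
    OL θ (ord θ) ∧ OL θ (pr2 θ) ∧ cl (ord θ) = 1 ∧
    (∀ S T, OL θ S → OL θ T → (cl S = cl T ↔ ∃ a : ℂ, a ≠ 0 ∧ T = dv a S)) ∧
    (∀ g : Cl, ∃ b, OL θ b ∧ b ≤ ord θ ∧ cl b = g) ∧
    (∀ T b, OL θ T → OL θ b → OL θ (qu T b) ∧ cl (qu T b) = cl T * (cl b)⁻¹) ∧
    (∀ S, OL θ S → OL θ (cj S) ∧ cl (cj S) = (cl S)⁻¹) ∧
    Odd (Nat.card χ.ker) ∧ χ (cl (pr2 θ)) = -1

end Crest.Agent.T15.Cm
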