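import Crest.Agent.T15.CmC_13

/-!
# Row 15, block Q (helper13), part G: generators of the `𝔭³`-torsion and the CM points
-/

set_option autoImplicit false
set_option linter.unusedSectionVars false

noncomputable section

namespace Crest.Agent.T15.Cm

variable {S : Sm} {θ : ℂ} {r r' : ℤ}

/-- `u` generates the kernel of `(8, θ - r)` on `ℂ / S` -/
structure Gn (θ : ℂ) (r : ℤ) (S : Sm) (u : ℂ) : Prop where
  h8 : 8 * u ∈ S
  h4 : 4 * u ∉ S
  hr : (θ - r) * u ∈ S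

lemma zm {z : ℂ} (n : ℤ) (hz : z ∈ S) : n * z ∈ S := by simpa using S.smul_mem n hz

lemma Gn.hp {u : ℂ} (h : Gn θ r S u) : Hp S (4 * u) :=
  ⟨by convert h.h8 using 1; ring, h.h4⟩

lemma Gn.hp' {u : ℂ} (h : Gn θ r S u) : Hp S (2 * (2 * u)) := by
  rw [show 2 * (2 * u) = 4 * u by ring]; exact h.hp

lemma Gn.not {w : ℂ} (h : Gn θ r' S w) (hr : r + r' = 1) : (θ - r) * (4 * w) ∉ S := by
  intro e
  apply h.h4
  have e' : (r' : ℂ) = 1 - r := by rw [← Int.cast_one, ← hr]; push_cast; ring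
  convert S.add_mem (S.sub_mem e (zm 4 h.hr)) (zm r h.h8) using 1
  rw [e']; push_cast; ring

lemma OL.sub (hS : OL θ S) (r : ℤ) {z : ℂ} (hz : z ∈ S) : (θ - r) * z ∈ S := by
  convert hS.lin (-r) 1 hz using 1; push_cast; ring

section two

variable (hS : OL θ S) (hr : r + r' = 1) {u w : ℂ} (hu : Gn θ r S u) (hw : Gn θ r' S w)
include hS hr hu hw

lemma Gn.ne : 4 * u - 2 * (2 * w) ∉ S := fun e => hw.not hr (by
  convert S.sub_mem (zm 4 hu.hr) (hS.sub r e) using 1; push_cast; ring)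

lemma Gn.ch : Ch S u (2 * w) := ⟨hS.lat, hu.hp, hw.hp', hu.ne hS hr hw⟩

lemma Gn.two {z : ℂ} (h2 : 2 * z ∈ S) (hz : (θ - r) * z ∈ S) : z ∈ S ∨ z - 4 * u ∈ S := by
  rcases hS.lat.two_tors hu.hp hw.hp' (hu.ne hS hr hw) h2 with e | e | e | e
  · exact Or.inl e
  · exact Or.inr e
  · exact absurd (by convert S.sub_mem hz (hS.sub r e) using 1; ring) (hw.not hr)
  · exact absurd (by
      convert S.sub_mem (S.sub_mem hz (hS.sub r e)) (zm 4 hu.hr) using 1; push_cast; ring)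
      (hw.not hr)

lemma Gn.two' {z : ℂ} (h2 : 2 * z ∈ S) (hz : (θ - r) * z ∈ S) : ∃ x : ℤ, z - x * (4 * u) ∈ S := by
  rcases hu.two hS hr hw h2 hz with e | e
  · exact ⟨0, by simpa using e⟩
  · exact ⟨1, by simpa using e⟩

lemma Gn.four {z : ℂ} (h4 : 4 * z ∈ S) (hz : (θ - r) * z ∈ S) : ∃ x : ℤ, z - x * (2 * u) ∈ S := by
  obtain ⟨x, hx⟩ := hu.two' hS hr hw (z := 2 * z) (by convert h4 using 1; ring)
    (by convert zm 2 hz using 1; push_cast; ring)
  obtain ⟨y, hy⟩ := hu.two' hS hr hw (z := z - x * (2 * u)) (by convert hx using 1; ring)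
    (by convert S.sub_mem hz (zm (2 * x) hu.hr) using 1; push_cast; ring)
  exact ⟨x + 2 * y, by convert hy using 1; push_cast; ring⟩

lemma Gn.eight {z : ℂ} (h8 : 8 * z ∈ S) (hz : (θ - r) * z ∈ S) : ∃ x : ℤ, z - x * u ∈ S := by
  obtain ⟨x, hx⟩ := hu.four hS hr hw (z := 2 * z) (by convert h8 using 1; ring)
    (by convert zm 2 hz using 1; push_cast; ring)
  obtain ⟨y, hy⟩ := hu.two' hS hr hw (z := z - x * u) (by convert hx using 1; ring)
    (by convert S.sub_mem hz (zm x hu.hr) using 1; ring)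
  exact ⟨x + 4 * y, by convert hy using 1; push_cast; ring⟩

lemma Gn.odd {z : ℂ} (hz : Gn θ r S z) : ∃ k : ℤ, z - (2 * k + 1) * u ∈ S := by
  obtain ⟨x, hx⟩ := hu.eight hS hr hw hz.h8 hz.hr
  obtain ⟨j, rfl | rfl⟩ := Int.even_or_odd' x
  · exact absurd (by convert S.add_mem (zm 4 hx) (zm j hu.h8) using 1; push_cast; ring) hz.h4
  · exact ⟨j, by convert hx using 1; push_cast; ring⟩

lemma Gn.pm {z : ℂ} (h4 : Hp S (2 * z)) (hz : (θ - r) * z ∈ S) : z - 2 * u ∈ S ∨ z + 2 * u ∈ S := by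
  obtain ⟨x, hx⟩ := hu.four hS hr hw (z := z) (by convert h4.two using 1; ring) hz
  obtain ⟨j, rfl | rfl⟩ := Int.even_or_odd' x
  · exact absurd (by convert S.add_mem (zm 2 hx) (zm j hu.h8) using 1; push_cast; ring) h4.ne
  obtain ⟨i, rfl | rfl⟩ := Int.even_or_odd' j
  · exact Or.inl (by convert S.add_mem hx (zm i hu.h8) using 1; push_cast; ring)
  · exact Or.inr (by convert S.add_mem hx (zm (i + 1) hu.h8) using 1; push_cast; ring)

end two

/-- the arithmetic data -/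
structure Dt (θ : ℂ) (m : ℕ) (r r' : ℤ) : Prop where
  hm : m ≠ 0
  hθ : θ ^ 2 = θ - m
  hr : r + r' = 1
  h8 : (8 : ℤ) ∣ r * r' - m

variable {m : ℕ}

lemma Dt.symm (d : Dt θ m r r') : Dt θ m r' r :=
  ⟨d.hm, d.hθ, by rw [add_comm, d.hr], by rw [mul_comm]; exact d.h8⟩

theorem Dt.exists_gn (d : Dt θ m r r') (hS : OL θ S) : ∃ u, Gn θ r S u := by
  obtain ⟨k, hk⟩ := d.h8
  have hr : (r : ℂ) + r' = 1 := by exact_mod_cast d.hr
  have hk' : (r : ℂ) * r' - m = 8 * k := by exact_mod_cast hk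
  have hθ := d.hθ
  by_contra hn
  have key : ∀ a ∈ S, (θ - r') / 2 * a ∈ S := fun a ha => by
    by_contra h4
    refine hn ⟨(θ - r') * a / 8, ?_, ?_, ?_⟩
    · convert hS.sub r' ha using 1; ring
    · convert h4 using 2; ring
    · convert zm k ha using 1
      linear_combination (a / 8) * hθ + (a / 8) * hk' - (a * θ / 8) * hr
  obtain ⟨x, y, hxy, hi⟩ := hS.lat.basis
  obtain ⟨m1, n1, e1⟩ := (hxy _).1 (key x ((hxy _).2 ⟨1, 0, by simp⟩))
  obtain ⟨m2, n2, e2⟩ := (hxy _).1 (key y ((hxy _).2 ⟨0, 1, by simp⟩))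
  have hx : x ≠ 0 := fun e => one_ne_zero (hi 1 0 (by simp [e])).1
  have hy : y ≠ 0 := fun e => one_ne_zero (hi 0 1 (by simp [e])).2
  have e3 : ((θ - r') / 2 - m1) * ((θ - r') / 2 - n2) = n1 * m2 := by
    apply mul_right_cancel₀ (mul_ne_zero hx hy)
    have a1 : ((θ - r') / 2 - m1) * x = n1 * y := by linear_combination -e1
    have a2 : ((θ - r') / 2 - n2) * y = m2 * x := by linear_combination -e2
    linear_combination (((θ - r') / 2 - n2) * y) * a1 + (n1 * y) * a2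
  set A : ℤ := 1 - 2 * r' - 2 * m1 - 2 * n2 with hA
  set B : ℤ := 4 * n1 * m2 + m - (r' + 2 * m1) * (r' + 2 * n2) with hB
  have e4 : θ * A = B := by
    rw [hA, hB]; push_cast
    linear_combination 4 * e3 - hθ
  have e5 : (2 * B - A) ^ 2 + (4 * m - 1) * A ^ 2 = 0 := by
    have : ((2 * B - A : ℂ)) ^ 2 + (4 * m - 1) * (A : ℂ) ^ 2 = 0 := by
      rw [← e4]; linear_combination 4 * (A : ℂ) ^ 2 * hθ
    exact_mod_cast this
  have hA0 : A ≠ 0 := by omega
  have hm : (1 : ℤ) ≤ m := by have := d.hm; omega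
  have := mul_pos (show (0 : ℤ) < 4 * m - 1 by omega) (pow_pos (abs_pos.2 hA0) 2)
  rw [sq_abs] at this
  nlinarith [sq_nonneg (2 * B - A)]

/-- a chosen generator -/
def gen (θ : ℂ) (r : ℤ) (S : Sm) : ℂ := Classical.epsilon (Gn θ r S)

lemma Dt.gen (d : Dt θ m r r') (hS : OL θ S) : Gn θ r S (gen θ r S) :=
  Classical.epsilon_spec (d.exists_gn hS)

/-- the CM point -/
def sP (θ : ℂ) (r r' : ℤ) (S : Sm) : ℂ := ss S (gen θ r S) (2 * gen θ r' S)

/-- the CM point -/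
def bP (θ : ℂ) (r r' : ℤ) (S : Sm) : ℂ := be S (gen θ r S) (2 * gen θ r' S)

namespace Dt

variable (d : Dt θ m r r') (hS : OL θ S)
include d hS

lemma ch : Ch S (Cm.gen θ r S) (2 * Cm.gen θ r' S) := (d.gen hS).ch hS d.hr (d.symm.gen hS)

theorem pt : sP θ r r' S ^ 4 + bP θ r r' S ^ 2 = 1 ∧ sP θ r r' S ≠ 0 ∧ bP θ r r' S ≠ 0 :=
  ⟨(d.ch hS).quartic, (d.ch hS).ss_ne, (d.ch hS).be_ne⟩

theorem eq' {u v : ℂ} (hu : Gn θ r S u) (hv : Hp S (2 * v)) (hv' : (θ - r') * v ∈ S) :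
    sP θ r r' S = ss S u v ∧ bP θ r r' S = be S u v := by
  obtain ⟨k, hk⟩ := (d.gen hS).odd hS d.hr (d.symm.gen hS) hu
  have := (d.ch hS).congr k hk ((d.symm.gen hS).pm hS d.symm.hr (d.gen hS) hv hv')
  exact ⟨this.1.symm, this.2.symm⟩

theorem eq {u w : ℂ} (hu : Gn θ r S u) (hw : Gn θ r' S w) :
    sP θ r r' S = ss S u (2 * w) ∧ bP θ r r' S = be S u (2 * w) :=
  d.eq' hS hu hw.hp' (by convert zm 2 hw.hr using 1; push_cast; ring)

theorem scale {a : ℂ} (ha : a ≠ 0) :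
    sP θ r r' (dv a S) = sP θ r r' S ∧ bP θ r r' (dv a S) = bP θ r r' S := by
  have k : ∀ {t : ℤ} {u}, Gn θ t (dv a S) u → Gn θ t S (a * u) := fun h =>
    ⟨by rw [mul_left_comm]; exact h.h8, by rw [mul_left_comm]; exact h.h4,
      by rw [mul_left_comm]; exact h.hr⟩
  have e := d.eq hS (k (d.gen (hS.dv ha))) (k (d.symm.gen (hS.dv ha)))
  rw [e.1, e.2, sP, bP, (ss_dv ha _ _ _).1, (ss_dv ha _ _ _).2, mul_left_comm a]
  exact ⟨rfl, rfl⟩

theorem gal {σ : ℂ ≃+* ℂ} {S' : Sm} (hσ : σ θ = θ) (h : Tr σ S S') :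
    sP θ r r' S' = σ (sP θ r r' S) ∧ bP θ r r' S' = σ (bP θ r r' S) := by
  have k : ∀ {t : ℤ} {u u'}, Rl σ S S' u u' → Gn θ t S u → Gn θ t S' u' := fun {t u u'} ρ g =>
    ⟨by simpa using (h.nmul ρ 8).mem_iff.1 (by simpa using g.h8),
      fun e => g.h4 (by simpa using (h.nmul ρ 4).mem_iff.2 (by simpa using e)), by
      have := (h.lin d.hm d.hθ hσ hS (-t) 1 ρ).mem_iff.1 (by
        convert g.hr using 1; push_cast; ring)
      convert this using 1; push_cast; ring⟩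
  obtain ⟨u, hu⟩ := h.ex (Cm.gen θ r S)
  obtain ⟨w, hw⟩ := h.ex (Cm.gen θ r' S)
  have e := d.eq (h.theta d.hm d.hθ hσ hS).1 (k hu (d.gen hS)) (k hw (d.symm.gen hS))
  rw [e.1, e.2]
  exact h.ss hu (by simpa using h.nmul hw 2)

theorem conj (hc : cc θ = 1 - θ) (hS' : OL θ (cj S)) :
    sP θ r' r (cj S) = cc (sP θ r r' S) ∧ bP θ r' r (cj S) = cc (bP θ r r' S) := by
  have k0 : ∀ z, cc z ∈ cj S ↔ z ∈ S := fun z => (rl_cj S z).mem_iff.symm
  have k : ∀ {t t' : ℤ} {u}, t + t' = 1 → Gn θ t S u → Gn θ t' (cj S) (cc u) :=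
    fun {t t' u} ht g => by
      have ht' : (t : ℂ) + t' = 1 := by exact_mod_cast ht
      refine ⟨?_, fun e => g.h4 ((k0 _).1 ?_), ?_⟩
      · have := (k0 _).2 g.h8
        rwa [map_mul, map_ofNat] at this
      · rwa [map_mul, map_ofNat]
      · have := (k0 _).2 (S.neg_mem g.hr)
        rw [map_neg, map_mul, map_sub, hc, map_intCast] at this
        convert this using 1
        linear_combination -(cc u) * ht'
  have e := d.symm.eq hS' (k d.hr (d.gen hS)) (k d.symm.hr (d.symm.gen hS))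
  rw [e.1, e.2]
  have t := tr_cj hS.lat hS'.lat
  exact t.ss (rl_cj S _) (by simpa using t.nmul (rl_cj S _) 2)

theorem rev (he : Even r) (hS' : OL θ (qu S (pr2 θ))) :
    sP θ r' r (qu S (pr2 θ)) = -bP θ r r' S / (1 + sP θ r r' S ^ 2) ∧
    bP θ r' r (qu S (pr2 θ)) = -2 * sP θ r r' S / (1 + sP θ r r' S ^ 2) := by
  obtain ⟨j, hj⟩ := he
  have hj' : (r : ℂ) = j + j := by exact_mod_cast hj
  have hu := d.gen hS
  have hw := d.symm.gen hS
  have hq : qu S (pr2 θ) = adj S (4 * Cm.gen θ r S) := by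
    ext z
    rw [hu.hp.mem_adj, mem_qu]
    constructor
    · intro hz
      have h2 := hz 2 (mem_pr2.2 ⟨1, 0, by simp⟩)
      have h3 := hz θ (mem_pr2.2 ⟨0, 1, by simp⟩)
      exact hu.two hS d.hr hw h2 (by
        convert S.sub_mem h3 (zm j h2) using 1; rw [hj']; ring)
    · intro hz β hβ
      obtain ⟨a, b, rfl⟩ := mem_pr2.1 hβ
      rcases hz with e | e
      · convert hS.lin (a * 2) b e using 1; push_cast; ring
      · convert S.add_mem (S.add_mem (hS.lin (a * 2) b e) (zm (a + b * j) hu.h8))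
          (zm (4 * b) hu.hr) using 1
        rw [hj']; push_cast; ring
  rw [hq] at hS' ⊢
  obtain ⟨c', h1, h2⟩ := (d.ch hS).rev
  have le : S ≤ adj S (4 * Cm.gen θ r S) := le_sup_left
  have e := d.symm.eq' hS' (u := Cm.gen θ r' S) ⟨le hw.h8, c'.hu.ne, le hw.hr⟩ c'.hv (le hu.hr)
  rw [e.1, e.2]
  exact ⟨h1, h2⟩

end Dt

end Crest.Agent.T15.Cm
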