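import Crest.Agent.T15.Dio_15

/-!
# Row 15, block Q: exact statements (helper22, after helper13's text, team note #3382)

`JStmt` is the output of the block: "`v_p(y) > 0` for every odd prime `p` with `v_p(w)` odd" has a
Diophantine certificate which is complete for primes `w ≡ 1 mod 8`.
-/

set_option autoImplicit false

namespace Crest.Agent.T15.Q

/-- the genus one gadget -/
def D0 (w G : ℚ) : Prop := ∃ r A B : ℚ, 4 + r ^ 2 = w * A ^ 2 ∧ 4 - r ^ 2 = G * B ^ 2 ∧ B ≠ 0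

/-- (HG) completeness of the gadget (mock Heegner points) -/
def HGStmt : Prop := ∀ p q : ℕ, p.Prime → q.Prime → p % 8 = 5 → q % 8 = 3 →
  ¬ IsSquare (q : ZMod p) → D0 p q

/-- (H1)-(H4): the CM points on `s⁴ + b² = 1`, indexed by the class group of `ℚ(√(-pq))` -/
def CMStmt : Prop := ∀ p q : ℕ, p.Prime → q.Prime → p % 8 = 5 → q % 8 = 3 →
  ¬ IsSquare (q : ZMod p) → ∀ δ π : ℂ, δ ^ 2 = -(p * q) → π ^ 2 = p →
  ∃ (Cl : Type) (_ : CommGroup Cl) (_ : Fintype Cl) (s b : Cl → ℂ)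
    (c : MulAction.stabilizer (ℂ ≃ₐ[ℚ] ℂ) δ →* Cl) (χ : Cl →* ℤˣ) (P : Cl),
    Odd (Nat.card χ.ker) ∧ χ P = -1 ∧
    (∀ a, s a ^ 4 + b a ^ 2 = 1 ∧ s a ≠ 0 ∧ b a ≠ 0) ∧
    (∀ σ a, σ.1 (s a) = s (c σ * a) ∧ σ.1 (b a) = b (c σ * a)) ∧
    (∀ a, (starRingEnd ℂ) (s a) = -b (P * a⁻¹) / (1 + s (P * a⁻¹) ^ 2) ∧
      (starRingEnd ℂ) (b a) = -2 * s (P * a⁻¹) / (1 + s (P * a⁻¹) ^ 2)) ∧
    ∀ σ, c σ = 1 → σ.1 π = π

/-- (K4) six linear forms in three variables (complexity one) take prime values -/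
def K4Stmt : Prop := ∀ g D c : ℕ, 0 < g → 6 ∣ g → 0 < D → D.Coprime g → c.Coprime g →
  ∃ x y z u v a : ℕ, x.Prime ∧ y.Prime ∧ z.Prime ∧ u.Prime ∧ v.Prime ∧ a.Prime ∧
    x ≡ c [MOD g] ∧ y ≡ c [MOD g] ∧ z ≡ c [MOD g] ∧
    u + g * x = D * z ∧ v + g * y = D * z ∧ a + g * x + g * y = D * z

/-- **output of block Q** -/
def JStmt : Prop := ∃ J : ℚ → ℚ → Prop, Dio (fun x : ℚ × ℚ => J x.1 x.2) ∧
  (∀ w y, J w y → ∀ p : ℕ, p.Prime → p ≠ 2 → Odd (padicValRat p w) → y = 0 ∨ 0 < padicValRat p y) ∧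
  ∀ l : ℕ, l.Prime → l % 8 = 1 → ∀ y : ℚ, (y = 0 ∨ 0 < padicValRat l y) → J l y

def HGGlue : Prop := CMStmt → HGStmt
def JGlue : Prop := HGStmt → K4Stmt → JStmt

end Crest.Agent.T15.Q
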