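import Crest.Agent.T15.CmG_13
import Crest.Agent.T15.QDef_22

/-!
# Row 15, block Q (helper13): `CMStmt` from the class group leaf and the `√p` leaf
-/

set_option autoImplicit false
set_option linter.unusedSectionVars false

noncomputable section

namespace Crest.Agent.T15.Cm

/-- (H3) `√p` lies in the field generated by `θ` and `j(ℤ[θ])` -/
def SqStmt : Prop := ∀ p q : ℕ, p.Prime → q.Prime → p % 8 = 5 → q % 8 = 3 →
  ∀ δ θ π a : ℂ, δ ^ 2 = -(p * q) → θ = (1 + δ) / 2 → π ^ 2 = p →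
  ∀ σ : ℂ ≃+* ℂ, σ θ = θ → OL θ (ord θ) → a ≠ 0 → Tr σ (ord θ) (dv a (ord θ)) → σ π = π

lemma exists_dt {p q : ℕ} (hp : p % 8 = 5) (hq : q % 8 = 3) {δ θ : ℂ} (hδ : δ ^ 2 = -(p * q))
    (hθ : θ = (1 + δ) / 2) : ∃ (m : ℕ) (r r' : ℤ), Dt θ m r r' ∧ Even r := by
  have h7 : (p * q) % 8 = 7 := by rw [Nat.mul_mod, hp, hq]
  obtain ⟨n, hn⟩ : ∃ n, p * q + 1 = 8 * n := ⟨(p * q + 1) / 8, by omega⟩
  have hn' : (p : ℂ) * q + 1 = 8 * n := by exact_mod_cast hn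
  have hθ2 : θ ^ 2 = θ - (2 * n : ℕ) := by
    rw [hθ]; push_cast; linear_combination hδ / 4 - hn' / 4
  have h0 : 2 * n ≠ 0 := by omega
  have : n % 4 = 0 ∨ n % 4 = 1 ∨ n % 4 = 2 ∨ n % 4 = 3 := by omega
  rcases this with e | e | e | e
  · exact ⟨_, 0, 1, ⟨h0, hθ2, by norm_num, by omega⟩, by decide⟩
  · exact ⟨_, 6, -5, ⟨h0, hθ2, by norm_num, by omega⟩, by decide⟩
  · exact ⟨_, 4, -3, ⟨h0, hθ2, by norm_num, by omega⟩, by decide⟩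
  · exact ⟨_, 2, -1, ⟨h0, hθ2, by norm_num, by omega⟩, by decide⟩

lemma cc_theta {n : ℕ} (hn : n ≠ 0) {δ θ : ℂ} (hδ : δ ^ 2 = -n) (hθ : θ = (1 + δ) / 2) :
    cc θ = 1 - θ := by
  have h1 : cc δ ^ 2 = δ ^ 2 := by rw [← map_pow, hδ]; simp
  have h2 : cc δ = -δ := by
    rcases sq_eq_sq_iff_eq_or_eq_neg.1 h1 with e | e
    · obtain ⟨x, rfl⟩ := Complex.conj_eq_iff_real.1 e
      have h3 : x ^ 2 = -n := by exact_mod_cast hδ
      have h4 : (0 : ℝ) < n := by positivity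
      nlinarith [sq_nonneg x]
    · exact e
  rw [hθ, map_div₀, map_add, map_one, map_ofNat, h2]; ring

theorem cm_of_cl (hsq : SqStmt) (hcl : ClStmt) : Q.CMStmt := by
  intro p q hp hq hp8 hq8 hns δ π hδ hπ
  set θ : ℂ := (1 + δ) / 2 with hθ
  obtain ⟨Cl, iG, iF, cl, χ, hO, hP, h1, hdv, hrep, hqu, hcj, hodd, hχ⟩ :=
    hcl p q hp hq hp8 hq8 hns δ θ hδ hθ
  obtain ⟨m, r, r', d, he⟩ := exists_dt hp8 hq8 hδ hθ
  have hc : cc θ = 1 - θ := cc_theta (n := p * q) (mul_ne_zero hp.ne_zero hq.ne_zero)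
    (by rw [hδ]; push_cast; ring) hθ
  choose rep hr1 hr2 hr3 using hrep
  choose tr htr using fun σ : ℂ ≃+* ℂ => hO.lat.exists_tr σ
  have hcd : ∀ S a, OL θ S → a ≠ 0 → cl (dv a S) = cl S := fun S a hS ha =>
    ((hdv _ _ hS (hS.dv ha)).2 ⟨a, ha, rfl⟩).symm
  have key : ∀ (σ : ℂ ≃+* ℂ) S S', σ θ = θ → OL θ S → Tr σ S S' → cl S' = cl (tr σ) * cl S := by
    intro σ S S' hσ hS h
    have hO' := ((htr σ).theta d.hm d.hθ hσ hO).1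
    obtain ⟨b1, b2⟩ := hqu _ _ hO (hr1 (cl S)⁻¹)
    obtain ⟨c1, c2⟩ := hqu _ _ hO' (hr1 (cl S)⁻¹)
    rw [hr3, inv_inv] at b2 c2
    rw [h1, one_mul] at b2
    obtain ⟨a, ha, e⟩ := (hdv _ _ b1 hS).1 b2
    have t := ((htr σ).qu d.hm d.hθ hσ hO (hr1 (cl S)⁻¹).lat (hr2 _)).dv ha
    rw [← e] at t
    rw [h.unique t, hcd _ _ c1 ((map_ne_zero σ).2 ha), c2]
  have inv : ∀ {t t' : ℤ} {S T}, Dt θ m t t' → OL θ S → OL θ T → cl S = cl T →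
      sP θ t t' S = sP θ t t' T ∧ bP θ t t' S = bP θ t t' T := by
    intro t t' S T d hS hT e
    obtain ⟨a, ha, rfl⟩ := (hdv _ _ hT hS).1 e.symm
    exact d.scale hT ha
  have fx : ∀ σ : MulAction.stabilizer (ℂ ≃ₐ[ℚ] ℂ) δ, σ.1.toRingEquiv θ = θ := fun σ => by
    have : σ.1 δ = δ := σ.2
    change σ.1 θ = θ
    rw [hθ, map_div₀, map_add, map_one, map_ofNat, this]
  let c : MulAction.stabilizer (ℂ ≃ₐ[ℚ] ℂ) δ →* Cl := MonoidHom.mk'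
    (fun σ => cl (tr σ.1.toRingEquiv)) (fun σ τ => by
      have hO' := ((htr _).theta d.hm d.hθ (fx τ) hO).1
      obtain ⟨X, hX⟩ := hO'.lat.exists_tr σ.1.toRingEquiv
      have e : tr (σ * τ).1.toRingEquiv = X := (htr _).unique ((htr _).trans hX)
      rw [e, key _ _ _ (fx σ) hO' hX])
  refine ⟨Cl, iG, iF, fun a => sP θ r r' (rep a), fun a => bP θ r r' (rep a), c, χ, cl (pr2 θ),
    hodd, hχ, fun a => d.pt (hr1 a), fun σ a => ?_, fun a => ?_, fun σ hσ => ?_⟩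
  · obtain ⟨X, hX⟩ := (hr1 a).lat.exists_tr σ.1.toRingEquiv
    have g := d.gal (hr1 a) (fx σ) hX
    have e := inv d (hX.theta d.hm d.hθ (fx σ) (hr1 a)).1 (hr1 (c σ * a)) (by
      rw [key _ _ _ (fx σ) (hr1 a) hX, hr3, hr3]; rfl)
    exact ⟨g.1.symm.trans e.1, g.2.symm.trans e.2⟩
  · obtain ⟨c1, c2⟩ := hcj _ (hr1 a)
    obtain ⟨b1, b2⟩ := hqu _ _ (hr1 (cl (pr2 θ) * a⁻¹)) hP
    have g := d.conj (hr1 a) hc c1
    have v := d.rev (hr1 (cl (pr2 θ) * a⁻¹)) he b1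
    have e := inv d.symm c1 b1 (by rw [c2, b2, hr3, hr3, mul_right_comm, mul_inv_cancel, one_mul])
    exact ⟨g.1.symm.trans (e.1.trans v.1), g.2.symm.trans (e.2.trans v.2)⟩
  · have hO' := ((htr _).theta d.hm d.hθ (fx σ) hO).1
    obtain ⟨a, ha, e⟩ := (hdv _ _ hO hO').1 (h1.trans hσ.symm)
    exact hsq p q hp hq hp8 hq8 δ θ π a hδ hθ hπ _ (fx σ) hO ha (e ▸ htr _)

end Crest.Agent.T15.Cm
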