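import Crest.Agent.T15.AxC_14
import Crest.Agent.T15.MoA_29

/-!
# Row 15, covolume: one explicit period of the normal form (helper89)

`Cov.one_per`: the period of the loop around the branch points `0` and `i s₁`.
-/

set_option autoImplicit false

open Polynomial Filter Topology

noncomputable section

namespace Crest.Agent.T15.Cov

open Ax

/-- **one period**: nonzero middle coordinate and explicit bounds -/
theorem one_per {A : Type*} [AddCommGroup A] {cl : ℂ × ℂ → A} {ex : (Fin 3 → ℂ) →+ A}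
    (c : ℂ) (s1 s2 s3 : ℝ) (h1 : 0 < s1) (h2 : s1 < s2) (h3 : s1 < s3) (hc : c ≠ 0)
    (hF : Squarefree (Mo.Fm c (-(s1 : ℂ) ^ 2) (-(s2 : ℂ) ^ 2) (-(s3 : ℂ) ^ 2)))
    (he : IsExp (Mo.Fm c (-(s1 : ℂ) ^ 2) (-(s2 : ℂ) ^ 2) (-(s3 : ℂ) ^ 2)) 3 cl ex) :
    ∃ mu : Fin 3 → ℂ, ex mu = 0 ∧ mu 1 ≠ 0 ∧ ∀ k : Fin 3,
      ‖mu k‖ ^ 2 * (‖c‖ * s1 * (s2 ^ 2 - s1 ^ 2) * (s3 ^ 2 - s1 ^ 2)) ≤
        (2 * Real.pi) ^ 2 * s1 ^ (2 * (k : ℕ)) := by
  obtain ⟨κ, hκ⟩ := exists_sq (-Complex.I * c)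
  have hκ0 : κ ≠ 0 := fun h => by
    rw [h] at hκ
    exact mul_ne_zero (neg_ne_zero.2 Complex.I_ne_zero) hc (by simpa using hκ.symm)
  have hκn : ‖κ‖ ^ 2 = ‖c‖ := by rw [← norm_pow, hκ]; simp
  obtain ⟨s, hs⟩ : ∃ s : ℝ → ℝ, s = fun θ => s1 * (1 - Real.cos θ) / 2 := ⟨_, rfl⟩
  obtain ⟨u, hu⟩ : ∃ u : ℝ → ℝ, u = fun θ => s1 * Real.sin θ / 2 := ⟨_, rfl⟩
  have ds : ∀ θ, HasDerivAt s (u θ) θ := fun θ => by
    rw [hs, hu]
    exact ((((Real.hasDerivAt_cos θ).const_sub 1).const_mul s1).div_const 2).congr_deriv (by simp)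
  have du : ∀ θ, HasDerivAt u (s1 / 2 - s θ) θ := fun θ => by
    rw [hs, hu]
    exact (((Real.hasDerivAt_sin θ).const_mul s1).div_const 2).congr_deriv (by ring)
  have hu2 : ∀ θ, u θ ^ 2 = s θ * (s1 - s θ) := fun θ => by
    simp only [hs, hu]
    linear_combination s1 ^ 2 / 4 * Real.sin_sq_add_cos_sq θ
  have s0 : ∀ θ, 0 ≤ s θ := fun θ => by
    have := mul_nonneg h1.le (sub_nonneg.2 (Real.cos_le_one θ))
    simp only [hs]
    linarith
  have s1' : ∀ θ, s θ ≤ s1 := fun θ => by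
    have := mul_nonneg h1.le (sub_nonneg.2 (Real.neg_one_le_cos θ))
    simp only [hs]
    linarith
  have p2 : 0 < s2 ^ 2 - s1 ^ 2 := sub_pos.2 (pow_lt_pow_left₀ h2 h1.le two_ne_zero)
  have p3 : 0 < s3 ^ 2 - s1 ^ 2 := sub_pos.2 (pow_lt_pow_left₀ h3 h1.le two_ne_zero)
  obtain ⟨g, hg⟩ : ∃ g : ℝ → ℝ,
      g = fun θ => (s1 + s θ) * (s2 ^ 2 - s θ ^ 2) * (s3 ^ 2 - s θ ^ 2) := ⟨_, rfl⟩
  have hg1 : ∀ θ, s1 * (s2 ^ 2 - s1 ^ 2) * (s3 ^ 2 - s1 ^ 2) ≤ g θ := fun θ => by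
    have a := s0 θ
    have b : s θ ^ 2 ≤ s1 ^ 2 := pow_le_pow_left₀ a (s1' θ) 2
    rw [hg]
    exact mul_le_mul (mul_le_mul (by linarith) (by linarith) p2.le (by linarith)) (by linarith)
      p3.le (mul_nonneg (by linarith) (by linarith))
  have p0 : 0 < s1 * (s2 ^ 2 - s1 ^ 2) * (s3 ^ 2 - s1 ^ 2) := by positivity
  have hg0 : ∀ θ, 0 < g θ := fun θ => p0.trans_le (hg1 θ)
  have dg : ∀ θ, HasDerivAt g (u θ * ((s2 ^ 2 - s θ ^ 2) * (s3 ^ 2 - s θ ^ 2) -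
      2 * s θ * (s1 + s θ) * (s2 ^ 2 + s3 ^ 2 - 2 * s θ ^ 2))) θ := fun θ => by
    rw [hg]
    exact ((((ds θ).const_add s1).fun_mul (((ds θ).fun_pow 2).const_sub _)).fun_mul
      (((ds θ).fun_pow 2).const_sub _)).congr_deriv (by simp; ring)
  obtain ⟨r, hr⟩ : ∃ r : ℝ → ℝ, r = fun θ => √(g θ) := ⟨_, rfl⟩
  have r0 : ∀ θ, 0 < r θ := fun θ => by rw [hr]; exact Real.sqrt_pos.2 (hg0 θ)
  have r2 : ∀ θ, r θ ^ 2 = g θ := fun θ => by rw [hr]; exact Real.sq_sqrt (hg0 θ).le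
  have dr : ∀ θ, HasDerivAt r (u θ * ((s2 ^ 2 - s θ ^ 2) * (s3 ^ 2 - s θ ^ 2) -
      2 * s θ * (s1 + s θ) * (s2 ^ 2 + s3 ^ 2 - 2 * s θ ^ 2)) / (2 * r θ)) θ := fun θ => by
    rw [hr]
    exact (dg θ).sqrt (hg0 θ).ne'
  have cs : Continuous s := continuous_iff_continuousAt.2 fun θ => (ds θ).continuousAt
  have cr : Continuous r := continuous_iff_continuousAt.2 fun θ => (dr θ).continuousAt
  have rc : ∀ θ, (r θ : ℂ) ≠ 0 := fun θ => Complex.ofReal_ne_zero.2 (r0 θ).ne'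
  have cm : Continuous fun θ => 1 / (κ * r θ) :=
    continuous_const.div (by fun_prop) fun θ => mul_ne_zero hκ0 (rc θ)
  have ci : ∀ k : ℕ, Continuous fun θ => (Complex.I * s θ) ^ k * (1 / (κ * r θ)) := fun k =>
    Continuous.mul (by fun_prop) cm
  have hp : ∀ θ, PathAt (Mo.Fm c (-(s1 : ℂ) ^ 2) (-(s2 : ℂ) ^ 2) (-(s3 : ℂ) ^ 2))
      (fun θ : ℝ => Complex.I * s θ) (fun θ => Complex.I * κ * (u θ * r θ))
      (fun θ => 1 / (κ * r θ))
      (fun θ (k : Fin 3) => ∫ t in (0 : ℝ)..θ, (Complex.I * s t) ^ (k : ℕ) * (1 / (κ * r t))) θ :=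
    fun θ => by
    have e1 : (u θ : ℂ) ^ 2 = s θ * (s1 - s θ) := by exact_mod_cast hu2 θ
    have e2 : (r θ : ℂ) ^ 2 = (s1 + s θ) * (s2 ^ 2 - s θ ^ 2) * (s3 ^ 2 - s θ ^ 2) := by
      have := r2 θ
      rw [hg] at this
      exact_mod_cast this
    have e3 := rc θ
    have e4 : (Complex.I * s θ) ^ 2 = -(s θ : ℂ) ^ 2 := by rw [mul_pow, Complex.I_sq]; ring
    refine ⟨?_, ((ds θ).ofReal_comp.const_mul _).congr_deriv (by field_simp),
      (((du θ).ofReal_comp.fun_mul (dr θ).ofReal_comp).const_mul _).congr_deriv ?_,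
      fun k => ((ci k).integral_hasStrictDerivAt 0 θ).hasDerivAt⟩
    · simp only [Mo.Fm, eval_mul, eval_sub, eval_pow, eval_X, eval_C, e4]
      rw [mul_pow, mul_pow, mul_pow, hκ, e1, e2, Complex.I_sq]
      ring
    · have e5 : ∀ x : ℂ, (Mo.Fm c (-(s1 : ℂ) ^ 2) (-(s2 : ℂ) ^ 2) (-(s3 : ℂ) ^ 2)).derivative.eval x =
          c * ((x ^ 2 + s1 ^ 2) * (x ^ 2 + s2 ^ 2) * (x ^ 2 + s3 ^ 2) + 2 * x ^ 2 *
            ((x ^ 2 + s2 ^ 2) * (x ^ 2 + s3 ^ 2) + (x ^ 2 + s1 ^ 2) * (x ^ 2 + s3 ^ 2) +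
              (x ^ 2 + s1 ^ 2) * (x ^ 2 + s2 ^ 2))) := fun x => by
        simp only [Mo.Fm, derivative_mul, derivative_sub, derivative_C, derivative_X, derivative_X_pow,
          eval_add, eval_mul, eval_sub, eval_pow, eval_X, eval_C, eval_zero, eval_one]
        push_cast
        ring
      have e6 : Complex.I * κ * κ = c := by
        rw [mul_assoc, ← sq, hκ, ← mul_assoc, mul_neg, Complex.I_mul_I]; ring
      rw [e5, e4, ← e6]
      push_cast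
      field_simp
      rw [e1, e2]
      ring
  have key := he.path hF isPreconnected_univ (fun θ _ => Eventually.of_forall hp)
    (Set.mem_univ (2 * Real.pi)) (Set.mem_univ 0)
  have a1 : s (2 * Real.pi) = s 0 := by simp [hs]
  have a2 : u (2 * Real.pi) = 0 := by simp [hu]
  have a3 : u 0 = 0 := by simp [hu]
  simp only [a1, a2, a3, Complex.ofReal_zero, zero_mul, intervalIntegral.integral_same,
    left_eq_add] at key
  refine ⟨_, key, ?_, fun k => ?_⟩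
  · have e : (∫ t in (0 : ℝ)..(2 * Real.pi), (Complex.I * s t) ^ 1 * (1 / (κ * r t))) =
        Complex.I / κ * ((∫ t in (0 : ℝ)..(2 * Real.pi), s t / r t : ℝ) : ℂ) := by
      rw [← intervalIntegral.integral_ofReal, ← intervalIntegral.integral_const_mul]
      refine intervalIntegral.integral_congr fun t _ => ?_
      have := rc t
      push_cast
      field_simp
    have hpos : 0 < ∫ t in (0 : ℝ)..(2 * Real.pi), s t / r t := by
      refine intervalIntegral.intervalIntegral_pos_of_pos_on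
        ((cs.div cr fun t => (r0 t).ne').intervalIntegrable _ _) (fun t ht => div_pos ?_ (r0 t))
        (by positivity)
      have : Real.cos t < 1 := lt_of_le_of_ne (Real.cos_le_one t) fun h => ht.1.ne'
        ((Real.cos_eq_one_iff_of_lt_of_lt (by linarith [ht.1, Real.pi_pos]) ht.2).1 h)
      rw [hs]
      exact div_pos (mul_pos h1 (sub_pos.2 this)) two_pos
    show (∫ t in (0 : ℝ)..(2 * Real.pi), (Complex.I * s t) ^ 1 * (1 / (κ * r t))) - 0 ≠ 0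
    rw [sub_zero, e]
    exact mul_ne_zero (div_ne_zero Complex.I_ne_zero hκ0) (Complex.ofReal_ne_zero.2 hpos.ne')
  · obtain ⟨G, hG⟩ : ∃ G, G = s1 * (s2 ^ 2 - s1 ^ 2) * (s3 ^ 2 - s1 ^ 2) := ⟨_, rfl⟩
    rw [← hG] at hg1 p0
    have hκp : 0 < ‖κ‖ := norm_pos_iff.2 hκ0
    have hb : ‖∫ t in (0 : ℝ)..(2 * Real.pi), (Complex.I * s t) ^ (k : ℕ) * (1 / (κ * r t))‖ ≤
        s1 ^ (k : ℕ) * (1 / (‖κ‖ * √G)) * |2 * Real.pi - 0| := by
      refine intervalIntegral.norm_integral_le_of_norm_le_const fun t _ => ?_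
      rw [norm_mul, norm_pow, norm_mul, Complex.norm_I, one_mul, norm_div, norm_one, norm_mul,
        Complex.norm_real, Complex.norm_real, Real.norm_of_nonneg (s0 t),
        Real.norm_of_nonneg (r0 t).le]
      refine mul_le_mul (pow_le_pow_left₀ (s0 t) (s1' t) _) (one_div_le_one_div_of_le
        (by positivity) (mul_le_mul_of_nonneg_left ?_ hκp.le)) (by have := r0 t; positivity)
        (by positivity)
      rw [hr]
      exact Real.sqrt_le_sqrt (hg1 t)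
    show ‖(∫ t in (0 : ℝ)..(2 * Real.pi), (Complex.I * s t) ^ (k : ℕ) * (1 / (κ * r t))) - 0‖ ^ 2 *
      _ ≤ _
    rw [sub_zero, abs_of_pos (by positivity)] at hb
    have e : ‖c‖ * s1 * (s2 ^ 2 - s1 ^ 2) * (s3 ^ 2 - s1 ^ 2) = (‖κ‖ * √G) ^ 2 := by
      rw [mul_pow, hκn, Real.sq_sqrt p0.le, hG]; ring
    have hq : 0 < ‖κ‖ * √G := by positivity
    rw [sub_zero, e]
    refine (mul_le_mul_of_nonneg_right (pow_le_pow_left₀ (norm_nonneg _) hb 2)
      (by positivity)).trans (le_of_eq ?_)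
    generalize ‖κ‖ * √G = q at hq
    field_simp
    ring

end Crest.Agent.T15.Cov

end
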