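import Mathlib

/-!
# Row 15, block L (helper61): the field `F = ℚ(i, √5)`

`F` is a number field of degree `4` with elements `I` (`I² = -1`), `φ` (`φ² = φ + 1`) and the
automorphisms `τ` (`I ↦ I`, `φ ↦ 1 - φ`), `cj` (`I ↦ -I`, `φ ↦ φ`).

* `pid : IsPrincipalIdealRing (𝓞 F)` (Minkowski bound `< 4`, no ideal of norm `2` or `3`);
* `unit_sq` : every unit of `𝓞 F` is a square times one of `1, I, φ, I φ`;
* `not_sq_I`, `not_sq_φ`, `not_sq_Iφ`.
-/

set_option autoImplicit false

namespace Crest.Agent.T15.Cv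

open NumberField Module

theorem not_sq_nat (n k : ℕ) (h1 : k * k < n) (h2 : n < (k + 1) * (k + 1)) : ¬ IsSquare n := by
  rintro ⟨m, rfl⟩
  have a := Nat.mul_self_lt_mul_self_iff.1 h1
  have b := Nat.mul_self_lt_mul_self_iff.1 h2
  omega

instance factF0 : Fact (∀ r : ℚ, r ^ 2 ≠ 1 + 1 * r) := ⟨fun r h => by
  have h5 : IsSquare (5 : ℚ) := ⟨2 * r - 1, by nlinarith⟩
  rw [Rat.isSquare_ofNat_iff] at h5
  exact not_sq_nat 5 2 (by norm_num) (by norm_num) h5⟩

/-- `ℚ(√5) = ℚ(φ)`. -/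
abbrev F0 : Type := QuadraticAlgebra ℚ 1 1

instance factF : Fact (∀ r : F0, r ^ 2 ≠ -1 + 0 * r) := ⟨fun r h => by
  have h1 := congrArg QuadraticAlgebra.re h
  simp [sq, QuadraticAlgebra.re_one] at h1
  nlinarith [mul_self_nonneg r.re, mul_self_nonneg r.im]⟩

/-- The field `ℚ(i, √5)`. -/
def F : Type := QuadraticAlgebra F0 (-1) 0

noncomputable instance : Field F := inferInstanceAs (Field (QuadraticAlgebra F0 (-1) 0))

instance : CharZero F := inferInstanceAs (CharZero (QuadraticAlgebra F0 (-1) 0))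

/-- The element with coordinates `a, b, c, d`. -/
def mk4 (a b c d : ℚ) : F := (⟨⟨a, c⟩, ⟨b, d⟩⟩ : QuadraticAlgebra F0 (-1) 0)

/-- `i`. -/
def I : F := mk4 0 1 0 0

/-- The golden ratio. -/
def φ : F := mk4 0 0 1 0

theorem mk4_mul (a b c d a' b' c' d' : ℚ) :
    mk4 a b c d * mk4 a' b' c' d' =
      mk4 (a * a' + c * c' - b * b' - d * d') (a * b' + c * d' + b * a' + d * c')
        (a * c' + c * a' + c * c' - b * d' - d * b' - d * d')
        (a * d' + c * b' + c * d' + b * c' + d * a' + d * c') := by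
  change (⟨⟨a, c⟩, ⟨b, d⟩⟩ * ⟨⟨a', c'⟩, ⟨b', d'⟩⟩ : QuadraticAlgebra F0 (-1) 0) = ⟨⟨_, _⟩, ⟨_, _⟩⟩
  ext <;> simp <;> ring

theorem mk4_add (a b c d a' b' c' d' : ℚ) :
    mk4 a b c d + mk4 a' b' c' d' = mk4 (a + a') (b + b') (c + c') (d + d') := rfl

theorem mk4_rat (a : ℚ) : (a : F) = mk4 a 0 0 0 := rfl

theorem mk4_inj {a b c d a' b' c' d' : ℚ} (h : mk4 a b c d = mk4 a' b' c' d') :
    a = a' ∧ b = b' ∧ c = c' ∧ d = d' := by
  have h' : (⟨⟨a, c⟩, ⟨b, d⟩⟩ : QuadraticAlgebra F0 (-1) 0) = ⟨⟨a', c'⟩, ⟨b', d'⟩⟩ := h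
  simp only [QuadraticAlgebra.mk.injEq] at h'
  tauto

theorem exists_mk4 (x : F) : ∃ a b c d, x = mk4 a b c d :=
  ⟨x.re.re, x.im.re, x.re.im, x.im.im, rfl⟩

theorem mk4_eq (a b c d : ℚ) : mk4 a b c d = a + b * I + c * φ + d * (I * φ) := by
  simp only [I, φ, mk4_rat, mk4_mul, mk4_add]
  congr 1 <;> ring

theorem I_mul_I : I * I = -1 := by
  have : I * I = ((-1 : ℚ) : F) := by
    simp only [I, mk4_rat, mk4_mul]
    congr 1 <;> ring
  simpa using this

theorem φ_mul_φ : φ * φ = φ + 1 := by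
  have : φ * φ = φ + ((1 : ℚ) : F) := by
    simp only [φ, mk4_rat, mk4_mul, mk4_add]
    congr 1 <;> ring
  simpa using this

theorem I_sq : I ^ 2 = -1 := by rw [sq, I_mul_I]

theorem φ_sq : φ ^ 2 = φ + 1 := by rw [sq, φ_mul_φ]

/-- Every element has rational coordinates in `1, I, φ, I φ`. -/
theorem exists_coord (x : F) : ∃ a b c d : ℚ, x = a + b * I + c * φ + d * (I * φ) := by
  obtain ⟨a, b, c, d, rfl⟩ := exists_mk4 x
  exact ⟨a, b, c, d, mk4_eq a b c d⟩

theorem coord_unique {a b c d a' b' c' d' : ℚ}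
    (h : (a : F) + b * I + c * φ + d * (I * φ) = a' + b' * I + c' * φ + d' * (I * φ)) :
    a = a' ∧ b = b' ∧ c = c' ∧ d = d' := by
  rw [← mk4_eq, ← mk4_eq] at h
  exact mk4_inj h

/-- The vector `1, I, φ, I φ`. -/
noncomputable def vec : Fin 4 → F := ![1, I, φ, I * φ]

theorem vec_li : LinearIndependent ℚ vec := by
  rw [Fintype.linearIndependent_iff]
  intro g hg
  rw [Fin.sum_univ_four] at hg
  simp only [vec, Rat.smul_def] at hg
  have := coord_unique (a := g 0) (b := g 1) (c := g 2) (d := g 3) (a' := 0) (b' := 0) (c' := 0)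
    (d' := 0) (by simpa using hg)
  intro i
  fin_cases i <;> simp [this]

theorem vec_span : ⊤ ≤ Submodule.span ℚ (Set.range vec) := by
  intro x _
  obtain ⟨a, b, c, d, rfl⟩ := exists_coord x
  rw [Submodule.mem_span_range_iff_exists_fun]
  refine ⟨![a, b, c, d], ?_⟩
  rw [Fin.sum_univ_four]
  simp [vec, Rat.smul_def]

/-- The basis `1, I, φ, I φ` of `F` over `ℚ`. -/
noncomputable def bas : Basis (Fin 4) ℚ F := Basis.mk vec_li vec_span

theorem bas_apply (i : Fin 4) : bas i = vec i := by simp [bas]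

instance : NumberField F where
  to_charZero := inferInstance
  to_finiteDimensional := Module.Finite.of_basis bas

theorem finrank_F : finrank ℚ F = 4 := by
  rw [finrank_eq_card_basis bas]
  simp

/-- A ring homomorphism out of `F` from the images of `I` and `φ`. -/
noncomputable def lift {L : Type*} [Field L] [CharZero L] (u v : L) (hu : u * u = -1)
    (hv : v * v = v + 1) : F →ₐ[ℚ] L where
  toFun x := (x.re.re : L) + x.im.re * u + x.re.im * v + x.im.im * (u * v)
  map_one' := by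
    change (((1 : ℚ) : L) + (0 : ℚ) * u + (0 : ℚ) * v + (0 : ℚ) * (u * v)) = 1
    simp
  map_zero' := by
    change (((0 : ℚ) : L) + (0 : ℚ) * u + (0 : ℚ) * v + (0 : ℚ) * (u * v)) = 0
    simp
  map_add' x y := by
    obtain ⟨a, b, c, d, rfl⟩ := exists_mk4 x
    obtain ⟨a', b', c', d', rfl⟩ := exists_mk4 y
    rw [mk4_add]
    simp only [mk4]
    push_cast
    ring
  map_mul' x y := by
    obtain ⟨a, b, c, d, rfl⟩ := exists_mk4 x
    obtain ⟨a', b', c', d', rfl⟩ := exists_mk4 y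
    rw [mk4_mul]
    simp only [mk4]
    push_cast
    linear_combination (-((b + d * v) * (b' + d' * v))) * hu +
      (-((c + d * u) * (c' + d' * u)) + (d * d') * (u * u + 1)) * hv
  commutes' r := by
    change ((r : L) + (0 : ℚ) * u + (0 : ℚ) * v + (0 : ℚ) * (u * v)) = _
    simp

theorem lift_I {L : Type*} [Field L] [CharZero L] (u v : L) (hu : u * u = -1)
    (hv : v * v = v + 1) : lift u v hu hv I = u := by
  change (((0 : ℚ) : L) + (1 : ℚ) * u + (0 : ℚ) * v + (0 : ℚ) * (u * v)) = u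
  simp

theorem lift_φ {L : Type*} [Field L] [CharZero L] (u v : L) (hu : u * u = -1)
    (hv : v * v = v + 1) : lift u v hu hv φ = v := by
  change (((0 : ℚ) : L) + (0 : ℚ) * u + (1 : ℚ) * v + (0 : ℚ) * (u * v)) = v
  simp

theorem hom_ext {L : Type*} [Field L] [CharZero L] {f g : F →+* L} (hI : f I = g I)
    (hφ : f φ = g φ) : f = g := by
  ext x
  obtain ⟨a, b, c, d, rfl⟩ := exists_coord x
  simp [hI, hφ]

/-- The automorphism `I ↦ I`, `φ ↦ 1 - φ`. -/
noncomputable def τ : F ≃ₐ[ℚ] F :=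
  AlgEquiv.ofBijective (lift I (1 - φ) I_mul_I (by linear_combination φ_mul_φ))
    (AlgHom.bijective _)

/-- The automorphism `I ↦ -I`, `φ ↦ φ` (complex conjugation). -/
noncomputable def cj : F ≃ₐ[ℚ] F :=
  AlgEquiv.ofBijective (lift (-I) φ (by linear_combination I_mul_I) φ_mul_φ) (AlgHom.bijective _)

@[simp] theorem τ_I : τ I = I := lift_I I (1 - φ) I_mul_I (by linear_combination φ_mul_φ)

@[simp] theorem τ_φ : τ φ = 1 - φ := lift_φ I (1 - φ) I_mul_I (by linear_combination φ_mul_φ)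

@[simp] theorem cj_I : cj I = -I := lift_I (-I) φ (by linear_combination I_mul_I) φ_mul_φ

@[simp] theorem cj_φ : cj φ = φ := lift_φ (-I) φ (by linear_combination I_mul_I) φ_mul_φ

theorem τ_τ (x : F) : τ (τ x) = x := by
  obtain ⟨a, b, c, d, rfl⟩ := exists_coord x
  simp

theorem cj_cj (x : F) : cj (cj x) = x := by
  obtain ⟨a, b, c, d, rfl⟩ := exists_coord x
  simp

theorem cj_τ (x : F) : cj (τ x) = τ (cj x) := by
  obtain ⟨a, b, c, d, rfl⟩ := exists_coord x
  simp

theorem I_ne_zero : I ≠ 0 := fun h => by simpa [h] using I_mul_I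

theorem φ_mul_sub : φ * (φ - 1) = 1 := by linear_combination φ_mul_φ

theorem φ_ne_zero : φ ≠ 0 := fun h => by simpa [h] using φ_mul_sub

theorem φ_inv : φ⁻¹ = φ - 1 := inv_eq_of_mul_eq_one_right φ_mul_sub

theorem I_inv : I⁻¹ = -I := inv_eq_of_mul_eq_one_right (by linear_combination -I_mul_I)

/-- `τ (-φ) = (-φ) b²` with `b = I / φ`. -/
theorem τ_n : τ (-φ) = (-φ) * (I / φ) ^ 2 := by
  rw [div_eq_mul_inv, φ_inv, map_neg, τ_φ]
  linear_combination (φ * (φ - 1) ^ 2) * I_mul_I + (1 - φ) * φ_mul_φ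

/-! ### Non-squares -/

theorem not_sq_φ : ¬ IsSquare φ := by
  rintro ⟨s, hs⟩
  have h1 : cj s * cj s = s * s := by rw [← map_mul, ← hs, cj_φ]
  have h2 : τ s * τ s = 1 - φ := by rw [← map_mul, ← hs, τ_φ]
  have hm : (s * τ s) * (s * τ s) = I * I := by
    linear_combination (τ s * τ s) * (-hs) + φ * h2 - φ_mul_φ - I_mul_I
  have hc : cj (s * τ s) = s * τ s := by
    rw [map_mul, cj_τ]
    rcases mul_self_eq_mul_self_iff.1 h1 with h | h <;> simp [h]
  rcases mul_self_eq_mul_self_iff.1 hm with h | h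
  · rw [h, cj_I] at hc
    exact I_ne_zero (by linear_combination (-1 / 2 : F) * hc)
  · rw [h, map_neg, cj_I] at hc
    exact I_ne_zero (by linear_combination (1 / 2 : F) * hc)

theorem not_sq_Iφ : ¬ IsSquare (I * φ) := by
  rintro ⟨s, hs⟩
  have h1 : cj s * cj s = (I * s) * (I * s) := by
    rw [← map_mul, ← hs, map_mul, cj_φ, cj_I]
    linear_combination (-1) * hs - (s * s) * I_mul_I
  have h2 : τ s * τ s = I * (1 - φ) := by rw [← map_mul, ← hs, map_mul, τ_φ, τ_I]
  have hm : (s * τ s) * (s * τ s) = 1 * 1 := by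
    linear_combination (τ s * τ s) * (-hs) + I * φ * h2 - I * I * φ_mul_φ - I_mul_I
  have hc : cj (s * τ s) = -(s * τ s) := by
    rw [map_mul, cj_τ]
    rcases mul_self_eq_mul_self_iff.1 h1 with h | h
    · rw [h, map_mul, τ_I]
      linear_combination (s * τ s) * I_mul_I
    · rw [h, map_neg, map_mul, τ_I]
      linear_combination (s * τ s) * I_mul_I
  rcases mul_self_eq_mul_self_iff.1 hm with h | h
  · rw [h, map_one] at hc
    norm_num at hc
  · rw [h, map_neg, map_one] at hc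
    norm_num at hc

theorem not_sq_I : ¬ IsSquare I := by
  rintro ⟨s, hs⟩
  obtain ⟨a, b, c, d, rfl⟩ := exists_mk4 s
  rw [mk4_mul, I] at hs
  obtain ⟨h1, h2, h3, h4⟩ := mk4_inj hs
  have n2 : ¬ IsSquare (2 : ℚ) := by
    rw [Rat.isSquare_ofNat_iff]
    exact not_sq_nat 2 1 (by norm_num) (by norm_num)
  have n10 : ¬ IsSquare (10 : ℚ) := by
    rw [Rat.isSquare_ofNat_iff]
    exact not_sq_nat 10 3 (by norm_num) (by norm_num)
  have hx : mk4 a 0 c 0 * mk4 a 0 c 0 = mk4 b 0 d 0 * mk4 b 0 d 0 := by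
    rw [mk4_mul, mk4_mul]
    congr 1 <;> linarith
  have key : ∀ e : ℚ, (e = 1 ∨ e = -1) → 2 * (a * a + c * c) = e → c * (2 * a + c) = 0 → False := by
    intro e he k1 k2
    have hpos : e = 1 := by
      rcases he with he | he
      · exact he
      · nlinarith [mul_self_nonneg a, mul_self_nonneg c]
    rcases mul_eq_zero.1 k2 with k | k
    · exact n2 ⟨2 * a, by rw [k] at k1; nlinarith⟩
    · have : c = -2 * a := by linarith
      exact n10 ⟨10 * a, by rw [this] at k1; nlinarith⟩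
  rcases mul_self_eq_mul_self_iff.1 hx with h | h
  · obtain ⟨rfl, -, rfl, -⟩ := mk4_inj h
    exact key 1 (Or.inl rfl) (by linarith) (by linarith)
  · have h' : mk4 a 0 c 0 = mk4 (-b) 0 (-d) 0 := by
      rw [h, mk4_eq, mk4_eq]
      push_cast
      ring
    obtain ⟨rfl, -, rfl, -⟩ := mk4_inj h'
    exact key (-1) (Or.inr rfl) (by linarith) (by linarith)

/-! ### Integrality, discriminant, class number -/

theorem isInt_I : IsIntegral ℤ I := by
  refine ⟨Polynomial.X ^ 2 + 1, by monicity!, ?_⟩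
  simp [I_sq]

theorem isInt_φ : IsIntegral ℤ φ := by
  refine ⟨Polynomial.X ^ 2 - Polynomial.X - 1, by monicity!, ?_⟩
  simp [φ_sq]

/-- `I` as an algebraic integer. -/
noncomputable def Io : 𝓞 F := ⟨I, isInt_I⟩

/-- `φ` as an algebraic integer. -/
noncomputable def φo : 𝓞 F := ⟨φ, isInt_φ⟩

@[simp] theorem coe_Io : ((Io : 𝓞 F) : F) = I := rfl

@[simp] theorem coe_φo : ((φo : 𝓞 F) : F) = φ := rfl

theorem Io_mul : Io * Io = -1 := by
  apply RingOfIntegers.coe_injective
  simpa using I_mul_I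

theorem φo_mul : φo * φo = φo + 1 := by
  apply RingOfIntegers.coe_injective
  simpa using φ_mul_φ

theorem tr_one : Algebra.trace ℚ F 1 = 4 := by
  have := Algebra.trace_algebraMap (R := ℚ) (S := F) 1
  rw [map_one, finrank_F] at this
  simpa using this

theorem tr_I : Algebra.trace ℚ F I = 0 := by
  have := Algebra.trace_eq_of_algEquiv cj I
  rw [cj_I, map_neg] at this
  linarith

theorem tr_φ : Algebra.trace ℚ F φ = 2 := by
  have := Algebra.trace_eq_of_algEquiv τ φ
  rw [τ_φ, map_sub, tr_one] at this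
  linarith

theorem tr_Iφ : Algebra.trace ℚ F (I * φ) = 0 := by
  have := Algebra.trace_eq_of_algEquiv cj (I * φ)
  rw [map_mul, cj_I, cj_φ, neg_mul, map_neg] at this
  linarith

theorem tr_mk4 (a b c d : ℚ) : Algebra.trace ℚ F (mk4 a b c d) = 4 * a + 2 * c := by
  rw [mk4_eq]
  have e : (a : F) + b * I + c * φ + d * (I * φ) = a • (1 : F) + b • I + c • φ + d • (I * φ) := by
    simp [Rat.smul_def]
  rw [e]
  simp only [map_add, map_smul, tr_one, tr_I, tr_φ, tr_Iφ, smul_eq_mul]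
  ring

theorem discr_vec : Algebra.discr ℚ vec = 400 := by
  have e : vec = ![mk4 1 0 0 0, mk4 0 1 0 0, mk4 0 0 1 0, mk4 0 0 0 1] := by
    funext i
    fin_cases i <;> simp [vec, mk4_eq]
  have : Algebra.traceMatrix ℚ vec = !![4, 0, 2, 0; 0, -4, 0, -2; 2, 0, 6, 0; 0, -2, 0, -6] := by
    ext i j
    rw [Algebra.traceMatrix_apply, Algebra.traceForm_apply, e]
    fin_cases i <;> fin_cases j <;> simp [mk4_mul, tr_mk4] <;> norm_num
  rw [Algebra.discr_def, this]
  simp [Matrix.det_succ_row_zero, Fin.sum_univ_succ, Fin.succAbove]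
  norm_num

theorem abs_discr_le : |discr F| ≤ 400 := by
  classical
  have hc : Fintype.card (Free.ChooseBasisIndex ℤ (𝓞 F)) = Fintype.card (Fin 4) := by
    rw [← finrank_eq_card_chooseBasisIndex, RingOfIntegers.rank, finrank_F, Fintype.card_fin]
  let b : Basis (Fin 4) ℤ (𝓞 F) := (RingOfIntegers.basis F).reindex (Fintype.equivOfCardEq hc)
  let v : Fin 4 → 𝓞 F := ![1, Io, φo, Io * φo]
  have hb : Algebra.discr ℤ b = discr F := discr_eq_discr F b
  have hv : v = Matrix.vecMul b ((b.toMatrix v).map (algebraMap ℤ (𝓞 F))) :=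
    (b.toMatrix_map_vecMul v).symm
  have h1 : Algebra.discr ℤ v = (b.toMatrix v).det ^ 2 * discr F := by
    conv_lhs => rw [hv]
    rw [Algebra.discr_of_matrix_vecMul, hb]
  have h2 : ((Algebra.discr ℤ v : ℤ) : ℚ) = Algebra.discr ℚ vec := by
    rw [Algebra.discr_def, Algebra.discr_def]
    change (Int.castRingHom ℚ) _ = _
    rw [RingHom.map_det]
    congr 1
    ext i j
    simp only [RingHom.mapMatrix_apply, Matrix.map_apply, Algebra.traceMatrix_apply,
      Algebra.traceForm_apply, eq_intCast]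
    rw [Algebra.coe_trace_int]
    congr 1
    fin_cases i <;> fin_cases j <;> simp [v, vec]
  rw [discr_vec] at h2
  have h3 : Algebra.discr ℤ v = 400 := by exact_mod_cast h2
  rw [h3] at h1
  have h4 : discr F ∣ 400 := Dvd.intro_left _ h1.symm
  exact Int.le_of_dvd (by norm_num) ((abs_dvd _ _).2 h4)

theorem nrReal : InfinitePlace.nrRealPlaces F = 0 := by
  have h : IsPrimitiveRoot I 4 := by
    have := IsPrimitiveRoot.mk_of_lt I (k := 4) (by norm_num)
      (by linear_combination (I ^ 2 - 1) * I_sq) (fun l h0 h4 h => by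
        interval_cases l
        · have := I_sq
          rw [pow_one] at h
          rw [h] at this
          norm_num at this
        · rw [I_sq] at h
          norm_num at h
        · have h' : I = -1 := by linear_combination -h + I * I_sq
          have := I_sq
          rw [h'] at this
          norm_num at this)
    exact this
  exact InfinitePlace.IsPrimitiveRoot.nrRealPlaces_eq_zero_of_two_lt (by norm_num) h

theorem nrComplex : InfinitePlace.nrComplexPlaces F = 2 := by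
  have := InfinitePlace.card_add_two_mul_card_eq_rank F
  rw [nrReal, finrank_F] at this
  omega

theorem no_small (J : Ideal (𝓞 F)) (p : ℕ) (hp : p = 2 ∨ p = 3) : Ideal.absNorm J ≠ p := by
  intro h
  have hpp : p.Prime := by rcases hp with rfl | rfl <;> norm_num
  rw [Ideal.absNorm_apply, Submodule.cardQuot_apply] at h
  have : Finite (𝓞 F ⧸ J) := Nat.finite_of_card_ne_zero (by rw [h]; exact hpp.ne_zero)
  have := Fintype.ofFinite (𝓞 F ⧸ J)
  have e := ZMod.ringEquivOfPrime (𝓞 F ⧸ J) hpp (by rw [← Nat.card_eq_fintype_card, h])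
  let f : 𝓞 F →+* ZMod p := e.symm.toRingHom.comp (Ideal.Quotient.mk J)
  have h1 : f Io * f Io = -1 := by rw [← map_mul, Io_mul]; simp
  have h2 : f φo * f φo = f φo + 1 := by rw [← map_mul, φo_mul]; simp
  rcases hp with rfl | rfl
  · generalize f φo = x at h2
    revert x
    decide
  · generalize f Io = x at h1
    revert x
    decide

/-- `F` has class number one. -/
theorem pid : IsPrincipalIdealRing (𝓞 F) := by
  refine RingOfIntegers.isPrincipalIdealRing_of_isPrincipal_of_norm_le (fun J hJ => ?_)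
  rw [nrComplex, finrank_F] at hJ
  have hd : √|((discr F : ℤ) : ℝ)| ≤ 20 := by
    rw [Real.sqrt_le_left (by norm_num)]
    have := abs_discr_le
    have h2 : ((|discr F| : ℤ) : ℝ) ≤ ((400 : ℤ) : ℝ) := by exact_mod_cast this
    push_cast at h2
    linarith
  have hpi : (4 / Real.pi) ^ 2 ≤ 16 / 9 := by
    have := Real.pi_gt_three
    rw [div_pow, div_le_div_iff₀ (by positivity) (by norm_num)]
    nlinarith
  have hlt : ((Ideal.absNorm (J : Ideal (𝓞 F)) : ℕ) : ℝ) < 4 := by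
    refine hJ.trans_lt ?_
    have h0 : (0 : ℝ) ≤ √|((discr F : ℤ) : ℝ)| := Real.sqrt_nonneg _
    have h1 : (0 : ℝ) ≤ (4 / Real.pi) ^ 2 := by positivity
    norm_num [Nat.factorial]
    nlinarith
  have hlt' : Ideal.absNorm (J : Ideal (𝓞 F)) < 4 := by exact_mod_cast hlt
  have h0 := Ideal.absNorm_ne_zero_of_nonZeroDivisors J
  have h2 := no_small J 2 (Or.inl rfl)
  have h3 := no_small J 3 (Or.inr rfl)
  rw [Ideal.absNorm_eq_one_iff.1 (by omega : Ideal.absNorm (J : Ideal (𝓞 F)) = 1)]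
  exact top_isPrincipal

/-! ### Units modulo squares -/

theorem unit_rank : Units.rank F = 1 := by
  rw [Units.rank, InfinitePlace.card_eq_nrRealPlaces_add_nrComplexPlaces, nrReal, nrComplex]

theorem exists_class : ∃ cl : (𝓞 F)ˣ → ZMod 2 × ZMod 2,
    ∀ u v, cl u = cl v → IsSquare (u * v) := by
  obtain ⟨g, hg⟩ := IsCyclic.exists_generator (α := Units.torsion F)
  have h : ∀ u : (𝓞 F)ˣ, ∃ a b : ℤ,
      u = (g : (𝓞 F)ˣ) ^ a * (Units.fundSystem F ⟨0, by rw [unit_rank]; norm_num⟩) ^ b := by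
    intro u
    obtain ⟨⟨z, e⟩, hu, -⟩ := Units.exist_unique_eq_mul_prod F u
    obtain ⟨a, ha⟩ := hg z
    refine ⟨a, e ⟨0, by rw [unit_rank]; norm_num⟩, ?_⟩
    have : Unique (Fin (Units.rank F)) := by rw [unit_rank]; infer_instance
    rw [hu, Fintype.prod_subsingleton _ ⟨0, by rw [unit_rank]; norm_num⟩, ← ha]
    simp
  choose a b hab using h
  refine ⟨fun u => ((a u : ZMod 2), (b u : ZMod 2)), fun u v huv => ?_⟩
  simp only [Prod.mk.injEq] at huv
  obtain ⟨k, hk⟩ := (ZMod.intCast_eq_intCast_iff_dvd_sub _ _ 2).1 huv.1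
  obtain ⟨l, hl⟩ := (ZMod.intCast_eq_intCast_iff_dvd_sub _ _ 2).1 huv.2
  refine ⟨(g : (𝓞 F)ˣ) ^ (a u + k) *
    (Units.fundSystem F ⟨0, by rw [unit_rank]; norm_num⟩) ^ (b u + l), ?_⟩
  conv_lhs => rw [hab u, hab v]
  rw [mul_mul_mul_comm, mul_mul_mul_comm (_ ^ (a u + k)), ← zpow_add, ← zpow_add, ← zpow_add,
    ← zpow_add]
  congr 2
  · push_cast at hk; linarith
  · push_cast at hl; linarith

/-- `I` as a unit. -/
noncomputable def Iu : (𝓞 F)ˣ := ⟨Io, -Io, by linear_combination -Io_mul, by linear_combination -Io_mul⟩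

/-- `φ` as a unit. -/
noncomputable def φu : (𝓞 F)ˣ :=
  ⟨φo, φo - 1, by linear_combination φo_mul, by linear_combination φo_mul⟩

/-- Every unit is a square times `1`, `I`, `φ` or `I φ`. -/
theorem unit_sq (u : (𝓞 F)ˣ) : IsSquare ((u : 𝓞 F) : F) ∨ IsSquare (((u : 𝓞 F) : F) * I) ∨
    IsSquare (((u : 𝓞 F) : F) * φ) ∨ IsSquare (((u : 𝓞 F) : F) * (I * φ)) := by
  obtain ⟨cl, hcl⟩ := exists_class
  have hF : ∀ u v, cl u = cl v → IsSquare (((u : 𝓞 F) : F) * ((v : 𝓞 F) : F)) := by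
    intro u v h
    obtain ⟨s, hs⟩ := hcl u v h
    refine ⟨((s : 𝓞 F) : F), ?_⟩
    have := congrArg (fun x : (𝓞 F)ˣ => ((x : 𝓞 F) : F)) hs
    simpa using this
  have c1 : (((1 : (𝓞 F)ˣ) : 𝓞 F) : F) = 1 := by simp
  have cI : ((Iu : 𝓞 F) : F) = I := rfl
  have cφ : ((φu : 𝓞 F) : F) = φ := rfl
  have cIφ : (((Iu * φu : (𝓞 F)ˣ) : 𝓞 F) : F) = I * φ := rfl
  have n12 : cl 1 ≠ cl Iu := fun h => not_sq_I (by simpa [cI] using hF _ _ h)
  have n13 : cl 1 ≠ cl φu := fun h => not_sq_φ (by simpa [cφ] using hF _ _ h)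
  have n14 : cl 1 ≠ cl (Iu * φu) := fun h => not_sq_Iφ (by
    have := hF _ _ h
    rwa [c1, cIφ, one_mul] at this)
  have n23 : cl Iu ≠ cl φu := fun h => not_sq_Iφ (hF _ _ h)
  have n24 : cl Iu ≠ cl (Iu * φu) := fun h => not_sq_φ (by
    obtain ⟨s, hs⟩ := hF _ _ h
    rw [cI, cIφ] at hs
    exact ⟨I * s, by linear_combination (I * I) * hs + φ * (1 - I * I) * I_mul_I⟩)
  have n34 : cl φu ≠ cl (Iu * φu) := fun h => not_sq_I (by
    obtain ⟨s, hs⟩ := hF _ _ h
    rw [cφ, cIφ] at hs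
    exact ⟨s * (φ - 1), by
      linear_combination (φ - 1) ^ 2 * hs - I * (φ * φ - φ + 1) * φ_mul_φ⟩)
  have : cl u = cl 1 ∨ cl u = cl Iu ∨ cl u = cl φu ∨ cl u = cl (Iu * φu) := by
    by_contra hne
    push Not at hne
    obtain ⟨m1, m2, m3, m4⟩ := hne
    have hc := Finset.card_le_univ ({cl u, cl 1, cl Iu, cl φu, cl (Iu * φu)} : Finset _)
    rw [Finset.card_insert_of_notMem (by simp [m1, m2, m3, m4]),
      Finset.card_insert_of_notMem (by simp [n12, n13, n14]),
      Finset.card_insert_of_notMem (by simp [n23, n24]),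
      Finset.card_insert_of_notMem (by simp [n34])] at hc
    simp at hc
  rcases this with h | h | h | h
  · exact Or.inl (by simpa using hF _ _ h)
  · exact Or.inr (Or.inl (hF _ _ h))
  · exact Or.inr (Or.inr (Or.inl (hF _ _ h)))
  · exact Or.inr (Or.inr (Or.inr (hF _ _ h)))

end Crest.Agent.T15.Cv
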