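import Crest.Agent.T15.HtDef_95

/-!
# Row 15, block Ht (helper53): the sizes of the constants of the normal form on `Cert`
-/

set_option autoImplicit false
set_option linter.all false

noncomputable section

namespace Crest.Agent.T15.Cv53

open Crest.Agent.T15.Mo (Par)
open Crest.Agent.T15.Ar (Cert)

/-- the constant -/
def K : ℝ := 21547

theorem K4 : (4 : ℝ) ≤ K := by norm_num [K]
theorem K1 : (1 : ℝ) ≤ K := by norm_num [K]
theorem K0 : (0 : ℝ) < K := by norm_num [K]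

/-- upper bound -/
def U (T : ℝ) (e n : ℕ) (x : ℂ) : Prop := ‖x‖ ≤ K ^ e * T ^ n
/-- two-sided bound -/
def G (T : ℝ) (e n : ℕ) (x : ℂ) : Prop := ‖x‖ ≤ K ^ e * T ^ n ∧ T ^ n ≤ K ^ e * ‖x‖

variable {T : ℝ} {e f g n m : ℕ} {x y : ℂ}

theorem U.mul (hx : U T e n x) (hy : U T f m y) : U T (e + f) (n + m) (x * y) := by
  unfold U at *
  rw [norm_mul, pow_add, pow_add, mul_mul_mul_comm]
  exact mul_le_mul hx hy (norm_nonneg _) ((norm_nonneg _).trans hx)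

theorem U.add (hT : 0 < T) (hx : U T e n x) (hy : U T e n y) : U T (e + 1) n (x + y) := by
  unfold U at *
  have h0 : 0 ≤ K ^ e * T ^ n := (norm_nonneg _).trans hx
  have := norm_add_le x y
  have h4 := K4
  rw [pow_succ]
  nlinarith

theorem U.neg (hx : U T e n x) : U T e n (-x) := by unfold U at *; rwa [norm_neg]

theorem U.sub (hT : 0 < T) (hx : U T e n x) (hy : U T e n y) : U T (e + 1) n (x - y) := by
  rw [sub_eq_add_neg]; exact hx.add hT hy.neg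

theorem U.mono (hT : 0 < T) (hx : U T e n x) (h : e ≤ f) : U T f n x := by
  unfold U at *
  exact hx.trans (mul_le_mul_of_nonneg_right (pow_le_pow_right₀ K1 h) (by positivity))

theorem U.sqrt (hT : 0 < T) (hx : U T (2 * e) (2 * n) (x ^ 2)) : U T e n x := by
  unfold U at *
  have := K0
  refine (pow_le_pow_iff_left₀ (norm_nonneg _) (by positivity) two_ne_zero).1 ?_
  rw [norm_pow] at hx
  refine hx.trans (le_of_eq ?_)
  ring

theorem G.u (hx : G T e n x) : U T e n x := hx.1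

theorem G.neg (hx : G T e n x) : G T e n (-x) := by unfold G at *; rwa [norm_neg]

theorem G.mul (hT : 0 < T) (hx : G T e n x) (hy : G T f m y) : G T (e + f) (n + m) (x * y) := by
  refine ⟨hx.u.mul hy.u, ?_⟩
  rw [norm_mul, pow_add, pow_add, mul_mul_mul_comm]
  have := K0
  exact mul_le_mul hx.2 hy.2 (by positivity) (by positivity)

theorem G.mono (hT : 0 < T) (hx : G T e n x) (h : e ≤ f) : G T f n x :=
  ⟨hx.u.mono hT h, hx.2.trans (mul_le_mul_of_nonneg_right (pow_le_pow_right₀ K1 h) (norm_nonneg _))⟩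

theorem lo_of (hT : 0 < T) (hy : U T f m y) (h : T ^ (n + m) ≤ K ^ g * ‖x * y‖) :
    T ^ n ≤ K ^ (g + f) * ‖x‖ := by
  unfold U at hy
  have := K0
  rw [norm_mul, pow_add] at h
  refine le_of_mul_le_mul_right (h.trans ?_) (pow_pos hT m)
  calc K ^ g * (‖x‖ * ‖y‖) ≤ K ^ g * (‖x‖ * (K ^ f * T ^ m)) := by gcongr
    _ = _ := by ring

theorem G.cancel (hT : 0 < T) (h : G T e (n + m) (x * y)) (hy : G T f m y) : G T (e + f) n x := by
  refine ⟨?_, lo_of hT hy.u h.2⟩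
  have := K0
  have h1 := h.1
  rw [norm_mul, pow_add] at h1
  refine le_of_mul_le_mul_right ?_ (pow_pos hT m)
  calc ‖x‖ * T ^ m ≤ ‖x‖ * (K ^ f * ‖y‖) := by gcongr; exact hy.2
    _ = K ^ f * (‖x‖ * ‖y‖) := by ring
    _ ≤ K ^ f * (K ^ e * (T ^ n * T ^ m)) := by gcongr
    _ = _ := by ring

theorem G.of_mul (hT : 0 < T) (hx : U T e n x) (hy : U T e m y) (h : G T g (n + m) (x * y)) :
    G T (g + e) n x := ⟨hx.mono hT (by omega), lo_of hT hy h.2⟩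

theorem G.int {p a : ℤ} (hp : 0 < p) (h : p ≤ |a| ∧ |a| ≤ 21547 * p) : G (p : ℝ) 1 1 (a : ℂ) := by
  have h1 : (p : ℝ) ≤ |(a : ℝ)| := by exact_mod_cast h.1
  have h2 : |(a : ℝ)| ≤ 21547 * p := by exact_mod_cast h.2
  have h3 : (0 : ℝ) < p := by exact_mod_cast hp
  unfold G K
  rw [Complex.norm_intCast]
  constructor <;> nlinarith

theorem G.two : G T 1 0 2 := by unfold G K; norm_num
theorem G.four : G T 1 0 4 := by unfold G K; norm_num

theorem G.fin (h : G T e 0 x) (he : e ≤ 19) (hT : 0 < T) : ‖x‖ ≤ K ^ 19 ∧ (K ^ 19)⁻¹ ≤ ‖x‖ := by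
  have h' := h.mono hT he
  have := K0
  refine ⟨by simpa using h'.1, ?_⟩
  rw [inv_le_iff_one_le_mul₀' (by positivity)]
  simpa using h'.2

/-- **the sizes** -/
theorem sizes {del : ℚ} {m p1 p2 p3 t D : ℤ} {P : Par ℂ} (h : Cert del m p1 p2 p3 t D)
    (hP : Ht.Is P p1 p2 p3 t) :
    (‖P.a1‖ ≤ K ^ 19 ∧ ‖P.a2‖ ≤ K ^ 19 ∧ ‖P.a3‖ ≤ K ^ 19) ∧
    ((K ^ 19)⁻¹ ≤ ‖P.a1‖ ∧ (K ^ 19)⁻¹ ≤ ‖P.a2‖ ∧ (K ^ 19)⁻¹ ≤ ‖P.a3‖) ∧
    ((K ^ 19)⁻¹ ≤ ‖P.a1 - P.a2‖ ∧ (K ^ 19)⁻¹ ≤ ‖P.a1 - P.a3‖ ∧ (K ^ 19)⁻¹ ≤ ‖P.a2 - P.a3‖) ∧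
    (‖Ht.Mx P 1 0‖ ≤ K ^ 6 ∧ ‖Ht.Mx P 1 2‖ ≤ K ^ 6) ∧
    ‖Sc3.kap P.p2 P.p3 P.al P.be‖ ^ 4 ≤ 64 * K ^ 26 * |(D : ℝ)| * (p2 : ℝ) ^ 4 * ‖P.c‖ ^ 2 := by
  have hT : (0 : ℝ) < p2 := by exact_mod_cast h.pos
  obtain ⟨s1, s3, t1, t2, t3⟩ := h.size
  have g1 : G p2 1 1 P.p1 := hP.h1 ▸ G.int h.pos s1
  have g2 : G p2 1 1 P.p2 := hP.h2 ▸ G.int h.pos (by rw [abs_of_pos h.pos]; have := h.pos; omega)
  have g3 : G p2 1 1 P.p3 := hP.h3 ▸ G.int h.pos s3
  have k1 : G p2 1 1 P.d1 := by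
    have := G.int h.pos t1; unfold Par.d1; rw [hP.h2, hP.h3]; exact_mod_cast this
  have k2 : G p2 1 1 P.d2 := by
    have := G.int h.pos t2; unfold Par.d2; rw [hP.h1, hP.h3]; exact_mod_cast this
  have k3 : G p2 1 1 P.d3 := by
    have := G.int h.pos t3; unfold Par.d3; rw [hP.h1, hP.h2]; exact_mod_cast this
  have ua : U p2 2 2 P.al := U.sqrt hT (by
    have := (((g2.u.mul g2.u).mul g2.u).mul k2.u).neg
    rw [P.al_sq]; convert this using 1; ring)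
  have ub : U p2 2 2 P.be := U.sqrt hT (by
    have := (((g3.u.mul g3.u).mul g3.u).mul k3.u)
    rw [P.be_sq]; convert this using 1; ring)
  have u1 : U p2 3 2 (P.al + P.be) := ua.add hT ub
  have u2 : U p2 3 2 (P.al - P.be) := ua.sub hT ub
  have gp : G p2 4 (2 + 2) ((P.al + P.be) * (P.al - P.be)) := by
    have := ((g1.mul hT g1).mul hT g1).mul hT k1
    rw [P.sq_sub]; convert this using 1; ring
  have v1 : G p2 7 2 (P.al + P.be) := G.of_mul hT u1 u2 gp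
  have v2 : G p2 7 2 (P.al - P.be) := G.of_mul hT u2 u1 (by rwa [mul_comm])
  have u3 : U p2 4 3 (P.al * P.p3 + P.be * P.p2) := (ua.mul g3.u).add hT (ub.mul g2.u)
  have u4 : U p2 4 3 (P.al * P.p3 - P.be * P.p2) := (ua.mul g3.u).sub hT (ub.mul g2.u)
  have gq : G p2 6 (3 + 3) ((P.al * P.p3 + P.be * P.p2) * (P.al * P.p3 - P.be * P.p2)) := by
    have := ((g2.mul hT g2).mul hT (g3.mul hT g3)).mul hT (g1.mul hT k1)
    rw [P.sq_sub2]; convert this using 1; ring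
  have v3 : G p2 10 3 (P.al * P.p3 + P.be * P.p2) := G.of_mul hT u3 u4 gq
  have v4 : G p2 10 3 (P.al * P.p3 - P.be * P.p2) := G.of_mul hT u4 u3 (by rwa [mul_comm])
  have a1 : G p2 (1 + 1) 0 P.a1 := G.cancel hT (y := P.d1) (m := 1) (by
    have : P.a1 * P.d1 = -P.p1 := by unfold Par.a1; have := P.d1_ne; field_simp
    rw [this]; exact g1.neg) k1
  have a2 : G p2 (1 + 1) 0 P.a2 := G.cancel hT (y := P.p1) (m := 1) (by
    have : P.a2 * P.p1 = -P.d1 := by unfold Par.a2; have := P.h1; field_simp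
    rw [this]; exact k1.neg) g1
  have a3 : G p2 (7 + 7) 0 P.a3 := G.cancel hT (y := P.al - P.be) (m := 2) (by
    have : P.a3 * (P.al - P.be) = P.al + P.be := by rw [P.a3_eq]; have := P.sub_ne; field_simp
    rw [this]; exact v1) v2
  have b12 : G p2 (3 + 2) 0 (P.a1 - P.a2) := G.cancel hT (y := P.p1 * P.d1) (m := 2) (by
    rw [P.a1_sub_a2]; exact ((G.four.mul hT g2).mul hT g3).neg) (g1.mul hT k1)
  have b31 : G p2 (11 + 8) 0 (P.a3 - P.a1) := G.cancel hT (y := (P.al - P.be) * P.d1) (m := 3) (by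
    rw [P.a3_sub_a1]; exact (G.two.mul hT v4).neg) (v2.mul hT k1)
  have b32 : G p2 (11 + 8) 0 (P.a3 - P.a2) := G.cancel hT (y := (P.al - P.be) * P.p1) (m := 3) (by
    rw [P.a3_sub_a2]; exact (G.two.mul hT v3).neg) (v2.mul hT g1)
  have q : ∀ {x p : ℂ}, U p2 2 2 x → G p2 1 1 p → U p2 5 0 (x / (2 * p ^ 2)) := by
    intro x p hx hp
    have g := G.two.mul hT (hp.mul hT hp)
    have := K0
    have n0 : 0 < ‖2 * (p * p)‖ := by
      have := g.2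
      by_contra hn
      have h0 : ‖2 * (p * p)‖ = 0 := le_antisymm (not_lt.1 hn) (norm_nonneg _)
      rw [h0, mul_zero] at this
      exact absurd this (not_le.2 (by positivity))
    unfold U at *
    rw [norm_div, sq p, div_le_iff₀ n0]
    calc ‖x‖ ≤ K ^ 2 * (p2 : ℝ) ^ 2 := hx
      _ ≤ K ^ 2 * (K ^ 3 * ‖2 * (p * p)‖) := by gcongr; exact g.2
      _ = _ := by ring
  have m1 := (q ua g2).add hT (q ub g3)
  have m2 := (q ua g2).sub hT (q ub g3)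
  refine ⟨⟨(a1.fin (by norm_num) hT).1, (a2.fin (by norm_num) hT).1, (a3.fin (by norm_num) hT).1⟩,
    ⟨(a1.fin (by norm_num) hT).2, (a2.fin (by norm_num) hT).2, (a3.fin (by norm_num) hT).2⟩,
    ⟨(b12.fin (by norm_num) hT).2, norm_sub_rev P.a3 P.a1 ▸ (b31.fin (by norm_num) hT).2,
      norm_sub_rev P.a3 P.a2 ▸ (b32.fin (by norm_num) hT).2⟩,
    ⟨by simpa [U, Ht.Mx] using m1, by simpa [U, Ht.Mx] using m2⟩, ?_⟩
  have hD : (D : ℂ) ≠ 0 := by exact_mod_cast h.D_ne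
  have hN : Sc3.Nf P.p1 P.p2 P.p3 (D : ℂ) P.t P.al P.be P.c P.a1 P.a2 P.a3 :=
    { sum := P.sum
      prod := by
        have := congrArg (Int.cast : ℤ → ℂ) h.prod
        rw [hP.h1, hP.h2, hP.h3, hP.ht]
        push_cast at this
        linear_combination this
      ne := mul_ne_zero hD (pow_ne_zero 2 P.ht)
      hal := by rw [P.hal]; ring
      hbe := P.hbe
      hc := rfl
      h1 := rfl
      h2 := rfl
      h3 := rfl }
  have e1 : Sc3.kap P.p2 P.p3 P.al P.be ^ 4 =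
      -(64 * D * P.c ^ 2 * (((P.a1 - P.a2) * (P.a1 - P.a2)) * P.a3 * (P.p2 * P.p2 * (P.p3 * P.p3)))) := by
    have := hN.T_eq.1
    have n2 := P.h2
    have n3 := P.h3
    rw [Sc3.T1, eq_comm, neg_eq_iff_eq_neg, div_eq_iff (mul_ne_zero (mul_ne_zero (by norm_num) hD) (pow_ne_zero 2 (mul_ne_zero n2 n3)))] at this
    rw [this]; ring
  have e2 := (((b12.u.mul b12.u).mul a3.u).mul (g3.u.mul g3.u))
  have e3 : ‖P.p2‖ = p2 := by rw [hP.h2, Complex.norm_intCast, abs_of_pos hT]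
  unfold U at e2
  rw [← norm_pow, e1, norm_neg]
  simp only [norm_mul, norm_pow, Complex.norm_intCast, Complex.norm_ofNat, e3] at e2 ⊢
  calc _ = 64 * |(D : ℝ)| * ‖P.c‖ ^ 2 * (p2 : ℝ) ^ 2 *
        (‖P.a1 - P.a2‖ * ‖P.a1 - P.a2‖ * ‖P.a3‖ * (‖P.p3‖ * ‖P.p3‖)) := by ring
    _ ≤ 64 * |(D : ℝ)| * ‖P.c‖ ^ 2 * (p2 : ℝ) ^ 2 * (K ^ 26 * (p2 : ℝ) ^ 2) := by
        gcongr
    _ = _ := by ring

end Crest.Agent.T15.Cv53
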