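import Crest.Agent.T15.CvS_53
import Crest.Agent.T15.AxD_14

/-!
# Row 15, block Ht (helper53): the covolume of the period lattice of the `A`-part
-/

set_option autoImplicit false
set_option linter.all false

noncomputable section

namespace Crest.Agent.T15.Cv53

open Matrix Filter Topology
open Crest.Agent.T15.Mo (Par)
open Crest.Agent.T15.Ar (Cert)
open Crest.Agent.T15.Ht

/-- `ri` as a linear map -/
def riL : (Fin 2 → ℂ) →ₗ[ℝ] (Fin 2 ⊕ Fin 2 → ℝ) where
  toFun := Hab.ri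
  map_add' x y := by ext i; rcases i with i | i <;> simp [Hab.ri]
  map_smul' c x := by ext i; rcases i with i | i <;> simp [Hab.ri]

theorem riL_ker : LinearMap.ker riL = ⊥ := by
  rw [LinearMap.ker_eq_bot']
  intro x hx
  ext i
  exact Complex.ext (congrFun hx (Sum.inl i)) (congrFun hx (Sum.inr i))

/-- a spanning family contains four vectors of nonzero determinant -/
theorem exists_four {ι : Type} [Fintype ι] (w : ι → Fin 2 → ℂ)
    (hw : Submodule.span ℝ (Set.range w) = ⊤) :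
    ∃ a : Fin 2 ⊕ Fin 2 → ι, rdet (w ∘ a) ≠ 0 := by
  classical
  obtain ⟨κ, a, ha, hs, hl⟩ := exists_linearIndependent' ℝ w
  have : Finite κ := Finite.of_injective a ha
  have := Fintype.ofFinite κ
  have hc : Fintype.card (Fin 2 ⊕ Fin 2) = Fintype.card κ := by
    rw [← finrank_span_eq_card hl, hs, hw, finrank_top, Ax.finrank_V]; simp
  obtain e := Fintype.equivOfCardEq hc
  refine ⟨a ∘ e, ?_⟩
  have h1 := (hl.comp e e.injective).map' riL riL_ker
  exact ((Matrix.isUnit_iff_isUnit_det _).1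
    ((Matrix.linearIndependent_rows_iff_isUnit
      (A := Matrix.of fun k => Hab.ri ((w ∘ a ∘ e) k))).1 h1)).ne_zero

theorem rdet_le (x : Fin 2 ⊕ Fin 2 → Fin 2 → ℂ) {r : ℝ} (h : ∀ i j, ‖x i j‖ ≤ r) :
    |rdet x| ≤ 24 * r ^ 4 := by
  have := Matrix.det_le (A := Matrix.of fun k => Hab.ri (x k)) (abv := AbsoluteValue.abs) (x := r)
    (fun i j => by
      rcases j with j | j
      · exact (Complex.abs_re_le_norm _).trans (h i j)
      · exact (Complex.abs_im_le_norm _).trans (h i j))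
  simpa [rdet, Nat.factorial] using this

variable (P : Par ℂ)

/-- the constant `kap` -/
abbrev kp : ℂ := Sc3.kap P.p2 P.p3 P.al P.be

theorem kp_ne : kp P ≠ 0 := mul_ne_zero (by norm_num) P.sub_ne2

theorem tr3 : Mx P 1 0 * Mx P 0 1 + Mx P 1 2 * Mx P 2 1 = 3 := by
  have h1 := P.h1; have h2 := P.h2; have h3 := P.h3
  have ha := P.hal; have hb := P.hbe
  have e : P.p2 = -P.p1 - P.p3 := by linear_combination P.sum
  simp only [Mx, Matrix.of_apply, Matrix.cons_val', Matrix.cons_val_zero, Matrix.cons_val_one,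
    Matrix.cons_val_two, Matrix.cons_val_fin_one, Matrix.head_cons, Matrix.tail_cons,
    Matrix.head_fin_const, Matrix.cons_val]
  field_simp
  linear_combination 2 * P.p3 ^ 3 * ha + 2 * P.p2 ^ 3 * hb - 2 * P.p2 ^ 3 * P.p3 ^ 3 * P.sum

theorem v3_eq : v3 P = ![Mx P 0 1 / kp P, 0, Mx P 2 1 / kp P] := by
  ext i
  rw [v3, Matrix.mulVec, dotProduct, Fin.sum_univ_three]
  fin_cases i <;> simp [v1, Mx, div_eq_mul_inv]

theorem emb_apply (x : Fin 2 → ℂ) :
    emb P x = ![x 1 * Mx P 0 1 / kp P, x 0 / kp P, x 1 * Mx P 2 1 / kp P] := by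
  show x 0 • v1 P + x 1 • v3 P = _
  rw [v3_eq]
  ext i
  fin_cases i <;> simp [v1, div_eq_mul_inv, mul_assoc]

/-- the projection on the plane -/
def prj : (Fin 3 → ℂ) →ₗ[ℝ] (Fin 2 → ℂ) where
  toFun v := ![kp P * (Mx P 1 0 * v 0 + Mx P 1 2 * v 2), kp P * v 1]
  map_add' x y := by ext i; fin_cases i <;> simp <;> ring
  map_smul' c x := by ext i; fin_cases i <;> simp <;> ring

theorem prj_apply (v : Fin 3 → ℂ) :
    prj P v = ![kp P * (Mx P 1 0 * v 0 + Mx P 1 2 * v 2), kp P * v 1] := rfl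

theorem emb_prj (v : Fin 3 → ℂ) : emb P (prj P v) = Mx P *ᵥ v := by
  have := kp_ne P
  rw [emb_apply, prj_apply]
  ext i
  fin_cases i <;> simp [Mx, Matrix.mulVec, dotProduct, Fin.sum_univ_three] <;> field_simp

theorem prj_emb (x : Fin 2 → ℂ) : prj P (emb P x) = ![3 * x 1, x 0] := by
  have := kp_ne P
  have h := tr3 P
  rw [emb_apply, prj_apply]
  ext i
  fin_cases i
  · simp only [Fin.zero_eta, Matrix.cons_val_zero, Matrix.cons_val_two, Matrix.tail_cons,
      Matrix.head_cons, Matrix.cons_val]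
    field_simp
    linear_combination x 1 * h
  · simp
    field_simp

theorem prj_surj : LinearMap.range (prj P) = ⊤ := by
  rw [LinearMap.range_eq_top]
  intro y
  refine ⟨emb P ![y 1, y 0 / 3], ?_⟩
  rw [prj_emb]
  ext i
  fin_cases i <;> simp
  ring

theorem emb_zero {x : Fin 2 → ℂ} (h : emb P x = 0) : x = 0 := by
  have := prj_emb P x
  rw [h, map_zero] at this
  ext i
  fin_cases i
  · simpa using (congrFun this 1).symm
  · simpa using (congrFun this 0).symm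

theorem emb_cont : Continuous (emb P) := by
  show Continuous fun x : Fin 2 → ℂ => x 0 • v1 P + x 1 • v3 P
  fun_prop

variable {P}

theorem mem_Lam (J : Jc P) {x : Fin 2 → ℂ} : x ∈ J.Lam ↔ J.ex (emb P x) = 0 := Iff.rfl

theorem discrete (J : Jc P) : DiscreteTopology J.Lam := by
  refine discreteTopology_of_isOpen_singleton_zero (isOpen_iff_mem_nhds.2 ?_)
  rintro _ rfl
  have ht : Tendsto (fun z : J.Lam => emb P z.1) (𝓝 0) (𝓝 0) := by
    have := ((emb_cont P).comp (continuous_subtype_val (p := fun x => x ∈ J.Lam))).tendsto 0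
    simpa [Function.comp_def] using this
  filter_upwards [ht.eventually (J.lt.exp.disc J.lt.dat)] with z hz
  exact Subtype.ext (emb_zero P (hz z.2))

/-- **leaf COV** -/
theorem covStmt (del : ℚ) : CovStmt del := by
  have k0 := K0
  have k1 := K1
  obtain ⟨B, hB⟩ := Ax.periods7 (K ^ 19) (ε := (K ^ 19)⁻¹) (by positivity)
  refine ⟨24 * (2 * K ^ 6) ^ 4 * (64 * K ^ 26) * B ^ 2, fun m p1 p2 p3 t D P J h hP => ?_⟩
  obtain ⟨⟨s1, s2, s3⟩, ⟨s4, s5, s6⟩, ⟨s7, s8, s9⟩, ⟨m1, m2⟩, hk⟩ := sizes h hP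
  obtain ⟨v, hv, hs, hb⟩ := hB P.c P.a1 P.a2 P.a3 s1 s2 s3 s4 s5 s6 s7 s8 s9 J.lt.dat J.lt.exp
  have hm : ∀ i, prj P (v i) ∈ J.Lam := fun i => by
    rw [mem_Lam, emb_prj, ← J.j_ex, hv, map_zero]
  have hw : Submodule.span ℝ (Set.range fun i => prj P (v i)) = ⊤ := by
    rw [show (fun i => prj P (v i)) = prj P ∘ v from rfl, Set.range_comp, ← Submodule.map_span, hs,
      Submodule.map_top, prj_surj]
  have := discrete J
  have : IsZLattice ℝ J.Lam :=
    ⟨top_le_iff.1 (hw ▸ Submodule.span_mono (by rintro _ ⟨i, rfl⟩; exact hm i))⟩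
  refine ⟨ZLattice.module_finite ℝ _, by rw [ZLattice.rank ℝ, Ax.finrank_V], ?_⟩
  obtain ⟨a, ha⟩ := exists_four _ hw
  refine ⟨_, fun i => hm (a i), ha, ?_⟩
  have hc : 0 < ‖P.c‖ := norm_pos_iff.2 P.c_ne
  have hB0 : 0 ≤ B := le_trans (by positivity) (hb 0)
  set r := Real.sqrt (B / ‖P.c‖) with hr
  have r2 : r ^ 2 = B / ‖P.c‖ := Real.sq_sqrt (by positivity)
  have hvr : ∀ i k, ‖v i k‖ ≤ r := fun i k => (norm_le_pi_norm _ k).trans
    (Real.le_sqrt_of_sq_le (by rw [le_div_iff₀ hc, mul_comm]; exact hb i))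
  have r0 : 0 ≤ r := Real.sqrt_nonneg _
  have k6 : 1 ≤ K ^ 6 := one_le_pow₀ k1
  have hx : ∀ i j, ‖prj P (v i) j‖ ≤ ‖kp P‖ * (2 * K ^ 6 * r) := fun i j => by
    rw [prj_apply]
    fin_cases j
    · simp only [Fin.zero_eta, Matrix.cons_val_zero, norm_mul]
      refine mul_le_mul_of_nonneg_left ((norm_add_le _ _).trans ?_) (norm_nonneg _)
      rw [norm_mul, norm_mul]
      have e1 := mul_le_mul m1 (hvr i 0) (norm_nonneg _) (by positivity)
      have e2 := mul_le_mul m2 (hvr i 2) (norm_nonneg _) (by positivity)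
      linarith
    · simp only [Fin.mk_one, Matrix.cons_val_one, Matrix.cons_val_zero, norm_mul]
      refine mul_le_mul_of_nonneg_left ((hvr i 1).trans ?_) (norm_nonneg _)
      nlinarith
  refine (rdet_le _ fun i j => hx (a i) j).trans ?_
  have r4 : r ^ 4 * ‖P.c‖ ^ 2 = B ^ 2 := by
    rw [show r ^ 4 = (r ^ 2) ^ 2 by ring, r2]; field_simp
  calc 24 * (‖kp P‖ * (2 * K ^ 6 * r)) ^ 4 = 24 * (2 * K ^ 6) ^ 4 * r ^ 4 * ‖kp P‖ ^ 4 := by ring
    _ ≤ 24 * (2 * K ^ 6) ^ 4 * r ^ 4 * (64 * K ^ 26 * |(D : ℝ)| * (p2 : ℝ) ^ 4 * ‖P.c‖ ^ 2) := by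
        gcongr
    _ = 24 * (2 * K ^ 6) ^ 4 * (64 * K ^ 26) * (r ^ 4 * ‖P.c‖ ^ 2) * |(D : ℝ)| * (p2 : ℝ) ^ 4 := by
        ring
    _ = _ := by rw [r4]

end Crest.Agent.T15.Cv53
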