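import Crest.Agent.T15.CgB_84
import Crest.Agent.R270.TSame1_927

/-!
# Row 15, block T (helper48): descent of smooth actions of `Aut ℂ` to `Gal(ℚ̄/ℚ)`

A subgroup `N` of `Aut ℂ` normalised by `Aut(ℂ/ℚ̄)` that contains the pointwise stabiliser of a
finite set contains `Aut(ℂ/K)` for a number field `K`.
-/

set_option autoImplicit false

noncomputable section

namespace Crest.Agent.T15.Desc

open Cardinal TensorProduct Crest.Agent.T15.Cg

theorem ext_alg (R K L : Type) [CommRing R] [Field K] [Field L] [IsAlgClosed K] [IsAlgClosed L]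
    [Algebra R K] [Algebra R L] [FaithfulSMul R K] [FaithfulSMul R L] (hR : #R ≤ ℵ₀)
    (hK : ℵ₀ < #K) (hKL : #K = #L) :
    ∃ e : K ≃+* L, ∀ r, e (algebraMap R K r) = algebraMap R L r := by
  have : Nontrivial R := RingHom.domain_nontrivial (algebraMap R K)
  obtain ⟨s, hs⟩ := exists_isTranscendenceBasis R K
  obtain ⟨t, ht⟩ := exists_isTranscendenceBasis R L
  have h1 := IsAlgClosed.cardinal_eq_cardinal_transcendence_basis_of_aleph0_lt' _ hs hR hK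
  have h2 := IsAlgClosed.cardinal_eq_cardinal_transcendence_basis_of_aleph0_lt' _ ht hR (hKL ▸ hK)
  obtain ⟨e⟩ := Cardinal.eq.1 (h1.symm.trans (hKL.trans h2))
  let := IsAlgClosed.isAlgClosure_of_transcendence_basis _ hs
  let := IsAlgClosed.isAlgClosure_of_transcendence_basis _ ht
  let e' : Algebra.adjoin R (Set.range ((↑) : s → K)) ≃ₐ[R]
      Algebra.adjoin R (Set.range ((↑) : t → L)) :=
    (hs.1.aevalEquiv.symm.trans (MvPolynomial.renameEquiv R e)).trans ht.1.aevalEquiv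
  refine ⟨IsAlgClosure.equivOfEquiv K L e'.toRingEquiv, fun r => ?_⟩
  have a1 : algebraMap R K r = algebraMap (Algebra.adjoin R (Set.range ((↑) : s → K))) K
    (algebraMap R _ r) := rfl
  rw [a1, IsAlgClosure.equivOfEquiv_algebraMap]
  exact congrArg (algebraMap (Algebra.adjoin R (Set.range ((↑) : t → L))) L) (e'.commutes r)

theorem ext_hom {R K L : Type} [CommRing R] [Field K] [Field L] [IsAlgClosed K] [IsAlgClosed L]
    (f : R →+* K) (g : R →+* L) (hf : Function.Injective f) (hg : Function.Injective g)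
    (hR : #R ≤ ℵ₀) (hK : ℵ₀ < #K) (hKL : #K = #L) : ∃ e : K ≃+* L, ∀ r, e (f r) = g r := by
  let := f.toAlgebra
  let := g.toAlgebra
  have : FaithfulSMul R K := (faithfulSMul_iff_algebraMap_injective R K).2 hf
  have : FaithfulSMul R L := (faithfulSMul_iff_algebraMap_injective R L).2 hg
  exact ext_alg R K L hR hK hKL

/-- two points of a countable ring with the same kernel are conjugate -/
theorem ext_ker {R : Type} [CommRing R] (hR : #R ≤ ℵ₀) (f g : R →+* ℂ)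
    (h : ∀ r, f r = 0 ↔ g r = 0) : ∃ σ : ℂ ≃+* ℂ, ∀ r, σ (f r) = g r := by
  have hk : RingHom.ker f = RingHom.ker g := Ideal.ext h
  obtain ⟨σ, hσ⟩ := ext_hom (RingHom.kerLift f)
    (Ideal.Quotient.lift (RingHom.ker f) g fun a ha => (h a).1 ha) (RingHom.kerLift_injective f)
    (RingHom.lift_injective_of_ker_le_ideal _ _ hk.ge)
    ((mk_le_of_surjective Ideal.Quotient.mk_surjective).trans hR)
    (by rw [mk_complex]; exact aleph0_lt_continuum) rfl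
  exact ⟨σ, fun r => hσ (Ideal.Quotient.mk _ r)⟩

variable {E : Type} [Field E] [CharZero E] [IsGalois ℚ E] (ι : E →+* ℂ)

lemma mk_E : #E ≤ ℵ₀ := mk_le_aleph0_iff.2 countable_E

lemma mk_poly (T : Finset ℂ) : #(MvPolynomial T E) ≤ ℵ₀ :=
  MvPolynomial.cardinalMk_le_max.trans (max_le (max_le mk_E mk_le_aleph0) le_rfl)

/-- an endomorphism of `ℂ` over `E` agrees with an automorphism on a finite set -/
theorem exists_agree (f : ℂ →+* ℂ) (hf : ∀ x, f (ι x) = ι x) (T : Finset ℂ) :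
    ∃ τ : ℂ ≃+* ℂ, (∀ x, τ (ι x) = ι x) ∧ ∀ a ∈ T, τ a = f a := by
  obtain ⟨τ, hτ⟩ := ext_ker (mk_poly (E := E) T) (MvPolynomial.eval₂Hom ι ((↑) : T → ℂ))
    (f.comp (MvPolynomial.eval₂Hom ι ((↑) : T → ℂ))) fun r => by
      rw [RingHom.comp_apply, map_eq_zero_iff f f.injective]
  refine ⟨τ, fun x => ?_, fun a ha => ?_⟩
  · simpa [hf] using hτ (MvPolynomial.C x)
  · simpa using hτ (MvPolynomial.X ⟨a, ha⟩)

/-- amalgam: two endomorphisms of `ℂ` over `E` with independent images -/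
theorem exists_amalg [IsAlgClosed E] (σ : ℂ ≃+* ℂ) (hσ : ∀ x, σ (ι x) = ι x) :
    ∃ (f₁ f₂ : ℂ →+* ℂ) (ρ : ℂ ≃+* ℂ), (∀ x, f₁ (ι x) = ι x) ∧ (∀ x, f₂ (ι x) = ι x) ∧
      (∀ a, ρ (f₁ a) = f₁ (σ a)) ∧ ∀ a, ρ (f₂ a) = f₂ a := by
  let := ι.toAlgebra
  have : IsDomain (ℂ ⊗[E] ℂ) := Crest.Agent.R270.TSame_927.isDomain_tensor
  let F := FractionRing (ℂ ⊗[E] ℂ)
  let K := AlgebraicClosure F
  let j : ℂ ⊗[E] ℂ →+* K := (algebraMap F K).comp (algebraMap _ F)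
  let l : ℂ →+* ℂ ⊗[E] ℂ := Algebra.TensorProduct.includeLeftRingHom
  let r : ℂ →+* ℂ ⊗[E] ℂ := (Algebra.TensorProduct.includeRight (R := E) (A := ℂ)).toRingHom
  have hD : #(ℂ ⊗[E] ℂ) ≤ 𝔠 := by
    have h : Function.Surjective fun S : Finset (ℂ × ℂ) => ∑ i ∈ S, i.1 ⊗ₜ[E] i.2 := fun x =>
      let ⟨S, hS⟩ := TensorProduct.exists_finset x
      ⟨S, hS.symm⟩
    refine (mk_le_of_surjective h).trans ?_
    rw [mk_finset_of_infinite]
    simp
  have hK : #K = 𝔠 := by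
    refine le_antisymm ((Algebra.IsAlgebraic.cardinalMk_le_max F K).trans
      (max_le ?_ aleph0_le_continuum)) ?_
    · rw [FractionRing.cardinalMk]; exact hD
    · rw [← mk_complex]; exact mk_le_of_injective (j.comp l).injective
  obtain ⟨ψ, hψ⟩ := ext_hom ((j.comp l).comp ι) ι (RingHom.injective _) ι.injective mk_E
    (by rw [hK]; exact aleph0_lt_continuum) (by rw [hK, mk_complex])
  let σE : ℂ ≃ₐ[E] ℂ := { σ with commutes' := hσ }
  let σD : ℂ ⊗[E] ℂ ≃ₐ[E] ℂ ⊗[E] ℂ := Algebra.TensorProduct.congr σE AlgEquiv.refl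
  let σF : F ≃+* F := IsFractionRing.ringEquivOfRingEquiv σD.toRingEquiv
  let σK : K ≃+* K := IsAlgClosure.equivOfEquiv K K σF
  have key : ∀ x, σK (j x) = j (σD x) := fun x => by
    change σK (algebraMap F K (algebraMap _ F x)) = algebraMap F K (algebraMap _ F (σD x))
    rw [IsAlgClosure.equivOfEquiv_algebraMap, IsFractionRing.ringEquivOfRingEquiv_algebraMap]
    rfl
  refine ⟨ψ.toRingHom.comp (j.comp l), ψ.toRingHom.comp (j.comp r), ψ.symm.trans (σK.trans ψ),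
    hψ, fun x => ?_, fun a => ?_, fun a => ?_⟩
  · refine Eq.trans ?_ (hψ x)
    change ψ (j ((1 : ℂ) ⊗ₜ[E] algebraMap E ℂ x)) = ψ (j (algebraMap E ℂ x ⊗ₜ[E] (1 : ℂ)))
    rw [Algebra.TensorProduct.tmul_one_eq_one_tmul]
  · change ψ (σK (ψ.symm (ψ (j (a ⊗ₜ[E] (1 : ℂ)))))) = ψ (j (σ a ⊗ₜ[E] (1 : ℂ)))
    rw [RingEquiv.symm_apply_apply, key]
    rfl
  · change ψ (σK (ψ.symm (ψ (j ((1 : ℂ) ⊗ₜ[E] a))))) = ψ (j ((1 : ℂ) ⊗ₜ[E] a))
    rw [RingEquiv.symm_apply_apply, key]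
    change ψ (j (σ 1 ⊗ₜ[E] a)) = _
    rw [map_one]

/-- rigidity -/
theorem rigid [IsAlgClosed E] (N : Subgroup (ℂ ≃+* ℂ))
    (hN : ∀ τ : ℂ ≃+* ℂ, (∀ x, τ (ι x) = ι x) → ∀ n ∈ N, τ * n * τ⁻¹ ∈ N) (S : Finset ℂ)
    (hS : ∀ σ : ℂ ≃+* ℂ, (∀ x, σ (ι x) = ι x) → (∀ a ∈ S, σ a = a) → σ ∈ N) (σ : ℂ ≃+* ℂ)
    (hσ : ∀ x, σ (ι x) = ι x) : σ ∈ N := by
  classical
  obtain ⟨f₁, f₂, ρ, h₁, h₂, hρ₁, hρ₂⟩ := exists_amalg ι σ hσ
  obtain ⟨τ₁, a₁, b₁⟩ := exists_agree ι f₁ h₁ (S ∪ S.image σ)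
  obtain ⟨τ₂, a₂, b₂⟩ := exists_agree ι f₂ h₂ S
  have inv : ∀ τ : ℂ ≃+* ℂ, (∀ x, τ (ι x) = ι x) → ∀ x, τ⁻¹ (ι x) = ι x := fun τ h x =>
    τ.symm_apply_eq.2 (h x).symm
  have hρ : ∀ x, ρ (ι x) = ι x := fun x => by rw [← h₂, hρ₂]
  have e1 : τ₂⁻¹ * ρ * τ₂ ∈ N := by
    refine hS _ (fun x => ?_) fun a ha => ?_
    · change τ₂⁻¹ (ρ (τ₂ (ι x))) = ι x
      rw [a₂, hρ, inv τ₂ a₂]
    · change τ₂.symm (ρ (τ₂ a)) = a
      rw [RingEquiv.symm_apply_eq, b₂ a ha, hρ₂]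
  have e2 : ρ ∈ N := by simpa [mul_assoc] using hN τ₂ a₂ _ e1
  have e3 : τ₁⁻¹ * ρ * τ₁ ∈ N := by simpa using hN τ₁⁻¹ (inv τ₁ a₁) _ e2
  have e4 : σ⁻¹ * (τ₁⁻¹ * ρ * τ₁) ∈ N := by
    refine hS _ (fun x => ?_) fun a ha => ?_
    · change σ⁻¹ (τ₁⁻¹ (ρ (τ₁ (ι x)))) = ι x
      rw [a₁, hρ, inv τ₁ a₁, inv σ hσ]
    · change σ.symm (τ₁.symm (ρ (τ₁ a))) = a
      rw [RingEquiv.symm_apply_eq, RingEquiv.symm_apply_eq,
        b₁ a (Finset.mem_union_left _ ha), hρ₁,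
        b₁ _ (Finset.mem_union_right _ (Finset.mem_image_of_mem _ ha))]
  have e5 := N.mul_mem e3 (N.inv_mem e4)
  rwa [mul_inv_rev, inv_inv, mul_inv_cancel_left] at e5

/-- the ideal of a finite set over `E` is defined over a number field -/
theorem exists_field (S : Finset ℂ) : ∃ K : IntermediateField ℚ E, FiniteDimensional ℚ K ∧
    IsGalois ℚ K ∧ ∀ σ : ℂ ≃+* ℂ, resA ι σ ∈ K.fixingSubgroup →
      ∃ τ : ℂ ≃+* ℂ, (∀ x, τ (ι x) = ι x) ∧ ∀ a ∈ S, τ a = σ a := by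
  classical
  let f : MvPolynomial S E →+* ℂ := MvPolynomial.eval₂Hom ι (↑)
  obtain ⟨T, hT⟩ := (isNoetherianRing_iff_ideal_fg _).1 inferInstance (RingHom.ker f)
  let c : Finset E := T.biUnion MvPolynomial.coeffs
  let K := (FiniteGaloisIntermediateField.adjoin ℚ (c : Set E)).toIntermediateField
  have hc : ∀ x ∈ c, x ∈ K := fun x hx => FiniteGaloisIntermediateField.subset_adjoin ℚ _ hx
  have st : ∀ g ∈ K.fixingSubgroup, ∀ p, f p = 0 →
      f (MvPolynomial.map (g : E →+* E) p) = 0 := fun g hg p hp => by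
    have h : RingHom.ker f ≤ (RingHom.ker f).comap (MvPolynomial.map (g : E →+* E)) := by
      conv_lhs => rw [← hT]
      refine Ideal.span_le.2 fun q hq => ?_
      have e : MvPolynomial.map (g : E →+* E) q = q := by
        ext m
        rw [MvPolynomial.coeff_map]
        by_cases h0 : q.coeff m = 0
        · rw [h0, map_zero]
        · exact (IntermediateField.mem_fixingSubgroup_iff _ _).1 hg _
            (hc _ (Finset.mem_biUnion.2 ⟨q, hq, MvPolynomial.coeff_mem_coeffs m h0⟩))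
      rw [SetLike.mem_coe, Ideal.mem_comap, e, ← hT]
      exact Ideal.subset_span hq
    exact h hp
  refine ⟨K, inferInstance, (FiniteGaloisIntermediateField.adjoin ℚ (c : Set E)).isGalois,
    fun σ hσ => ?_⟩
  let g : MvPolynomial S E →+* ℂ := MvPolynomial.eval₂Hom ι fun a => σ a
  have e : ∀ p, g (MvPolynomial.map (resA ι σ : E →+* E) p) = σ (f p) := fun p => by
    have : g.comp (MvPolynomial.map (resA ι σ : E →+* E)) = σ.toRingHom.comp f := by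
      ext x
      · simp [f, g, iota_resA]
      · simp [f, g]
    exact RingHom.congr_fun this p
  have e' : ∀ p : MvPolynomial S E, MvPolynomial.map (resA ι σ : E →+* E)
      (MvPolynomial.map ((resA ι σ)⁻¹ : E ≃ₐ[ℚ] E).toRingEquiv.toRingHom p) = p := fun p => by
    ext m
    rw [MvPolynomial.coeff_map, MvPolynomial.coeff_map]
    exact (resA ι σ).apply_symm_apply _
  have e'' : ∀ p, g p = σ (f (MvPolynomial.map
      ((resA ι σ)⁻¹ : E ≃ₐ[ℚ] E).toRingEquiv.toRingHom p)) := fun p => by rw [← e, e']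
  obtain ⟨τ, hτ⟩ := ext_ker (mk_poly (E := E) S) f g fun p => by
    rw [e'', map_eq_zero_iff σ σ.injective]
    refine ⟨fun h => st _ (K.fixingSubgroup.inv_mem hσ) p h, fun h => ?_⟩
    have := st _ hσ _ h
    rwa [e'] at this
  refine ⟨τ, fun x => ?_, fun a ha => ?_⟩
  · simpa [f, g] using hτ (MvPolynomial.C x)
  · simpa [f, g] using hτ (MvPolynomial.X ⟨a, ha⟩)

variable [IsAlgClosed E]

/-- **descent**, subgroup form -/
theorem desc_sub (N : Subgroup (ℂ ≃+* ℂ))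
    (hN : ∀ τ : ℂ ≃+* ℂ, (∀ x, τ (ι x) = ι x) → ∀ n ∈ N, τ * n * τ⁻¹ ∈ N) (S : Finset ℂ)
    (hS : ∀ σ : ℂ ≃+* ℂ, (∀ a ∈ S, σ a = a) → σ ∈ N) :
    ∃ K : IntermediateField ℚ E, FiniteDimensional ℚ K ∧ IsGalois ℚ K ∧
      ∀ σ : ℂ ≃+* ℂ, resA ι σ ∈ K.fixingSubgroup → σ ∈ N := by
  obtain ⟨K, h1, h2, h3⟩ := exists_field ι S
  refine ⟨K, h1, h2, fun σ hσ => ?_⟩
  obtain ⟨τ, a, b⟩ := h3 σ hσ
  have e1 := rigid ι N hN S (fun σ _ h => hS σ h) τ a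
  have e2 : τ⁻¹ * σ ∈ N := hS _ fun x hx => τ.symm_apply_eq.2 (b x hx).symm
  simpa using N.mul_mem e1 e2

/-- **descent** of a homomorphism to any monoid -/
theorem desc_hom {M : Type*} [Monoid M] (φ : (ℂ ≃+* ℂ) →* M) (S : Finset ℂ)
    (hS : ∀ σ : ℂ ≃+* ℂ, (∀ a ∈ S, σ a = a) → φ σ = 1) :
    ∃ ρ : (E ≃ₐ[ℚ] E) →* M, (∀ σ, ρ (resA ι σ) = φ σ) ∧ IsOpen (ρ.ker : Set (E ≃ₐ[ℚ] E)) ∧
      ∃ K : IntermediateField ℚ E, FiniteDimensional ℚ K ∧ IsGalois ℚ K ∧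
        K.fixingSubgroup ≤ ρ.ker := by
  obtain ⟨K, h1, h2, h3⟩ := desc_sub ι φ.ker
    (fun τ _ n hn => (MonoidHom.normal_ker φ).conj_mem n hn τ) S hS
  have wd : ∀ σ τ, resA ι σ = resA ι τ → φ σ = φ τ := fun σ τ h => by
    have : φ (τ⁻¹ * σ) = 1 := h3 _ (by rw [map_mul, map_inv, h, inv_mul_cancel]; exact one_mem _)
    rw [← mul_inv_cancel_left τ σ, map_mul, this, mul_one]
  have hs := resA_surjective ι
  let ρ : (E ≃ₐ[ℚ] E) →* M :=
    { toFun := fun g => φ (Function.surjInv hs g)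
      map_one' := by
        rw [wd _ 1 (by rw [Function.surjInv_eq hs, map_one]), map_one]
      map_mul' := fun g h => by
        rw [← map_mul]
        exact wd _ _ (by simp only [map_mul, Function.surjInv_eq hs]) }
  have hρ : ∀ σ, ρ (resA ι σ) = φ σ := fun σ => wd _ _ (Function.surjInv_eq hs _)
  have hK : K.fixingSubgroup ≤ ρ.ker := fun g hg => by
    obtain ⟨σ, rfl⟩ := hs g
    rw [MonoidHom.mem_ker, hρ]
    exact h3 σ hg
  exact ⟨ρ, hρ, Subgroup.isOpen_mono hK K.fixingSubgroup_isOpen, K, h1, h2, hK⟩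

omit [Field E] [CharZero E] [IsGalois ℚ E] [IsAlgClosed E] in
lemma exists_common {X : Type*} [Finite X] (p : X → (ℂ ≃+* ℂ) → Prop)
    (h : ∀ x, ∃ S : Finset ℂ, ∀ σ : ℂ ≃+* ℂ, (∀ a ∈ S, σ a = a) → p x σ) :
    ∃ S : Finset ℂ, ∀ σ : ℂ ≃+* ℂ, (∀ a ∈ S, σ a = a) → ∀ x, p x σ := by
  classical
  have := Fintype.ofFinite X
  choose S hS using h
  exact ⟨Finset.univ.biUnion S, fun σ hσ x => hS x σ fun a ha =>
    hσ a (Finset.mem_biUnion.2 ⟨x, Finset.mem_univ _, ha⟩)⟩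

/-- **descent** of an action on a finite set -/
theorem desc {X : Type*} [Finite X] [MulAction (ℂ ≃+* ℂ) X]
    (h : ∀ x : X, ∃ S : Finset ℂ, ∀ σ : ℂ ≃+* ℂ, (∀ a ∈ S, σ a = a) → σ • x = x) :
    ∃ ρ : (E ≃ₐ[ℚ] E) →* Equiv.Perm X, (∀ σ x, ρ (resA ι σ) x = σ • x) ∧
      IsOpen (ρ.ker : Set (E ≃ₐ[ℚ] E)) ∧
      ∃ K : IntermediateField ℚ E, FiniteDimensional ℚ K ∧ IsGalois ℚ K ∧
        K.fixingSubgroup ≤ ρ.ker := by
  obtain ⟨S, hS⟩ := exists_common _ h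
  obtain ⟨ρ, h1, h2⟩ := desc_hom ι (MulAction.toPermHom (ℂ ≃+* ℂ) X) S
    fun σ hσ => Equiv.ext (hS σ hσ)
  exact ⟨ρ, fun σ x => by rw [h1]; rfl, h2⟩

/-- **descent** of a linear action on a finitely generated module -/
theorem desc_end {O V : Type*} [CommSemiring O] [AddCommMonoid V] [Module O V] [Module.Finite O V]
    (φ : (ℂ ≃+* ℂ) →* Module.End O V)
    (h : ∀ v : V, ∃ S : Finset ℂ, ∀ σ : ℂ ≃+* ℂ, (∀ a ∈ S, σ a = a) → φ σ v = v) :
    ∃ ρ : (E ≃ₐ[ℚ] E) →* Module.End O V, (∀ σ, ρ (resA ι σ) = φ σ) ∧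
      IsOpen (ρ.ker : Set (E ≃ₐ[ℚ] E)) ∧
      ∃ K : IntermediateField ℚ E, FiniteDimensional ℚ K ∧ IsGalois ℚ K ∧
        K.fixingSubgroup ≤ ρ.ker := by
  obtain ⟨T, hT⟩ := Module.Finite.fg_top (R := O) (M := V)
  obtain ⟨S, hS⟩ := exists_common (X := T) (fun v σ => φ σ v = v) fun v => h v
  exact desc_hom ι φ S fun σ hσ => LinearMap.ext_on hT fun v hv => hS σ hσ ⟨v, hv⟩

end Crest.Agent.T15.Desc

end
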