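import Crest.Agent.T15.FlRay_38

/-!
# Row 15, block Fl: tame characters of the inertia group (helper38)
-/

set_option autoImplicit false

noncomputable section

namespace Crest.Agent.T15.FlR

open scoped NNReal

variable {Ω : Type*} [Field Ω] {w : Valuation Ω ℝ≥0} {G : Type*} [Group G] [MulSemiringAction G Ω]

/-- the subgroup `N` is cut out by its fixed points -/
def Clo (Ω : Type*) [Field Ω] {G : Type*} [Group G] [MulSemiringAction G Ω] (N : Subgroup G) : Prop :=
  ∀ g : G, (∀ y : Ω, (∀ u ∈ N, u • y = y) → g • y = y) → g ∈ N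

/-- Lagrange resolvent -/
theorem exists_resolvent (ψ : G →* Ωˣ) [ψ.ker.FiniteIndex] (hfix : ∀ g u : G, g • (ψ u : Ω) = ψ u)
    (hcl : Clo Ω ψ.ker) : ∃ x : Ω, x ≠ 0 ∧ ∀ g : G, g • x = ψ g * x := by
  classical
  let N := ψ.ker
  let M : Submonoid Ω :=
    { carrier := {y | ∀ u ∈ N, u • y = y}
      one_mem' := fun u _ => smul_one u
      mul_mem' := fun {a b} ha hb u hu => by rw [smul_mul', ha u hu, hb u hu] }
  have := Fintype.ofFinite (G ⧸ N)
  let χ : G ⧸ N → (M →* Ω) := fun q =>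
    (MulSemiringAction.toRingHom G Ω q.out).toMonoidHom.comp M.subtype
  have hχ : ∀ q (y : M), χ q y = q.out • (y : Ω) := fun _ _ => rfl
  have hinj : Function.Injective χ := by
    intro q q' h
    rw [← Quotient.out_eq q, ← Quotient.out_eq q']
    refine QuotientGroup.eq.mpr (hcl _ fun y hy => ?_)
    have := DFunLike.congr_fun h ⟨y, hy⟩
    rw [hχ, hχ] at this
    rw [mul_smul, inv_smul_eq_iff]
    exact this.symm
  have hli := (linearIndependent_monoidHom M Ω).comp χ hinj
  have hex : ∃ y : M, ∑ q : G ⧸ N, ((ψ q.out)⁻¹ : Ωˣ) * q.out • (y : Ω) ≠ 0 := by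
    by_contra hcon
    push Not at hcon
    have := Fintype.linearIndependent_iff.mp hli (fun q => ((ψ q.out)⁻¹ : Ωˣ)) (by
      ext y
      simpa [hχ] using hcon y) (1 : G ⧸ N)
    exact Units.ne_zero _ this
  obtain ⟨y, hy⟩ := hex
  refine ⟨_, hy, fun g => ?_⟩
  rw [Finset.smul_sum, Finset.mul_sum]
  refine Finset.sum_equiv (MulAction.toPerm g) (by simp) fun q _ => ?_
  obtain ⟨u, hu⟩ := QuotientGroup.mk_out_eq_mul N (g * q.out)
  have e : (MulAction.toPerm g q : G ⧸ N) = ((g * q.out : G) : G ⧸ N) := by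
    conv_lhs => rw [← QuotientGroup.out_eq' q]
    rfl
  have hu1 : ψ u = 1 := u.2
  rw [e, hu, mul_smul, mul_smul, y.2 u u.2, map_mul, map_mul, hu1, smul_mul', ← map_inv, hfix, map_inv]
  have h1 : (ψ g : Ω) ≠ 0 := Units.ne_zero _
  have h2 : (ψ q.out : Ω) ≠ 0 := Units.ne_zero _
  simp only [mul_one, Units.val_inv_eq_inv_val, Units.val_mul]
  field_simp

theorem w_eq_one_of_pow {u : Ω} {m : ℕ} (hm : m ≠ 0) (h : u ^ m = 1) : w u = 1 := by
  have := congrArg w h
  rw [map_pow, map_one] at this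
  exact (pow_eq_one_iff_of_nonneg zero_le hm).mp this

/-- roots of unity of unit order are distinct in the residue field -/
theorem eq_one_of_pow {u : Ω} {m : ℕ} (wm : w m = 1) (h : u ^ m = 1) (h1 : w (u - 1) < 1) : u = 1 := by
  have hm : m ≠ 0 := by rintro rfl; simp at wm
  by_contra hne
  have hg : ∑ i ∈ Finset.range m, u ^ i = 0 := by
    have := mul_geom_sum u m
    rw [h, sub_self] at this
    exact (mul_eq_zero.mp this).resolve_left (sub_ne_zero.mpr hne)
  have wu := w_eq_one_of_pow (w := w) hm h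
  have h2 : w (∑ i ∈ Finset.range m, (u ^ i - 1)) < 1 := by
    refine w.map_sum_lt one_ne_zero fun i _ => ?_
    rw [← geom_sum_mul, map_mul]
    refine (mul_le_of_le_one_left' (w.map_sum_le fun j _ => ?_)).trans_lt h1
    rw [map_pow, wu, one_pow]
  rw [Finset.sum_sub_distrib, hg] at h2
  simp [wm] at h2

namespace Tame

variable {m : ℕ} {π ζ : Ω} {τ : G} (T : Tame w m π ζ τ)
include T

theorem fix_root {u : Ω} (h : u ^ m = 1) (g : G) : g • u = u := by
  have : NeZero m := ⟨T.m_ne⟩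
  obtain ⟨i, -, rfl⟩ := T.prim.eq_pow_of_pow_eq_one h
  rw [smul_pow', T.fz]

/-- **(TAME)** a character of exponent `m` of the inertia group is a power of `g π / π` -/
theorem char_eq (hin : ∀ (g : G) (x : Ω), w x ≤ 1 → w (g • x - x) < 1) (ψ : G →* Ωˣ)
    (hm : ∀ g, ψ g ^ m = 1) (hcl : Clo Ω ψ.ker) :
    ∃ n : ℕ, n < m ∧ ∀ g : G, (ψ g : Ω) = (g • π / π) ^ n := by
  have : NeZero m := ⟨T.m_ne⟩
  have hm' : ∀ g, (ψ g : Ω) ^ m = 1 := fun g => by rw [← Units.val_pow_eq_pow_val, hm, Units.val_one]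
  have hfin : Finite ψ.range := by
    refine Finite.of_injective (fun x : ψ.range => (⟨x.1, ?_⟩ : rootsOfUnity m Ω)) ?_
    · obtain ⟨g, hg⟩ := x.2
      rw [mem_rootsOfUnity, ← hg, hm]
    · intro a b h
      exact Subtype.ext (congrArg (fun z : rootsOfUnity m Ω => z.1) h)
  have : ψ.ker.FiniteIndex := Subgroup.finiteIndex_ker ψ
  obtain ⟨x, hx0, hx⟩ := exists_resolvent ψ (fun g u => T.fix_root (hm' u) g) hcl
  obtain ⟨n, hn⟩ := T.disc (x ^ m) (fun g => by rw [smul_pow', hx, mul_pow, hm', one_mul])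
    (pow_ne_zero _ hx0)
  have hp := T.pi_ne
  have hwp : w π ≠ 0 := (map_ne_zero w).mpr hp
  have wx : w x = w π ^ n := by
    refine (pow_left_inj₀ zero_le zero_le T.m_ne).mp ?_
    rw [← map_pow, hn, ← T.wp, ← zpow_natCast, ← zpow_natCast, ← zpow_mul, ← zpow_mul, mul_comm]
  have hr : ∀ g : G, (g • π / π) ^ m = 1 := fun g => by
    rw [div_pow, ← smul_pow', T.fp, div_self (pow_ne_zero _ hp)]
  have hr0 : ∀ g : G, g • π / π ≠ 0 := fun g h => by
    have := hr g
    rw [h, zero_pow T.m_ne] at this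
    exact zero_ne_one this
  have key : ∀ g : G, (ψ g : Ω) = (g • π / π) ^ n := by
    intro g
    have hu : w (x / π ^ n) = 1 := by
      rw [map_div₀, map_zpow₀, wx, div_self (zpow_ne_zero _ hwp)]
    have h1 := hin g _ hu.le
    have e : g • (x / π ^ n) - x / π ^ n = (ψ g / (g • π / π) ^ n - 1) * (x / π ^ n) := by
      have h0 : g • π ≠ 0 := fun h => hr0 g (by rw [h, zero_div])
      have h2 := zpow_ne_zero n h0
      have h3 := zpow_ne_zero n hp
      rw [smul_div₀', smul_zpow₀', hx, div_zpow]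
      field_simp
    rw [e, map_mul, hu, mul_one] at h1
    have := eq_one_of_pow T.wm (by
      rw [div_pow, hm', ← zpow_natCast, ← zpow_mul, mul_comm, zpow_mul, zpow_natCast, hr]; simp) h1
    exact (div_eq_one_iff_eq (zpow_ne_zero _ (hr0 g))).mp this
  have hm0 : (m : ℤ) ≠ 0 := by exact_mod_cast T.m_ne
  refine ⟨(n % m).toNat, ?_, fun g => ?_⟩
  · have := Int.emod_lt_of_pos n (lt_of_le_of_ne (Int.natCast_nonneg m) hm0.symm)
    have := Int.emod_nonneg n hm0
    omega
  · rw [key, ← zpow_natCast, Int.toNat_of_nonneg (Int.emod_nonneg n hm0)]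
    conv_lhs => rw [← Int.mul_ediv_add_emod n m, zpow_add₀ (hr0 g), zpow_mul, zpow_natCast, hr]
    simp

/-- a homomorphism with commutative image of exponent `m` is trivial on the stabiliser of `π` -/
theorem eq_one_of_comm (hin : ∀ (g : G) (x : Ω), w x ≤ 1 → w (g • x - x) < 1) {A : Type*} [Group A]
    (ρ : G →* A) [ρ.ker.FiniteIndex] (hc : ∀ s t, ρ s * ρ t = ρ t * ρ s) (hm : ∀ g, ρ g ^ m = 1)
    (hcl : ∀ N : Subgroup G, ρ.ker ≤ N → Clo Ω N) {g : G} (hg : g • π = π) : ρ g = 1 := by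
  have : NeZero m := ⟨T.m_ne⟩
  have hfin : Finite ρ.range :=
    Finite.of_equiv _ (QuotientGroup.quotientKerEquivRange ρ).toEquiv
  let _ : CommGroup ρ.range :=
    { (inferInstance : Group ρ.range) with
      mul_comm := by
        rintro ⟨_, s, rfl⟩ ⟨_, t, rfl⟩
        exact Subtype.ext (hc s t) }
  have hdvd : Monoid.exponent ρ.range ∣ m := Monoid.exponent_dvd_of_forall_pow_eq_one (by
    rintro ⟨_, s, rfl⟩
    exact Subtype.ext (hm s))
  have hen : HasEnoughRootsOfUnity Ω m := ⟨⟨ζ, T.prim⟩, inferInstance⟩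
  have : HasEnoughRootsOfUnity Ω (Monoid.exponent ρ.range) := HasEnoughRootsOfUnity.of_dvd Ω hdvd
  by_contra hne
  obtain ⟨φ, hφ⟩ := CommGroup.exists_apply_ne_one_of_hasEnoughRootsOfUnity ρ.range Ω
    (a := ρ.rangeRestrict g) (fun h => hne (congrArg Subtype.val h))
  obtain ⟨n, -, hn⟩ := T.char_eq hin (φ.comp ρ.rangeRestrict) (fun s => by
    rw [MonoidHom.comp_apply, ← map_pow]
    have : ρ.rangeRestrict s ^ m = 1 := Subtype.ext (hm s)
    rw [this, map_one]) (hcl _ fun s hs => by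
      have : ρ.rangeRestrict s = 1 := Subtype.ext hs
      rw [MonoidHom.mem_ker, MonoidHom.comp_apply, this, map_one])
  apply hφ
  have := hn g
  rw [hg, div_self T.pi_ne, one_pow] at this
  exact Units.ext this

end Tame

/-- open subgroups of a Galois group are cut out by their fixed points -/
theorem clo_of_open {F : Type*} [Field F] [Algebra F Ω] [IsGalois F Ω] (N : Subgroup (Ω ≃ₐ[F] Ω))
    (L : IntermediateField F Ω) [FiniteDimensional F L] (h : L.fixingSubgroup ≤ N) : Clo Ω N := by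
  intro g hg
  have hop : IsOpen (N : Set (Ω ≃ₐ[F] Ω)) :=
    Subgroup.isOpen_mono h (IntermediateField.fixingSubgroup_isOpen L)
  have := InfiniteGalois.fixingSubgroup_fixedField ⟨N, Subgroup.isClosed_of_isOpen N hop⟩
  change (IntermediateField.fixedField N).fixingSubgroup = N at this
  rw [← this, IntermediateField.mem_fixingSubgroup_iff]
  intro y hy
  exact hg y fun u hu => (IntermediateField.mem_fixedField_iff N y).mp hy u hu

theorem finiteIndex_of_open {F : Type*} [Field F] [Algebra F Ω] [IsGalois F Ω]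
    (N : Subgroup (Ω ≃ₐ[F] Ω)) (L : IntermediateField F Ω) [FiniteDimensional F L]
    (h : L.fixingSubgroup ≤ N) : N.FiniteIndex := by
  have hop : IsOpen (N : Set (Ω ≃ₐ[F] Ω)) :=
    Subgroup.isOpen_mono h (IntermediateField.fixingSubgroup_isOpen L)
  have := N.quotient_finite_of_isOpen hop
  exact Subgroup.finiteIndex_of_finite_quotient

end Crest.Agent.T15.FlR
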