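import Crest.Agent.T15.TopB_88
import Crest.Agent.T15.FlTm_38
import Crest.Agent.T15.Fl3Def_75

/-!
# Row 15, leaf FUND (helper27): the residual representation in monomial form.
-/

set_option autoImplicit false

noncomputable section

namespace Crest.Agent.T15.Dih

open NumberField IsLocalRing Matrix Crest.Agent.R018.Placesx484 Crest.Agent.T15.Ps
open Crest.Agent.T15.C (Om Gam In De om)
open Crest.Agent.T15.Top Crest.Agent.T15.Fl Crest.Agent.T15.FlR
open scoped NNReal

section alg
variable {k : Type} [Field k]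

theorem three_eq (h : Nat.card k = 3) : (3 : k) = 0 := by
  have : Finite k := Nat.finite_of_card_ne_zero (by omega)
  have := Fintype.ofFinite k
  have e := FiniteField.cast_card_eq_zero k
  rw [← Nat.card_eq_fintype_card, h] at e
  exact_mod_cast e

theorem cube_eq (h : Nat.card k = 3) (a : k) : a ^ 3 = a := by
  have : Finite k := Nat.finite_of_card_ne_zero (by omega)
  have := Fintype.ofFinite k
  have e := FiniteField.pow_card a
  rwa [← Nat.card_eq_fintype_card, h] at e

theorem sq_ne (h : Nat.card k = 3) (a : k) : a ^ 2 ≠ -1 := fun e => by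
  have h3 := three_eq h
  have hc := cube_eq h a
  have h0 : a = 0 := by linear_combination hc - a * e + a * h3
  rw [h0] at e
  simp at e

theorem J_form (h : Nat.card k = 3) {J : M2 k} (hJ : J * J = -1) :
    J 0 1 ≠ 0 ∧ J 1 1 = -J 0 0 ∧ J 0 0 ^ 2 + J 0 1 * J 1 0 = -1 := by
  have e0 := congrFun (congrFun hJ 0) 0
  have e1 := congrFun (congrFun hJ 0) 1
  simp [Matrix.mul_apply, Fin.sum_univ_two] at e0 e1
  have hb : J 0 1 ≠ 0 := fun hb => sq_ne h (J 0 0) (by rw [hb] at e0; linear_combination e0)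
  exact ⟨hb, mul_left_cancel₀ hb (by linear_combination e1), by linear_combination e0⟩

theorem comm_form {J A : M2 k} (hb : J 0 1 ≠ 0) (h : A * J = J * A) :
    ∃ α β : k, A = α • (1 : M2 k) + β • J := by
  have e0 := congrFun (congrFun h 0) 0
  have e1 := congrFun (congrFun h 0) 1
  simp [Matrix.mul_apply, Fin.sum_univ_two] at e0 e1
  refine ⟨A 0 0 - A 0 1 / J 0 1 * J 0 0, A 0 1 / J 0 1, ?_⟩
  ext i j
  fin_cases i <;> fin_cases j <;> simp <;> field_simp
  · linear_combination -e0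
  · linear_combination -e1

theorem pow4 (h : Nat.card k = 3) {J : M2 k} (hJ : J * J = -1) (α β : k) :
    (α • (1 : M2 k) + β • J) ^ 4 = (α ^ 2 + β ^ 2) • (1 : M2 k) := by
  have h3 := three_eq h
  have ha := cube_eq h α
  have hb := cube_eq h β
  have e2 : (α • (1 : M2 k) + β • J) ^ 2 = (α ^ 2 - β ^ 2) • (1 : M2 k) + (2 * α * β) • J := by
    simp only [pow_two, add_mul, mul_add, smul_mul_assoc, mul_smul_comm, one_mul, mul_one, hJ]
    module
  rw [show 4 = 2 * 2 from rfl, pow_mul, e2]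
  simp only [pow_two, add_mul, mul_add, smul_mul_assoc, mul_smul_comm, one_mul, mul_one, hJ]
  match_scalars
  · linear_combination α * ha + β * hb - 2 * α ^ 2 * β ^ 2 * h3
  · linear_combination 4 * β * ha - 4 * α * hb

variable {K : Type} [Field K]

/-- the eigenbasis of `J` -/
def PP (J : M2 K) (ε : K) (h : J 0 1 * (-ε - J 0 0) - J 0 1 * (ε - J 0 0) ≠ 0) : GL (Fin 2) K :=
  Matrix.GeneralLinearGroup.mkOfDetNeZero !![J 0 1, J 0 1; ε - J 0 0, -ε - J 0 0]
    (by rw [det_fin_two_of]; exact h)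

theorem PP_conj {J : M2 K} {ε : K} (h : J 0 1 * (-ε - J 0 0) - J 0 1 * (ε - J 0 0) ≠ 0)
    (hε : ε ^ 2 = -1) (h1 : J 1 1 = -J 0 0) (h2 : J 0 0 ^ 2 + J 0 1 * J 1 0 = -1) :
    ((PP J ε h)⁻¹ : GL (Fin 2) K).val * J * (PP J ε h).val = !![ε, 0; 0, -ε] := by
  have : J * (PP J ε h).val = (PP J ε h).val * !![ε, 0; 0, -ε] := by
    ext i j
    fin_cases i <;> fin_cases j <;> simp [PP, Matrix.mul_apply, Fin.sum_univ_two, h1]
    · ring
    · ring
    · linear_combination h2 - hε
    · linear_combination h2 - hε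
  rw [mul_assoc, this, ← mul_assoc, Units.inv_mul, one_mul]

end alg

theorem det_om {k : Type} [Field k] (h3 : (3 : k) = 0) {ρ : Gam →* M2 k} (h : DetCyc ρ) (g : Gam) :
    (g om = om → (ρ g).det = 1) ∧ (g om ≠ om → (ρ g).det = -1) := by
  have key : ∀ a : ℕ, g om = om ^ a → (ρ g).det = a := fun a ha => by
    have := h g 1 a om (by simpa using C.om_spec) ha
    rwa [pow_one, h3, Ideal.span_singleton_eq_bot.2 rfl, Ideal.mem_bot, sub_eq_zero] at this
  refine ⟨fun e => by simpa using key 1 (by simpa using e), fun e => ?_⟩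
  obtain ⟨a, ha, e'⟩ := C.om_spec.eq_pow_of_pow_eq_one (ξ := g om) (by
    rw [← map_pow, C.om_spec.pow_eq_one, map_one])
  have := key a e'.symm
  interval_cases a
  · exact absurd (g.injective (by simpa using e'.symm)) (C.om_spec.ne_one (by norm_num))
  · exact absurd (by simpa using e'.symm) e
  · rw [this]; push_cast; linear_combination h3

variable {ι : Om →+* ℂ} {P : Place Om} (Λ : Loc3 ι P)

theorem exists_red (K : Type) [Field K] [IsAlgClosed K] [CharP K 3] :
    ∃ red : Λ.w.integer →+* K, ∀ x, red x = 0 ↔ Λ.w x < 1 := by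
  have : Fact (Nat.Prime 3) := ⟨Nat.prime_three⟩
  have h0 : ∀ x : Λ.w.integer, residue _ x = 0 ↔ Λ.w x < 1 := fun x => by
    rw [residue_eq_zero_iff, mem_maximalIdeal, mem_nonunits_iff,
      Valuation.Integer.not_isUnit_iff_valuation_lt_one]
  have : CharP (ResidueField Λ.w.integer) 3 := by
    refine (CharP.charP_iff_prime_eq_zero Nat.prime_three).2 ?_
    rw [← map_natCast (residue Λ.w.integer), h0]
    exact Λ.w3
  let _ := ZMod.algebra (ResidueField Λ.w.integer) 3
  let _ := ZMod.algebra K 3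
  have : Algebra.IsAlgebraic (ZMod 3) (ResidueField Λ.w.integer) := ⟨fun a => by
    obtain ⟨x, rfl⟩ := residue_surjective a
    obtain ⟨z, hz, h⟩ := Λ.exists_pow x.2
    have e : residue _ x = residue _ (⟨z, Unr.w_tei_le hz⟩ : Λ.w.integer) := by
      rw [← sub_eq_zero, ← map_sub, h0]; exact h
    rw [e]
    by_cases hz0 : z = 0
    · subst hz0; exact isAlgebraic_zero
    · obtain ⟨n, hn, h⟩ := id hz
      refine (IsIntegral.of_pow (Nat.pos_of_ne_zero (Unr.three_pow_sub_one_ne hn)) ?_).isAlgebraic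
      rw [← map_pow, show (⟨z, Unr.w_tei_le hz⟩ : Λ.w.integer) ^ (3 ^ n - 1) = 1 from
        Subtype.ext (Unr.pow_sub_one_eq h hz0), map_one]
      exact isIntegral_one⟩
  let φ : ResidueField Λ.w.integer →ₐ[ZMod 3] K := IsAlgClosed.lift
  exact ⟨φ.toRingHom.comp (residue _), fun x => by
    rw [← h0]; exact map_eq_zero_iff _ φ.toRingHom.injective⟩

theorem fix8 {u : ℂ} (h : u ^ 8 = 1) (g : Λ.G) : g u = u :=
  g.commutes ⟨u, Unr.tei_mem (Unr.mem_tei_of_pow (by norm_num) h)⟩

theorem exists_tame8 : ∃ (π ζ : ℂ) (τ : Λ.G), π ^ 8 = 3 ∧ Tame Λ.w 8 π ζ τ := by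
  obtain ⟨π, hπ⟩ := IsAlgClosed.exists_pow_nat_eq (3 : ℂ) (n := 8) (by norm_num)
  obtain ⟨ζ, hζ⟩ := HasEnoughRootsOfUnity.exists_primitiveRoot ℂ 8
  obtain ⟨τ, hτ⟩ := exists_tame (w := Λ.w) (G := Λ.G) (m := 8) (π := π) (ζ := ζ) Λ.w_G Λ.w3
    (by simp) (fun x hx h0 => Λ.disc_I h0 fun σ hσ => by
      obtain ⟨t, rfl⟩ := Λ.exists_inc hσ
      exact hx t) (Λ.w_natCast (by norm_num)) hζ (fix8 Λ hζ.pow_eq_one)
    (fun g => by rw [hπ]; exact map_ofNat g 3) (by rw [← map_pow, hπ])
  exact ⟨π, ζ, τ, hπ, hτ⟩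

/-- the monomial form -/
theorem mono_form {k K : Type} [Field k] [Field K] (h2 : (2 : K) ≠ 0) (F : k →+* K)
    (hk : Nat.card k = 3) {J : M2 k} (hJ : J * J = -1) {ε : K} (hε : ε ^ 2 = -1) :
    ∃ Q : GL (Fin 2) K, (∀ α β : k, (Q⁻¹ : GL (Fin 2) K).val * (α • (1 : M2 k) + β • J).map F * Q.val =
      !![F α + F β * ε, 0; 0, F α - F β * ε]) ∧ ∀ A : M2 k, A * J = -(J * A) →
      ((Q⁻¹ : GL (Fin 2) K).val * A.map F * Q.val) 0 0 = 0 ∧
      ((Q⁻¹ : GL (Fin 2) K).val * A.map F * Q.val) 1 1 = 0 := by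
  obtain ⟨hb, h1, h3⟩ := J_form hk hJ
  have hε0 : ε ≠ 0 := by rintro rfl; simp at hε
  have hd : (J.map F) 0 1 * (-ε - (J.map F) 0 0) - (J.map F) 0 1 * (ε - (J.map F) 0 0) ≠ 0 := by
    have : (J.map F) 0 1 * (-ε - (J.map F) 0 0) - (J.map F) 0 1 * (ε - (J.map F) 0 0) =
        -(2 * F (J 0 1) * ε) := by simp only [map_apply]; ring
    rw [this]
    exact neg_ne_zero.2 (mul_ne_zero (mul_ne_zero h2 ((map_ne_zero F).2 hb)) hε0)
  have hc := PP_conj hd hε (by simp [h1]) (by simpa using congrArg F h3)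
  set Q := PP (J.map F) ε hd
  refine ⟨Q, fun α β => ?_, fun A hA => ?_⟩
  · have : (α • (1 : M2 k) + β • J).map F = F α • (1 : M2 K) + F β • J.map F := by
      ext i j; fin_cases i <;> fin_cases j <;> simp
    rw [this, mul_add, add_mul, mul_smul_comm, mul_smul_comm, smul_mul_assoc, smul_mul_assoc, hc,
      mul_one, Units.inv_mul]
    ext i j; fin_cases i <;> fin_cases j <;> simp [sub_eq_add_neg]
  · have hA' : A.map F * J.map F = -(J.map F * A.map F) := by
      rw [← Matrix.map_mul, ← Matrix.map_mul, hA, Matrix.map_neg _ (map_neg F)]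
    set S := (Q⁻¹ : GL (Fin 2) K).val * A.map F * Q.val with hS
    have e : S * !![ε, 0; 0, -ε] = -(!![ε, 0; 0, -ε] * S) := by
      rw [← hc, hS]
      simp only [mul_assoc, Units.mul_inv_cancel_left]
      rw [← mul_assoc (A.map F), hA', neg_mul, mul_neg, mul_assoc]
    have e0 := congrFun (congrFun e 0) 0
    have e1 := congrFun (congrFun e 1) 1
    simp only [Matrix.mul_apply, Fin.sum_univ_two, Matrix.neg_apply, of_apply, cons_val', cons_val_zero,
      cons_val_one, cons_val_fin_one, mul_zero, zero_mul, add_zero, zero_add] at e0 e1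
    exact ⟨mul_left_cancel₀ (mul_ne_zero h2 hε0) (by linear_combination e0),
      mul_left_cancel₀ (mul_ne_zero h2 hε0) (by linear_combination -e1)⟩

/-- **FUND** -/
theorem dihStmt (h3 : P.rchar = 3) : DihStmt (Lc.of h3 Λ) := by
  intro k k' _ _ f ρ N h hFl
  have hF : Flat Λ.w Λ.G fun g (v : Fin 2 → k) => ρ (Λ.rG g) *ᵥ v := hFl
  have : Fact (Nat.Prime 3) := ⟨Nat.prime_three⟩
  have hk := h.card
  have : Finite k := Nat.finite_of_card_ne_zero (by omega)
  refine ⟨fun g => by rw [trace_mp, ← map_pow, cube_eq hk], ?_⟩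
  let K := AlgebraicClosure k'
  let F : k →+* K := (algebraMap k' K).comp f
  have h3k := three_eq hk
  have h3K : (3 : K) = 0 := by rw [← map_ofNat F 3, h3k, map_zero]
  have : CharP K 3 := (CharP.charP_iff_prime_eq_zero Nat.prime_three).2 (by exact_mod_cast h3K)
  have h2K : (2 : K) ≠ 0 := fun e => one_ne_zero (α := K) (by linear_combination h3K - e)
  obtain ⟨red, hred⟩ := exists_red Λ K
  obtain ⟨π, ζ, τ, hπ, T⟩ := exists_tame8 Λ
  obtain ⟨i, J, hi, hJ, hcm⟩ := h.cm
  obtain ⟨hb, hJ1, hJ2⟩ := J_form hk hJ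
  have hFc : ∀ a : k, F a ^ 3 = F a := fun a => by rw [← map_pow, cube_eq hk]
  have lam3 : ∀ (α β : k) (ε : K), ε ^ 2 = -1 → (F α + F β * ε) ^ 3 = F α - F β * ε := by
    intro α β ε hε
    rw [add_pow_char, mul_pow, hFc, hFc]
    linear_combination F β * ε * hε
  have form : ∀ g : Gam, g i = i → ∃ α β : k, ρ g = α • (1 : M2 k) + β • J := fun g hg =>
    comm_form hb ((hcm g).1 hg)
  have dform : ∀ α β : k, (α • (1 : M2 k) + β • J).det = α ^ 2 + β ^ 2 := fun α β => by
    simp [det_fin_two, hJ1]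
    linear_combination (-β ^ 2) * hJ2
  have dsq : ∀ g : Gam, (ρ g).det ^ 2 = 1 := fun g => by
    by_cases e : g om = om
    · rw [(det_om h3k h.det g).1 e, one_pow]
    · rw [(det_om h3k h.det g).2 e]; ring
  have hGi : ∀ g : Λ.G, Λ.rG g i = i := fun g => ι.injective (by
    rw [Λ.iota_rG]
    exact fix8 Λ (by rw [← map_pow, show 8 = 2 * 4 from rfl, pow_mul, hi]; simp; norm_num) g)
  -- tameness
  have hN : ∀ g : Λ.G, g • π = π → ρ (Λ.rG g) = 1 := by
    intro g hg
    obtain ⟨L, hL, hL2, -⟩ := Λ.exists_field_G (N := ρ.ker) h.op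
    have := T.eq_one_of_comm (fun g x hx => Λ.w_G_sub g hx) (ρ.comp Λ.rG).toHomUnits
      (fun s t => by
        obtain ⟨a, b, e⟩ := form _ (hGi s)
        obtain ⟨a', b', e'⟩ := form _ (hGi t)
        ext1
        simp only [Units.val_mul, MonoidHom.coe_toHomUnits, MonoidHom.comp_apply, e, e', add_mul,
          mul_add, smul_mul_assoc, mul_smul_comm, one_mul, mul_one]
        module)
      (fun s => by
        obtain ⟨a, b, e⟩ := form _ (hGi s)
        have e2 := dsq (Λ.rG s)
        rw [e, dform] at e2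
        ext1
        rw [Units.val_pow_eq_pow_val, MonoidHom.coe_toHomUnits, MonoidHom.comp_apply, e,
          show 8 = 4 * 2 from rfl, pow_mul, pow4 hk hJ, _root_.smul_pow, e2]
        simp)
      (fun N' hN' => clo_of_open N' L (hL2 ▸ fun u hu => hN' (Units.ext hu))) hg
    exact congrArg Units.val this
  -- the tame generator
  obtain ⟨α, β, hτ⟩ := form _ (hGi τ)
  have hζ4 : ζ ^ 4 = -1 := (T.prim.pow (by norm_num) (show 8 = 4 * 2 from rfl)).eq_neg_one_of_two_right
  have hdτ : α ^ 2 + β ^ 2 = -1 := by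
    rw [← dform, ← hτ]
    refine (det_om h3k h.det _).2 fun e => ?_
    have e1 : τ (ι om) = ι om := by rw [← Λ.iota_rG, e]
    have e2 : τ (ι i) = ι i := by rw [← Λ.iota_rG, hGi]
    have q : ι om ^ 2 + ι om + 1 = 0 := by
      have := congrArg ι (C.om_spec.geom_sum_eq_zero (by norm_num))
      simp [Finset.sum_range_succ] at this
      linear_combination this
    have qi : ι i ^ 2 = -1 := by rw [← map_pow, hi]; simp
    have e3 : τ (π ^ 4) = -π ^ 4 := by
      have : τ π = ζ * π := T.tp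
      rw [map_pow, this, mul_pow, hζ4]; ring
    have e4 : (π ^ 4 - ι i * (2 * ι om + 1)) * (π ^ 4 + ι i * (2 * ι om + 1)) = 0 := by
      linear_combination hπ - (2 * ι om + 1) ^ 2 * qi + 4 * q
    have e5 : τ (ι i * (2 * ι om + 1)) = ι i * (2 * ι om + 1) := by
      simp [e1, e2, map_ofNat]
    have e6 : τ (π ^ 4) = π ^ 4 := by
      rcases mul_eq_zero.1 e4 with e | e
      · rw [sub_eq_zero.1 e, e5]
      · rw [eq_neg_of_add_eq_zero_left e, map_neg, e5]
    exact pow_ne_zero 4 T.pi_ne (by linear_combination (e3 - e6) / 2)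
  let z : Λ.w.integer := ⟨ζ, T.wz.le⟩
  have hz4 : red z ^ 4 = -1 := by
    rw [← map_pow, show z ^ 4 = -1 from Subtype.ext hζ4, map_neg, map_one]
  obtain ⟨ε, hε, hlam⟩ : ∃ ε : K, ε ^ 2 = -1 ∧ F α + F β * ε = red z := by
    obtain ⟨ε, hε⟩ := IsAlgClosed.exists_pow_nat_eq (-1 : K) (n := 2) (by norm_num)
    have l4 : (F α + F β * ε) ^ 4 = -1 := by
      have := congrArg F hdτ
      rw [map_add, map_pow, map_pow, map_neg, map_one] at this
      rw [pow_succ, lam3 α β ε hε]
      linear_combination this - F β ^ 2 * hε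
    have ho : orderOf (red z) = 2 ^ (2 + 1) := orderOf_eq_prime_pow (p := 2) (by
      intro e
      rw [show 2 ^ 2 = 4 from rfl, hz4] at e
      exact h2K (by linear_combination -e)) (by
      rw [show 2 ^ (2 + 1) = 4 * 2 from rfl, pow_mul, hz4]; simp)
    have hp := IsPrimitiveRoot.orderOf (red z)
    rw [ho] at hp
    obtain ⟨j, hj, e⟩ := hp.eq_pow_of_pow_eq_one (ξ := F α + F β * ε) (by
      rw [show 2 ^ (2 + 1) = 4 * 2 from rfl, pow_mul, l4]; simp)
    have hj4 : j ≤ 4 := by
      by_contra hn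
      let ψ : (Fin 2 → k) →+ K := AddMonoidHom.mk' (fun v => (ε + F (J 0 0)) * F (v 0) + F (J 0 1) * F (v 1))
        fun v v' => by simp only [Pi.add_apply, map_add]; ring
      have q : ι om ^ 2 + ι om + 1 = 0 := by
        have := congrArg ι (C.om_spec.geom_sum_eq_zero (by norm_num))
        simp [Finset.sum_range_succ] at this
        linear_combination this
      have := T.ray hF (fun v => by simp) (fun s u v => by rw [map_mul, map_mul, mulVec_mulVec]) (fun u v hu => by simp [hN u hu]) q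
        red (fun x hx => (hred x).2 hx) z rfl ψ (j := j) (by simpa using hj) (by omega) fun v => by
          have e2 := congrArg F hJ2
          simp only [map_add, map_pow, map_mul, map_neg, map_one] at e2
          rw [e, hτ]
          simp [ψ, hJ1]
          linear_combination F β * F (v 0) * e2 - F β * F (v 0) * hε
      have h5 := DFunLike.congr_fun this ![0, 1]
      simp [ψ] at h5
      exact hb h5
    have l4' : (-1 : K) ^ j = -1 := by rw [← hz4, ← pow_mul, mul_comm, pow_mul, e, l4, hz4]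
    have hne : (1 : K) ≠ -1 := fun e => h2K (by linear_combination e)
    interval_cases j
    · exact absurd (by simpa using l4') hne
    · exact ⟨ε, hε, by simpa using e.symm⟩
    · exact absurd (by simpa using l4') hne
    · refine ⟨-ε, by simpa using hε, ?_⟩
      rw [mul_neg, ← sub_eq_add_neg, ← lam3 α β ε hε, ← e]
      linear_combination (red z ^ 5 - red z) * hz4
    · exact absurd (by rw [← l4']; norm_num) hne
  obtain ⟨Q, hQ1, hQ2⟩ := mono_form h2K F hk hJ hε
  let inc : 𝓞 Om →+* Λ.w.integer :=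
    (ι.comp (algebraMap (𝓞 Om) Om)).codRestrict _ fun x => Λ.w_int_le_one x
  have hker : RingHom.ker (red.comp inc) = P.ideal := Ideal.ext fun x => by
    rw [RingHom.mem_ker, RingHom.comp_apply, hred, ← Λ.w_int_lt_one]; rfl
  refine ⟨K, inferInstance, algebraMap k' K, Q, red.comp inc, i, ?_⟩
  rw [mp_mp]
  set σ := conj (mp F ρ) Q with hσ
  have hσa : ∀ g, σ g = (Q⁻¹ : GL (Fin 2) K).val * (ρ g).map F * Q.val := fun g => rfl
  have hdet : ∀ g, (σ g).det = F (ρ g).det := fun g => by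
    rw [hσa, det_mul, det_mul, mul_right_comm, ← det_mul, Units.inv_mul, det_one, one_mul]
    exact det_mp F ρ g
  have hone : ∀ g, ρ g = 1 → σ g = 1 := fun g hg => by
    rw [hσa, hg, Matrix.map_one _ (map_zero F) (map_one F), mul_one, Units.inv_mul]
  refine ⟨fun l hl => Nat.prime_of_mem_primeFactors hl,
    Nat.mem_primeFactors.2 ⟨Nat.prime_two, h.two, h.pos.ne'⟩,
    fun e => h.three (Nat.dvd_of_mem_primeFactors e), one_dvd _, rfl, by simpa using hi,
    Subgroup.isOpen_mono (H₁ := ρ.ker) (fun g hg => hone g hg) h.op, fun g hg => ?_,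
    fun g hg => hQ2 _ ((hcm g).2 hg), fun g => ?_, fun P' h1 h2 g hg => hone g (h.unr P' ?_ g hg),
    ?_, fun t ht y x hy hx => ?_⟩
  · obtain ⟨a, b, e⟩ := form g hg
    have e2 := congrArg F (dsq g)
    rw [e, dform] at e2
    simp only [map_add, map_pow, map_one] at e2
    rw [hσa, e, hQ1]
    refine ⟨by simp, by simp, ?_⟩
    have l4 : (F a + F b * ε) ^ 4 = F a ^ 2 + F b ^ 2 := by
      rw [pow_succ, lam3 a b ε hε]
      linear_combination (-F b ^ 2) * hε
    simp only [of_apply, cons_val', cons_val_zero, cons_val_fin_one]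
    rw [show 8 = 4 * 2 from rfl, pow_mul, l4, e2]
  · rw [hdet]
    split_ifs with e
    · rw [(det_om h3k h.det g).1 e, map_one]
    · rw [(det_om h3k h.det g).2 e, map_neg, map_one]
  · intro hd
    rcases (Nat.Prime.dvd_mul P'.rchar_prime).1 hd with e | e
    · exact h1 ((Nat.prime_dvd_prime_iff_eq P'.rchar_prime Nat.prime_three).1 e)
    · exact h2 (Nat.mem_primeFactors.2 ⟨P'.rchar_prime, e, h.pos.ne'⟩)
  · rw [map_ofNat, h3K]
  · rw [hker] at ht
    obtain ⟨g, rfl⟩ := Λ.exists_rG ht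
    obtain ⟨n, -, hn⟩ := T.exists_pow g
    have hy8 : (ι y / π) ^ 8 = 1 := by
      rw [div_pow, ← map_pow, hy, hπ, map_ofNat, div_self (by norm_num)]
    have hy0 : ι y ≠ 0 := fun e => by simp [e] at hy8
    have e1 : ι x = ζ ^ n := by
      have a1 : g (ι y) = ι x * ι y := by rw [← Λ.iota_rG, hx, map_mul]
      have a2 : g π = ζ ^ n * π := hn
      have a3 := fix8 Λ hy8 g
      rw [map_div₀, a1, a2] at a3
      have := T.pi_ne
      have := T.z_ne
      field_simp at a3
      exact a3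
    have e2 : red.comp inc x = red z ^ n := by
      rw [RingHom.comp_apply, ← map_pow]
      exact congrArg red (Subtype.ext e1)
    have e3 : Λ.rG g = Λ.rG τ ^ n * Λ.rG ((τ ^ n)⁻¹ * g) := by
      rw [← map_pow, ← map_mul, mul_inv_cancel_left]
    have e4 : σ (Λ.rG τ) = !![red z, 0; 0, F α - F β * ε] := by rw [hσa, hτ, hQ1, hlam]
    rw [e2, e3, map_mul, hone _ (hN _ (by rw [mul_smul, hn, ← T.pow_smul, inv_smul_smul])), mul_one,
      map_pow, e4]
    clear e1 e2 e3 hn
    induction n with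
    | zero => simp
    | succ n ih => rw [pow_succ, Matrix.mul_apply, Fin.sum_univ_two, ih]; simp [pow_succ]

end Crest.Agent.T15.Dih
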