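import Crest.Agent.T15.EbB_64
import Crest.Agent.T15.HtDef_95
import Crest.Agent.T15.Rk5_31

/-!
# Row 15, block Ht (helper64): the E-block on the model `Mdl`

* `Core` : what is needed about `j` on the Tate module;
* `ebStmt_of : GalStmt → MoStmt → Core → EbStmt`;
* `ebIs` : the same for rational parameters from the package `Rho.WQ`.
-/

set_option autoImplicit false

namespace Crest.Agent.T15.Eb

open Module
open Crest.Agent.R013.PicD_398 Crest.Agent.R013.Frob1_914 Crest.Agent.R013.TP_928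
open Crest.Agent.T15.C (Om Gam)
open Crest.Agent.T15.Top (Plc)
open Crest.Agent.T15.Mo (Par)
open Crest.Agent.T15.Ht

/-- the relations of `j` on the Tate module -/
def Core : Prop :=
  ∀ (P : Par Om) (M : Mdl P), ∃ y : Module.End ℤ_[3] (Tate 3 (Pic Om M.Y)),
    (∀ u, y (y u) = -u) ∧ (∀ u, Tate.map M.j (y u) = -y (Tate.map M.j u)) ∧
    (∀ u : Tate 3 (Pic Om M.Y), Tate.map M.j (Tate.map M.j (Tate.map M.j u)) =
      (3 : ℤ_[3]) • Tate.map M.j u) ∧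
    (Tate.map M.j : Module.End ℤ_[3] (Tate 3 (Pic Om M.Y))) ≠ 0 ∧
    ∀ u v : Tate 3 (Pic Om M.Y), Wp.tf 3 (Tate.map M.j u) v = Wp.tf 3 u (Tate.map M.j v)

/-- **leaf E-BLOCK** -/
theorem ebStmt_of (hG : GalStmt) (hM : MoStmt) (hC : Core) : EbStmt := by
  intro P M Q e h3 ⟨hx, σ, hσ, he⟩
  obtain ⟨y, yy, jy, jjj, j0, ej⟩ := hC P M
  obtain ⟨hf, hr, -, hl⟩ := Rk.ta (hM Om P M).1 (hM Om P M).2.1
  obtain ⟨τ, hτ⟩ := eblock_y hr.le y (Tate.map M.j) yy jy jjj j0 (Wp.tf 3) Wp.tf_self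
    (fun x hx => Wp.eq_zero_of_tf hx) ej (Tate.map e.pic.toAddMonoidHom)
    (fun x => Tate.ext fun n => (hG Om P M).2.2 e hx _) _ (Wp.tf_SI e)
  rw [cyc_frob hσ h3 he] at hτ
  exact ⟨ap τ, eblock_of hl M.j e.pic.toAddMonoidHom 3 _ τ fun x => by
    simpa only [Nat.cast_ofNat] using hτ x⟩

/-- the E-block for rational parameters -/
def EbIs : Prop :=
  ∀ (p1 p2 p3 t : ℤ) (P : Par Om) (M : Mdl P) (Q : Plc) (e : SI Om M.Y Om M.Y), Is P p1 p2 p3 t →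
    Q.rchar ≠ 3 → Fr M Q e → ∃ τ : ℕ → ℤ, M.RelE e Q.rchar τ

theorem EbIs.of (h : EbStmt) : EbIs := fun _ _ _ _ P M Q e _ => h P M Q e

/-- the action of the whole Galois group on a rational model -/
theorem exists_act (hG : GalStmt) {p1 p2 p3 t : ℤ} {P : Par Om} (M : Mdl P)
    (h : Is P p1 p2 p3 t) :
    ∃ E : Gam → SI Om M.Y Om M.Y, (∀ σ, M.Fx (E σ) ∧ ∀ c, (E σ).s c = σ c) ∧
      ∀ σ e, M.Fx e → (∀ c, e.s c = σ c) → e = E σ := by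
  obtain ⟨h1, h2, -⟩ := hG Om P M
  choose E hE using fun σ : Gam => h1 σ.toRingEquiv (by rw [h.h1]; simp) (by rw [h.h2]; simp)
    (by rw [h.ht]; simp)
  refine ⟨E, fun σ => ⟨(hE σ).1, fun c => by rw [(hE σ).2]; rfl⟩, fun σ e hx he =>
    h2 _ _ hx (hE σ).1 ?_⟩
  rw [(hE σ).2]
  exact RingEquiv.ext he

/-- the E-block from the package `WQ` (`hW` is `FA.WqStmt`) -/
theorem ebIs (hG : GalStmt) (hM : MoStmt)
    (hW : ∀ (P : Par Om) (M : Mdl P) (E : Gam → SI Om M.Y Om M.Y) (i : Om),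
      (∀ σ, M.Fx (E σ) ∧ ∀ c, (E σ).s c = σ c) → i ^ 2 = -1 →
      ∃ R : Rho.WQ Gam (Tate 3 (Pic Om M.Y)),
        (∀ σ, R.act σ = Tate.map (E σ).pic.toAddMonoidHom) ∧ R.j = Tate.map M.j ∧
        (∀ σ, R.χ σ = 1 ↔ σ i = i) ∧
        ∀ (σ : Gam) (n a : ℕ) (ζ : Om), IsPrimitiveRoot ζ (3 ^ n) → σ ζ = ζ ^ a →
          (3 : ℤ_[3]) ^ n ∣ (R.cyc σ : ℤ_[3]) - a) : EbIs := by
  intro p1 p2 p3 t P M Q e hI h3 ⟨hx, σ, hσ, he⟩
  obtain ⟨E, hE, hu⟩ := exists_act hG M hI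
  obtain ⟨i, hi⟩ := IsAlgClosed.exists_pow_nat_eq (-1 : Om) two_pos
  obtain ⟨R, ha, hj, -, hc⟩ := hW P M E i hE hi
  obtain ⟨hf, hr, -, hl⟩ := Rk.ta (hM Om P M).1 (hM Om P M).2.1
  obtain rfl := hu σ e hx he
  exact wq_E R hl (J := M.j) (S := (E σ).pic.toAddMonoidHom) (fun u => by rw [hj])
    (σ := σ) (fun u => by rw [ha]) (cyc_eq hσ h3 fun n a ζ h h' => by
      simpa only [Nat.cast_ofNat] using hc σ n a ζ h h') hr.le

end Crest.Agent.T15.Eb
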