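import Mathlib

/-!
# Row 15, leaf W1 (helper42): rationality of an `l`-adic eigenvalue from a rational functional

Pure algebra.  `Γ` is an abelian group (Galois-invariant divisor classes), `lam : Γ →+ ℚ` a
functional with denominators in `d·p^k` (a Néron symbol), `a - t m • b ∈ l^m Γ` for all `m`.
-/

set_option autoImplicit false
set_option linter.all false

namespace Crest.Agent.T15.Rat

/-- the values of `lam` have denominators dividing `d * p ^ k`, `d` fixed -/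
def Bd {Γ : Type*} [AddCommGroup Γ] (p : ℕ) (lam : Γ →+ ℚ) : Prop :=
  ∃ d : ℕ, 0 < d ∧ ∀ c, ∃ (k : ℕ) (z : ℤ), (d : ℚ) * (p : ℚ) ^ k * lam c = z

variable {Γ : Type*} [AddCommGroup Γ]

/-- integral form of `lam a = t * lam b` -/
theorem exists_int (l p : ℕ) (hlp : Nat.Coprime l p) (lam : Γ →+ ℚ) (hd : Bd p lam)
    (a b : Γ) (t : ℕ → ℤ) (h : ∀ m, ∃ c, a - t m • b = l ^ m • c) :
    ∃ (n : ℕ) (A B : ℤ), 0 < n ∧ (n : ℚ) * lam a = A ∧ (n : ℚ) * lam b = B ∧
      ∀ m, (l : ℤ) ^ m ∣ A - t m * B := by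
  obtain ⟨d, hd0, hd⟩ := hd
  refine ⟨d * ((lam a).den * (lam b).den), d * ((lam a).num * (lam b).den),
    d * ((lam a).den * (lam b).num), by
      have := (lam a).den_pos; have := (lam b).den_pos; positivity, ?_, ?_, ?_⟩
  · have := Rat.mul_den_eq_num (lam a)
    push_cast; rw [← this]; ring
  · have := Rat.mul_den_eq_num (lam b)
    push_cast; rw [← this]; ring
  · intro m
    obtain ⟨c, hc⟩ := h m
    obtain ⟨k, z, hz⟩ := hd c
    have h1 := congrArg lam hc
    rw [map_sub, map_zsmul, map_nsmul, zsmul_eq_mul, nsmul_eq_mul] at h1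
    have ha := Rat.mul_den_eq_num (lam a)
    have hb := Rat.mul_den_eq_num (lam b)
    have h2 : ((p : ℤ) ^ k * (d * ((lam a).num * (lam b).den) - t m * (d * ((lam a).den * (lam b).num))) : ℤ)
        = (l : ℤ) ^ m * (((lam a).den * (lam b).den) * z) := by
      have : (((p : ℤ) ^ k * (d * ((lam a).num * (lam b).den) - t m * (d * ((lam a).den * (lam b).num))) : ℤ) : ℚ)
        = (((l : ℤ) ^ m * (((lam a).den * (lam b).den) * z) : ℤ) : ℚ) := by
        push_cast at h1 ⊢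
        rw [← hz, ← ha, ← hb]
        linear_combination ((p : ℚ) ^ k * d * (lam a).den * (lam b).den) * h1
      exact_mod_cast this
    have hc : IsCoprime ((l : ℤ) ^ m) ((p : ℤ) ^ k) :=
      IsCoprime.pow (Nat.isCoprime_iff_coprime.mpr hlp)
    exact hc.dvd_of_dvd_mul_left ⟨_, h2⟩

/-- **LN+**: if one bounded functional does not kill `b`, the `l`-adic limit of `t m` is the rational
number `u / v`, and `v a - u b` is infinitely `l`-divisible in `Γ` -/
theorem rat_of_fun (l p : ℕ) (hlp : Nat.Coprime l p) (lam : Γ →+ ℚ) (hd : Bd p lam)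
    (a b : Γ) (t : ℕ → ℤ) (h : ∀ m, ∃ c, a - t m • b = l ^ m • c) (hb : lam b ≠ 0) :
    ∃ u v : ℤ, v ≠ 0 ∧ (∀ m, (l : ℤ) ^ m ∣ u - t m * v) ∧
      ∀ m, ∃ c, v • a - u • b = l ^ m • c := by
  obtain ⟨n, A, B, hn, hA, hB, hdv⟩ := exists_int l p hlp lam hd a b t h
  refine ⟨A, B, ?_, hdv, fun m => ?_⟩
  · intro h0
    rw [h0] at hB
    have : (n : ℚ) ≠ 0 := by positivity
    exact hb ((mul_eq_zero.mp (by simpa using hB)).resolve_left this)
  · obtain ⟨c, hc⟩ := h m
    obtain ⟨w, hw⟩ := hdv m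
    refine ⟨B • c - w • b, ?_⟩
    have e1 : a = t m • b + l ^ m • c := by rw [← hc]; abel
    have e2 : A = t m * B + (l : ℤ) ^ m * w := by rw [← hw]; ring
    rw [← natCast_zsmul] at e1 ⊢
    push_cast at e1 ⊢
    rw [e1, e2]
    module

/-- if every functional kills `b`, every functional kills `a` -/
theorem zero_of_fun (l p : ℕ) (hl : 2 ≤ l) (hlp : Nat.Coprime l p) (lam : Γ →+ ℚ) (hd : Bd p lam)
    (a b : Γ) (t : ℕ → ℤ) (h : ∀ m, ∃ c, a - t m • b = l ^ m • c) (hb : lam b = 0) :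
    lam a = 0 := by
  obtain ⟨n, A, B, hn, hA, hB, hdv⟩ := exists_int l p hlp lam hd a b t h
  have hB0 : B = 0 := by
    rw [hb, mul_zero] at hB; exact_mod_cast hB.symm
  have hA0 : A = 0 := by
    by_contra h0
    have h1 := hdv A.natAbs
    rw [hB0, mul_zero, sub_zero] at h1
    have h2 := Int.le_of_dvd (abs_pos.mpr h0) ((dvd_abs _ _).mpr h1)
    have h3 : A.natAbs < l ^ A.natAbs := Nat.lt_pow_self (by omega)
    have h4 : ((A.natAbs : ℕ) : ℤ) < (l : ℤ) ^ A.natAbs := by exact_mod_cast h3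
    rw [Int.natCast_natAbs] at h4
    omega
  rw [hA0] at hA
  have : (n : ℚ) ≠ 0 := by positivity
  exact (mul_eq_zero.mp (by simpa using hA)).resolve_left this

/-- **dichotomy** for a family of functionals whose common kernel is the set `Cst` of constants -/
theorem dichotomy {I : Type*} (l p : ℕ) (hl : 2 ≤ l) (hlp : Nat.Coprime l p) (lam : I → Γ →+ ℚ)
    (hd : ∀ i, Bd p (lam i)) (Cst : Γ → Prop) (hC : ∀ c, (∀ i, lam i c = 0) → Cst c)
    (a b : Γ) (t : ℕ → ℤ) (h : ∀ m, ∃ c, a - t m • b = l ^ m • c) :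
    (Cst a ∧ Cst b) ∨
      ∃ u v : ℤ, v ≠ 0 ∧ (∀ m, (l : ℤ) ^ m ∣ u - t m * v) ∧ Cst (v • a - u • b) := by
  by_cases hb : ∀ i, lam i b = 0
  · exact Or.inl ⟨hC a fun i => zero_of_fun l p hl hlp _ (hd i) a b t h (hb i), hC b hb⟩
  · push Not at hb
    obtain ⟨i, hi⟩ := hb
    obtain ⟨u, v, hv, hdv, hdiv⟩ := rat_of_fun l p hlp _ (hd i) a b t h hi
    refine Or.inr ⟨u, v, hv, hdv, hC _ fun j => ?_⟩
    refine zero_of_fun l p hl hlp _ (hd j) _ 0 (fun _ => 0) (fun m => ?_) (map_zero _)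
    simpa using hdiv m

/-- passage to the limit in a ring `O` in which `⋂ l^m O = 0` -/
theorem limit_eq {O : Type*} [CommRing O] (l : ℕ) (hO : ∀ x : O, (∀ m, (l : O) ^ m ∣ x) → x = 0)
    (t : ℕ → ℤ) (τ : O) (ht : ∀ m, (l : O) ^ m ∣ τ - t m) (u v : ℤ)
    (h : ∀ m, (l : ℤ) ^ m ∣ u - t m * v) : (v : O) * τ = u := by
  refine sub_eq_zero.mp (hO _ fun m => ?_)
  have h1 : (l : O) ^ m ∣ ((u - t m * v : ℤ) : O) := by
    have := map_dvd (Int.castRingHom O) (h m)
    simpa using this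
  have h2 : (v : O) * τ - u = v * (τ - t m) - ((u - t m * v : ℤ) : O) := by push_cast; ring
  rw [h2]
  exact dvd_sub (dvd_mul_of_dvd_right (ht m) _) h1

/-- a rational number which is integral over `ℤ` in a domain of characteristic zero -/
theorem int_of_isIntegral {O : Type*} [CommRing O] [IsDomain O] [CharZero O] (τ : O)
    (hτ : IsIntegral ℤ τ) (u v : ℤ) (hv : v ≠ 0) (h : (v : O) * τ = u) : ∃ n : ℤ, τ = n := by
  let K := FractionRing O
  haveI : CharZero K := by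
    refine ⟨fun a b hab => ?_⟩
    have : algebraMap O K (a : O) = algebraMap O K (b : O) := by simpa using hab
    exact Nat.cast_injective (IsFractionRing.injective O K this)
  have h1 : IsIntegral ℤ (algebraMap O K τ) := hτ.map (IsScalarTower.toAlgHom ℤ O K)
  have hvK : (v : K) ≠ 0 := by exact_mod_cast hv
  have h2 : algebraMap O K τ = algebraMap ℚ K ((u : ℚ) / v) := by
    have := congrArg (algebraMap O K) h
    rw [map_mul, map_intCast, map_intCast] at this
    rw [map_div₀, map_intCast, map_intCast, eq_div_iff hvK, mul_comm]; exact this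
  rw [h2] at h1
  have h3 : IsIntegral ℤ ((u : ℚ) / v) := by
    obtain ⟨P, hP, hP0⟩ := h1
    refine ⟨P, hP, (algebraMap ℚ K).injective ?_⟩
    rw [map_zero, Polynomial.hom_eval₂, ← hP0]
    congr 1
    exact RingHom.ext_int _ _
  obtain ⟨n, hn⟩ := IsIntegrallyClosed.isIntegral_iff.mp h3
  refine ⟨n, IsFractionRing.injective O K ?_⟩
  rw [h2, ← hn]; simp

/-- `τ` rational, `s ^ 2 = 3` (or any squarefree `q`), `τ * s` integral ⟹ `τ ∈ ℤ` -/
theorem int_of_isIntegral_mul {O : Type*} [CommRing O] [IsDomain O] [CharZero O] (τ s : O) (q : ℤ)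
    (hq : Squarefree q) (hs : s ^ 2 = q)
    (hτ : IsIntegral ℤ (τ * s)) (u v : ℤ) (hv : v ≠ 0) (h : (v : O) * τ = u) : ∃ n : ℤ, τ = n := by
  have h2 : ((v ^ 2 : ℤ) : O) * (τ * s) ^ 2 = ((u ^ 2 * q : ℤ) : O) := by
    push_cast; rw [← h, ← hs]; ring
  obtain ⟨n, hn⟩ := int_of_isIntegral _ (hτ.pow 2) _ _ (pow_ne_zero 2 hv) h2
  rw [hn] at h2
  have h3 : v ^ 2 * n = u ^ 2 * q := by exact_mod_cast h2
  -- reduce the fraction
  obtain ⟨g, u', v', hg, hco, hu, hv'⟩ := Int.exists_gcd_one' (m := u) (n := v)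
    (Int.gcd_pos_of_ne_zero_right u hv)
  have hg0 : (g : ℤ) ≠ 0 := by exact_mod_cast hg.ne'
  have h4 : v' ^ 2 * n = u' ^ 2 * q := by
    apply mul_left_cancel₀ (pow_ne_zero 2 hg0)
    rw [hu, hv'] at h3; linear_combination h3
  have hc : IsCoprime (v' ^ 2) (u' ^ 2) := IsCoprime.pow (Int.isCoprime_iff_gcd_eq_one.mpr hco).symm
  have h5 : v' ^ 2 ∣ q := hc.dvd_of_dvd_mul_left ⟨n, h4.symm⟩
  have h6 : IsUnit v' := hq v' (by rwa [← sq])
  have h7 : ((g : ℤ) : O) * ((v' : O) * τ - u') = 0 := by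
    rw [hu, hv'] at h; push_cast at h ⊢; linear_combination h
  have h8 : (v' : O) * τ = u' :=
    sub_eq_zero.mp ((mul_eq_zero.mp h7).resolve_left (by exact_mod_cast hg.ne'))
  rcases Int.isUnit_iff.mp h6 with h9 | h9
  · exact ⟨u', by rw [← h8, h9]; simp⟩
  · exact ⟨-u', by rw [Int.cast_neg, ← h8, h9]; simp⟩

end Crest.Agent.T15.Rat
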