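import Crest.Agent.R013.TP1_928
import Crest.Agent.T15.RhoA_86
import Crest.Agent.T15.Rat_42

/-!
# Row 15, blocks F / Ht (helper64): the Frobenius clauses on the `3`-power torsion

* `eblock_alg`, `eblock_y` : Cayley-Hamilton on the image of `j ^ 2 - 3`;
* `eblock`, `ablock` : transfer from the Tate module to the torsion.
-/

set_option autoImplicit false

namespace Crest.Agent.T15.Eb

open Module

section alg

variable {R : Type*} [CommRing R] [IsDomain R] [IsPrincipalIdealRing R]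
  {W : Type*} [AddCommGroup W] [Module R W] [Module.Finite R W] [Module.IsTorsionFree R W]

/-- Cayley-Hamilton on a stable submodule of rank at most two carrying a non-degenerate
alternating form. -/
theorem ch_two (V : Submodule R W) (hV : finrank R V ≤ 2) (e : W →ₗ[R] W →ₗ[R] R)
    (alt : ∀ x, e x x = 0) (nd : ∀ x ∈ V, (∀ y ∈ V, e x y = 0) → x = 0) (s : Module.End R W)
    (hs : ∀ x ∈ V, s x ∈ V) (c : R) (he : ∀ x y, e (s x) (s y) = c * e x y) :
    ∃ τ : R, ∀ x ∈ V, s (s x) - τ • s x + c • x = 0 := by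
  have swap : ∀ x y, e y x = -e x y := fun x y => by
    have := alt (x + y)
    simp only [map_add, LinearMap.add_apply, alt] at this
    linear_combination this
  have hf : Module.Free R V := inferInstance
  obtain h | h | h : finrank R V = 0 ∨ finrank R V = 1 ∨ finrank R V = 2 := by omega
  · refine ⟨0, fun x hx => ?_⟩
    have : Subsingleton V := Module.finrank_zero_iff.1 h
    have h0 : x = 0 := congrArg Subtype.val (Subsingleton.elim (⟨x, hx⟩ : V) 0)
    simp [h0]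
  · let b := Module.finBasisOfFinrankEq R V h
    refine ⟨0, fun x hx => ?_⟩
    have hr : ∀ y (hy : y ∈ V), y = b.repr ⟨y, hy⟩ 0 • (b 0 : W) := fun y hy => by
      have := congrArg Subtype.val (b.sum_repr ⟨y, hy⟩)
      simpa using this.symm
    have h0 : x = 0 := nd x hx fun y hy => by
      rw [hr x hx, hr y hy]; simp [alt]
    simp [h0]
  · let b := Module.finBasisOfFinrankEq R V h
    have hr : ∀ y ∈ V, ∃ a a' : R, y = a • (b 0 : W) + a' • (b 1 : W) := fun y hy => by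
      have := congrArg Subtype.val (b.sum_repr ⟨y, hy⟩)
      rw [Fin.sum_univ_two] at this
      exact ⟨_, _, this.symm⟩
    obtain ⟨p, q, h0⟩ := hr _ (hs _ (b 0).2)
    obtain ⟨r, t, h1⟩ := hr _ (hs _ (b 1).2)
    have hne : e (b 0) (b 1) ≠ 0 := fun h' => by
      have : (b 0 : W) = 0 := nd _ (b 0).2 fun y hy => by
        obtain ⟨a, a', rfl⟩ := hr y hy
        simp [alt, h']
      exact b.ne_zero 0 (Subtype.ext this)
    have hd : p * t - q * r = c := by
      have := he (b 0) (b 1)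
      rw [h0, h1] at this
      simp only [map_add, map_smul, LinearMap.add_apply, LinearMap.smul_apply, alt, smul_eq_mul,
        swap (b 0 : W) (b 1)] at this
      apply mul_right_cancel₀ hne
      linear_combination this
    refine ⟨p + t, fun x hx => ?_⟩
    obtain ⟨a, a', rfl⟩ := hr x hx
    simp only [map_add, map_smul, h0, h1, ← hd]
    module

/-- the `E`-block: Cayley-Hamilton on the image of `j ^ 2 - q` -/
theorem eblock_alg (q : R) (hq : q ≠ 0) (j : Module.End R W) (hj : ∀ x, j (j (j x)) = q • j x)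
    (T : Submodule R W) (hT : ∀ x ∈ T, j (j x) = q • x) (hr : finrank R W ≤ finrank R T + 2)
    (e : W →ₗ[R] W →ₗ[R] R) (alt : ∀ x, e x x = 0) (nd : ∀ x, (∀ y, e x y = 0) → x = 0)
    (ad : ∀ x y, e (j x) y = e x (j y)) (s : Module.End R W) (hs : ∀ x, s (j x) = j (s x))
    (c : R) (he : ∀ x y, e (s x) (s y) = c * e x y) :
    ∃ τ : R, ∀ x, j (j (s (s x) - τ • s x + c • x)) = q • (s (s x) - τ • s x + c • x) := by
  set N : Module.End R W := j * j - q • 1 with hN
  have hNa : ∀ x, N x = j (j x) - q • x := fun x => by simp [hN]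
  have h1 : finrank R (LinearMap.range N) + finrank R (LinearMap.ker N) = finrank R W := by
    rw [← (LinearMap.quotKerEquivRange N).finrank_eq]
    exact Submodule.finrank_quotient_add_finrank _
  have h2 : finrank R T ≤ finrank R (LinearMap.ker N) :=
    Submodule.finrank_mono fun x hx => by rw [LinearMap.mem_ker, hNa, hT x hx, sub_self]
  have hnd : ∀ x ∈ LinearMap.range N, (∀ y ∈ LinearMap.range N, e x y = 0) → x = 0 := by
    rintro _ ⟨z, rfl⟩ h
    refine nd _ fun y => ?_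
    have h3 := h _ ⟨y, rfl⟩
    have h4 : j (N z) = 0 := by rw [hNa, map_sub, map_smul, hj, sub_self]
    rw [hNa y, map_sub, map_smul, ← ad, h4, map_zero, LinearMap.zero_apply, zero_sub, neg_eq_zero,
      smul_eq_mul] at h3
    exact (mul_eq_zero.1 h3).resolve_left hq
  obtain ⟨τ, hτ⟩ := ch_two (LinearMap.range N) (by omega) e alt hnd s
    (by rintro _ ⟨x, rfl⟩; exact ⟨s x, by simp [hNa, hs]⟩) c he
  refine ⟨τ, fun x => ?_⟩
  have := hτ _ ⟨x, rfl⟩
  rw [← sub_eq_zero, ← this]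
  simp only [hNa, map_add, map_sub, map_smul, hs]
  module

end alg

section three

variable {W : Type*} [AddCommGroup W] [Module ℤ_[3] W] [Module.Finite ℤ_[3] W]
  [Module.IsTorsionFree ℤ_[3] W]

/-- the part where `j ^ 2 = 3` has rank at least four -/
theorem four_le (y j : Module.End ℤ_[3] W) (hy : ∀ x, y (y x) = -x)
    (hyj : ∀ x, j (y x) = -y (j x)) (hj : ∀ x, j (j (j x)) = (3 : ℤ_[3]) • j x) (hne : j ≠ 0) :
    ∃ T : Submodule ℤ_[3] W, (∀ x, x ∈ T ↔ j (j x) = (3 : ℤ_[3]) • x) ∧ 4 ≤ finrank ℤ_[3] T := by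
  obtain ⟨z, hz⟩ : ∃ z, j z ≠ 0 := by
    by_contra h
    push Not at h
    exact hne (LinearMap.ext h)
  let T := LinearMap.ker (j * j - (3 : ℤ_[3]) • 1)
  have hT : ∀ x, x ∈ T ↔ j (j x) = (3 : ℤ_[3]) • x := fun x => by
    simp [T, sub_eq_zero]
  refine ⟨T, hT, ?_⟩
  set x := j z with hx
  have h0 : j (j x) = (3 : ℤ_[3]) • x := hj z
  let v : Fin 4 → T := ![⟨x, (hT _).2 h0⟩, ⟨y x, (hT _).2 (by simp [hyj, h0])⟩,
    ⟨j x, (hT _).2 (hj x)⟩, ⟨y (j x), (hT _).2 (by simp [hyj, hj])⟩]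
  have hv : LinearIndependent ℤ_[3] v := by
    rw [Fintype.linearIndependent_iff]
    intro c hc
    have h1 : c 0 • x + c 1 • y x + c 2 • j x + c 3 • y (j x) = 0 := by
      have := congrArg Subtype.val hc
      rw [Fin.sum_univ_four] at this
      exact this
    have h2 := congrArg y h1
    have h3 := congrArg j h1
    have h4 := congrArg y h3
    simp only [map_add, map_smul, map_zero, map_neg, hy, hyj, h0] at h2 h3 h4
    have h5 : Rho.nr (⟨c 0, c 1, c 2, c 3⟩ : Rho.H (-1)) • x = 0 := by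
      simp only [Rho.nr]
      linear_combination (norm := module) c 0 • h1 - c 1 • h2 - c 2 • h3 - c 3 • h4
    have h6 := Rho.eq_zero_of_nr ((smul_eq_zero.1 h5).resolve_right hz)
    intro i
    fin_cases i
    · exact congrArg QuaternionAlgebra.re h6
    · exact congrArg QuaternionAlgebra.imI h6
    · exact congrArg QuaternionAlgebra.imJ h6
    · exact congrArg QuaternionAlgebra.imK h6
  simpa using hv.fintype_card_le_finrank

/-- the `E`-block on a module of rank at most six -/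
theorem eblock_y (hr : finrank ℤ_[3] W ≤ 6) (y j : Module.End ℤ_[3] W) (hy : ∀ x, y (y x) = -x)
    (hyj : ∀ x, j (y x) = -y (j x)) (hj : ∀ x, j (j (j x)) = (3 : ℤ_[3]) • j x) (hne : j ≠ 0)
    (e : W →ₗ[ℤ_[3]] W →ₗ[ℤ_[3]] ℤ_[3]) (alt : ∀ x, e x x = 0)
    (nd : ∀ x, (∀ y, e x y = 0) → x = 0) (ad : ∀ x y, e (j x) y = e x (j y))
    (s : Module.End ℤ_[3] W) (hs : ∀ x, s (j x) = j (s x)) (c : ℤ_[3])
    (he : ∀ x y, e (s x) (s y) = c * e x y) :
    ∃ τ : ℤ_[3], ∀ x,
      j (j (s (s x) - τ • s x + c • x)) = (3 : ℤ_[3]) • (s (s x) - τ • s x + c • x) := by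
  obtain ⟨T, hT, h4⟩ := four_le y j hy hyj hj hne
  exact eblock_alg 3 Rho.three_ne j hj T (fun x hx => (hT x).1 hx) (by omega) e alt nd ad s hs c he

end three

section tate

open Crest.Agent.R013.TP_928

variable {p : ℕ} [hp : Fact p.Prime] {A : Type*} [AddCommGroup A]

/-- the integer approximations of a `p`-adic integer -/
noncomputable def ap (τ : ℤ_[p]) (m : ℕ) : ℤ := rp τ m

theorem ap_smul (τ : ℤ_[p]) (u : Tate p A) (m : ℕ) : (τ • u) m = ap τ m • u m := by
  rw [Tate.smul_apply, ap, natCast_zsmul]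

theorem dvd_sub_ap (τ : ℤ_[p]) (m : ℕ) : ((p : ℕ) : ℤ_[p]) ^ m ∣ τ - (ap τ m : ℤ) := by
  rw [← Ideal.mem_span_singleton, ← PadicInt.ker_toZModPow, RingHom.mem_ker, map_sub, ap,
    Int.cast_natCast, map_natCast, natCast_rp, sub_self]

theorem eq_zero_of_dvd (x : ℤ_[p]) (h : ∀ m, ((p : ℕ) : ℤ_[p]) ^ m ∣ x) : x = 0 :=
  PadicInt.ext_of_toZModPow.1 fun n => by
    rw [map_zero, ← RingHom.mem_ker, PadicInt.ker_toZModPow, Ideal.mem_span_singleton]
    exact h n

/-- a rational relation between the approximations holds in the limit -/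
theorem limit_ap (τ : ℤ_[p]) {u v : ℤ} (h : ∀ m, (p : ℤ) ^ m ∣ u - ap τ m * v) :
    (v : ℤ_[p]) * τ = u :=
  Rat.limit_eq p eq_zero_of_dvd (ap τ) τ (dvd_sub_ap τ) u v h

/-- the last clause of the link: `a = φ τ * s` -/
theorem limit_mul {O : Type*} [CommRing O] (φ : ℤ_[p] →+* O) (τ : ℤ_[p]) (s : O) {u v : ℤ}
    (h : ∀ m, (p : ℤ) ^ m ∣ u - ap τ m * v) : (v : O) * (φ τ * s) = u * s := by
  have := congrArg φ (limit_ap τ h)
  rw [map_mul, map_intCast, map_intCast] at this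
  rw [← mul_assoc, this]

/-- **E-block**, transfer to the torsion -/
theorem eblock_of (hl : ∀ m (ξ : A), (p ^ m) • ξ = 0 → ∃ u : Tate p A, u m = ξ) (J S : A →+ A)
    (q l : ℕ) (τ : ℤ_[p])
    (h : ∀ x : Tate p A, Tate.map J (Tate.map J (Tate.map S (Tate.map S x) - τ • Tate.map S x +
      (l : ℤ_[p]) • x)) = (q : ℤ_[p]) • (Tate.map S (Tate.map S x) - τ • Tate.map S x +
      (l : ℤ_[p]) • x)) (m : ℕ) (ξ : A) (hξ : (p ^ m) • ξ = 0) :
    J (J (S (S ξ) - ap τ m • S ξ + l • ξ)) = q • (S (S ξ) - ap τ m • S ξ + l • ξ) := by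
  obtain ⟨u, rfl⟩ := hl m ξ hξ
  have := congrArg (fun w : Tate p A => w m) (h u)
  simpa only [Tate.map_apply, Tate.add_apply, Tate.sub_apply, Tate.natCast_smul_apply,
    ap_smul τ] using this

/-- **A-block**, transfer to the torsion; `B` is `1` or `J` -/
theorem ablock_of (hl : ∀ m (ξ : A), (p ^ m) • ξ = 0 → ∃ u : Tate p A, u m = ξ) (J S B : A →+ A)
    (hS : ∀ x, J (S x) = S (J x)) (hB : ∀ x, J (B x) = B (J x)) (l : ℕ) (τ : ℤ_[p])
    (h : ∀ x : Tate p A, Tate.map S (Tate.map S (Tate.map J x)) + (l : ℤ_[p]) • Tate.map J x =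
      τ • Tate.map B (Tate.map S (Tate.map J x))) (m : ℕ) (ξ : A) (hξ : (p ^ m) • ξ = 0) :
    J (S (S ξ) - ap τ m • B (S ξ) + l • ξ) = 0 := by
  obtain ⟨u, rfl⟩ := hl m ξ hξ
  have := congrArg (fun w : Tate p A => w m) (h u)
  simp only [Tate.map_apply, Tate.add_apply, Tate.natCast_smul_apply, ap_smul τ] at this
  simp only [map_add, map_sub, map_zsmul, map_nsmul, hS, hB]
  rw [← this]
  abel

/-- **E-block** on the `3`-power torsion of an abelian group -/
theorem eblock {A : Type*} [AddCommGroup A] [Module.Finite ℤ_[3] (Tate 3 A)]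
    (hr : finrank ℤ_[3] (Tate 3 A) ≤ 6)
    (hl : ∀ m (ξ : A), (3 ^ m) • ξ = 0 → ∃ u : Tate 3 A, u m = ξ) (Y J S : A →+ A)
    (hy : ∀ m (x : A), (3 ^ m) • x = 0 → Y (Y x) = -x)
    (hyj : ∀ m (x : A), (3 ^ m) • x = 0 → J (Y x) = -Y (J x))
    (hj : ∀ m (x : A), (3 ^ m) • x = 0 → J (J (J x)) = 3 • J x)
    (hne : ∃ (m : ℕ) (x : A), (3 ^ m) • x = 0 ∧ J x ≠ 0)
    (hs : ∀ m (x : A), (3 ^ m) • x = 0 → S (J x) = J (S x))
    (e : Tate 3 A →ₗ[ℤ_[3]] Tate 3 A →ₗ[ℤ_[3]] ℤ_[3]) (alt : ∀ x, e x x = 0)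
    (nd : ∀ x, (∀ y, e x y = 0) → x = 0)
    (ad : ∀ x y, e (Tate.map J x) y = e x (Tate.map J y)) (l : ℕ)
    (he : ∀ x y, e (Tate.map S x) (Tate.map S y) = l * e x y) :
    ∃ t : ℕ → ℤ, ∀ m (ξ : A), (3 ^ m) • ξ = 0 →
      J (J (S (S ξ) - t m • S ξ + l • ξ)) = 3 • (S (S ξ) - t m • S ξ + l • ξ) := by
  obtain ⟨τ, hτ⟩ := eblock_y hr (Tate.map Y) (Tate.map J)
    (fun x => Tate.ext fun n => hy n _ (x.pow_smul_apply n))
    (fun x => Tate.ext fun n => hyj n _ (x.pow_smul_apply n))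
    (fun x => Tate.ext fun n => by
      have := Tate.natCast_smul_apply 3 (Tate.map J x) n
      rw [Nat.cast_ofNat] at this
      rw [this]
      exact hj n _ (x.pow_smul_apply n))
    (fun h0 => by
      obtain ⟨m, x, hx, hJ⟩ := hne
      obtain ⟨u, rfl⟩ := hl m x hx
      exact hJ (congrArg (fun f : Module.End ℤ_[3] (Tate 3 A) => f u m) h0))
    e alt nd ad (Tate.map S) (fun x => Tate.ext fun n => hs n _ (x.pow_smul_apply n)) l he
  exact ⟨ap τ, eblock_of hl J S 3 l τ (by simpa only [Nat.cast_ofNat] using hτ)⟩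

end tate

end Crest.Agent.T15.Eb
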