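import Crest.Agent.T15.Hk_62

/-!
# Row 15, block R (helper78): systems of eigenvalues and eigenvectors on `Hom(Γ, A)`

* `eig`: a character of a commutative algebra killing the annihilator of `V` has an eigenvector;
* `W A c p`: the operator on `Hom(Γ, A)` of a non-commutative integer polynomial `p`;
* `eig_HH`: a family `a` satisfying every integer relation of the `T (c i)` is a system of
  eigenvalues on `Hom(Γ, K)`;
* `last_step`, `theta_point`: the two ends of the `R = T` argument.
-/

set_option autoImplicit false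

noncomputable section

namespace Crest.Agent.T15.Eig

open Crest.Agent.T15.Hk

section abstract
variable {K A V : Type*} [Field K] [CommRing A] [Algebra K A] [AddCommGroup V] [Module K V]
  [Module A V] [IsScalarTower K A V]

omit [Module K V] [IsScalarTower K A V] in
lemma exists_socle (I : Ideal A) : ∀ (n : ℕ) (N : Submodule A V), N ≠ ⊥ → I ^ n • N = ⊥ →
    ∃ v ∈ N, v ≠ 0 ∧ ∀ y ∈ I, y • v = 0
  | 0, N, hN, h => absurd (by simpa using h) hN
  | n + 1, N, hN, h => by
    by_cases h1 : I • N = ⊥
    · obtain ⟨v, hv, hv0⟩ := N.exists_mem_ne_zero_of_ne_bot hN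
      exact ⟨v, hv, hv0, fun y hy => (Submodule.mem_bot A).1 (h1 ▸ Submodule.smul_mem_smul hy hv)⟩
    · obtain ⟨v, hv, h2⟩ := exists_socle I n (I • N) h1 (by rwa [← mul_smul, ← pow_succ])
      exact ⟨v, Submodule.smul_le_right hv, h2⟩

/-- a character in the support has an eigenvector -/
theorem eig [FiniteDimensional K V] (x : A →ₐ[K] K) (h : ∀ s : A, (∀ v : V, s • v = 0) → x s = 0) :
    ∃ v : V, v ≠ 0 ∧ ∀ s : A, s • v = x s • v := by
  have := isArtinian_of_tower K (inferInstance : IsArtinian K V) (S := A)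
  have := isNoetherian_of_tower K (inferInstance : IsNoetherian K V) (S := A)
  set I : Ideal A := RingHom.ker x.toRingHom with hI
  obtain ⟨n, hn⟩ := IsArtinian.monotone_stabilizes (R := A) (M := V)
    ⟨fun n => OrderDual.toDual (I ^ n • (⊤ : Submodule A V)), fun a b hab =>
      Submodule.smul_mono_left (Ideal.pow_le_pow_right hab)⟩
  have h1 : I ^ n • (⊤ : Submodule A V) = I ^ (n + 1) • ⊤ := hn (n + 1) n.le_succ
  obtain ⟨r, hr, hr0⟩ := Submodule.exists_sub_one_mem_and_smul_eq_zero_of_fg_of_le_smul I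
    (I ^ n • (⊤ : Submodule A V)) (IsNoetherian.noetherian _)
    (by rw [← mul_smul, ← pow_succ', ← h1])
  have hx : x r = 1 := by
    have : x (r - 1) = 0 := hr
    rwa [map_sub, map_one, sub_eq_zero] at this
  obtain ⟨v, -, hv0, hv⟩ := exists_socle I n (Ideal.span {r} • (⊤ : Submodule A V)) (fun h0 => by
      have := h r fun v => (Submodule.mem_bot A).1
        (h0 ▸ Submodule.smul_mem_smul (Ideal.mem_span_singleton_self r) Submodule.mem_top)
      rw [hx] at this; exact one_ne_zero this) (by
      rw [← mul_smul, mul_comm, mul_smul, eq_bot_iff, Submodule.smul_le]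
      intro a ha w hw
      obtain ⟨b, rfl⟩ := Ideal.mem_span_singleton'.1 ha
      rw [mul_smul, hr0 w hw, smul_zero]; exact Submodule.zero_mem _)
  refine ⟨v, hv0, fun s => ?_⟩
  have := hv (s - algebraMap K A (x s)) (by simp [hI, RingHom.mem_ker])
  rwa [sub_smul, algebraMap_smul, sub_eq_zero] at this

end abstract

variable {G : Type*} [Group G] {Γ : Subgroup G} {ι : Type*}

/-- the operator of a non-commutative integer polynomial -/
def W (A : Type*) [AddCommGroup A] (c : ι → Corr ℤ Γ Γ) :
    FreeAlgebra ℤ ι →ₐ[ℤ] Module.End ℤ (HH Γ A) := FreeAlgebra.lift ℤ fun i => T A (c i)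

variable (c : ι → Corr ℤ Γ Γ) {A B : Type*} [AddCommGroup A] [AddCommGroup B]

@[simp] lemma W_ι (i : ι) : W A c (FreeAlgebra.ι ℤ i) = T A (c i) := FreeAlgebra.lift_ι_apply _ _

lemma T_nat (d : Corr ℤ Γ Γ) (f : A →+ B) (φ : HH Γ A) : T B d (f.comp φ) = f.comp (T A d φ) :=
  T_comp d f.toIntLinearMap φ

lemma W_nat (p : FreeAlgebra ℤ ι) (f : A →+ B) (φ : HH Γ A) :
    W B c p (f.comp φ) = f.comp (W A c p φ) := by
  induction p using FreeAlgebra.induction generalizing φ with
  | grade0 r => ext γ; simp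
  | grade1 i => simp [T_nat]
  | mul p q hp hq => rw [map_mul, map_mul, Module.End.mul_apply, Module.End.mul_apply, hq, hp]
  | add p q hp hq =>
    rw [map_add, map_add, LinearMap.add_apply, LinearMap.add_apply, hp, hq, AddMonoidHom.comp_add]

lemma kills_of_sep (hsep : ∀ a : A, (∀ f : A →+ B, f a = 0) → a = 0) {p : FreeAlgebra ℤ ι}
    (h : W B c p = 0) : W A c p = 0 := by
  ext φ γ
  refine hsep _ fun f => ?_
  have := W_nat c p f φ
  rw [h] at this
  exact (DFunLike.congr_fun this _).symm

lemma sep_rat [IsAddTorsionFree A] (a : A) (h : ∀ f : A →+ ℚ, f a = 0) : a = 0 := by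
  by_contra ha
  obtain ⟨f, hf⟩ := (Module.Baer.of_divisible ℚ).extension_property_addMonoidHom
    (zmultiplesHom A a) (fun m n hmn => zsmul_left_injective' ha hmn) (Int.castAddHom ℚ)
  have := DFunLike.congr_fun hf 1
  simp [h f] at this
where
  zsmul_left_injective' {a : A} (ha : a ≠ 0) {m n : ℤ} (h : m • a = n • a) : m = n :=
    smul_left_injective ℤ ha h

/-- relations on `Hom(Γ, ℚ)` hold for torsion-free coefficients -/
lemma kills_of_rat [IsAddTorsionFree A] {p : FreeAlgebra ℤ ι} (h : W ℚ c p = 0) : W A c p = 0 :=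
  kills_of_sep c sep_rat h

lemma kills_of_inj (f : A →+ B) (hf : Function.Injective f) {p : FreeAlgebra ℤ ι}
    (h : W B c p = 0) : W A c p = 0 :=
  kills_of_sep c (fun _ ha => hf (by rw [ha f, map_zero])) h

/-- an eigenvector evaluates the polynomials -/
lemma W_eig {R : Type*} [CommRing R] [Module R A] {a : ι → R} {φ : HH Γ A}
    (h : ∀ i, T A (c i) φ = a i • φ) (p : FreeAlgebra ℤ ι) :
    W A c p φ = FreeAlgebra.lift ℤ a p • φ := by
  induction p using FreeAlgebra.induction with
  | grade0 r => simp [Int.cast_smul_eq_zsmul]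
  | grade1 i => simp [h]
  | mul p q hp hq =>
    rw [map_mul, map_mul, Module.End.mul_apply, hq, mul_comm, mul_smul, ← hp]
    exact W_nat c p (DistribSMul.toAddMonoidHom A (FreeAlgebra.lift ℤ a q)) φ
  | add p q hp hq => rw [map_add, map_add, LinearMap.add_apply, hp, hq, add_smul]

/-- `W` as an `R`-linear operator -/
def WL (R : Type*) [CommRing R] (A : Type*) [AddCommGroup A] [Module R A] (c : ι → Corr ℤ Γ Γ)
    (p : FreeAlgebra ℤ ι) : Module.End R (HH Γ A) where
  toFun := W A c p
  map_add' := map_add _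
  map_smul' r φ := W_nat c p (DistribSMul.toAddMonoidHom A r) φ

@[simp] lemma WL_apply (R : Type*) [CommRing R] [Module R A] (p : FreeAlgebra ℤ ι) (φ : HH Γ A) :
    WL R A c p φ = W A c p φ := rfl

lemma lift_map {R S F : Type*} [CommRing R] [CommRing S] [FunLike F R S] [RingHomClass F R S]
    (f : F) (a : ι → R) (p : FreeAlgebra ℤ ι) :
    f (FreeAlgebra.lift ℤ a p) = FreeAlgebra.lift ℤ (fun i => f (a i)) p := by
  induction p using FreeAlgebra.induction with
  | grade0 r => simp
  | grade1 i => simp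
  | mul p q hp hq => simp [hp, hq]
  | add p q hp hq => simp [hp, hq]

lemma lift_eq_aeval {R : Type*} [CommRing R] (a : ι → R) (p : FreeAlgebra ℤ ι) :
    FreeAlgebra.lift ℤ a p = MvPolynomial.aeval a (FreeAlgebra.lift ℤ MvPolynomial.X p :
      MvPolynomial ι ℤ) := by
  induction p using FreeAlgebra.induction with
  | grade0 r => simp
  | grade1 i => simp
  | mul p q hp hq => simp [hp, hq]
  | add p q hp hq => simp [hp, hq]

instance finite_HH (R : Type*) [CommRing R] [IsNoetherianRing R] [Module R A] [Module.Finite R A]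
    [Group.FG Γ] : Module.Finite R (HH Γ A) := by
  obtain ⟨S, hS⟩ := Group.fg_def.1 (inferInstance : Group.FG Γ)
  let e : HH Γ A →ₗ[R] (S → A) :=
    { toFun := fun φ s => φ (Additive.ofMul s.1)
      map_add' := fun _ _ => rfl
      map_smul' := fun _ _ => rfl }
  refine Module.Finite.of_injective e ((injective_iff_map_eq_zero e).2 fun φ hφ => ?_)
  have : AddMonoidHom.toMultiplicativeRight φ = 1 :=
    MonoidHom.eq_of_eqOn_dense hS fun s hs => congrFun hφ ⟨s, hs⟩
  ext γ
  exact DFunLike.congr_fun this γ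

section field
variable {K : Type*} [Field K] [CharZero K]

lemma rel_field {a : ι → K} (h : ∀ p, W ℚ c p = 0 → FreeAlgebra.lift ℤ a p = 0) {κ : Type*}
    [Fintype κ] (k : κ → K) (p : κ → FreeAlgebra ℤ ι) (h0 : ∑ j, k j • WL K K c (p j) = 0) :
    ∑ j, k j * FreeAlgebra.lift ℤ a (p j) = 0 := by
  classical
  have h1 : ∀ l : K →ₗ[ℚ] ℚ, ∑ j, (l (k j) : K) * FreeAlgebra.lift ℤ a (p j) = 0 := fun l => by
    obtain ⟨N, hN⟩ := IsLocalization.exist_integer_multiples_of_finite (nonZeroDivisors ℤ)
      fun j => l (k j)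
    choose m hm using hN
    have hN0 : ((N : ℤ) : K) ≠ 0 := Int.cast_ne_zero.2 (nonZeroDivisors.ne_zero N.2)
    have h2 := h (∑ j, m j • p j) (by
      ext φ γ
      have h3 := congrArg l (DFunLike.congr_fun
        (LinearMap.congr_fun h0 ((Rat.castHom K).toAddMonoidHom.comp φ)) (Additive.ofMul γ))
      simp only [LinearMap.sum_apply, LinearMap.smul_apply, WL_apply,
        W_nat, AddMonoidHom.finsetSum_apply, AddMonoidHom.smul_apply, AddMonoidHom.comp_apply,
        map_sum, LinearMap.zero_apply, AddMonoidHom.zero_apply, map_zero] at h3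
      have h4 : ∀ j (q : ℚ), l (k j • (Rat.castHom K).toAddMonoidHom q) = l (k j) * q :=
        fun j q => by
          rw [mul_comm, ← smul_eq_mul q, ← l.map_smul, smul_eq_mul, Rat.smul_def, mul_comm]; rfl
      simp only [h4] at h3
      have h5 := congrArg ((N : ℤ) • ·) h3
      simp only [Finset.smul_sum, ← smul_mul_assoc, ← hm, smul_zero] at h5
      simpa using h5)
    apply mul_left_cancel₀ hN0
    rw [mul_zero, ← h2, Finset.mul_sum, map_sum]
    refine Finset.sum_congr rfl fun j _ => ?_
    have h6 : ((m j : ℤ) : K) = ((N : ℤ) : K) * (l (k j) : K) := by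
      have := congrArg (Rat.cast : ℚ → K) (hm j)
      simpa using this
    rw [map_zsmul, zsmul_eq_mul, h6, mul_assoc]
  let b := Module.Basis.ofVectorSpace ℚ K
  let s := Finset.univ.biUnion fun j => (b.repr (k j)).support
  have h7 : ∀ j, k j = ∑ β ∈ s, b β * (b.coord β (k j) : K) := fun j => by
    conv_lhs => rw [← b.linearCombination_repr (k j), Finsupp.linearCombination_apply]
    rw [Finsupp.sum_of_support_subset _
      (Finset.subset_biUnion_of_mem (fun j => (b.repr (k j)).support) (Finset.mem_univ j)) _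
      (by simp)]
    exact Finset.sum_congr rfl fun β _ => by simp [Rat.smul_def, mul_comm]
  rw [Finset.sum_congr rfl fun j _ => by rw [h7 j, Finset.sum_mul], Finset.sum_comm]
  refine Finset.sum_eq_zero fun β _ => ?_
  simp only [mul_assoc, ← Finset.mul_sum, h1, mul_zero]

/-- **a family satisfying all integer relations is a system of eigenvalues** -/
theorem eig_HH [Group.FG Γ] (hc : ∀ i j, T ℚ (c i) * T ℚ (c j) = T ℚ (c j) * T ℚ (c i))
    {a : ι → K} (h : ∀ p, W ℚ c p = 0 → FreeAlgebra.lift ℤ a p = 0) :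
    ∃ φ : HH Γ K, φ ≠ 0 ∧ ∀ i, T K (c i) φ = a i • φ := by
  let z : FreeAlgebra ℤ ι →* Module.End K (HH Γ K) × K :=
    { toFun := fun p => (WL K K c p, FreeAlgebra.lift ℤ a p)
      map_one' := Prod.ext (LinearMap.ext fun φ => by simp) (map_one _)
      map_mul' := fun p q => Prod.ext (LinearMap.ext fun φ => by simp) (map_mul _ _ _) }
  let s : Set (Module.End K (HH Γ K) × K) := Set.range fun i => z (FreeAlgebra.ι ℤ i)
  have hs : ∀ x ∈ s, ∀ y ∈ s, x * y = y * x := by
    rintro _ ⟨i, rfl⟩ _ ⟨j, rfl⟩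
    refine Prod.ext (LinearMap.ext fun φ => ?_) (mul_comm _ _)
    have := kills_of_rat c (A := K)
      (p := FreeAlgebra.ι ℤ i * FreeAlgebra.ι ℤ j - FreeAlgebra.ι ℤ j * FreeAlgebra.ι ℤ i)
      (by simp [hc i j])
    rw [map_sub, sub_eq_zero, map_mul, map_mul] at this
    exact LinearMap.congr_fun this φ
  let _ : CommRing (Algebra.adjoin K s) :=
    { (inferInstance : Ring (Algebra.adjoin K s)) with
      mul_comm := fun x y => Subtype.ext (Algebra.commute_of_mem_adjoin_of_forall_mem_commute y.2
        fun b hb => (Algebra.commute_of_mem_adjoin_of_forall_mem_commute x.2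
          fun a ha => hs b hb a ha).symm) }
  let π : Algebra.adjoin K s →ₐ[K] Module.End K (HH Γ K) := (AlgHom.fst K _ _).comp (Subalgebra.val _)
  let _ : Module (Algebra.adjoin K s) (HH Γ K) := Module.compHom _ π.toRingHom
  have hsm : ∀ (x : Algebra.adjoin K s) (φ : HH Γ K), x • φ = x.1.1 φ := fun _ _ => rfl
  have : IsScalarTower K (Algebra.adjoin K s) (HH Γ K) := ⟨fun r x φ => rfl⟩
  obtain ⟨φ, h0, hφ⟩ := eig (V := HH Γ K) ((AlgHom.snd K _ _).comp (Algebra.adjoin K s).val)
    fun x hx => by
      have h1 : x.1 ∈ Submodule.span K (Set.range z) := by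
        have h2 : x.1 ∈ (Algebra.adjoin K s).toSubmodule := x.2
        rw [Algebra.adjoin_eq_span] at h2
        refine Submodule.span_mono ?_ h2
        exact (Submonoid.closure_le (S := MonoidHom.mrange z)).2
          (by rintro _ ⟨i, rfl⟩; exact ⟨_, rfl⟩)
      obtain ⟨n, k, p, hp⟩ := Submodule.mem_span_set'.1 h1
      choose q hq using fun j => (p j).2
      simp only [← hq] at hp
      have h3 := rel_field c h k q (by
        have := congrArg Prod.fst hp
        rw [Prod.fst_sum] at this
        exact this.trans (LinearMap.ext hx))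
      have := congrArg Prod.snd hp
      rw [Prod.snd_sum] at this
      exact this.symm.trans h3
  refine ⟨φ, h0, fun i => ?_⟩
  simpa [hsm, z] using hφ ⟨_, Algebra.subset_adjoin ⟨i, rfl⟩⟩

end field

/-- **last step**: relations on `Hom(Γ, A)` (`A` torsion free) are satisfied by `a = j ∘ a₀`; then
`a₀` is a system of eigenvalues on `Hom(Γ, K)` for every ring map to a field of characteristic 0 -/
theorem last_step [Group.FG Γ] [IsAddTorsionFree A]
    (hc : ∀ i j, T ℚ (c i) * T ℚ (c j) = T ℚ (c j) * T ℚ (c i)) {E O K : Type*} [CommRing E]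
    [CommRing O] [Field K] [CharZero K] (j : E →+* O) (hj : Function.Injective j) (σ : E →+* K)
    (a₀ : ι → E) (h : ∀ p, W A c p = 0 → FreeAlgebra.lift ℤ (fun i => j (a₀ i)) p = 0) :
    ∃ φ : HH Γ K, φ ≠ 0 ∧ ∀ i, T K (c i) φ = σ (a₀ i) • φ :=
  eig_HH c hc fun p hp => by
    have := h p (kills_of_rat c hp)
    rw [← lift_map, map_eq_zero_iff j hj] at this
    rw [← lift_map, this, map_zero]

/-- an eigenvector over one field gives the relations -/
lemma rel_of_eig {E K : Type*} [CommRing E] [Field K] [CharZero K] (σ : E →+* K)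
    (hσ : Function.Injective σ) {b₀ : ι → E} {φ : HH Γ K} (h0 : φ ≠ 0)
    (h : ∀ i, T K (c i) φ = σ (b₀ i) • φ) (p : FreeAlgebra ℤ ι) (hp : W ℚ c p = 0) :
    FreeAlgebra.lift ℤ b₀ p = 0 := by
  have := W_eig c h p
  rw [kills_of_rat c hp, ← lift_map, LinearMap.zero_apply, eq_comm, smul_eq_zero] at this
  exact (map_eq_zero_iff σ hσ).1 (this.resolve_right h0)

/-- a non-zero homomorphism to the fraction field of a valuation ring is a multiple of a primitive
integral one -/
lemma exists_primitive [Group.FG Γ] (O : Type*) {K : Type*} [CommRing O] [IsDomain O]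
    [ValuationRing O] [Field K] [Algebra O K] [IsFractionRing O K] {φ : HH Γ K} (h0 : φ ≠ 0) :
    ∃ (v : HH Γ O) (t : K) (γ : Additive Γ), v γ = 1 ∧
      (algebraMap O K).toAddMonoidHom.comp v = t • φ := by
  obtain ⟨S, hS⟩ := Group.fg_def.1 (inferInstance : Group.FG Γ)
  have hne : S.Nonempty ∧ ∃ s ∈ S, φ (Additive.ofMul s) ≠ 0 := by
    by_contra hcon
    have h1 : ∀ s ∈ S, φ (Additive.ofMul s) = 0 := fun s hs => by
      by_contra h2; exact hcon ⟨⟨s, hs⟩, s, hs, h2⟩
    have : AddMonoidHom.toMultiplicativeRight φ = 1 := MonoidHom.eq_of_eqOn_dense hS h1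
    exact h0 (by ext γ; exact DFunLike.congr_fun this γ)
  obtain ⟨s₀, -, hmax⟩ := S.exists_max_image
    (fun s => ValuationRing.valuation O K (φ (Additive.ofMul s))) hne.1
  obtain ⟨s₁, hs₁, h1⟩ := hne.2
  have h2 : φ (Additive.ofMul s₀) ≠ 0 := fun h => h1 (by
    have := hmax s₁ hs₁
    rwa [h, map_zero, le_zero_iff, map_eq_zero] at this)
  set t := (φ (Additive.ofMul s₀))⁻¹ with ht
  have h3 : ∀ γ : Γ, (t • φ) (Additive.ofMul γ) ∈ (algebraMap O K).range := fun γ => by
    have hγ : γ ∈ Subgroup.closure (S : Set Γ) := hS ▸ Subgroup.mem_top γ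
    induction hγ using Subgroup.closure_induction with
    | mem s hs =>
      rw [← ValuationRing.range_algebraMap_eq, Valuation.mem_integer_iff, AddMonoidHom.smul_apply,
        smul_eq_mul, map_mul, ht, map_inv₀, inv_mul_le_one₀ (by simpa [pos_iff_ne_zero] using h2)]
      exact hmax s hs
    | one => simp
    | mul x y _ _ hx hy => rw [ofMul_mul, map_add]; exact add_mem hx hy
    | inv x _ hx => rw [ofMul_inv, map_neg]; exact neg_mem hx
  choose f hf using h3
  have hinj := IsFractionRing.injective O K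
  refine ⟨AddMonoidHom.mk' (fun γ => f γ.toMul) fun x y => hinj ?_, t, Additive.ofMul s₀,
    hinj ?_, ?_⟩
  · rw [(algebraMap O K).map_add, hf, hf, hf]; exact map_add (t • φ) x y
  · rw [map_one]
    refine (hf s₀).trans ?_
    rw [AddMonoidHom.smul_apply, smul_eq_mul, ht, inv_mul_cancel₀ h2]
  · ext γ; exact hf γ

/-- **theta point**: an eigenvector over `K` with eigenvalues in `E` gives a primitive eigenvector
over every valuation ring `O` of characteristic 0 receiving `E` -/
theorem theta_point [Group.FG Γ] (hc : ∀ i j, T ℚ (c i) * T ℚ (c j) = T ℚ (c j) * T ℚ (c i))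
    {E K O : Type*} [CommRing E] [Field K] [CharZero K] [CommRing O] [IsDomain O] [ValuationRing O]
    [CharZero O] (σ : E →+* K) (hσ : Function.Injective σ) (j : E →+* O) {b₀ : ι → E}
    {φ : HH Γ K} (h0 : φ ≠ 0) (h : ∀ i, T K (c i) φ = σ (b₀ i) • φ) :
    ∃ (v : HH Γ O) (γ : Additive Γ), v γ = 1 ∧ ∀ i, T O (c i) v = j (b₀ i) • v := by
  have hinj := IsFractionRing.injective O (FractionRing O)
  have : CharZero (FractionRing O) := charZero_of_injective_algebraMap hinj
  obtain ⟨ψ, hψ0, hψ⟩ := eig_HH c hc (K := FractionRing O)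
    (a := fun i => ((algebraMap O _).comp j) (b₀ i)) fun p hp => by
      rw [← lift_map, rel_of_eig c σ hσ h0 h p hp, map_zero]
  obtain ⟨v, t, γ, h1, h2⟩ := exists_primitive O hψ0
  refine ⟨v, γ, h1, fun i => ?_⟩
  have h3 := T_nat (c i) (algebraMap O (FractionRing O)).toAddMonoidHom v
  have h4 : T (FractionRing O) (c i) (t • ψ) = t • T (FractionRing O) (c i) ψ :=
    T_nat (c i) (DistribSMul.toAddMonoidHom _ t) ψ
  rw [h2, h4, hψ, smul_comm, ← h2] at h3
  ext δ
  apply hinj
  simpa [Algebra.smul_def] using (DFunLike.congr_fun h3 (Additive.ofMul δ)).symm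

/-- reduction of an eigenvector -/
lemma eig_map {O C : Type*} [CommRing O] [CommRing C] (q : O →+* C) {d : Corr ℤ Γ Γ} {b : O}
    {v : HH Γ O} (h : T O d v = b • v) :
    T C d (q.toAddMonoidHom.comp v) = q b • q.toAddMonoidHom.comp v := by
  rw [T_nat, h]; ext γ; simp

/-- the eigenvalue character of a primitive common eigenvector -/
theorem exists_char {O C M : Type*} [CommRing O] [CommRing C] [Algebra O C] [AddCommGroup M]
    [Module C M] [Module O M] [IsScalarTower O C M] {R : Type*} [CommRing R] [Algebra O R]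
    [Module R M] [IsScalarTower O R M] [SMulCommClass R C M] {κ : Type*} {t : κ → R}
    (ht : Algebra.adjoin O (Set.range t) = ⊤) {v : M} (hv : ∀ z : C, z • v = 0 → z = 0)
    {b : κ → C} (h : ∀ i, t i • v = b i • v) :
    ∃ θ : R →ₐ[O] C, (∀ i, θ (t i) = b i) ∧ ∀ s, s • v = θ s • v := by
  have inj : ∀ {z z' : C}, z • v = z' • v → z = z' := fun h =>
    sub_eq_zero.1 (hv _ (by rw [sub_smul, h, sub_self]))
  have ex : ∀ s : R, ∃ z : C, s • v = z • v := fun s => by
    have hs : s ∈ Algebra.adjoin O (Set.range t) := ht ▸ trivial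
    induction hs using Algebra.adjoin_induction with
    | mem x hx => obtain ⟨i, rfl⟩ := hx; exact ⟨_, h i⟩
    | algebraMap r => exact ⟨algebraMap O C r, by simp⟩
    | add x y _ _ hx hy =>
      obtain ⟨a, ha⟩ := hx; obtain ⟨b, hb⟩ := hy
      exact ⟨a + b, by rw [add_smul, add_smul, ha, hb]⟩
    | mul x y _ _ hx hy =>
      obtain ⟨a, ha⟩ := hx; obtain ⟨b, hb⟩ := hy
      exact ⟨a * b, by rw [mul_smul, hb, smul_comm, ha, smul_smul, mul_comm]⟩
  choose f hf using ex
  refine ⟨{ toFun := f
            map_one' := inj (by rw [← hf, one_smul, one_smul])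
            map_mul' := fun x y => inj (by
              rw [← hf, mul_smul, hf y, smul_comm, hf x, smul_smul, mul_comm])
            map_zero' := inj (by rw [← hf, zero_smul, zero_smul])
            map_add' := fun x y => inj (by rw [← hf, add_smul, add_smul, hf, hf])
            commutes' := fun r => inj (by rw [← hf]; simp) }, fun i => inj ?_, hf⟩
  exact (hf _).symm.trans (h i)

end Crest.Agent.T15.Eig

end
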