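import Crest.Agent.T15.MDef_7

/-!
# Row 15 (helper73): the quartic character `ε` from a multiplicative function on `ℤ[i]`
-/

set_option autoImplicit false

noncomputable section

namespace Crest.Agent.T15.C

theorem ii_sq : ii * ii = -1 := by decide

theorem four_cases {R : Type*} [CommRing R] [IsDomain R] {I u : R} (hI : I * I = -1)
    (h : u ^ 4 = 1) : u = 1 ∨ u = -1 ∨ u = I ∨ u = -I := by
  have : (u - 1) * ((u + 1) * ((u - I) * (u + I))) = 0 := by
    linear_combination h - (u ^ 2 - 1) * hI
  simpa only [mul_eq_zero, sub_eq_zero, add_eq_zero_iff_eq_neg] using this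

theorem mul_star_of_four {u : Zi} (h : u ^ 4 = 1) : u * star u = 1 := by
  rcases four_cases ii_sq h with rfl | rfl | rfl | rfl <;> decide

section red
variable {k : Type*} [Field k] (r : Zi →+* k) (h3 : r 3 = 0)
include h3

theorem r_three : (3 : k) = 0 := by rw [← h3, map_ofNat]

theorem r_star (x : Zi) : r (star x) = r x ^ 3 := by
  have := (CharP.charP_iff_prime_eq_zero (R := k) Nat.prime_three).2 (by exact_mod_cast r_three r h3)
  have hI : r ii * r ii = -1 := by rw [← map_mul, ii_sq, map_neg, map_one]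
  have h1 : ∀ a : ℤ, (a : k) ^ 3 = a := fun a => by
    rw [← frobenius_def, map_intCast]
  have h2 : x = x.re + x.im * ii := by ext <;> simp
  have h4 : star x = x.re - x.im * ii := by ext <;> simp
  rw [h4]
  conv_rhs => rw [h2]
  simp only [map_add, map_sub, map_mul, map_intCast]
  rw [add_pow_char, mul_pow, h1, h1]
  linear_combination (-(x.im : k) * r ii) * hI

theorem r_four (x : Zi) : r x ^ 4 = (x.norm : ℤ) := by
  rw [← map_intCast r, Zsqrtd.norm_eq_mul_conj, map_mul, r_star r h3]; ring

theorem r_inj {u v : Zi} (hu : u ^ 4 = 1) (hv : v ^ 4 = 1) (h : r u = r v) : u = v := by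
  have hI : r ii * r ii = -1 := by rw [← map_mul, ii_sq, map_neg, map_one]
  have h1 : r (u * v ^ 3) = 1 := by rw [map_mul, h, ← map_mul, ← pow_succ', hv, map_one]
  have h2 : u * v ^ 3 = 1 := by
    have h0 := r_three r h3
    rcases four_cases (u := u * v ^ 3) ii_sq (by
      rw [mul_pow, hu, ← pow_mul, mul_comm 3, pow_mul, hv, one_pow, one_mul]) with h | h | h | h
    · exact h
    all_goals
      rw [h] at h1
      refine absurd (?_ : (1 : k) = 0) one_ne_zero
    · rw [map_neg, map_one] at h1; linear_combination h0 + h1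
    · rw [h1] at hI; linear_combination h0 - hI
    · rw [map_neg, neg_eq_iff_eq_neg] at h1; rw [h1] at hI; linear_combination h0 - hI
  linear_combination v * h2 - u * hv

omit h3 in
theorem r_surj {a : k} (h : a ^ 4 = 1) : ∃ u : Zi, u ^ 4 = 1 ∧ r u = a := by
  rcases four_cases (I := r ii) (by rw [← map_mul, ii_sq, map_neg, map_one]) h with rfl | rfl | rfl | rfl
  exacts [⟨1, by simp, map_one r⟩, ⟨-1, by decide, by simp⟩, ⟨ii, by decide, rfl⟩,
    ⟨-ii, by decide, map_neg r _⟩]

theorem r_ne {x : Zi} (h : IsCoprime x 3) : r x ≠ 0 := fun h0 => by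
  obtain ⟨a, b, hab⟩ := h
  have := congrArg r hab
  simp [h0, h3] at this

/-- the character `ε` -/
theorem eps_of {m : ℕ} (hm : m ≠ 0) (h4 : 4 ∣ m) (hm3 : ¬ 3 ∣ m) (F : Zi → k)
    (mul : ∀ x y, x ≠ 0 → y ≠ 0 → F (x * y) = F x * F y) (unit : ∀ u, IsUnit u → F u = 1)
    (per : ∀ x, IsCoprime x 3 → (m : Zi) ∣ x - 1 → F x = r x)
    (pr : ∀ x : Zi, Prime x → IsCoprime x (3 * m) → F x ^ 4 = r x ^ 4 ∧ F (star x) = F x ^ 3)
    (inert : ∀ p : ℕ, p.Prime → p % 4 = 3 → IsCoprime (p : Zi) (3 * m) → F p = -p) :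
    ∃ ε : Zi → Zi, Eps m ε ∧ ∀ x : Zi, IsCoprime x (3 * m) → F x = r (x * ε x) := by
  classical
  have n0 : ∀ {x : Zi}, IsCoprime x (3 * m) → x ≠ 0 := fun h h0 =>
    r_ne r h3 h.of_mul_right_left (by rw [h0, map_zero])
  have all : ∀ x : Zi, IsCoprime x (3 * m) → F x ^ 4 = r x ^ 4 ∧ F (star x) = F x ^ 3 := fun x => by
    induction x using UniqueFactorizationMonoid.induction_on_prime with
    | h₁ => exact fun h => absurd rfl (n0 h)
    | h₂ u hu =>
      intro _
      rw [unit u hu, unit _ hu.star, r_four r h3, (Zsqrtd.norm_eq_one_iff' (by norm_num) u).2 hu]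
      simp
    | h₃ a p ha hp ih =>
      intro h
      obtain ⟨h1, h2⟩ := pr p hp h.of_mul_left_left
      obtain ⟨h5, h6⟩ := ih h.of_mul_left_right
      rw [star_mul', mul _ _ (star_ne_zero.2 hp.ne_zero) (star_ne_zero.2 ha), mul _ _ hp.ne_zero ha,
        map_mul, mul_pow, mul_pow, mul_pow, h1, h2, h5, h6]
      exact ⟨rfl, rfl⟩
  have cong : ∀ x y : Zi, IsCoprime x (3 * m) → IsCoprime y (3 * m) → (m : Zi) ∣ x - y →
      F x * r y = F y * r x := fun x y hx hy ⟨c, hc⟩ => by
    obtain ⟨z, b, hz⟩ := hy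
    have hz' : IsCoprime z (3 * m) := ⟨y, b, by rw [← hz]; ring⟩
    have hy : IsCoprime y (3 * m) := ⟨z, b, hz⟩
    have h1 := per (z * x) (hz'.mul_left hx).of_mul_right_left
      ⟨z * c - b * 3, by linear_combination z * hc + hz⟩
    have h2 := per (z * y) (hz'.mul_left hy).of_mul_right_left ⟨-b * 3, by linear_combination hz⟩
    rw [mul _ _ (n0 hz') (n0 hx), map_mul] at h1
    rw [mul _ _ (n0 hz') (n0 hy), map_mul] at h2
    have h5 : F z ≠ 0 := fun h0 => mul_ne_zero (r_ne r h3 hz'.of_mul_right_left)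
      (r_ne r h3 hy.of_mul_right_left) (by rw [← h2, h0, zero_mul])
    exact mul_left_cancel₀ h5 (by linear_combination r y * h1 - r x * h2)
  obtain ⟨c, hc⟩ : ∃ c : ℕ, m * m = 1 + 3 * c := ⟨m * m / 3, by
    have : m % 3 = 1 ∨ m % 3 = 2 := by omega
    have h1 := Nat.mul_mod m m 3
    rcases this with h | h <;> rw [h] at h1 <;> omega⟩
  have hc' : (m : Zi) * m = 1 + 3 * c := by exact_mod_cast hc
  let t : Zi → Zi := fun x => x + m * (m * (1 - x))
  have t3 : ∀ x, t x = 1 + 3 * (c * (1 - x)) := fun x => by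
    simp only [t]; linear_combination (1 - x) * hc'
  have tr : ∀ x, r (t x) = 1 := fun x => by rw [t3, map_add, map_mul, h3, map_one]; ring
  have tc : ∀ {x : Zi}, IsCoprime x m → IsCoprime (t x) (3 * m) := fun {x} h =>
    IsCoprime.mul_right (by rw [t3]; exact isCoprime_one_left.add_mul_left_left _)
      (h.add_mul_left_left _)
  choose! u hu4 hu using fun (x : Zi) (h : IsCoprime x m) =>
    r_surj r (a := F (t x)) (by rw [(all _ (tc h)).1, tr, one_pow])
  have key : ∀ x : Zi, IsCoprime x (3 * m) → F x = r (x * u x) := fun x h => by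
    have := cong x (t x) h (tc h.of_mul_right_right) ⟨-(m * (1 - x)), by simp only [t]; ring⟩
    rw [tr, mul_one] at this
    rw [this, map_mul, hu x h.of_mul_right_right, mul_comm]
  have uper : ∀ x y : Zi, IsCoprime x m → u (x + m * y) = u x := fun x y h => by
    have h' := h.add_mul_left_left y
    refine r_inj r h3 (hu4 _ h') (hu4 _ h) ?_
    have := cong _ _ (tc h') (tc h) ⟨y - m * m * y, by simp only [t]; ring⟩
    rwa [tr, tr, mul_one, mul_one, ← hu _ h, ← hu _ h'] at this
  have umul : ∀ x y : Zi, IsCoprime x m → IsCoprime y m → u (x * y) = u x * u y := fun x y h h' => by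
    refine r_inj r h3 (hu4 _ (h.mul_left h')) (by rw [mul_pow, hu4 _ h, hu4 _ h', mul_one]) ?_
    have := cong _ _ (tc (h.mul_left h')) ((tc h).mul_left (tc h'))
      ⟨m * (1 - x * y) - x * (m * (1 - y)) - y * (m * (1 - x)) - m * (m * (1 - x)) * (m * (1 - y)),
        by simp only [t]; ring⟩
    rwa [map_mul, tr, tr, tr, mul_one, mul_one, mul_one, mul _ _ (n0 (tc h)) (n0 (tc h')), ← hu _ h,
      ← hu _ h', ← hu _ (h.mul_left h'), ← map_mul] at this
  have cst : ∀ {x : Zi}, IsCoprime x m → IsCoprime (star x) m := fun h => by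
    simpa [starRingEnd_apply] using h.map (starRingEnd Zi)
  have ust : ∀ x : Zi, IsCoprime x m → u (star x) = star (u x) := fun x h => by
    refine r_inj r h3 (hu4 _ (cst h)) (by rw [← star_pow, hu4 _ h, star_one]) ?_
    rw [r_star r h3, hu _ h, hu _ (cst h), ← (all _ (tc h)).2]
    simp [t]
  have uu : ∀ x : Zi, x ^ 4 = 1 → x * u x = 1 := fun x h => by
    have h1 : IsUnit x := IsUnit.of_pow_eq_one h four_ne_zero
    have h2 : IsCoprime x (3 * m) := by
      obtain ⟨v, rfl⟩ := h1
      exact ⟨(v⁻¹ :), 0, by simp⟩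
    exact r_inj r h3 (by rw [mul_pow, h, hu4 _ h2.of_mul_right_right, mul_one]) (one_pow _)
      (by rw [← key x h2, unit x h1, map_one])
  have u1 : u 1 = 1 := by simpa using uu 1 (one_pow _)
  have unat : ∀ n : ℕ, n.Coprime (3 * m) → u n = (ZMod.χ₄ (n : ZMod 4) : ℤ) := fun n => by
    induction n using induction_on_primes with
    | zero => intro h; simp at h
    | one => intro _; simp [u1]
    | prime_mul p a hp ih =>
      intro h
      have h1 : IsCoprime (p : Zi) (3 * m) := by
        exact_mod_cast (Nat.Coprime.coprime_mul_right h).cast (R := Zi)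
      have h2 : IsCoprime (a : Zi) (3 * m) := by
        exact_mod_cast (Nat.Coprime.coprime_mul_left h).cast (R := Zi)
      rw [Nat.cast_mul, umul _ _ h1.of_mul_right_right h2.of_mul_right_right,
        ih (Nat.Coprime.coprime_mul_left h), Nat.cast_mul, map_mul, Int.cast_mul]
      congr 1
      have := Fact.mk hp
      by_cases h5 : p % 4 = 3
      · rw [ZMod.χ₄_nat_three_mod_four h5]
        refine r_inj r h3 (hu4 _ h1.of_mul_right_right) (by decide) ?_
        have h6 := key _ h1
        rw [inert p hp h5 h1, map_mul, map_natCast] at h6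
        have h7 := r_ne r h3 h1.of_mul_right_left
        rw [map_natCast] at h7
        exact mul_left_cancel₀ h7 (by rw [← h6]; simp)
      · have h6 : p % 4 = 1 := by
          rcases hp.eq_two_or_odd with rfl | h6
          · exact absurd ((Nat.Coprime.coprime_mul_right h).coprime_dvd_right
              (((show 2 ∣ 4 by norm_num).trans h4).mul_left 3)) (by norm_num)
          · omega
        obtain ⟨b, d, hbd⟩ := Nat.Prime.sq_add_sq h5
        have h7 : (p : Zi) = (⟨b, d⟩ : Zi) * star ⟨b, d⟩ := by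
          rw [← Zsqrtd.norm_eq_mul_conj, ← hbd, Zsqrtd.norm_def]; push_cast; ring
        have h8 := h1.of_mul_right_right
        rw [h7] at h8
        rw [ZMod.χ₄_nat_one_mod_four h6, h7, umul _ _ h8.of_mul_left_left h8.of_mul_left_right,
          ust _ h8.of_mul_left_left, mul_star_of_four (hu4 _ h8.of_mul_left_left), Int.cast_one]
  refine ⟨fun x => if IsCoprime x m then u x else 0, ⟨hm, (show 2 ∣ 4 by norm_num).trans h4,
    by simp [isCoprime_one_left, u1], fun x y => ?_, fun x y => ?_, fun x h => if_neg h,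
    fun x h => by rw [if_pos h, hu4 x h], ?_, fun x => ?_, fun n hn => ?_⟩,
    fun x h => by simp only [if_pos h.of_mul_right_right, key x h]⟩
  · by_cases h : IsCoprime x m <;> by_cases h' : IsCoprime y m <;>
      simp [IsCoprime.mul_left_iff, h, h', umul]
  · by_cases h : IsCoprime x m
    · rw [if_pos h, if_pos (h.add_mul_left_left y), uper x y h]
    · rw [if_neg h, if_neg fun h' => h h'.of_add_mul_left_left]
  · rw [if_pos ⟨-ii, 0, by linear_combination -ii_sq⟩, uu ii (by decide)]
  · by_cases h : IsCoprime x m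
    · rw [if_pos h, if_pos (cst h), ust x h]
    · rw [if_neg h, if_neg fun h' => h (by simpa using cst h'), star_zero]
  · have h1 : IsCoprime (n : Zi) m := hn.cast
    have h2 := unat (n + m * (m * (1 + 2 * n))) (Nat.Coprime.mul_right (by
      rw [← mul_assoc, hc, Nat.coprime_comm, Nat.prime_three.coprime_iff_not_dvd]
      have : (1 + 3 * c) * (1 + 2 * n) = 1 + 2 * n + 3 * (c * (1 + 2 * n)) := by ring
      omega) ((Nat.coprime_add_mul_left_left _ _ _).2 hn))
    rw [Nat.cast_add, Nat.cast_mul, uper _ _ h1, Nat.cast_add, Nat.cast_mul,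
      (ZMod.natCast_eq_zero_iff m 4).2 h4, zero_mul, add_zero] at h2
    rw [if_pos h1, h2]

end red

/-- coordinates on the Gaussian integers -/
def ziBasis : Module.Basis (Fin 2) ℤ Zi := Module.Basis.ofEquivFun
  { toFun := fun x => ![x.re, x.im]
    invFun := fun v => ⟨v 0, v 1⟩
    map_add' := fun x y => by ext i; fin_cases i <;> simp
    map_smul' := fun c x => by ext i; fin_cases i <;> simp
    left_inv := fun x => by simp
    right_inv := fun v => by ext i; fin_cases i <;> simp }

theorem zi_norm (x : Zi) : Algebra.norm ℤ x = x.norm := by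
  rw [Algebra.norm_eq_matrix_det ziBasis, Matrix.det_fin_two, Zsqrtd.norm_def]
  simp [Algebra.leftMulMatrix_eq_repr_mul, ziBasis]

end Crest.Agent.T15.C
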