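import Crest.Agent.T15.MDef_7
import Crest.Agent.T15.TwD_6
import Crest.Agent.T15.CUnr_25

/-!
# Row 15, block C: a class as a character of the Galois group over the field of `ρ`
-/

set_option autoImplicit false

noncomputable section

namespace Crest.Agent.T15.C

open NumberField Crest.Agent.R018.Placesx484 Crest.Agent.T15.Ps Crest.Agent.T15.Art
  Crest.Agent.T15.Ex

/-- restriction of scalars -/
def rs (K : IntermediateField ℚ Om) : (Om ≃ₐ[K] Om) →* Gam :=
  MonoidHom.mk' (fun g => g.restrictScalars ℚ) fun _ _ => rfl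

theorem rs_apply {K : IntermediateField ℚ Om} (g : Om ≃ₐ[K] Om) (x : Om) : rs K g x = g x := rfl

theorem rs_smul {K : IntermediateField ℚ Om} (g : Om ≃ₐ[K] Om) (x : 𝓞 Om) : rs K g • x = g • x := rfl

theorem rs_place {K : IntermediateField ℚ Om} (g : Om ≃ₐ[K] Om) (P : Place Om) :
    rs K g • P = g • P := by
  ext x
  rw [Place.mem_smul_ideal, Place.mem_smul_ideal, ← map_inv, rs_smul]

theorem rs_inertia {K : IntermediateField ℚ Om} (g : Om ≃ₐ[K] Om) (P : Place Om) :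
    rs K g ∈ In P ↔ g ∈ P.ideal.inertia (Om ≃ₐ[K] Om) := Iff.rfl

theorem exists_rs {K : IntermediateField ℚ Om} {n : Gam} (hn : n ∈ K.fixingSubgroup) :
    ∃ g, rs K g = n := ⟨K.fixingSubgroupEquiv ⟨n, hn⟩, rfl⟩

theorem rs_mem {K : IntermediateField ℚ Om} (g : Om ≃ₐ[K] Om) : rs K g ∈ K.fixingSubgroup :=
  fun x => g.commutes x

theorem isOpen_comap (K : IntermediateField ℚ Om) {U : Subgroup Gam} (hU : IsOpen (U : Set Gam)) :
    IsOpen (U.comap (rs K) : Set (Om ≃ₐ[K] Om)) := by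
  obtain ⟨L, hL, h⟩ := (krullTopology_mem_nhds_one_iff ℚ Om _).1 (hU.mem_nhds U.one_mem)
  let b := Module.finBasis ℚ L
  refine Subgroup.isOpen_mono (H₁ := ⨅ i, MulAction.stabilizer (Om ≃ₐ[K] Om) (b i : Om))
    (fun g hg => h fun x => ?_) ?_
  · have : (rs K g).toLinearMap.comp L.val.toLinearMap = L.val.toLinearMap :=
      b.ext fun i => Subgroup.mem_iInf.1 hg i
    exact LinearMap.congr_fun this x
  · rw [Subgroup.coe_iInf]
    exact isOpen_iInter_of_finite fun i => stabilizer_isOpen_of_isIntegral _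

theorem totallyComplex_of_om (K : IntermediateField ℚ Om) (h : om ∈ K) : IsTotallyComplex K := by
  refine ⟨fun w => ?_⟩
  rw [← InfinitePlace.not_isReal_iff_isComplex, InfinitePlace.isReal_iff]
  intro hr
  have h3 : IsPrimitiveRoot (⟨om, h⟩ : K) 3 := IsPrimitiveRoot.coe_submonoidClass_iff.1 om_spec
  have h4 := h3.map_of_injective hr.embedding.injective
  have h5 := h4.geom_sum_eq_zero (by norm_num)
  simp only [Finset.sum_range_succ, Finset.sum_range_zero] at h5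
  nlinarith [sq_nonneg (2 * hr.embedding ⟨om, h⟩ + 1)]

variable {k : Type} [Field k] {ρ : Gam →* M2 k} {c : Gam → M2 k}

/-- the field cut out by `ρ` -/
abbrev Kf (ρ : Gam →* M2 k) : IntermediateField ℚ Om := IntermediateField.fixedField ρ.ker

theorem fix_Kf (ho : IsOpen (ρ.ker : Set Gam)) : (Kf ρ).fixingSubgroup = ρ.ker := (facts ρ.ker ho).1

theorem nf_Kf (ho : IsOpen (ρ.ker : Set Gam)) : NumberField (Kf ρ) :=
  have := (facts ρ.ker ho).2.1
  NumberField.of_module_finite ℚ _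

theorem tc_Kf [CharP k 3] (h : Hyp ρ) : IsTotallyComplex (Kf ρ) :=
  totallyComplex_of_om _ fun g => Tw.ker_om h g g.2

theorem rho_rs (ho : IsOpen (ρ.ker : Set Gam)) (g : Om ≃ₐ[Kf ρ] Om) : ρ (rs _ g) = 1 := by
  have := rs_mem g
  rwa [fix_Kf ho] at this

theorem exists_rs_Kf (ho : IsOpen (ρ.ker : Set Gam)) {n : Gam} (hn : ρ n = 1) :
    ∃ g, rs (Kf ρ) g = n := exists_rs (by rw [fix_Kf ho]; exact hn)

/-- the character of a class -/
def Cls.xi (h : Cls ρ c) (ho : IsOpen (ρ.ker : Set Gam)) :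
    (Om ≃ₐ[Kf ρ] Om) →* Multiplicative (M2 k) :=
  MonoidHom.mk' (fun g => .ofAdd (c (rs _ g))) fun a b => by
    rw [map_mul, h.add _ _ (rho_rs ho a) (rho_rs ho b), ofAdd_add]

theorem Cls.xi_apply (h : Cls ρ c) (ho : IsOpen (ρ.ker : Set Gam)) (g : Om ≃ₐ[Kf ρ] Om) :
    h.xi ho g = .ofAdd (c (rs _ g)) := rfl

theorem Cls.xi_open (h : Cls ρ c) (ho : IsOpen (ρ.ker : Set Gam)) :
    IsOpen ((h.xi ho).ker : Set (Om ≃ₐ[Kf ρ] Om)) :=
  Subgroup.isOpen_mono (H₁ := h.ker.comap (rs _)) (fun _ hg => congrArg Multiplicative.ofAdd hg.2)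
    (isOpen_comap _ (h.ker_open ho))

theorem Cls.xi_pow [CharP k 3] (h : Cls ρ c) (ho : IsOpen (ρ.ker : Set Gam))
    (g : Om ≃ₐ[Kf ρ] Om) : h.xi ho g ^ 3 = 1 := by
  rw [h.xi_apply, ← ofAdd_nsmul, ← Nat.cast_smul_eq_nsmul k, CharP.cast_eq_zero, zero_smul]
  rfl

theorem Cls.pow (h : Cls ρ c) {n : Gam} (hn : ρ n = 1) (m : ℕ) : c (n ^ m) = m • c n := by
  induction m with
  | zero => simp [h.one]
  | succ m ih => rw [pow_succ, h.add _ _ (by rw [map_pow, hn, one_pow]) hn, ih, succ_nsmul]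

end Crest.Agent.T15.C
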