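import Crest.Agent.T15.EpsA_73
import Crest.Agent.T15.Zer0_7
import Crest.Agent.R018.TameF_31
import Crest.Agent.R018.FDE_389

/-!
# Row 15 (helper73): the character `ε` of a dihedral representation (`EpsStmt`)
-/

set_option autoImplicit false

noncomputable section

namespace Crest.Agent.T15.C

open NumberField IsDedekindDomain Crest.Agent.R018.Placesx484 Crest.Agent.T15.Ps Crest.Agent.T15.Art
  Crest.Agent.T15.Ex Crest.Agent.R018.Selmerx380

theorem exists_fr (P : Place Om) : ∃ s : Gam, IsFr P P.rchar s := by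
  obtain ⟨s, -, h⟩ := Place.exists_frob (F := ℚ) P
  exact ⟨s, by rwa [R018.FDEx389.qv_rat] at h⟩

theorem IsFr.sq {P : Place Om} {q : ℕ} {s : Gam} (h : IsFr P q s) : IsFr P (q * q) (s * s) :=
  fun x => by
    have h1 := P.ideal.add_mem (h (s • x))
      (P.ideal.mem_of_dvd (sub_dvd_pow_sub_pow (s • x) (x ^ q) q) (h x))
    rwa [sub_add_sub_cancel, ← mul_smul, ← pow_mul] at h1

theorem smul_j (j : Zi →+* 𝓞 Om) {c : Gam} (hc : c (dl j) = -dl j) (x : Zi) :
    c • j x = j (star x) := by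
  have h1 : c • j ii = -j ii := RingOfIntegers.ext hc
  have h2 : x = x.re + x.im * ii := by ext <;> simp
  have h4 : star x = x.re - x.im * ii := by ext <;> simp
  rw [h4]
  conv_lhs => rw [h2]
  change MulSemiringAction.toRingHom Gam (𝓞 Om) c _ = _
  simp only [map_add, map_sub, map_mul, map_intCast, MulSemiringAction.toRingHom_apply, h1]
  ring

theorem prime_three : Prime (3 : Zi) :=
  have := Fact.mk Nat.prime_three
  GaussianInt.prime_of_nat_prime_of_mod_four_eq_three 3 rfl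

section qi
variable {j : Zi →+* 𝓞 Om} [NumberField (Ki j)] {e : Zi ≃+* 𝓞 (Ki j)}
  (he : ∀ x, algebraMap (𝓞 (Ki j)) (𝓞 Om) (e x) = j x)
include he

omit [NumberField (Ki j)] in
theorem mem_pr (P : Place Om) (x : Zi) : e x ∈ (pr (Ki j) P).asIdeal ↔ j x ∈ P.ideal := by
  rw [← he]; exact P.mem_res _ _

theorem pr_span {P : Place Om} {x : Zi} (hx : Prime x) (h : j x ∈ P.ideal) :
    (pr (Ki j) P).asIdeal = Ideal.span {e x} := by
  have h1 := (MulEquiv.prime_iff e).2 hx
  exact ((((Ideal.span_singleton_prime h1.ne_zero).2 h1).isMaximal (by simpa using h1.ne_zero)).eq_of_le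
    (pr _ P).isPrime.ne_top ((Ideal.span_singleton_le_iff_mem _).2 ((mem_pr he P x).2 h))).symm

theorem qv_norm {P : Place Om} {x : Zi} (hx : Prime x) (h : j x ∈ P.ideal) :
    P.qv (Ki j) = x.norm.natAbs := by
  rw [qv_eq, pr_span he hx h, Ideal.absNorm_span_singleton, ← zi_norm]
  exact congrArg _ (Algebra.norm_eq_of_algEquiv e.toIntAlgEquiv x)

omit [NumberField (Ki j)] in
theorem exists_over {x : Zi} (hx : Prime x) : ∃ P : Place Om, j x ∈ P.ideal := by
  have h1 := (MulEquiv.prime_iff e).2 hx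
  obtain ⟨P, hP⟩ := exists_pr (E := Om) (⟨Ideal.span {e x}, (Ideal.span_singleton_prime h1.ne_zero).2 h1,
    by simpa using h1.ne_zero⟩ : Pr (Ki j))
  exact ⟨P, (mem_pr he P x).1 (hP ▸ Ideal.mem_span_singleton_self _)⟩

theorem val_three {P : Place Om} (h : P.rchar = 3) :
    (pr (Ki j) P).valuation (Ki j) 3 = WithZero.exp (-1 : ℤ) := by
  have h1 := (pr (Ki j) P).intValuation_singleton (r := e 3) (by simp)
    (pr_span he prime_three (by rw [map_ofNat]; exact_mod_cast (P.natCast_mem_iff 3).2 h.dvd))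
  rw [← (pr (Ki j) P).valuation_of_algebraMap (K := Ki j), map_ofNat] at h1
  exact h1

theorem exists_tame {P : Place Om} (h : P.rchar = 3) {y η : Om} (hy : y ^ 8 = 3) (hη : η ^ 8 = 1) :
    ∃ t ∈ P.ideal.inertia (Om ≃ₐ[Ki j] Om), t y = η * y := by
  have : NeZero ((8 : ℕ) : Om) := ⟨by norm_num⟩
  obtain ⟨ζ, hζ⟩ := HasEnoughRootsOfUnity.exists_primitiveRoot Om 8
  obtain ⟨i, -, rfl⟩ := hζ.eq_pow_of_pow_eq_one hη
  have h8 : ¬ P.rchar ∣ 8 := by rw [h]; norm_num
  obtain ⟨t, ht, h1⟩ := R018.Tamex31.exists_inertia_root (K := Ki j) P 8 h8 ζ y hζ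
    (Units.mk0 3 three_ne_zero) (by
      have h1 := valuation_eq_exp (pr (Ki j) P) (Units.mk0 (3 : Ki j) three_ne_zero)
      rw [Units.val_mk0, val_three he h, WithZero.exp_inj, neg_inj] at h1
      exact (show (1 : ℤ) = _ from h1) ▸ isCoprime_one_left) (by rw [hy]; rfl)
  have h2 : t ζ = ζ := P.inertia_root ht h8 hζ.pow_eq_one
  refine ⟨t ^ i, pow_mem ht i, ?_⟩
  induction i with
  | zero => simp
  | succ i ih =>
    rw [pow_succ', AlgEquiv.mul_apply, ih (by rw [← pow_mul, mul_comm, pow_mul, hζ.pow_eq_one, one_pow]),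
      map_mul, map_pow, h1, h2, pow_succ, mul_assoc]

end qi

theorem rs_dl (j : Zi →+* 𝓞 Om) (g : Om ≃ₐ[Ki j] Om) : rs (Ki j) g (dl j) = dl j :=
  g.commutes ⟨dl j, IntermediateField.mem_adjoin_simple_self ℚ _⟩

theorem exists_rs_dl (j : Zi →+* 𝓞 Om) {s : Gam} (hs : s (dl j) = dl j) : ∃ g, rs (Ki j) g = s :=
  exists_rs fun x => (IntermediateField.adjoin_simple_le_iff.2
    (show dl j ∈ IntermediateField.fixedField (MulAction.stabilizer Gam (dl j)) from fun g => g.2))
      x.2 ⟨s, hs⟩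

namespace Dih

variable {k : Type} [Field k] {ρ : Gam →* M2 k} {red : 𝓞 Om →+* k} {S : Finset ℕ} {d : ℕ} {δ : Om}
  (h : Dih ρ red S d δ)
include h

theorem mul00 {g g' : Gam} (hg : g δ = δ) : ρ (g * g') 0 0 = ρ g 0 0 * ρ g' 0 0 := by
  simp [Matrix.mul_apply, (h.diag g hg).1]

theorem mul11 {g g' : Gam} (hg : g δ = δ) : ρ (g * g') 1 1 = ρ g 1 1 * ρ g' 1 1 := by
  simp [Matrix.mul_apply, (h.diag g hg).2.1]

theorem det_sq (g : Gam) : (ρ g).det ^ 2 = 1 := by rw [h.det]; split_ifs <;> simp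

theorem det_diag {g : Gam} (hg : g δ = δ) : (ρ g).det = ρ g 0 0 * ρ g 1 1 := by
  rw [Matrix.det_fin_two, (h.diag g hg).1, zero_mul, sub_zero]

theorem sq00 {s : Gam} (hs : s δ ≠ δ) : ρ (s * s) 0 0 = -(ρ s).det := by
  simp [Matrix.mul_apply, Matrix.det_fin_two, (h.anti s hs).1]

theorem conj00 {c : Gam} (hc : c δ ≠ δ) (g : Gam) : ρ (c * g * c⁻¹) 0 0 = ρ g 1 1 := by
  have h1 := congrFun (congrFun (show ρ (c * g * c⁻¹) * ρ c = ρ c * ρ g by
    rw [← map_mul, ← map_mul, inv_mul_cancel_right]) 0) 1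
  have h2 := h.det_sq c
  rw [Matrix.det_fin_two, (h.anti c hc).1] at h2
  simp only [Matrix.mul_apply, Fin.sum_univ_two, (h.anti c hc).1, (h.anti c hc).2, mul_zero, zero_mul,
    add_zero, zero_add] at h1
  exact mul_right_cancel₀ (fun h0 => by simp [h0] at h2) (h1.trans (mul_comm _ _))

theorem three_eq : (3 : k) = 0 := by rw [← h.red3, map_ofNat]

theorem det_fr {P : Place Om} {q : ℕ} {s : Gam} (hs : IsFr P q s) (hP : P.rchar ≠ 3) (hq : ¬ 3 ∣ q) :
    (ρ s).det = q := by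
  have h1 : s om = om ^ q := P.frob_root hs (n := 3)
    (fun h => hP ((Nat.prime_dvd_prime_iff_eq P.rchar_prime Nat.prime_three).1 h)) om_spec.pow_eq_one
  rw [h.det, h1, ← Nat.div_add_mod q 3, pow_add, pow_mul, om_spec.pow_eq_one, one_pow, one_mul]
  push_cast
  rw [h.three_eq, zero_mul, zero_add]
  obtain h2 | h2 : q % 3 = 1 ∨ q % 3 = 2 := by omega
  · simp [h2]
  · rw [h2, if_neg fun h => by
      have := om_spec.pow_inj (i := 2) (j := 1) (by norm_num) (by norm_num) (by rwa [pow_one])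
      omega]
    push_cast
    linear_combination -h.three_eq

theorem cube_or (htr : ∀ g, (ρ g).trace ^ 3 = (ρ g).trace) {g : Gam} (hg : g δ = δ) :
    ρ g 1 1 = ρ g 0 0 ^ 3 ∨ ρ g 0 0 ^ 2 = 1 := by
  have h1 := htr g
  have h2 := h.det_sq g
  have h3 := (h.diag g hg).2.2
  have h0 := h.three_eq
  rw [h.det_diag hg] at h2
  rw [Matrix.trace_fin_two] at h1
  set a := ρ g 0 0
  set b := ρ g 1 1
  have h4 : (b - a ^ 3) * (b + a ^ 3) = 0 := by linear_combination a ^ 6 * h2 - b ^ 2 * h3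
  refine (mul_eq_zero.1 h4).imp sub_eq_zero.1 fun h5 => ?_
  have h6 : b = -a ^ 3 := by linear_combination h5
  rw [h6] at h1
  have h7 : a * (a ^ 2 - 1) = 0 := by
    linear_combination -h1 - a * h3 + (a ^ 3 - a - a ^ 5 + a ^ 7) * h0
  exact sub_eq_zero.1 ((mul_eq_zero.1 h7).resolve_left fun h0 => by simp [h0] at h3)

theorem cube (htr : ∀ g, (ρ g).trace ^ 3 = (ρ g).trace) {t : Gam} (ht : t δ = δ)
    (h4 : ρ t 0 0 ^ 4 = -1) {g : Gam} (hg : g δ = δ) : ρ g 1 1 = ρ g 0 0 ^ 3 := by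
  have h0 : ρ t 0 0 ^ 2 ≠ 1 := fun h1 => one_ne_zero (by
    linear_combination h.three_eq - h4 + (ρ t 0 0 ^ 2 + 1) * h1 : (1 : k) = 0)
  refine (h.cube_or htr hg).elim id fun h1 => ?_
  have h2 := (h.cube_or htr (g := g * t) (by rw [AlgEquiv.mul_apply, ht, hg])).resolve_right (by
    rwa [h.mul00 hg, mul_pow, h1, one_mul])
  rw [h.mul00 hg, h.mul11 hg, (h.cube_or htr ht).resolve_right h0, mul_pow] at h2
  exact mul_right_cancel₀ (pow_ne_zero 3 fun h5 => by simp [h5] at h4) h2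

/-- the place given by the reduction map -/
def P3 : Place Om := ⟨RingHom.ker red, RingHom.ker_isPrime red, fun h0 =>
  (show ((3 : ℕ) : 𝓞 Om) ≠ 0 from Nat.cast_ne_zero.2 three_ne_zero)
    ((Ideal.mem_bot).1 (h0 ▸ (show (3 : 𝓞 Om) ∈ RingHom.ker red from h.red3)))⟩

theorem P3_rchar : h.P3.rchar = 3 :=
  h.P3.rchar_eq_of_mem Nat.prime_three (show ((3 : ℕ) : 𝓞 Om) ∈ RingHom.ker red from h.red3)

end Dih

theorem epsStmt_of (hT : TameStmt) (hQ : QiStmt) : EpsStmt := by
  refine ⟨7, fun k _ ρ red S j h htr => ?_⟩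
  classical
  obtain ⟨hfd, htc, e, he⟩ := hQ j
  have : NumberField (Ki j) := NumberField.of_module_finite ℚ _
  obtain ⟨D, hD⟩ := Finset.dvd_prod_of_mem (fun l : ℕ => l) h.two
  set m := (∏ l ∈ S, l) ^ 7 with hm
  have hm0 : m ≠ 0 := pow_ne_zero _ (Finset.prod_ne_zero_iff.2 fun l hl => (h.prime l hl).ne_zero)
  have hmS : ∀ l ∈ S, l ∣ m := fun l hl =>
    (Finset.dvd_prod_of_mem (fun l : ℕ => l) hl).trans (dvd_pow_self _ (by norm_num))
  have hSm : ∀ p : ℕ, p.Prime → p ∣ m → p ∈ S := fun p hp h1 => by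
    obtain ⟨l, hl, h2⟩ := (hp.prime.dvd_finsetProd_iff _).1 (hp.dvd_of_dvd_pow h1)
    rwa [(Nat.prime_dvd_prime_iff_eq hp (h.prime l hl)).1 h2]
  have hP : ∀ P : Place Om, j (3 * m) ∈ P.ideal ↔ P.rchar = 3 ∨ P.rchar ∈ S := fun P => by
    rw [show (3 * m : Zi) = (3 * m : ℕ) by push_cast; rfl, map_natCast, P.natCast_mem_iff, P.rchar_prime.dvd_mul,
      Nat.prime_dvd_prime_iff_eq P.rchar_prime Nat.prime_three]
    exact or_congr_right ⟨hSm _ P.rchar_prime, hmS _⟩
  have hc : ∀ {P : Place Om} {x : Zi}, IsCoprime x (3 * m) → j x ∈ P.ideal → j (3 * m) ∉ P.ideal :=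
    fun {P x} ⟨a, b, hab⟩ h1 h2 => P.one_notMem (by
      rw [← map_one j, ← hab, map_add, map_mul, map_mul j b]
      exact P.ideal.add_mem (P.ideal.mul_mem_left _ h1) (P.ideal.mul_mem_left _ h2))
  let T : Finset (Pr (Ki j)) := (Ideal.finite_factors (I := Ideal.span {e (3 * m)})
    (by simpa using hm0)).toFinset
  have hT' : ∀ w, w ∈ T ↔ e (3 * m) ∈ w.asIdeal := fun w => by
    rw [Set.Finite.mem_toFinset, Set.mem_ofPred_eq, Ideal.dvd_span_singleton]
  let ξ₀ : (Om ≃ₐ[Ki j] Om) →* k :=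
    ⟨⟨fun g => ρ (rs _ g) 0 0, by simp⟩, fun a b => by
      change ρ (rs _ (a * b)) 0 0 = _
      rw [map_mul (rs _), h.mul00 (rs_dl j a)]⟩
  have hk : ρ.ker.comap (rs _) ≤ ξ₀.toHomUnits.ker := fun g hg => Units.ext (by
    change ρ (rs _ g) 0 0 = 1
    rw [show ρ (rs _ g) = 1 from hg]; rfl)
  obtain ⟨f, hf1, hf⟩ := exists_av T ξ₀.toHomUnits fun P hP' u hu => hk (by
    rw [hT', mem_pr he, hP, not_or] at hP'
    exact h.unr P hP'.1 hP'.2 hu)
  have e0 : ∀ {x : Zi}, x ≠ 0 → (e x : Ki j) ≠ 0 := fun hx => by simpa using hx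
  let F : Zi → k := fun x => if hx : x = 0 then 0 else (ev f (Units.mk0 _ (e0 hx)) : kˣ)
  have hF : ∀ {x} (hx : x ≠ 0), F x = (ev f (Units.mk0 _ (e0 hx)) : kˣ) := fun hx => dif_neg hx
  have R : ∀ {P : Place Om} {s : Gam} {x : Zi}, Prime x → j x ∈ P.ideal → IsCoprime x (3 * m) →
      s (dl j) = dl j → IsFr P x.norm.natAbs s → ρ s 0 0 = F x := fun {P s x} hx h1 h2 hs h3 => by
    obtain ⟨g, rfl⟩ := exists_rs_dl j hs
    rw [hF hx.ne_zero, Ex.ev_int f _ (e x) rfl, ← pr_span he hx h1, evI_prime,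
      ← hf P (by rw [hT', mem_pr he]; exact hc h2 h1) g (by rw [IsF, qv_norm he hx h1]; exact h3)]
    rfl
  have hδ : dl j ^ 2 = -1 := by simpa using h.sq
  have hδ0 : -dl j ≠ dl j := fun h0 => by
    rw [self_eq_neg.1 h0.symm] at hδ; norm_num at hδ
  have inert : ∀ {P : Place Om} {s : Gam}, P.rchar % 4 = 3 → IsFr P P.rchar s → s (dl j) = -dl j :=
    fun {P s} h1 hs => by
      have := P.frob_root hs (n := 4) (a := dl j) (fun h2 => by
        have := Nat.le_of_dvd four_pos h2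
        have h3 : P.rchar = 3 := by omega
        rw [h3] at h2; norm_num at h2) (by linear_combination (dl j ^ 2 - 1) * hδ)
      rw [← Nat.div_add_mod P.rchar 4, h1, pow_add, pow_mul,
        show dl j ^ 4 = 1 by linear_combination (dl j ^ 2 - 1) * hδ, one_pow] at this
      exact this.trans (by linear_combination dl j * hδ)
  obtain ⟨c, hc3⟩ := exists_fr h.P3
  have hcδ := inert (by rw [h.P3_rchar]) hc3
  obtain ⟨y, hy⟩ := IsAlgClosed.exists_pow_nat_eq (3 : Om) (n := 8) (by norm_num)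
  have : NeZero ((8 : ℕ) : Om) := ⟨by norm_num⟩
  obtain ⟨ζ, hζ⟩ := HasEnoughRootsOfUnity.exists_primitiveRoot Om 8
  obtain ⟨ζ, rfl⟩ : ∃ z : 𝓞 Om, algebraMap (𝓞 Om) Om z = ζ := ⟨⟨ζ, hζ.isIntegral (by norm_num)⟩, rfl⟩
  have hζ' : IsPrimitiveRoot ζ 8 := hζ.of_map_of_injective RingOfIntegers.coe_injective
  have cube : ∀ {g : Gam}, g (dl j) = dl j → ρ g 1 1 = ρ g 0 0 ^ 3 := by
    obtain ⟨t, ht, h1⟩ := exists_tame he h.P3_rchar hy hζ.pow_eq_one
    refine h.cube htr (rs_dl j t) ?_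
    rw [h.fund _ ht y ζ hy h1, ← map_pow,
      (hζ'.pow (by norm_num) (show 8 = 4 * 2 from rfl)).eq_neg_one_of_two_right, map_neg, map_one]
  have r3 : red.comp j 3 = 0 := by rw [map_ofNat]; exact h.three_eq
  obtain ⟨ε, hε, key⟩ := eps_of (red.comp j) r3 hm0 ⟨32 * D ^ 7, by rw [hm, hD]; ring⟩
    (fun h3 => h.three (hSm 3 Nat.prime_three h3)) F (fun x y hx hy => by
      rw [hF hx, hF hy, hF (mul_ne_zero hx hy), ← Units.val_mul, ← map_mul]
      congr 2; ext; simp)
    (fun u hu => by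
      rw [hF hu.ne_zero, Ex.ev_int f _ (e u) rfl, Ideal.span_singleton_eq_top.2 (hu.map e), evI_top]
      rfl)
    (fun x hx ⟨z, hz⟩ => by
      have h1 := r_ne _ r3 hx
      have hx0 : x ≠ 0 := fun h0 => h1 (by rw [h0, map_zero])
      have h2 : j x ^ 8 - 1 ^ 8 ∈ h.P3.ideal := by
        change red _ = 0
        have h3 := r_star _ r3 (x * star x)
        rw [star_mul', star_star, mul_comm (star x), map_mul, r_star _ r3 x] at h3
        simp only [map_sub, map_pow, map_one]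
        exact mul_left_cancel₀ (pow_ne_zero 4 h1) (by
          simp only [RingHom.comp_apply] at h3 ⊢; linear_combination -h3)
      rw [hζ'.pow_sub_pow_eq_prod_sub_mul _ _ (by norm_num)] at h2
      obtain ⟨η, h3, h4⟩ := Ideal.IsPrime.prod_mem_iff.1 h2
      rw [mul_one] at h4
      have h5 := congrArg (algebraMap (𝓞 Om) Om) ((Polynomial.mem_nthRootsFinset (by norm_num) _).1 h3)
      rw [map_pow, map_one] at h5
      obtain ⟨t, ht, h6⟩ := exists_tame he h.P3_rchar hy h5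
      have h3P : j 3 ∈ h.P3.ideal := r3
      rw [hF hx0, hT (Ki j) kˣ ξ₀.toHomUnits 8 T f (Subgroup.isOpen_mono hk (isOpen_comap _ h.opn))
        (by norm_num) (fun g => Units.ext (h.diag _ (rs_dl j g)).2.2) hf1 hf h.P3 3 y t _
        (by rw [hT', mem_pr he, hP]; exact Or.inl h.P3_rchar) (by rw [h.P3_rchar]; norm_num)
        (val_three he h.P3_rchar) (by
          rw [qv_norm he prime_three h3P, ← map_pow]; exact congrArg _ hy) ht ?_ fun w hw hw3 => ?_]
      · exact (h.fund _ ht y η hy h6).trans (by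
          rw [eq_comm, ← sub_eq_zero]; exact (map_sub red _ _).symm.trans h4)
      · rw [h6, mul_div_cancel_right₀ _ (by rintro rfl; norm_num at hy), Valuation.map_sub_swap]
        have := (h.P3.v_int_lt_one_iff _).2 h4
        rwa [map_sub, ← he] at this
      · have h7 : e m ∈ w.asIdeal := by
          rw [hT', map_mul] at hw
          refine (w.isPrime.mem_or_mem hw).resolve_left fun h7 => hw3 (HeightOneSpectrum.ext ?_)
          exact ((pr _ h.P3).isMaximal.eq_of_le w.isPrime.ne_top (by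
            rw [pr_span he prime_three h3P]; exact (Ideal.span_singleton_le_iff_mem _).2 h7)).symm
        have h8 : e (2 * D ^ 7 * z) ∈ w.asIdeal := by
          rw [hm, hD, Nat.cast_pow, map_pow] at h7
          have := w.asIdeal.mul_mem_right (e (D ^ 6 * z)) (w.isPrime.mem_of_pow_mem _ h7)
          rw [← map_mul] at this
          convert this using 2
          push_cast; ring
        have h9 : (e x : Ki j) - 1 = ((8 : ℕ) : Ki j) ^ 2 * e (2 * D ^ 7 * z) := by
          have : x = 1 + 8 ^ 2 * (2 * D ^ 7 * z) := by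
            rw [hm, hD] at hz; push_cast at hz; linear_combination hz
          conv_lhs => rw [this]
          simp only [map_add, map_mul e (8 ^ 2), map_one, map_pow, map_ofNat]
          push_cast
          exact add_sub_cancel_left _ _
        rw [Units.val_mk0, h9, map_mul, map_pow]
        exact mul_lt_of_lt_one_right (pow_pos (zero_lt_iff.2 (by simp)) 2)
          ((w.valuation_lt_one_iff_mem _).2 h8))
    (fun x hx hxc => by
      obtain ⟨P, h1⟩ := exists_over he hx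
      obtain ⟨g, hg⟩ := exists_isF (K := Ki j) P
      rw [IsF, qv_norm he hx h1] at hg
      have h2 := R hx h1 hxc (rs_dl j g) hg
      have h3 := not_or.1 ((hP P).not.1 (hc hxc h1))
      have h4 : ((x.norm.natAbs : ℕ) : k) = red.comp j x ^ 4 := by
        rw [r_four _ r3, ← Int.cast_natCast, Int.natAbs_of_nonneg (GaussianInt.norm_nonneg x)]
      refine ⟨?_, ?_⟩
      · rw [← h2, ← h4, ← h.det_fr (s := rs _ g) hg h3.1 fun ⟨a, ha⟩ =>
          pow_ne_zero 4 (r_ne _ r3 hxc.of_mul_right_left) (by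
            rw [← h4, ha, Nat.cast_mul, Nat.cast_ofNat, h.three_eq, zero_mul]),
          h.det_diag (rs_dl j g), cube (rs_dl j g)]
        ring
      · rw [← h2, ← cube (rs_dl j g), ← h.conj00 (hcδ ▸ hδ0)]
        refine (R (P := c • P) (x := star x) ((MulEquiv.prime_iff (starRingAut : RingAut Zi)).2 hx)
          (smul_j j hcδ x ▸ (P.smul_mem_smul_ideal c _).2 h1)
          (by simpa [starRingEnd_apply] using hxc.map (starRingEnd Zi)) ?_ ?_).symm
        · have : c⁻¹ (dl j) = -dl j := by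
            rw [← neg_eq_iff_eq_neg, ← map_neg, ← hcδ]; exact c.symm_apply_apply _
          rw [AlgEquiv.mul_apply, AlgEquiv.mul_apply, this, map_neg, rs_dl, map_neg, hcδ, neg_neg]
        · rw [Zsqrtd.norm_conj]; exact Cheb.frob_conj (φ := rs _ g) hg c)
    (fun p hp h1 hpc => by
      have := Fact.mk hp
      have h2 := GaussianInt.prime_of_nat_prime_of_mod_four_eq_three p h1
      obtain ⟨P, h3⟩ := exists_over he h2
      have h4 : P.rchar = p := P.rchar_eq_of_mem hp (by rwa [map_natCast] at h3)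
      obtain ⟨s, hs⟩ := exists_fr P
      have h5 := inert (h4 ▸ h1) hs
      have h6 := (not_or.1 ((hP P).not.1 (hc hpc h3))).1
      rw [← R (s := s * s) h2 h3 hpc (by rw [AlgEquiv.mul_apply, h5, map_neg, h5, neg_neg])
        (by rw [Zsqrtd.norm_natCast, Int.natAbs_mul, Int.natAbs_natCast, ← h4]; exact hs.sq),
        h.sq00 (h5 ▸ hδ0), h.det_fr hs h6 fun h7 => h6
          ((Nat.prime_dvd_prime_iff_eq Nat.prime_three P.rchar_prime).1 h7).symm, h4])
  refine ⟨m, ε, hε, dvd_rfl, hmS, fun P s x hx h1 h2 h3 hs h4 => ?_⟩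
  have h5 : IsCoprime x (3 * m) := hx.irreducible.coprime_iff_not_dvd.2 fun ⟨a, ha⟩ =>
    not_or.2 ⟨h2, h3⟩ ((hP P).1 (by rw [ha, map_mul]; exact P.ideal.mul_mem_right _ h1))
  exact (R hx h1 h5 hs h4).trans (key x h5)

end Crest.Agent.T15.C
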