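import Mathlib

/-!
# Row 15, block C: counting equivariant homomorphisms into a module killed by `p`

`HG α ρ A B` = the `G`-equivariant homomorphisms `A → W` which vanish on `B`, for subgroups
`A`, `B` of a commutative group `M` with a `G`-action `α`.  For `p ∤ #G` and `pW = 0` the number
`hG α ρ A B` is multiplicative, invariant under commensurability of `p`-torsion free groups.
-/

set_option autoImplicit false

noncomputable section

namespace Crest.Agent.T15.EqU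

variable {k G M M' W : Type*} [CommRing k] [Group G] [CommGroup M] [CommGroup M']
  [AddCommGroup W] [Module k W]

/-- `A` is stable under the action -/
def St (α : G →* Monoid.End M) (A : Subgroup M) : Prop := ∀ g x, x ∈ A → α g x ∈ A

/-- the `p`-th powers of a subgroup -/
abbrev pw (p : ℕ) (A : Subgroup M) : Subgroup M := A.map (powMonoidHom p)

/-- equivariant homomorphisms `A → W` vanishing on `B` -/
def HG (α : G →* Monoid.End M) (ρ : Representation k G W) (A B : Subgroup M) :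
    Submodule k (Additive A →+ W) where
  carrier := {φ | (∀ (g : G) (x y : A), (y : M) = α g x →
      φ (Additive.ofMul y) = ρ g (φ (Additive.ofMul x))) ∧
    ∀ x : A, (x : M) ∈ B → φ (Additive.ofMul x) = 0}
  add_mem' := by
    rintro φ ψ ⟨h1, h2⟩ ⟨h3, h4⟩
    refine ⟨fun g x y h => ?_, fun x hx => ?_⟩
    · simp only [AddMonoidHom.add_apply, map_add, h1 g x y h, h3 g x y h]
    · simp only [AddMonoidHom.add_apply, h2 x hx, h4 x hx, add_zero]
  zero_mem' := ⟨fun g x y _ => by simp, fun x _ => rfl⟩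
  smul_mem' := by
    rintro c φ ⟨h1, h2⟩
    refine ⟨fun g x y h => ?_, fun x hx => ?_⟩
    · simp only [AddMonoidHom.smul_apply, map_smul, h1 g x y h]
    · simp only [AddMonoidHom.smul_apply, h2 x hx, smul_zero]

/-- the number of equivariant homomorphisms `A → W` vanishing on `B` -/
def hG (α : G →* Monoid.End M) (ρ : Representation k G W) (A B : Subgroup M) : ℕ :=
  Nat.card (HG α ρ A B)

theorem mem_HG {α : G →* Monoid.End M} {ρ : Representation k G W} {A B : Subgroup M}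
    {φ : Additive A →+ W} : φ ∈ HG α ρ A B ↔ (∀ (g : G) (x y : A), (y : M) = α g x →
      φ (Additive.ofMul y) = ρ g (φ (Additive.ofMul x))) ∧
    ∀ x : A, (x : M) ∈ B → φ (Additive.ofMul x) = 0 := Iff.rfl

theorem mem_pw {p : ℕ} {A : Subgroup M} {x : M} : x ∈ pw p A ↔ ∃ y ∈ A, y ^ p = x := Iff.rfl

theorem pw_le (p : ℕ) (A : Subgroup M) : pw p A ≤ A := by
  rintro _ ⟨y, hy, rfl⟩
  exact pow_mem hy p

section St

variable {α : G →* Monoid.End M} {A B : Subgroup M}

theorem St.pw (hA : St α A) (p : ℕ) : St α (pw p A) := by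
  rintro g _ ⟨y, hy, rfl⟩
  exact ⟨α g y, hA g y hy, by simp⟩

theorem St.sup (hA : St α A) (hB : St α B) : St α (A ⊔ B) := by
  intro g x hx
  obtain ⟨a, ha, b, hb, rfl⟩ := Subgroup.mem_sup.mp hx
  rw [map_mul]
  exact Subgroup.mul_mem_sup (hA g a ha) (hB g b hb)

theorem St.inf (hA : St α A) (hB : St α B) : St α (A ⊓ B) :=
  fun g x hx => ⟨hA g x hx.1, hB g x hx.2⟩

theorem st_top : St α (⊤ : Subgroup M) := fun _ _ _ => trivial

theorem st_bot : St α (⊥ : Subgroup M) := by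
  intro g x hx
  rw [Subgroup.mem_bot] at hx ⊢
  rw [hx, map_one]

theorem St.map {α' : G →* Monoid.End M'} (hA : St α A) (π : M →* M')
    (hπ : ∀ g x, π (α g x) = α' g (π x)) : St α' (A.map π) := by
  rintro g _ ⟨y, hy, rfl⟩
  exact ⟨α g y, hA g y hy, hπ g y⟩

theorem St.comap {α' : G →* Monoid.End M'} {A' : Subgroup M'} (hA : St α' A') (π : M →* M')
    (hπ : ∀ g x, π (α g x) = α' g (π x)) : St α (A'.comap π) := by
  intro g x hx
  rw [Subgroup.mem_comap] at hx ⊢
  rw [hπ]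
  exact hA g _ hx

end St

section Basic

variable (α : G →* Monoid.End M) (ρ : Representation k G W)

theorem HG_congr {A B B' : Subgroup M} (h : ∀ x ∈ A, x ∈ B ↔ x ∈ B') :
    HG α ρ A B = HG α ρ A B' := by
  ext φ
  simp only [mem_HG]
  refine and_congr_right fun _ => forall_congr' fun x => ?_
  rw [h x x.2]

theorem HG_anti {A B B' : Subgroup M} (h : ∀ x ∈ A, x ∈ B → x ∈ B') :
    HG α ρ A B' ≤ HG α ρ A B :=
  fun _ hφ => ⟨hφ.1, fun x hx => hφ.2 x (h x x.2 hx)⟩

theorem hG_congr {A B B' : Subgroup M} (h : ∀ x ∈ A, x ∈ B ↔ x ∈ B') :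
    hG α ρ A B = hG α ρ A B' := by
  unfold hG
  rw [HG_congr α ρ h]

theorem HG_self {A B : Subgroup M} (h : A ≤ B) : HG α ρ A B = ⊥ := by
  rw [eq_bot_iff]
  intro φ hφ
  rw [Submodule.mem_bot]
  ext x
  exact hφ.2 (Additive.toMul x) (h (Additive.toMul x).2)

theorem hG_self {A B : Subgroup M} (h : A ≤ B) : hG α ρ A B = 1 := by
  unfold hG
  rw [HG_self α ρ h]
  simp

/-- homomorphisms into `W` kill `p`-th powers -/
theorem HG_sup_pw {p : ℕ} (hW : ∀ w : W, p • w = 0) {A B : Subgroup M} (hBA : B ≤ A) :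
    HG α ρ A (B ⊔ pw p A) = HG α ρ A B := by
  apply le_antisymm (HG_anti α ρ fun x _ hx => Subgroup.mem_sup_left hx)
  intro φ hφ
  refine ⟨hφ.1, fun x hx => ?_⟩
  obtain ⟨b, hb, _, ⟨a, ha, rfl⟩, h⟩ := Subgroup.mem_sup.mp hx
  have : x = (⟨b, hBA hb⟩ : A) * (⟨a, ha⟩ : A) ^ p := Subtype.ext h.symm
  rw [this, ofMul_mul, map_add, hφ.2 _ hb, ofMul_pow, map_nsmul, hW, add_zero]

theorem hG_sup_pw {p : ℕ} (hW : ∀ w : W, p • w = 0) {A B : Subgroup M} (hBA : B ≤ A) :
    hG α ρ A (B ⊔ pw p A) = hG α ρ A B := by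
  unfold hG
  rw [HG_sup_pw α ρ hW hBA]

theorem hG_pw {p : ℕ} (hW : ∀ w : W, p • w = 0) (A : Subgroup M) :
    hG α ρ A (pw p A) = hG α ρ A ⊥ := by
  rw [← hG_sup_pw α ρ hW bot_le, bot_sup_eq]

/-- restriction to a smaller group -/
def res {A B : Subgroup M} (h : B ≤ A) : (Additive A →+ W) →ₗ[k] (Additive B →+ W) where
  toFun φ := φ.comp (MonoidHom.toAdditive (Subgroup.inclusion h))
  map_add' _ _ := rfl
  map_smul' _ _ := rfl

theorem res_apply {A B : Subgroup M} (h : B ≤ A) (φ : Additive A →+ W) (x : B) :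
    res (k := k) h φ (Additive.ofMul x) = φ (Additive.ofMul ⟨x, h x.2⟩) := rfl

theorem res_mem {A B C : Subgroup M} (h : B ≤ A) {φ : Additive A →+ W} (hφ : φ ∈ HG α ρ A C) :
    res (k := k) h φ ∈ HG α ρ B C :=
  ⟨fun g x y hxy => hφ.1 g ⟨x, h x.2⟩ ⟨y, h y.2⟩ hxy, fun x hx => hφ.2 ⟨x, h x.2⟩ hx⟩

/-- pull-back along an equivariant homomorphism -/
def pull (π : M →* M') {A : Subgroup M} {A' : Subgroup M'} (h : ∀ x ∈ A, π x ∈ A') :
    (Additive A' →+ W) →ₗ[k] (Additive A →+ W) where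
  toFun φ := φ.comp (MonoidHom.toAdditive ((π.comp A.subtype).codRestrict A' fun x => h x x.2))
  map_add' _ _ := rfl
  map_smul' _ _ := rfl

theorem pull_apply (π : M →* M') {A : Subgroup M} {A' : Subgroup M'} (h : ∀ x ∈ A, π x ∈ A')
    (φ : Additive A' →+ W) (x : A) :
    pull (k := k) π h φ (Additive.ofMul x) = φ (Additive.ofMul ⟨π x, h x x.2⟩) := rfl

theorem pull_mem {α' : G →* Monoid.End M'} (π : M →* M') (hπ : ∀ g x, π (α g x) = α' g (π x))
    {A B : Subgroup M} {A' B' : Subgroup M'} (h : ∀ x ∈ A, π x ∈ A')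
    (hB : ∀ x ∈ A, x ∈ B → π x ∈ B') {φ : Additive A' →+ W} (hφ : φ ∈ HG α' ρ A' B') :
    pull (k := k) π h φ ∈ HG α ρ A B :=
  ⟨fun g x y hxy => hφ.1 g ⟨π x, h x x.2⟩ ⟨π y, h y y.2⟩ (by
    change π y = α' g (π x)
    rw [hxy, hπ]), fun x hx => hφ.2 ⟨π x, h x x.2⟩ (hB x x.2 hx)⟩

/-- transport along an equivariant homomorphism -/
theorem hG_map {α' : G →* Monoid.End M'} (π : M →* M') (hπ : ∀ g x, π (α g x) = α' g (π x))
    {A : Subgroup M} (hA : St α A) (B' : Subgroup M') :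
    hG α' ρ (A.map π) B' = hG α ρ A (B'.comap π) := by
  have h : ∀ x ∈ A, π x ∈ A.map π := fun x hx => ⟨x, hx, rfl⟩
  let f : HG α' ρ (A.map π) B' → HG α ρ A (B'.comap π) := fun φ =>
    ⟨pull (k := k) π h φ.1, pull_mem α ρ π hπ h (fun _ _ hx => hx) φ.2⟩
  refine Nat.card_congr (Equiv.ofBijective f ⟨?_, ?_⟩)
  · intro φ ψ hφ
    apply Subtype.ext
    apply AddMonoidHom.ext
    rintro ⟨_, y, hy, rfl⟩
    exact DFunLike.congr_fun (congrArg Subtype.val hφ) (Additive.ofMul ⟨y, hy⟩)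
  · rintro ⟨φ, hφ⟩
    let q : Additive A →+ Additive (A.map π) :=
      MonoidHom.toAdditive ((π.comp A.subtype).codRestrict (A.map π) fun x => h x x.2)
    have hq : Function.Surjective q := by
      rintro ⟨_, y, hy, rfl⟩
      exact ⟨Additive.ofMul ⟨y, hy⟩, rfl⟩
    have hker : q.ker ≤ φ.ker := by
      intro x hx
      apply hφ.2 (Additive.toMul x)
      have h1 : π (Additive.toMul x : A) = 1 := congrArg Subtype.val hx
      rw [Subgroup.mem_comap, h1]
      exact one_mem _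
    let ψ : Additive (A.map π) →+ W := q.liftOfSurjective hq ⟨φ, hker⟩
    have hψ : ∀ x, ψ (q x) = φ x := fun x => q.liftOfRightInverse_comp_apply _ _ _ x
    refine ⟨⟨ψ, ?_, ?_⟩, ?_⟩
    · rintro g ⟨_, x, hx, rfl⟩ y hy
      have h1 : Additive.ofMul y = q (Additive.ofMul ⟨α g x, hA g x hx⟩) := by
        apply Subtype.ext
        change (y : M') = π (α g x)
        rw [hy, hπ]
      have h2 : Additive.ofMul (⟨π x, x, hx, rfl⟩ : A.map π) = q (Additive.ofMul ⟨x, hx⟩) := rfl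
      rw [h1, h2, hψ, hψ]
      exact hφ.1 g _ _ rfl
    · rintro ⟨_, x, hx, rfl⟩ hb
      have h2 : Additive.ofMul (⟨π x, x, hx, rfl⟩ : A.map π) = q (Additive.ofMul ⟨x, hx⟩) := rfl
      rw [h2, hψ]
      exact hφ.2 _ hb
    · apply Subtype.ext
      ext x
      exact hψ x

end Basic

section Ext

theorem exists_extend_zmod {p : ℕ} [Fact p.Prime] {B V U : Type*} [AddCommGroup B] [AddCommGroup V]
    [AddCommGroup U] [Module (ZMod p) V] [Module (ZMod p) U] (f : B →+ V) (φ : B →+ U)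
    (h : ∀ b, f b = 0 → φ b = 0) : ∃ ψ : V →+ U, ∀ b, ψ (f b) = φ b := by
  have hq : Function.Surjective f.rangeRestrict := f.rangeRestrict_surjective
  have hker : f.rangeRestrict.ker ≤ φ.ker := fun x hx => h x (congrArg Subtype.val hx)
  let φ1 : f.range →+ U := f.rangeRestrict.liftOfSurjective hq ⟨φ, hker⟩
  have h1 : ∀ x, φ1 (f.rangeRestrict x) = φ x := fun x =>
    f.rangeRestrict.liftOfRightInverse_comp_apply _ _ _ x
  let P : Submodule (ZMod p) V := AddSubgroup.toZModSubmodule p f.range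
  let φ2 : P →+ U :=
    { toFun := fun x : P => φ1 ⟨x.1, x.2⟩
      map_zero' := φ1.map_zero
      map_add' := fun x y : P => φ1.map_add ⟨x.1, x.2⟩ ⟨y.1, y.2⟩ }
  obtain ⟨ψ, hψ⟩ := LinearMap.exists_extend (φ2.toZModLinearMap p)
  refine ⟨ψ.toAddMonoidHom, fun b => ?_⟩
  have := LinearMap.congr_fun hψ ⟨f b, b, rfl⟩
  exact this.trans (h1 b)

/-- extension of additive maps between groups killed by a prime -/
theorem exists_extend_add {p : ℕ} [Fact p.Prime] {B V : Type*} [AddCommGroup B] [AddCommGroup V]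
    (hV : ∀ v : V, p • v = 0) (hW : ∀ w : W, p • w = 0) (f : B →+ V) (φ : B →+ W)
    (h : ∀ b, f b = 0 → φ b = 0) : ∃ ψ : V →+ W, ∀ b, ψ (f b) = φ b :=
  @exists_extend_zmod p _ B V W _ _ _ (AddCommGroup.zmodModule hV) (AddCommGroup.zmodModule hW)
    f φ h

variable {α : G →* Monoid.End M} {ρ : Representation k G W} {p : ℕ}

/-- **extension lemma** -/
theorem exists_ext [Finite G] [Fact p.Prime] (hG : ¬ p ∣ Nat.card G) (hW : ∀ w : W, p • w = 0)
    {A B C : Subgroup M} (hA : St α A) (hB : St α B) (hC : St α C) (hBA : B ≤ A)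
    {φ : Additive B →+ W} (hφ : φ ∈ HG α ρ B (C ⊔ pw p A)) :
    ∃ ψ ∈ HG α ρ A C, res (k := k) hBA ψ = φ := by
  classical
  have := Fintype.ofFinite G
  set D : Subgroup A := (C ⊔ pw p A).subgroupOf A with hD
  have hV : ∀ v : Additive (A ⧸ D), p • v = 0 := by
    intro v
    obtain ⟨a, rfl⟩ : ∃ a : A, Additive.ofMul (a : A ⧸ D) = v := by
      obtain ⟨a, ha⟩ := QuotientGroup.mk_surjective (Additive.toMul v)
      exact ⟨a, congrArg Additive.ofMul ha⟩
    rw [← ofMul_pow, ← QuotientGroup.mk_pow, ofMul_eq_zero, QuotientGroup.eq_one_iff]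
    exact Subgroup.mem_sup_right ⟨a, a.2, rfl⟩
  let q : Additive A →+ Additive (A ⧸ D) := MonoidHom.toAdditive (QuotientGroup.mk' D)
  let f : Additive B →+ Additive (A ⧸ D) :=
    q.comp (MonoidHom.toAdditive (Subgroup.inclusion hBA))
  obtain ⟨ψ1, h1⟩ := exists_extend_add hV hW f φ (by
    intro b hb
    apply hφ.2 (Additive.toMul b)
    exact (QuotientGroup.eq_one_iff (N := D) (Subgroup.inclusion hBA (Additive.toMul b))).mp hb)
  let ψ0 : Additive A →+ W := ψ1.comp q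
  have h2 : ∀ b : B, ψ0 (Additive.ofMul ⟨b, hBA b.2⟩) = φ (Additive.ofMul b) := fun b => h1 _
  have h3 : ∀ x : A, (x : M) ∈ C → ψ0 (Additive.ofMul x) = 0 := by
    intro x hx
    have : q (Additive.ofMul x) = 0 :=
      (QuotientGroup.eq_one_iff (N := D) x).mpr (Subgroup.mem_sup_left hx)
    change ψ1 (q _) = 0
    rw [this, map_zero]
  obtain ⟨c, hc⟩ : ∃ c : ℕ, ∀ w : W, c • Fintype.card G • w = w := by
    have hp : p.Prime := Fact.out
    have hcop : Nat.Coprime (Nat.card G) p := ((Nat.Prime.coprime_iff_not_dvd hp).mpr hG).symm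
    obtain ⟨c, -, hc⟩ := Nat.exists_mul_mod_eq_one_of_coprime hcop hp.one_lt
    refine ⟨c, fun w => ?_⟩
    rw [smul_smul, ← Nat.card_eq_fintype_card, mul_comm, ← Nat.div_add_mod (Nat.card G * c) p, hc,
      add_smul, one_smul, mul_comm, mul_smul, hW, smul_zero, zero_add]
  let a : G → Additive A →+ Additive A := fun g =>
    MonoidHom.toAdditive ((MonoidHom.comp (α g : M →* M) A.subtype).codRestrict A fun x => hA g x x.2)
  have ha : ∀ g (x : A), a g (Additive.ofMul x) = Additive.ofMul ⟨α g x, hA g x x.2⟩ :=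
    fun _ _ => rfl
  let ψ : Additive A →+ W := c • ∑ g : G, (ρ g⁻¹).toAddMonoidHom.comp (ψ0.comp (a g))
  have hψ : ∀ x : A, ψ (Additive.ofMul x) =
      c • ∑ g : G, ρ g⁻¹ (ψ0 (Additive.ofMul ⟨α g x, hA g x x.2⟩)) := by
    intro x
    simp only [ψ, AddMonoidHom.nsmul_apply, AddMonoidHom.finsetSum_apply]
    rfl
  refine ⟨ψ, ⟨fun g x y hxy => ?_, fun x hx => ?_⟩, ?_⟩
  · rw [hψ, hψ, map_nsmul, map_sum]
    congr 1
    rw [← Equiv.sum_comp (Equiv.mulRight g⁻¹)]
    refine Finset.sum_congr rfl fun t _ => ?_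
    simp only [Equiv.coe_mulRight, mul_inv_rev, inv_inv, map_mul, Module.End.mul_apply]
    congr 3
    apply Subtype.ext
    change α t (α g⁻¹ y) = α t x
    rw [hxy]
    change α t ((α g⁻¹ * α g) x) = _
    rw [← map_mul, inv_mul_cancel, map_one]
    rfl
  · rw [hψ, Finset.sum_eq_zero, smul_zero]
    intro g _
    rw [h3 _ (hC g x hx), map_zero]
  · ext b
    change ψ (Additive.ofMul ⟨b, hBA b.2⟩) = φ (Additive.ofMul b)
    rw [hψ]
    have : ∀ g : G, ρ g⁻¹ (ψ0 (Additive.ofMul ⟨α g b, hA g b (hBA b.2)⟩)) =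
        φ (Additive.ofMul b) := by
      intro g
      rw [h2 ⟨α g b, hB g b b.2⟩, hφ.1 g b _ rfl, ← Module.End.mul_apply, ← map_mul,
        inv_mul_cancel, map_one]
      rfl
    simp only [this, Finset.sum_const, Finset.card_univ]
    exact hc _

/-- **multiplicativity** -/
theorem hG_mul [Finite G] [Fact p.Prime] (hG' : ¬ p ∣ Nat.card G) (hW : ∀ w : W, p • w = 0)
    {A B C : Subgroup M} (hA : St α A) (hB : St α B) (hC : St α C) (hBA : B ≤ A) (hCB : C ≤ B) :
    hG α ρ A C = hG α ρ A B * hG α ρ B (C ⊔ pw p A) := by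
  let r : HG α ρ A C →+ HG α ρ B (C ⊔ pw p A) :=
    { toFun := fun φ => ⟨res (k := k) hBA φ.1, res_mem α ρ hBA (by
        rw [HG_sup_pw α ρ hW (hCB.trans hBA)]; exact φ.2)⟩
      map_zero' := Subtype.ext (map_zero _)
      map_add' := fun _ _ => Subtype.ext (map_add _ _ _) }
  have hr : Function.Surjective r := by
    rintro ⟨φ, hφ⟩
    obtain ⟨ψ, h1, h2⟩ := exists_ext hG' hW hA hB hC hBA hφ
    exact ⟨⟨ψ, h1⟩, Subtype.ext h2⟩
  have h1 : Nat.card r.ker = hG α ρ A B := by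
    refine Nat.card_congr
      { toFun := fun φ => ⟨φ.1.1, φ.1.2.1, fun x hx =>
          DFunLike.congr_fun (congrArg Subtype.val φ.2) (Additive.ofMul ⟨x, hx⟩)⟩
        invFun := fun φ => ⟨⟨φ.1, HG_anti α ρ (fun _ _ hx => hCB hx) φ.2⟩, ?_⟩
        left_inv := fun _ => rfl
        right_inv := fun _ => rfl }
    apply Subtype.ext
    ext b
    exact φ.2.2 ⟨b, hBA b.2⟩ b.2
  have h2 : Nat.card (HG α ρ A C ⧸ r.ker) = hG α ρ B (C ⊔ pw p A) :=
    Nat.card_congr (QuotientAddGroup.quotientKerEquivOfSurjective r hr).toEquiv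
  rw [← h1, ← h2, mul_comm]
  exact AddSubgroup.card_eq_card_quotient_mul_card_addSubgroup r.ker

/-- if `A / B` has no `p`-torsion the count splits -/
theorem hG_mul_sat [Finite G] [Fact p.Prime] (hG' : ¬ p ∣ Nat.card G) (hW : ∀ w : W, p • w = 0)
    {A B : Subgroup M} (hA : St α A) (hB : St α B) (hBA : B ≤ A)
    (hs : ∀ x ∈ A, x ^ p ∈ B → ∃ y ∈ B, y ^ p = x ^ p) :
    hG α ρ A ⊥ = hG α ρ A B * hG α ρ B ⊥ := by
  rw [hG_mul hG' hW hA hB st_bot hBA bot_le, bot_sup_eq, ← hG_pw α ρ hW B]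
  congr 1
  apply hG_congr
  intro x hx
  constructor
  · rintro ⟨y, hy, rfl⟩
    exact hs y hy hx
  · rintro ⟨y, hy, rfl⟩
    exact ⟨y, hBA hy, rfl⟩

/-- one step of commensurability (modulo a stable subgroup `T` with `A/T` free of `p`-torsion) -/
theorem hG_step [Finite G] [Fact p.Prime] (hG' : ¬ p ∣ Nat.card G) (hW : ∀ w : W, p • w = 0)
    {A B : Subgroup M} (hA : St α A) (hB : St α B) (hBA : B ≤ A) (hAB : pw p A ≤ B)
    (ht : ∀ x ∈ A, x ^ p = 1 → x = 1) : hG α ρ A ⊥ = hG α ρ B ⊥ := by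
  rw [hG_mul hG' hW hA hB st_bot hBA bot_le, hG_mul hG' hW hB (hA.pw p) st_bot hAB bot_le,
    bot_sup_eq, bot_sup_eq, mul_comm]
  congr 1
  rw [hG_map α ρ (powMonoidHom p) (fun g x => by simp) hA]
  apply hG_congr
  intro x hx
  constructor
  · intro h
    exact ⟨x, h, rfl⟩
  · rintro ⟨y, hy, h⟩
    have h1 : y ^ p = x ^ p := h
    have h2 : (x / y) ^ p = 1 := by rw [div_pow, h1, div_self']
    have h3 := ht _ (div_mem hx (hBA hy)) h2
    rw [div_eq_one] at h3
    rwa [h3]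

/-- **commensurability** -/
theorem hG_comm [Finite G] [Fact p.Prime] (hG' : ¬ p ∣ Nat.card G) (hW : ∀ w : W, p • w = 0)
    {B : Subgroup M} (hB : St α B) (n : ℕ) : ∀ {A : Subgroup M}, St α A → B ≤ A →
      (∀ x ∈ A, x ^ p = 1 → x = 1) → B.relIndex A = n → n ≠ 0 → hG α ρ A ⊥ = hG α ρ B ⊥ := by
  induction n using Nat.strong_induction_on with
  | _ n ih =>
  intro A hA hBA ht hn h0
  have hle : B ⊔ pw p A ≤ A := sup_le hBA (pw_le p A)
  by_cases h : A ≤ B ⊔ pw p A
  · rw [hG_mul_sat hG' hW hA hB hBA, ← hG_sup_pw α ρ hW hBA, hG_self α ρ h, one_mul]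
    intro x hx hxp
    have : Finite (A ⧸ B.subgroupOf A) := by
      apply Nat.finite_of_card_ne_zero
      rw [← hn] at h0
      exact h0
    have hs : Function.Surjective (fun y : A ⧸ B.subgroupOf A => y ^ p) := by
      intro y
      obtain ⟨a, rfl⟩ := QuotientGroup.mk_surjective y
      obtain ⟨b, hb, _, ⟨c, hc, rfl⟩, h1⟩ := Subgroup.mem_sup.mp (h a.2)
      refine ⟨((⟨c, hc⟩ : A) : A ⧸ B.subgroupOf A), ?_⟩
      change (((⟨c, hc⟩ : A) ^ p : A) : A ⧸ B.subgroupOf A) = _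
      rw [QuotientGroup.eq, Subgroup.mem_subgroupOf]
      change (c ^ p)⁻¹ * (a : M) ∈ B
      rw [← h1]
      simpa [mul_comm] using hb
    have hi := Finite.injective_iff_surjective.mpr hs
    have h2 : ((⟨x, hx⟩ : A) : A ⧸ B.subgroupOf A) = 1 := by
      apply hi
      change (((⟨x, hx⟩ : A) ^ p : A) : A ⧸ B.subgroupOf A) = 1 ^ p
      rw [one_pow, QuotientGroup.eq_one_iff]
      exact hxp
    exact ⟨x, (QuotientGroup.eq_one_iff (⟨x, hx⟩ : A)).mp h2, rfl⟩
  · have hst : St α (B ⊔ pw p A) := hB.sup (hA.pw p)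
    rw [hG_step hG' hW hA hst hle le_sup_right ht]
    have hm := Subgroup.relIndex_mul_relIndex B (B ⊔ pw p A) A le_sup_left hle
    have h1 : (B ⊔ pw p A).relIndex A ≠ 1 := fun h' => h (Subgroup.relIndex_eq_one.mp h')
    have h2 : B.relIndex (B ⊔ pw p A) ≠ 0 := by
      intro h'
      rw [h', zero_mul, hn] at hm
      exact h0 hm.symm
    have h3 : (B ⊔ pw p A).relIndex A ≠ 0 := by
      intro h'
      rw [h', mul_zero, hn] at hm
      exact h0 hm.symm
    refine ih _ ?_ hst le_sup_left (fun x hx => ht x (hle hx)) rfl h2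
    rw [← hn, ← hm]
    exact lt_mul_of_one_lt_right (Nat.pos_of_ne_zero h2) (by omega)

end Ext

end Crest.Agent.T15.EqU
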