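import Crest.Agent.T15.EqUA_16

/-!
# Row 15, block C: Shapiro's lemma and the abstract equivariant unit theorem
-/

set_option autoImplicit false

noncomputable section

namespace Crest.Agent.T15.EqU

variable {k G M W : Type*} [CommRing k] [Group G] [CommGroup M] [AddCommGroup W] [Module k W]

/-- the vectors fixed by a subgroup -/
def Fx (ρ : Representation k G W) (H : Subgroup G) : Submodule k W where
  carrier := {w | ∀ g ∈ H, ρ g w = w}
  add_mem' := fun ha hb g hg => by rw [map_add, ha g hg, hb g hg]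
  zero_mem' := fun g _ => map_zero _
  smul_mem' := fun c _ ha g hg => by rw [map_smul, ha g hg]

theorem mem_Fx {ρ : Representation k G W} {H : Subgroup G} {w : W} :
    w ∈ Fx ρ H ↔ ∀ g ∈ H, ρ g w = w := Iff.rfl

theorem Fx_bot (ρ : Representation k G W) : Fx ρ ⊥ = ⊤ := by
  rw [eq_top_iff]
  intro w _ g hg
  rw [Subgroup.mem_bot.mp hg, map_one]
  rfl

/-- equivariant functions on a `G`-set -/
def EqF (ρ : Representation k G W) (X : Type*) [SMul G X] : Submodule k (X → W) where
  carrier := {f | ∀ (g : G) (x : X), f (g • x) = ρ g (f x)}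
  add_mem' := fun ha hb g x => by simp only [Pi.add_apply, map_add, ha g x, hb g x]
  zero_mem' := fun g _ => (map_zero _).symm
  smul_mem' := fun c _ ha g x => by simp only [Pi.smul_apply, map_smul, ha g x]

theorem mem_EqF {ρ : Representation k G W} {X : Type*} [SMul G X] {f : X → W} :
    f ∈ EqF ρ X ↔ ∀ (g : G) (x : X), f (g • x) = ρ g (f x) := Iff.rfl

/-- **Shapiro**: equivariant functions are given by their values on orbit representatives -/
def eqFEquiv (ρ : Representation k G W) {X ι : Type*} [MulAction G X] (x : ι → X)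
    (hx : ∀ y, ∃ i, ∃ g : G, g • x i = y) (hx' : ∀ i j (g : G), g • x i = x j → i = j) :
    EqF ρ X ≃ₗ[k] ∀ i, Fx ρ (MulAction.stabilizer G (x i)) := by
  refine LinearEquiv.ofBijective
    { toFun := fun f i => ⟨f.1 (x i), fun g hg => by rw [← f.2 g, show g • x i = x i from hg]⟩
      map_add' := fun _ _ => rfl
      map_smul' := fun _ _ => rfl } ⟨?_, ?_⟩
  · intro f f' h
    apply Subtype.ext
    funext y
    obtain ⟨i, g, rfl⟩ := hx y
    have h1 : f.1 (x i) = f'.1 (x i) := congrArg Subtype.val (congrFun h i)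
    rw [f.2, f'.2, h1]
  · intro v
    choose r s hs using hx
    have key : ∀ i (g : G) y, g • x i = y → ρ (s y) (v (r y)) = ρ g (v i) := by
      intro i g y hy
      have h1 : ((s y)⁻¹ * g) • x i = x (r y) := by rw [mul_smul, hy, inv_smul_eq_iff, hs]
      have h2 := hx' _ _ _ h1
      subst h2
      have h3 := (v (r y)).2 _ h1
      conv_lhs => rw [← h3]
      rw [← Module.End.mul_apply, ← map_mul, mul_inv_cancel_left]
    refine ⟨⟨fun y => ρ (s y) (v (r y)), fun g y => ?_⟩, ?_⟩
    · beta_reduce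
      rw [key (r y) (g * s y) (g • y) (by rw [mul_smul, hs]), map_mul, Module.End.mul_apply]
    · funext i
      apply Subtype.ext
      change ρ (s (x i)) (v (r (x i))) = v i
      rw [key i 1 (x i) (one_smul _ _), map_one]
      rfl

theorem card_EqF (ρ : Representation k G W) {X ι : Type*} [MulAction G X] [Fintype ι] (x : ι → X)
    (hx : ∀ y, ∃ i, ∃ g : G, g • x i = y) (hx' : ∀ i j (g : G), g • x i = x j → i = j) :
    Nat.card (EqF ρ X) = ∏ i, Nat.card (Fx ρ (MulAction.stabilizer G (x i))) := by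
  rw [Nat.card_congr (eqFEquiv ρ x hx hx').toEquiv, Nat.card_pi]

omit [Group G] in
theorem exists_inv_card {p : ℕ} [Fintype G] [Fact p.Prime] (hG : ¬ p ∣ Nat.card G)
    (hW : ∀ w : W, p • w = 0) : ∃ c : ℕ, ∀ w : W, c • Fintype.card G • w = w := by
  have hp : p.Prime := Fact.out
  have hcop : Nat.Coprime (Nat.card G) p := ((Nat.Prime.coprime_iff_not_dvd hp).mpr hG).symm
  obtain ⟨c, -, hc⟩ := Nat.exists_mul_mod_eq_one_of_coprime hcop hp.one_lt
  refine ⟨c, fun w => ?_⟩
  rw [smul_smul, ← Nat.card_eq_fintype_card, mul_comm, ← Nat.div_add_mod (Nat.card G * c) p, hc,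
    add_smul, one_smul, mul_comm, mul_smul, hW, smul_zero, zero_add]

section Family

variable {α : G →* Monoid.End M} {ρ : Representation k G W} {X : Type*} [MulAction G X]
  [Fintype X]

/-- the monomials in a finite family -/
def mon (z : X → M) : Multiplicative (X → ℤ) →* M where
  toFun c := ∏ x, z x ^ (Multiplicative.toAdd c) x
  map_one' := by simp
  map_mul' a b := by
    rw [← Finset.prod_mul_distrib]
    exact Finset.prod_congr rfl fun x _ => by simp [zpow_add]

omit [MulAction G X] in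
theorem mon_apply (z : X → M) (c : X → ℤ) : mon z (Multiplicative.ofAdd c) = ∏ x, z x ^ c x := rfl

omit [MulAction G X] in
theorem mem_mon (z : X → M) (x : X) : z x ∈ (mon z).range := by
  classical
  refine ⟨Multiplicative.ofAdd (Pi.single x 1), ?_⟩
  rw [mon_apply, Finset.prod_eq_single x]
  · simp
  · intro y _ hy
    simp [hy]
  · simp

theorem act_mon {z : X → M} (hz : ∀ (g : G) x, z (g • x) = α g (z x)) (g : G) (c : X → ℤ) :
    α g (∏ x, z x ^ c x) = ∏ x, z x ^ c (g⁻¹ • x) := by
  rw [map_prod, ← Equiv.prod_comp (MulAction.toPerm g : Equiv.Perm X) fun x => z x ^ c (g⁻¹ • x)]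
  refine Finset.prod_congr rfl fun x _ => ?_
  simp [hz]

theorem st_mon {z : X → M} (hz : ∀ (g : G) x, z (g • x) = α g (z x)) : St α (mon z).range := by
  rintro g _ ⟨c, rfl⟩
  exact ⟨Multiplicative.ofAdd fun x => Multiplicative.toAdd c (g⁻¹ • x), (act_mon hz g _).symm⟩

omit [MulAction G X] in
theorem hom_mon {z : X → M} (φ : Additive (mon z).range →+ W) (c : X → ℤ) :
    φ (Additive.ofMul ⟨∏ x, z x ^ c x, Multiplicative.ofAdd c, rfl⟩) =
      ∑ x, c x • φ (Additive.ofMul ⟨z x, mem_mon z x⟩) := by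
  have : (⟨∏ x, z x ^ c x, Multiplicative.ofAdd c, rfl⟩ : (mon z).range) =
      ∏ x, (⟨z x, mem_mon z x⟩ : (mon z).range) ^ c x := by
    apply Subtype.ext
    simp
  rw [this, ofMul_prod, map_sum]
  exact Finset.sum_congr rfl fun x _ => by rw [ofMul_zpow, map_zsmul]

/-- homomorphisms on the group generated by an equivariant family -/
theorem hG_mon {z : X → M} (hz : ∀ (g : G) x, z (g • x) = α g (z x)) :
    hG α ρ (mon z).range ⊥ =
      Nat.card {f : EqF ρ X // ∀ c : X → ℤ, ∏ x, z x ^ c x = 1 → ∑ x, c x • f.1 x = 0} := by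
  let F : HG α ρ (mon z).range ⊥ →
      {f : EqF ρ X // ∀ c : X → ℤ, ∏ x, z x ^ c x = 1 → ∑ x, c x • f.1 x = 0} := fun φ =>
    ⟨⟨fun x => φ.1 (Additive.ofMul ⟨z x, mem_mon z x⟩), fun g x => φ.2.1 g _ _ (hz g x)⟩,
      fun c hc => by
        rw [← hom_mon]
        exact φ.2.2 _ hc⟩
  refine Nat.card_congr (Equiv.ofBijective F ⟨?_, ?_⟩)
  · intro φ ψ h
    apply Subtype.ext
    apply AddMonoidHom.ext
    rintro ⟨_, c, rfl⟩
    have h1 := hom_mon φ.1 (Multiplicative.toAdd c)
    have h2 := hom_mon ψ.1 (Multiplicative.toAdd c)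
    refine h1.trans (Eq.trans ?_ h2.symm)
    refine Finset.sum_congr rfl fun x _ => ?_
    congr 1
    exact congrFun (congrArg (fun t => t.1.1) h) x
  · rintro ⟨f, hf⟩
    let q : (X → ℤ) →+ Additive (mon z).range :=
      MonoidHom.toAdditiveRight (mon z).rangeRestrict
    have hq : Function.Surjective q := fun y => (mon z).rangeRestrict_surjective y
    let l : (X → ℤ) →+ W :=
      { toFun := fun c => ∑ x, c x • f.1 x
        map_zero' := by simp
        map_add' := fun a b => by simp [add_smul, Finset.sum_add_distrib] }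
    have hker : q.ker ≤ l.ker := fun c hc => hf c (congrArg Subtype.val hc)
    let ψ := q.liftOfSurjective hq ⟨l, hker⟩
    have hψ : ∀ c, ψ (q c) = l c := fun c => q.liftOfRightInverse_comp_apply _ _ _ c
    refine ⟨⟨ψ, ?_, ?_⟩, ?_⟩
    · rintro g ⟨_, c, rfl⟩ y hy
      have h1 : Additive.ofMul y = q fun x => Multiplicative.toAdd c (g⁻¹ • x) := by
        apply Subtype.ext
        exact hy.trans (act_mon hz g _)
      have h2 : Additive.ofMul (⟨mon z c, c, rfl⟩ : (mon z).range) =
          q (Multiplicative.toAdd c) := rfl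
      rw [h1, h2, hψ, hψ]
      change ∑ x, _ • f.1 x = ρ g (∑ x, _ • f.1 x)
      rw [map_sum, ← Equiv.sum_comp (MulAction.toPerm g : Equiv.Perm X)
        fun x => Multiplicative.toAdd c (g⁻¹ • x) • f.1 x]
      refine Finset.sum_congr rfl fun x _ => ?_
      simp only [MulAction.toPerm_apply, inv_smul_smul, map_zsmul, f.2 g x]
    · intro x hx
      have : x = 1 := Subtype.ext hx
      rw [this]
      exact map_zero ψ
    · classical
      apply Subtype.ext
      apply Subtype.ext
      funext x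
      have h1 : Additive.ofMul (⟨z x, mem_mon z x⟩ : (mon z).range) = q (Pi.single x 1) := by
        apply Subtype.ext
        change z x = ∏ y, z y ^ (Pi.single x 1 : X → ℤ) y
        rw [Finset.prod_eq_single x]
        · simp
        · intro y _ hy
          simp [hy]
        · simp
      change ψ _ = f.1 x
      rw [h1, hψ]
      change ∑ y, (Pi.single x 1 : X → ℤ) y • f.1 y = f.1 x
      rw [Finset.sum_eq_single x]
      · simp
      · intro y _ hy
        simp [hy]
      · simp

/-- a family whose only relation is an invariant vector `e` with a coordinate `1` -/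
theorem hG_mon_rel {p : ℕ} [Finite G] [Fact p.Prime] (hG' : ¬ p ∣ Nat.card G)
    (hW : ∀ w : W, p • w = 0) {z : X → M} (hz : ∀ (g : G) x, z (g • x) = α g (z x))
    (e : X → ℤ) (he : ∀ (g : G) x, e (g • x) = e x) (x₀ : X) (h0 : e x₀ = 1)
    (hrel : ∀ c : X → ℤ, ∏ x, z x ^ c x = 1 ↔ ∃ n : ℤ, c = n • e) :
    hG α ρ (mon z).range ⊥ * Nat.card (Fx ρ ⊤) = Nat.card (EqF ρ X) := by
  classical
  have := Fintype.ofFinite G
  obtain ⟨a, ha⟩ := exists_inv_card hG' hW
  let s : EqF ρ X →+ Fx ρ ⊤ :=
    { toFun := fun f => ⟨∑ x, e x • f.1 x, fun g _ => by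
        rw [map_sum, ← Equiv.sum_comp (MulAction.toPerm g : Equiv.Perm X) fun x => e x • f.1 x]
        refine Finset.sum_congr rfl fun x _ => ?_
        simp only [MulAction.toPerm_apply, map_zsmul, f.2 g x, he]⟩
      map_zero' := Subtype.ext (by simp)
      map_add' := fun f f' => Subtype.ext (by simp [Finset.sum_add_distrib]) }
  have hs : Function.Surjective s := by
    rintro ⟨w, hw⟩
    refine ⟨⟨fun x => a • ∑ g : G, if g • x₀ = x then w else 0, fun g x => ?_⟩, ?_⟩
    · beta_reduce
      rw [map_nsmul, map_sum]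
      congr 1
      rw [← Equiv.sum_comp (Equiv.mulLeft g) fun t : G => if t • x₀ = g • x then w else 0]
      refine Finset.sum_congr rfl fun t _ => ?_
      simp only [Equiv.coe_mulLeft, mul_smul, smul_left_cancel_iff]
      split_ifs
      · exact (hw g trivial).symm
      · exact (map_zero _).symm
    · apply Subtype.ext
      change ∑ x, e x • a • ∑ g : G, (if g • x₀ = x then w else 0) = w
      simp_rw [smul_comm _ a, ← Finset.smul_sum (r := a), Finset.smul_sum (r := e _)]
      rw [Finset.sum_comm]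
      have : ∀ g : G, ∑ x, e x • (if g • x₀ = x then w else 0) = w := by
        intro g
        rw [Finset.sum_eq_single (g • x₀)]
        · rw [if_pos rfl, he, h0, one_smul]
        · intro y _ hy
          rw [if_neg (Ne.symm hy), smul_zero]
        · simp
      simp only [this, Finset.sum_const, Finset.card_univ]
      exact ha w
  have h1 : Nat.card s.ker = hG α ρ (mon z).range ⊥ := by
    rw [hG_mon hz]
    refine Nat.card_congr (Equiv.subtypeEquivRight fun f => ?_)
    constructor
    · intro hf c hc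
      obtain ⟨n, rfl⟩ := (hrel c).mp hc
      have h2 : ∑ x, e x • f.1 x = 0 := congrArg Subtype.val hf
      simp only [Pi.smul_apply, smul_eq_mul, mul_smul, ← Finset.smul_sum, h2, smul_zero]
    · intro hf
      exact Subtype.ext (hf e ((hrel e).mpr ⟨1, (one_smul _ _).symm⟩))
  have h2 : Nat.card (EqF ρ X ⧸ s.ker) = Nat.card (Fx ρ ⊤) :=
    Nat.card_congr (QuotientAddGroup.quotientKerEquivOfSurjective s hs).toEquiv
  rw [← h1, ← h2, mul_comm]
  exact (AddSubgroup.card_eq_card_quotient_mul_card_addSubgroup s.ker).symm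

/-- a free family -/
theorem hG_mon_free {z : X → M} (hz : ∀ (g : G) x, z (g • x) = α g (z x))
    (hrel : ∀ c : X → ℤ, ∏ x, z x ^ c x = 1 → c = 0) :
    hG α ρ (mon z).range ⊥ = Nat.card (EqF ρ X) := by
  rw [hG_mon hz]
  refine Nat.card_congr (Equiv.subtypeUnivEquiv fun f c hc => ?_)
  simp [hrel c hc]

/-- a group with finite torsion `T` and a torsion free stable subgroup `B` of finite index -/
theorem hG_tors {p : ℕ} [Finite G] [Fact p.Prime] (hG' : ¬ p ∣ Nat.card G)
    (hW : ∀ w : W, p • w = 0) {U T B : Subgroup M} (hU : St α U) (hB : St α B) (hBU : B ≤ U)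
    (hi : B.relIndex U ≠ 0) (m : ℕ) (hm : 0 < m) (hT : ∀ x, x ∈ T ↔ x ∈ U ∧ x ^ m = 1)
    (hm' : ∀ x ∈ U, ∀ n, 0 < n → x ^ n = 1 → x ^ m = 1) (hBT : ∀ x ∈ B, x ^ m = 1 → x = 1) :
    hG α ρ U ⊥ = hG α ρ T ⊥ * hG α ρ B ⊥ := by
  have hp : p.Prime := Fact.out
  have hπ : ∀ g x, powMonoidHom m (α g x) = α g (powMonoidHom m x) := fun g x => by simp
  have hTs : St α T := by
    intro g x hx
    rw [hT] at hx ⊢
    exact ⟨hU g x hx.1, by rw [← map_pow, hx.2, map_one]⟩
  have hTU : T ≤ U := fun x hx => ((hT x).mp hx).1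
  rw [hG_mul_sat hG' hW hU hTs hTU, mul_comm]
  · congr 1
    have h1 : hG α ρ U T = hG α ρ (pw m U) ⊥ := by
      rw [hG_map α ρ (powMonoidHom m) hπ hU]
      apply hG_congr
      intro x hx
      rw [hT]
      exact ⟨fun h => h.2, fun h => ⟨hx, h⟩⟩
    have h2 : hG α ρ B ⊥ = hG α ρ (pw m B) ⊥ := by
      rw [hG_map α ρ (powMonoidHom m) hπ hB]
      apply hG_congr
      intro x hx
      exact ⟨fun h => by rw [Subgroup.mem_bot.mp h]; exact one_mem _, fun h => hBT x hx h⟩
    rw [h1, h2]
    refine hG_comm hG' hW (hB.pw m) _ (hU.pw m) (Subgroup.map_mono hBU) ?_ rfl ?_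
    · rintro _ ⟨y, hy, rfl⟩ h
      exact hm' y hy (m * p) (Nat.mul_pos hm hp.pos) (by rw [pow_mul]; exact h)
    · intro h
      rw [Subgroup.relIndex_map_map] at h
      have h3 : (B ⊔ (powMonoidHom m : M →* M).ker).relIndex
          (U ⊔ (powMonoidHom m : M →* M).ker) ∣ B.relIndex U := by
        have h4 : U ⊔ (powMonoidHom m : M →* M).ker = U ⊔ (B ⊔ (powMonoidHom m : M →* M).ker) := by
          rw [← sup_assoc, sup_eq_left.mpr hBU]
        rw [h4, Subgroup.relIndex_sup_right]
        exact Subgroup.relIndex_dvd_of_le_left U le_sup_left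
      rw [h] at h3
      exact hi (zero_dvd_iff.mp h3)
  · intro x hx hxp
    refine ⟨x, (hT x).mpr ⟨hx, hm' x hx (p * m) (Nat.mul_pos hp.pos hm) ?_⟩, rfl⟩
    rw [pow_mul]
    exact ((hT _).mp hxp).2

end Family

end Crest.Agent.T15.EqU
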