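import Crest.Agent.T15.EqU_16

/-!
# Row 15, block C: the equivariant `S`-unit theorem, dimension form
-/

set_option autoImplicit false

noncomputable section

open NumberField NumberField.InfinitePlace NumberField.Units Module IsDedekindDomain
open scoped Pointwise

namespace Crest.Agent.T15.EqU

section Abs

variable {k G M W : Type*} [Group G] [CommGroup M] [AddCommGroup W]

theorem finite_HG [CommRing k] [Module k W] [Finite W] (α : G →* Monoid.End M)
    (ρ : Representation k G W) (A B : Subgroup M) [Group.FG A] : Finite (HG α ρ A B) := by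
  obtain ⟨S, hS, hfin⟩ := (Group.fg_iff (G := A)).mp inferInstance
  have := hfin.to_subtype
  refine Finite.of_injective (fun (φ : HG α ρ A B) (s : S) => φ.1 (Additive.ofMul s.1)) ?_
  intro φ ψ h
  apply Subtype.ext
  apply AddMonoidHom.ext
  intro x
  have hx : (Additive.toMul x : A) ∈ Subgroup.closure S := hS ▸ Subgroup.mem_top _
  change φ.1 (Additive.ofMul (Additive.toMul x)) = ψ.1 (Additive.ofMul (Additive.toMul x))
  generalize Additive.toMul x = y at hx
  induction hx using Subgroup.closure_induction with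
  | mem y hy => exact congrFun h ⟨y, hy⟩
  | one => simp
  | mul a b _ _ ha hb => rw [ofMul_mul, map_add, map_add, ha, hb]
  | inv a _ ha => rw [ofMul_inv, map_neg, map_neg, ha]

theorem smul_char [CommRing k] [Module k W] (p : ℕ) [CharP k p] (x : W) : p • x = 0 := by
  rw [← Nat.cast_smul_eq_nsmul k, CharP.cast_eq_zero, zero_smul]

/-- cardinality of a finite vector space -/
theorem card_eq_pow [Field k] [Finite k] (V : Type*) [AddCommGroup V] [Module k V] [Finite V] :
    Nat.card V = Nat.card k ^ finrank k V := by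
  have : Module.Finite k V := Module.Finite.of_finite
  exact Module.natCard_eq_pow_finrank

theorem pow_card_inj [Field k] [Finite k] {a b : ℕ} (h : Nat.card k ^ a = Nat.card k ^ b) : a = b :=
  Nat.pow_right_injective (Finite.one_lt_card (α := k)) h

/-- multiplicativity, dimension form -/
theorem finrank_HG_add [Field k] [Finite k] [Module k W] {α : G →* Monoid.End M}
    {ρ : Representation k G W} {p : ℕ} [Finite G] [Fact p.Prime] [CharP k p]
    (hG' : ¬ p ∣ Nat.card G) {A B C : Subgroup M} (hA : St α A) (hB : St α B) (hC : St α C)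
    (hBA : B ≤ A) (hCB : C ≤ B) [Finite (HG α ρ A C)] :
    finrank k (HG α ρ A C) = finrank k (HG α ρ A B) + finrank k (HG α ρ B (C ⊔ pw p A)) := by
  have h := hG_mul (ρ := ρ) hG' (smul_char (k := k) p) hA hB hC hBA hCB
  have h0 : hG α ρ A C ≠ 0 := Nat.card_pos.ne'
  rw [h] at h0
  have h1 : Finite (HG α ρ A B) := Nat.finite_of_card_ne_zero (left_ne_zero_of_mul h0)
  have h2 : Finite (HG α ρ B (C ⊔ pw p A)) := Nat.finite_of_card_ne_zero (right_ne_zero_of_mul h0)
  unfold hG at h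
  rw [card_eq_pow (k := k), card_eq_pow (k := k) (HG α ρ A B),
    card_eq_pow (k := k) (HG α ρ B _), ← pow_add] at h
  exact pow_card_inj h

/-- homomorphisms on a cyclic group whose order is killed in `W` -/
def hgCyc [CommRing k] [Module k W] (α : G →* Monoid.End M) (ρ : Representation k G W) (ζ : M)
    (hW : ∀ w : W, orderOf ζ • w = 0) (χ : G → ℤ) (hχ : ∀ g, α g ζ = ζ ^ χ g) :
    HG α ρ (Subgroup.zpowers ζ) ⊥ ≃ {w : W // ∀ g, ρ g w = χ g • w} := by
  refine Equiv.ofBijective (fun φ => ⟨φ.1 (Additive.ofMul ⟨ζ, Subgroup.mem_zpowers ζ⟩), fun g => by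
    rw [← φ.2.1 g _ (⟨ζ, Subgroup.mem_zpowers ζ⟩ ^ χ g) (by simp [hχ]), ofMul_zpow, map_zsmul]⟩)
    ⟨?_, ?_⟩
  · intro φ ψ h
    apply Subtype.ext
    apply AddMonoidHom.ext
    rintro ⟨_, n, rfl⟩
    have h1 : (⟨ζ ^ n, n, rfl⟩ : Subgroup.zpowers ζ) = ⟨ζ, Subgroup.mem_zpowers ζ⟩ ^ n :=
      Subtype.ext (by simp)
    change φ.1 (Additive.ofMul ⟨ζ ^ n, n, rfl⟩) = ψ.1 (Additive.ofMul ⟨ζ ^ n, n, rfl⟩)
    rw [h1, ofMul_zpow, map_zsmul, map_zsmul]
    exact congrArg (n • ·) (congrArg Subtype.val h)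
  · rintro ⟨w, hw⟩
    let q : ℤ →+ Additive (Subgroup.zpowers ζ) :=
      zmultiplesHom _ (Additive.ofMul ⟨ζ, Subgroup.mem_zpowers ζ⟩)
    have hq' : ∀ n : ℤ, ((Additive.toMul (q n) : Subgroup.zpowers ζ) : M) = ζ ^ n := by
      intro n
      simp [q]
    have hq : Function.Surjective q := by
      rintro ⟨_, n, rfl⟩
      exact ⟨n, Subtype.ext (hq' n)⟩
    have hker : q.ker ≤ (zmultiplesHom W w).ker := by
      intro n hn
      have h1 : ζ ^ n = 1 := (hq' n).symm.trans (congrArg Subtype.val hn)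
      obtain ⟨m, rfl⟩ := orderOf_dvd_iff_zpow_eq_one.mpr h1
      rw [AddMonoidHom.mem_ker, zmultiplesHom_apply, mul_comm, mul_smul, natCast_zsmul, hW,
        smul_zero]
    let ψ := q.liftOfSurjective hq ⟨zmultiplesHom W w, hker⟩
    have hψ : ∀ n, ψ (q n) = n • w := fun n => q.liftOfRightInverse_comp_apply _ _ _ n
    refine ⟨⟨ψ, ?_, ?_⟩, ?_⟩
    · rintro g ⟨_, n, rfl⟩ y hy
      have h1 : Additive.ofMul y = q (n * χ g) := by
        apply Subtype.ext
        refine hy.trans (Eq.trans ?_ (hq' _).symm)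
        change α g (ζ ^ n) = _
        rw [map_zpow, hχ, ← zpow_mul, mul_comm]
      have h2 : Additive.ofMul (⟨ζ ^ n, n, rfl⟩ : Subgroup.zpowers ζ) = q n :=
        Subtype.ext (hq' n).symm
      rw [h1]
      erw [h2]
      rw [hψ, hψ, map_zsmul, hw, mul_smul]
    · intro x hx
      have : x = 1 := Subtype.ext hx
      rw [this]
      exact map_zero ψ
    · apply Subtype.ext
      have h2 : Additive.ofMul (⟨ζ, Subgroup.mem_zpowers ζ⟩ : Subgroup.zpowers ζ) = q 1 :=
        Subtype.ext ((hq' 1).trans (zpow_one ζ)).symm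
      change ψ _ = w
      rw [h2, hψ, one_smul]

end Abs

variable {K L : Type*} [Field K] [Field L] [Algebra K L] [NumberField L]

theorem finite_torsion : Finite (CommGroup.torsion Lˣ) := by
  have : NeZero (torsionOrder L) := ⟨torsionOrder_ne_zero L⟩
  refine Finite.of_injective (fun x : CommGroup.torsion Lˣ => (⟨x.1, by
    obtain ⟨n, hn, h⟩ := isOfFinOrder_iff_pow_eq_one.mp x.2
    exact pow_torsionOrder hn h⟩ : rootsOfUnity (torsionOrder L) L)) ?_
  intro x y h
  exact Subtype.ext (congrArg (fun t : rootsOfUnity (torsionOrder L) L => t.1) h)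

variable {k W : Type*} [Field k] [Finite k] [AddCommGroup W] [Module k W] [Module.Finite k W]

/-- **Equivariant `S`-unit theorem**, dimension form. -/
theorem eqU_finrank [FiniteDimensional K L] {p : ℕ} [Fact p.Prime] [CharP k p]
    (hp : ¬ p ∣ Nat.card (L ≃ₐ[K] L)) (ρ : Representation k (L ≃ₐ[K] L) W)
    {ι κ : Type*} [Fintype ι] [Fintype κ] (w : ι → HeightOneSpectrum (𝓞 L))
    (u : κ → InfinitePlace L) (S : Set (HeightOneSpectrum (𝓞 L)))
    (hS : ∀ v, v ∈ S ↔ ∃ i, ∃ σ : L ≃ₐ[K] L, σ • (w i).asIdeal = v.asIdeal)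
    (hw : ∀ i j (σ : L ≃ₐ[K] L), σ • (w i).asIdeal = (w j).asIdeal → i = j)
    (hu : ∀ t, ∃ j, ∃ σ : L ≃ₐ[K] L, σ • u j = t)
    (hu' : ∀ i j (σ : L ≃ₐ[K] L), σ • u i = u j → i = j) :
    Finite (HG (gal K L) ρ (S.unit L) ⊥) ∧
    finrank k (HG (gal K L) ρ (S.unit L) ⊥) + finrank k (Fx ρ ⊤) =
      finrank k (HG (gal K L) ρ (CommGroup.torsion Lˣ) ⊥) +
        ((∑ j, finrank k (Fx ρ (MulAction.stabilizer (L ≃ₐ[K] L) (u j)))) +
          ∑ i, finrank k (Fx ρ (MulAction.stabilizer (L ≃ₐ[K] L) (w i).asIdeal))) := by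
  have hWf : Finite W := Module.finite_of_finite k
  have h := eqU hp ρ (smul_char (k := k) p) w u S hS hw hu hu'
  have := finite_torsion (L := L)
  have h1 : Finite (HG (gal K L) ρ (CommGroup.torsion Lˣ) ⊥) := finite_HG _ _ _ _
  have h2 : ∀ H, Nat.card (Fx ρ H) = Nat.card k ^ finrank k (Fx ρ H) := fun H => card_eq_pow _
  simp only [h2, Finset.prod_pow_eq_pow_sum] at h
  unfold hG at h
  rw [card_eq_pow (k := k) (HG (gal K L) ρ (CommGroup.torsion Lˣ) ⊥), ← pow_add, ← pow_add] at h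
  have h3 : Finite (HG (gal K L) ρ (S.unit L) ⊥) := by
    apply Nat.finite_of_card_ne_zero
    intro h0
    rw [h0, zero_mul] at h
    exact (pow_pos Nat.card_pos _).ne h
  refine ⟨h3, ?_⟩
  rw [card_eq_pow (k := k), ← pow_add] at h
  exact pow_card_inj h

/-- the case of a Galois extension of `ℚ`: `S` = the primes above the rational primes `l i`,
`c` = complex conjugation for the embedding `φ`. -/
theorem eqU_rat {L : Type*} [Field L] [NumberField L] [IsGalois ℚ L] {p : ℕ} [Fact p.Prime]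
    [CharP k p] (hp : ¬ p ∣ Nat.card (L ≃ₐ[ℚ] L)) (ρ : Representation k (L ≃ₐ[ℚ] L) W)
    {ι : Type*} [Fintype ι] (l : ι → ℕ) (hl : ∀ i, (l i).Prime) (hinj : Function.Injective l)
    (w : ι → HeightOneSpectrum (𝓞 L)) (hw : ∀ i, ((l i : ℕ) : 𝓞 L) ∈ (w i).asIdeal)
    (S : Set (HeightOneSpectrum (𝓞 L))) (hS : ∀ v, v ∈ S ↔ ∃ i, ((l i : ℕ) : 𝓞 L) ∈ v.asIdeal)
    (u : InfinitePlace L) :
    Finite (HG (gal ℚ L) ρ (S.unit L) ⊥) ∧
    finrank k (HG (gal ℚ L) ρ (S.unit L) ⊥) + finrank k (Fx ρ ⊤) =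
      finrank k (HG (gal ℚ L) ρ (CommGroup.torsion Lˣ) ⊥) +
        (finrank k (Fx ρ (MulAction.stabilizer (L ≃ₐ[ℚ] L) u)) +
          ∑ i, finrank k (Fx ρ (MulAction.stabilizer (L ≃ₐ[ℚ] L) (w i).asIdeal))) := by
  have hover : ∀ (q : ℕ), q.Prime → ∀ v : HeightOneSpectrum (𝓞 L), ((q : ℕ) : 𝓞 L) ∈ v.asIdeal →
      v.asIdeal.LiesOver (Ideal.span {(q : ℤ)}) := by
    intro q hq v hv
    refine ⟨?_⟩
    have hmax : (Ideal.span {(q : ℤ)}).IsMaximal :=
      PrincipalIdealRing.isMaximal_of_irreducible (Nat.prime_iff_prime_int.mp hq).irreducible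
    refine hmax.eq_of_le (Ideal.comap_ne_top _ v.isPrime.ne_top) ?_
    rw [Ideal.span_le, Set.singleton_subset_iff]
    change algebraMap ℤ (𝓞 L) (q : ℤ) ∈ v.asIdeal
    simpa using hv
  have hsm : ∀ (σ : L ≃ₐ[ℚ] L) (I : Ideal (𝓞 L)) (q : ℕ), (q : 𝓞 L) ∈ I → (q : 𝓞 L) ∈ σ • I := by
    intro σ I q h
    have h1 := Ideal.smul_mem_pointwise_smul σ _ I h
    have h2 : σ • (q : 𝓞 L) = q := map_natCast (MulSemiringAction.toRingHom _ (𝓞 L) σ) q
    rwa [h2] at h1
  have h := eqU_finrank (K := ℚ) hp ρ w (fun _ : Unit => u) S (fun v => ?_) (fun i j σ h => ?_)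
    (fun t => ?_) (fun _ _ _ _ => rfl)
  · simpa using h
  · rw [hS]
    refine exists_congr fun i => ⟨fun hv => ?_, ?_⟩
    · have := hover _ (hl i) _ hv
      have := hover _ (hl i) _ (hw i)
      have := v.isPrime
      have := (w i).isPrime
      exact Ideal.exists_smul_eq_of_isGaloisGroup (Ideal.span {(l i : ℤ)}) _ _ _
    · rintro ⟨σ, h⟩
      rw [← h]
      exact hsm σ _ _ (hw i)
  · apply hinj
    by_contra hne
    have h1 := hsm σ _ _ (hw i)
    rw [h] at h1
    have h2 : IsCoprime ((l i : ℕ) : 𝓞 L) ((l j : ℕ) : 𝓞 L) :=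
      ((Nat.coprime_primes (hl i) (hl j)).mpr hne).cast
    obtain ⟨a, b, hab⟩ := h2
    apply (w j).isPrime.ne_top
    rw [Ideal.eq_top_iff_one, ← hab]
    exact add_mem (Ideal.mul_mem_left _ _ h1) (Ideal.mul_mem_left _ _ (hw j))
  · obtain ⟨σ, hσ⟩ := exists_smul_eq_of_comap_eq (k := ℚ) (w := u) (w' := t) (Subsingleton.elim _ _)
    exact ⟨(), σ, hσ⟩

omit [Finite k] [Module.Finite k W] [NumberField L] in
/-- the vectors fixed by the stabiliser of a complex place -/
theorem mem_Fx_conj (ρ : Representation k (L ≃ₐ[K] L) W) (φ : L →+* ℂ) (c : L ≃ₐ[K] L)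
    (hc : ComplexEmbedding.IsConj φ c) (x : W) :
    x ∈ Fx ρ (MulAction.stabilizer (L ≃ₐ[K] L) (InfinitePlace.mk φ)) ↔ ρ c x = x := by
  constructor
  · exact fun h => h c ((mem_stabilizer_mk_iff φ c).mpr (Or.inr hc))
  · intro h σ hσ
    rcases (mem_stabilizer_mk_iff φ σ).mp hσ with rfl | h1
    · rw [map_one]; rfl
    · rw [h1.ext hc, h]

end Crest.Agent.T15.EqU
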