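import Crest.Agent.T15.EqUC_16
import Crest.Agent.R018.FDE_389

/-!
# Row 15, block C: the equivariant `S`-unit theorem for an open normal subgroup of `Gal(E/ℚ)`
-/

set_option autoImplicit false

noncomputable section

open NumberField NumberField.InfinitePlace Module IsDedekindDomain
open scoped Pointwise

namespace Crest.Agent.T15.EqU

open Crest.Agent.R018.Placesx484 Crest.Agent.R018.FDEx389

section Grp

variable {k G G' M W : Type*} [CommRing k] [Group G] [Group G'] [CommGroup M] [AddCommGroup W]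
  [Module k W]

theorem HG_comp (r : G →* G') (hr : Function.Surjective r) (α : G' →* Monoid.End M)
    (ρ : Representation k G' W) (A B : Subgroup M) :
    HG (α.comp r) (ρ.comp r) A B = HG α ρ A B := by
  ext φ
  refine and_congr_left fun _ => ⟨fun h g x y hxy => ?_, fun h g x y hxy => h (r g) x y hxy⟩
  obtain ⟨g, rfl⟩ := hr g
  exact h g x y hxy

theorem Fx_comp (r : G →* G') (ρ : Representation k G' W) (H : Subgroup G) :
    Fx (ρ.comp r) H = Fx ρ (H.map r) := by
  ext w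
  refine ⟨?_, fun h g hg => h (r g) ⟨g, hg, rfl⟩⟩
  rintro h _ ⟨g, hg, rfl⟩
  exact h g hg

theorem mem_Fx_zpowers (ρ : Representation k G W) (c : G) (w : W) :
    w ∈ Fx ρ (Subgroup.zpowers c) ↔ ρ c w = w := by
  refine ⟨fun h => h c (Subgroup.mem_zpowers c), fun h => ?_⟩
  have : Subgroup.zpowers c ≤
      { carrier := {g | ρ g w = w}
        mul_mem' := fun {a b} ha hb => by
          change ρ (a * b) w = w
          rw [map_mul, Module.End.mul_apply, show ρ b w = w from hb, show ρ a w = w from ha]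
        one_mem' := by
          change ρ 1 w = w
          rw [map_one]; rfl
        inv_mem' := fun {a} ha => by
          change ρ a⁻¹ w = w
          conv_lhs => rw [← show ρ a w = w from ha]
          rw [← Module.End.mul_apply, ← map_mul, inv_mul_cancel, map_one]; rfl } := by
    rw [Subgroup.zpowers_le]
    exact h
  exact fun g hg => this hg

theorem Fx_anti (ρ : Representation k G W) {H H' : Subgroup G} (h : H ≤ H') : Fx ρ H' ≤ Fx ρ H :=
  fun _ hw g hg => hw g (h hg)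

end Grp

variable {E : Type} [Field E] [CharZero E] [IsGalois ℚ E]

/-- the units of `K = E^N` away from the primes dividing `M`, as a subgroup of `Eˣ` -/
def US (N : Subgroup (E ≃ₐ[ℚ] E)) (M : ℕ) : Subgroup Eˣ where
  carrier := {x | (∀ h ∈ N, h (x : E) = x) ∧ ∀ P : Place E, ¬ P.rchar ∣ M → P.v (x : E) = 1}
  mul_mem' := fun ha hb => ⟨fun h hh => by rw [Units.val_mul, map_mul, ha.1 h hh, hb.1 h hh],
    fun P hP => by rw [Units.val_mul, map_mul, ha.2 P hP, hb.2 P hP, one_mul]⟩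
  one_mem' := ⟨fun h _ => by simp, fun P _ => by simp⟩
  inv_mem' := fun ha => ⟨fun h hh => by rw [Units.val_inv_eq_inv_val, map_inv₀, ha.1 h hh],
    fun P hP => by rw [Units.val_inv_eq_inv_val, map_inv₀, ha.2 P hP, inv_one]⟩

theorem mem_US {N : Subgroup (E ≃ₐ[ℚ] E)} {M : ℕ} {x : Eˣ} : x ∈ US N M ↔
    (∀ h ∈ N, h (x : E) = x) ∧ ∀ P : Place E, ¬ P.rchar ∣ M → P.v (x : E) = 1 := Iff.rfl

/-- the roots of unity of `K = E^N` -/
def MU (N : Subgroup (E ≃ₐ[ℚ] E)) : Subgroup Eˣ where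
  carrier := {x | (∀ h ∈ N, h (x : E) = x) ∧ IsOfFinOrder x}
  mul_mem' := fun ha hb => ⟨fun h hh => by rw [Units.val_mul, map_mul, ha.1 h hh, hb.1 h hh],
    ha.2.mul hb.2⟩
  one_mem' := ⟨fun h _ => by simp, IsOfFinOrder.one⟩
  inv_mem' := fun ha => ⟨fun h hh => by rw [Units.val_inv_eq_inv_val, map_inv₀, ha.1 h hh],
    ha.2.inv⟩

/-- the inclusion `Kˣ → Eˣ` -/
def inc (K : IntermediateField ℚ E) : Kˣ →* Eˣ := Units.map (algebraMap K E : K →* E)

omit [IsGalois ℚ E] in
theorem inc_inj (K : IntermediateField ℚ E) : Function.Injective (inc K) := fun _ _ h =>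
  Units.ext ((algebraMap K E).injective (congrArg Units.val h))

omit [IsGalois ℚ E] in
theorem mem_range_inc (N : Subgroup (E ≃ₐ[ℚ] E)) (x : Eˣ) (hx : ∀ h ∈ N, h (x : E) = x) :
    ∃ y, inc (IntermediateField.fixedField N) y = x :=
  ⟨Units.mk0 ⟨x, (IntermediateField.mem_fixedField_iff N _).mpr hx⟩
    (fun h => x.ne_zero (congrArg Subtype.val h)), Units.ext rfl⟩

omit [IsGalois ℚ E] in
theorem fix_inc (N : Subgroup (E ≃ₐ[ℚ] E)) (y : (IntermediateField.fixedField N)ˣ) :
    ∀ h ∈ N, h (inc _ y : E) = inc _ y :=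
  (IntermediateField.mem_fixedField_iff N _).mp (y : IntermediateField.fixedField N).2

/-- the prime of a number field given by a place -/
def hos {K : Type*} [Field K] (Q : Place K) : HeightOneSpectrum (𝓞 K) :=
  ⟨Q.ideal, Q.isPrime, Q.ne_bot⟩

theorem v_eq_one_iff_hos {K : Type*} [Field K] [NumberField K] (Q : Place K) (x : Kˣ) :
    Q.v (x : K) = 1 ↔ (hos Q).valuation K (x : K) = 1 := by
  have h1 := Q.numberField_val_iff (x : K)
  have h2 := Q.numberField_val_iff ((x : K)⁻¹)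
  rw [map_inv₀, map_inv₀, inv_le_one₀ (zero_lt_iff.mpr ((map_ne_zero _).mpr x.ne_zero)),
    inv_le_one₀ (zero_lt_iff.mpr ((map_ne_zero _).mpr x.ne_zero))] at h2
  rw [le_antisymm_iff, le_antisymm_iff]
  exact and_congr h1 h2

/-- `US N M` is the image of the `S`-unit group of the fixed field -/
theorem map_unit (N : Subgroup (E ≃ₐ[ℚ] E)) [NumberField (IntermediateField.fixedField N)]
    (M : ℕ) (S : Set (HeightOneSpectrum (𝓞 (IntermediateField.fixedField N))))
    (hS : ∀ v, v ∈ S ↔ ∃ l : ℕ, l.Prime ∧ l ∣ M ∧ ((l : ℕ) : 𝓞 _) ∈ v.asIdeal) :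
    (S.unit (IntermediateField.fixedField N)).map (inc _) = US N M := by
  let K := IntermediateField.fixedField N
  have key : ∀ P : Place E, hos (P.res K) ∈ S ↔ P.rchar ∣ M := by
    intro P
    rw [hS]
    constructor
    · rintro ⟨l, hl, hlM, h⟩
      rw [← Place.rchar_res K P, Place.rchar_eq_of_mem _ hl h]
      exact hlM
    · intro h
      exact ⟨_, P.rchar_prime, h, by rw [← Place.rchar_res K P]; exact (P.res K).rchar_mem⟩
  ext x
  constructor
  · rintro ⟨y, hy, rfl⟩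
    refine ⟨fix_inc N y, fun P hP => ?_⟩
    exact (Place.v_res_eq_one_iff K P _).mp
      ((v_eq_one_iff_hos _ y).mpr (hy _ (mt (key P).mp hP)))
  · rintro ⟨h1, h2⟩
    obtain ⟨y, rfl⟩ := mem_range_inc N x h1
    refine ⟨y, fun v hv => ?_, rfl⟩
    obtain ⟨P, hP⟩ := Place.exists_res_eq (E := E) K (⟨v.asIdeal, v.isPrime, v.ne_bot⟩ : Place K)
    have h3 : hos (P.res K) = v := by rw [hP]; rfl
    rw [← h3] at hv ⊢
    exact (v_eq_one_iff_hos _ y).mp
      ((Place.v_res_eq_one_iff K P _).mpr (h2 P (mt (key P).mpr hv)))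

omit [IsGalois ℚ E] in
theorem map_torsion (N : Subgroup (E ≃ₐ[ℚ] E)) :
    (CommGroup.torsion (IntermediateField.fixedField N)ˣ).map (inc _) = MU N := by
  ext x
  constructor
  · rintro ⟨y, hy, rfl⟩
    exact ⟨fix_inc N y, MonoidHom.isOfFinOrder _ hy⟩
  · rintro ⟨h1, h2⟩
    obtain ⟨y, rfl⟩ := mem_range_inc N x h1
    exact ⟨y, (inc_inj _).isOfFinOrder_iff.mp h2, rfl⟩

section Res

variable (K : IntermediateField ℚ E) [Normal ℚ K]

omit [IsGalois ℚ E] in
theorem res_int (f : E ≃ₐ[ℚ] E) (x : 𝓞 K) :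
    algebraMap (𝓞 K) (𝓞 E) (AlgEquiv.restrictNormalHom K f • x) =
      f • algebraMap (𝓞 K) (𝓞 E) x := by
  apply RingOfIntegers.coe_injective
  exact AlgEquiv.restrictNormal_commutes f K (x : K)

omit [IsGalois ℚ E] in
theorem res_smul_place (f : E ≃ₐ[ℚ] E) (P : Place E) :
    (f • P).res K = AlgEquiv.restrictNormalHom K f • P.res K := by
  ext x
  rw [Place.mem_res, Place.mem_smul_ideal, Place.mem_smul_ideal, Place.mem_res, ← map_inv, res_int]

/-- the decomposition group of a place maps onto the decomposition group below -/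
theorem map_stabilizer (P : Place E) :
    (MulAction.stabilizer (E ≃ₐ[ℚ] E) P).map (AlgEquiv.restrictNormalHom K) =
      MulAction.stabilizer (K ≃ₐ[ℚ] K) (P.res K).ideal := by
  ext s
  constructor
  · rintro ⟨g, hg, rfl⟩
    have h := res_smul_place K g P
    rw [show g • P = P from hg] at h
    exact (congrArg Place.ideal h).symm
  · intro hs
    obtain ⟨g, rfl⟩ := AlgEquiv.restrictNormalHom_surjective (F := ℚ) (K₁ := K) (E := E) s
    have h1 : (g • P).res K = P.res K := by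
      rw [res_smul_place]
      exact Place.ext hs
    obtain ⟨t, ht⟩ := Place.exists_smul_eq_of_res_eq (M := K) _ _ h1
    refine ⟨t.restrictScalars ℚ * g, ?_, ?_⟩
    · change (t.restrictScalars ℚ * g) • P = P
      rw [mul_smul]
      exact ht
    · rw [map_mul]
      have : AlgEquiv.restrictNormalHom K (t.restrictScalars ℚ) = 1 := by
        ext x
        have h2 := AlgEquiv.restrictNormal_commutes (t.restrictScalars ℚ) K x
        exact h2.trans (t.commutes x)
      rw [this, one_mul]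

end Res

theorem exists_conj : ∃ (φ : E →+* ℂ) (c : E ≃ₐ[ℚ] E), ComplexEmbedding.IsConj φ c := by
  let φ : E →ₐ[ℚ] ℂ := IsAlgClosed.lift
  obtain ⟨σ, hσ⟩ := NumberField.ComplexEmbedding.exists_comp_symm_eq_of_comp_eq (k := ℚ) (φ : E →+* ℂ)
    (ComplexEmbedding.conjugate (φ : E →+* ℂ)) (Subsingleton.elim _ _)
  exact ⟨φ, σ.symm, hσ.symm⟩

variable {k W : Type*} [Field k] [Finite k] [AddCommGroup W] [Module k W] [Module.Finite k W]

/-- **Equivariant `S`-unit theorem** in `Gal(E/ℚ)` words. -/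
theorem eqU_gam {p : ℕ} [Fact p.Prime] [CharP k p] (N : Subgroup (E ≃ₐ[ℚ] E)) [N.Normal]
    (ho : IsOpen (N : Set (E ≃ₐ[ℚ] E))) (hp : ¬ p ∣ N.index) (ρ : Representation k (E ≃ₐ[ℚ] E) W)
    (hρ : ∀ n ∈ N, ρ n = 1) {M : ℕ} (hM : M ≠ 0) (P : ℕ → Place E)
    (hP : ∀ l ∈ M.primeFactors, (P l).rchar = l) (φ : E →+* ℂ) (c : E ≃ₐ[ℚ] E)
    (hc : ComplexEmbedding.IsConj φ c) :
    Finite (HG (gal ℚ E) ρ (US N M) ⊥) ∧
    finrank k (HG (gal ℚ E) ρ (US N M) ⊥) + finrank k (Fx ρ ⊤) =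
      finrank k (HG (gal ℚ E) ρ (MU N) ⊥) + (finrank k (Fx ρ (Subgroup.zpowers c)) +
        ∑ l ∈ M.primeFactors, finrank k (Fx ρ (MulAction.stabilizer (E ≃ₐ[ℚ] E) (P l)))) := by
  obtain ⟨hfix, hfin, hgal⟩ := fixedField_facts N ho
  set K := IntermediateField.fixedField N with hK
  have : NumberField K := { to_charZero := inferInstance, to_finiteDimensional := hfin }
  let r : (E ≃ₐ[ℚ] E) →* (K ≃ₐ[ℚ] K) := AlgEquiv.restrictNormalHom K
  have hr : Function.Surjective r := AlgEquiv.restrictNormalHom_surjective E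
  have hker : r.ker = N := by
    rw [← hfix]
    exact IntermediateField.restrictNormalHom_ker K
  have hcard : Nat.card (K ≃ₐ[ℚ] K) = N.index := by
    rw [← hker, Subgroup.index_ker, MonoidHom.range_eq_top.mpr hr, Subgroup.card_top]
  let ρu : (K ≃ₐ[ℚ] K) →* (W →ₗ[k] W)ˣ :=
    r.liftOfSurjective hr ⟨ρ.toHomUnits, fun g hg => Units.ext (hρ g (hker ▸ hg))⟩
  let ρ' : Representation k (K ≃ₐ[ℚ] K) W := (Units.coeHom _).comp ρu
  have hρ' : ρ'.comp r = ρ := by
    refine MonoidHom.ext fun g => ?_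
    exact congrArg Units.val (r.liftOfRightInverse_comp_apply _ _ _ g)
  let S : Set (HeightOneSpectrum (𝓞 K)) := {v | ∃ l : M.primeFactors, ((l : ℕ) : 𝓞 K) ∈ v.asIdeal}
  have h := eqU_rat (k := k) (L := K) (hcard ▸ hp) ρ' (fun l : M.primeFactors => (l : ℕ))
    (fun l => Nat.prime_of_mem_primeFactors l.2) Subtype.val_injective
    (fun l => hos ((P l).res K)) (fun l => by
      have h1 := ((P l).res K).rchar_mem
      rwa [Place.rchar_res, hP l l.2] at h1) S (fun _ => Iff.rfl)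
    (InfinitePlace.mk (φ.comp (algebraMap K E)))
  have hπ : ∀ g x, inc K (((gal ℚ K).comp r) g x) = gal ℚ E g (inc K x) := fun g x =>
    Units.ext (AlgEquiv.restrictNormal_commutes g K (x : K))
  have tr : ∀ A : Subgroup Kˣ, St (gal ℚ K) A →
      Nat.card (HG (gal ℚ E) ρ (A.map (inc K)) ⊥) = Nat.card (HG (gal ℚ K) ρ' A ⊥) := by
    intro A hA
    have h1 := hG_map ((gal ℚ K).comp r) ρ (inc K) hπ (A := A) (fun g x hx => hA (r g) x hx) ⊥
    rw [MonoidHom.comap_bot, (MonoidHom.ker_eq_bot_iff _).mpr (inc_inj K)] at h1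
    unfold hG at h1
    rw [h1, ← hρ', HG_comp r hr]
  have hU : (S.unit K).map (inc K) = US N M := map_unit N M S fun v =>
    ⟨fun ⟨l, hl⟩ => ⟨l, Nat.prime_of_mem_primeFactors l.2, Nat.dvd_of_mem_primeFactors l.2, hl⟩,
      fun ⟨l, h1, h2, h3⟩ => ⟨⟨l, Nat.mem_primeFactors.mpr ⟨h1, h2, hM⟩⟩, h3⟩⟩
  have hWf : Finite W := Module.finite_of_finite k
  have t1 := tr (S.unit K) (st_unit fun σ v ⟨l, hl⟩ => ⟨l, by
    have h1 := Ideal.smul_mem_pointwise_smul σ _ v.asIdeal hl
    have h2 : σ • ((l : ℕ) : 𝓞 K) = (l : ℕ) :=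
      map_natCast (MulSemiringAction.toRingHom _ (𝓞 K) σ) l
    rwa [h2] at h1⟩)
  have t2 := tr (CommGroup.torsion Kˣ) fun g x hx => MonoidHom.isOfFinOrder (gal ℚ K g) hx
  rw [hU] at t1
  rw [map_torsion] at t2
  obtain ⟨f1, h⟩ := h
  have := finite_torsion (L := K)
  have f2 : Finite (HG (gal ℚ K) ρ' (CommGroup.torsion Kˣ) ⊥) := finite_HG _ _ _ _
  have f3 : Finite (HG (gal ℚ E) ρ (US N M) ⊥) :=
    Nat.finite_of_card_ne_zero (t1 ▸ Nat.card_pos.ne')
  have f4 : Finite (HG (gal ℚ E) ρ (MU N) ⊥) :=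
    Nat.finite_of_card_ne_zero (t2 ▸ Nat.card_pos.ne')
  rw [card_eq_pow (k := k), card_eq_pow (k := k) (HG (gal ℚ K) ρ' _ ⊥)] at t1 t2
  refine ⟨f3, ?_⟩
  have e1 : Fx ρ ⊤ = Fx ρ' ⊤ := by
    rw [← hρ', Fx_comp, Subgroup.map_top_of_surjective r hr]
  have e2 : Fx ρ (Subgroup.zpowers c) = Fx ρ' (MulAction.stabilizer (K ≃ₐ[ℚ] K)
      (InfinitePlace.mk (φ.comp (algebraMap K E)))) := by
    ext x
    rw [mem_Fx_zpowers, mem_Fx_conj ρ' _ (r c), ← hρ']
    · rfl
    · refine RingHom.ext fun y => ?_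
      have h1 : algebraMap K E (r c y) = c (algebraMap K E y) :=
        AlgEquiv.restrictNormal_commutes c K y
      change star (φ (algebraMap K E y)) = φ (algebraMap K E (r c y))
      rw [h1, hc.eq]
  have e3 : ∀ l, finrank k (Fx ρ (MulAction.stabilizer (E ≃ₐ[ℚ] E) (P l))) =
      finrank k (Fx ρ' (MulAction.stabilizer (K ≃ₐ[ℚ] K) (hos ((P l).res K)).asIdeal)) := by
    intro l
    rw [← hρ', Fx_comp, map_stabilizer]
    rfl
  simp only [e3]
  rw [pow_card_inj t1, pow_card_inj t2, e1, e2, h, ← Finset.sum_coe_sort M.primeFactors]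

end Crest.Agent.T15.EqU
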