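import Crest.Agent.T15.EqUB_16
import Crest.Agent.R018.SLatB_824

/-!
# Row 15, block C: the equivariant `S`-unit theorem modulo `p`
-/

set_option autoImplicit false

noncomputable section

open NumberField NumberField.InfinitePlace NumberField.Units Module IsDedekindDomain
open scoped Pointwise

namespace Crest.Agent.T15.EqU

open Crest.Agent.R018.MinkUx824 Crest.Agent.R018.Selmerx380 Crest.Agent.R018.SLatx824
open Crest.Agent.R018.SLatBx824

attribute [local instance] actH

/-- equivariant choice for a property closed under products -/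
theorem exists_equiv_prod {G X U : Type*} [Group G] [Fintype G] [MulAction G X] [CommGroup U]
    [MulDistribMulAction G U] (u : X → U) :
    ∀ (g : G) (x : X), (∏ t : G, t • u (t⁻¹ • g • x)) = g • ∏ t : G, t • u (t⁻¹ • x) := by
  intro g x
  rw [Finset.smul_prod', ← Equiv.prod_comp (Equiv.mulLeft g) fun t : G => t • u (t⁻¹ • g • x)]
  refine Finset.prod_congr rfl fun t _ => ?_
  simp [mul_smul]

variable {K L : Type*} [Field K] [Field L] [Algebra K L]

variable (K L) in
/-- the Galois action on `Lˣ` -/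
def gal : (L ≃ₐ[K] L) →* Monoid.End Lˣ := MulDistribMulAction.toMonoidEnd (L ≃ₐ[K] L) Lˣ

theorem gal_apply (σ : L ≃ₐ[K] L) (x : Lˣ) : gal K L σ x = σ • x := rfl

theorem coe_gal (σ : L ≃ₐ[K] L) (x : Lˣ) : ((gal K L σ x : Lˣ) : L) = σ (x : L) := rfl

variable [NumberField L]

omit [NumberField L] in
theorem log_finprod {ι : Type*} (s : Finset ι) (f : ι → Lˣ) (w : InfinitePlace L) :
    Real.log (w ((∏ i ∈ s, f i : Lˣ) : L)) = ∑ i ∈ s, Real.log (w (f i : L)) := by
  rw [Units.coe_prod, map_prod, Real.log_prod]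
  intro i _
  exact (InfinitePlace.pos_iff.mpr (f i).ne_zero).ne'

/-- an equivariant family of units with the sign property (any stabilisers) -/
theorem exists_sgn [FiniteDimensional K L] :
    ∃ η : InfinitePlace L → (𝓞 L)ˣ, Sgn η ∧
      ∀ (σ : L ≃ₐ[K] L) w, iu L (η (σ • w)) = σ • iu L (η w) := by
  classical
  choose u hu using dirichletUnitTheorem.exists_unit L
  let η : InfinitePlace L → Lˣ := fun w => ∏ t : L ≃ₐ[K] L, t • iu L (u (t⁻¹ • w))
  have h1 : ∀ w, η w ∈ (iu L).range := fun w =>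
    prod_mem fun t _ => ⟨_, (smul_iu t _).symm⟩
  choose v hv using h1
  refine ⟨v, fun t w hwt => ?_, fun σ w => ?_⟩
  · have h2 : ((v t : (𝓞 L)ˣ) : L) = (η t : L) := by rw [← hv]; rfl
    rw [h2, log_finprod]
    refine Finset.sum_neg (fun σ _ => ?_) Finset.univ_nonempty
    rw [place_smul]
    exact hu _ _ fun h => hwt (smul_left_cancel _ h)
  · rw [hv, hv]
    exact exists_equiv_prod (fun w => iu L (u w)) σ w

omit [NumberField L] in
theorem iu_inj : Function.Injective (iu L) := by
  intro a b hab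
  have := congrArg (fun x : Lˣ => (x : L)) hab
  simp only [coe_iu] at this
  exact Units.ext (by exact_mod_cast this)

/-- **Minkowski–Herbrand units** (any stabilisers) -/
theorem exists_herbrand [FiniteDimensional K L] :
    ∃ ε : InfinitePlace L → Lˣ, (∀ (σ : L ≃ₐ[K] L) w, ε (σ • w) = σ • ε w) ∧
      (∀ w, ε w ∈ (iu L).range) ∧ ∏ w, ε w = 1 ∧
      (∀ c : InfinitePlace L → ℤ, ∏ w, ε w ^ c w = 1 → ∀ w w', c w = c w') ∧
      (Subgroup.closure (Set.range ε)).relIndex (iu L).range ≠ 0 := by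
  classical
  obtain ⟨u, hu, heq⟩ := exists_sgn (K := K) (L := L)
  obtain ⟨c, hc, hpos⟩ := exists_rel_pos hu
  have hinj : Function.Injective (iu L) := iu_inj
  set k : ℕ := torsionOrder L with hk
  have hk0 : 0 < k := Nat.pos_of_ne_zero (torsionOrder_ne_zero L)
  set c' : InfinitePlace L → ℤ := fun t => ∑ σ : L ≃ₐ[K] L, c (σ⁻¹ • t) with hc'
  have hc'pos : ∀ t, 0 < c' t := fun t => Finset.sum_pos (fun σ _ => hpos _) ⟨1, Finset.mem_univ _⟩
  have hc'inv : ∀ (σ : L ≃ₐ[K] L) t, c' (σ • t) = c' t := by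
    intro σ t
    simp only [hc']
    have := Equiv.sum_comp (Equiv.mulLeft σ) (fun τ : L ≃ₐ[K] L => c (τ⁻¹ • σ • t))
    rw [← this]
    refine Finset.sum_congr rfl fun τ _ => ?_
    simp [mul_smul]
  set z : Lˣ := iu L (∏ t, u t ^ c t) with hz
  have hzk : z ^ k = 1 := by
    have h1 : (∏ t, u t ^ c t) ^ k = 1 := by
      have h2 : (∏ t, u t ^ c t) ∈ rootsOfUnity (torsionOrder L) (𝓞 L) := by
        rw [rootsOfUnity_eq_torsion]
        exact hc
      exact (mem_rootsOfUnity _ _).mp h2
    rw [hz, ← map_pow, h1, map_one]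
  have hz' : z = ∏ t, iu L (u t) ^ c t := by
    rw [hz, map_prod]
    exact Finset.prod_congr rfl fun t _ => by rw [map_zpow]
  have hprod : ∏ t, iu L (u t) ^ c' t = ∏ σ : L ≃ₐ[K] L, σ • z := by
    have h2 : ∀ σ : L ≃ₐ[K] L, σ • z = ∏ t, iu L (u t) ^ c (σ⁻¹ • t) := by
      intro σ
      rw [hz']
      exact (prod_smul_inv (fun t => iu L (u t)) heq σ c).symm
    simp_rw [h2]
    rw [Finset.prod_comm]
    refine Finset.prod_congr rfl fun t _ => ?_
    have h3 : ∀ s : Finset (L ≃ₐ[K] L),
        iu L (u t) ^ (∑ σ ∈ s, c (σ⁻¹ • t)) = ∏ σ ∈ s, iu L (u t) ^ c (σ⁻¹ • t) := by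
      intro s
      induction s using Finset.induction_on with
      | empty => simp
      | insert a s ha ih => rw [Finset.sum_insert ha, Finset.prod_insert ha, zpow_add, ih]
    exact h3 _
  have hprodk : ∏ t, iu L (u t) ^ (c' t * k) = 1 := by
    have : ∏ t, iu L (u t) ^ (c' t * k) = (∏ t, iu L (u t) ^ c' t) ^ k := by
      rw [← Finset.prod_pow]
      refine Finset.prod_congr rfl fun t _ => ?_
      rw [zpow_mul, zpow_natCast]
    rw [this, hprod, ← Finset.prod_pow]
    apply Finset.prod_eq_one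
    intro σ _
    rw [← smul_pow', hzk, smul_one]
  refine ⟨fun w => iu L (u w) ^ (c' w * k), ?_, ?_, hprodk, ?_, ?_⟩
  · intro σ w
    change iu L (u (σ • w)) ^ (c' (σ • w) * k) = σ • iu L (u w) ^ (c' w * k)
    rw [heq, hc'inv, smul_zpow']
  · intro w
    exact (iu L).range.zpow_mem (MonoidHom.mem_range.mpr ⟨u w, rfl⟩) _
  · intro d hd w w'
    have h1 : R018.MinkUx824.Rel u (fun t => c' t * k * d t - c' t * k * d w') := by
      unfold R018.MinkUx824.Rel
      have : ∏ t, u t ^ (c' t * k * d t - c' t * k * d w') = 1 := by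
        apply hinj
        rw [map_prod, map_one]
        have h5 : ∀ t, iu L (u t ^ (c' t * k * d t - c' t * k * d w')) =
            (iu L (u t) ^ (c' t * k)) ^ d t * ((iu L (u t) ^ (c' t * k)) ^ d w')⁻¹ := by
          intro t
          rw [map_zpow, zpow_sub, zpow_mul _ (c' t * k), zpow_mul _ (c' t * k)]
        simp_rw [h5]
        rw [Finset.prod_mul_distrib, hd, one_mul, Finset.prod_inv_distrib, Finset.prod_zpow,
          hprodk, one_zpow, inv_one]
      rw [this]
      exact one_mem _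
    have h2 := congrFun (h1.eq_zero hu w' (by simp)) w
    simp only [Pi.zero_apply] at h2
    rw [← mul_sub] at h2
    have h3 : c' w * k ≠ 0 := mul_ne_zero (hc'pos w).ne' (by exact_mod_cast hk0.ne')
    have := (mul_eq_zero.mp h2).resolve_left h3
    omega
  · rw [← Subgroup.index_comap]
    have : (Subgroup.comap (iu L) (Subgroup.closure
        (Set.range fun w => iu L (u w) ^ (c' w * k)))).FiniteIndex := by
      apply finiteIndex_of_pow_mem
      apply exists_pow_mem hu
      intro t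
      refine ⟨(c' t).toNat * k, Nat.mul_pos (by have := hc'pos t; omega) hk0, ?_⟩
      rw [Subgroup.mem_comap]
      apply Subgroup.subset_closure
      refine ⟨t, ?_⟩
      change iu L (u t) ^ (c' t * k) = _
      rw [map_pow, ← zpow_natCast]
      congr 1
      push_cast
      rw [Int.toNat_of_nonneg (hc'pos t).le]
    exact this.index_ne_zero

/-- roots of unity are killed by the torsion order -/
theorem pow_torsionOrder {x : Lˣ} {n : ℕ} (hn : 0 < n) (h : x ^ n = 1) :
    x ^ torsionOrder L = 1 := by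
  have h1 : x ∈ (iu L).range := by
    rw [mem_iu_range_iff]
    intro w
    have h2 := ord_pow (R := 𝓞 L) w x n
    rw [h, ord_one] at h2
    exact (mul_eq_zero.mp h2.symm).resolve_left (by exact_mod_cast hn.ne')
  obtain ⟨u, rfl⟩ := h1
  have h3 : u ∈ torsion L := by
    rw [torsion, CommGroup.mem_torsion, isOfFinOrder_iff_pow_eq_one]
    exact ⟨n, hn, iu_inj (by rw [map_pow, h, map_one])⟩
  rw [← rootsOfUnity_eq_torsion] at h3
  rw [← map_pow, (mem_rootsOfUnity _ _).mp h3, map_one]

theorem torsion_le_unit (S : Set (HeightOneSpectrum (𝓞 L))) :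
    CommGroup.torsion Lˣ ≤ S.unit L := by
  intro x hx
  obtain ⟨n, hn, h⟩ := isOfFinOrder_iff_pow_eq_one.mp hx
  rw [mem_unit_iff]
  intro w _
  have h2 := ord_pow (R := 𝓞 L) w x n
  rw [h, ord_one] at h2
  exact (mul_eq_zero.mp h2.symm).resolve_left (by exact_mod_cast hn.ne')

/-- the `S`-units are stable -/
theorem st_unit {S : Set (HeightOneSpectrum (𝓞 L))}
    (hS : ∀ (σ : L ≃ₐ[K] L) (w : HeightOneSpectrum (𝓞 L)), w ∈ S → σ • w ∈ S) :
    St (gal K L) (S.unit L) := by
  intro σ x hx
  rw [mem_unit_iff] at hx ⊢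
  intro w hw
  have h1 : σ⁻¹ • w ∉ S := fun h => hw (by simpa using hS σ _ h)
  have := hx _ h1
  rw [← ord_smul σ, smul_inv_smul] at this
  exact this

/-- the action on a stable set of primes -/
@[reducible] def actS {S : Set (HeightOneSpectrum (𝓞 L))}
    (hS : ∀ (σ : L ≃ₐ[K] L) (w : HeightOneSpectrum (𝓞 L)), w ∈ S → σ • w ∈ S) :
    MulAction (L ≃ₐ[K] L) S where
  smul σ w := ⟨σ • w.1, hS σ _ w.2⟩
  one_smul w := Subtype.ext (one_smul (L ≃ₐ[K] L) w.1)
  mul_smul σ τ w := Subtype.ext (mul_smul σ τ w.1)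

variable {k W : Type*} [CommRing k] [AddCommGroup W] [Module k W]

/-- **Equivariant `S`-unit theorem.**  `w`, `u`: representatives of the orbits of `S` and of the
infinite places. -/
theorem eqU [FiniteDimensional K L] {p : ℕ} [Fact p.Prime] (hp : ¬ p ∣ Nat.card (L ≃ₐ[K] L))
    (ρ : Representation k (L ≃ₐ[K] L) W) (hW : ∀ x : W, p • x = 0)
    {ι κ : Type*} [Fintype ι] [Fintype κ] (w : ι → HeightOneSpectrum (𝓞 L))
    (u : κ → InfinitePlace L) (S : Set (HeightOneSpectrum (𝓞 L)))
    (hS : ∀ v, v ∈ S ↔ ∃ i, ∃ σ : L ≃ₐ[K] L, σ • (w i).asIdeal = v.asIdeal)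
    (hw : ∀ i j (σ : L ≃ₐ[K] L), σ • (w i).asIdeal = (w j).asIdeal → i = j)
    (hu : ∀ t, ∃ j, ∃ σ : L ≃ₐ[K] L, σ • u j = t)
    (hu' : ∀ i j (σ : L ≃ₐ[K] L), σ • u i = u j → i = j) :
    hG (gal K L) ρ (S.unit L) ⊥ * Nat.card (Fx ρ ⊤) =
      hG (gal K L) ρ (CommGroup.torsion Lˣ) ⊥ *
        ((∏ j, Nat.card (Fx ρ (MulAction.stabilizer (L ≃ₐ[K] L) (u j)))) *
          ∏ i, Nat.card (Fx ρ (MulAction.stabilizer (L ≃ₐ[K] L) (w i).asIdeal))) := by
  classical
  have hst : ∀ (σ : L ≃ₐ[K] L) (v : HeightOneSpectrum (𝓞 L)), v ∈ S → σ • v ∈ S := by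
    intro σ v hv
    obtain ⟨i, τ, h⟩ := (hS v).mp hv
    exact (hS _).mpr ⟨i, σ * τ, by rw [mul_smul, h]; rfl⟩
  have hfin : S.Finite := by
    refine (Set.finite_range fun q : ι × (L ≃ₐ[K] L) => q.2 • w q.1).subset fun v hv => ?_
    obtain ⟨i, τ, h⟩ := (hS v).mp hv
    exact ⟨(i, τ), HeightOneSpectrum.ext h⟩
  let _ : Fintype S := hfin.fintype
  let _ : MulAction (L ≃ₐ[K] L) S := actS hst
  obtain ⟨ε, he1, he2, he3, he4, he5⟩ := exists_herbrand (K := K) (L := L)
  -- equivariant generators of powers of the primes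
  choose y0 hy0 using exists_gen (L := L)
  set n : ℕ := Fintype.card (L ≃ₐ[K] L) * hL L with hn
  have hn0 : 0 < n := Nat.mul_pos Fintype.card_pos hL_pos
  let y : S → Lˣ := fun q => ∏ t : L ≃ₐ[K] L, t • y0 (t⁻¹ • q.1)
  have hy1 : ∀ (σ : L ≃ₐ[K] L) (q : S), y (σ • q) = σ • y q := fun σ q =>
    exists_equiv_prod y0 σ q.1
  have hy2 : ∀ (q : S) w', ord (𝓞 L) w' (y q) = if w' = q then (n : ℤ) else 0 := by
    intro q w'
    have h1 : ∀ t : L ≃ₐ[K] L, ord (𝓞 L) w' (t • y0 (t⁻¹ • q.1)) =
        if w' = q then (hL L : ℤ) else 0 := by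
      intro t
      have h2 := ord_smul t (t⁻¹ • w') (y0 (t⁻¹ • q.1))
      rw [smul_inv_smul, hy0] at h2
      rw [h2]
      simp only [smul_left_cancel_iff]
    simp only [y, ord_prod, h1, Finset.sum_const, Finset.card_univ, hn]
    split_ifs <;> simp
  let z : InfinitePlace L ⊕ S → Lˣ := Sum.elim ε y
  have hz : ∀ (σ : L ≃ₐ[K] L) t, z (σ • t) = gal K L σ (z t) := by
    rintro σ (t | q)
    · exact he1 σ t
    · exact hy1 σ q
  have hordε : ∀ t v, ord (𝓞 L) v (ε t) = 0 := fun t v => (mem_iu_range_iff _).mp (he2 t) v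
  have hord : ∀ (c : InfinitePlace L ⊕ S → ℤ) (q : S),
      ord (𝓞 L) q.1 (∏ t, z t ^ c t) = c (.inr q) * n := by
    intro c q
    rw [ord_prod, Fintype.sum_sum_type]
    simp only [z, Sum.elim_inl, Sum.elim_inr, ord_zpow, hordε, hy2, mul_zero, Finset.sum_const_zero,
      zero_add]
    rw [Finset.sum_eq_single q]
    · simp
    · intro q' _ hq
      rw [if_neg, mul_zero]
      exact fun h5 => hq (Subtype.ext h5.symm)
    · simp
  obtain ⟨t₀⟩ : Nonempty (InfinitePlace L) := inferInstance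
  let e : InfinitePlace L ⊕ S → ℤ := Sum.elim (fun _ => 1) (fun _ => 0)
  have hrel : ∀ c : InfinitePlace L ⊕ S → ℤ, ∏ t, z t ^ c t = 1 ↔ ∃ m : ℤ, c = m • e := by
    intro c
    constructor
    · intro h
      have h1 : ∀ q : S, c (.inr q) = 0 := by
        intro q
        have h2 := hord c q
        rw [h, ord_one] at h2
        exact (mul_eq_zero.mp h2.symm).resolve_right (by exact_mod_cast hn0.ne')
      rw [Fintype.prod_sum_type] at h
      have h2 := he4 (fun t => c (.inl t)) (by simpa [h1, z] using h)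
      refine ⟨c (.inl t₀), funext ?_⟩
      rintro (t | q)
      · simp [e, h2 t t₀]
      · simp [e, h1]
    · rintro ⟨m, rfl⟩
      rw [Fintype.prod_sum_type]
      simp [z, e, Finset.prod_zpow, he3]
  have hzU : ∀ t, z t ∈ S.unit L := by
    rintro (t | q)
    · rw [mem_unit_iff]
      exact fun v _ => hordε t v
    · rw [mem_unit_iff]
      intro v hv
      change ord (𝓞 L) v (y q) = 0
      rw [hy2, if_neg]
      rintro rfl
      exact hv q.2
  have hBU : (mon z).range ≤ S.unit L := by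
    rintro _ ⟨c, rfl⟩
    exact prod_mem fun t _ => zpow_mem (hzU t) _
  have hidx : (mon z).range.relIndex (S.unit L) ≠ 0 := by
    -- every `S`-unit has a power in the lattice times the units
    have hcl : Subgroup.closure (Set.range ε) ≤ (mon z).range := by
      rw [Subgroup.closure_le]
      rintro _ ⟨t, rfl⟩
      exact mem_mon z (.inl t)
    have h0 := relIndex_ne_zero S hfin (fun q => y0 q.1) (fun q w' => hy0 q.1 w') _ he5
      ((mon z).range ⊔ Subgroup.closure (Set.range fun q : S => y0 q.1))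
      (hcl.trans le_sup_left)
      (fun q => Subgroup.mem_sup_right (Subgroup.subset_closure ⟨q, rfl⟩))
    refine Subgroup.relIndex_ne_zero_trans ?_ h0
    rw [Subgroup.relIndex_sup_left]
    have hfg : Group.FG (Subgroup.closure (Set.range fun q : S => y0 q.1)) :=
      Group.closure_finite_fg _
    set C := Subgroup.closure (Set.range fun q : S => y0 q.1)
    have hfg' : Group.FG (C ⧸ (mon z).range.subgroupOf C) :=
      Group.fg_of_surjective (QuotientGroup.mk'_surjective _)
    have hpow : ∀ x ∈ C, ∃ m : ℕ, 0 < m ∧ x ^ m ∈ (mon z).range := by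
      intro x hx
      induction hx using Subgroup.closure_induction with
      | mem x hx =>
        obtain ⟨q, rfl⟩ := hx
        have h1 : y0 q.1 ^ Fintype.card (L ≃ₐ[K] L) / y q ∈ (iu L).range := by
          rw [mem_iu_range_iff]
          intro v
          rw [ord_div, ord_pow, hy0, hy2, hn]
          split_ifs <;> simp
        have h2 := Subgroup.pow_relIndex_mem (Subgroup.closure (Set.range ε)) h1
        refine ⟨Fintype.card (L ≃ₐ[K] L) *
          (Subgroup.closure (Set.range ε)).relIndex (iu L).range,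
          Nat.mul_pos Fintype.card_pos (Nat.pos_of_ne_zero he5), ?_⟩
        have h3 := mul_mem (hcl h2) (pow_mem (mem_mon z (.inr q))
          ((Subgroup.closure (Set.range ε)).relIndex (iu L).range))
        rw [← mul_pow] at h3
        rw [pow_mul]
        convert h3 using 2
        exact (div_mul_cancel _ _).symm
      | one => exact ⟨1, one_pos, by simp⟩
      | mul a b _ _ ha hb =>
        obtain ⟨m, hm, ha⟩ := ha
        obtain ⟨m', hm', hb⟩ := hb
        refine ⟨m * m', Nat.mul_pos hm hm', ?_⟩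
        rw [mul_pow]
        refine mul_mem (by rw [pow_mul]; exact pow_mem ha _) ?_
        rw [mul_comm, pow_mul]
        exact pow_mem hb _
      | inv a _ ha =>
        obtain ⟨m, hm, ha⟩ := ha
        exact ⟨m, hm, by rw [inv_pow]; exact inv_mem ha⟩
    have : Finite (C ⧸ (mon z).range.subgroupOf C) := by
      apply CommGroup.finite_of_fg_isMulTorsion
      intro x
      obtain ⟨a, rfl⟩ := QuotientGroup.mk'_surjective _ x
      obtain ⟨m, hm, hmem⟩ := hpow a a.2
      rw [isOfFinOrder_iff_pow_eq_one]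
      refine ⟨m, hm, ?_⟩
      rw [← map_pow]
      exact (QuotientGroup.eq_one_iff _).mpr hmem
    exact Nat.card_pos.ne'
  have hk0 : 0 < torsionOrder L := Nat.pos_of_ne_zero (torsionOrder_ne_zero L)
  have h1 := hG_tors (ρ := ρ) (T := CommGroup.torsion Lˣ) hp hW (st_unit hst) (st_mon hz) hBU hidx
    (torsionOrder L) hk0 (fun x => ⟨fun hx => ⟨torsion_le_unit S hx, by
      obtain ⟨m, hm, h⟩ := isOfFinOrder_iff_pow_eq_one.mp hx
      exact pow_torsionOrder hm h⟩, fun hx => isOfFinOrder_iff_pow_eq_one.mpr ⟨_, hk0, hx.2⟩⟩)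
    (fun x _ m hm h => pow_torsionOrder hm h) (by
      rintro _ ⟨c, rfl⟩ h
      rw [← map_pow] at h
      obtain ⟨m, hm⟩ := (hrel (torsionOrder L • Multiplicative.toAdd c)).mp h
      refine (hrel (Multiplicative.toAdd c)).mpr ⟨Multiplicative.toAdd c (.inl t₀), funext ?_⟩
      have h5 : (torsionOrder L : ℤ) ≠ 0 := by exact_mod_cast hk0.ne'
      rintro (t | q)
      · have a1 := congrFun hm (.inl t)
        have a2 := congrFun hm (.inl t₀)
        simp only [e, Pi.smul_apply, Sum.elim_inl, smul_eq_mul, mul_one, nsmul_eq_mul] at a1 a2 ⊢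
        exact mul_left_cancel₀ h5 (a1.trans a2.symm)
      · have a1 := congrFun hm (.inr q)
        simp only [e, Pi.smul_apply, Sum.elim_inr, smul_eq_mul, mul_zero, nsmul_eq_mul] at a1 ⊢
        exact (mul_eq_zero.mp a1).resolve_left h5)
  have h2 := hG_mon_rel (ρ := ρ) hp hW hz e (by rintro σ (t | q) <;> rfl) (.inl t₀) rfl hrel
  let x : κ ⊕ ι → InfinitePlace L ⊕ S :=
    Sum.map u fun i => ⟨w i, (hS _).mpr ⟨i, 1, one_smul _ _⟩⟩
  have h3 := card_EqF ρ x (by
      rintro (t | q)
      · obtain ⟨j, σ, h⟩ := hu t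
        exact ⟨.inl j, σ, congrArg Sum.inl h⟩
      · obtain ⟨i, σ, h⟩ := (hS q.1).mp q.2
        exact ⟨.inr i, σ, congrArg Sum.inr (Subtype.ext (HeightOneSpectrum.ext h))⟩) (by
      rintro (i | i) (j | j) σ h
      · exact congrArg Sum.inl (hu' i j σ (Sum.inl_injective h))
      · exact absurd h Sum.inl_ne_inr
      · exact absurd h Sum.inr_ne_inl
      · exact congrArg Sum.inr (hw i j σ
          (congrArg (fun t : S => t.1.asIdeal) (Sum.inr_injective h))))
  rw [h1, mul_assoc, h2, h3, Fintype.prod_sum_type]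
  congr 2
  · refine Finset.prod_congr rfl fun j _ => ?_
    have : MulAction.stabilizer (L ≃ₐ[K] L) (x (.inl j)) =
        MulAction.stabilizer (L ≃ₐ[K] L) (u j) := by
      ext σ
      exact ⟨fun h => Sum.inl_injective h, fun h => congrArg Sum.inl h⟩
    rw [this]
  · refine Finset.prod_congr rfl fun i _ => ?_
    have : MulAction.stabilizer (L ≃ₐ[K] L) (x (.inr i)) =
        MulAction.stabilizer (L ≃ₐ[K] L) (w i).asIdeal := by
      ext σ
      exact ⟨fun h => congrArg (fun t : S => t.1.asIdeal) (Sum.inr_injective h),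
        fun h => congrArg Sum.inr (Subtype.ext (HeightOneSpectrum.ext h))⟩
    rw [this]

end Crest.Agent.T15.EqU
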