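import Crest.Agent.T15.EscB_99
import Crest.Agent.T15.HkF4_62

/-!
# Row 15, block T (helper44): surjectivity of the Eichler-Shimura map from the dimension count
-/

set_option autoImplicit false

noncomputable section

namespace Crest.Agent.T15.Esc

open UpperHalfPlane ModularForm Complex CongruenceSubgroup Module
open scoped MatrixGroups Manifold ComplexConjugate
open Crest.Agent.T15.Hk Crest.Agent.T15.Mf

/-- complex conjugation on `Hom(Λ, ℂ)` -/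
def cjH {G : Type*} [Group G] (Λ : Subgroup G) : HH Λ ℂ →ₗ[ℝ] HH Λ ℂ where
  toFun φ := (conjAe.toAddEquiv.toAddMonoidHom).comp φ
  map_add' _ _ := AddMonoidHom.ext fun _ => map_add conj _ _
  map_smul' c φ := AddMonoidHom.ext fun x => conjAe.toLinearMap.map_smul c (φ x)

lemma val_cjH {G : Type*} [Group G] {Λ : Subgroup G} (φ : HH Λ ℂ) {g : G} (hg : g ∈ Λ) :
    val (cjH Λ φ) g = conj (val φ g) := by
  rw [val_eq _ hg, val_eq _ hg]; rfl

variable (Γ : Subgroup SL(2, ℤ))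

/-- the Eichler-Shimura map -/
def esM : (MS Γ 2 × CS Γ 2) →ₗ[ℝ] HH (Γ.map Mf.sq) ℂ :=
  (((P (Γ.map Mf.sq)).comp (Submodule.inclusion MS_le_Inv)).restrictScalars ℝ).coprod
    ((cjH (Γ.map Mf.sq)).comp (((P (Γ.map Mf.sq)).comp (Submodule.inclusion CS_le_Inv)).restrictScalars ℝ))

variable {Γ}

lemma val_esM (x : MS Γ 2 × CS Γ 2) {γ : SL(2, ℤ)} (hγ : γ ∈ Γ) :
    val (esM Γ x) (Mf.sq γ) = per x.1 γ + conj (per x.2 γ) := by
  have h : Mf.sq γ ∈ Γ.map Mf.sq := ⟨γ, hγ, rfl⟩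
  have e : (γ : GL (Fin 2) ℝ) = rr (Mf.sq γ) := (rr_sq γ).symm
  rw [e, ← val_P ⟨_, MS_le_Inv x.1.2⟩ h, ← val_P ⟨_, CS_le_Inv x.2.2⟩ h, ← val_cjH _ h,
    ← val_add]
  rfl

lemma esM_inj [Γ.FiniteIndex] : Function.Injective (esM Γ) :=
  (injective_iff_map_eq_zero _).2 fun x hx => by
    have := es_inj x.1.2 x.2.2 fun γ hγ => by rw [← val_esM x hγ, hx, val_zero]
    exact Prod.ext (Subtype.ext this.1) (Subtype.ext this.2)

lemma HH_le (h4 : Γ ≤ Gamma1 4) [Γ.FiniteIndex] : Module.Finite ℂ (HH (Γ.map Mf.sq) ℂ) ∧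
    finrank ℂ (HH (Γ.map Mf.sq) ℂ) ≤ Γ.relIndex (Gamma1 4) + 1 := by
  have e := Subgroup.relIndex_map_map_of_injective Γ (Gamma1 4) sq_injective
  rw [← e]
  refine finrank_HH_le (a := Mf.sq ModularGroup.T) (b := Mf.sq U4) ?_ (Subgroup.map_mono h4) ?_
  · rw [← closure_G4, MonoidHom.map_closure, Set.image_pair]
  · rw [e]; exact Subgroup.FiniteIndex.index_ne_zero

lemma finite_MS_CS (h4 : Γ ≤ Gamma1 4) [Γ.FiniteIndex] :
    Module.Finite ℂ (MS Γ 2) ∧ Module.Finite ℂ (CS Γ 2) := by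
  have := (HH_le h4).1
  have : Module.Finite ℝ (MS Γ 2 × CS Γ 2) := Module.Finite.of_injective _ esM_inj
  have : Module.Finite ℂ (MS Γ 2 × CS Γ 2) := Module.Finite.of_restrictScalars_finite ℝ _ _
  exact ⟨Module.Finite.of_surjective (LinearMap.fst ℂ _ (CS Γ 2)) Prod.fst_surjective,
    Module.Finite.of_surjective (LinearMap.snd ℂ (MS Γ 2) _) Prod.snd_surjective⟩

/-- **Eichler-Shimura**, surjectivity from the dimension count -/
theorem es_surj_of (h4 : Γ ≤ Gamma1 4) [Γ.FiniteIndex]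
    (hdim : Γ.relIndex (Gamma1 4) + 1 ≤ finrank ℂ (MS Γ 2) + finrank ℂ (CS Γ 2))
    (φ : HH (Γ.map Mf.sq) ℂ) : ∃ f ∈ MS Γ 2, ∃ g ∈ CS Γ 2, ∀ γ ∈ Γ,
      val φ (Mf.sq γ) = per f γ + conj (per g γ) := by
  obtain ⟨_, h1⟩ := HH_le h4
  obtain ⟨_, _⟩ := finite_MS_CS h4
  have h2 := LinearMap.finrank_le_finrank_of_injective (esM_inj (Γ := Γ))
  have h3 : finrank ℝ (MS Γ 2 × CS Γ 2) = finrank ℝ (HH (Γ.map Mf.sq) ℂ) := by
    refine h2.antisymm ?_
    rw [finrank_real_of_complex, finrank_real_of_complex, finrank_prod]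
    omega
  obtain ⟨x, rfl⟩ := (LinearMap.injective_iff_surjective_of_finrank_eq_finrank h3).1 esM_inj φ
  exact ⟨_, x.1.2, _, x.2.2, fun γ hγ => val_esM x hγ⟩

end Crest.Agent.T15.Esc
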