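import Crest.Agent.T15.EscC_99
import Crest.Agent.T15.MfC_79
import Crest.Agent.T15.IgT_61
import Crest.Agent.T15.EscD_44

/-!
# Row 15, block T (helper99): `dim M₂(Γ) + dim S₂(Γ) ≥ [Γ₁(4) : Γ] + 1`
-/

set_option autoImplicit false

noncomputable section

namespace Crest.Agent.T15.Esc

open UpperHalfPlane ModularForm CongruenceSubgroup
open scoped MatrixGroups
open Crest.Agent.T15.Mf Crest.Agent.T15.Bet Crest.Agent.T15.Ig Crest.Agent.R007.Rat
open Crest.Agent.R013.RR8_948 Crest.Agent.R013.RR20_948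

theorem dim_lower_rel {K₀ K : Type*} [Field K₀] [Field K] [Algebra ℂ K₀] [Algebra ℂ K] [Algebra K₀ K]
    [IsScalarTower ℂ K₀ K] [FiniteDimensional K₀ K] [Algebra (RatFunc ℂ) K₀]
    [IsScalarTower ℂ (RatFunc ℂ) K₀] [FiniteDimensional (RatFunc ℂ) K₀] {y : K₀}
    (hy : Transcendental ℂ y) {Γ : Subgroup SL(2, ℤ)} (ι : K →ₐ[ℂ] FF)
    (hι : ∀ x, ∀ γ ∈ Γ, γ • ι x = ι x) (h4' : Γ ≤ Gamma1 4) (hx : ι (algebraMap K₀ K y) = quo eh h4)
    [Module.Finite ℂ (MS Γ 2)] [Module.Finite ℂ (CS Γ 2)] :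
    Module.finrank K₀ K + 1 ≤ Module.finrank ℂ (MS Γ 2) + Module.finrank ℂ (CS Γ 2) := by
  have f0 := ratAlg_finite y hy
  let i0 := ratAlg y hy
  have t0 := ratAlg_tower y hy
  let i1 : Algebra (RatFunc ℂ) K := ((algebraMap K₀ K).comp (algebraMap (RatFunc ℂ) K₀)).toAlgebra
  have t1 : IsScalarTower (RatFunc ℂ) K₀ K := IsScalarTower.of_algebraMap_eq fun _ => rfl
  have t2 : IsScalarTower ℂ (RatFunc ℂ) K := IsScalarTower.of_algebraMap_eq fun c => by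
    rw [IsScalarTower.algebraMap_apply ℂ K₀ K, IsScalarTower.algebraMap_apply ℂ (RatFunc ℂ) K₀]
    rfl
  have f1 : FiniteDimensional (RatFunc ℂ) K := Module.Finite.trans K₀ K
  have H : Dat Γ ι 4 h4 eh := ⟨hι, by norm_num, isF_h4, isF_eh, h4_ne, fun γ h => h4_slash (h4' h),
    fun γ h => eh_slash (h4' h), by rw [← hx, ← ratAlg_xK y hy]; rfl⟩
  refine le_trans ?_ H.dim_lower
  rw [← Module.finrank_mul_finrank (RatFunc ℂ) K₀ K]
  exact Nat.succ_le_succ (Nat.le_mul_of_pos_left _ Module.finrank_pos)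

lemma lam_mem : quo eh h4 ∈ F (Gamma1 4) := fun γ hγ => by
  rw [← inv_inv γ, inv_sl_smul_quo (by norm_num) isF_eh isF_h4, eh_slash (inv_mem hγ),
    h4_slash (inv_mem hγ)]

lemma transcendental_lam : Transcendental ℂ (quo eh h4) := fun h => by
  have h1 : quo eh h4 ∈ algebraicClosure ℂ FF := mem_algebraicClosure_iff.2 h
  rw [IntermediateField.eq_bot_of_isAlgClosed_of_isAlgebraic (algebraicClosure ℂ FF),
    IntermediateField.mem_bot] at h1
  obtain ⟨c, hc⟩ := h1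
  have h2 : tt = algebraMap ℂ FF ((3 * c + 2) / 4) := by
    rw [tt, ← hc, map_div₀, map_add, map_mul, map_ofNat, map_ofNat, map_ofNat]
  set t := (3 * c + 2) / 4
  have h3 : jj * algebraMap ℂ FF (t * (t - 1)) = algebraMap ℂ FF (16 * (16 * t ^ 2 - 16 * t + 1) ^ 3) := by
    have h4 := tt_rel
    rw [h2] at h4
    simpa only [map_mul, map_sub, map_add, map_pow, map_one, map_ofNat, jj] using h4
  by_cases h0 : t * (t - 1) = 0
  · rw [h0, map_zero, mul_zero, eq_comm, map_eq_zero] at h3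
    have h5 : 16 * t ^ 2 - 16 * t + 1 = 1 := by linear_combination 16 * h0
    rw [h5] at h3
    norm_num at h3
  · exact jj_notMem ⟨16 * (16 * t ^ 2 - 16 * t + 1) ^ 3 / (t * (t - 1)), by
      rw [map_div₀, ← h3, mul_div_cancel_right₀ _ ((map_ne_zero _).2 h0)]⟩

lemma relIndex_le_pm {Γ : Subgroup SL(2, ℤ)} (h : Γ ≤ Gamma1 4) [Γ.FiniteIndex] :
    Γ.relIndex (Gamma1 4) ≤ (pm Γ).relIndex (pm (Gamma1 4)) := by
  have h1 : pm Γ ⊓ Gamma1 4 = Γ := by
    refine le_antisymm ?_ (le_inf (le_pm Γ) h)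
    rintro γ ⟨h2 | h2, h3⟩
    · exact h2
    · have h4 := mul_mem (h h2) (inv_mem h3)
      rw [neg_mul, mul_inv_cancel, Gamma1_mem] at h4
      exact absurd h4.1 (by decide)
  have : (pm Γ).FiniteIndex := Subgroup.finiteIndex_of_le (le_pm Γ)
  conv_lhs => rw [← h1, Subgroup.inf_relIndex_right]
  exact Subgroup.relIndex_le_of_le_right (le_pm _) Subgroup.FiniteIndex.index_ne_zero

/-- **the dimension bound** -/
theorem hdim {Γ : Subgroup SL(2, ℤ)} (h : Γ ≤ Gamma1 4) (hc : IsCongruenceSubgroup Γ)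
    [Module.Finite ℂ (MS Γ 2)] [Module.Finite ℂ (CS Γ 2)] :
    Γ.relIndex (Gamma1 4) + 1 ≤ Module.finrank ℂ (MS Γ 2) + Module.finrank ℂ (CS Γ 2) := by
  have := hc.finiteIndex
  have : Fact (Γ ≤ Gamma1 4) := ⟨h⟩
  have h1 := dim_lower_rel (K₀ := F (Gamma1 4)) (K := F Γ) (y := ⟨_, lam_mem⟩)
    (fun h2 => transcendental_lam (h2.algHom ((F (Gamma1 4)).val.restrictScalars ℂ)))
    ((F Γ).val.restrictScalars ℂ) (fun x => x.2) h rfl
  rw [finrank_rel _ _ hc] at h1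
  exact (Nat.succ_le_succ (relIndex_le_pm h)).trans h1

/-- **Eichler-Shimura** -/
theorem es_surj {Γ : Subgroup SL(2, ℤ)} (h : Γ ≤ Gamma1 4) (hc : IsCongruenceSubgroup Γ)
    (φ : Hk.HH (Γ.map Mf.sq) ℂ) : ∃ f ∈ MS Γ 2, ∃ g ∈ CS Γ 2, ∀ γ ∈ Γ,
      Hk.val φ (Mf.sq γ) = per f γ + (starRingEnd ℂ) (per g γ) := by
  have := hc.finiteIndex
  obtain ⟨_, _⟩ := finite_MS_CS h
  exact es_surj_of h (hdim h hc) φ

end Crest.Agent.T15.Esc
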