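import Crest.Agent.T15.RtE_78
import Crest.Agent.T15.Sel_78
import Crest.Agent.T15.Eig_78
import Crest.Agent.T15.TopH_88

/-!
# Row 15, block R (helper20): the contracts of the modularity lifting step

* `TLev`, `TAt`, `TOut` : the Taylor-Wiles modules (block T), for an abstract system `Lv` of levels
  and Hecke correspondences;
* `EscOut` : eigenforms and eigenclasses;
* `L3Out` : the local bound at `3` (block Fl);
* `RStmt` : block R.
-/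

set_option autoImplicit false

noncomputable section

namespace Crest.Agent.T15.R

open Matrix IsLocalRing Function NumberField
open Crest.Agent.T15.Ps Crest.Agent.T15.Pat Crest.Agent.T15.Hk
open Crest.Agent.T15.C (Gam Om In De Hyp IsEig TWStmt)
open Crest.Agent.T15.Top (Lc Plc IsFr Coef Cn Mod Loc ThetaStmt ModStmt)

/-- the primes that do not divide `3 L` -/
def Gd (L p : ℕ) : Prop := p.Prime ∧ ¬ p ∣ 3 * L

variable {G : Type} [Group G]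

/-- **contract T, one level.**  `H` is the localised cohomology with auxiliary primes `q i` and
coefficients `C = O / 3 ^ (n + 1)`; `Γ`, `c` are the group and the Hecke correspondences of level
`L`; `kap = tr ∘ cores`, `lam = res ∘ tr⁻¹ ∘ ε`. -/
structure TLev (X : Lc) {O : Type} [CommRing O] [IsLocalRing O] {Γ : Subgroup G}
    (c : ℕ → Corr ℤ Γ Γ) (L : ℕ) (a : ℕ → O) (n : ℕ)
    {r : ℕ} (q : Fin r → ℕ) {Δ : Type} [CommGroup Δ] [Fintype Δ] (del : Fin r → Δ) (δ : Gam →* Δ)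
    {H : Type} [AddCommGroup H] [Module O H] [Module (Cn O (n + 1)) H] (ρH : Gam →* Module.End O H)
    (Tp : ℕ → Module.End O H) (dia : Δ →* Module.End O H) (kap : H →+ HH Γ (Cn O (n + 1)))
    (lam : HH Γ (Cn O (n + 1)) →ₗ[Cn O (n + 1)] H) : Prop where
  twg : TWg 3 n del
  free : ∃ (d : Type) (_ : Finite d) (m : d → H),
    LinearIndependent (Cn O (n + 1)) (fun x : Δ × d => dia x.1 (m x.2)) ∧
    Submodule.span (Cn O (n + 1)) (Set.range fun x : Δ × d => dia x.1 (m x.2)) = ⊤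
  cgT : ∀ g p, Gd L p → (∀ i, p ≠ q i) → Commute (ρH g) (Tp p)
  cgD : ∀ g x, Commute (ρH g) (dia x)
  opnH : IsOpen (ρH.ker : Set Gam)
  opnδ : IsOpen (δ.ker : Set Gam)
  unrH : ∀ P : Plc, Gd L P.rchar → (∀ i, P.rchar ≠ q i) → In P ≤ ρH.ker
  unrδ : ∀ P : Plc, (∀ i, P.rchar ≠ q i) → In P ≤ δ.ker
  /-- Eichler-Shimura -/
  es : ∀ (P : Plc) (s : Gam), Gd L P.rchar → (∀ i, P.rchar ≠ q i) → IsFr P s →
    ρH s + (P.rchar : O) • (dia (δ s) * ρH s⁻¹) = Tp P.rchar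
  res : ∀ p, Gd L p → (∀ i, p ≠ q i) → IsNilpotent (Tp p - algebraMap O _ (a p))
  /-- inertia at the auxiliary primes -/
  tw : ∀ i, ∃ P : Plc, P.rchar = q i ∧ ∃ τ ∈ In P, δ τ = del i ∧
    (ρH τ - 1) * (ρH τ - dia (del i)) = 0
  flat : X.Fl fun g (v : H) => ρH g v
  kap0 : ∀ x, kap x = 0 → ∑ y, dia y x = 0
  kapT : ∀ p, Gd L p → (∀ i, p ≠ q i) → ∀ x, kap (Tp p x) = T (Cn O (n + 1)) (c p) (kap x)
  lamD : ∀ x φ, dia x (lam φ) = lam φ
  lamT : ∀ p, Gd L p → (∀ i, p ≠ q i) → ∀ φ, Tp p (lam φ) = lam (T (Cn O (n + 1)) (c p) φ)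
  /-- injective on the eigenvectors with eigenvalues congruent to `a` -/
  lam0 : ∀ (φ : HH Γ (Cn O (n + 1))) (b : ℕ → O),
    (∀ p, Gd L p → b p - a p ∈ maximalIdeal O ∧
      T (Cn O (n + 1)) (c p) φ = algebraMap O (Cn O (n + 1)) (b p) • φ) → lam φ = 0 → φ = 0

/-- a system of levels `Γ L` with Hecke correspondences `c L p` -/
structure Lv (G : Type) [Group G] where
  /-- the group of level `L` (`Γ₀(L) ∩ Γ₁(4)`) -/
  Γ : ℕ → Subgroup G
  /-- the Hecke correspondences -/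
  c : ∀ L, ℕ → Corr ℤ (Γ L) (Γ L)

/-- the system `a` is not Eisenstein -/
def NEis {O : Type} [CommRing O] (a : ℕ → O) : Prop :=
  ∀ M B : ℕ, M ≠ 0 → ∃ p : ℕ, p.Prime ∧ B < p ∧ p ≡ 1 [MOD M] ∧ IsUnit (a p - p - 1)

/-- a Taylor-Wiles prime of level `n` for the system `a` -/
def TWa {O : Type} [CommRing O] [IsLocalRing O] (L : ℕ) (a : ℕ → O) (n q : ℕ) : Prop :=
  Gd L q ∧ 3 ^ (n + 1) ∣ q - 1 ∧ IsUnit (a q ^ 2 - 4 * q) ∧
    ∃ α : O, α ^ 2 - a q * α + q ∈ maximalIdeal O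

/-- the group theoretic part of the contract T at the level `L` -/
structure TGrp (𝓛 : Lv G) (L : ℕ) : Prop where
  fg : Group.FG (𝓛.Γ L)
  free : IsFreeGroup (𝓛.Γ L)
  comm : ∀ p p', Gd L p → Gd L p' →
    T ℚ (𝓛.c L p) * T ℚ (𝓛.c L p') = T ℚ (𝓛.c L p') * T ℚ (𝓛.c L p)

/-- the Taylor-Wiles modules at the level `L` -/
def TAt (X : Lc) (𝓛 : Lv G) (L : ℕ) : Prop :=
  ∀ (O : Type) [CommRing O] [IsDomain O] [IsDiscreteValuationRing O] [Coef O] (a : ℕ → O),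
    NEis a → ∀ (n r : ℕ) (q : Fin r → ℕ), Injective q → (∀ i, TWa L a n (q i)) →
    ∃ (Δ : Type) (_ : CommGroup Δ) (_ : Fintype Δ) (del : Fin r → Δ) (δ : Gam →* Δ)
      (H : Type) (_ : AddCommGroup H) (_ : Module O H) (_ : Module (Cn O (n + 1)) H)
      (_ : IsScalarTower O (Cn O (n + 1)) H) (ρH : Gam →* Module.End O H)
      (Tp : ℕ → Module.End O H) (dia : Δ →* Module.End O H)
      (kap : H →+ HH (𝓛.Γ L) (Cn O (n + 1)))
      (lam : HH (𝓛.Γ L) (Cn O (n + 1)) →ₗ[Cn O (n + 1)] H),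
      TLev X (𝓛.c L) L a n q del δ ρH Tp dia kap lam

/-- **contract T** -/
def TOut (X : Lc) (𝓛 : Lv G) : Prop :=
  ∀ L : ℕ, 0 < L → 4 ∣ L → ¬ 3 ∣ L → TGrp 𝓛 L ∧ TAt X 𝓛 L

/-- an eigenclass -/
def ECl (𝓛 : Lv G) (L : ℕ) (b : ℕ → ℂ) : Prop :=
  ∃ φ : HH (𝓛.Γ L) ℂ, φ ≠ 0 ∧ ∀ p, Gd L p → T ℂ (𝓛.c L p) φ = b p • φ

/-- **contract ESC**: eigenforms give eigenclasses, and non-Eisenstein eigenclasses give
eigenforms -/
def EscOut (𝓛 : Lv G) : Prop :=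
  ∀ (L : ℕ) (b : ℕ → ℂ), 0 < L → 4 ∣ L → (IsEig L b → ECl 𝓛 L b) ∧
    (ECl 𝓛 L b → (∃ p, Gd L p ∧ p ≡ 1 [MOD L] ∧ b p ≠ p + 1) → Mod L b)

/-- **contract Fl** -/
def L3Out (X : Lc) : Prop :=
  ∀ (k : Type) [Field k] [Finite k] [CharP k 3] (ρ : Gam →* M2 k), Hyp ρ → Loc ρ X.P →
    Sel.L3 X.w X.G X.r ρ X.P

/-- **block R** -/
def RStmt : Prop :=
  ∀ (X : Lc) (G : Type) [Group G] (𝓛 : Lv G), RT.RTStmt → TWStmt → ThetaStmt → L3Out X →
    TOut X 𝓛 → EscOut 𝓛 → ModStmt X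

end Crest.Agent.T15.R

end
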