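import Crest.Agent.T15.TopB_88
import Crest.Agent.T15.MDef_7

/-!
# Row 15: words for eigenforms, change of level, the theta series (helper88)
-/

set_option autoImplicit false

noncomputable section

namespace Crest.Agent.T15.Top

open NumberField IsLocalRing Matrix Crest.Agent.R018.Placesx484 Crest.Agent.T15.Ps
open Crest.Agent.T15.C (Om Gam In De om Hyp Cls Triv)
open CongruenceSubgroup UpperHalfPlane

theorem Gamma0_le {N N' : ℕ} (h : N ∣ N') : Gamma0 N' ≤ Gamma0 N := fun g hg => by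
  rw [Gamma0_mem] at hg ⊢
  rw [ZMod.intCast_zmod_eq_zero_iff_dvd] at hg ⊢
  exact (Int.natCast_dvd_natCast.2 h).trans hg

/-- a cusp form, at a higher level -/
def lev {N N' : ℕ} (h : N ∣ N') {k : ℤ} (f : CuspForm (Gamma0 N) k) : CuspForm (Gamma0 N') k where
  toFun := f
  slash_action_eq' γ hγ := f.slash_action_eq' γ (Subgroup.map_mono (Gamma0_le h) hγ)
  holo' := f.holo'
  zero_at_cusps' hc := f.zero_at_cusps' (hc.mono (Subgroup.map_mono (Gamma0_le h)))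

/-- `c` is the sequence of Fourier coefficients of a cusp form of weight two on `Γ₀(N)` -/
def IsQ (N : ℕ) (c : ℕ → ℂ) : Prop :=
  ∃ f : CuspForm (Gamma0 N) 2, ∀ z : ℍ,
    HasSum (fun n : ℕ => c n * Complex.exp (2 * Real.pi * Complex.I * n * z)) (f z)

theorem IsQ.mono {N N' : ℕ} {c : ℕ → ℂ} (h : IsQ N c) (hd : N ∣ N') : IsQ N' c :=
  let ⟨f, hf⟩ := h; ⟨lev hd f, hf⟩

theorem q_pow (n : ℕ) (z : ℍ) :
    Function.Periodic.qParam 1 (z : ℂ) ^ n = Complex.exp (2 * Real.pi * Complex.I * n * z) := by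
  rw [Function.Periodic.qParam, ← Complex.exp_nat_mul]
  congr 1; push_cast; ring

theorem hasSum_q {N : ℕ} [NeZero N] (f : CuspForm (Gamma0 N) 2) (z : ℍ) :
    HasSum (fun n : ℕ => (qExpansion 1 f).coeff n * Complex.exp (2 * Real.pi * Complex.I * n * z))
      (f z) := by
  simpa [q_pow] using ModularForm.hasSum_qExpansion f (h := 1) one_pos (by simp) z

theorem coeff_eq {N : ℕ} (f : CuspForm (Gamma0 N) 2) {c : ℕ → ℂ} (hf : ∀ z : ℍ,
    HasSum (fun n : ℕ => c n * Complex.exp (2 * Real.pi * Complex.I * n * z)) (f z)) (n : ℕ) :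
    (qExpansion 1 f).coeff n = c n :=
  (ModularFormClass.qExpansion_coeff_unique (h := 1) one_pos (by simp)
    (fun z => by simpa [q_pow] using hf z) n).symm

/-- `Mod` in the words of `C.IsEig` -/
theorem mod_iff {N : ℕ} (hN : 0 < N) {a : ℕ → ℂ} : Mod N a ↔ ∃ c, IsQ N c ∧ c ≠ 0 ∧
    ∀ l : ℕ, l.Prime → ¬ l ∣ 3 * N → ∀ n : ℕ,
      c (l * n) + (if l ∣ n then (l : ℂ) * c (n / l) else 0) = a l * c n := by
  have : NeZero N := ⟨hN.ne'⟩
  constructor
  · rintro ⟨f, h0, h⟩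
    refine ⟨fun n => (qExpansion 1 f).coeff n, ⟨f, hasSum_q f⟩, fun hc => h0 ?_, h⟩
    ext z
    have := hasSum_q f z
    simp only [show ∀ n, (qExpansion 1 f).coeff n = 0 from congrFun hc, zero_mul] at this
    exact this.unique hasSum_zero
  · rintro ⟨c, ⟨f, hf⟩, h0, h⟩
    refine ⟨f, fun hc => h0 (funext fun n => ?_), fun l hl hd n => ?_⟩
    · rw [← coeff_eq f hf, hc]
      simp [qExpansion_zero]
    · simpa only [coeff_eq f hf] using h l hl hd n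

theorem Mod.mono {N N' : ℕ} {a : ℕ → ℂ} (h : Mod N a) (hd : N ∣ N') : Mod N' a := by
  obtain ⟨f, h0, h⟩ := h
  exact ⟨lev hd f, fun hc => h0 (CuspForm.ext fun z => DFunLike.congr_fun hc z),
    fun l hl hl' => h l hl fun h' => hl' (h'.trans (Nat.mul_dvd_mul_left 3 hd))⟩

theorem Mod.congr {N : ℕ} {a a' : ℕ → ℂ} (h : Mod N a)
    (e : ∀ l : ℕ, l.Prime → ¬ l ∣ 3 * N → a l = a' l) : Mod N a' := by
  obtain ⟨f, h0, h⟩ := h
  exact ⟨f, h0, fun l hl hl' n => e l hl hl' ▸ h l hl hl' n⟩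

theorem isEig_mono {N N' : ℕ} {a : ℕ → ℂ} (h : C.IsEig N a) (hd : N ∣ N') : C.IsEig N' a :=
  ⟨IsQ.mono h.1 hd, h.2.1, h.2.2.1, fun l hl hl' => h.2.2.2 l hl fun h' => hl' (h'.trans hd)⟩

theorem mod_of_isEig {N : ℕ} (hN : 0 < N) {a : ℕ → ℂ} (h : C.IsEig N a) : Mod N a :=
  (mod_iff hN).2 ⟨a, h.1, fun h0 => by simpa [h0] using h.2.2.1,
    fun l hl hl' => h.2.2.2 l hl fun h' => hl' (h'.mul_left 3)⟩

theorem not_dvd_iff {N : ℕ} (hN : 0 < N) (P : Plc) :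
    ¬ P.rchar ∣ 3 * N ↔ P.rchar ≠ 3 ∧ P.rchar ∉ N.primeFactors := by
  rw [P.rchar_prime.dvd_mul, Nat.prime_dvd_prime_iff_eq P.rchar_prime Nat.prime_three,
    Nat.mem_primeFactors]
  have := P.rchar_prime
  have := hN.ne'
  tauto

theorem theta_of (h : C.ModI) : ThetaStmt := by
  obtain ⟨e, h⟩ := h
  refine ⟨e + 1, fun k _ ρ N hN ⟨h3, K, _, f, P, red, δ, hD⟩ => ?_⟩
  obtain ⟨N0, θ, hd, h16, -, hE, -, -, ht, hσ⟩ := h K _ red _ δ hD fun g => by
    rw [Ps.trace_conj, trace_mp, ← map_pow, h3]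
  have hr : ∏ l ∈ N.primeFactors, l ∣ N := Nat.prod_primeFactors_dvd N
  have hd' : N0 ∣ N ^ e := hd.trans (pow_dvd_pow_of_dvd hr e)
  have h0 : 0 < N0 := Nat.pos_of_dvd_of_pos hd' (by positivity)
  refine ⟨N0 * N, θ, by positivity, ?_, h16.mul_right _, Dvd.intro_left _ rfl, fun l hl hl' => ?_,
    isEig_mono hE (Dvd.intro _ rfl), fun Q g hQ hg => ?_, fun A _ _ i hi hn => ?_⟩
  · rw [pow_succ]
    exact Nat.mul_le_mul_right _ (Nat.le_of_dvd (by positivity) hd')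
  · rcases hl.dvd_mul.1 hl' with h1 | h1
    · exact hl.dvd_of_dvd_pow (h1.trans hd')
    · exact h1
  · obtain ⟨h1, h2⟩ := (not_dvd_iff hN Q).1 hQ
    have := ht Q g h1 h2 hg
    rw [Ps.trace_conj, trace_mp] at this
    exact f.injective (by simpa using this.symm)
  · obtain ⟨σ, ho, hI, hT⟩ := hσ A i hi hn
    refine ⟨σ, ho, fun Q g hQ hg => ?_, fun Q hQ g hg h1 => hI Q hQ ⟨hg, ?_⟩⟩
    · obtain ⟨h1, h2⟩ := (not_dvd_iff hN Q).1 hQ
      exact (hT Q g h1 h2 hg).1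
    · show conj (mp f ρ) P g = 1
      rw [conj_apply, mp_eq_one f h1]; simp

end Crest.Agent.T15.Top
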