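import Crest.Agent.T15.EscP_12
import Crest.Agent.T15.RDef_20
import Crest.Agent.T15.TopC_88

/-!
# Row 15, block T (helper12): the contract `R.EscOut` from the surjectivity `EsSurj`
-/

set_option autoImplicit false

noncomputable section

namespace Crest.Agent.T15.EscO

open CongruenceSubgroup
open Crest.Agent.T15.Hk Crest.Agent.T15.Lv
open Crest.Agent.T15.Mf (GQ)

theorem mod_of_cls (hS : EsSurj) {L : ℕ} (h0 : 0 < L) (h4 : 4 ∣ L) {b : ℕ → ℂ}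
    {H' : Subgroup (ZMod L)ˣ} (e : H' = H4 L) (φ : HH (Gq L H') ℂ) (hφ : φ ≠ 0)
    (c : ℕ → Corr ℤ (Gq L H') (Gq L H')) (hc : ∀ p, R.Gd L p → (c p).1 = Tp ℤ L p)
    (hb : ∀ p, R.Gd L p → T ℂ (c p) φ = b p • φ) {p₀ : ℕ} (g₀ : R.Gd L p₀) (g₁ : p₀ ≡ 1 [MOD L])
    (g₂ : b p₀ ≠ p₀ + 1) : Top.Mod L b := by
  subst e
  have : NeZero L := ⟨h0.ne'⟩
  have hG : ∀ p, R.Gd L p → p.Prime ∧ ¬ p ∣ L := fun p hp => ⟨hp.1, fun h => hp.2 (h.mul_left 3)⟩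
  obtain ⟨f, a, hf, ha, h1, h2⟩ := form_of_cls (hS.H4 h0 h4) hφ hG hc hb g₀ g₁ g₂
  exact (Top.mod_iff h0).2 ⟨a, ⟨toCF hf, ha⟩, h1, fun l hl hl' => h2 l ⟨hl, hl'⟩⟩

/-- **`R.EscOut`** for every system of levels `Gq L (H L)`, `H L = ker ((ℤ/L)ˣ → (ℤ/4)ˣ)`, whose
correspondences at the good primes are the `Tp` -/
theorem escOut_of (hS : EsSurj) (H : ∀ L : ℕ, Subgroup (ZMod L)ˣ)
    (hH : ∀ (L : ℕ) (h : 4 ∣ L) (u : (ZMod L)ˣ), u ∈ H L ↔ ZMod.unitsMap h u = 1)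
    (c : ∀ L, ℕ → Corr ℤ (Gq L (H L)) (Gq L (H L)))
    (hc : ∀ L p, p.Prime → (c L p).1 = Tp ℤ L p) :
    R.EscOut ⟨fun L => Gq L (H L), c⟩ := by
  intro L b h0 h4
  have : NeZero L := ⟨h0.ne'⟩
  have hG : ∀ p, R.Gd L p → p.Prime ∧ ¬ p ∣ L := fun p hp => ⟨hp.1, fun h => hp.2 (h.mul_left 3)⟩
  refine ⟨fun ⟨⟨F, hF⟩, _, h1, h2⟩ => ?_, fun ⟨φ, hφ, hb⟩ ⟨p₀, g₀, g₁, g₂⟩ => ?_⟩
  · obtain ⟨φ, hφ, h⟩ := cls_of_form (H L) (a := b) (cf_mem F) hF fun e => by simp [e] at h1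
    exact ⟨φ, hφ, fun p hp => h p _ _ hp.1.pos (hG p hp).2 (hc L p hp.1) (h2 p hp.1 (hG p hp).2)⟩
  · exact mod_of_cls hS h0 h4 (Subgroup.ext fun u => (hH L h4 u).trans (mem_H4 h4).symm) φ hφ
      (c L) (fun p hp => hc L p hp.1) hb g₀ g₁ g₂

open Classical in
/-- a system of levels and correspondences -/
def lv4 : R.Lv GQ where
  Γ L := Gq L (H4 L)
  c L p := if hp : p.Prime then ⟨Tp ℤ L p, cen_corr₁ (cen_of le_rfl (Tp_cen hp))⟩ else 0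

theorem escOut_lv4 (hS : EsSurj) : R.EscOut lv4 :=
  escOut_of hS H4 (fun _ h _ => mem_H4 h) _ fun L p hp => by simp only [dif_pos hp]

end Crest.Agent.T15.EscO
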