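import Crest.Agent.T15.EscQ_12
import Crest.Agent.T15.Par_12

/-!
# Row 15, block T (helper12): eigenforms and eigenclasses

* `EsSurj`: surjectivity of the Eichler-Shimura map (hypothesis, proved in block T by helper99);
* `cls_of_form`: an eigenform gives an eigenclass;
* `form_of_cls`: a non-Eisenstein eigenclass gives a cuspidal eigenform.
-/

set_option autoImplicit false
set_option linter.unusedSectionVars false

noncomputable section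

namespace Crest.Agent.T15.EscO

open UpperHalfPlane hiding I
open Complex hiding Gamma
open ModularForm CongruenceSubgroup Finset Matrix.SpecialLinearGroup
open scoped MatrixGroups Manifold Real ComplexConjugate
open Crest.Agent.T15.Hk Crest.Agent.T15.Lv Crest.Agent.T15.Esc
open Crest.Agent.T15.Mf (GQ rr rr_sq)
open Crest.Agent.T15.Und (QS)

/-- surjectivity of the Eichler-Shimura map for the group `Γ` -/
def Surj (Γ : Subgroup SL(2, ℤ)) : Prop :=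
  ∀ φ : HH (Γ.map Mf.sq) ℂ, ∃ f ∈ MS Γ 2, ∃ g ∈ CS Γ 2,
    ∀ γ ∈ Γ, val φ (Mf.sq γ) = per f γ + conj (per g γ)

/-- surjectivity of the Eichler-Shimura map -/
def EsSurj : Prop :=
  ∀ (M : ℕ) (Γ : Subgroup SL(2, ℤ)), 0 < M → Gamma M ≤ Γ → Γ ≤ Gamma1 4 → Surj Γ

variable {Γ : Subgroup SL(2, ℤ)} {f g : ℍ → ℂ}

theorem val_P_sq (hf : f ∈ Esc.Inv (Γ.map Mf.sq)) {γ : SL(2, ℤ)} (hγ : γ ∈ Γ) :
    val (P (Γ.map Mf.sq) ⟨f, hf⟩) (Mf.sq γ) = per f γ := by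
  rw [val_P _ (Subgroup.mem_map_of_mem _ hγ), rr_sq]; rfl

/-- the action of a correspondence on the class of `(f, g)` -/
theorem val_T_pair (c : Corr ℤ (Γ.map Mf.sq) (Γ.map Mf.sq)) {φ : HH (Γ.map Mf.sq) ℂ}
    (hf : f ∈ Esc.Inv (Γ.map Mf.sq)) (hg : g ∈ Esc.Inv (Γ.map Mf.sq))
    (h : ∀ γ ∈ Γ, val φ (Mf.sq γ) = per f γ + conj (per g γ)) {γ : SL(2, ℤ)} (hγ : γ ∈ Γ) :
    val (T ℂ c φ) (Mf.sq γ) = per (hk 2 c.1 f) γ + conj (per (hk 2 c.1 g) γ) := by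
  let cj : ℂ →ₗ[ℤ] ℂ := (starRingEnd ℂ).toAddMonoidHom.toIntLinearMap
  have e : φ = P _ ⟨f, hf⟩ + cj.toAddMonoidHom.comp (P _ ⟨g, hg⟩) := HH.ext (by
    rintro _ ⟨δ, hδ, rfl⟩
    rw [val_add, val_comp, val_P_sq hf hδ, val_P_sq hg hδ, h δ hδ]
    rfl)
  rw [e, map_add, T_comp, T_P, T_P, val_add, val_comp, val_P_sq _ hγ, val_P_sq _ hγ]
  rfl

theorem eig_pair [Γ.FiniteIndex] (c : Corr ℤ (Γ.map Mf.sq) (Γ.map Mf.sq)) {φ : HH (Γ.map Mf.sq) ℂ}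
    (hf : f ∈ MS Γ 2) (hg : g ∈ CS Γ 2)
    (h : ∀ γ ∈ Γ, val φ (Mf.sq γ) = per f γ + conj (per g γ)) {b : ℂ} (hb : T ℂ c φ = b • φ) :
    hk 2 c.1 f = b • f ∧ hk 2 c.1 g = conj b • g := by
  have := es_inj ((MS Γ 2).sub_mem (hk_MS c.2 hf) ((MS Γ 2).smul_mem b hf))
    ((CS Γ 2).sub_mem (hk_CS c.2 hg) ((CS Γ 2).smul_mem (conj b) hg)) fun γ hγ => by
      have h1 := val_T_pair c (MS_le_Inv hf) (CS_le_Inv hg) h hγ
      rw [hb, val_smul, h γ hγ, smul_eq_mul] at h1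
      rw [per_sub (hk_mdiff _ hf.1) (hf.1.const_smul b), per_sub (hk_mdiff _ hg.1)
        (hg.1.const_smul _), per_smul _ hf.1, per_smul _ hg.1, map_sub, map_mul, conj_conj]
      linear_combination -h1
  exact ⟨sub_eq_zero.1 this.1, sub_eq_zero.1 this.2⟩

theorem P_ne_zero [Γ.FiniteIndex] (hf : f ∈ MS Γ 2) (h0 : f ≠ 0) :
    P (Γ.map Mf.sq) ⟨f, MS_le_Inv hf⟩ ≠ 0 := fun e => h0 (es_inj hf (CS Γ 2).zero_mem fun γ hγ => by
  rw [← val_P_sq (MS_le_Inv hf) hγ, e, val_zero, per_zero, map_zero, add_zero]).1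

variable {L : ℕ}

/-- an eigenform gives an eigenclass (any level group `Γ_H(L)`, any set of primes) -/
theorem cls_of_form [NeZero L] (H : Subgroup (ZMod L)ˣ) {a : ℕ → ℂ} (hf : f ∈ CS (Gamma0 L) 2)
    (ha : QS a f) (h0 : a ≠ 0) :
    ∃ φ : HH (Gq L H) ℂ, φ ≠ 0 ∧ ∀ (p : ℕ) (b : ℂ) (c : Corr ℤ (Gq L H) (Gq L H)), 0 < p →
      ¬ p ∣ L → c.1 = Tp ℤ L p → (∀ n, hecke p a n = b * a n) → T ℂ c φ = b • φ := by
  have hf' : f ∈ MS (GH L H) 2 := MS_anti (GH_le_G0 H) (CS_le_MS hf)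
  refine ⟨P _ ⟨f, MS_le_Inv hf'⟩, P_ne_zero hf' fun e => h0 (qs_eq_zero (e ▸ ha)),
    fun p b c hp hL hc hb => ?_⟩
  refine (T_P (Λ := (GH L H).map Mf.sq) c _).trans ?_
  rw [← map_smul]
  congr 1
  refine Subtype.ext ?_
  show hk 2 c.1 f = b • f
  rw [hc]
  exact (Tp_eig_iff hp hL hf.2.1 ha).2 hb

/-- a non-Eisenstein eigenclass gives a cuspidal eigenform -/
theorem form_of_cls [NeZero L] (hS : Surj (GH L (H4 L))) {φ : HH (Gq L (H4 L)) ℂ} (h0 : φ ≠ 0)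
    {G : ℕ → Prop} (hG : ∀ p, G p → p.Prime ∧ ¬ p ∣ L)
    {c : ℕ → Corr ℤ (Gq L (H4 L)) (Gq L (H4 L))} (hc : ∀ p, G p → (c p).1 = Tp ℤ L p)
    {b : ℕ → ℂ} (hb : ∀ p, G p → T ℂ (c p) φ = b p • φ)
    {p₀ : ℕ} (h₀ : G p₀) (h₁ : p₀ ≡ 1 [MOD L]) (h₂ : b p₀ ≠ p₀ + 1) :
    ∃ (f : ℍ → ℂ) (a : ℕ → ℂ), f ∈ CS (Gamma0 L) 2 ∧ QS a f ∧ a ≠ 0 ∧
      ∀ p, G p → ∀ n, hecke p a n = b p * a n := by
  obtain ⟨f, hf, g, hg, h'⟩ := hS φ
  have h : ∀ γ ∈ GH L (H4 L), val (Γ := Gq L (H4 L)) φ (Mf.sq γ) = per f γ + conj (per g γ) := h'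
  obtain ⟨M, hM⟩ := exists_wid (GH L (H4 L))
  have hf' : f ∈ CS (GH L (H4 L)) 2 := (mem_CS_iff hM hf).2 fun s => by
    have h1 := Par.par_Tp_conj (hG _ h₀).1 (by simpa using h₁.symm.dvd) (c p₀)
      (by rw [hc _ h₀, sub_self]; exact Submodule.zero_mem _) φ (Or.inl rfl) s M
      (by simpa using hM.2 s)
    rw [hb _ h₀, val_smul, one_mul, zpow_natCast, h _ (hM.2 s),
      (mem_CS_iff hM (CS_le_MS hg)).1 hg s, map_zero, add_zero, smul_eq_mul, nsmul_eq_mul,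
      ← sub_eq_zero, ← sub_mul, mul_eq_zero] at h1
    exact h1.resolve_left (sub_ne_zero.2 (by exact_mod_cast h₂))
  have he := fun p hp => eig_pair (Γ := GH L (H4 L)) (c p) hf hg h' (hb p hp)
  rw [CS_H4] at hf' hg
  by_cases hf0 : f = 0
  · have hq := exists_qs T_mem_G0 (CS_le_MS hg)
    refine ⟨cjf g, _, cjf_mem hg, qs_cjf hq, fun e => h0 (HH.ext ?_), fun p hp n => ?_⟩
    · rintro _ ⟨γ, hγ, rfl⟩
      have e' : (fun n => (qExpansion 1 g).coeff n) = 0 := funext fun n => by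
        simpa using congrFun e n
      have : g = 0 := hq.unique (e' ▸ qs_zero)
      rw [h γ hγ, hf0, this, per_zero, map_zero, add_zero, val_zero]
    · have h1 := (Tp_eig_iff (O := ℤ) (hG p hp).1.pos (hG p hp).2 hg.2.1 hq).1
        (hc p hp ▸ (he p hp).2) n
      have h2 := congrArg conj h1
      rw [map_mul, conj_conj] at h2
      rw [← h2, hecke, hecke, map_add]
      split_ifs <;> simp
  · have hq := exists_qs T_mem_G0 (CS_le_MS hf')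
    exact ⟨f, _, hf', hq, fun e => hf0 (hq.unique (e ▸ qs_zero)), fun p hp =>
      (Tp_eig_iff (O := ℤ) (hG p hp).1.pos (hG p hp).2 hf'.2.1 hq).1 (hc p hp ▸ (he p hp).1)⟩

theorem EsSurj.H4 (hS : EsSurj) (h0 : 0 < L) (h4 : 4 ∣ L) : Surj (GH L (H4 L)) :=
  hS L _ h0 Gamma_le_GH (GH4_le h4)

end Crest.Agent.T15.EscO
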