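import Crest.Agent.T15.EscB_99
import Crest.Agent.T15.LvT_10
import Crest.Agent.T15.UndA_98

/-!
# Row 15, block T (helper12): Hecke operators on `q`-expansions, the group `Γ₀(L) ∩ Γ₁(4)`

* `H4 L`, `CS_H4`, `MS_H4`;
* `hecke p L c`, `qs_Tp`: the Fourier coefficients of `hk 2 (Tp O L p) f`;
* `exists_qs`, `qs_inj`, `toCF`, `cf_mem`: `CS (Gamma0 L) 2` and `CuspForm (Gamma0 L) 2`;
* `cjf g = g ∣ J`: the form with the conjugate coefficients.
-/

set_option autoImplicit false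
set_option linter.unusedSectionVars false

noncomputable section

namespace Crest.Agent.T15.EscO

open UpperHalfPlane hiding I
open Complex hiding Gamma
open ModularForm CongruenceSubgroup Finset Matrix.SpecialLinearGroup
open scoped MatrixGroups Manifold Real ComplexConjugate
open Crest.Agent.T15.Hk Crest.Agent.T15.Lv Crest.Agent.T15.Esc
open Crest.Agent.T15.Mf (GQ rr rr_apply rr_det rr_pos slash_sq)
open Crest.Agent.T15.Und (QS sc coe_sc)

variable {L p : ℕ} {f g : ℍ → ℂ} {c c' : ℕ → ℂ}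

/-- the units that are `1` modulo `4` -/
def H4 (L : ℕ) : Subgroup (ZMod L)ˣ where
  carrier := {u | ∀ h : 4 ∣ L, ZMod.unitsMap h u = 1}
  one_mem' h := map_one _
  mul_mem' ha hb h := by rw [map_mul, ha h, hb h, mul_one]
  inv_mem' ha h := by rw [map_inv, ha h, inv_one]

theorem mem_H4 (h : 4 ∣ L) {u : (ZMod L)ˣ} : u ∈ H4 L ↔ ZMod.unitsMap h u = 1 :=
  ⟨fun hu => hu h, fun hu _ => hu⟩

theorem H4_eq (h : 4 ∣ L) : H4 L = (ZMod.unitsMap h).ker := Subgroup.ext fun _ => mem_H4 h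

theorem GH4_le (h : 4 ∣ L) : GH L (H4 L) ≤ Gamma1 4 := GH_le_G4 h fun _ hu => hu h

theorem mem_or_neg_H4 (u : (ZMod L)ˣ) : u ∈ H4 L ∨ -u ∈ H4 L := by
  by_cases h : 4 ∣ L
  · rw [mem_H4 h, mem_H4 h]
    have e : ZMod.unitsMap h (-u) = -ZMod.unitsMap h u := Units.ext (by
      simp only [ZMod.unitsMap_val, Units.val_neg]
      exact map_neg (ZMod.castHom h (ZMod 4)) _)
    rw [e]
    generalize ZMod.unitsMap h u = v
    revert v
    decide
  · exact Or.inl fun h' => (h h').elim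

theorem mem_or_neg {γ : SL(2, ℤ)} (hγ : γ ∈ Gamma0 L) : γ ∈ GH L (H4 L) ∨ -γ ∈ GH L (H4 L) := by
  rw [← GH_top] at hγ
  obtain ⟨h1, u, -, hu⟩ := hγ
  refine (mem_or_neg_H4 u).imp (fun h => ⟨h1, u, h, hu⟩) fun h => ⟨?_, -u, h, ?_⟩
  · simpa using h1
  · simpa using hu

theorem slash_neg (f : ℍ → ℂ) (γ : SL(2, ℤ)) : f ∣[(2 : ℤ)] (-γ) = f ∣[(2 : ℤ)] γ := by
  funext z
  rw [SL_slash_apply, SL_slash_apply, ModularGroup.SL_neg_smul]
  congr 1
  have : denom (-γ : SL(2, ℤ)) z = -denom γ z := by simp [denom]; ring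
  rw [this]
  exact Even.neg_zpow (by decide) _

theorem inv_H4 (h : ∀ γ ∈ GH L (H4 L), f ∣[(2 : ℤ)] γ = f) : ∀ γ ∈ Gamma0 L, f ∣[(2 : ℤ)] γ = f :=
  fun γ hγ => (mem_or_neg hγ).elim (h γ) fun h' => by rw [← slash_neg, h _ h']

theorem GH_le_G0 (H : Subgroup (ZMod L)ˣ) : GH L H ≤ Gamma0 L := GH_top (L := L) ▸ GH_mono le_top

theorem CS_H4 : CS (GH L (H4 L)) 2 = CS (Gamma0 L) 2 :=
  le_antisymm (fun _ h => ⟨h.1, inv_H4 h.2.1, h.2.2⟩) (CS_anti (GH_le_G0 _))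

theorem MS_H4 : MS (GH L (H4 L)) 2 = MS (Gamma0 L) 2 :=
  le_antisymm (fun _ h => ⟨h.1, inv_H4 h.2.1, h.2.2⟩) (MS_anti (GH_le_G0 _))

/-! ### `q`-expansions -/

theorem q_pow' (n : ℕ) (z : ℍ) :
    Function.Periodic.qParam 1 (z : ℂ) ^ n = Complex.exp (2 * Real.pi * Complex.I * n * z) := by
  rw [Function.Periodic.qParam, ← Complex.exp_nat_mul]
  congr 1; push_cast; ring

theorem hs_congr {u v : ℕ → ℂ} {a : ℂ} (h : HasSum u a) (e : ∀ n, v n = u n) : HasSum v a :=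
  (funext e : v = u) ▸ h

theorem qs_add (h : QS c f) (h' : QS c' g) : QS (c + c') (f + g) := fun z => by
  simpa only [Pi.add_apply, add_mul] using (h z).add (h' z)

theorem qs_smul (a : ℂ) (h : QS c f) : QS (a • c) (a • f) := fun z => by
  simpa only [Pi.smul_apply, smul_eq_mul, mul_assoc] using (h z).mul_left a

theorem qs_sub (h : QS c f) (h' : QS c' g) : QS (c - c') (f - g) := fun z => by
  simpa only [Pi.sub_apply, sub_mul] using (h z).sub (h' z)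

theorem qs_zero : QS 0 0 := fun z => by simp

theorem qs_eq_zero (h : QS c 0) : c = 0 := by
  funext n
  have := ModularFormClass.qExpansion_coeff_unique (h := 1) one_pos (by simp) (c := c)
    (f := (0 : CuspForm (Gamma0 1) 2)) (fun z => by simpa [q_pow'] using h z) n
  simpa [qExpansion_zero] using this

theorem qs_inj (h : QS c f) (h' : QS c' f) : c = c' :=
  sub_eq_zero.1 (qs_eq_zero (sub_self f ▸ qs_sub h h'))

theorem exists_qs {Γ : Subgroup SL(2, ℤ)} {k : ℤ} (hT : ModularGroup.T ∈ Γ) (hf : f ∈ MS Γ k) :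
    QS (fun n => (qExpansion 1 f).coeff n) f := fun z => by
  have hp : Function.Periodic (f ∘ ofComplex) (1 : ℝ) := periodic_of_vadd fun z => by
    have := slash_T_pow (k := k) f 1 z
    rw [pow_one, hf.2.1 _ hT, Nat.cast_one] at this
    exact this.symm
  have hb := hf.2.2 1
  rw [SlashAction.slash_one] at hb
  simpa [q_pow'] using hasSum_qExpansion one_pos hp hf.1 hb z

theorem T_mem_G0 : ModularGroup.T ∈ Gamma0 L := GH_le_G0 ⊤ T_mem

/-- a cusp form from an element of `CS` -/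
def toCF {Γ : Subgroup SL(2, ℤ)} [Γ.FiniteIndex] {k : ℤ} (hf : f ∈ CS Γ k) :
    CuspForm (Γ : Subgroup (GL (Fin 2) ℝ)) k where
  toFun := f
  slash_action_eq' := by
    rintro _ ⟨g, hg, rfl⟩
    exact hf.2.1 g hg
  holo' := hf.1
  zero_at_cusps' hc := by
    rw [Subgroup.IsArithmetic.isCusp_iff_isCusp_SL2Z] at hc
    rw [OnePoint.isZeroAt_iff_forall_SL2Z hc]
    exact fun γ _ => hf.2.2 γ

theorem cf_mem {Γ : Subgroup SL(2, ℤ)} [Γ.FiniteIndex] {k : ℤ}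
    (F : CuspForm (Γ : Subgroup (GL (Fin 2) ℝ)) k) : (F : ℍ → ℂ) ∈ CS Γ k :=
  ⟨F.holo', fun γ hγ => F.slash_action_eq' _ ⟨γ, hγ, rfl⟩,
    fun s => CuspFormClass.zero_at_infty_slash F s⟩

/-! ### the Hecke operators -/

theorem rr_gm {a b c d : ℤ} (h : 0 < a * d - b * c) (i j : Fin 2) :
    rr (gm a b c d) i j = !![(a : ℝ), b; c, d] i j := by
  rw [rr_apply, gm_val h]
  fin_cases i <;> fin_cases j <;> simp

theorem slash_gm {a b d : ℤ} (ha : 0 < a) (hd : 0 < d) (f : ℍ → ℂ) (z : ℍ) :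
    ∃ w : ℍ, (w : ℂ) = (a * z + b) / d ∧ (f ∣[(2 : ℤ)] rr (gm a b 0 d)) z = a / d * f w := by
  have h : 0 < a * d - b * 0 := by simpa using mul_pos ha hd
  have hd' : (d : ℂ) ≠ 0 := by exact_mod_cast hd.ne'
  have h1 : denom (rr (gm a b 0 d)) z = d := by simp [denom, rr_gm h]
  have h2 : (rr (gm a b 0 d)).det.val = a * d := by
    simp [Matrix.det_fin_two, rr_gm h]
  refine ⟨rr (gm a b 0 d) • z, ?_, ?_⟩
  · rw [coe_smul_of_det_pos (rr_pos _), h1]
    simp [num, rr_gm h]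
  · rw [Mf.slash_eq, Pi.mul_apply, Mf.jf, h1, h2, abs_of_pos (by exact_mod_cast mul_pos ha hd)]
    push_cast
    field_simp

theorem sum_root (hp : 0 < p) (n : ℕ) :
    ∑ i ∈ range p, cexp (2 * π * I * n / p) ^ i = if p ∣ n then (p : ℂ) else 0 := by
  have hζ := Complex.isPrimitiveRoot_exp p hp.ne'
  have e : cexp (2 * π * I * n / p) = cexp (2 * π * I / p) ^ n := by
    rw [← Complex.exp_nat_mul]; congr 1; ring
  rw [e]
  split_ifs with h
  · rw [(hζ.pow_eq_one_iff_dvd n).2 h]; simp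
  · rw [geom_sum_eq (mt (hζ.pow_eq_one_iff_dvd n).1 h), ← pow_mul, mul_comm n p, pow_mul,
      hζ.pow_eq_one]
    simp

variable {O : Type*} [CommRing O] [Algebra O ℂ]

theorem qs_U (hp : 0 < p) (h : QS c f) : QS (fun n => c (p * n)) (hk 2 (U O p) f) := fun z => by
  have hp' : (p : ℂ) ≠ 0 := by exact_mod_cast hp.ne'
  have h1 : ∀ i : ℕ, HasSum (fun n : ℕ => (1 / p) * (c n * cexp (2 * π * I * n * z / p)) *
      cexp (2 * π * I * n / p) ^ i) ((f ∣[(2 : ℤ)] rr (up p i)) z) := fun i => by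
    obtain ⟨w, hw, e⟩ := slash_gm (a := 1) (b := i) (d := p) one_pos (by exact_mod_cast hp) f z
    rw [up, e]
    refine hs_congr ((h w).mul_left (((1 : ℤ) : ℂ) / (p : ℤ))) fun n => ?_
    rw [hw, ← Complex.exp_nat_mul, mul_assoc (1 / (p : ℂ)), mul_assoc (c n), ← Complex.exp_add]
    push_cast
    congr 3
    ring
  have h2 := hasSum_sum (s := range p) fun i _ => h1 i
  simp only [← mul_sum, sum_root hp] at h2
  rw [U, hk_sum, Finset.sum_apply]
  refine hs_congr ((Function.Injective.hasSum_iff (g := fun n => p * n)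
    (fun a b e => Nat.eq_of_mul_eq_mul_left hp e) fun m hm => ?_).2 h2) fun n => ?_
  · rw [if_neg, mul_zero]
    rintro ⟨k, rfl⟩
    exact hm ⟨k, rfl⟩
  · simp only [Function.comp, dvd_mul_right, if_true]
    rw [show 2 * π * I * ((p * n : ℕ) : ℂ) * z / p = 2 * π * I * n * z by push_cast; field_simp]
    field_simp

theorem qs_dg (hp : 0 < p) (h : QS c f) :
    QS (fun n => if p ∣ n then (p : ℂ) * c (n / p) else 0) (f ∣[(2 : ℤ)] rr (dg p)) := fun z => by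
  obtain ⟨w, hw, e⟩ := slash_gm (a := p) (b := 0) (d := 1) (by exact_mod_cast hp) one_pos f z
  have hw' : w = sc p z := UpperHalfPlane.ext (by rw [hw, coe_sc hp]; simp)
  rw [dg, e, hw']
  refine hs_congr ((h.sc hp z).mul_left (((p : ℤ) : ℂ) / (1 : ℤ))) fun n => ?_
  beta_reduce
  split_ifs <;> simp [mul_assoc]

/-- the Hecke operator `T_p` on coefficients, `p` prime to the level -/
def hecke (p : ℕ) (c : ℕ → ℂ) (n : ℕ) : ℂ := c (p * n) + if p ∣ n then (p : ℂ) * c (n / p) else 0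

theorem qs_Tp (hp : 0 < p) (hL : ¬ p ∣ L) (hf : ∀ γ ∈ Gamma0 L, f ∣[(2 : ℤ)] γ = f) (h : QS c f) :
    QS (hecke p c) (hk 2 (Tp O L p) f) := by
  rw [Tp, if_neg hL, hk_add_left, hk_e, map_mul, SlashAction.slash_mul, sg, slash_sq,
    hf _ (GH_top (L := L) ▸ sgZ_mem L p)]
  exact qs_add (qs_U hp h) (qs_dg hp h)

theorem qs_Tp_dvd (hp : 0 < p) (hL : p ∣ L) (h : QS c f) :
    QS (fun n => c (p * n)) (hk 2 (Tp O L p) f) := Tp_of_dvd (O := O) hL ▸ qs_U hp h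

/-- eigenfunctions of `Tp` and the Hecke recursion -/
theorem Tp_eig_iff (hp : 0 < p) (hL : ¬ p ∣ L) (hf : ∀ γ ∈ Gamma0 L, f ∣[(2 : ℤ)] γ = f)
    (h : QS c f) {b : ℂ} : hk 2 (Tp O L p) f = b • f ↔ ∀ n, hecke p c n = b * c n :=
  ⟨fun e => congrFun (qs_inj (qs_Tp hp hL hf h) (e ▸ qs_smul b h)),
    fun e => (qs_Tp hp hL hf h).unique ((funext e : hecke p c = b • c) ▸ qs_smul b h)⟩

/-! ### complex conjugation -/

/-- `z ↦ conj (g (-conj z))` -/
def cjf (g : ℍ → ℂ) : ℍ → ℂ := g ∣[(2 : ℤ)] J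

theorem cjf_apply (g : ℍ → ℂ) (z : ℍ) : cjf g z = conj (g (J • z)) := by
  simp [cjf, slash_apply]

/-- conjugation by `J` -/
def jc (γ : SL(2, ℤ)) : SL(2, ℤ) :=
  ⟨!![γ 0 0, -γ 0 1; -γ 1 0, γ 1 1], by rw [Matrix.det_fin_two_of]; linarith [det_eq γ]⟩

theorem J_mul (γ : SL(2, ℤ)) : J * (γ : GL (Fin 2) ℝ) = (jc γ : GL (Fin 2) ℝ) * J := by
  ext i j
  fin_cases i <;> fin_cases j <;> simp [jc, Matrix.mul_apply, Fin.sum_univ_two]

theorem cjf_slash (g : ℍ → ℂ) (γ : SL(2, ℤ)) :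
    (cjf g) ∣[(2 : ℤ)] γ = cjf (g ∣[(2 : ℤ)] jc γ) := by
  rw [cjf, cjf, SL_slash, SL_slash, ← SlashAction.slash_mul, ← SlashAction.slash_mul, J_mul]

theorem jc_mem {γ : SL(2, ℤ)} (h : γ ∈ Gamma0 L) : jc γ ∈ Gamma0 L := by
  rw [Gamma0_mem] at h ⊢
  simpa [jc] using h

theorem cjf_mem (hg : g ∈ CS (Gamma0 L) 2) : cjf g ∈ CS (Gamma0 L) 2 :=
  ⟨hg.1.slash _ _, fun γ hγ => by rw [cjf_slash, hg.2.1 _ (jc_mem hγ)],
    fun s => by rw [cjf_slash]; exact (hg.2.2 _).slash _ (by simp)⟩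

theorem qs_cjf (h : QS c g) : QS (fun n => conj (c n)) (cjf g) := fun z => by
  rw [cjf_apply]
  refine hs_congr ((Complex.hasSum_conj').2 (h (J • z))) fun n => ?_
  rw [map_mul, ← Complex.exp_conj, coe_J_smul]
  simp [map_ofNat]

end Crest.Agent.T15.EscO
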