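import Crest.Agent.T15.EscO_12
import Crest.Agent.T15.EscD_44

set_option autoImplicit false

noncomputable section

namespace Crest.Agent.T15.EscO

open CongruenceSubgroup Module
open scoped MatrixGroups
open Crest.Agent.T15.Esc Crest.Agent.T15.Mf

theorem esSurj_of (hd : ∀ (Γ : Subgroup SL(2, ℤ)) (_ : Γ ≤ Gamma1 4) (_ : IsCongruenceSubgroup Γ)
    [Γ.FiniteIndex] [Module.Finite ℂ (MS Γ 2)] [Module.Finite ℂ (CS Γ 2)],
    Γ.relIndex (Gamma1 4) + 1 ≤ finrank ℂ (MS Γ 2) + finrank ℂ (CS Γ 2)) : EsSurj := by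
  intro M Γ hM hΓ h4 φ
  have hc : IsCongruenceSubgroup Γ := ⟨M, hM.ne', hΓ⟩
  have : NeZero M := ⟨hM.ne'⟩
  have : Γ.FiniteIndex := Subgroup.finiteIndex_of_le hΓ
  obtain ⟨_, _⟩ := finite_MS_CS h4
  exact es_surj_of h4 (hd Γ h4 hc) φ

end Crest.Agent.T15.EscO
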