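import Crest.Agent.T15.ArtDef_34
import Crest.Agent.T24.HnLocA_73
import Crest.Agent.T24.HnSu_7

/-!
# Row 15, existence theorem, part A (helper49): local `p`-th power classes and `S`-units mod `p`
-/

set_option autoImplicit false

noncomputable section

open scoped NumberField
open IsDedekindDomain WithZero Module

namespace Crest.Agent.T15.Ex

open Crest.Agent.T24.Hn Crest.Agent.T24.Hn.Loc

section Close

variable {F Γ : Type*} [Field F] [LinearOrderedCommGroupWithZero Γ] (v : Valuation F Γ) {ζ : F}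
  {n : ℕ}

theorem v_root {m : ℕ} (hm : m ≠ 0) {η : F} (h : η ^ m = 1) : v η = 1 := by
  have h1 : v η ^ m = 1 := by rw [← map_pow, h, map_one]
  rcases lt_trichotomy (v η) 1 with h2 | h2 | h2
  · exact absurd h1 (pow_lt_one₀ zero_le h2 hm).ne
  · exact h2
  · exact absurd h1 (one_lt_pow₀ h2 hm).ne'

theorem v_pw (hζ : IsPrimitiveRoot ζ (n + 1)) (i : ℕ) : v (ζ ^ i) = 1 := by
  rw [map_pow, v_root v n.succ_ne_zero hζ.pow_eq_one, one_pow]

theorem v_prod (hζ : IsPrimitiveRoot ζ (n + 1)) :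
    ∏ k ∈ Finset.range n, v (1 - ζ ^ (k + 1)) = v ((n + 1 : ℕ) : F) := by
  rw [← map_prod, hζ.prod_one_sub_pow_eq_order]
  push_cast
  rfl

/-- an approximate root of unity is close to a root of unity -/
theorem close (hζ : IsPrimitiveRoot ζ (n + 1)) (x : F) :
    ∃ i < n + 1, v (x - ζ ^ i) * v ((n + 1 : ℕ) : F) ≤ v (x ^ (n + 1) - 1) := by
  obtain ⟨i, hi, hm⟩ := Finset.exists_min_image (Finset.range (n + 1)) (fun i => v (x - ζ ^ i))
    ⟨0, by simp⟩
  refine ⟨i, Finset.mem_range.1 hi, ?_⟩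
  have e : (ζ ^ i) ^ (n + 1) = 1 := by rw [← pow_mul, mul_comm, pow_mul, hζ.pow_eq_one, one_pow]
  have h1 := congrArg (Polynomial.eval x) (X_pow_sub_C_eq_prod hζ n.succ_pos e)
  simp only [Polynomial.eval_sub, Polynomial.eval_pow, Polynomial.eval_X, Polynomial.eval_C,
    Polynomial.eval_prod] at h1
  rw [h1, Finset.prod_range_succ', pow_zero, one_mul, map_mul, mul_comm, ← v_prod v hζ, map_prod]
  refine mul_le_mul' (Finset.prod_le_prod' fun k _ => ?_) le_rfl
  have h2 : v (x - ζ ^ i) ≤ v (x - ζ ^ (k + 1) * ζ ^ i) := by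
    rw [← pow_add, ← pow_mod_orderOf ζ (k + 1 + i), ← hζ.eq_orderOf]
    exact hm _ (Finset.mem_range.2 (Nat.mod_lt _ n.succ_pos))
  have h3 : 1 - ζ ^ (k + 1) = ((x - ζ ^ (k + 1) * ζ ^ i) - (x - ζ ^ i)) / ζ ^ i := by
    have := pow_ne_zero i (hζ.ne_zero n.succ_ne_zero)
    field_simp
    ring
  rw [h3, map_div₀, v_pw v hζ, div_one]
  exact v.map_sub_le le_rfl h2

theorem root_eq_one (hζ : IsPrimitiveRoot ζ (n + 1)) {η : F} (hη : η ^ (n + 1) = 1)
    (h : v (η - 1) < v ((n + 1 : ℕ) : F)) : η = 1 := by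
  obtain ⟨j, hj, rfl⟩ := hζ.eq_pow_of_pow_eq_one hη
  rcases j with _ | k
  · simp
  exfalso
  refine absurd h (not_lt.2 ?_)
  rw [← v_prod v hζ, ← Finset.mul_prod_erase _ _ (Finset.mem_range.2 (by omega : k < n)),
    v.map_sub_swap]
  refine (mul_le_mul' le_rfl (Finset.prod_le_one' fun i _ => ?_)).trans (mul_one _).le
  exact v.map_sub_le (map_one v).le (v_pw v hζ _).le

end Close

section Grp

variable {G G' : Type*} [CommGroup G] [CommGroup G'] (p : ℕ)

/-- the `p`-th powers of a subgroup -/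
abbrev pw (B : Subgroup G) : Subgroup G := B.map (powMonoidHom p)

theorem relIndex_pw_sup (U H : Subgroup G) (hle : H ≤ U) (hfin : H.relIndex U ≠ 0) :
    (pw p U ⊔ H).relIndex U = H.relIndex (H.comap (powMonoidHom p) ⊓ U) := by
  have h1 : pw p U ⊔ H ≤ U := by
    refine sup_le ?_ hle
    rintro _ ⟨x, hx, rfl⟩
    exact U.pow_mem hx p
  have h2 := Subgroup.relIndex_mul_relIndex H (pw p U ⊔ H) U le_sup_right h1
  rw [Subgroup.relIndex_sup_right, ← Subgroup.relIndex_comap] at h2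
  have h3 := Subgroup.relIndex_inf_mul_relIndex H (H.comap (powMonoidHom p)) U
  have h4 : H ⊓ H.comap (powMonoidHom p) = H :=
    inf_eq_left.mpr fun x hx => H.pow_mem hx p
  rw [h4] at h3
  have h5 : (H.comap (powMonoidHom p)).relIndex U ≠ 0 := by
    intro h0
    rw [h0, zero_mul] at h2
    exact hfin h2.symm
  apply Nat.eq_of_mul_eq_mul_left (Nat.pos_of_ne_zero h5)
  rw [h2, mul_comm, h3]

theorem pw_le (B : Subgroup G) : pw p B ≤ B := by
  rintro _ ⟨y, hy, rfl⟩
  exact pow_mem hy p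

theorem map_pw (f : G →* G') (B : Subgroup G) : (pw p B).map f = pw p (B.map f) := by
  ext x
  constructor
  · rintro ⟨_, ⟨y, hy, rfl⟩, rfl⟩
    exact ⟨f y, ⟨y, hy, rfl⟩, by simp⟩
  · rintro ⟨_, ⟨y, hy, rfl⟩, rfl⟩
    exact ⟨y ^ p, ⟨y, hy, rfl⟩, by simp⟩

theorem pw_index_mul (f : G →* G') (h2 : ∀ y : G', y ^ p = 1 → y = 1) (B : Subgroup G) :
    (pw p B).relIndex B =
      (pw p (B.map f)).relIndex (B.map f) * (pw p (f.ker ⊓ B)).relIndex (f.ker ⊓ B) := by
  rw [R018.HerbAx530.relIndex_eq_mul f (pw_le p B), map_pw]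
  congr 2
  ext x
  constructor
  · rintro ⟨hx, y, hy, rfl⟩
    refine ⟨y, ⟨?_, hy⟩, rfl⟩
    apply h2
    rw [← map_pow]
    exact hx
  · rintro ⟨y, ⟨hy, hy'⟩, rfl⟩
    exact ⟨pow_mem hy p, y, hy', rfl⟩

theorem pw_index_free [Module.Free ℤ (Additive G)] [Module.Finite ℤ (Additive G)]
    (H : Subgroup G) (hH : H.index ≠ 0) :
    (pw p H).relIndex H = p ^ finrank ℤ (Additive G) := by
  rw [← Subgroup.relIndex_toAddSubgroup]
  have h1 : Subgroup.toAddSubgroup (pw p H) =
      (Subgroup.toAddSubgroup H).map (nsmulAddMonoidHom (α := Additive G) p) := by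
    ext x
    constructor
    · rintro ⟨y, hy, hx⟩
      exact ⟨Additive.ofMul y, hy, hx⟩
    · rintro ⟨y, hy, hx⟩
      exact ⟨Additive.toMul y, hy, hx⟩
  have : (Subgroup.toAddSubgroup H).FiniteIndex := ⟨by rwa [Subgroup.index_toAddSubgroup]⟩
  rw [h1, AddSubgroup.relIndex_map_nsmul, AddSubgroup.finrank_eq_of_finiteIndex]

theorem pw_index_inj (f : G →* G') (hf : Function.Injective f) (B : Subgroup G) :
    (pw p (B.map f)).relIndex (B.map f) = (pw p B).relIndex B := by
  rw [← map_pw, Subgroup.relIndex_map_map_of_injective _ _ hf]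

end Grp

section Loc

variable {F : Type*} [Field F] [NumberField F] (v : Pl F)

/-- the exponent of `v` in `c` -/
def ex (c : ℕ) : ℕ := (-log (v.valuation F (c : F))).toNat

theorem val_nat_le (c : ℕ) : v.valuation F (c : F) ≤ 1 := by
  simpa using val_int_le v (c : 𝓞 F)

theorem val_nat {c : ℕ} (hc : c ≠ 0) : v.valuation F (c : F) = exp (-(ex v c : ℤ)) := by
  have h0 : v.valuation F (c : F) ≠ 0 := by simp [hc]
  have h1 : log (v.valuation F (c : F)) ≤ 0 := by
    rw [← exp_le_exp, exp_log h0]; exact val_nat_le v c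
  rw [ex, Int.toNat_of_nonneg (by omega), neg_neg, exp_log h0]

theorem Pr_mono {a b : ℕ} (h : a ≤ b) : Loc.Pr v b ≤ Loc.Pr v a := fun x hx => by
  rw [mem_Pr] at *
  refine hx.trans_le ?_
  rw [exp_le_exp]; omega

/-- approximate `p`-th powers -/
def Cu (p m : ℕ) : Subgroup Fˣ := pw p ⊤ ⊔ Loc.Pr v m

variable {n : ℕ} {ζ : F}

theorem relIndex_Cu_Un (hζ : IsPrimitiveRoot ζ (n + 1)) (m : ℕ) :
    (Cu v (n + 1) (m + ex v (n + 1))).relIndex (Un v) ≠ 0 ∧
    (Cu v (n + 1) (m + ex v (n + 1))).relIndex (Un v) ≤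
      (n + 1) * Nat.card (𝓞 F ⧸ v.asIdeal ^ ex v (n + 1)) := by
  classical
  set e := ex v (n + 1) with he
  have hfin := relIndex_Pr_Un v (m + e)
  refine ⟨fun h0 => hfin (Subgroup.relIndex_eq_zero_of_le_left le_sup_right h0), ?_⟩
  have hle : pw (n + 1) (Un v) ⊔ Loc.Pr v (m + e) ≤ Cu v (n + 1) (m + e) :=
    sup_le_sup_right (Subgroup.map_mono le_top) _
  have h1 := Subgroup.relIndex_le_of_le_left (L := Un v) hle fun h0 =>
    hfin (Subgroup.relIndex_eq_zero_of_le_left le_sup_right h0)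
  rw [relIndex_pw_sup _ _ _ (Pr_le_Un v _) hfin] at h1
  refine h1.trans ?_
  set K := (Loc.Pr v (m + e)).comap (powMonoidHom (n + 1)) ⊓ Un v with hK
  have h2 := Subgroup.relIndex_inf_mul_relIndex (Loc.Pr v (m + e)) (Loc.Pr v m) K
  rw [inf_eq_left.mpr (Pr_mono v (Nat.le_add_right m e))] at h2
  have h4 := relIndex_Pr v (Loc.Pr v m) (Pr_le_Un v _) (m + 1) e (m + e) (by omega)
    fun x hx => by
      have := lt_exp_iff.mp ((mem_Pr v).mp hx)
      convert this using 2
      push_cast; ring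
  have h5 := Subgroup.relIndex_le_of_le_right (H := Loc.Pr v (m + e))
    (inf_le_left : Loc.Pr v m ⊓ K ≤ Loc.Pr v m) h4.1
  choose i hi hc using fun x : Fˣ => close (v.valuation F) hζ (x : F)
  have h7 : ∀ x ∈ K, v.valuation F ((x : F) - ζ ^ i x) < exp (-(m : ℤ)) := fun x hx => by
    have h8 := (hc x).trans_lt (by simpa using (mem_Pr v).mp hx.1 :
      v.valuation F ((x : F) ^ (n + 1) - 1) < exp (-((m + e : ℕ) : ℤ)))
    rw [val_nat v n.succ_ne_zero, ← he, ← lt_div_iff₀ (zero_lt_iff.mpr exp_ne_zero), ← exp_sub]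
      at h8
    convert h8 using 2
    push_cast; ring
  have h6 := (relIndex_le_card (Loc.Pr v m) K (fun x => (⟨i x, hi x⟩ : Fin (n + 1)))
    fun x hx y hy hxy => by
      have h9 : i x = i y := congrArg Fin.val hxy
      have e1 : ((x⁻¹ * y : Fˣ) : F) - 1 = (((y : F) - ζ ^ i y) - ((x : F) - ζ ^ i x)) / x := by
        have := x.ne_zero
        rw [h9, Units.val_mul, Units.val_inv_eq_inv_val]; field_simp; ring
      rw [mem_Pr, e1, map_div₀, (mem_Un v).mp hx.2, div_one]
      exact (v.valuation F).map_sub_lt (h7 y hy) (h7 x hx)).2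
  rw [Nat.card_eq_fintype_card, Fintype.card_fin] at h6
  rw [← h2, mul_comm]
  exact Nat.mul_le_mul h6 (h5.trans h4.2)

theorem index_Un_sup (n m : ℕ) :
    (Un v ⊔ Cu v (n + 1) m).index ≠ 0 ∧ (Un v ⊔ Cu v (n + 1) m).index ≤ n + 1 := by
  have := relIndex_le_card (Un v ⊔ Cu v (n + 1) m) ⊤
    (fun x => ((log (v.valuation F (x : F)) : ℤ) : ZMod (n + 1))) fun x _ y _ hxy => by
      obtain ⟨k, hk⟩ := (ZMod.intCast_eq_intCast_iff_dvd_sub _ _ _).1 hxy
      obtain ⟨c, hc⟩ := exists_val_eq v k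
      have h2 : x⁻¹ * y / c ^ (n + 1) ∈ Un v := by
        rw [mem_Un, Units.val_div_eq_div_val, Units.val_mul, Units.val_inv_eq_inv_val,
          Units.val_pow_eq_pow_val, map_div₀, map_mul, map_inv₀, map_pow, hc,
          ← exp_log (val_unit_ne v x), ← exp_log (val_unit_ne v y), ← exp_neg, ← exp_add,
          ← exp_nsmul, ← exp_sub, ← exp_zero]
        congr 1
        rw [nsmul_eq_mul]
        omega
      have := mul_mem (Subgroup.mem_sup_left h2 : _ ∈ Un v ⊔ Cu v (n + 1) m)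
        (Subgroup.mem_sup_right (Subgroup.mem_sup_left ⟨c, trivial, rfl⟩))
      simpa using this
  simpa using this

theorem index_Cu (hζ : IsPrimitiveRoot ζ (n + 1)) (m : ℕ) (hm : ex v (n + 1) ≤ m) :
    (Cu v (n + 1) m).index ≠ 0 ∧
      (Cu v (n + 1) m).index ≤ (n + 1) ^ 2 * Nat.card (𝓞 F ⧸ v.asIdeal ^ ex v (n + 1)) := by
  obtain ⟨m, rfl⟩ := Nat.exists_eq_add_of_le' hm
  have h1 := Subgroup.relIndex_mul_index
    (le_sup_right : Cu v (n + 1) (m + ex v (n + 1)) ≤ Un v ⊔ Cu v (n + 1) (m + ex v (n + 1)))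
  rw [Subgroup.relIndex_sup_right] at h1
  rw [← h1]
  refine ⟨mul_ne_zero (relIndex_Cu_Un v hζ m).1 (index_Un_sup v n _).1, ?_⟩
  calc _ ≤ ((n + 1) * Nat.card (𝓞 F ⧸ v.asIdeal ^ ex v (n + 1))) * (n + 1) :=
        Nat.mul_le_mul (relIndex_Cu_Un v hζ m).2 (index_Un_sup v n _).2
    _ = _ := by ring

theorem prod_card_le' (S : Finset (Pl F)) {c : ℕ} (hc : c ≠ 0) :
    ∏ v ∈ S, Nat.card (𝓞 F ⧸ v.asIdeal ^ ex v c) ≤ c ^ Module.finrank ℚ F := by
  have h1 : ∏ v ∈ S, v.asIdeal ^ ex v c ∣ Ideal.span {(c : 𝓞 F)} := by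
    refine Finset.prod_dvd_of_coprime (fun v _ w _ hvw => ?_) fun v _ => ?_
    · exact IsCoprime.pow (Ideal.isCoprime_iff_sup_eq.mpr
        (v.isMaximal.coprime_of_ne w.isMaximal fun h => hvw (HeightOneSpectrum.ext h)))
    · rw [Ideal.dvd_span_singleton, ← val_int_le_pow_iff]
      simpa using (val_nat v hc).le
  have h2 := map_dvd Ideal.absNorm h1
  rw [Ideal.absNorm_span_natCast, NumberField.RingOfIntegers.rank, map_prod] at h2
  exact Nat.le_of_dvd (by positivity) h2

/-- the semi-local index -/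
theorem index_iInf (hζ : IsPrimitiveRoot ζ (n + 1)) (S : Finset (Pl F)) (m : Pl F → ℕ)
    (hm : ∀ v, ex v (n + 1) ≤ m v) :
    (⨅ v : S, Cu v.1 (n + 1) (m v)).index ≠ 0 ∧
      (⨅ v : S, Cu v.1 (n + 1) (m v)).index ≤ (n + 1) ^ (2 * S.card + Module.finrank ℚ F) := by
  refine ⟨Subgroup.index_iInf_ne_zero fun v => (index_Cu v.1 hζ _ (hm v)).1,
    (Subgroup.index_iInf_le _).trans ?_⟩
  calc _ ≤ ∏ v : S, (n + 1) ^ 2 * Nat.card (𝓞 F ⧸ v.1.asIdeal ^ ex v.1 (n + 1)) :=
        Finset.prod_le_prod' fun v _ => (index_Cu v.1 hζ _ (hm v)).2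
    _ = ∏ v ∈ S, (n + 1) ^ 2 * Nat.card (𝓞 F ⧸ v.asIdeal ^ ex v (n + 1)) :=
        Finset.prod_coe_sort S fun v => (n + 1) ^ 2 * Nat.card (𝓞 F ⧸ v.asIdeal ^ ex v (n + 1))
    _ ≤ _ := by
        rw [Finset.prod_mul_distrib, Finset.prod_const, pow_add, pow_mul]
        exact Nat.mul_le_mul_left _ (prod_card_le' S n.succ_ne_zero)

end Loc

section SU

open Crest.Agent.R018.MinkUx824 Crest.Agent.R018.Selmerx380 Crest.Agent.R018.SLatx824
open Crest.Agent.R018.SLatBx824

variable {F : Type*} [Field F] [NumberField F] {n : ℕ} {ζ : F}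

theorem pw_units (hζ : IsPrimitiveRoot ζ (n + 1)) :
    (pw (n + 1) (⊤ : Subgroup (𝓞 F)ˣ)).relIndex ⊤ =
      (n + 1) ^ Fintype.card (NumberField.InfinitePlace F) := by
  have h2 : ∀ y : (𝓞 F)ˣ ⧸ NumberField.Units.torsion F, y ^ (n + 1) = 1 → y = 1 := by
    intro y hy
    obtain ⟨u, rfl⟩ := QuotientGroup.mk_surjective y
    rw [← QuotientGroup.mk_pow, QuotientGroup.eq_one_iff] at hy
    rw [QuotientGroup.eq_one_iff]
    exact IsOfFinOrder.of_pow hy n.succ_ne_zero
  rw [pw_index_mul (G' := (𝓞 F)ˣ ⧸ NumberField.Units.torsion F) _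
    (QuotientGroup.mk' (NumberField.Units.torsion F)) h2, pw_index_free,
    NumberField.Units.finrank_modTorsion, QuotientGroup.ker_mk', inf_top_eq]
  · have h3 : (pw (n + 1) (NumberField.Units.torsion F)).relIndex (NumberField.Units.torsion F) =
        n + 1 := by
      have h4 := pw_index_inj (n + 1) (NumberField.Units.torsion F).subtype Subtype.val_injective ⊤
      rw [← MonoidHom.range_eq_map, Subgroup.range_subtype] at h4
      rw [h4, Subgroup.relIndex_top_right, pw, ← MonoidHom.range_eq_map,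
        IsCyclic.index_powMonoidHom_range]
      exact Nat.gcd_eq_right (NumberField.Units.dvd_torsionOrder_of_isPrimitiveRoot hζ)
    rw [h3, NumberField.Units.rank, ← pow_succ, Nat.sub_add_cancel Fintype.card_pos]
  · rw [← MonoidHom.range_eq_map, MonoidHom.range_eq_top.mpr (QuotientGroup.mk'_surjective _)]
    simp

/-- the `S`-unit theorem modulo `p`-th powers -/
theorem pw_sunits (hζ : IsPrimitiveRoot ζ (n + 1)) (S : Finset (Pl F)) :
    (pw (n + 1) ((S : Set (Pl F)).unit F)).relIndex ((S : Set (Pl F)).unit F) =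
      (n + 1) ^ (S.card + Fintype.card (NumberField.InfinitePlace F)) := by
  classical
  have h2 : ∀ y : Multiplicative (S → ℤ), y ^ (n + 1) = 1 → y = 1 := by
    intro y hy
    have h := congrArg Multiplicative.toAdd hy
    rw [toAdd_pow, toAdd_one] at h
    have : Multiplicative.toAdd y = 0 := by
      funext q
      have := congrFun h q
      simp only [Pi.smul_apply, nsmul_eq_mul, Pi.zero_apply, mul_eq_zero] at this
      exact this.resolve_left (by positivity)
    rw [← ofAdd_toAdd y, this, ofAdd_zero]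
  have hk : (ordS S).ker ⊓ (S : Set (Pl F)).unit F = (⊤ : Subgroup (𝓞 F)ˣ).map (iu F) := by
    rw [← MonoidHom.range_eq_map]
    ext x
    rw [mem_iu_range_iff, Subgroup.mem_inf, mem_unit_iff, MonoidHom.mem_ker]
    constructor
    · rintro ⟨h, h'⟩ w
      by_cases hw : w ∈ S
      · exact congrFun (congrArg Multiplicative.toAdd h) ⟨w, hw⟩
      · exact h' w hw
    · intro h
      refine ⟨?_, fun w _ => h w⟩
      rw [← ofAdd_zero]
      exact congrArg Multiplicative.ofAdd (funext fun q => h q.1)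
  have : Module.Free ℤ (Additive (Multiplicative (S → ℤ))) :=
    Module.Free.of_equiv (AddEquiv.additiveMultiplicative (S → ℤ)).symm.toIntLinearEquiv
  have : Module.Finite ℤ (Additive (Multiplicative (S → ℤ))) :=
    Module.Finite.equiv (AddEquiv.additiveMultiplicative (S → ℤ)).symm.toIntLinearEquiv
  have hr : finrank ℤ (Additive (Multiplicative (S → ℤ))) = S.card := by
    rw [(AddEquiv.additiveMultiplicative (S → ℤ)).toIntLinearEquiv.finrank_eq]
    simp
  have hi : (((S : Set (Pl F)).unit F).map (ordS S)).index ≠ 0 := by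
    have hne : NeZero (hL F) := ⟨hL_pos.ne'⟩
    let ρ : Multiplicative (S → ℤ) →* Multiplicative (S → ZMod (hL F)) :=
      AddMonoidHom.toMultiplicative ((Int.castAddHom (ZMod (hL F))).compLeft S)
    have h1 : ρ.ker.index ≠ 0 := by
      rw [Subgroup.index_ker]
      exact Nat.card_pos.ne'
    intro h0
    apply h1
    refine Nat.eq_zero_of_zero_dvd (h0 ▸ Subgroup.index_dvd_of_le ?_)
    intro z hz
    have h3 : ∀ q : S, ∃ c : ℤ, Multiplicative.toAdd z q = hL F * c := by
      intro q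
      have h4 : ((Multiplicative.toAdd z q : ℤ) : ZMod (hL F)) = 0 :=
        congrFun (congrArg Multiplicative.toAdd (MonoidHom.mem_ker.mp hz)) q
      rwa [ZMod.intCast_zmod_eq_zero_iff_dvd] at h4
    choose c hc using h3
    choose y hy using fun q : S => exists_gen (L := F) q.1
    have h5 : ∀ w, ord (𝓞 F) w (∏ q, y q ^ c q) =
        ∑ q : S, c q * (if w = q then (hL F : ℤ) else 0) := by
      intro w
      rw [ord_prod]
      simp only [ord_zpow, hy]
    refine ⟨∏ q, y q ^ c q, ?_, ?_⟩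
    · rw [SetLike.mem_coe, mem_unit_iff]
      intro w hw
      rw [h5]
      apply Finset.sum_eq_zero
      intro q _
      rw [if_neg, mul_zero]
      rintro rfl
      exact hw q.2
    · rw [← ofAdd_toAdd z]
      refine congrArg Multiplicative.ofAdd (funext fun w => ?_)
      rw [h5, hc, Finset.sum_eq_single w]
      · simp [mul_comm]
      · intro q _ hq
        rw [if_neg, mul_zero]
        intro h
        exact hq (Subtype.ext h.symm)
      · simp
  rw [pw_index_mul _ (ordS S) h2, hk, pw_index_inj _ (iu F) iu_inj, pw_units hζ,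
    pw_index_free _ _ hi, hr, pow_add]

end SU

end Crest.Agent.T15.Ex
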