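import Crest.Agent.T15.ExA_49
import Crest.Agent.T15.ArtO_49
import Crest.Agent.T24.AsaA_53

/-!
# Row 15, existence theorem, part B (helper49): the Kummer case (`μ_N ⊆ K`, exponent `N`)
-/

set_option autoImplicit false

noncomputable section

open NumberField IsDedekindDomain WithZero
open scoped Pointwise

namespace Crest.Agent.T15.Ex

open Crest.Agent.T15.Art Crest.Agent.R018.Placesx484 Crest.Agent.R018.Selmerx380
open Crest.Agent.T24.Hn (Kill)
open Crest.Agent.T24.Hn.Loc (mem_Pr)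

section Ray

variable {K : Type*} [Field K] [NumberField K] {A : Type*} [CommGroup A]

/-- `f` is a ray class character with modulus supported on `T` -/
def Ray (T : Finset (Pr K)) (f : Pr K → A) : Prop :=
  ∃ c : ℕ, c ≠ 0 ∧ ∀ a : Kˣ,
    (∀ w ∈ T, w.valuation K ((a : K) - 1) < w.valuation K (c : K)) → ev f a = 1

theorem val_mul_le (w : Pr K) (c d : ℕ) :
    w.valuation K ((c * d : ℕ) : K) ≤ w.valuation K (c : K) := by
  rw [Nat.cast_mul, map_mul]
  exact mul_le_of_le_one_right' (val_nat_le w d)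

theorem Ray.mul {T : Finset (Pr K)} {f g : Pr K → A} (hf : Ray T f) (hg : Ray T g) :
    Ray T fun w => f w * g w := by
  obtain ⟨c, hc, h⟩ := hf
  obtain ⟨d, hd, h'⟩ := hg
  refine ⟨c * d, mul_ne_zero hc hd, fun a ha => ?_⟩
  rw [ev_mul, h a fun w hw => (ha w hw).trans_le (val_mul_le w c d),
    h' a fun w hw => (ha w hw).trans_le (mul_comm c d ▸ val_mul_le w d c), mul_one]

theorem Ray.map {B : Type*} [CommGroup B] {T : Finset (Pr K)} {f : Pr K → A} (hf : Ray T f)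
    (l : A →* B) : Ray T fun w => l (f w) := by
  obtain ⟨c, hc, h⟩ := hf
  exact ⟨c, hc, fun a ha => by rw [← map_ev, h a ha, map_one]⟩

theorem mul_approx (S : Finset (Pr K)) (b : Pr K → Kˣ) (m : Pr K → ℕ) :
    ∃ c : Kˣ, ∀ w ∈ S, c / b w ∈ T24.Hn.Loc.Pr w (m w) := by
  have h0 : ∀ w : Pr K, w.valuation K (b w : K) ≠ 0 := fun w => by simp
  choose M hM using fun w : Pr K => T24.Asa.exists_exp_le
    (mul_ne_zero (h0 w) (exp_ne_zero (a := -((m w + 1 : ℕ) : ℤ))))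
  obtain ⟨x, hx, -⟩ := T24.Asa.approx_fin S (fun w => (b w : K)) (S.sup M)
  have h1 : ∀ w ∈ S, w.valuation K (x / b w - 1) < exp (-(m w : ℤ)) := fun w hw => by
    have e : x / b w - 1 = (x - b w) / b w := by field_simp
    rw [e, map_div₀, div_lt_iff₀ (zero_lt_iff.2 (h0 w)), mul_comm]
    refine ((hx w hw).trans ((T24.Asa.exp_neg_anti (Finset.le_sup hw)).trans (hM w))).trans_lt ?_
    refine mul_lt_mul_of_pos_left ?_ (zero_lt_iff.2 (h0 w))
    rw [exp_lt_exp]; push_cast; omega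
  by_cases hx0 : x = 0
  · refine ⟨1, fun w hw => absurd ((h1 w hw).trans_le (T24.Asa.exp_neg_le_one _)) ?_⟩
    simp [hx0]
  · exact ⟨Units.mk0 x hx0, fun w hw => by simpa [mem_Pr] using h1 w hw⟩

theorem ev_kill {S : Finset (Pr K)} {f : Pr K → A} {p : ℕ} (hf : ∀ w, f w ^ p = 1) {m : Pr K → ℕ}
    (h : ∀ a : Kˣ, (∀ w ∈ S, a ∈ T24.Hn.Loc.Pr w (m w)) → ev f a = 1) :
    ∀ a : Kˣ, (∀ w ∈ S, a ∈ Cu w p (m w)) → ev f a = 1 := fun a ha => by
  have h1 : ∀ w : Pr K, ∃ b : Kˣ, w ∈ S → a / b ^ p ∈ T24.Hn.Loc.Pr w (m w) := fun w => by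
    by_cases hw : w ∈ S
    · obtain ⟨_, ⟨b, -, rfl⟩, y, hy, rfl⟩ := Subgroup.mem_sup.1 (ha w hw)
      exact ⟨b, fun _ => by simpa using hy⟩
    · exact ⟨1, fun h => absurd h hw⟩
  choose b hb using h1
  obtain ⟨c, hc⟩ := mul_approx S b m
  have h2 := h (a / c ^ p) fun w hw => by
    have := div_mem (hb w hw) (pow_mem (hc w hw) p)
    rwa [div_pow, div_div_div_cancel_right] at this
  have h3 : ev f c ^ p = 1 := ev_mem (f := f) (powMonoidHom p : A →* A).ker hf c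
  rwa [map_div, map_pow, h3, div_one] at h2

theorem ev_one (a : Kˣ) : ev (fun _ => (1 : A)) a = 1 := ev_mem ⊥ (fun _ => rfl) a

theorem ev_sunit {S : Finset (Pr K)} {f : Pr K → A} (h1 : ∀ w ∈ S, f w = 1) :
    (S : Set (Pr K)).unit K ≤ (ev f).ker := fun u hu => by
  rw [MonoidHom.mem_ker, ev_congr (g := fun _ => 1) fun w hw => h1 w (by
    by_contra h
    exact hw ((R018.SLatx824.mem_unit_iff _ u).1 hu w h))]
  exact ev_one u

theorem eq_of_ev {S : Finset (Pr K)} (hK : Kill S) {f g : Pr K → A} (hf : ∀ w ∈ S, f w = 1)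
    (hg : ∀ w ∈ S, g w = 1) (h : ev f = ev g) : f = g := by
  classical
  funext w
  by_cases hw : w ∈ S
  · rw [hf w hw, hg w hw]
  obtain ⟨x, hx⟩ := hK.ord (fun v => if v = w then 1 else 0)
    ((Set.finite_singleton w).subset fun v hv => by simpa using hv)
  have key : ∀ f : Pr K → A, (∀ w ∈ S, f w = 1) → ev f x = f w := fun f hf => by
    rw [ev_apply, finprod_eq_single _ w fun v hv => ?_, hx w hw, if_pos rfl, zpow_one]
    by_cases hv' : v ∈ S
    · rw [hf v hv', one_zpow]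
    · rw [hx v hv', if_neg hv, zpow_zero]
  rw [← key f hf, ← key g hg, h]

theorem kill_avoid (w : Pr K) : ∃ S : Finset (Pr K), Kill S ∧ w ∉ S := by
  classical
  obtain ⟨S, hS⟩ := T24.Hn.exists_kill K
  obtain ⟨x, hx⟩ := exists_ord_eq_one (K := K) w
  obtain ⟨S', hS'⟩ := exists_supp x
  refine ⟨(S ∪ S').erase w, fun n hn => ?_, Finset.notMem_erase _ _⟩
  obtain ⟨y, hy⟩ := hS.ord (fun v => -n v) (by simpa using hn)
  refine ⟨y * x ^ (-n w - ord (𝓞 K) w y), fun v hv => ?_⟩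
  rw [valuation_eq_exp, ord_mul, R018.SLatBx824.ord_zpow]
  congr 1
  by_cases h : v = w
  · rw [h, hx]; ring
  · have h1 : v ∉ S ∪ S' := fun h' => hv (Finset.mem_erase.2 ⟨h, h'⟩)
    have h2 : ord (𝓞 K) v x = 0 := by
      by_contra h2
      exact h1 (Finset.mem_union_right _ (hS' v h2))
    rw [hy v fun h' => h1 (Finset.mem_union_left _ h'), h2]; ring

end Ray

section Kummer

variable {K E : Type*} [Field K] [Field E] [Algebra K E] {n : ℕ} {ζ : K}

theorem fix_root (hζ : IsPrimitiveRoot ζ (n + 1)) (g : E ≃ₐ[K] E) {η : E} (hη : η ^ (n + 1) = 1) :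
    g η = η := by
  obtain ⟨i, -, rfl⟩ := (hζ.map_of_injective (algebraMap K E).injective).eq_pow_of_pow_eq_one hη
  rw [← map_pow, AlgEquiv.commutes]

theorem quot_pow {u : K} {r : E} (hr0 : r ≠ 0) (hr : r ^ (n + 1) = algebraMap K E u)
    (g : E ≃ₐ[K] E) : (g r / r) ^ (n + 1) = 1 := by
  rw [div_pow, ← map_pow, hr, AlgEquiv.commutes, ← hr, div_self (pow_ne_zero _ hr0)]

/-- the Kummer character -/
def kum (hζ : IsPrimitiveRoot ζ (n + 1)) {u : K} {r : E} (hr0 : r ≠ 0)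
    (hr : r ^ (n + 1) = algebraMap K E u) : (E ≃ₐ[K] E) →* Eˣ :=
  MonoidHom.mk' (fun g => Units.mk0 (g r / r) (div_ne_zero (by simpa using hr0) hr0)) fun g h => by
    ext
    have := fix_root hζ g (quot_pow hr0 hr h)
    rw [map_div₀] at this
    have h1 : g r ≠ 0 := by simpa using hr0
    simp only [Units.val_mk0, Units.val_mul, AlgEquiv.mul_apply, ← this]
    field_simp

variable (hζ : IsPrimitiveRoot ζ (n + 1)) {u : K} {r : E} (hr0 : r ≠ 0)
  (hr : r ^ (n + 1) = algebraMap K E u)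

theorem kum_val (g : E ≃ₐ[K] E) : (kum hζ hr0 hr g : E) = g r / r := rfl

theorem kum_pow (g : E ≃ₐ[K] E) : kum hζ hr0 hr g ^ (n + 1) = 1 :=
  Units.ext (by rw [Units.val_pow_eq_pow_val, kum_val, quot_pow hr0 hr, Units.val_one])

theorem kum_opn [Algebra.IsIntegral K E] : IsOpen ((kum hζ hr0 hr).ker : Set (E ≃ₐ[K] E)) :=
  Subgroup.isOpen_mono (H₁ := MulAction.stabilizer (E ≃ₐ[K] E) r) (fun g hg => Units.ext (by
    rw [kum_val, show g r = r from hg, div_self hr0, Units.val_one]))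
    (stabilizer_isOpen_of_isIntegral r)

variable [NumberField K] [CharZero E] [Algebra.IsAlgebraic ℚ E]

theorem v_equiv (P : Place E) : (P.v.comap (algebraMap K E)).IsEquiv ((pr K P).valuation K) :=
  Valuation.isEquiv_iff_val_le_one.2 fun {x} =>
    (Place.v_res_le_one_iff K P x).symm.trans (Place.numberField_val_iff _ x)

theorem v_lt_iff (P : Place E) (x y : K) : P.v (algebraMap K E x) < P.v (algebraMap K E y) ↔
    (pr K P).valuation K x < (pr K P).valuation K y := (v_equiv (K := K) P).lt_iff_lt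

theorem v_eq_one (P : Place E) {x : K} (h : (pr K P).valuation K x = 1) :
    P.v (algebraMap K E x) = 1 := (v_equiv (K := K) P).eq_one_iff_eq_one.2 h

theorem kum_inertia (P : Place E) (hu : (pr K P).valuation K u = 1)
    (hp : (pr K P).valuation K ((n + 1 : ℕ) : K) = 1) :
    P.ideal.inertia (E ≃ₐ[K] E) ≤ (kum hζ hr0 hr).ker := fun g hg => by
  have h1 : P.v r = 1 := Place.pow_eq_one_aux n.succ_ne_zero (by rw [← map_pow, hr, v_eq_one P hu])
  have h2 : P.v ((n + 1 : ℕ) : E) = 1 := by rw [← map_natCast (algebraMap K E), v_eq_one P hp]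
  refine Units.ext (root_eq_one P.v (hζ.map_of_injective (algebraMap K E).injective)
    (quot_pow hr0 hr g) ?_)
  rw [kum_val, h2, div_sub_one hr0, map_div₀, h1, div_one]
  exact P.v_smul_sub_lt_one hg r h1.le

theorem kum_split (P : Place E) {b : K} (hb : b ≠ 0) (h : (pr K P).valuation K (u / b ^ (n + 1) - 1) <
    (pr K P).valuation K (((n + 1) * (n + 1) : ℕ) : K)) {g : E ≃ₐ[K] E} (hg : g • P = P) :
    kum hζ hr0 hr g = 1 := by
  have hζ' := hζ.map_of_injective (algebraMap K E).injective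
  have hb' : algebraMap K E b ≠ 0 := by simpa using hb
  obtain ⟨i, -, hi⟩ := close P.v hζ' (r / algebraMap K E b)
  rw [← v_lt_iff, map_sub, map_div₀, map_one, map_pow, ← hr, ← div_pow, map_natCast, Nat.cast_mul,
    map_mul] at h
  have h0 : 0 < P.v ((n + 1 : ℕ) : E) := zero_lt_iff.2 (by
    rw [Valuation.ne_zero_iff]; exact Nat.cast_ne_zero.2 n.succ_ne_zero)
  have h1 := lt_of_mul_lt_mul_right (hi.trans_lt h) h0.le
  have h2 : P.v (r / algebraMap K E b) = 1 := by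
    have := P.v.map_add_eq_of_lt_right (x := r / algebraMap K E b - algebraMap K E ζ ^ i)
      (y := algebraMap K E ζ ^ i) (by
        rw [v_pw P.v hζ']; exact h1.trans_le (P.v_natCast_le_one _))
    rwa [sub_add_cancel, v_pw P.v hζ'] at this
  have h3 : P.v (g r / algebraMap K E b - algebraMap K E ζ ^ i) < P.v ((n + 1 : ℕ) : E) := by
    rw [← P.v_smul_eq g hg, AlgEquiv.smul_def, map_sub, map_div₀, map_pow, AlgEquiv.commutes,
      AlgEquiv.commutes] at h1
    exact h1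
  refine Units.ext (root_eq_one P.v hζ' (quot_pow hr0 hr g) ?_)
  have e : g r / r - 1 = ((g r / algebraMap K E b - algebraMap K E ζ ^ i) -
      (r / algebraMap K E b - algebraMap K E ζ ^ i)) / (r / algebraMap K E b) := by
    field_simp
    ring
  rw [kum_val, e, map_div₀, h2, div_one]
  exact P.v.map_sub_lt h3 h1

end Kummer

section Base

attribute [local irreducible] ex

variable {K E : Type} [Field K] [NumberField K] [IsTotallyComplex K] [Field E] [CharZero E]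
  [IsAlgClosed E] [Algebra.IsAlgebraic ℚ E] [Algebra K E] [IsGalois K E] {n : ℕ} {ζ : K}

omit [IsAlgClosed E] [Algebra.IsAlgebraic ℚ E] in
theorem Av.ray (hA : ArtStmt) {A : Type} [CommGroup A] {ξ : (E ≃ₐ[K] E) →* A}
    (ho : IsOpen (ξ.ker : Set (E ≃ₐ[K] E))) {T : Finset (Pr K)} {f : Pr K → A}
    (h1 : ∀ w ∈ T, f w = 1) (h : Av T f ξ) : Ray T f := by
  obtain ⟨N, hN, hξ⟩ := exists_pow_eq_one ξ ho
  exact ⟨N * N, mul_ne_zero hN hN, fun a ha => artin_av hA ho hN hξ h1 h a fun w hw => by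
    simpa [sq] using ha w hw⟩

/-- semi-local approximate powers -/
def HS (S : Finset (Pr K)) (p C : ℕ) : Subgroup Kˣ := ⨅ w : S, Cu w.1 p (ex w.1 C)

/-- `S`-units -/
def US (S : Finset (Pr K)) : Subgroup Kˣ := (S : Set (Pr K)).unit K

omit [IsTotallyComplex K] in
theorem mem_HS {S : Finset (Pr K)} {p C : ℕ} {a : Kˣ} :
    a ∈ HS S p C ↔ ∀ w ∈ S, a ∈ Cu w p (ex w C) := by
  rw [HS, Subgroup.mem_iInf]
  exact Subtype.forall

omit [IsTotallyComplex K] in
theorem mem_Pr_ex {C : ℕ} (hC : C ≠ 0) {w : Pr K} {a : Kˣ} (ha : a ∈ T24.Hn.Loc.Pr w (ex w C)) :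
    w.valuation K ((a : K) - 1) < w.valuation K (C : K) := by
  rw [val_nat w hC]; exact ha

theorem count (hζ : IsPrimitiveRoot ζ (n + 1)) (S : Finset (Pr K)) {c : ℕ} (hc : c ≠ 0)
    (hloc : HS S (n + 1) ((n + 1) * c) ⊓ US S ≤ pw (n + 1) (US S)) :
    (US S ⊔ HS S (n + 1) ((n + 1) * c)).index ≠ 0 ∧
      (US S ⊔ HS S (n + 1) ((n + 1) * c)).index ≤ (pw (n + 1) (US S)).relIndex (US S) := by
  have hex : ∀ w : Pr K, ex w (n + 1) ≤ ex w ((n + 1) * c) := fun w => by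
    have := val_mul_le w (n + 1) c
    rw [val_nat w (mul_ne_zero (Nat.add_one_ne_zero n) hc), val_nat w (Nat.add_one_ne_zero n),
      exp_le_exp] at this
    exact_mod_cast neg_le_neg_iff.1 this
  obtain ⟨hi0, hi⟩ : (HS S (n + 1) ((n + 1) * c)).index ≠ 0 ∧ (HS S (n + 1) ((n + 1) * c)).index ≤
      (n + 1) ^ (2 * S.card + Module.finrank ℚ K) := by
    rw [HS]
    exact index_iInf hζ S (fun w => ex w ((n + 1) * c)) hex
  have hs : (pw (n + 1) (US S)).relIndex (US S) =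
      (n + 1) ^ (S.card + Fintype.card (InfinitePlace K)) := pw_sunits hζ S
  have hle : pw (n + 1) (US S) ≤ HS S (n + 1) ((n + 1) * c) :=
    fun a ha => mem_HS.2 fun w _ => Subgroup.mem_sup_left (Subgroup.map_mono le_top ha)
  generalize HS S (n + 1) ((n + 1) * c) = H at *
  generalize US S = U at *
  have hrel : H.relIndex U = (pw (n + 1) U).relIndex U := by
    rw [← Subgroup.inf_relIndex_right H U, le_antisymm hloc (le_inf hle (pw_le _ U))]
  have hcnt := Subgroup.relIndex_mul_index (le_sup_right : H ≤ U ⊔ H)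
  rw [Subgroup.relIndex_sup_right, hrel, hs] at hcnt
  refine ⟨fun h0 => hi0 (by rw [← hcnt, h0, mul_zero]), ?_⟩
  have h1 : Module.finrank ℚ K = 2 * Fintype.card (InfinitePlace K) := by
    rw [IsTotallyComplex.finrank, InfinitePlace.card_eq_nrRealPlaces_add_nrComplexPlaces,
      IsTotallyComplex.nrRealPlaces_eq_zero, zero_add]
  rw [← hcnt, h1, ← mul_add, two_mul, pow_add _ (_ + _)] at hi
  rw [hs]
  exact Nat.le_of_mul_le_mul_left hi (by positivity)

omit [IsTotallyComplex K] [CharZero E] [IsAlgClosed E] [Algebra.IsAlgebraic ℚ E] in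
theorem kum_inj (hζ : IsPrimitiveRoot ζ (n + 1)) {S : Finset (Pr K)} {u v : Kˣ} (hu : u ∈ US S)
    (hv : v ∈ US S) {r s : E} (hr0 : r ≠ 0) (hs0 : s ≠ 0) (hr : r ^ (n + 1) = algebraMap K E u)
    (hs : s ^ (n + 1) = algebraMap K E v) (h : kum hζ hr0 hr = kum hζ hs0 hs) :
    u⁻¹ * v ∈ pw (n + 1) (US S) := by
  obtain ⟨y, hy⟩ := (InfiniteGalois.mem_range_algebraMap_iff_fixed (k := K) (s / r)).2 fun g => by
    have h2 : g r / r = g s / s := congrArg (fun x : Eˣ => (x : E)) (DFunLike.congr_fun h g)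
    have h3 : g r ≠ 0 := by simpa using hr0
    rw [map_div₀]
    field_simp
    field_simp at h2
    linear_combination -h2
  have hy0 : y ≠ 0 := fun h0 => by
    rw [h0, map_zero] at hy
    exact div_ne_zero hs0 hr0 hy.symm
  have h4 : Units.mk0 y hy0 ^ (n + 1) = u⁻¹ * v := Units.ext ((algebraMap K E).injective (by
    rw [Units.val_pow_eq_pow_val, Units.val_mk0, map_pow, hy, div_pow, hr, hs, Units.val_mul,
      Units.val_inv_eq_inv_val, map_mul, map_inv₀, div_eq_inv_mul]))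
  refine ⟨_, fun w hw => Place.pow_eq_one_aux n.succ_ne_zero ?_, h4⟩
  rw [← map_pow, ← Units.val_pow_eq_pow_val, h4]
  exact (mul_mem (inv_mem hu) hv : _ ∈ US S) w hw

omit [IsTotallyComplex K] [IsAlgClosed E] in
theorem kum_av (hζ : IsPrimitiveRoot ζ (n + 1)) {S : Finset (Pr K)}
    (hp : ∀ w, w ∉ S → w.valuation K ((n + 1 : ℕ) : K) = 1) {u : Kˣ} (hu : u ∈ US S) {r : E}
    (hr0 : r ≠ 0) (hr : r ^ (n + 1) = algebraMap K E u) : ∃ F : Pr K → Eˣ, (∀ w ∈ S, F w = 1) ∧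
      Av S F (kum hζ hr0 hr) ∧ ∀ w, F w ^ (n + 1) = 1 := by
  obtain ⟨F, h1, h2⟩ := exists_av S (kum hζ hr0 hr) fun P hP =>
    kum_inertia hζ hr0 hr P (hu _ hP) (hp _ hP)
  refine ⟨F, h1, h2, fun w => ?_⟩
  by_cases hw : w ∈ S
  · rw [h1 w hw, one_pow]
  · obtain ⟨P, rfl⟩ := exists_pr (E := E) w
    obtain ⟨φ, hφ⟩ := exists_isF (K := K) P
    rw [← h2 P hw φ hφ, kum_pow]

omit [IsTotallyComplex K] [CharZero E] [Algebra.IsAlgebraic ℚ E] [IsGalois K E] [NumberField K] in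
theorem exists_rt (n : ℕ) (u : Kˣ) : ∃ r : E, r ≠ 0 ∧ r ^ (n + 1) = algebraMap K E u := by
  obtain ⟨r, hr⟩ := IsAlgClosed.exists_pow_nat_eq (algebraMap K E u) n.succ_pos
  refine ⟨r, fun h0 => ?_, hr⟩
  rw [h0, zero_pow n.succ_ne_zero, eq_comm, map_eq_zero] at hr
  exact u.ne_zero hr

variable (E) in
include E in
/-- `S`-units which are local powers at `S` are powers -/
theorem loc_pow (hA : ArtStmt) (hζ : IsPrimitiveRoot ζ (n + 1)) {S : Finset (Pr K)} (hK : Kill S)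
    (hp : ∀ w, w ∉ S → w.valuation K ((n + 1 : ℕ) : K) = 1) {c : ℕ} (hc : c ≠ 0) :
    HS S (n + 1) ((n + 1) * ((n + 1) * c)) ⊓ US S ≤ pw (n + 1) (US S) := fun u hu => by
  obtain ⟨r, hr0, hr⟩ := exists_rt (E := E) n u
  obtain ⟨F, hF1, hF, -⟩ := kum_av hζ hp hu.2 hr0 hr
  have h2 : Av ∅ F (kum hζ hr0 hr) := fun P _ φ hφ => by
    by_cases hP : pr K P ∈ S
    · obtain ⟨_, ⟨b, -, rfl⟩, y, hy, hby⟩ := Subgroup.mem_sup.1 (mem_HS.1 hu.1 _ hP)
      rw [hF1 _ hP]
      refine kum_split hζ hr0 hr P b.ne_zero ?_ hφ.smul_eq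
      have e : (u : K) / (b : K) ^ (n + 1) = y := by
        rw [← hby]; simp
      rw [e]
      refine (mem_Pr_ex (by positivity) hy).trans_le ?_
      rw [← mul_assoc]
      exact val_mul_le _ _ c
    · exact hF P hP φ hφ
  have h3 : F = fun _ => 1 := eq_of_ev hK hF1 (fun _ _ => rfl)
    (MonoidHom.ext fun a => (artin_av hA (kum_opn hζ hr0 hr) n.succ_ne_zero (kum_pow hζ hr0 hr)
      (by simp) h2 a (by simp)).trans (ev_one a).symm)
  have h4 : kum hζ hr0 hr = 1 := h2.unique (η := 1) (fun P _ φ _ => by rw [h3]; rfl)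
    (kum_opn hζ hr0 hr) (by simp)
  have h6 : (1 : E) ^ (n + 1) = algebraMap K E (1 : Kˣ) := by simp
  have h5 : kum hζ one_ne_zero h6 = 1 := MonoidHom.ext fun g => Units.ext (by simp [kum_val])
  simpa using kum_inj hζ (one_mem _) hu.2 one_ne_zero hr0 h6 hr (h5.trans h4.symm)

theorem surj_aux {G E : Type*} [CommGroup G] [Field E] [CharZero E] [IsAlgClosed E]
    (N U V : Subgroup G) (h0 : N.index ≠ 0) (h : N.index ≤ V.relIndex U) (Φ : U → G →* Eˣ)
    (hΦ : ∀ u, N ≤ (Φ u).ker) (hi : ∀ u v : U, Φ u = Φ v → (u : G)⁻¹ * v ∈ V) (χ : G →* Eˣ)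
    (hχ : N ≤ χ.ker) : ∃ u, Φ u = χ := by
  have : Finite (G ⧸ N) := Nat.finite_of_card_ne_zero h0
  have : NeZero ((Monoid.exponent (G ⧸ N) : ℕ) : E) :=
    ⟨Nat.cast_ne_zero.2 Monoid.exponent_ne_zero_of_finite⟩
  have hc := CommGroup.card_monoidHom_of_hasEnoughRootsOfUnity (G ⧸ N) E
  have : Finite (G ⧸ N →* Eˣ) := Nat.finite_of_card_ne_zero (hc ▸ h0)
  have hinj : Function.Injective fun q : U ⧸ V.subgroupOf U =>
      QuotientGroup.lift N (Φ q.out) (hΦ _) := fun q q' h => by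
    rw [← q.out_eq, ← q'.out_eq]
    exact QuotientGroup.eq.2 (Subgroup.mem_subgroupOf.2 (hi _ _
      (MonoidHom.ext fun a => DFunLike.congr_fun h (QuotientGroup.mk a))))
  obtain ⟨q, hq⟩ := (hinj.bijective_of_nat_card_le (hc ▸ h)).2 (QuotientGroup.lift N χ hχ)
  exact ⟨q.out, MonoidHom.ext fun a => DFunLike.congr_fun hq (QuotientGroup.mk a)⟩

theorem base_kill (hA : ArtStmt) (hζ : IsPrimitiveRoot ζ (n + 1)) {S : Finset (Pr K)} (hK : Kill S)
    (hp : ∀ w, w ∉ S → w.valuation K ((n + 1 : ℕ) : K) = 1) {f : Pr K → Eˣ}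
    (h1 : ∀ w ∈ S, f w = 1) (hf : ∀ w, f w ^ (n + 1) = 1) (hR : Ray S f) :
    ∃ ξ : (E ≃ₐ[K] E) →* Eˣ, IsOpen (ξ.ker : Set (E ≃ₐ[K] E)) ∧ Av S f ξ := by
  obtain ⟨c, hc, hR⟩ := hR
  obtain ⟨hG0, hG⟩ := count hζ S (mul_ne_zero n.succ_ne_zero hc) (loc_pow E hA hζ hK hp hc)
  choose r hr0 hr using exists_rt (K := K) (E := E) n
  choose F hF1 hF hFp using fun u : US S => kum_av hζ hp u.2 (hr0 u) (hr u)
  have hker : ∀ {g : Pr K → Eˣ}, (∀ w ∈ S, g w = 1) → (∀ w, g w ^ (n + 1) = 1) →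
      (∀ a : Kˣ, (∀ w ∈ S, w.valuation K ((a : K) - 1) <
        w.valuation K (((n + 1) * ((n + 1) * c) : ℕ) : K)) → ev g a = 1) →
      US S ⊔ HS S (n + 1) ((n + 1) * ((n + 1) * c)) ≤ (ev g).ker := fun g1 gp gr =>
    sup_le (ev_sunit g1) fun b hb =>
      ev_kill gp (m := fun w => ex w ((n + 1) * ((n + 1) * c))) (fun a ha =>
        gr a fun w hw => mem_Pr_ex (by positivity) (ha w hw)) b (mem_HS.1 hb)
  obtain ⟨u, hu⟩ := surj_aux _ _ _ hG0 hG (fun u => ev (F u))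
    (fun u => hker (hF1 u) (hFp u) fun a ha => artin_av hA (kum_opn hζ (hr0 u) (hr u))
      n.succ_ne_zero (kum_pow hζ (hr0 u) (hr u)) (hF1 u) (hF u) a fun w hw => (ha w hw).trans_le (by
        rw [← mul_assoc, ← map_pow, ← Nat.cast_pow, sq]; exact val_mul_le w _ c))
    (fun u v h => kum_inj hζ u.2 v.2 (hr0 u) (hr0 v) (hr u) (hr v)
      ((hF u).unique (by rw [eq_of_ev hK (hF1 u) (hF1 v) h]; exact hF v)
        (kum_opn hζ (hr0 u) (hr u)) (kum_opn hζ (hr0 v) (hr v))))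
    (ev f) (hker h1 hf fun a ha => hR a fun w hw => (ha w hw).trans_le (by
      rw [← mul_assoc, mul_comm]; exact val_mul_le w _ _))
  exact ⟨_, kum_opn hζ (hr0 u) (hr u), by rw [← eq_of_ev hK (hF1 u) h1 hu]; exact hF u⟩

/-- the existence theorem in the Kummer case -/
theorem base (hA : ArtStmt) (hζ : IsPrimitiveRoot ζ (n + 1)) {T : Finset (Pr K)}
    (hp : ∀ w, w ∉ T → w.valuation K ((n + 1 : ℕ) : K) = 1) {f : Pr K → Eˣ}
    (hf : ∀ w, f w ^ (n + 1) = 1) (hR : Ray T f) :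
    ∃ ξ : (E ≃ₐ[K] E) →* Eˣ, IsOpen (ξ.ker : Set (E ≃ₐ[K] E)) ∧ Av T f ξ := by
  classical
  have key : ∀ S : Finset (Pr K), Kill S → ∃ ξ : (E ≃ₐ[K] E) →* Eˣ,
      IsOpen (ξ.ker : Set (E ≃ₐ[K] E)) ∧ Av (T ∪ S) f ξ := fun S hS => by
    obtain ⟨c, hc, hR⟩ := hR
    obtain ⟨ξ, h2, h3⟩ := base_kill (E := E) hA hζ (hS.mono Finset.subset_union_right)
      (fun w hw => hp w fun h => hw (Finset.mem_union_left _ h))
      (f := fun w => if w ∈ T ∪ S then 1 else f w) (fun w hw => if_pos hw)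
      (fun w => by split_ifs; exacts [one_pow _, hf w]) ⟨c, hc, fun a ha => by
        rw [← hR a fun w hw => ha w (Finset.mem_union_left _ hw)]
        refine ev_congr fun w hw => if_neg fun h => hw ?_
        rw [ord_eq_zero_iff]
        exact T24.Hn.Loc.val_eq_one_of_lt w ((ha w h).trans_le (val_nat_le w c))⟩
    exact ⟨ξ, h2, h3.mono le_rfl fun w hw => if_neg hw⟩
  obtain ⟨S, hS⟩ := T24.Hn.exists_kill K
  obtain ⟨ξ, h2, h3⟩ := key S hS
  refine ⟨ξ, h2, fun P hP φ hφ => ?_⟩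
  obtain ⟨S', hS', hw⟩ := kill_avoid (pr K P)
  obtain ⟨η, h4, h5⟩ := key S' hS'
  rw [(h3.mono (S := T ∪ S ∪ (T ∪ S')) Finset.subset_union_left fun _ _ => rfl).unique
    (h5.mono Finset.subset_union_right fun _ _ => rfl) h2 h4]
  exact h5 P (by simp [hP, hw]) φ hφ

end Base

end Crest.Agent.T15.Ex
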