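import Crest.Agent.T15.ExB_49

/-!
# Row 15, existence theorem (helper49): ray class characters of `p`-power order are Galois
-/

set_option autoImplicit false

noncomputable section

open NumberField IsDedekindDomain WithZero
open scoped Pointwise

namespace Crest.Agent.T15.Ex

open Crest.Agent.T15.Art Crest.Agent.R018.Placesx484

/-- an invariant character of a normal subgroup with cyclic quotient extends -/
theorem ext_cyc {G G' C E : Type*} [Group G] [Group G'] [Group C] [IsCyclic C] [Field E]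
    [CharZero E] [IsAlgClosed E] (ι : G' →* G) (hι : Function.Injective ι) (ω : G →* C)
    (hr : ι.range = ω.ker) (χ : G' →* Eˣ) (hinv : ∀ x y g, ι y = g * ι x * g⁻¹ → χ y = χ x)
    (hfin : (χ.ker.map ι).index ≠ 0) : ∃ ξ : G →* Eˣ, ∀ x, ξ (ι x) = χ x := by
  have hc : ∀ x g, ∃ y, ι y = g * ι x * g⁻¹ := fun x g => by
    have : g * ι x * g⁻¹ ∈ ι.range := hr ▸ ω.normal_ker.conj_mem _ (hr ▸ ⟨x, rfl⟩) g
    exact this
  have hM : (χ.ker.map ι).Normal := ⟨by
    rintro _ ⟨x, hx, rfl⟩ g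
    obtain ⟨y, hy⟩ := hc x g
    exact ⟨y, (hinv x y g hy).trans hx, hy⟩⟩
  set M := χ.ker.map ι with hMd
  have : Finite (G ⧸ M) := Nat.finite_of_card_ne_zero hfin
  let ω' : G ⧸ M →* C := QuotientGroup.lift M ω (hr ▸ Subgroup.map_le_range _ _)
  have hz : ω'.ker ≤ Subgroup.center _ := fun q hq => by
    obtain ⟨a, rfl⟩ := QuotientGroup.mk_surjective q
    obtain ⟨x, rfl⟩ : a ∈ ι.range := hr ▸ hq
    rw [Subgroup.mem_center_iff]
    intro b
    obtain ⟨g, rfl⟩ := QuotientGroup.mk_surjective b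
    obtain ⟨y, hy⟩ := hc x g⁻¹
    rw [← QuotientGroup.mk_mul, ← QuotientGroup.mk_mul, QuotientGroup.eq]
    refine ⟨x⁻¹ * y, ?_, by rw [map_mul, map_inv, hy]; group⟩
    rw [SetLike.mem_coe, MonoidHom.mem_ker, map_mul, map_inv, hinv x y _ hy, inv_mul_cancel]
  let _ := commGroupOfCyclicCenterQuotient ω' hz
  have : NeZero ((Monoid.exponent (G ⧸ M) : ℕ) : E) :=
    ⟨Nat.cast_ne_zero.2 Monoid.exponent_ne_zero_of_finite⟩
  let j : G' →* G ⧸ M := (QuotientGroup.mk' M).comp ι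
  obtain ⟨ξ, hξ⟩ := MonoidHom.domRestrict_surjective E j.range
    (j.rangeRestrict.liftOfSurjective j.rangeRestrict_surjective ⟨χ, fun x hx => by
      rw [MonoidHom.ker_rangeRestrict] at hx
      obtain ⟨y, hy, h⟩ := (QuotientGroup.eq_one_iff _).1 hx
      exact hι h ▸ hy⟩)
  exact ⟨ξ.comp (QuotientGroup.mk' M), fun x => (DFunLike.congr_fun hξ (j.rangeRestrict x)).trans
    (MonoidHom.liftOfRightInverse_comp_apply _ _ _ _ x)⟩

section Tower

variable {K E : Type*} [Field K] [Field E] [Algebra K E] (L : IntermediateField K E)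

/-- restriction of scalars -/
def rs : (E ≃ₐ[L] E) →* (E ≃ₐ[K] E) := MonoidHom.mk' (fun g => g.restrictScalars K) fun _ _ => rfl

theorem rs_inj : Function.Injective (rs L) := fun _ _ h => AlgEquiv.ext fun x => DFunLike.congr_fun h x

theorem rs_range : (rs L).range = L.fixingSubgroup := by
  ext g
  exact ⟨by rintro ⟨g, rfl⟩ x; exact g.commutes x, fun h => ⟨L.fixingSubgroupEquiv ⟨g, h⟩, rfl⟩⟩

theorem rs_comap_open [Algebra.IsIntegral K E] {U : Subgroup (E ≃ₐ[K] E)}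
    (hU : IsOpen (U : Set (E ≃ₐ[K] E))) : IsOpen (U.comap (rs L) : Set (E ≃ₐ[L] E)) := by
  obtain ⟨M, hM, h⟩ := (krullTopology_mem_nhds_one_iff K E _).1 (hU.mem_nhds U.one_mem)
  let b := Module.finBasis K M
  have : Algebra.IsIntegral L E := Algebra.IsIntegral.tower_top K
  refine Subgroup.isOpen_mono (H₁ := ⨅ i, MulAction.stabilizer (E ≃ₐ[L] E) (b i : E))
    (fun g hg => h fun x => ?_) ?_
  · have : (rs L g).toLinearMap.comp M.val.toLinearMap = M.val.toLinearMap :=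
      b.ext fun i => Subgroup.mem_iInf.1 hg i
    exact LinearMap.congr_fun this x
  · rw [Subgroup.coe_iInf]
    exact isOpen_iInter_of_finite fun i => stabilizer_isOpen_of_isIntegral _

theorem rs_map_open [FiniteDimensional K L] {V : Subgroup (E ≃ₐ[L] E)}
    (hV : IsOpen (V : Set (E ≃ₐ[L] E))) : IsOpen (V.map (rs L) : Set (E ≃ₐ[K] E)) := by
  obtain ⟨M, hM, h⟩ := (krullTopology_mem_nhds_one_iff L E _).1 (hV.mem_nhds V.one_mem)
  have : FiniteDimensional K (M.restrictScalars K) := Module.Finite.trans (R := K) L M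
  refine Subgroup.isOpen_mono (H₁ := (M.restrictScalars K).fixingSubgroup) (fun g hg => ?_)
    (IntermediateField.fixingSubgroup_isOpen _)
  obtain ⟨y, rfl⟩ : g ∈ (rs L).range := by
    rw [rs_range]
    exact fun x => hg ⟨x, M.algebraMap_mem x⟩
  exact ⟨y, h fun x => hg x, rfl⟩

theorem pr_under (P : Place E) : (pr L P).under (𝓞 K) = pr K P :=
  HeightOneSpectrum.ext (congrArg Place.ideal (Place.res_res K L P))

theorem pow_act {G : Type*} [Group G] [MulSemiringAction G E] {P : Place E} {φ : G} {q : ℕ}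
    (h : ∀ x : 𝓞 E, φ • x - x ^ q ∈ P.ideal) (j : ℕ) (x : 𝓞 E) :
    (φ ^ j) • x - x ^ q ^ j ∈ P.ideal := by
  induction j with
  | zero => simp
  | succ j ih =>
    have h1 := P.ideal.mem_of_dvd (sub_dvd_pow_sub_pow _ _ q) ih
    have h2 := P.ideal.add_mem (h ((φ ^ j) • x)) h1
    rwa [sub_add_sub_cancel, ← mul_smul, ← pow_succ', ← pow_mul, ← pow_succ] at h2

variable [NumberField K] [NumberField L]

theorem exists_over (T : Finset (Pr K)) :
    ∃ T' : Finset (Pr L), ∀ W, W ∈ T' ↔ W.under (𝓞 K) ∈ T := by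
  have : {W : Pr L | W.under (𝓞 K) ∈ T}.Finite := by
    refine (T.finite_toSet.biUnion fun w _ => Ideal.finite_factors
      (Ideal.map_ne_bot_of_ne_bot (S := 𝓞 L) w.ne_bot)).subset fun W hW => ?_
    exact Set.mem_biUnion hW (Ideal.dvd_iff_le.2 Ideal.map_comap_le)
  exact ⟨this.toFinset, fun W => this.mem_toFinset⟩

variable [IsGalois K L]

theorem deg_eq (W : Pr L) :
    W.asIdeal.inertiaDeg (𝓞 K) = (W.under (𝓞 K)).asIdeal.inertiaDegIn (𝓞 L) := by
  have : W.asIdeal.LiesOver (W.under (𝓞 K)).asIdeal := ⟨rfl⟩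
  have := W.isPrime
  exact (Ideal.inertiaDegIn_eq_inertiaDeg _ _ (L ≃ₐ[K] L)).symm

theorem deg_dvd (w : Pr K) : w.asIdeal.inertiaDegIn (𝓞 L) ∣ Nat.card (L ≃ₐ[K] L) := by
  have := w.isPrime
  rw [← Ideal.ncard_primesOver_mul_ramificationIdxIn_mul_inertiaDegIn w.asIdeal (𝓞 L) (L ≃ₐ[K] L)]
  exact (dvd_mul_left _ _).mul_left _

theorem nf_pr {A : Type*} [CommGroup A] (f : Pr K → A) (P : Place E) :
    nf L f (pr L P) = f (pr K P) ^ (pr K P).asIdeal.inertiaDegIn (𝓞 L) := by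
  rw [nf, deg_eq, pr_under]

theorem qv_pow (P : Place E) : P.qv L = P.qv K ^ (pr K P).asIdeal.inertiaDegIn (𝓞 L) := by
  have := (pr L P).isMaximal
  have := ((pr L P).under (𝓞 K)).isMaximal
  have : (pr L P).asIdeal.LiesOver ((pr L P).under (𝓞 K)).asIdeal := ⟨rfl⟩
  rw [qv_eq, qv_eq, ← Ideal.absNorm_relNorm (𝓞 K), Ideal.relNorm_eq_pow_of_isMaximal _
    ((pr L P).under (𝓞 K)).asIdeal, map_pow, deg_eq, pr_under]

theorem Ray.norm {A : Type*} [CommGroup A] {T : Finset (Pr K)} {T' : Finset (Pr L)}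
    (hT : ∀ W, W ∈ T' ↔ W.under (𝓞 K) ∈ T) {f : Pr K → A} (h : Ray T f) : Ray T' (nf L f) := by
  obtain ⟨c, hc, h⟩ := h
  refine ⟨c, hc, fun a ha => ?_⟩
  rw [ev_norm]
  exact h _ fun w hw => norm_deep w (Nat.cast_ne_zero.2 hc) (val_nat_le w c) _ fun W hW => by
    rw [map_natCast]; exact ha W ((hT W).2 (hW ▸ hw))

end Tower

section Main

variable {K E : Type} [Field K] [NumberField K] [Field E] [CharZero E]
  [IsAlgClosed E] [Algebra K E] [IsGalois K E]

theorem ext_step {C : Type*} [Group C] [IsCyclic C] (ω : (E ≃ₐ[K] E) →* C)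
    (L : IntermediateField K E) [NumberField L] [IsGalois K L] (hL : L.fixingSubgroup = ω.ker)
    {T : Finset (Pr K)} (hω : ∀ P : Place E, pr K P ∉ T → P.ideal.inertia (E ≃ₐ[K] E) ≤ ω.ker)
    {T' : Finset (Pr L)} (hT : ∀ W, W ∈ T' ↔ W.under (𝓞 K) ∈ T) {f : Pr K → Eˣ}
    {χ : (E ≃ₐ[L] E) →* Eˣ} (ho : IsOpen (χ.ker : Set (E ≃ₐ[L] E))) (hχ : Av T' (nf L f) χ) :
    ∃ (ξ : (E ≃ₐ[K] E) →* Eˣ) (g : Pr K → Eˣ), IsOpen (ξ.ker : Set (E ≃ₐ[K] E)) ∧
      (∀ w ∈ T, g w = 1) ∧ Av T g ξ ∧ ∀ w, w ∉ T → g w ^ ω.ker.index = f w ^ ω.ker.index := by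
  have hr : (rs L).range = ω.ker := (rs_range L).trans hL
  have hT2 : ∀ P : Place E, pr L P ∉ T' ↔ pr K P ∉ T := fun P => by rw [hT, pr_under]
  have ho1 := rs_map_open L ho
  obtain ⟨N, hN⟩ := ProfiniteGrp.exist_openNormalSubgroup_sub_open_nhds_of_one ho1
    (χ.ker.map (rs L)).one_mem
  have hNk : ∀ x, rs L x ∈ N.toSubgroup → χ x = 1 := fun x hx => by
    obtain ⟨y, hy, h⟩ := hN hx
    exact rs_inj L h ▸ hy
  have hinv : ∀ x y g, rs L y = g * rs L x * g⁻¹ → χ y = χ x := fun x y g h => by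
    obtain ⟨P, φ, h1, h2, h3⟩ := cheb_K (N.toSubgroup.comap (rs L)) (rs_comap_open L N.isOpen) T' x
    obtain ⟨ψ, hψ⟩ : g * rs L φ * g⁻¹ ∈ (rs L).range :=
      hr ▸ ω.normal_ker.conj_mem _ (hr ▸ ⟨φ, rfl⟩) g
    have h4 := hNk _ h3
    have h5 := hNk (y⁻¹ * ψ) (by
      have := N.isNormal'.conj_mem _ h3 g
      rw [map_mul, map_inv] at this ⊢
      rw [h, hψ]
      convert this using 1
      group)
    rw [map_mul, map_inv, inv_mul_eq_one] at h4 h5
    have h6 : IsF (g • P) ψ := fun z => by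
      change rs L ψ • z - _ ∈ _
      rw [hψ, qv_pow, qv_eq, pr_smul, ← qv_eq, ← qv_pow, Place.mem_smul_ideal, smul_sub, smul_pow',
        mul_smul, mul_smul, inv_smul_smul]
      exact h2 _
    rw [h4, h5, hχ P h1 φ h2, hχ _ (by rw [hT2, pr_smul, ← hT2]; exact h1) ψ h6, nf_pr, nf_pr,
      pr_smul]
  have := Subgroup.quotient_finite_of_isOpen _ ho1
  obtain ⟨ξ, hξ⟩ := ext_cyc (rs L) (rs_inj L) ω hr χ hinv Subgroup.index_ne_zero_of_finite
  obtain ⟨g, hg1, hg⟩ := exists_av T ξ fun P hP u hu => by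
    obtain ⟨y, rfl⟩ : u ∈ (rs L).range := hr ▸ hω P hP hu
    rw [MonoidHom.mem_ker, hξ]
    exact hχ.inertia_le ((hT2 P).2 hP) hu
  refine ⟨ξ, g, Subgroup.isOpen_mono (fun a ha => ?_) ho1, hg1, hg, fun w hw => ?_⟩
  · obtain ⟨y, hy, rfl⟩ := ha
    exact (hξ y).trans hy
  obtain ⟨P, rfl⟩ := exists_pr (E := E) w
  obtain ⟨φ, hφ⟩ := exists_isF (K := K) P
  obtain ⟨ψ, hψ⟩ := exists_isF (K := L) P
  obtain ⟨y, hy⟩ : φ ^ ω.ker.index ∈ (rs L).range := hr ▸ ω.ker.pow_index_mem φ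
  obtain ⟨k, hk⟩ : (pr K P).asIdeal.inertiaDegIn (𝓞 L) ∣ ω.ker.index := by
    rw [← hL, ← IntermediateField.restrictNormalHom_ker, Subgroup.index_ker,
      MonoidHom.range_eq_top.2 (AlgEquiv.restrictNormalHom_surjective E), Subgroup.card_top]
    exact deg_dvd L _
  have h1 : y * (ψ ^ k)⁻¹ ∈ P.ideal.inertia (E ≃ₐ[L] E) := fun x => by
    have h2 := pow_act hφ ω.ker.index ((ψ ^ k)⁻¹ • x)
    have h3 := pow_act hψ k ((ψ ^ k)⁻¹ • x)
    rw [qv_pow, ← pow_mul, ← hk, smul_inv_smul] at h3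
    rw [← hy] at h2
    have := P.ideal.sub_mem h2 h3
    rw [sub_sub_sub_cancel_right] at this
    rw [mul_smul]
    exact this
  have h4 := hχ.inertia_le ((hT2 P).2 hw) h1
  rw [MonoidHom.mem_ker, map_mul, map_inv, mul_inv_eq_one, map_pow, hχ P ((hT2 P).2 hw) ψ hψ, nf_pr,
    ← pow_mul, ← hk] at h4
  rw [← hg P hw φ hφ, ← map_pow, ← hy, hξ, h4]

omit [NumberField K] [CharZero E] [IsAlgClosed E] [IsGalois K E] in
theorem mem_ker_cyc {n : ℕ} [NeZero n] {μ : E} (hμ : IsPrimitiveRoot μ n) (g : E ≃ₐ[K] E) :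
    g ∈ (hμ.autToPow K).ker ↔ g μ = μ := by
  have h1 := hμ.autToPow_spec K (1 : E ≃ₐ[K] E)
  rw [map_one, AlgEquiv.one_apply] at h1
  rw [MonoidHom.mem_ker, ← hμ.autToPow_spec K g]
  refine ⟨fun h => h ▸ h1, fun h => Units.ext (ZMod.val_injective n ?_)⟩
  exact hμ.pow_inj (ZMod.val_lt _) (ZMod.val_lt _) (h.trans h1.symm)

variable [IsTotallyComplex K] [Algebra.IsAlgebraic ℚ E]

theorem ex_units (hA : ArtStmt) {p : ℕ} (hp : p.Prime) (hp2 : p ≠ 2) {T : Finset (Pr K)}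
    (hT : ∀ w, w ∉ T → w.valuation K (p : K) = 1) (m : ℕ) : ∀ f : Pr K → Eˣ, (∀ w ∈ T, f w = 1) →
    (∀ w, f w ^ p ^ m = 1) → Ray T f →
    ∃ ξ : (E ≃ₐ[K] E) →* Eˣ, IsOpen (ξ.ker : Set (E ≃ₐ[K] E)) ∧ Av T f ξ := by
  induction m with
  | zero => exact fun f _ hf _ => ⟨1, by simp, fun P _ φ _ => by simpa using (hf _).symm⟩
  | succ m ih =>
    intro f h1 hf hR
    obtain ⟨n, hn⟩ := Nat.exists_eq_add_one_of_ne_zero (pow_ne_zero (m + 1) hp.ne_zero)
    have : NeZero (p ^ (m + 1)) := ⟨pow_ne_zero _ hp.ne_zero⟩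
    have : NeZero ((p ^ (m + 1) : ℕ) : E) := ⟨Nat.cast_ne_zero.2 (NeZero.ne _)⟩
    obtain ⟨μ, hμ⟩ := HasEnoughRootsOfUnity.exists_primitiveRoot E (p ^ (m + 1))
    have := ZMod.isCyclic_units_of_prime_pow p hp hp2 (m + 1)
    have ho : IsOpen ((hμ.autToPow K).ker : Set (E ≃ₐ[K] E)) :=
      Subgroup.isOpen_mono (H₁ := MulAction.stabilizer (E ≃ₐ[K] E) μ)
        (fun g hg => (mem_ker_cyc hμ g).2 hg) (stabilizer_isOpen_of_isIntegral μ)
    obtain ⟨hfix, hfin, hgal⟩ := facts _ ho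
    have hmem : μ ∈ IntermediateField.fixedField (hμ.autToPow K).ker :=
      fun g => (mem_ker_cyc hμ g.1).1 g.2
    generalize IntermediateField.fixedField (hμ.autToPow K).ker = L at hfix hfin hgal hmem
    have : NumberField L := NumberField.of_module_finite K L
    have : IsTotallyComplex L := isTotallyComplex_of_algebra K L
    have hζ : IsPrimitiveRoot (⟨μ, hmem⟩ : L) (n + 1) :=
      IsPrimitiveRoot.coe_submonoidClass_iff.1 (hn ▸ hμ)
    obtain ⟨T', hT'⟩ := exists_over L T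
    obtain ⟨χ, hχo, hχ⟩ := base (E := E) hA hζ (T := T') (f := nf L f) (fun W hW => by
        have : W.asIdeal.LiesOver (W.under (𝓞 K)).asIdeal := ⟨rfl⟩
        rw [← hn, Nat.cast_pow, map_pow, ← map_natCast (algebraMap K L),
          ← HeightOneSpectrum.valuation_liesOver L (W.under (𝓞 K)) W, hT _ (mt (hT' W).2 hW),
          one_pow, one_pow])
      (fun W => by rw [nf, ← pow_mul, mul_comm, pow_mul, ← hn, hf, one_pow]) (hR.norm L hT')
    obtain ⟨ξ, g, hξo, hg1, hg, hd⟩ := ext_step (hμ.autToPow K) L hfix (T := T) (fun P hP u hu =>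
      (mem_ker_cyc hμ u).2 (Place.inertia_root P hu (n := p ^ (m + 1)) (fun h => by
        have h2 := v_eq_one P (hT _ hP)
        rw [map_natCast, Place.v_natCast_eq_one_iff] at h2
        exact h2 (P.rchar_prime.dvd_of_dvd_pow h)) hμ.pow_eq_one)) hT' hχo hχ
    obtain ⟨x, rfl⟩ := Nat.exists_eq_add_one_of_ne_zero hp.ne_zero
    obtain ⟨k, hk⟩ : (hμ.autToPow K).ker.index ∣ x * (x + 1) ^ m := by
      rw [Subgroup.index_ker]
      refine (Subgroup.card_subgroup_dvd_card _).trans ?_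
      rw [Nat.card_eq_fintype_card, ZMod.card_units_eq_totient, Nat.totient_prime_pow_succ hp,
        Nat.add_sub_cancel, mul_comm]
    obtain ⟨η, hηo, hη⟩ := ih (fun w => (f w * (g w)⁻¹) ^ x) (fun w hw => by simp [h1 w hw, hg1 w hw])
      (fun w => by
        by_cases hw : w ∈ T
        · simp [h1 w hw, hg1 w hw]
        · rw [← pow_mul, hk, pow_mul, mul_pow, inv_pow, hd w hw, mul_inv_cancel, one_pow])
      ((hR.mul ((hg.ray hA hξo hg1).map invMonoidHom)).map (powMonoidHom x))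
    refine ⟨invMonoidHom.comp ((η * ξ ^ x) ^ ∑ i ∈ Finset.range (m + 1), (x + 1) ^ i),
      Subgroup.isOpen_mono (H₁ := η.ker ⊓ ξ.ker) (fun a ha => ?_) (hηo.inter hξo),
      (((hη.mul (hg.pow x)).pow _).comp invMonoidHom).mono le_rfl fun w _ => ?_⟩
    · have h2 : η a = 1 := ha.1
      have h3 : ξ a = 1 := ha.2
      simp [h2, h3]
    · have := hf w
      rw [← geom_sum_mul_add, pow_succ, mul_eq_one_iff_inv_eq] at this
      rw [invMonoidHom_apply, ← mul_pow, inv_mul_cancel_right, ← pow_mul, mul_comm, this]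

/-- **Existence theorem** for ray class characters of `p`-power order -/
theorem existence (hA : ArtStmt) {p : ℕ} (hp : p.Prime) (hp2 : p ≠ 2) {T : Finset (Pr K)}
    (hT : ∀ w, w ∉ T → w.valuation K (p : K) = 1) {m : ℕ} {A : Type*} [CommGroup A] [Finite A]
    {f : Pr K → A} (h1 : ∀ w ∈ T, f w = 1) (hf : ∀ w, f w ^ p ^ m = 1) (hR : Ray T f) :
    ∃ ξ : (E ≃ₐ[K] E) →* A, IsOpen (ξ.ker : Set (E ≃ₐ[K] E)) ∧ Av T f ξ := by
  have : NeZero ((Monoid.exponent A : ℕ) : E) :=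
    ⟨Nat.cast_ne_zero.2 Monoid.exponent_ne_zero_of_finite⟩
  have : Finite (A →* Eˣ) := Nat.finite_of_card_ne_zero (by
    rw [CommGroup.card_monoidHom_of_hasEnoughRootsOfUnity]; exact Nat.card_pos.ne')
  choose ξ ho hξ using fun l : A →* Eˣ => ex_units (E := E) hA hp hp2 hT m (fun w => l (f w))
    (fun w hw => by rw [h1 w hw, map_one]) (fun w => by rw [← map_pow, hf, map_one]) (hR.map l)
  let Ξ : (E ≃ₐ[K] E) →* ((A →* Eˣ) → Eˣ) := MonoidHom.pi ξ
  let ι : A →* ((A →* Eˣ) → Eˣ) := MonoidHom.pi fun l => l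
  have hι : Function.Injective ι := (injective_iff_map_eq_one ι).2 fun a ha => by
    by_contra h
    obtain ⟨l, hl⟩ := CommGroup.exists_apply_ne_one_of_hasEnoughRootsOfUnity A E h
    exact hl (congrFun ha l)
  have hΞo : IsOpen (Ξ.ker : Set (E ≃ₐ[K] E)) :=
    Subgroup.isOpen_mono (H₁ := ⨅ l, (ξ l).ker) (fun g hg => funext (Subgroup.mem_iInf.1 hg))
      (by rw [Subgroup.coe_iInf]; exact isOpen_iInter_of_finite ho)
  have hΞ : Av T (fun w => ι (f w)) Ξ := fun P hP φ hφ => funext fun l => hξ l P hP φ hφ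
  choose a ha using fun g => show ∃ a, ι a = Ξ g by
    obtain ⟨P, φ, h2, h3, h4⟩ := cheb_av Ξ hΞo T g
    exact ⟨_, (hΞ P h2 φ h3).symm.trans h4⟩
  refine ⟨MonoidHom.mk' a fun g h => hι (by rw [map_mul, ha, ha, ha, map_mul]),
    Subgroup.isOpen_mono (fun g hg => hι ?_) hΞo, fun P hP φ hφ => hι ?_⟩
  · exact (ha g).trans (hg.trans (map_one ι).symm)
  · exact (ha φ).trans (hΞ P hP φ hφ)

end Main

end Crest.Agent.T15.Ex
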