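import Crest.Agent.T15.TopH_88

/-!
# Row 15: the leaves `EmbStmt` and `ExtStmt` (helper41)
-/

set_option autoImplicit false
set_option linter.unusedSectionVars false

noncomputable section

namespace Crest.Agent.T15.Ext

open IsLocalRing Cardinal QuadraticAlgebra

/-- a domain of characteristic `0` and cardinality at most the continuum embeds in `ℂ` -/
theorem exists_emb (O : Type) [CommRing O] [IsDomain O] [CharZero O] (h : #O ≤ 𝔠) :
    ∃ j : O →+* ℂ, Function.Injective j := by
  let A := MvPolynomial ℝ O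
  let K := FractionRing A
  let L := AlgebraicClosure K
  have hA : #A = 𝔠 := by
    refine le_antisymm ?_ ?_
    · refine MvPolynomial.cardinalMk_le_max.trans ?_
      rw [mk_real]
      exact max_le (max_le h le_rfl) aleph0_le_continuum
    · rw [← mk_real]
      exact mk_le_of_injective (MvPolynomial.X_injective (R := O) (σ := ℝ))
  have hK : #K = 𝔠 := by rw [← hA]; exact FractionRing.cardinalMk A
  have hL : #L = 𝔠 := by
    refine le_antisymm ?_ ?_
    · refine (Algebra.IsAlgebraic.cardinalMk_le_max K L).trans ?_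
      rw [hK]
      exact max_le le_rfl aleph0_le_continuum
    · rw [← hK]
      exact mk_le_of_injective (algebraMap K L).injective
  have : CharZero K := IsFractionRing.charZero_of_isFractionRing A
  have : CharZero L := charZero_of_injective_ringHom (algebraMap K L).injective
  obtain ⟨ψ⟩ := IsAlgClosed.ringEquiv_of_equiv_of_charZero (K := L) (L := ℂ)
    (by rw [hL]; exact aleph0_lt_continuum) (Cardinal.eq.1 (by rw [hL, mk_complex]))
  refine ⟨ψ.toRingHom.comp ((algebraMap K L).comp ((algebraMap A K).comp MvPolynomial.C)), ?_⟩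
  exact ψ.injective.comp ((algebraMap K L).injective.comp
    ((IsFractionRing.injective A K).comp (MvPolynomial.C_injective ℝ O)))

/-- a Noetherian local ring with finite residue field has cardinality at most the continuum -/
theorem mk_le (O : Type) [CommRing O] [IsLocalRing O] [IsNoetherianRing O]
    [Finite (ResidueField O)] : #O ≤ 𝔠 := by
  have : Finite (O ⧸ maximalIdeal O) := ‹Finite (ResidueField O)›
  have hf : ∀ n : ℕ, Finite (O ⧸ maximalIdeal O ^ n) := fun n =>
    Ideal.finite_quotient_pow (IsNoetherian.noetherian _) n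
  have he : ∀ n : ℕ, ∃ e : O ⧸ maximalIdeal O ^ n → ℕ, Function.Injective e := fun n =>
    Countable.exists_injective_nat _
  choose e he using he
  have hi : Function.Injective fun (x : O) (n : ℕ) => e n (Ideal.Quotient.mk _ x) := by
    intro x y hxy
    have : x - y ∈ ⨅ n : ℕ, maximalIdeal O ^ n := by
      rw [Ideal.mem_iInf]
      exact fun n => Ideal.Quotient.eq.1 (he n (congrFun hxy n))
    rw [Ideal.iInf_pow_eq_bot_of_isLocalRing _ (maximalIdeal.isMaximal O).ne_top] at this
    exact sub_eq_zero.1 this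
  refine (mk_le_of_injective hi).trans ?_
  rw [← power_def, mk_nat, aleph0_power_aleph0]

/-- `O[i]` -/
abbrev Gi (O : Type) [CommRing O] : Type := QuadraticAlgebra O (-1) 0

section
variable {O : Type} [CommRing O] [IsDomain O] [IsDiscreteValuationRing O]

theorem norm_gi (z : Gi O) : z.norm = z.re ^ 2 + z.im ^ 2 := by
  rw [norm_def]; ring

/-- `-1` is not a square in the residue field -/
def NS (O : Type) [CommRing O] [IsLocalRing O] : Prop := ∀ x : ResidueField O, x ^ 2 ≠ -1

theorem ns_of_card (h : Nat.card (ResidueField O) = 3) : NS O := by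
  have : Finite (ResidueField O) := Nat.finite_of_card_ne_zero (by omega)
  have := Fintype.ofFinite (ResidueField O)
  intro x hx
  have h2 := (FiniteField.isSquare_neg_one_iff (F := ResidueField O)).1 ⟨x, by rw [← hx]; ring⟩
  rw [← Nat.card_eq_fintype_card, h] at h2
  exact h2 rfl

theorem NS.unit (h : NS O) {x y : O} (hu : IsUnit x ∨ IsUnit y) : IsUnit (x ^ 2 + y ^ 2) := by
  wlog hx : IsUnit x generalizing x y
  · rw [add_comm]; exact this hu.symm (hu.resolve_left hx)
  rw [← residue_ne_zero_iff_isUnit] at hx ⊢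
  intro e
  refine h (residue O y / residue O x) ?_
  simp only [map_add, map_pow] at e
  field_simp
  linear_combination e

theorem NS.isUnit (h : NS O) {z : Gi O} (hu : IsUnit z.re ∨ IsUnit z.im) : IsUnit z := by
  rw [isUnit_iff_norm_isUnit, norm_gi]; exact h.unit hu

theorem NS.fac (h : NS O) {p : O} (hp : Irreducible p) {z : Gi O} (hz : z ≠ 0) :
    ∃ (n : ℕ) (u : Gi O), IsUnit u ∧ z = algebraMap O (Gi O) p ^ n * u := by
  have key : ∀ x y : O, x ≠ 0 → x ∣ y → ∃ (n : ℕ) (a b : O), IsUnit a ∧ x = p ^ n * a ∧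
      y = p ^ n * b := by
    rintro x _ hx ⟨c, rfl⟩
    obtain ⟨n, u, rfl⟩ := IsDiscreteValuationRing.eq_unit_mul_pow_irreducible hx hp
    exact ⟨n, u, u * c, u.isUnit, by ring, by ring⟩
  have h0 : ¬ (z.re = 0 ∧ z.im = 0) := fun e => hz (by ext <;> simp [e.1, e.2])
  rcases ValuationRing.dvd_total z.re z.im with d | d
  · obtain ⟨n, a, b, ha, e1, e2⟩ := key _ _ (fun e => h0 ⟨e, by simpa [e] using d⟩) d
    refine ⟨n, ⟨a, b⟩, h.isUnit (Or.inl ha), ?_⟩
    rw [← map_pow]
    ext <;> simp [-map_pow, e1, e2]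
  · obtain ⟨n, a, b, ha, e1, e2⟩ := key _ _ (fun e => h0 ⟨by simpa [e] using d, e⟩) d
    refine ⟨n, ⟨b, a⟩, h.isUnit (Or.inr ha), ?_⟩
    rw [← map_pow]
    ext <;> simp [-map_pow, e1, e2]

theorem NS.dom (h : NS O) : IsDomain (Gi O) := by
  obtain ⟨p, hp⟩ := IsDiscreteValuationRing.exists_irreducible O
  have : NoZeroDivisors (Gi O) := ⟨fun {a b} e => by
    by_contra hc
    push Not at hc
    obtain ⟨n, u, hu, rfl⟩ := h.fac hp hc.1
    obtain ⟨m, v, hv, rfl⟩ := h.fac hp hc.2
    have e' : algebraMap O (Gi O) (p ^ (n + m)) * (u * v) = 0 := by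
      rw [← e, map_pow]; ring
    rw [(hu.mul hv).mul_left_eq_zero, ← map_zero (algebraMap O (Gi O)), algebraMap_inj] at e'
    exact pow_ne_zero _ hp.ne_zero e'⟩
  exact NoZeroDivisors.to_isDomain _

theorem not_unit {p : O} (hp : ¬ IsUnit p) : ¬ IsUnit (algebraMap O (Gi O) p) := by
  rw [isUnit_iff_norm_isUnit, QuadraticAlgebra.norm_algebraMap, isUnit_pow_iff two_ne_zero]; exact hp

theorem NS.irr (h : NS O) {p : O} (hp : Irreducible p) : Irreducible (algebraMap O (Gi O) p) := by
  have := h.dom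
  have h0 : algebraMap O (Gi O) p ≠ 0 := fun e => hp.ne_zero (by
    rwa [← map_zero (algebraMap O (Gi O)), algebraMap_inj] at e)
  refine ⟨not_unit hp.not_isUnit, fun a b e => ?_⟩
  obtain ⟨n, u, hu, rfl⟩ := h.fac hp (z := a) (fun e' => h0 (by rw [e, e', zero_mul]))
  obtain ⟨m, v, hv, rfl⟩ := h.fac hp (z := b) (fun e' => h0 (by rw [e, e', mul_zero]))
  rcases n with _ | n
  · left; simpa using hu
  rcases m with _ | m
  · right; simpa using hv
  exfalso
  refine not_unit hp.not_isUnit (IsUnit.of_mul_eq_one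
    (algebraMap O (Gi O) p ^ (n + m) * (u * v)) (mul_left_cancel₀ h0 ?_))
  linear_combination -e

theorem NS.dvr (h : NS O) : @IsDiscreteValuationRing (Gi O) _ h.dom := by
  have := h.dom
  obtain ⟨p, hp⟩ := IsDiscreteValuationRing.exists_irreducible O
  refine IsDiscreteValuationRing.ofHasUnitMulPowIrreducibleFactorization ⟨_, h.irr hp, fun hx => ?_⟩
  obtain ⟨n, u, hu, rfl⟩ := h.fac hp hx
  exact ⟨n, associated_mul_unit_right _ _ hu⟩

theorem mem_pow_iff {R : Type} [CommRing R] [IsDomain R] [IsDiscreteValuationRing R] {p : R}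
    (hp : Irreducible p) (n : ℕ) (x y : R) :
    x ≡ y [SMOD (maximalIdeal R ^ n • ⊤ : Submodule R R)] ↔ p ^ n ∣ x - y := by
  rw [SModEq.sub_mem, smul_eq_mul, Ideal.mul_top, hp.maximalIdeal_eq, Ideal.span_singleton_pow,
    Ideal.mem_span_singleton]

theorem NS.cpl (h : NS O) [IsDomain (Gi O)] [IsDiscreteValuationRing (Gi O)]
    [hc : IsAdicComplete (maximalIdeal O) O] : IsAdicComplete (maximalIdeal (Gi O)) (Gi O) := by
  obtain ⟨p, hp⟩ := IsDiscreteValuationRing.exists_irreducible O
  have hq := h.irr hp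
  have : IsPrecomplete (maximalIdeal (Gi O)) (Gi O) := ⟨fun f hf => by
    simp only [mem_pow_iff hq, ← map_pow, algebraMap_dvd_iff, re_sub, im_sub] at hf ⊢
    obtain ⟨x, hx⟩ := hc.toIsPrecomplete.prec (f := fun n => (f n).re)
      fun hmn => (mem_pow_iff hp _ _ _).2 (hf hmn).1
    obtain ⟨y, hy⟩ := hc.toIsPrecomplete.prec (f := fun n => (f n).im)
      fun hmn => (mem_pow_iff hp _ _ _).2 (hf hmn).2
    exact ⟨⟨x, y⟩, fun n => ⟨(mem_pow_iff hp _ _ _).1 (hx n), (mem_pow_iff hp _ _ _).1 (hy n)⟩⟩⟩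
  exact ⟨⟩

instance : IsLocalHom (algebraMap O (Gi O)) := ⟨fun a ha => by
  by_contra hc
  exact not_unit hc ha⟩

theorem exists_lift (j : O →+* ℂ) : ∃ j' : Gi O →+* ℂ, ∀ x, j' (algebraMap O (Gi O) x) = j x := by
  let := j.toAlgebra
  exact ⟨(QuadraticAlgebra.lift (R := O) (a := -1) (b := 0) (A := ℂ) ⟨Complex.I, by simp⟩).toRingHom,
    fun x => AlgHom.commutes _ x⟩

end

end Crest.Agent.T15.Ext

namespace Crest.Agent.T15.Top

open IsLocalRing Ext

theorem Coef.exists_emb (O : Type) [CommRing O] [IsDomain O] [IsDiscreteValuationRing O]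
    [h : Coef O] : ∃ j : O →+* ℂ, Function.Injective j :=
  have := h.cz
  have := h.fin
  Ext.exists_emb O (Ext.mk_le O)

theorem embStmt : EmbStmt := fun O _ _ _ _ => ⟨(Coef.exists_emb O).choose⟩

theorem extStmt : ExtStmt := by
  intro O _ _ _ hO h3
  have h := ns_of_card h3
  have := h.dom
  have := h.dvr
  have := hO.cz
  have := hO.cpl
  have := hO.fin
  have hC : Coef (Gi O) :=
    { cz := inferInstance
      cpl := h.cpl
      fin := ResidueField.finite_of_finite (R := O) hO.fin
      h3 := by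
        have := map_nonunit (algebraMap O (Gi O)) 3 hO.h3
        rwa [map_ofNat] at this }
  refine ⟨Gi O, inferInstance, inferInstance, inferInstance, hC, inferInstance, inferInstance,
    QuadraticAlgebra.omega, ?_, ⟨QuadraticAlgebra.basis _ _⟩, exists_lift⟩
  rw [sq, QuadraticAlgebra.omega_mul_omega_eq_mk]
  ext <;> simp [QuadraticAlgebra.re_one, QuadraticAlgebra.im_one]

end Crest.Agent.T15.Top
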