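import Crest.Agent.T15.FlR_23

/-!
# Row 15, block F (helper80): the certificate at `3`, valuations and fixed elements
-/

set_option autoImplicit false

namespace Crest.Agent.T15.F3

open scoped NNReal

variable {C : Type*} [Field C] {v : Valuation C ℝ≥0}

theorem v_two_80 (h3 : v 3 < 1) : v 2 = 1 := by
  have : (2 : C) = 3 - 1 := by norm_num
  rw [this, v.map_sub_eq_of_lt_right (by simpa using h3), map_one]

theorem v_of_sq_80 {x u : C} (h : x ^ 2 = u) (hu : v u = 1) : v x = 1 := by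
  rw [← pow_eq_one_iff_of_nonneg zero_le two_ne_zero, ← map_pow, h, hu]

/-- one of `x + y`, `x - y` is a unit -/
theorem v_add_80 (h2 : v 2 = 1) {x y r : C} (h : x ^ 2 - y ^ 2 = r) (hx : v x = 1) (hy : v y ≤ 1) :
    v (x + y) = 1 ∨ v (x + y) = v r := by
  rcases (v.map_sub_le hx.le hy).eq_or_lt with h1 | h1
  · right
    have : r = (x + y) * (x - y) := by rw [← h]; ring
    rw [this, map_mul, h1, mul_one]
  · left
    have : x + y = 2 * x - (x - y) := by ring
    have h2x : v (2 * x) = 1 := by rw [map_mul, h2, hx, mul_one]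
    rw [this, v.map_sub_eq_of_lt_left (h2x ▸ h1), h2x]

/-- the valuations of the constants of the normal form at `3` -/
theorem vals3_80 (h3 : v 3 < 1) (h30 : v 3 ≠ 0) {p1 p2 p3 d1 d2 d3 t al be : C}
    (v1 : v p1 = v 3 ^ 4) (v2 : v p2 = 1) (v3 : v p3 = 1) (w1 : v d1 = 1) (w2 : v d2 = 1)
    (w3 : v d3 = 1) (vt : v t = v 3 ^ 2) (hal : al ^ 2 = -p2 ^ 3 * d2) (hbe : be ^ 2 = p3 ^ 3 * d3)
    (e1 : al ^ 2 - be ^ 2 = p1 ^ 3 * d1)
    (e2 : (be * d3 * p2) ^ 2 - (al * d2 * p3) ^ 2 = -p2 ^ 2 * p3 ^ 2 * p1 * d1 ^ 3) :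
    v al = 1 ∧ v be = 1 ∧ v (-p1 / d1) = v 3 ^ (4 * 1 : ℤ) ∧ v (-d1 / p1) = v 3 ^ (4 * (-1) : ℤ) ∧
      (v ((al + be) ^ 2 / (p1 ^ 3 * d1)) = v 3 ^ (4 * 3 : ℤ) ∨
        v ((al + be) ^ 2 / (p1 ^ 3 * d1)) = v 3 ^ (4 * (-3) : ℤ)) ∧
      ∃ m : ℤ, v (t * p1 * (d3 * p2 / al + d2 * p3 / be) / 2) = v 3 ^ (2 * m) := by
  have h2 := v_two_80 h3
  have va : v al = 1 := v_of_sq_80 hal (by simp [v2, w2])
  have vb : v be = 1 := v_of_sq_80 hbe (by simp [v3, w3])
  have a0 : al ≠ 0 := fun h => by simp [h] at va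
  have b0 : be ≠ 0 := fun h => by simp [h] at vb
  refine ⟨va, vb, by simp [v1, w1], by simp [v1, w1], ?_, ?_⟩
  · rcases v_add_80 h2 e1 va vb.le with h | h
    · right
      simp only [map_div₀, map_pow, map_mul, h, v1, w1]
      norm_num [← pow_mul]
    · left
      simp only [map_div₀, map_pow, map_mul, h, v1, w1]
      norm_num [← pow_mul]
      field_simp
  · have e : t * p1 * (d3 * p2 / al + d2 * p3 / be) / 2 =
        t * p1 * (be * d3 * p2 + al * d2 * p3) / (2 * al * be) := by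
      have : (2 : C) ≠ 0 := fun h => by simp [h] at h2
      field_simp
    rw [e]
    rcases v_add_80 h2 e2 (by simp [vb, w3, v2]) (by simp [va, w2, v3]) with h | h
    · refine ⟨3, ?_⟩
      simp only [map_div₀, map_mul, h, v1, vt, h2, va, vb]
      norm_num [← pow_add]
    · refine ⟨5, ?_⟩
      simp only [map_div₀, map_mul, map_pow, Valuation.map_neg, h, v1, vt, h2, va, vb, v2, v3, w1]
      norm_num [← pow_add]

variable {G : Type*} [Group G] [MulSemiringAction G C]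

/-- inertia fixes the square roots of fixed units -/
theorem fix_of_sq_80 (h2 : v 2 = 1) (hres : ∀ (g : G) (a : C), v a ≤ 1 → v (g • a - a) < 1) {x u : C}
    (h : x ^ 2 = u) (hu : v u = 1) {g : G} (hg : g • u = u) : g • x = x := by
  have hx := v_of_sq_80 h hu
  have : (g • x) ^ 2 = x ^ 2 := by rw [← smul_pow', h, hg]
  rcases sq_eq_sq_iff_eq_or_eq_neg.1 this with h1 | h1
  · exact h1
  · have := hres g x hx.le
    rw [h1, show -x - x = -(2 * x) by ring, Valuation.map_neg, map_mul, h2, hx, mul_one] at this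
    exact absurd this (lt_irrefl _)

/-- flatness passes to a bigger field -/
theorem flat_map_80 [IsAlgClosed C] [CharZero C] {C' : Type*} [Field C'] [IsAlgClosed C'] [CharZero C']
    {v' : Valuation C' ℝ≥0} [MulSemiringAction G C'] (j : C →+* C')
    (hj : ∀ x, v x ≤ 1 → v' (j x) ≤ 1) (hg : ∀ (g : G) (x : C), j (g • x) = g • j x)
    {V : Type*} [AddCommGroup V] [Finite V] {ρ : G → V → V} (h : FlR.Flat v G ρ) :
    FlR.Flat v' G ρ := by
  refine FlR.flat_of_sep fun u hu => ?_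
  obtain ⟨χ, hχ⟩ := FlR.exists_char (Ω := C) hu
  refine ⟨(j : C →* C').compAddChar χ, fun h1 => hχ (j.injective (by simpa using h1)), fun u => ?_⟩
  exact FlR.map_mem j hj hg (h u χ)

end Crest.Agent.T15.F3
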