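import Crest.Agent.T15.F3Def_90

/-!
# Row 15, block F (helper80): flatness of the torsion of `Pic` from charts and a moving lemma
-/

set_option autoImplicit false
set_option linter.unusedSectionVars false

namespace Crest.Agent.T15.F3

open Polynomial WithZero Module
open scoped NNReal
open Crest.Agent.R013.RR7_948 Crest.Agent.R013.RR8_948 Crest.Agent.R013.RR9_948
open Crest.Agent.R013.RR11_948 Crest.Agent.R013.RR12_948 Crest.Agent.R013.PicD_398
open Crest.Agent.R013.Frob1_914 Crest.Agent.T15.Hy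
open Crest.Agent.R013.WR2_777 Crest.Agent.R013.WR4_777
open Crest.Agent.R013.GR2_921 (hc_of_isAlgClosed)

section poly

variable {C : Type*} [Field C] {v : Valuation C ℝ≥0}

theorem eval_le_80 {p : C[X]} (hp : ∀ i, v (p.coeff i) ≤ 1) {a : C} (ha : v a ≤ 1) :
    v (p.eval a) ≤ 1 := by
  rw [eval_eq_sum_range]
  exact v.map_sum_le fun i _ => by
    rw [map_mul, map_pow]; exact mul_le_one' (hp i) (pow_le_one₀ zero_le ha)

/-- Gauss lemma at a point that is far from the roots -/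
theorem coeff_le_eval_80 [IsAlgClosed C] {a : C} (ha : v a ≤ 1) (n : ℕ) : ∀ p : C[X],
    p.natDegree = n → (∀ t, p.eval t = 0 → 1 ≤ v (a - t)) → ∀ i, v (p.coeff i) ≤ v (p.eval a) := by
  induction n with
  | zero =>
    intro p hp _ i
    rw [eq_C_of_natDegree_eq_zero hp, coeff_C, eval_C]
    split_ifs <;> simp
  | succ n ih =>
    intro p hp h i
    obtain ⟨t, ht⟩ := IsAlgClosed.exists_root p (by
      rw [degree_eq_natDegree (by rintro rfl; simp at hp), hp]; exact_mod_cast n.succ_ne_zero)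
    obtain ⟨q, rfl⟩ := dvd_iff_isRoot.2 ht
    have hq0 : q ≠ 0 := by rintro rfl; simp at hp
    rw [natDegree_mul (X_sub_C_ne_zero t) hq0, natDegree_X_sub_C] at hp
    have hq := ih q (by omega) fun s hs => h s (by simp [hs])
    have h1 : 1 ≤ v (a - t) := h t (by simp)
    have h2 : v t ≤ v (a - t) := by
      have : t = a - (a - t) := by ring
      nth_rewrite 1 [this]
      exact (v.map_sub _ _).trans (max_le (ha.trans h1) le_rfl)
    rw [eval_mul, eval_sub, eval_X, eval_C, map_mul, sub_mul, coeff_sub, coeff_C_mul]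
    refine (v.map_sub _ _).trans (max_le ?_ (by rw [map_mul]; exact mul_le_mul' h2 (hq i)))
    refine le_trans ?_ (le_mul_of_one_le_left' h1)
    cases i with
    | zero => simp
    | succ i => rw [coeff_X_mul]; exact hq i

/-- scaling two polynomials to a primitive pair -/
theorem exists_prim_80 {A B : C[X]} (h : A ≠ 0 ∨ B ≠ 0) : ∃ (s : C) (A' B' : C[X]), s ≠ 0 ∧
    A = Polynomial.C s * A' ∧ B = Polynomial.C s * B' ∧ (∀ i, v (A'.coeff i) ≤ 1) ∧
    (∀ i, v (B'.coeff i) ≤ 1) ∧ ¬ ∀ i, v (A'.coeff i) < 1 ∧ v (B'.coeff i) < 1 := by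
  classical
  obtain ⟨s, hs, hmax⟩ := (A.coeffs ∪ B.coeffs).exists_max_image v (by
    rcases h with h | h
    · exact ⟨_, Finset.mem_union_left _ (coeff_mem_coeffs (leadingCoeff_ne_zero.2 h))⟩
    · exact ⟨_, Finset.mem_union_right _ (coeff_mem_coeffs (leadingCoeff_ne_zero.2 h))⟩)
  have hs0 : s ≠ 0 := by
    rintro rfl
    rcases Finset.mem_union.1 hs with h1 | h1 <;> obtain ⟨n, h2, hn⟩ := mem_coeffs_iff.1 h1 <;>
      exact mem_support_iff.1 h2 hn.symm
  have hv : 0 < v s := (Valuation.pos_iff v).2 hs0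
  have key : ∀ p : C[X], p.coeffs ⊆ A.coeffs ∪ B.coeffs →
      ∀ i, v ((Polynomial.C s⁻¹ * p).coeff i) ≤ 1 := fun p hp i => by
    rw [coeff_C_mul, map_mul, map_inv₀, inv_mul_le_iff₀ hv, mul_one]
    rcases eq_or_ne (p.coeff i) 0 with h0 | h0
    · simp [h0]
    · exact hmax _ (hp (coeff_mem_coeffs h0))
  have e : ∀ p : C[X], p = Polynomial.C s * (Polynomial.C s⁻¹ * p) := fun p => by
    rw [← mul_assoc, ← map_mul, mul_inv_cancel₀ hs0, map_one, one_mul]
  refine ⟨s, _, _, hs0, e A, e B, key A Finset.subset_union_left, key B Finset.subset_union_right,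
    fun hc => ?_⟩
  rcases Finset.mem_union.1 hs with h1 | h1 <;> obtain ⟨n, -, hn⟩ := mem_coeffs_iff.1 h1
  · have := (hc n).1
    simp [← hn, hv.ne'] at this
  · have := (hc n).2
    simp [← hn, hv.ne'] at this

variable {G : Type*} [Group G] [MulSemiringAction G C]

/-- an inertia group does not move the values of integral functions modulo the maximal ideal -/
theorem RR_cong_80 (hinv : ∀ (g : G) (a : C), v (g • a) = v a)
    (hres : ∀ (g : G) (a : C), v a ≤ 1 → v (g • a - a) < 1) {F : G → C} (h : F ∈ FlR.RR v G) (g : G) :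
    v (F g - F 1) < 1 := by
  induction h using Subring.closure_induction with
  | mem x hx =>
    rcases hx with ⟨c, hc, rfl⟩ | ⟨a, ha, rfl⟩
    · simp
    · simpa using hres g a ha
  | zero => simp
  | one => simp
  | add x y _ _ hx hy =>
    have : (x + y) g - (x + y) 1 = (x g - x 1) + (y g - y 1) := by simp only [Pi.add_apply]; ring
    rw [this]; exact v.map_add_lt hx hy
  | neg x _ hx =>
    have : (-x) g - (-x) 1 = -(x g - x 1) := by simp only [Pi.neg_apply]; ring
    rw [this, Valuation.map_neg]; exact hx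
  | mul x y h1 h2 hx hy =>
    have : (x * y) g - (x * y) 1 = (x g - x 1) * y g + x 1 * (y g - y 1) := by
      simp only [Pi.mul_apply]; ring
    rw [this]
    refine v.map_add_lt ?_ ?_ <;> rw [map_mul]
    · exact mul_lt_one_of_lt_of_le hx (FlR.le_one hinv h2 g)
    · rw [mul_comm]; exact mul_lt_one_of_lt_of_le hy (FlR.le_one hinv h1 1)

theorem RR_unit_80 (hinv : ∀ (g : G) (a : C), v (g • a) = v a)
    (hres : ∀ (g : G) (a : C), v a ≤ 1 → v (g • a - a) < 1) {F : G → C} (h : F ∈ FlR.RR v G)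
    (h1 : v (F 1) = 1) (g : G) : v (F g) = 1 := by
  have := RR_cong_80 hinv hres h g
  rw [← h1] at this
  rw [v.map_eq_of_sub_lt this, h1]

theorem eval_smul_mem_80 {p : C[X]} (hp : ∀ i, v (p.coeff i) ≤ 1) {a : C} (ha : v a ≤ 1) :
    (fun g : G => p.eval (g • a)) ∈ FlR.RR v G := by
  simp only [eval_eq_sum_range]
  exact FlR.sum_mem' _ fun i _ => FlR.mul_mem' (FlR.const_mem (hp i)) (FlR.pow_mem' (FlR.smul_mem ha) i)

theorem eval_map_mem_80 {p : C[X]} (hp : ∀ i, v (p.coeff i) ≤ 1) {a : C} (ha : v a ≤ 1) :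
    (fun g : G => (p.map (MulSemiringAction.toRingHom G C g)).eval a) ∈ FlR.RR v G := by
  simp only [eval_map, eval₂_eq_sum_range]
  exact FlR.sum_mem' _ fun i _ => FlR.mul_mem' (FlR.smul_mem (hp i)) (FlR.pow_mem' (FlR.const_mem ha) i)

variable (v G) in
/-- unit valued integral functions -/
def UU (F : G → C) : Prop := F ∈ FlR.RR v G ∧ ∀ g, v (F g) = 1

theorem UU.mul {F F' : G → C} (h : UU v G F) (h' : UU v G F') : UU v G fun g => F g * F' g :=
  ⟨FlR.mul_mem' h.1 h'.1, fun g => by rw [map_mul, h.2, h'.2, mul_one]⟩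

theorem UU.div (horb : ∀ a : C, (Set.range fun g : G => g • a).Finite) {F F' : G → C}
    (h : UU v G F) (h' : UU v G F') : UU v G fun g => F g / F' g :=
  ⟨by simpa [div_eq_mul_inv] using
      FlR.mul_mem' h.1 (FlR.inv_mem h'.1 (FlR.finite_range horb h'.1) h'.2),
    fun g => by rw [map_div₀, h.2, h'.2, div_one]⟩

theorem UU.prod {τ : Type*} (s : Finset τ) {F : τ → G → C} (h : ∀ t ∈ s, UU v G (F t)) :
    UU v G fun g => ∏ t ∈ s, F t g :=
  ⟨FlR.prod_mem' s fun t ht => (h t ht).1, fun g => by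
    rw [map_prod]; exact Finset.prod_eq_one fun t ht => (h t ht).2 g⟩

end poly

variable {C K : Type*} [Field C] [IsAlgClosed C] [Field K] [Algebra C K]
  [Algebra (RatFunc C) K] [IsScalarTower C (RatFunc C) K] [FiniteDimensional (RatFunc C) K]
  [Algebra.IsSeparable (RatFunc C) K] {v : Valuation C ℝ≥0}

/-- a denominator whose roots lie under the divisor -/
theorem exists_den_80 {F : C[X]} {x w : K} (h : Hyp F x w) {f : K} (hf : f ≠ 0) :
    ∃ A B c : C[X], c ≠ 0 ∧ f * aeval x c = el x w A B ∧ ∀ t, c.eval t = 0 →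
      ∃ R : Pl C K, divf (k := C) f R ≠ 0 ∧ R.v x ≤ 1 ∧ Disc.ev R x = t := by
  classical
  let T := (divf (k := C) f).support.filter fun R => R.v x ≤ 1
  let c : C[X] := ∏ R ∈ T, (X - Polynomial.C (Disc.ev R x)) ^ (divf (k := C) f R).natAbs
  have hc : c ≠ 0 := Finset.prod_ne_zero_iff.2 fun R _ => pow_ne_zero _ (X_sub_C_ne_zero _)
  obtain ⟨A, B, hAB⟩ := h.exists_el (f := f * aeval x c) fun P hP => by
    by_cases h0 : divf (k := C) f P = 0
    · rw [map_mul, (v_eq_one_iff hf P).2 h0, one_mul]; exact v_aeval_le_one P hP c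
    have hT : P ∈ T := Finset.mem_filter.2 ⟨Finsupp.mem_support_iff.2 h0, hP⟩
    simp only [c]
    rw [← Finset.mul_prod_erase T _ hT, map_mul, map_mul, map_mul, ← mul_assoc]
    refine mul_le_one' ?_ (v_aeval_le_one P hP _)
    have h1 := (Disc.v_lt_one_iff (h.x_sub_ne (Disc.ev P x)) P).1 (Disc.ev_spec P hP)
    rw [map_pow, map_sub, aeval_X, aeval_C, ← map_mul,
      Disc.v_le_one_iff (mul_ne_zero hf (pow_ne_zero _ (h.x_sub_ne _))),
      divf_mul hf (pow_ne_zero _ (h.x_sub_ne _)), Disc.divf_pow (h.x_sub_ne _)]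
    rw [Finsupp.add_apply, Finsupp.smul_apply, nsmul_eq_mul, Int.natCast_natAbs]
    nlinarith [neg_abs_le (divf (k := C) f P), abs_nonneg (divf (k := C) f P)]
  refine ⟨A, B, c, hc, hAB, fun t ht => ?_⟩
  simp only [c, eval_prod, Finset.prod_eq_zero_iff, eval_pow, eval_sub, eval_X, eval_C] at ht
  obtain ⟨R, hR, ht⟩ := ht
  have := Finset.mem_filter.1 hR
  exact ⟨R, Finsupp.mem_support_iff.1 this.1, this.2, (sub_eq_zero.1 (eq_zero_of_pow_eq_zero ht)).symm⟩

theorem b_le_80 {F : C[X]} {x w : K} (h : Chart v F x w) {a b : C} (hb : b ^ 2 = F.eval a)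
    (ha : v a ≤ 1) : v b ≤ 1 := by
  rw [← pow_le_one_iff_of_nonneg zero_le two_ne_zero, ← map_pow, hb]; exact eval_le_80 h.int ha

/-- **key lemma**: a function in one chart, normalised -/
theorem Chart.key_80 {F : C[X]} {x w : K} (h : Chart v F x w) {f : K} (hf : f ≠ 0) :
    ∃ (s : C) (A B c : C[X]), s ≠ 0 ∧ (∀ i, v (A.coeff i) ≤ 1) ∧ (∀ i, v (B.coeff i) ≤ 1) ∧
      (∀ i, v (c.coeff i) ≤ 1) ∧ f * aeval x c = algebraMap C K s * el x w A B ∧
      ∀ a b : C, b ^ 2 = F.eval a → v a ≤ 1 →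
        (∀ R : Pl C K, divf (k := C) f R ≠ 0 → R.v x ≤ 1 → 1 ≤ v (a - Disc.ev R x)) →
        v (c.eval a) = 1 ∧ v (A.eval a + B.eval a * b) = 1 := by
  obtain ⟨A0, B0, c0, hc0, he, hr⟩ := exists_den_80 h.hyp hf
  have hAB : A0 ≠ 0 ∨ B0 ≠ 0 := by
    by_contra hcon
    push Not at hcon
    rw [hcon.1, hcon.2] at he
    exact mul_ne_zero hf (h.hyp.aeval_ne hc0) (by simpa [el] using he)
  obtain ⟨s, A, B, hs, rfl, rfl, hA, hB, hp⟩ := exists_prim_80 (v := v) hAB
  obtain ⟨s', c, z, hs', rfl, hz, hc, -, hp'⟩ := exists_prim_80 (v := v) (B := 0) (Or.inl hc0)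
  obtain rfl : z = 0 := by simpa [hs'] using hz
  have he' : f * aeval x c = algebraMap C K (s / s') * el x w A B := by
    have : algebraMap C K s' ≠ 0 := by simpa using hs'
    simp only [el, map_mul, aeval_C, map_div₀] at he ⊢
    field_simp
    linear_combination he
  refine ⟨s / s', A, B, c, div_ne_zero hs hs', hA, hB, hc, he', fun a b hb ha hfar => ?_⟩
  have hcr : ∀ t, c.eval t = 0 → 1 ≤ v (a - t) := fun t ht => by
    obtain ⟨R, h1, h2, rfl⟩ := hr t (by simp [ht])
    exact hfar R h1 h2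
  refine ⟨le_antisymm (eval_le_80 hc ha) ?_, ?_⟩
  · by_contra hlt
    exact hp' fun i => ⟨(coeff_le_eval_80 ha _ c rfl hcr i).trans_lt (not_le.1 hlt), by simp⟩
  have hroot : ∀ t, (A ^ 2 - B ^ 2 * F).eval t = 0 → 1 ≤ v (a - t) := fun t ht => by
    obtain ⟨b', hb', h0⟩ : ∃ b', b' ^ 2 = F.eval t ∧ A.eval t + B.eval t * b' = 0 := by
      obtain ⟨b', hb'⟩ := IsAlgClosed.exists_pow_nat_eq (F.eval t) two_pos
      have : (A.eval t + B.eval t * b') * (A.eval t + B.eval t * (-b')) = 0 := by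
        simp only [eval_sub, eval_pow, eval_mul] at ht
        linear_combination ht - B.eval t ^ 2 * hb'
      rcases mul_eq_zero.1 this with h0 | h0
      · exact ⟨b', hb', h0⟩
      · exact ⟨-b', by rw [neg_sq, hb'], h0⟩
    have hP := h.hyp.at_pt hb'
    by_cases hct : c.eval t = 0
    · exact hcr t hct
    have h1 := congrArg (pt x w t b').v he'
    rw [map_mul, map_mul, hP.aeval_eq_one hct, mul_one,
      (pt x w t b').const _ (div_ne_zero hs hs'), one_mul] at h1
    have := hfar (pt x w t b') (fun h2 => by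
      rw [(v_eq_one_iff hf _).2 h2] at h1
      exact absurd (hP.el_lt_iff.2 h0) (by rw [← h1]; exact lt_irrefl _)) hP.x_le
    rwa [Disc.ev_eq _ hP.1] at this
  have hb1 := b_le_80 h hb ha
  have l1 : ∀ b : C, v b ≤ 1 → v (A.eval a + B.eval a * b) ≤ 1 := fun b hb =>
    v.map_add_le (eval_le_80 hA ha) (by rw [map_mul]; exact mul_le_one' (eval_le_80 hB ha) hb)
  refine le_antisymm (l1 b hb1) ?_
  by_contra hlt
  refine hp (h.nsq A B hA hB fun i => (coeff_le_eval_80 ha _ _ rfl hroot i).trans_lt ?_)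
  have : (A ^ 2 - B ^ 2 * F).eval a = (A.eval a + B.eval a * b) * (A.eval a + B.eval a * (-b)) := by
    simp only [eval_sub, eval_pow, eval_mul]
    linear_combination B.eval a ^ 2 * hb
  rw [this, map_mul]
  exact mul_lt_one_of_lt_of_le (not_le.1 hlt) (l1 _ (by rwa [Valuation.map_neg]))

theorem nrm_val_80 {x w f : K} {s a b : C} {A B c : C[X]} {P : Pl C K} (hP : At P x w a b)
    (he : f * aeval x c = algebraMap C K s * el x w A B) (hs : s ≠ 0) (hc : c.eval a ≠ 0)
    (hA : A.eval a + B.eval a * b ≠ 0) :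
    P.v f = 1 ∧ (nrm P f : C) = s * ((A.eval a + B.eval a * b) / c.eval a) := by
  have h1 : P.v f = 1 := by
    have := congrArg P.v he
    rwa [map_mul, map_mul, hP.aeval_eq_one hc, mul_one, P.const _ hs, one_mul, hP.el_eq_one hA] at this
  refine ⟨h1, ?_⟩
  have h2 : Disc.ev P f = nrm P f := Disc.ev_eq P (Wp.v_sub_nrm h1)
  have h3 := congrArg (Disc.ev P) he
  rw [Disc.ev_mul P h1.le (hP.aeval_eq_one hc).le, Disc.ev_mul P (P.const _ hs).le (hP.el_le A B),
    Disc.ev_const, Disc.ev_eq P (hP.el_sub A B), Disc.ev_eq P (v_aeval_sub P hP.1 c), h2] at h3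
  field_simp
  exact h3

theorem SI_aeval_80 (e : SI C K C K) {x : K} (hx : e.f x = x) {σ : C →+* C} (hσ : ∀ a, e.s a = σ a)
    (A : C[X]) : e.f (aeval x A) = aeval x (A.map σ) := by
  induction A using Polynomial.induction_on' with
  | add p q hp hq => rw [map_add, map_add, hp, hq, Polynomial.map_add, map_add]
  | monomial n a => simp [aeval_monomial, e.comm, hx, hσ]

variable {G : Type*} [Group G] [MulSemiringAction G C]

/-- values of the conjugates of `f`, and of `f` at the conjugate points -/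
theorem Chart.vals_80 (hinv : ∀ (g : G) (a : C), v (g • a) = v a)
    (hres : ∀ (g : G) (a : C), v a ≤ 1 → v (g • a - a) < 1)
    (horb : ∀ a : C, (Set.range fun g : G => g • a).Finite) (e : G → SI C K C K)
    (he : ∀ g a, (e g).s a = g • a) {F : C[X]} {x w : K} (h : Chart v F x w)
    (hx : ∀ g, (e g).f x = x ∧ (e g).f w = w) {f : K} (hf : f ≠ 0) :
    ∃ s : C, s ≠ 0 ∧ ∀ P : Pl C K, P.v x ≤ 1 → v (Disc.ev P x) ≤ 1 →
      (∀ R : Pl C K, divf (k := C) f R ≠ 0 → R.v x ≤ 1 → 1 ≤ v (Disc.ev P x - Disc.ev R x)) →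
      (∀ g, P.v ((e g).f f) = 1) ∧ (UU v G fun g => (nrm P ((e g).f f) : C) / g • s) ∧
        UU v G fun g => (nrm ((e g).pl P) f : C) / s := by
  obtain ⟨s, A, B, c, hs, hA, hB, hc, hfe, hu⟩ := h.key_80 hf
  refine ⟨s, hs, fun P hP ha hfar => ?_⟩
  have hAt := h.hyp.at_ev hP
  have hb := hAt.sq h.hyp.sq
  obtain ⟨u1, u2⟩ := hu _ _ hb ha hfar
  have hb1 := b_le_80 h hb ha
  generalize Disc.ev P x = a at *
  generalize Disc.ev P w = b at *
  have ne : ∀ {y : C}, v y = 1 → y ≠ 0 := fun hy h0 => by simp [h0] at hy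
  have m1 : ∀ p : C[X], p.map (MulSemiringAction.toRingHom G C 1) = p := fun p => by
    ext i; simp
  have n1 := FlR.add_mem' (eval_map_mem_80 (G := G) hA ha)
    (FlR.mul_mem' (eval_map_mem_80 hB ha) (FlR.const_mem hb1))
  have d1 := eval_map_mem_80 (G := G) hc ha
  have n1u := RR_unit_80 hinv hres n1 (by simpa only [m1] using u2)
  have d1u := RR_unit_80 hinv hres d1 (by simpa only [m1] using u1)
  have n2 := FlR.add_mem' (eval_smul_mem_80 (G := G) hA ha)
    (FlR.mul_mem' (eval_smul_mem_80 hB ha) (FlR.smul_mem hb1))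
  have d2 := eval_smul_mem_80 (G := G) hc ha
  have n2u := RR_unit_80 hinv hres n2 (by simpa only [one_smul] using u2)
  have d2u := RR_unit_80 hinv hres d2 (by simpa only [one_smul] using u1)
  have hs' : ∀ g : G, g • s ≠ 0 := fun g => (smul_ne_zero_iff_ne g).2 hs
  have k1 := fun g : G => nrm_val_80 hAt (f := (e g).f f) (s := g • s) (by
    have := congrArg (e g).f hfe
    simp only [el, map_mul, map_add, (e g).comm, he, (hx g).2,
      SI_aeval_80 (e g) (hx g).1 (σ := MulSemiringAction.toRingHom G C g) (he g)] at this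
    exact this) (hs' g) (ne (d1u g)) (ne (n1u g))
  have k2 := fun g : G => nrm_val_80 (P := (e g).pl P) (a := g • a) (b := g • b)
    (by simpa only [(hx g).1, (hx g).2, he] using hAt.SI (e g)) hfe hs (ne (d2u g)) (ne (n2u g))
  refine ⟨fun g => (k1 g).1, ?_, ?_⟩
  · convert UU.div horb ⟨n1, n1u⟩ ⟨d1, d1u⟩ using 2 with g
    rw [(k1 g).2, mul_div_cancel_left₀ _ (hs' g)]
  · convert UU.div horb ⟨n2, n2u⟩ ⟨d2, d2u⟩ using 2 with g
    rw [(k2 g).2, mul_div_cancel_left₀ _ hs]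

theorem ev_sum_80 (f : K) {τ : Type*} (s : Finset τ) (P Q : τ → Pl C K) :
    (Wp.ev f (∑ t ∈ s, (Finsupp.single (P t) 1 - Finsupp.single (Q t) 1)) : C) =
      ∏ t ∈ s, (nrm (P t) f : C) / nrm (Q t) f := by
  classical
  induction s using Finset.induction_on with
  | empty => simp
  | insert a s ha ih =>
    rw [Finset.sum_insert ha, Finset.prod_insert ha, Wp.ev_add, Units.val_mul, ih, Wp.ev_sub,
      Wp.ev_single, Wp.ev_single]
    simp

theorem supp_sum_80 {τ : Type*} [Fintype τ] {P Q : τ → Pl C K} {R : Pl C K}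
    (h : (∑ t, (Finsupp.single (P t) 1 - Finsupp.single (Q t) 1) : Pl C K →₀ ℤ) R ≠ 0) :
    ∃ t, R = P t ∨ R = Q t := by
  by_contra hcon
  push Not at hcon
  refine h ?_
  rw [Finsupp.finsetSum_apply]
  exact Finset.sum_eq_zero fun t _ => by
    simp [Finsupp.single_eq_of_ne (hcon t).1, Finsupp.single_eq_of_ne (hcon t).2]

variable (v) in
/-- the class `z` has a representative made of differences of general points of the same chart -/
def Rep {ι : Type*} (x : ι → K) (S : ι → Finset C) (z : Pic C K) : Prop :=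
  ∃ (τ : Type) (_ : Fintype τ) (j : τ → ι) (P Q : τ → Pl C K),
    (∀ t, Gp v (x (j t)) (S (j t)) (P t) ∧ Gp v (x (j t)) (S (j t)) (Q t)) ∧
    z = cls (∑ t, (Finsupp.single (P t) 1 - Finsupp.single (Q t) 1))

variable (v) in
/-- the weak moving lemma -/
def Mov' {ι : Type*} (x : ι → K) (n : ℕ) : Prop :=
  ∃ N : ι → Finset C, (∀ j l, j ≠ l → ∀ P : Pl C K, Gp v (x l) (N l) P → ¬ Gp v (x j) (N j) P) ∧
    ∀ z : Pic C K, n • z = 0 → ∀ S : ι → Finset C, Rep v x S z

/-- the Weil pairing `g ↦ e(g u, y)` is integral -/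
theorem wp_mem_80 (hinv : ∀ (g : G) (a : C), v (g • a) = v a)
    (hres : ∀ (g : G) (a : C), v a ≤ 1 → v (g • a - a) < 1)
    (horb : ∀ a : C, (Set.range fun g : G => g • a).Finite) (e : G → SI C K C K)
    (he : ∀ g a, (e g).s a = g • a) {ι : Type*} {F : ι → C[X]} {x w : ι → K}
    (h : ∀ j, Chart v (F j) (x j) (w j)) (hx : ∀ g j, (e g).f (x j) = x j ∧ (e g).f (w j) = w j)
    {n : ℕ} (hn : n ≠ 0) (hM : Mov' v x n) {u y : Pic C K} (hu : n • u = 0) (hy : n • y = 0) :
    (fun g => (Wp.wp n ((e g).pic u) y : C)) ∈ FlR.RR v G := by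
  classical
  obtain ⟨N, hN, hM⟩ := hM
  obtain ⟨τ, _, j, P, Q, hPQ, rfl⟩ := hM u hu N
  obtain ⟨τ', _, j', P', Q', hPQ', rfl⟩ := hM y hy fun l => N l ∪
    (Finset.univ.image (fun t => Disc.ev (P t) (x l)) ∪ Finset.univ.image fun t => Disc.ev (Q t) (x l))
  obtain ⟨f, hf, hD⟩ := Wp.exists_fun hu
  obtain ⟨f', hf', hE⟩ := Wp.exists_fun hy
  choose s hs hv using fun l => (h l).vals_80 hinv hres horb e he (fun g => hx g l) hf
  choose s' hs' hv' using fun l => (h l).vals_80 hinv hres horb e he (fun g => hx g l) hf'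
  set S : ι → Finset C := fun l => N l ∪
    (Finset.univ.image (fun t => Disc.ev (P t) (x l)) ∪ Finset.univ.image fun t => Disc.ev (Q t) (x l))
  have hS : ∀ l t R, R = P t ∨ R = Q t → Disc.ev R (x l) ∈ S l := fun l t R hR => by
    rcases hR with rfl | rfl <;> simp [S]
  have sD : ∀ R, divf (k := C) f R ≠ 0 → ∃ t, R = P t ∨ R = Q t := fun R hR =>
    supp_sum_80 fun h0 => hR (by rw [hD, Finsupp.smul_apply, h0, smul_zero])
  have sE : ∀ R, divf (k := C) f' R ≠ 0 → ∃ t, R = P' t ∨ R = Q' t := fun R hR =>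
    supp_sum_80 fun h0 => hR (by rw [hE, Finsupp.smul_apply, h0, smul_zero])
  have a1 := fun l (Z : Pl C K) (hZ : Gp v (x l) (S l) Z) => hv l Z hZ.1 hZ.2.1 fun R hR _ => by
    obtain ⟨t, ht⟩ := sD R hR
    exact hZ.2.2 _ (hS l t R ht)
  have a2 := fun l t (Z : Pl C K) (hZt : Z = P t ∨ Z = Q t) (hZ : Gp v (x l) (N l) Z) =>
    hv' l Z hZ.1 hZ.2.1 fun R hR hRx => by
      obtain ⟨t', ht'⟩ := sE R hR
      have hR' : Gp v (x (j' t')) (S (j' t')) R := by
        rcases ht' with rfl | rfl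
        · exact (hPQ' t').1
        · exact (hPQ' t').2
      by_cases hl : l = j' t'
      · subst hl
        rw [Valuation.map_sub_swap]
        exact hR'.2.2 _ (hS _ t Z hZt)
      by_contra hlt
      refine hN l (j' t') hl R ⟨hR'.1, hR'.2.1, fun a ha => hR'.2.2 a (Finset.mem_union_left _ ha)⟩
        ⟨hRx, ?_, fun a ha => ?_⟩
      · have : Disc.ev R (x l) = Disc.ev Z (x l) - (Disc.ev Z (x l) - Disc.ev R (x l)) := by ring
        rw [this]
        exact v.map_sub_le hZ.2.1 (not_le.1 hlt).le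
      · by_contra h2
        have : Disc.ev Z (x l) - a = (Disc.ev Z (x l) - Disc.ev R (x l)) + (Disc.ev R (x l) - a) := by
          ring
        exact absurd (hZ.2.2 a ha) (not_le.2 (this ▸ v.map_add_lt (not_le.1 hlt) (not_le.1 h2)))
  have U1 := UU.prod Finset.univ fun t _ =>
    (a1 _ _ (hPQ' t).1).2.1.div horb (a1 _ _ (hPQ' t).2).2.1
  have U2 := UU.prod Finset.univ fun t _ =>
    (a2 _ t _ (Or.inl rfl) (hPQ t).1).2.2.div horb (a2 _ t _ (Or.inr rfl) (hPQ t).2).2.2
  convert (U1.div horb U2).1 using 2 with g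
  have hgf : (e g).f f ≠ 0 := by simpa using hf
  have hgD := (e g).divf_f hf
  rw [hD, map_nsmul] at hgD
  rw [SI.pic_cls, Wp.wp_eq hc_of_isAlgClosed hn hgf hf' hgD hE, Units.val_div_eq_div_val, ev_sum_80,
    map_sum]
  · simp only [map_sub, SI.D_single]
    rw [ev_sum_80]
    congr 1 <;> refine Finset.prod_congr rfl fun t _ => ?_
    · rw [div_div_div_cancel_right₀ ((smul_ne_zero_iff_ne g).2 (hs _))]
    · rw [div_div_div_cancel_right₀ (hs' _)]
  · refine Wp.Dj.of_nsmul_left hn fun R => ?_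
    rw [← hgD, or_iff_not_imp_right]
    intro hR
    obtain ⟨t, rfl | rfl⟩ := supp_sum_80 hR
    · exact (v_eq_one_iff hgf _).1 ((a1 _ _ (hPQ' t).1).1 g)
    · exact (v_eq_one_iff hgf _).1 ((a1 _ _ (hPQ' t).2).1 g)

/-- **SOURCE** from the weak moving lemma -/
theorem flat_of_mov' [CharZero C] (hinv : ∀ (g : G) (a : C), v (g • a) = v a)
    (hres : ∀ (g : G) (a : C), v a ≤ 1 → v (g • a - a) < 1)
    (horb : ∀ a : C, (Set.range fun g : G => g • a).Finite) (e : G → SI C K C K)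
    (he : ∀ g a, (e g).s a = g • a) {ι : Type*} {F : ι → C[X]} {x w : ι → K}
    (h : ∀ j, Chart v (F j) (x j) (w j)) (hx : ∀ g j, (e g).f (x j) = x j ∧ (e g).f (w j) = w j)
    {n : ℕ} (hn : n ≠ 0) (hM : Mov' v x n)
    (hnd : ∀ u : Pic C K, n • u = 0 → u ≠ 0 → ∃ y : Pic C K, n • y = 0 ∧ Wp.wp n u y ≠ 1)
    {V : Type*} [AddCommGroup V] [Finite V] (i : V →+ Pic C K) (hi : Function.Injective i)
    (hV : ∀ u, n • i u = 0) (ρ : G → V → V) (hρ : ∀ g u, i (ρ g u) = (e g).pic (i u)) :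
    FlR.Flat v G ρ := by
  refine FlR.flat_of_sep fun u hu => ?_
  obtain ⟨y, hy, h1⟩ := hnd (i u) (hV u) fun h0 => hu (hi (by rw [h0, map_zero]))
  refine ⟨⟨fun u => (Wp.wp n (i u) y : C), ?_, fun a b => ?_⟩, fun h2 => h1 (Units.ext h2),
    fun u => ?_⟩
  · rw [map_zero, Wp.wp_zero_left hc_of_isAlgClosed hn hy, Units.val_one]
  · rw [map_add, Wp.wp_add_left hc_of_isAlgClosed hn (hV a) (hV b) hy, Units.val_mul]
  · simpa only [AddChar.coe_mk, hρ] using wp_mem_80 hinv hres horb e he h hx hn hM (hV u) hy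

theorem Mov.mov' {ι : Type} [Fintype ι] {x : ι → K} (h : Mov v x) {n : ℕ} (hn : n ≠ 0) :
    Mov' v x n := by
  obtain ⟨N, hN, hM⟩ := h
  refine ⟨N, hN, fun z hz S => ?_⟩
  obtain ⟨P, Q, h1, h2⟩ := hM z (by
    have := congrArg degPic hz
    rw [map_nsmul, map_zero] at this
    exact mem_Pic0.2 (by simpa [hn] using this)) S
  exact ⟨ι, inferInstance, id, P, Q, h1, h2⟩

theorem srcStmt : SrcStmt := by
  intro C K _ _ _ _ _ _ _ _ _ v G _ _ hinv hres horb e he ι _ F x w h hx hM n hn hnd V _ _ i hi hV ρ hρ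
  exact flat_of_mov' hinv hres horb e he h hx hn (hM.mov' hn) hnd i hi hV ρ hρ

end Crest.Agent.T15.F3
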