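import Crest.Agent.T15.FAll_67
import Crest.Agent.T15.KfX_23
import Crest.Agent.T15.Gal_31
import Crest.Agent.T15.Jm_16
import Crest.Agent.T15.RtG_22

/-!
# Row 15: block F, closed (helper67)
-/

set_option autoImplicit false

namespace Crest.Agent.T15.FA

open Crest.Agent.T15.C (Om)
open Crest.Agent.T15.Top (Plc Lc FStmt)

/-- **BLOCK F** -/
theorem fStmt {del : ℚ} (hd : 0 < del) (ι : Om →+* ℂ) (Q : Plc) (h3 : Q.rchar = 3)
    (L : Fl.Loc3 ι Q) :
    FStmt (Lc.of h3 L) (Ht.Lk del) (Ar.nb del hd 1 one_pos (by norm_num)) :=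
  fStmt_of KfJ.exStmt Ht.galStmt wqStmt unrStmt ramStmt hd one_pos (by norm_num) ι Q h3 L

end Crest.Agent.T15.FA
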