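import Mathlib
import Crest.Agent.T15.HyB_90

/-!
# Row 15 (helper51): the height pairing on a constant hyperelliptic curve, part A

Integral polynomials, the distance `dd` of two points, leading values.
-/

set_option autoImplicit false
set_option linter.all false

namespace Crest.Agent.T15.Fa

open Polynomial WithZero Module
open scoped NNReal
open Crest.Agent.R013.RR7_948 Crest.Agent.R013.RR8_948 Crest.Agent.R013.RR9_948
open Crest.Agent.R013.RR11_948 Crest.Agent.R013.RR12_948 Crest.Agent.R013.PicD_398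
open Crest.Agent.R013.GR2_921 Crest.Agent.R013.Frob1_914 Crest.Agent.T15.Disc
open Crest.Agent.T15.Hy

section intp

variable {Om : Type*} [Field Om] (ν : Valuation Om ℝ≥0)

/-- polynomials with integral coefficients -/
noncomputable def IP : Subring Om[X] := (Polynomial.mapRingHom ν.integer.subtype).range

variable {ν}

theorem IP_of_coeff {A : Om[X]} (h : ∀ i, ν (A.coeff i) ≤ 1) : A ∈ IP ν := by
  have : A ∈ Polynomial.lifts ν.integer.subtype := by
    rw [lifts_iff_coeff_lifts]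
    intro n
    exact ⟨⟨A.coeff n, h n⟩, rfl⟩
  obtain ⟨B, hB⟩ := (mem_lifts _).mp this
  exact ⟨B, hB⟩

theorem IP_coeff {A : Om[X]} (h : A ∈ IP ν) (i : ℕ) : ν (A.coeff i) ≤ 1 := by
  obtain ⟨B, rfl⟩ := h
  simp only [coe_mapRingHom, coeff_map]
  exact (B.coeff i).2

theorem IP_C {a : Om} (h : ν a ≤ 1) : C a ∈ IP ν := ⟨C ⟨a, h⟩, by simp⟩

theorem IP_X : (X : Om[X]) ∈ IP ν := ⟨X, by simp⟩

theorem IP_eval_le {A : Om[X]} (h : A ∈ IP ν) {n : ℕ} (hn : A.natDegree ≤ n) (a : Om) :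
    ν (A.eval a) ≤ max 1 (ν a) ^ n := by
  rw [eval_eq_sum_range' (Nat.lt_succ_of_le hn)]
  apply Valuation.map_sum_le
  intro i hi
  rw [map_mul, map_pow]
  calc ν (A.coeff i) * ν a ^ i ≤ 1 * max 1 (ν a) ^ i :=
        mul_le_mul' (IP_coeff h i) (pow_le_pow_left' (le_max_right _ _) i)
    _ ≤ max 1 (ν a) ^ n := by
        rw [one_mul]
        exact pow_le_pow_right' (le_max_left _ _) (Nat.lt_succ_iff.mp (Finset.mem_range.mp hi))

theorem IP_eval_le_one {A : Om[X]} (h : A ∈ IP ν) {a : Om} (ha : ν a ≤ 1) : ν (A.eval a) ≤ 1 := by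
  have := IP_eval_le h le_rfl a
  rwa [max_eq_left ha, one_pow] at this

theorem IP_div {A G : Om[X]} (h : A ∈ IP ν) {a r : Om} (ha : ν a ≤ 1)
    (hG : A = (X - C a) * G + C r) : G ∈ IP ν := by
  obtain ⟨A0, hA0⟩ := h
  obtain ⟨G0, hG0, -⟩ := exists_G A0 (⟨a, ha⟩ : ν.integer)
  have h1 := congrArg (Polynomial.map ν.integer.subtype) hG0
  simp only [coe_mapRingHom] at hA0
  rw [hA0] at h1
  simp only [Polynomial.map_add, Polynomial.map_mul, Polynomial.map_sub, map_X, map_C,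
    Subring.subtype_apply] at h1
  have h2 := congrArg (eval a) (hG.symm.trans h1)
  simp only [eval_add, eval_mul, eval_sub, eval_X, eval_C, sub_self, zero_mul, zero_add] at h2
  refine ⟨G0, ?_⟩
  simp only [coe_mapRingHom]
  apply mul_left_cancel₀ (X_sub_C_ne_zero a)
  rw [h2] at hG
  exact add_right_cancel (h1.symm.trans hG)

theorem IP_div' {A G : Om[X]} (h : A ∈ IP ν) {a : Om} (ha : ν a ≤ 1)
    (hG : A = (X - C a) * G) : G ∈ IP ν :=
  IP_div (r := 0) h ha (by simpa using hG)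

theorem IP_eval_sub {A : Om[X]} (h : A ∈ IP ν) {a a' : Om} (ha : ν a ≤ 1) (ha' : ν a' ≤ 1) :
    ν (A.eval a' - A.eval a) ≤ ν (a' - a) := by
  obtain ⟨G, hG, -⟩ := exists_G A a
  have h1 : A.eval a' - A.eval a = (a' - a) * G.eval a' := by
    conv_lhs => enter [1]; rw [hG]
    simp
  rw [h1, map_mul]
  exact mul_le_of_le_one_right' (IP_eval_le_one (IP_div h ha hG) ha')

theorem v_eq_one_of_near {u u' : Om} (hu : ν u = 1) (h : ν (u' - u) < 1) : ν u' = 1 := by
  have : u' = u + (u' - u) := by ring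
  rw [this, Valuation.map_add_eq_of_lt_left, hu]
  rwa [hu]

theorem v_le_one_of_near {u u' : Om} (hu : ν u ≤ 1) (h : ν (u' - u) < 1) : ν u' ≤ 1 := by
  have : u' = u + (u' - u) := by ring
  rw [this]
  exact (ν.map_add _ _).trans (max_le hu h.le)

theorem v_lt_one_of_near {u u' : Om} (hu : ν u < 1) (h : ν (u' - u) < 1) : ν u' < 1 := by
  have : u' = u + (u' - u) := by ring
  rw [this]
  exact lt_of_le_of_lt (ν.map_add _ _) (max_lt hu h)

theorem v_sub_lt_trans {u u' u'' : Om} (h : ν (u - u'') < 1) (h' : ν (u' - u'') < 1) :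
    ν (u - u') < 1 := by
  have : u - u' = (u - u'') - (u' - u'') := by ring
  rw [this]
  exact lt_of_le_of_lt (ν.map_sub _ _) (max_lt h h')

/-- coefficients of a product of linear factors -/
theorem coeff_prod_le {ι : Type*} (T : Finset ι) (a : ι → Om) (n : ι → ℕ) (i : ℕ) :
    ν ((∏ P ∈ T, (X - C (a P)) ^ n P).coeff i) ≤ ∏ P ∈ T, max 1 (ν (a P)) ^ n P := by
  classical
  have key : ∀ P : ι, ∃ u : Om, u ≠ 0 ∧ ν u = max 1 (ν (a P)) ∧ C u⁻¹ * (X - C (a P)) ∈ IP ν := by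
    intro P
    rcases le_or_gt (ν (a P)) 1 with h | h
    · refine ⟨1, one_ne_zero, by rw [map_one, max_eq_left h], ?_⟩
      simpa using (IP ν).sub_mem IP_X (IP_C h)
    · have h0 : a P ≠ 0 := by
        intro h0
        rw [h0, map_zero] at h
        exact absurd h (by simp)
      refine ⟨a P, h0, by rw [max_eq_right h.le], ?_⟩
      rw [mul_sub, ← C_mul, inv_mul_cancel₀ h0]
      refine (IP ν).sub_mem ((IP ν).mul_mem (IP_C ?_) IP_X) (IP_C (by simp))
      rw [map_inv₀]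
      exact inv_le_one_of_one_le₀ h.le
  choose u hu0 hu hI using key
  have h1 : (∏ P ∈ T, (X - C (a P)) ^ n P) =
      C (∏ P ∈ T, u P ^ n P) * ∏ P ∈ T, (C (u P)⁻¹ * (X - C (a P))) ^ n P := by
    rw [map_prod, ← Finset.prod_mul_distrib]
    refine Finset.prod_congr rfl fun P _ => ?_
    rw [map_pow, ← mul_pow, ← mul_assoc, ← C_mul, mul_inv_cancel₀ (hu0 P), C_1, one_mul]
  rw [h1, coeff_C_mul, map_mul, map_prod]
  simp only [map_pow, hu]
  exact mul_le_of_le_one_right'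
    (IP_coeff ((IP ν).prod_mem fun P _ => (IP ν).pow_mem (hI P) _) i)

/-- good reduction data of the affine chart -/
structure Loc (ν : Valuation Om ℝ≥0) (F : Om[X]) : Prop where
  two : ν 2 = 1
  int : F ∈ IP ν
  sep : ∀ a, ν a ≤ 1 → ν (F.eval a) < 1 → ν (F.derivative.eval a) = 1

theorem loc_of {k : Type*} [Field k] [Algebra k Om] (hν : ∀ c : k, c ≠ 0 → ν (algebraMap k Om c) = 1)
    (h2 : (2 : Om) ≠ 0) {F : k[X]} (hF : F.Separable) : Loc ν (F.map (algebraMap k Om)) := by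
  have hI : ∀ A : k[X], A.map (algebraMap k Om) ∈ IP ν := fun A => IP_of_coeff fun i => by
    rw [coeff_map]
    by_cases h : A.coeff i = 0
    · simp [h]
    · exact (hν _ h).le
  refine ⟨?_, hI F, fun a ha hlt => ?_⟩
  · have : (2 : Om) = algebraMap k Om 2 := by simp [map_ofNat]
    rw [this]
    apply hν
    intro h0
    rw [h0, map_zero] at this
    exact h2 this
  · obtain ⟨u, v, huv⟩ := hF
    have h1 := congrArg (fun p : k[X] => (p.map (algebraMap k Om)).eval a) huv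
    simp only [Polynomial.map_add, Polynomial.map_mul, eval_add, eval_mul, Polynomial.map_one,
      eval_one] at h1
    rw [derivative_map]
    apply le_antisymm (IP_eval_le_one (hI _) ha)
    by_contra hc
    push Not at hc
    have h3 : ν (1 : Om) < 1 := by
      rw [← h1]
      refine lt_of_le_of_lt (ν.map_add _ _) (max_lt ?_ ?_)
      · rw [map_mul]
        exact mul_lt_one_of_nonneg_of_lt_one_right (IP_eval_le_one (hI _) ha) zero_le hlt
      · rw [map_mul]
        exact mul_lt_one_of_nonneg_of_lt_one_right (IP_eval_le_one (hI _) ha) zero_le hc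
    simp at h3

theorem Loc.b_le {F : Om[X]} (hL : Loc ν F) {a b : Om} (hb : b ^ 2 = F.eval a) (ha : ν a ≤ 1) :
    ν b ≤ 1 := by
  have := IP_eval_le_one hL.int ha
  rw [← hb, map_pow] at this
  exact (pow_le_one_iff_of_nonneg zero_le two_ne_zero).mp this

/-- the two distances from `P` to `Q` and to the conjugate of `Q`, integral chart -/
theorem Loc.max_mul {F : Om[X]} (hL : Loc ν F) {a b a' b' : Om} (hb : b ^ 2 = F.eval a)
    (hb' : b' ^ 2 = F.eval a') (ha : ν a ≤ 1) (ha' : ν a' ≤ 1) :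
    max (ν (a - a')) (ν (b - b')) * max (ν (a - a')) (ν (b - -b')) ≤ ν (a - a') := by
  have h1 := hL.b_le hb ha
  have h2 := hL.b_le hb' ha'
  have h3 : ν (a - a') ≤ 1 := (ν.map_sub _ _).trans (max_le ha ha')
  have h4 : ν (b - b') ≤ 1 := (ν.map_sub _ _).trans (max_le h1 h2)
  have h5 : ν (b - -b') ≤ 1 := (ν.map_sub _ _).trans (max_le h1 (by simpa using h2))
  have h6 : ν (b - b') * ν (b - -b') ≤ ν (a - a') := by
    rw [← map_mul, show (b - b') * (b - -b') = b ^ 2 - b' ^ 2 by ring, hb, hb']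
    exact IP_eval_sub hL.int ha' ha
  rcases le_total (ν (b - b')) (ν (a - a')) with h | h
  · rw [max_eq_left h]
    exact mul_le_of_le_one_right' (max_le h3 h5)
  · rw [max_eq_right h]
    rcases le_total (ν (b - -b')) (ν (a - a')) with h' | h'
    · rw [max_eq_left h']
      exact mul_le_of_le_one_left' h4
    · rw [max_eq_right h']
      exact h6

end intp

/-! ### the distance -/

section dist

variable {Om : Type*} [Field Om] (ν : Valuation Om ℝ≥0)

/-- the local height -/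
noncomputable def Hh (a : Om) : ℝ≥0 := max 1 (ν a)

/-- the distance of the points `(a, b)` and `(a', b')` -/
noncomputable def dd (g : ℕ) (a b a' b' : Om) : ℝ≥0 :=
  max (ν (a - a') / (Hh ν a * Hh ν a'))
    (max (ν (b - b')) (ν (b * a' ^ (g + 1) - b' * a ^ (g + 1))) / (Hh ν a * Hh ν a') ^ (g + 1))

variable {ν}

theorem one_le_Hh (a : Om) : 1 ≤ Hh ν a := le_max_left _ _

theorem le_Hh (a : Om) : ν a ≤ Hh ν a := le_max_right _ _

theorem Hh_pos (a : Om) : 0 < Hh ν a := lt_of_lt_of_le zero_lt_one (one_le_Hh a)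

theorem Hh_of_le {a : Om} (h : ν a ≤ 1) : Hh ν a = 1 := max_eq_left h

theorem Hh_of_lt {a : Om} (h : 1 < ν a) : Hh ν a = ν a := max_eq_right h.le

theorem dd_symm (g : ℕ) (a b a' b' : Om) : dd ν g a b a' b' = dd ν g a' b' a b := by
  unfold dd
  rw [ν.map_sub_swap a, ν.map_sub_swap b, ν.map_sub_swap (b * a' ^ (g + 1)), mul_comm (Hh ν a)]

theorem b_le_Hh {F : Om[X]} (hF : F ∈ IP ν) {g : ℕ} (hg : F.natDegree ≤ 2 * g + 1) {a b : Om}
    (hb : b ^ 2 = F.eval a) : ν b ≤ Hh ν a ^ (g + 1) := by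
  have h1 := IP_eval_le hF (hg.trans (Nat.le_succ _)) a
  rw [← hb, map_pow, show (2 * g + 1).succ = (g + 1) * 2 by omega, pow_mul] at h1
  exact (pow_le_pow_iff_left₀ zero_le zero_le two_ne_zero).mp h1

theorem dd_le_one {g : ℕ} {a b a' b' : Om} (hb : ν b ≤ Hh ν a ^ (g + 1))
    (hb' : ν b' ≤ Hh ν a' ^ (g + 1)) : dd ν g a b a' b' ≤ 1 := by
  have p := Hh_pos (ν := ν) a
  have p' := Hh_pos (ν := ν) a'
  have o := one_le_Hh (ν := ν) a
  have o' := one_le_Hh (ν := ν) a'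
  refine max_le ?_ ?_
  · rw [div_le_one (mul_pos p p')]
    exact (ν.map_sub _ _).trans (max_le ((le_Hh a).trans (le_mul_of_one_le_right' o'))
      ((le_Hh a').trans (le_mul_of_one_le_left' o)))
  · rw [div_le_one (pow_pos (mul_pos p p') _), mul_pow]
    refine max_le ((ν.map_sub _ _).trans (max_le ?_ ?_)) ((ν.map_sub _ _).trans (max_le ?_ ?_))
    · exact hb.trans (le_mul_of_one_le_right' (one_le_pow₀ o'))
    · exact hb'.trans (le_mul_of_one_le_left' (one_le_pow₀ o))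
    · rw [map_mul, map_pow]
      exact mul_le_mul' hb (pow_le_pow_left' (le_Hh a') _)
    · rw [map_mul, map_pow, mul_comm]
      exact mul_le_mul' (pow_le_pow_left' (le_Hh a) _) hb'

theorem cross_le {n : ℕ} {a b a' b' : Om} (ha : ν a ≤ 1) (ha' : ν a' ≤ 1) (hb : ν b ≤ 1) :
    ν (b * a' ^ n - b' * a ^ n) ≤ max (ν (a - a')) (ν (b - b')) := by
  have h1 : b * a' ^ n - b' * a ^ n = b * (a' ^ n - a ^ n) + (b - b') * a ^ n := by ring
  rw [h1]
  refine (ν.map_add _ _).trans (max_le_max ?_ ?_)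
  · rw [map_mul, ν.map_sub_swap a]
    have := IP_eval_sub ((IP ν).pow_mem IP_X n) ha ha'
    simp only [eval_pow, eval_X] at this
    exact (mul_le_of_le_one_left' hb).trans this
  · rw [map_mul, map_pow]
    exact mul_le_of_le_one_right' (pow_le_one₀ zero_le ha)

theorem dd_int {g : ℕ} {a b a' b' : Om} (ha : ν a ≤ 1) (ha' : ν a' ≤ 1) (hb : ν b ≤ 1) :
    dd ν g a b a' b' = max (ν (a - a')) (ν (b - b')) := by
  unfold dd
  rw [Hh_of_le ha, Hh_of_le ha']
  simp only [mul_one, div_one, one_pow]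
  rw [← max_assoc]
  exact max_eq_left (cross_le ha ha' hb)

theorem ne_zero_of_lt {a : Om} (h : 1 < ν a) : a ≠ 0 := by
  intro h0
  rw [h0, map_zero] at h
  exact absurd h (by simp)

theorem dd_mix {g : ℕ} {a b a' b' : Om} (ha : ν a ≤ 1) (ha' : 1 < ν a') :
    1 ≤ dd ν g a b a' b' := by
  refine le_trans ?_ (le_max_left _ _)
  rw [Hh_of_le ha, Hh_of_lt ha', one_mul, ν.map_sub_eq_of_lt_right (lt_of_le_of_lt ha ha'),
    div_self (lt_trans zero_lt_one ha').ne']

theorem dd_inf {g : ℕ} {a b a' b' : Om} (ha : 1 < ν a) (ha' : 1 < ν a')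
    (hb : ν b ≤ Hh ν a ^ (g + 1)) :
    dd ν g a b a' b' = max (ν (a⁻¹ - a'⁻¹)) (ν (b / a ^ (g + 1) - b' / a' ^ (g + 1))) := by
  have h0 := ne_zero_of_lt ha
  have h0' := ne_zero_of_lt ha'
  unfold dd
  rw [Hh_of_lt ha] at hb
  rw [Hh_of_lt ha, Hh_of_lt ha', ← max_div_div_right zero_le]
  have e1 : ν (a - a') / (ν a * ν a') = ν (a⁻¹ - a'⁻¹) := by
    rw [← map_mul, ← map_div₀, ν.map_sub_swap a⁻¹]
    congr 1
    field_simp
  have e2 : ν (b * a' ^ (g + 1) - b' * a ^ (g + 1)) / (ν a * ν a') ^ (g + 1) =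
      ν (b / a ^ (g + 1) - b' / a' ^ (g + 1)) := by
    rw [← map_mul, ← map_pow, ← map_div₀]
    congr 1
    rw [mul_pow]
    field_simp
  have e3 : ν (b - b') / (ν a * ν a') ^ (g + 1) =
      ν (b / a ^ (g + 1) * a'⁻¹ ^ (g + 1) - b' / a' ^ (g + 1) * a⁻¹ ^ (g + 1)) := by
    rw [← map_mul, ← map_pow, ← map_div₀]
    congr 1
    rw [mul_pow, inv_pow, inv_pow]
    field_simp
  rw [e1, e2, e3, max_comm (ν (b / a ^ (g + 1) * a'⁻¹ ^ (g + 1) - _)), ← max_assoc]
  apply max_eq_left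
  apply cross_le
  · rw [map_inv₀]; exact inv_le_one_of_one_le₀ ha.le
  · rw [map_inv₀]; exact inv_le_one_of_one_le₀ ha'.le
  · rw [map_div₀, map_pow]
    exact div_le_one_of_le₀ hb zero_le

theorem dd_neg_le (h2 : ν 2 = 1) (g : ℕ) (a b : Om) :
    dd ν g a b a (-b) ≤ ν b / Hh ν a ^ (g + 1) := by
  have p := Hh_pos (ν := ν) a
  unfold dd
  rw [sub_self, map_zero, zero_div, max_eq_right zero_le, mul_pow,
    div_le_div_iff₀ (mul_pos (pow_pos p _) (pow_pos p _)) (pow_pos p _), ← mul_assoc]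
  refine mul_le_mul' (max_le ?_ ?_) le_rfl
  · rw [show b - -b = 2 * b by ring, map_mul, h2, one_mul]
    exact le_mul_of_one_le_right' (one_le_pow₀ (one_le_Hh a))
  · rw [show b * a ^ (g + 1) - -b * a ^ (g + 1) = 2 * (b * a ^ (g + 1)) by ring, map_mul, h2,
      one_mul, map_mul, map_pow]
    exact mul_le_mul' le_rfl (pow_le_pow_left' (le_Hh a) _)

theorem dd_pos {g : ℕ} {a b a' b' : Om} (h : a ≠ a' ∨ b ≠ b') : 0 < dd ν g a b a' b' := by
  have p := mul_pos (Hh_pos (ν := ν) a) (Hh_pos (ν := ν) a')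
  rcases h with h | h
  · exact lt_of_lt_of_le (div_pos ((ν.pos_iff).mpr (sub_ne_zero.mpr h)) p) (le_max_left _ _)
  · exact lt_of_lt_of_le (div_pos (lt_of_lt_of_le ((ν.pos_iff).mpr (sub_ne_zero.mpr h))
      (le_max_left _ _)) (pow_pos p _)) (le_max_right _ _)

end dist

/-! ### leading values -/

section lv

variable {Om L : Type*} [Field Om] [Field L] [Algebra Om L]
variable [Algebra (RatFunc Om) L] [IsScalarTower Om (RatFunc Om) L] [FiniteDimensional (RatFunc Om) L]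
  [Algebra.IsSeparable (RatFunc Om) L] [IsAlgClosed Om]

theorem divf_zpow {u : L} (hu : u ≠ 0) (n : ℤ) : divf (k := Om) (u ^ n) = n • divf u := by
  obtain ⟨m, rfl | rfl⟩ := n.eq_nat_or_neg
  · rw [zpow_natCast, divf_pow hu, natCast_zsmul]
  · rw [zpow_neg, zpow_natCast, divf_inv (pow_ne_zero _ hu), divf_pow hu, neg_smul, natCast_zsmul]

/-- the leading value of `f` at `Q` for the uniformiser `u` -/
noncomputable def lv (Q : Pl Om L) (u f : L) : Om := ev Q (f / u ^ divf (k := Om) f Q)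

theorem ev_ne_zero {Q : Pl Om L} {f : L} (h : Q.v f = 1) : ev Q f ≠ 0 := by
  intro h0
  have := (ev_eq_zero_iff Q h.le).mp h0
  rw [h] at this
  exact lt_irrefl _ this

theorem lv_reg {Q : Pl Om L} {u f : L} (hu : u ≠ 0) (h1 : divf (k := Om) u Q = 1) (hf : f ≠ 0) :
    Q.v (f / u ^ divf (k := Om) f Q) = 1 := by
  rw [v_eq_one_iff (div_ne_zero hf (zpow_ne_zero _ hu)), divf_div hf (zpow_ne_zero _ hu),
    divf_zpow hu]
  simp [h1]

theorem lv_ne {Q : Pl Om L} {u f : L} (hu : u ≠ 0) (h1 : divf (k := Om) u Q = 1) (hf : f ≠ 0) :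
    lv Q u f ≠ 0 := ev_ne_zero (lv_reg hu h1 hf)

theorem lv_mul {Q : Pl Om L} {u f f' : L} (hu : u ≠ 0) (h1 : divf (k := Om) u Q = 1) (hf : f ≠ 0)
    (hf' : f' ≠ 0) : lv Q u (f * f') = lv Q u f * lv Q u f' := by
  unfold lv
  rw [← ev_mul Q (lv_reg hu h1 hf).le (lv_reg hu h1 hf').le, divf_mul hf hf', Finsupp.add_apply,
    zpow_add₀ hu]
  congr 1
  field_simp

theorem lv_of_zero {Q : Pl Om L} {u f : L} (h : divf (k := Om) f Q = 0) : lv Q u f = ev Q f := by
  unfold lv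
  rw [h, zpow_zero, div_one]

theorem lv_self {Q : Pl Om L} {u : L} (hu : u ≠ 0) (h1 : divf (k := Om) u Q = 1) :
    lv Q u u = 1 := by
  unfold lv
  rw [h1, zpow_one, div_self hu, ev_one]

theorem lv_const (Q : Pl Om L) (u : L) {c : Om} (hc : c ≠ 0) : lv Q u (algebraMap Om L c) = c := by
  rw [lv_of_zero (by rw [divf_const hc]; rfl), ev_const]

theorem lv_one (Q : Pl Om L) (u : L) : lv Q u 1 = 1 := by
  have := lv_const Q u (one_ne_zero (α := Om))
  rwa [map_one] at this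

theorem lv_inv {Q : Pl Om L} {u f : L} (hu : u ≠ 0) (h1 : divf (k := Om) u Q = 1) (hf : f ≠ 0) :
    lv Q u f⁻¹ = (lv Q u f)⁻¹ := by
  apply eq_inv_of_mul_eq_one_left
  rw [← lv_mul hu h1 (inv_ne_zero hf) hf, inv_mul_cancel₀ hf, lv_one]

theorem lv_pow {Q : Pl Om L} {u f : L} (hu : u ≠ 0) (h1 : divf (k := Om) u Q = 1) (hf : f ≠ 0)
    (n : ℕ) : lv Q u (f ^ n) = lv Q u f ^ n := by
  induction n with
  | zero => simp [lv_one]
  | succ n ih => rw [pow_succ, lv_mul hu h1 (pow_ne_zero _ hf) hf, ih, pow_succ]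

theorem lv_zpow {Q : Pl Om L} {u f : L} (hu : u ≠ 0) (h1 : divf (k := Om) u Q = 1) (hf : f ≠ 0)
    (n : ℤ) : lv Q u (f ^ n) = lv Q u f ^ n := by
  obtain ⟨m, rfl | rfl⟩ := n.eq_nat_or_neg
  · rw [zpow_natCast, zpow_natCast, lv_pow hu h1 hf]
  · rw [zpow_neg, zpow_neg, zpow_natCast, zpow_natCast, lv_inv hu h1 (pow_ne_zero _ hf),
      lv_pow hu h1 hf]

theorem lv_prod {Q : Pl Om L} {u : L} (hu : u ≠ 0) (h1 : divf (k := Om) u Q = 1) {ι : Type*}
    (T : Finset ι) (f : ι → L) (hf : ∀ i, f i ≠ 0) :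
    lv Q u (∏ i ∈ T, f i) = ∏ i ∈ T, lv Q u (f i) := by
  classical
  induction T using Finset.induction_on with
  | empty => simp [lv_one]
  | insert i T hi ih =>
    rw [Finset.prod_insert hi, Finset.prod_insert hi,
      lv_mul hu h1 (hf i) (Finset.prod_ne_zero_iff.mpr fun j _ => hf j), ih]

theorem lv_change {Q : Pl Om L} {u u' f : L} (hu : u ≠ 0) (h1 : divf (k := Om) u Q = 1)
    (hu' : u' ≠ 0) (h1' : divf (k := Om) u' Q = 1) (hf : f ≠ 0) :
    lv Q u f = lv Q u' f * lv Q u u' ^ divf (k := Om) f Q := by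
  have h2 : f / u' ^ divf (k := Om) f Q ≠ 0 := div_ne_zero hf (zpow_ne_zero _ hu')
  have h3 : lv Q u' f = lv Q u (f / u' ^ divf (k := Om) f Q) := by
    rw [lv_of_zero ((v_eq_one_iff h2 Q).mp (lv_reg hu' h1' hf))]
    rfl
  rw [h3, ← lv_zpow hu h1 hu', ← lv_mul hu h1 h2 (zpow_ne_zero _ hu'),
    div_mul_cancel₀ _ (zpow_ne_zero _ hu')]

theorem ev_SI (e : SI Om L Om L) (P : Pl Om L) {z : L} (hz : P.v z ≤ 1) :
    ev (e.pl P) (e.f z) = e.s (ev P z) := by
  apply ev_eq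
  rw [← e.comm, ← map_sub, e.pl_v_apply]
  exact ev_spec P hz

theorem lv_SI (e : SI Om L Om L) {Q : Pl Om L} {u f : L} (hu : u ≠ 0) (h1 : divf (k := Om) u Q = 1)
    (hf : f ≠ 0) : lv (e.pl Q) (e.f u) (e.f f) = e.s (lv Q u f) := by
  unfold lv
  rw [← ev_SI e Q (lv_reg hu h1 hf).le, e.divf_f hf, e.D_pl, map_div₀, map_zpow₀]

end lv

end Crest.Agent.T15.Fa
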