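import Mathlib
import Crest.Agent.T15.FaA_51

/-!
# Row 15 (helper51): the height pairing on a constant hyperelliptic curve, part B

Schwarz lemma in a residue disc, the chart at infinity.
-/

set_option autoImplicit false
set_option linter.all false

namespace Crest.Agent.T15.Fa

open Polynomial WithZero Module
open scoped NNReal
open Crest.Agent.R013.RR7_948 Crest.Agent.R013.RR8_948 Crest.Agent.R013.RR9_948
open Crest.Agent.R013.RR11_948 Crest.Agent.R013.RR12_948 Crest.Agent.R013.PicD_398
open Crest.Agent.R013.GR2_921 Crest.Agent.R013.Frob1_914 Crest.Agent.T15.Disc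
open Crest.Agent.T15.Hy

variable {Om L : Type*} [Field Om] [Field L] [Algebra Om L]
variable [Algebra (RatFunc Om) L] [IsScalarTower Om (RatFunc Om) L]
  [FiniteDimensional (RatFunc Om) L] [Algebra.IsSeparable (RatFunc Om) L] [IsAlgClosed Om]
variable {ν : Valuation Om ℝ≥0} {F : Om[X]} {x w : L}

theorem ev_el {P : Pl Om L} {a b : Om} (hP : At P x w a b) (A B : Om[X]) :
    ev P (el x w A B) = A.eval a + B.eval a * b := ev_eq _ (hP.el_sub A B)

theorem divf_el_zero {P : Pl Om L} {a b : Om} (hP : At P x w a b) {A B : Om[X]}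
    (h0 : A.eval a + B.eval a * b ≠ 0) : divf (k := Om) (el x w A B) P = 0 := by
  have h1 := hP.el_eq_one h0
  have h2 : el x w A B ≠ 0 := by
    intro h; rw [h, map_zero] at h1; exact zero_ne_one h1
  exact (v_eq_one_iff h2 P).mp h1

theorem lv_el {P : Pl Om L} {a b : Om} (hP : At P x w a b) (u : L) {A B : Om[X]}
    (h0 : A.eval a + B.eval a * b ≠ 0) : lv P u (el x w A B) = A.eval a + B.eval a * b := by
  rw [lv_of_zero (divf_el_zero hP h0), ev_el hP]

theorem el_x (x w : L) (a : Om) : el x w (X - C a) 0 = x - algebraMap Om L a := by simp [el]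

theorem el_w (x w : L) (b : Om) : el x w (-C b) 1 = w - algebraMap Om L b := by
  simp [el]; ring

/-- `P` lies in the residue disc of `(a', b')` -/
def Near (ν : Valuation Om ℝ≥0) (x w : L) (a' b' : Om) (P : Pl Om L) : Prop :=
  ∃ a b, At P x w a b ∧ ν (a - a') < 1 ∧ ν (b - b') < 1

theorem schwarz_step (h : Hyp F x w) (hL : Loc ν F) {Q P : Pl Om L} {a' b' a b : Om}
    (hQ : At Q x w a' b') (ha' : ν a' ≤ 1) (hb' : b' ≠ 0) (hP : At P x w a b)
    (h1 : ν (a - a') < 1) (h2 : ν (b - b') < 1) {A B : Om[X]} (hA : A ∈ IP ν) (hB : B ∈ IP ν)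
    (h0 : A.eval a + B.eval a * b = 0) :
    ∃ (A' B' : Om[X]) (T U : L), A' ∈ IP ν ∧ B' ∈ IP ν ∧ T ≠ 0 ∧ U ≠ 0 ∧
      el x w A B * U = T * el x w A' B' ∧
      (∀ P', Near ν x w a' b' P' → divf (k := Om) U P' = 0) ∧
      divf (k := Om) T P = 1 ∧
      (∀ P', Near ν x w a' b' P' → P' ≠ P → divf (k := Om) T P' = 0) ∧
      ν (lv Q (x - algebraMap Om L a') U) = 1 ∧
      (P ≠ Q → ν (lv Q (x - algebraMap Om L a') T) ≤ max (ν (a - a')) (ν (b - b'))) ∧
      (P = Q → ν (lv Q (x - algebraMap Om L a') T) * ν b' ≤ 1) := by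
  have sq := hP.sq h.sq
  have sq' := hQ.sq h.sq
  have ha : ν a ≤ 1 := v_le_one_of_near ha' h1
  have hb1' := hL.b_le sq' ha'
  have hb1 := hL.b_le sq ha
  have hu := h.x_sub_ne a'
  have hu1 := h.ord_x hQ hb'
  have hQn : Near ν x w a' b' Q := ⟨a', b', hQ, by simp, by simp⟩
  rcases hb1'.eq_or_lt with hb | hb
  · -- the disc of an ordinary point
    have key : ∀ b'' : Om, ν (b'' - b') < 1 → ν (b + b'') = 1 := by
      intro b'' h3
      apply v_eq_one_of_near (u := 2 * b') (by rw [map_mul, hL.two, hb, one_mul])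
      rw [show b + b'' - 2 * b' = (b - b') + (b'' - b') by ring]
      exact lt_of_le_of_lt (ν.map_add _ _) (max_lt h2 h3)
    have key' : ∀ b'' : Om, ν (b'' - b') < 1 → b + b'' ≠ 0 := by
      intro b'' h3 h4
      have := key b'' h3
      rw [h4, map_zero] at this
      exact zero_ne_one this
    have hb0 : b ≠ 0 := by
      intro h4
      have := key' b h2
      rw [h4, add_zero] at this
      exact this rfl
    obtain ⟨A', B', e1, e2⟩ := div1 sq h0
    have hT : ∀ P', Near ν x w a' b' P' → P' ≠ P →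
        ∀ a'' b'', At P' x w a'' b'' → (X - C a).eval a'' + (0 : Om[X]).eval a'' * b'' ≠ 0 := by
      rintro P' ⟨a1, b1, hP1, h3, h4⟩ hne a'' b'' hP'
      obtain ⟨rfl, rfl⟩ := hP1.eq hP'
      simp only [eval_sub, eval_X, eval_C, eval_zero, zero_mul, add_zero]
      intro h5
      obtain rfl := sub_eq_zero.mp h5
      have h6 : (b + b1) * (b - b1) = 0 := by
        have := hP'.sq h.sq
        linear_combination sq - this
      obtain rfl := sub_eq_zero.mp ((mul_eq_zero.mp h6).resolve_left (key' b1 h4))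
      exact hne (h.at_unique hP' hP)
    refine ⟨A', B', el x w (X - C a) 0, el x w (C b) 1, ?_, ?_, ?_, ?_, el_div1 h.sq e1 e2,
      ?_, ?_, ?_, ?_, ?_, ?_⟩
    · exact IP_div' ((IP ν).add_mem ((IP ν).mul_mem hA (IP_C hb1)) ((IP ν).mul_mem hB hL.int)) ha e1
    · exact IP_div' ((IP ν).add_mem hA ((IP ν).mul_mem hB (IP_C hb1))) ha e2
    · exact h.el_ne (Or.inl (X_sub_C_ne_zero a))
    · exact h.el_ne (Or.inr one_ne_zero)
    · rintro P' ⟨a1, b1, hP1, h3, h4⟩
      exact divf_el_zero hP1 (by simpa using key' b1 h4)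
    · rw [el_x]; exact h.ord_x hP hb0
    · intro P' hn hne
      obtain ⟨a1, b1, hP1, -⟩ := id hn
      exact divf_el_zero hP1 (hT P' hn hne a1 b1 hP1)
    · rw [lv_el hQ _ (by simpa using key' b' (by simp))]
      simpa using key b' (by simp)
    · intro hne
      rw [lv_el hQ _ (hT Q hQn hne.symm a' b' hQ)]
      simp only [eval_sub, eval_X, eval_C, eval_zero, zero_mul, add_zero]
      rw [ν.map_sub_swap]
      exact le_max_left _ _
    · rintro rfl
      obtain ⟨rfl, rfl⟩ := hP.eq hQ
      rw [el_x, lv_self hu hu1, map_one, one_mul]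
      exact hb1
  · -- the disc of a Weierstrass point
    have hbl : ν b < 1 := v_lt_one_of_near hb h2
    have hd : ν (F.derivative.eval a) = 1 := by
      apply hL.sep a ha
      rw [← sq, map_pow]
      exact pow_lt_one₀ zero_le hbl two_ne_zero
    obtain ⟨G, hG, hGa⟩ := exists_G F a
    have hGI : G ∈ IP ν := IP_div hL.int ha hG
    have key : ∀ a'' : Om, ν (a'' - a') < 1 → ν (G.eval a'') = 1 := by
      intro a'' h3
      apply v_eq_one_of_near (u := G.eval a) (by rw [hGa, hd])
      exact lt_of_le_of_lt (IP_eval_sub hGI ha (v_le_one_of_near ha' h3)) (v_sub_lt_trans h3 h1)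
    have key' : ∀ a'' : Om, ν (a'' - a') < 1 → G.eval a'' ≠ 0 := by
      intro a'' h3 h4
      have := key a'' h3
      rw [h4, map_zero] at this
      exact zero_ne_one this
    have hG0 : G ≠ 0 := by
      intro h4
      exact key' a h1 (by rw [h4, eval_zero])
    rw [← sq] at hG
    obtain ⟨B', e2⟩ := exists_div h0
    have hB' : B' ∈ IP ν := IP_div' ((IP ν).add_mem hA ((IP ν).mul_mem hB (IP_C hb1))) ha e2
    have hT : ∀ P', Near ν x w a' b' P' → P' ≠ P →
        ∀ a'' b'', At P' x w a'' b'' → (-C b).eval a'' + (1 : Om[X]).eval a'' * b'' ≠ 0 := by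
      rintro P' ⟨a1, b1, hP1, h3, h4⟩ hne a'' b'' hP'
      obtain ⟨rfl, rfl⟩ := hP1.eq hP'
      simp only [eval_neg, eval_C, eval_one, one_mul]
      intro h5
      obtain rfl : b = b1 := by linear_combination -h5
      have h6 : (a1 - a) * G.eval a1 = 0 := by
        have h7 := hP'.sq h.sq
        have h8 := congrArg (eval a1) hG
        simp only [eval_add, eval_mul, eval_sub, eval_X, eval_C] at h8
        linear_combination -h7 - h8
      obtain rfl := sub_eq_zero.mp ((mul_eq_zero.mp h6).resolve_right (key' a1 h3))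
      exact hne (h.at_unique hP' hP)
    have hTne : el x w (-C b) 1 ≠ 0 := h.el_ne (Or.inr one_ne_zero)
    have hUne : el x w G 0 ≠ 0 := h.el_ne (Or.inl hG0)
    have hlU : ν (lv Q (x - algebraMap Om L a') (el x w G 0)) = 1 := by
      rw [lv_el hQ _ (by simpa using key' a' (by simp))]
      simpa using key a' (by simp)
    refine ⟨C b * B' + B * G, B', el x w (-C b) 1, el x w G 0, ?_, hB', hTne, hUne,
      el_div2 h.sq hG e2, ?_, ?_, ?_, hlU, ?_, ?_⟩
    · exact (IP ν).add_mem ((IP ν).mul_mem (IP_C hb1) hB') ((IP ν).mul_mem hB hGI)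
    · rintro P' ⟨a1, b1, hP1, h3, h4⟩
      exact divf_el_zero hP1 (by simpa using key' a1 h3)
    · rw [el_w]
      apply h.ord_w hP
      intro h4
      rw [h4, map_zero] at hd
      exact zero_ne_one hd
    · intro P' hn hne
      obtain ⟨a1, b1, hP1, -⟩ := id hn
      exact divf_el_zero hP1 (hT P' hn hne a1 b1 hP1)
    · intro hne
      rw [lv_el hQ _ (hT Q hQn hne.symm a' b' hQ)]
      simp only [eval_neg, eval_C, eval_one, one_mul]
      rw [show -b + b' = -(b - b') by ring, ν.map_neg]
      exact le_max_right _ _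
    · rintro rfl
      obtain ⟨rfl, rfl⟩ := hP.eq hQ
      have e3 : el x w (-C b) 1 * el x w (C b) 1 = (x - algebraMap Om L a) * el x w G 0 := by
        have h8 := congrArg (aeval x) hG
        simp only [map_add, map_mul, map_sub, aeval_X, aeval_C, map_pow] at h8
        simp only [el, map_neg, aeval_C, map_one, map_zero]
        linear_combination h.sq + h8
      have h9 : (C b).eval a + (1 : Om[X]).eval a * b ≠ 0 := by
        simp only [eval_C, eval_one, one_mul]
        rw [← two_mul]
        exact mul_ne_zero h.two hb'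
      have e4 := congrArg (fun z => ν (lv P (x - algebraMap Om L a) z)) e3
      rw [lv_mul hu hu1 hTne (h.el_ne (Or.inr one_ne_zero)), lv_mul hu hu1 hu hUne,
        lv_self hu hu1, one_mul, hlU, lv_el hP _ h9, map_mul] at e4
      simp only [eval_C, eval_one, one_mul] at e4
      rw [← two_mul, map_mul, hL.two, one_mul] at e4
      exact e4.le

/-- Schwarz lemma -/
theorem schwarz (h : Hyp F x w) (hL : Loc ν F) {Q : Pl Om L} {a' b' : Om}
    (hQ : At Q x w a' b') (ha' : ν a' ≤ 1) (hb' : b' ≠ 0) (T : Finset (Pl Om L)) (hQT : Q ∈ T)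
    (δ : Pl Om L → ℝ≥0)
    (hT : ∀ P ∈ T, ∃ a b, At P x w a b ∧ ν (a - a') < 1 ∧ ν (b - b') < 1 ∧
      (P ≠ Q → max (ν (a - a')) (ν (b - b')) ≤ δ P))
    (hδ : 1 ≤ δ Q * ν b') (m : ℕ) :
    ∀ (n : Pl Om L → ℕ) (A B : Om[X]), ∑ P ∈ T, n P = m → A ∈ IP ν → B ∈ IP ν →
      el x w A B ≠ 0 → (∀ P ∈ T, (n P : ℤ) ≤ divf (k := Om) (el x w A B) P) →
      (n Q : ℤ) = divf (k := Om) (el x w A B) Q →
      ν (lv Q (x - algebraMap Om L a') (el x w A B)) ≤ ∏ P ∈ T, δ P ^ n P := by
  classical
  have hu := h.x_sub_ne a'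
  have hu1 := h.ord_x hQ hb'
  have hb1' := hL.b_le (hQ.sq h.sq) ha'
  induction m with
  | zero =>
    intro n A B hs hA hB hne hle heq
    have h0 : ∀ P ∈ T, n P = 0 := Finset.sum_eq_zero_iff.mp hs
    rw [Finset.prod_eq_one (fun P hP => by rw [h0 P hP, pow_zero]),
      lv_of_zero (by rw [← heq, h0 Q hQT]; rfl), ev_el hQ]
    refine (ν.map_add _ _).trans (max_le (IP_eval_le_one hA ha') ?_)
    rw [map_mul]
    exact mul_le_one' (IP_eval_le_one hB ha') hb1'
  | succ m ih =>
    intro n A B hs hA hB hne hle heq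
    obtain ⟨P, hPT, hP0⟩ : ∃ P ∈ T, n P ≠ 0 :=
      Finset.exists_ne_zero_of_sum_ne_zero (by rw [hs]; exact Nat.succ_ne_zero m)
    obtain ⟨a, b, hP, h1, h2, h3⟩ := hT P hPT
    have h0 : A.eval a + B.eval a * b = 0 := by
      rw [← hP.el_lt_iff, v_lt_one_iff hne]
      have := hle P hPT
      omega
    obtain ⟨A', B', T0, U, hA', hB', hT0, hU, he, d1, d2, d3, l1, l2, l3⟩ :=
      schwarz_step h hL hQ ha' hb' hP h1 h2 hA hB h0
    have hne' : el x w A' B' ≠ 0 := by
      intro h4
      rw [h4, mul_zero] at he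
      exact mul_ne_zero hne hU he
    have hnear : ∀ P' ∈ T, Near ν x w a' b' P' := fun P' hP' => by
      obtain ⟨a1, b1, e1, e2, e3, -⟩ := hT P' hP'
      exact ⟨a1, b1, e1, e2, e3⟩
    have hdiv : ∀ P' ∈ T, divf (k := Om) (el x w A' B') P' =
        divf (k := Om) (el x w A B) P' - if P' = P then 1 else 0 := by
      intro P' hP'
      have h5 := congrArg (fun z => divf (k := Om) z P') he
      rw [divf_mul hne hU, divf_mul hT0 hne', Finsupp.add_apply, Finsupp.add_apply,
        d1 P' (hnear P' hP')] at h5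
      split_ifs with h6
      · subst h6
        rw [d2] at h5
        omega
      · rw [d3 P' (hnear P' hP') h6] at h5
        omega
    have hs' : ∑ P' ∈ T, Function.update n P (n P - 1) P' = m := by
      rw [Finset.sum_update_of_mem hPT]
      rw [← Finset.add_sum_erase T n hPT, ← Finset.sdiff_singleton_eq_erase] at hs
      omega
    have hup : ∀ P', ((Function.update n P (n P - 1) P' : ℕ) : ℤ) =
        n P' - if P' = P then 1 else 0 := by
      intro P'
      split_ifs with h6
      · subst h6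
        rw [Function.update_self]
        omega
      · rw [Function.update_of_ne h6, sub_zero]
    have h7 := ih (Function.update n P (n P - 1)) A' B' hs' hA' hB' hne'
      (fun P' hP' => by rw [hup, hdiv P' hP']; have := hle P' hP'; omega)
      (by rw [hup, hdiv Q hQT, heq])
    have h8 := congrArg (fun z => ν (lv Q (x - algebraMap Om L a') z)) he
    rw [lv_mul hu hu1 hne hU, lv_mul hu hu1 hT0 hne', map_mul, map_mul, l1, mul_one] at h8
    have h9 : ν (lv Q (x - algebraMap Om L a') T0) ≤ δ P := by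
      by_cases h6 : P = Q
      · have h10 := l3 h6
        rw [h6]
        have hpos : 0 < ν b' := (ν.pos_iff).mpr hb'
        exact le_of_mul_le_mul_right (h10.trans hδ) hpos
      · exact (l2 h6).trans (h3 h6)
    have h10 : ∏ P' ∈ T, δ P' ^ n P' =
        δ P * ∏ P' ∈ T, δ P' ^ Function.update n P (n P - 1) P' := by
      rw [← Finset.mul_prod_erase T _ hPT, ← Finset.mul_prod_erase T _ hPT, Function.update_self,
        ← mul_assoc, ← pow_succ', Nat.sub_add_cancel (Nat.one_le_iff_ne_zero.mpr hP0)]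
      congr 1
      refine Finset.prod_congr rfl fun P' hP' => ?_
      rw [Function.update_of_ne (Finset.ne_of_mem_erase hP')]
    rw [h8, h10]
    exact mul_le_mul' h9 h7

end Crest.Agent.T15.Fa
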