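import Mathlib
import Crest.Agent.T15.FaB_51

/-!
# Row 15 (helper51): the height pairing on a constant hyperelliptic curve, part C

The chart at infinity and the upper bound for leading values.
-/

set_option autoImplicit false
set_option linter.all false

namespace Crest.Agent.T15.Fa

open Polynomial WithZero Module
open scoped NNReal
open Crest.Agent.R013.RR7_948 Crest.Agent.R013.RR8_948 Crest.Agent.R013.RR9_948
open Crest.Agent.R013.RR11_948 Crest.Agent.R013.RR12_948 Crest.Agent.R013.PicD_398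
open Crest.Agent.R013.GR2_921 Crest.Agent.R013.Frob1_914 Crest.Agent.T15.Disc
open Crest.Agent.T15.Hy

section refl

theorem aeval_reflect {K M : Type*} [Field K] [Field M] [Algebra K M] {z : M} (hz : z ≠ 0)
    {A : K[X]} {N : ℕ} (hA : A.natDegree ≤ N) :
    aeval z⁻¹ (reflect N A) = aeval z A * z⁻¹ ^ N := by
  letI := invertibleOfNonzero hz
  have h := eval₂_reflect_mul_pow (algebraMap K M) z N A hA
  rw [invOf_eq_inv] at h
  rw [aeval_def, aeval_def, ← h, mul_assoc, ← mul_pow, mul_inv_cancel₀ hz, one_pow, mul_one]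

theorem reflect_coeff_zero {K : Type*} [Field K] (F : K[X]) :
    (reflect (F.natDegree + 1) F).coeff 0 = 0 := by
  rw [coeff_reflect, revAt_zero]
  exact coeff_eq_zero_of_natDegree_lt (Nat.lt_succ_self _)

theorem reflect_coeff_one {K : Type*} [Field K] (F : K[X]) :
    (reflect (F.natDegree + 1) F).coeff 1 = F.leadingCoeff := by
  rw [coeff_reflect, revAt_le (Nat.le_add_left _ _), Nat.add_sub_cancel]
  rfl

theorem sep_reflect {K : Type*} [Field K] [IsAlgClosed K] {F : K[X]} (hF : F.Separable) :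
    (reflect (F.natDegree + 1) F).Separable := by
  have hF0 : F ≠ 0 := hF.ne_zero
  rw [Separable, isCoprime_iff_aeval_ne_zero_of_isAlgClosed K K]
  intro t
  by_contra hc
  push Not at hc
  obtain ⟨h1, h2⟩ := hc
  rw [coe_aeval_eq_eval] at h1 h2
  by_cases ht : t = 0
  · subst ht
    rw [← coeff_zero_eq_eval_zero, coeff_derivative, zero_add, reflect_coeff_one] at h2
    simp [hF0] at h2
  · obtain ⟨G, hG, hGa⟩ := exists_G (reflect (F.natDegree + 1) F) t
    rw [h1, C_0, add_zero] at hG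
    rw [h2] at hGa
    obtain ⟨G2, hG2⟩ := dvd_iff_isRoot.mpr hGa
    have h0 : reflect (F.natDegree + 1) F ≠ 0 := by rwa [Ne, reflect_eq_zero_iff]
    have hG0 : G ≠ 0 := by intro h; rw [h, mul_zero] at hG; exact h0 hG
    have hG20 : G2 ≠ 0 := by intro h; rw [h, mul_zero] at hG2; exact hG0 hG2
    have hd : (reflect (F.natDegree + 1) F).natDegree ≤ F.natDegree + 1 :=
      natDegree_reflect_le.trans (max_le le_rfl (Nat.le_succ _))
    rw [hG, hG2, natDegree_mul (X_sub_C_ne_zero t) (by rw [← hG2]; exact hG0),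
      natDegree_mul (X_sub_C_ne_zero t) hG20, natDegree_X_sub_C] at hd
    obtain ⟨m, hm⟩ : ∃ m, F.natDegree + 1 = 1 + (1 + m) := ⟨F.natDegree - 1, by omega⟩
    have h3 : F = reflect 1 (X - C t) * (reflect 1 (X - C t) * reflect m G2) := by
      rw [← reflect_mul _ _ (natDegree_X_sub_C t).le (by omega : G2.natDegree ≤ m), ← hG2,
        ← reflect_mul _ _ (natDegree_X_sub_C t).le, ← hG, ← hm, reflect_reflect]
      rw [hG2, natDegree_mul (X_sub_C_ne_zero t) hG20, natDegree_X_sub_C]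
      omega
    have h4 : IsUnit (reflect 1 (X - C t)) :=
      hF.squarefree _ ⟨reflect m G2, by rw [mul_assoc]; exact h3⟩
    have h5 := (h4.map (evalRingHom t⁻¹)).ne_zero
    apply h5
    rw [reflect_sub, reflect_one_X, reflect_C]
    simp [ht]

end refl

variable {Om L : Type*} [Field Om] [Field L] [Algebra Om L]
variable {ν : Valuation Om ℝ≥0} {F : Om[X]} {x w : L} {g : ℕ}

theorem el_reflect (hx : x ≠ 0) (w : L) (g : ℕ) {A B : Om[X]} {M : ℕ}
    (hA : A.natDegree ≤ M + (g + 1)) (hB : B.natDegree ≤ M) :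
    el x⁻¹ (w / x ^ (g + 1)) (reflect (M + (g + 1)) A) (reflect M B) =
      el x w A B * x⁻¹ ^ (M + (g + 1)) := by
  unfold el
  rw [aeval_reflect hx hA, aeval_reflect hx hB, div_eq_mul_inv, ← inv_pow]
  ring

theorem hyp_inf [IsAlgClosed Om] (h : Hyp F x w) (hg : F.natDegree = 2 * g + 1) :
    Hyp (reflect (F.natDegree + 1) F) x⁻¹ (w / x ^ (g + 1)) where
  two := h.two
  sep := sep_reflect h.sep
  pos := le_natDegree_of_ne_zero (n := 1) (by
    rw [reflect_coeff_one]; exact leadingCoeff_ne_zero.mpr h.F_ne)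
  tr := fun p hp => by
    have h1 := aeval_reflect (inv_ne_zero h.x_ne) (le_refl p.natDegree)
    rw [inv_inv, hp, zero_mul] at h1
    exact reflect_eq_zero_iff.mp (h.tr _ h1)
  sq := by
    rw [aeval_reflect h.x_ne (Nat.le_add_right _ 1), ← h.sq, hg, div_eq_mul_inv, ← inv_pow]
    ring
  gen := fun f => by
    obtain ⟨A, B, c, hc, hf⟩ := h.gen f
    refine ⟨reflect (A.natDegree + B.natDegree + c.natDegree + (g + 1)) A,
      reflect (A.natDegree + B.natDegree + c.natDegree) B,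
      reflect (A.natDegree + B.natDegree + c.natDegree + (g + 1)) c,
      by rwa [Ne, reflect_eq_zero_iff], ?_⟩
    rw [el_reflect h.x_ne w g (by omega) (by omega), aeval_reflect h.x_ne (by omega), ← mul_assoc,
      hf]

theorem IP_reflect {A : Om[X]} (hA : A ∈ IP ν) (N : ℕ) : reflect N A ∈ IP ν :=
  IP_of_coeff fun i => by rw [coeff_reflect]; exact IP_coeff hA _

/-- good reduction data, both charts -/
structure LocB (ν : Valuation Om ℝ≥0) (F : Om[X]) : Prop where
  aff : Loc ν F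
  inf : Loc ν (reflect (F.natDegree + 1) F)
  lc : ν F.leadingCoeff = 1

theorem locB_of {k : Type*} [Field k] [IsAlgClosed k] [Algebra k Om]
    (hν : ∀ c : k, c ≠ 0 → ν (algebraMap k Om c) = 1) (h2 : (2 : Om) ≠ 0) {F : k[X]}
    (hF : F.Separable) : LocB ν (F.map (algebraMap k Om)) := by
  refine ⟨loc_of hν h2 hF, ?_, ?_⟩
  · rw [reflect_map, natDegree_map]
    exact loc_of hν h2 (sep_reflect hF)
  · rw [leadingCoeff_map]
    exact hν _ (leadingCoeff_ne_zero.mpr hF.ne_zero)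

theorem LocB.sq_le (hL : LocB ν F) {t s : Om} (ht : ν t ≤ 1)
    (hs : s ^ 2 = (reflect (F.natDegree + 1) F).eval t) :
    max (ν (0 - t)) (ν (0 - s)) ^ 2 ≤ ν t := by
  rw [zero_sub, zero_sub, ν.map_neg, ν.map_neg]
  rcases le_total (ν t) (ν s) with h | h
  · rw [max_eq_right h, ← map_pow, hs]
    have := IP_eval_sub hL.inf.int (a := 0) (by simp) ht
    rwa [← coeff_zero_eq_eval_zero, reflect_coeff_zero, sub_zero, sub_zero] at this
  · rw [max_eq_left h, sq]
    exact mul_le_of_le_one_right' ht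

variable [Algebra (RatFunc Om) L] [IsScalarTower Om (RatFunc Om) L]
  [FiniteDimensional (RatFunc Om) L] [Algebra.IsSeparable (RatFunc Om) L] [IsAlgClosed Om]

theorem at_inv {P : Pl Om L} {a b : Om} (hP : At P x w a b) (ha : a ≠ 0) (g : ℕ) :
    At P x⁻¹ (w / x ^ (g + 1)) a⁻¹ (b / a ^ (g + 1)) := by
  have h1 : P.v x = 1 := v_eq_one_of_sub P hP.1 ha
  have h0 : x ≠ 0 := by intro h; rw [h, map_zero] at h1; exact zero_ne_one h1
  have h2 : P.v x⁻¹ ≤ 1 := by rw [map_inv₀, h1, inv_one]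
  have h3 : ev P x⁻¹ = a⁻¹ := by
    apply eq_inv_of_mul_eq_one_left
    rw [← ev_eq P hP.1, ← ev_mul P h2 h1.le, inv_mul_cancel₀ h0, ev_one]
  have h4 : P.v (x⁻¹ ^ (g + 1)) ≤ 1 := by rw [map_pow]; exact pow_le_one₀ zero_le h2
  constructor
  · rw [← h3]; exact ev_spec P h2
  · have h5 : ev P (w * x⁻¹ ^ (g + 1)) = b / a ^ (g + 1) := by
      rw [ev_mul P hP.w_le h4, ev_pow P h2, h3, ev_eq P hP.2, inv_pow, div_eq_mul_inv]
    rw [← h5, div_eq_mul_inv, ← inv_pow]
    apply ev_spec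
    rw [map_mul]
    exact mul_le_one' hP.w_le h4

theorem at_inf (h : Hyp F x w) (hg : F.natDegree = 2 * g + 1) {P : Pl Om L} (hP : 1 < P.v x) :
    At P x⁻¹ (w / x ^ (g + 1)) 0 0 := by
  have h1 : P.v (x⁻¹ - algebraMap Om L 0) < 1 := by
    rw [map_zero, sub_zero, map_inv₀]
    exact inv_lt_one_of_one_lt₀ hP
  refine ⟨h1, ?_⟩
  have h2 := v_aeval_sub P h1 (reflect (F.natDegree + 1) F)
  rw [← coeff_zero_eq_eval_zero, reflect_coeff_zero, map_zero, sub_zero, ← (hyp_inf h hg).sq,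
    map_pow] at h2
  rw [map_zero, sub_zero]
  exact (pow_lt_one_iff_of_nonneg zero_le two_ne_zero).mp h2

theorem divf_x_inf (h : Hyp F x w) (hg : F.natDegree = 2 * g + 1) {P : Pl Om L} (hP : 1 < P.v x) :
    divf (k := Om) x⁻¹ P = 2 := by
  have := (hyp_inf h hg).ord_x0 (at_inf h hg hP)
  rwa [map_zero, sub_zero] at this

theorem schwarz' (h : Hyp F x w) (hL : Loc ν F) {Q : Pl Om L} {a' b' : Om}
    (hQ : At Q x w a' b') (ha' : ν a' ≤ 1) (hb' : b' ≠ 0) (S : Finset (Pl Om L)) (hQS : Q ∈ S)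
    (δ : Pl Om L → ℝ≥0) (n : Pl Om L → ℕ) {A B : Om[X]} (hA : A ∈ IP ν) (hB : B ∈ IP ν)
    (hne : el x w A B ≠ 0)
    (hS : ∀ P ∈ S, P ≠ Q → 1 ≤ δ P ∨ ((n P : ℤ) ≤ divf (k := Om) (el x w A B) P ∧
      ∃ a b, At P x w a b ∧ max (ν (a - a')) (ν (b - b')) ≤ δ P))
    (hδ : 1 ≤ δ Q * ν b') (hn : (n Q : ℤ) = divf (k := Om) (el x w A B) Q) :
    ν (lv Q (x - algebraMap Om L a') (el x w A B)) ≤ ∏ P ∈ S, δ P ^ n P := by
  classical
  have key : ∀ P ∈ S.filter (fun P => P = Q ∨ δ P < 1), P ≠ Q →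
      δ P < 1 ∧ (n P : ℤ) ≤ divf (k := Om) (el x w A B) P ∧
      ∃ a b, At P x w a b ∧ max (ν (a - a')) (ν (b - b')) ≤ δ P := by
    intro P hP hne
    obtain ⟨h1, h2⟩ := Finset.mem_filter.mp hP
    have h3 := h2.resolve_left hne
    exact ⟨h3, (hS P h1 hne).resolve_left (not_le.mpr h3)⟩
  have h1 := schwarz h hL hQ ha' hb' (S.filter fun P => P = Q ∨ δ P < 1)
    (Finset.mem_filter.mpr ⟨hQS, Or.inl rfl⟩) δ (fun P hP => by
      by_cases hPQ : P = Q
      · exact ⟨a', b', hPQ ▸ hQ, by simp, by simp, fun h => absurd hPQ h⟩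
      · obtain ⟨h1, -, a, b, h2, h3⟩ := key P hP hPQ
        exact ⟨a, b, h2, lt_of_le_of_lt ((le_max_left _ _).trans h3) h1,
          lt_of_le_of_lt ((le_max_right _ _).trans h3) h1, fun _ => h3⟩) hδ _ n A B rfl hA hB hne
    (fun P hP => by
      by_cases hPQ : P = Q
      · rw [hPQ, hn]
      · exact (key P hP hPQ).2.1) hn
  refine h1.trans (Finset.prod_le_prod_of_subset_of_one_le' (Finset.filter_subset _ _) ?_)
  intro P hP hP'
  apply one_le_pow₀
  by_contra hc
  exact hP' (Finset.mem_filter.mpr ⟨hP, Or.inr (not_le.mp hc)⟩)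

theorem divf_el_nonneg (h : Hyp F x w) {A B : Om[X]} (hne : el x w A B ≠ 0) {P : Pl Om L}
    (hP : P.v x ≤ 1) : 0 ≤ divf (k := Om) (el x w A B) P :=
  (v_le_one_iff hne P).mp ((h.at_ev hP).el_le A B)

theorem sum_aff (h : Hyp F x w) (hg : F.natDegree = 2 * g + 1) {D : Pl Om L →₀ ℤ}
    {S : Finset (Pl Om L)} (hS : ∀ P ∈ S, P.v x ≤ 1) (hD : ∀ P, P.v x ≤ 1 → D P ≠ 0 → P ∈ S)
    {W : Pl Om L} (hW : 1 < W.v x) : degD D = D W + ∑ P ∈ S, D P := by
  classical
  have hWS : W ∉ S := fun h1 => absurd (hS W h1) (not_le.mpr hW)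
  rw [degD_eq_sum, ← Finset.sum_insert hWS]
  apply Finsupp.sum_of_support_subset _ _ _ (fun _ _ => rfl)
  intro P hP
  rcases le_or_gt (P.v x) 1 with h1 | h1
  · exact Finset.mem_insert_of_mem (hD P h1 (Finsupp.mem_support_iff.mp hP))
  · rw [h.inf_unique ⟨g, hg⟩ h1 hW]
    exact Finset.mem_insert_self _ _

open Classical in
/-- the local factor -/
noncomputable def del (ν : Valuation Om ℝ≥0) (g : ℕ) (x w : L) (P Q : Pl Om L) : ℝ≥0 :=
  if P = Q then (dd ν g (ev Q x) (ev Q w) (ev Q x) (-ev Q w))⁻¹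
  else dd ν g (ev P x) (ev P w) (ev Q x) (ev Q w)

theorem del_self (Q : Pl Om L) :
    del ν g x w Q Q = (dd ν g (ev Q x) (ev Q w) (ev Q x) (-ev Q w))⁻¹ := if_pos rfl

theorem del_ne {P Q : Pl Om L} (h : P ≠ Q) :
    del ν g x w P Q = dd ν g (ev P x) (ev P w) (ev Q x) (ev Q w) := if_neg h

theorem ne_neg_of (h2 : (2 : Om) ≠ 0) {b : Om} (hb : b ≠ 0) : b ≠ -b := fun h3 =>
  mul_ne_zero h2 hb (by linear_combination h3)

/-- the upper bound -/
theorem upper (h : Hyp F x w) (hg : F.natDegree = 2 * g + 1) (hL : LocB ν F) {Q : Pl Om L}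
    (hQ : Q.v x ≤ 1) (hb' : ev Q w ≠ 0) {A B : Om[X]} (hA : A ∈ IP ν) (hB : B ∈ IP ν)
    (hne : el x w A B ≠ 0) {S : Finset (Pl Om L)} (hS : ∀ P ∈ S, P.v x ≤ 1) (hQS : Q ∈ S)
    (hD : ∀ P, P.v x ≤ 1 → divf (k := Om) (el x w A B) P ≠ 0 → P ∈ S) :
    ν (lv Q (x - algebraMap Om L (ev Q x)) (el x w A B)) ^ 2 *
        Hh ν (ev Q x) ^ (4 * (divf (k := Om) (el x w A B) Q).toNat) ≤
      ∏ P ∈ S, (del ν g x w P Q ^ 2 * Hh ν (ev Q x)) ^ (divf (k := Om) (el x w A B) P).toNat := by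
  classical
  have hQa := h.at_ev hQ
  have hpos : 0 < dd ν g (ev Q x) (ev Q w) (ev Q x) (-ev Q w) :=
    dd_pos (Or.inr (ne_neg_of h.two hb'))
  have hneg := dd_neg_le hL.aff.two g (ev Q x) (ev Q w)
  have hδ : 1 ≤ del ν g x w Q Q * (ν (ev Q w) / Hh ν (ev Q x) ^ (g + 1)) := by
    rw [del_self, mul_comm, ← div_eq_mul_inv, one_le_div hpos]
    exact hneg
  have hn : ∀ P, P.v x ≤ 1 → (((divf (k := Om) (el x w A B) P).toNat : ℕ) : ℤ) =
      divf (k := Om) (el x w A B) P := fun P hP => Int.toNat_of_nonneg (divf_el_nonneg h hne hP)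
  rcases le_or_gt (ν (ev Q x)) 1 with ha' | ha'
  · rw [Hh_of_le ha'] at hδ ⊢
    rw [one_pow, div_one] at hδ
    simp only [one_pow, mul_one]
    have h1 := schwarz' h hL.aff hQa ha' hb' S hQS (fun P => del ν g x w P Q)
      (fun P => (divf (k := Om) (el x w A B) P).toNat) hA hB hne (fun P hP hPQ => by
        rw [del_ne hPQ]
        rcases le_or_gt (ν (ev P x)) 1 with ha | ha
        · right
          have hPa := h.at_ev (hS P hP)
          exact ⟨(hn P (hS P hP)).le, _, _, hPa,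
            (dd_int ha ha' (hL.aff.b_le (hPa.sq h.sq) ha)).ge⟩
        · left
          rw [dd_symm]
          exact dd_mix ha' ha) hδ (hn Q hQ)
    refine (pow_le_pow_left' h1 2).trans (le_of_eq ?_)
    rw [← Finset.prod_pow]
    exact Finset.prod_congr rfl fun P _ => by rw [← pow_mul, ← pow_mul, mul_comm]
  · obtain ⟨W, hW⟩ := h.exists_inf
    have hWS : W ∉ S := fun h1 => absurd (hS W h1) (not_le.mpr hW)
    have hWQ : W ≠ Q := fun h1 => hWS (h1 ▸ hQS)
    have h' := hyp_inf h hg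
    have ha0 := ne_zero_of_lt ha'
    have hQa' := at_inv hQa ha0 g
    have ht : ν (ev Q x)⁻¹ ≤ 1 := by rw [map_inv₀]; exact inv_le_one_of_one_le₀ ha'.le
    set N := A.natDegree + B.natDegree + (g + 1) with hN
    have he := el_reflect h.x_ne w g (A := A) (B := B) (M := A.natDegree + B.natDegree)
      (by omega) (by omega)
    rw [← hN] at he
    have hxi : x⁻¹ ≠ 0 := inv_ne_zero h.x_ne
    have hne' : el x w A B * x⁻¹ ^ N ≠ 0 := mul_ne_zero hne (pow_ne_zero _ hxi)
    have hdv : ∀ P, divf (k := Om) (el x w A B * x⁻¹ ^ N) P =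
        divf (k := Om) (el x w A B) P + N * divf (k := Om) x⁻¹ P := fun P => by
      rw [divf_mul hne (pow_ne_zero _ hxi), divf_pow hxi]; simp
    have hz : ∀ P : Pl Om L, P.v x ≤ 1 → ev P x ≠ 0 → divf (k := Om) x⁻¹ P = 0 := fun P hP h0 => by
      rw [← v_eq_one_iff hxi, map_inv₀, v_eq_one_of_sub P (h.at_ev hP).1 h0, inv_one]
    have hWa := at_inf h hg hW
    have hWn : 0 ≤ divf (k := Om) (el x w A B * x⁻¹ ^ N) W := by
      rw [← v_le_one_iff hne', ← he]; exact hWa.el_le _ _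
    have hsum := sum_aff h hg hS hD hW
    rw [degD_divf hne] at hsum
    have hr : (divf (k := Om) (el x w A B * x⁻¹ ^ N) W).toNat +
        ∑ P ∈ S, (divf (k := Om) (el x w A B) P).toNat = 2 * N := by
      have h1 := Int.toNat_of_nonneg hWn
      have h2 : ((∑ P ∈ S, (divf (k := Om) (el x w A B) P).toNat : ℕ) : ℤ) =
          ∑ P ∈ S, divf (k := Om) (el x w A B) P := by
        rw [Nat.cast_sum]; exact Finset.sum_congr rfl fun P hP => hn P (hS P hP)
      have h3 := hdv W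
      rw [divf_x_inf h hg hW] at h3
      omega
    have h1 := schwarz' h' hL.inf hQa' ht (div_ne_zero hb' (pow_ne_zero _ ha0)) (insert W S)
      (Finset.mem_insert_of_mem hQS)
      (fun P => if P = W then max (ν (0 - (ev Q x)⁻¹)) (ν (0 - ev Q w / ev Q x ^ (g + 1)))
        else del ν g x w P Q)
      (fun P => if P = W then (divf (k := Om) (el x w A B * x⁻¹ ^ N) W).toNat
        else (divf (k := Om) (el x w A B) P).toNat)
      (IP_reflect hA N) (IP_reflect hB (A.natDegree + B.natDegree)) (by rw [he]; exact hne')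
      (fun P hP hPQ => by
        rw [he]
        by_cases hPW : P = W
        · right
          simp only [hPW, if_true]
          exact ⟨(Int.toNat_of_nonneg hWn).le, _, _, hWa, le_rfl⟩
        · have hP' := (Finset.mem_insert.mp hP).resolve_left hPW
          simp only [hPW, if_false]
          rw [del_ne hPQ]
          rcases le_or_gt (ν (ev P x)) 1 with ha | ha
          · exact Or.inl (dd_mix ha ha')
          · right
            have hPa := h.at_ev (hS P hP')
            refine ⟨?_, _, _, at_inv hPa (ne_zero_of_lt ha) g,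
              (dd_inf ha ha' (b_le_Hh hL.aff.int hg.le (hPa.sq h.sq))).ge⟩
            rw [hdv, hz P (hS P hP') (ne_zero_of_lt ha), hn P (hS P hP')]
            simp)
      (by
        simp only [hWQ.symm, if_false]
        rwa [map_div₀, map_pow, ← Hh_of_lt ha'])
      (by
        simp only [hWQ.symm, if_false]
        rw [he, hdv, hz Q hQ ha0, hn Q hQ]
        simp)
    rw [he, Finset.prod_insert hWS] at h1
    simp only [if_true] at h1
    rw [Finset.prod_congr rfl (g := fun P => del ν g x w P Q ^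
      (divf (k := Om) (el x w A B) P).toNat) (fun P hP => by
        have : P ≠ W := fun h2 => hWS (h2 ▸ hP)
        simp only [this, if_false])] at h1
    have h2 := hL.sq_le ht (hQa'.sq h'.sq)
    -- change of the uniformiser
    have hu := h.x_sub_ne (ev Q x)
    have hu1 := h.ord_x hQa hb'
    have hu' := h'.x_sub_ne (ev Q x)⁻¹
    have hu1' := h'.ord_x hQa' (div_ne_zero hb' (pow_ne_zero _ ha0))
    have hlx : lv Q (x - algebraMap Om L (ev Q x)) x⁻¹ = (ev Q x)⁻¹ := by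
      rw [lv_of_zero (hz Q hQ ha0), ev_eq Q hQa'.1]
    have hlu : lv Q (x - algebraMap Om L (ev Q x)) (x⁻¹ - algebraMap Om L (ev Q x)⁻¹) =
        -((ev Q x)⁻¹ * (ev Q x)⁻¹) := by
      have h3 : x⁻¹ - algebraMap Om L (ev Q x)⁻¹ =
          (x - algebraMap Om L (ev Q x)) * (x⁻¹ * algebraMap Om L (-(ev Q x)⁻¹)) := by
        have h4 : algebraMap Om L (ev Q x) ≠ 0 := by simpa using ha0
        have h5 := h.x_ne
        rw [map_neg, map_inv₀]
        field_simp
        ring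
      have h6 : -(ev Q x)⁻¹ ≠ 0 := neg_ne_zero.mpr (inv_ne_zero ha0)
      have h7 : algebraMap Om L (-(ev Q x)⁻¹) ≠ 0 := by simpa using ha0
      rw [h3, lv_mul hu hu1 hu (mul_ne_zero hxi h7), lv_self hu hu1, lv_mul hu hu1 hxi h7, hlx,
        lv_const _ _ h6]
      ring
    have h3 := lv_change hu hu1 hu' hu1' hne'
    rw [lv_mul hu hu1 hne (pow_ne_zero _ hxi), lv_pow hu hu1 hxi, hlx, hlu, hdv, hz Q hQ ha0,
      mul_zero, add_zero, ← hn Q hQ, zpow_natCast] at h3
    have h4 := congrArg ν h3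
    rw [map_mul, map_mul, map_pow, map_pow, ν.map_neg, map_mul, map_inv₀] at h4
    rw [map_inv₀] at h2
    rw [Hh_of_lt ha']
    simp only [mul_pow, Finset.prod_mul_distrib, Finset.prod_pow_eq_pow_sum]
    have h5 : ∏ P ∈ S, (del ν g x w P Q ^ 2) ^ (divf (k := Om) (el x w A B) P).toNat =
        (∏ P ∈ S, del ν g x w P Q ^ (divf (k := Om) (el x w A B) P).toNat) ^ 2 := by
      rw [← Finset.prod_pow]
      exact Finset.prod_congr rfl fun P _ => by rw [← pow_mul, ← pow_mul, mul_comm]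
    rw [h5]
    generalize ∏ P ∈ S, del ν g x w P Q ^ (divf (k := Om) (el x w A B) P).toNat = p at h1 ⊢
    generalize ∑ P ∈ S, (divf (k := Om) (el x w A B) P).toNat = r at hr ⊢
    generalize (divf (k := Om) (el x w A B * x⁻¹ ^ N) W).toNat = s at hr h1
    generalize (divf (k := Om) (el x w A B) Q).toNat = m at h4 ⊢
    generalize max (ν (0 - (ev Q x)⁻¹)) (ν (0 - ev Q w / ev Q x ^ (g + 1))) = d at h1 h2
    generalize ν (lv Q (x⁻¹ - algebraMap Om L (ev Q x)⁻¹) (el x w A B * x⁻¹ ^ N)) = l' at h1 h4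
    generalize ν (lv Q (x - algebraMap Om L (ev Q x)) (el x w A B)) = l at h4 ⊢
    generalize ν (ev Q x) = H at ha' h2 h4 ⊢
    have hH : 0 < H := lt_trans zero_lt_one ha'
    have hH' : H ≠ 0 := hH.ne'
    have h6 : l * H ^ (2 * m) = l' * H ^ N := by
      have h7 : l = l' * (H⁻¹ * H⁻¹) ^ m * H ^ N := by
        rw [← h4, mul_assoc, ← mul_pow, inv_mul_cancel₀ hH', one_pow, mul_one]
      rw [h7, pow_mul, sq]
      calc l' * (H⁻¹ * H⁻¹) ^ m * H ^ N * (H * H) ^ m
          = l' * H ^ N * ((H⁻¹ * H⁻¹) * (H * H)) ^ m := by rw [mul_pow (H⁻¹ * H⁻¹)]; ring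
        _ = l' * H ^ N := by
          rw [show (H⁻¹ * H⁻¹) * (H * H) = (H⁻¹ * H) * (H⁻¹ * H) by ring, inv_mul_cancel₀ hH',
            one_mul, one_pow, mul_one]
    calc l ^ 2 * H ^ (4 * m) = (l * H ^ (2 * m)) ^ 2 := by ring
      _ = l' ^ 2 * H ^ (s + r) := by rw [h6, hr]; ring
      _ ≤ (d ^ s * p) ^ 2 * H ^ (s + r) := mul_le_mul' (pow_le_pow_left' h1 2) le_rfl
      _ = (d ^ 2 * H) ^ s * (p ^ 2 * H ^ r) := by ring
      _ ≤ p ^ 2 * H ^ r := by
        apply mul_le_of_le_one_left'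
        apply pow_le_one₀ zero_le
        calc d ^ 2 * H ≤ H⁻¹ * H := mul_le_mul' h2 le_rfl
          _ = 1 := inv_mul_cancel₀ hH'

end Crest.Agent.T15.Fa
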