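import Mathlib
import Crest.Agent.T15.FaC_51

/-!
# Row 15 (helper51): the height pairing on a constant hyperelliptic curve, part D

The main local formula: `|lv_Q f|^2 = |kap f| ∏_P mu0(P, Q)^(ord_P f)`.
-/

set_option autoImplicit false
set_option linter.all false

namespace Crest.Agent.T15.Fa

open Polynomial WithZero Module
open scoped NNReal
open Crest.Agent.R013.RR7_948 Crest.Agent.R013.RR8_948 Crest.Agent.R013.RR9_948
open Crest.Agent.R013.RR11_948 Crest.Agent.R013.RR12_948 Crest.Agent.R013.PicD_398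
open Crest.Agent.R013.GR2_921 Crest.Agent.R013.Frob1_914 Crest.Agent.T15.Disc
open Crest.Agent.T15.Hy

section pol

variable {Om : Type*} [Field Om] {ν : Valuation Om ℝ≥0} {F : Om[X]} {g : ℕ}

theorem exists_prim (ν : Valuation Om ℝ≥0) {A B : Om[X]} (h : A ≠ 0 ∨ B ≠ 0) :
    ∃ (c : Om) (A1 B1 : Om[X]), c ≠ 0 ∧ A1 ∈ IP ν ∧ B1 ∈ IP ν ∧ A = A1 * C c ∧ B = B1 * C c ∧
      ∃ i, ν (A1.coeff i) = 1 ∨ ν (B1.coeff i) = 1 := by
  classical
  have hne : (A.support.image A.coeff ∪ B.support.image B.coeff).Nonempty := by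
    rcases h with h | h
    · exact ((support_nonempty.mpr h).image _).mono Finset.subset_union_left
    · exact ((support_nonempty.mpr h).image _).mono Finset.subset_union_right
  obtain ⟨c, hc, hmax⟩ := Finset.exists_max_image _ (fun c => ν c) hne
  have hc' : ∃ i, (A.coeff i = c ∨ B.coeff i = c) ∧ c ≠ 0 := by
    rcases Finset.mem_union.mp hc with h1 | h1
    · obtain ⟨i, hi, rfl⟩ := Finset.mem_image.mp h1
      exact ⟨i, Or.inl rfl, mem_support_iff.mp hi⟩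
    · obtain ⟨i, hi, rfl⟩ := Finset.mem_image.mp h1
      exact ⟨i, Or.inr rfl, mem_support_iff.mp hi⟩
  obtain ⟨i, hi, hc0⟩ := hc'
  have hpos : 0 < ν c := (ν.pos_iff).mpr hc0
  have key : ∀ z : Om, ν z ≤ ν c → ν (z * c⁻¹) ≤ 1 := fun z hz => by
    rw [map_mul, map_inv₀, ← div_eq_mul_inv]
    exact div_le_one_of_le₀ hz zero_le
  refine ⟨c, A * C c⁻¹, B * C c⁻¹, hc0, IP_of_coeff fun j => ?_, IP_of_coeff fun j => ?_, ?_, ?_,
    i, ?_⟩
  · rw [coeff_mul_C]
    apply key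
    by_cases h0 : A.coeff j = 0
    · simp [h0]
    · exact hmax _ (Finset.mem_union_left _ (Finset.mem_image_of_mem _ (mem_support_iff.mpr h0)))
  · rw [coeff_mul_C]
    apply key
    by_cases h0 : B.coeff j = 0
    · simp [h0]
    · exact hmax _ (Finset.mem_union_right _ (Finset.mem_image_of_mem _ (mem_support_iff.mpr h0)))
  · rw [mul_assoc, ← C_mul, inv_mul_cancel₀ hc0, C_1, mul_one]
  · rw [mul_assoc, ← C_mul, inv_mul_cancel₀ hc0, C_1, mul_one]
  · rw [coeff_mul_C, coeff_mul_C]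
    rcases hi with hi | hi
    · left; rw [hi, mul_inv_cancel₀ hc0, map_one]
    · right; rw [hi, mul_inv_cancel₀ hc0, map_one]

/-- the maximal ideal -/
def mI (ν : Valuation Om ℝ≥0) : Ideal ν.integer where
  carrier := {a | ν (a : Om) < 1}
  add_mem' := fun {a b} ha hb => lt_of_le_of_lt (ν.map_add _ _) (max_lt ha hb)
  zero_mem' := by simp
  smul_mem' := fun c a ha => by
    show ν ((c : Om) * a) < 1
    rw [map_mul]
    exact mul_lt_one_of_nonneg_of_lt_one_right c.2 zero_le ha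

theorem mem_mI {a : ν.integer} : a ∈ mI ν ↔ ν (a : Om) < 1 := Iff.rfl

instance mI_prime (ν : Valuation Om ℝ≥0) : (mI ν).IsPrime where
  ne_top' := by rw [Ideal.ne_top_iff_one, mem_mI]; simp
  mem_or_mem' := fun {a b} hab => by
    by_contra hc
    push Not at hc
    simp only [mem_mI, not_lt] at hc
    rw [mem_mI] at hab
    have : ν ((a : Om) * b) < 1 := hab
    rw [map_mul] at this
    exact absurd (one_le_mul hc.1 hc.2) (not_le.mpr this)

theorem norm_prim (hg : F.natDegree = 2 * g + 1) (hL : LocB ν F) {A B : Om[X]} (hA : A ∈ IP ν)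
    (hB : B ∈ IP ν) (hp : ∃ i, ν (A.coeff i) = 1 ∨ ν (B.coeff i) = 1) :
    ∃ i, 1 ≤ ν ((A ^ 2 - B ^ 2 * F).coeff i) := by
  by_contra hc
  push Not at hc
  have hlc := hL.lc
  obtain ⟨A0, rfl⟩ := hA
  obtain ⟨B0, rfl⟩ := hB
  obtain ⟨F0, rfl⟩ := hL.aff.int
  simp only [coe_mapRingHom] at *
  have hinj : Function.Injective ν.integer.subtype := Subtype.val_injective
  have hz : ∀ p : ν.integer[X], p.map (Ideal.Quotient.mk (mI ν)) = 0 ↔
      ∀ i, ν ((p.map ν.integer.subtype).coeff i) < 1 := fun p => by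
    rw [Polynomial.ext_iff]
    refine forall_congr' fun i => ?_
    rw [coeff_map, coeff_map, coeff_zero, Ideal.Quotient.eq_zero_iff_mem, mem_mI]
    rfl
  have h1 : (A0 ^ 2 - B0 ^ 2 * F0).map (Ideal.Quotient.mk (mI ν)) = 0 := by
    rw [hz]
    simpa only [Polynomial.map_sub, Polynomial.map_mul, Polynomial.map_pow] using hc
  rw [Polynomial.map_sub, Polynomial.map_mul, Polynomial.map_pow, Polynomial.map_pow,
    sub_eq_zero] at h1
  rw [natDegree_map_eq_of_injective hinj] at hg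
  rw [leadingCoeff_map_of_injective hinj] at hlc
  have h2 : Ideal.Quotient.mk (mI ν) F0.leadingCoeff ≠ 0 := by
    rw [Ne, Ideal.Quotient.eq_zero_iff_mem, mem_mI]
    exact not_lt.mpr hlc.ge
  have h3 : (F0.map (Ideal.Quotient.mk (mI ν))).natDegree = 2 * g + 1 := by
    rw [natDegree_map_of_leadingCoeff_ne_zero _ h2, hg]
  have h4 : F0.map (Ideal.Quotient.mk (mI ν)) ≠ 0 := by
    intro h; rw [h, natDegree_zero] at h3; omega
  by_cases hB : B0.map (Ideal.Quotient.mk (mI ν)) = 0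
  · rw [hB, zero_pow two_ne_zero, zero_mul, pow_eq_zero_iff two_ne_zero] at h1
    obtain ⟨i, hi | hi⟩ := hp
    · exact absurd ((hz A0).mp h1 i) (not_lt.mpr hi.ge)
    · exact absurd ((hz B0).mp hB i) (not_lt.mpr hi.ge)
  · have h5 := congrArg natDegree h1
    rw [natDegree_mul (pow_ne_zero _ hB) h4, natDegree_pow, natDegree_pow, h3] at h5
    omega

theorem sq_inf (hg : F.natDegree = 2 * g + 1) {a b : Om} (ha : a ≠ 0) (hb : b ^ 2 = F.eval a) :
    (b / a ^ (g + 1)) ^ 2 = (reflect (F.natDegree + 1) F).eval a⁻¹ := by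
  have := aeval_reflect ha (Nat.le_add_right F.natDegree 1)
  rw [coe_aeval_eq_eval, coe_aeval_eq_eval] at this
  rw [this, ← hb, hg, div_eq_mul_inv, ← inv_pow]
  ring

theorem dd_mul (hg : F.natDegree = 2 * g + 1) (hL : LocB ν F) {a b a' b' : Om}
    (hb : b ^ 2 = F.eval a) (hb' : b' ^ 2 = F.eval a') :
    dd ν g a b a' b' * dd ν g a b a' (-b') * (Hh ν a * Hh ν a') ≤ ν (a - a') := by
  have e := b_le_Hh hL.aff.int hg.le hb
  have e' := b_le_Hh hL.aff.int hg.le hb'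
  have d1 : dd ν g a b a' b' * dd ν g a b a' (-b') ≤ 1 :=
    mul_le_one' (dd_le_one e e') (dd_le_one e (by rwa [ν.map_neg]))
  rcases le_or_gt (ν a) 1 with ha | ha <;> rcases le_or_gt (ν a') 1 with ha' | ha'
  · rw [dd_int ha ha' (hL.aff.b_le hb ha), dd_int ha ha' (hL.aff.b_le hb ha), Hh_of_le ha,
      Hh_of_le ha', mul_one, mul_one]
    exact hL.aff.max_mul hb hb' ha ha'
  · rw [Hh_of_le ha, Hh_of_lt ha', one_mul, ν.map_sub_eq_of_lt_right (lt_of_le_of_lt ha ha')]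
    exact mul_le_of_le_one_left' d1
  · rw [Hh_of_lt ha, Hh_of_le ha', mul_one, ν.map_sub_eq_of_lt_left (lt_of_le_of_lt ha' ha)]
    exact mul_le_of_le_one_left' d1
  · have h0 := ne_zero_of_lt ha
    have h0' := ne_zero_of_lt ha'
    rw [dd_inf ha ha' e, dd_inf ha ha' e, Hh_of_lt ha, Hh_of_lt ha', neg_div]
    have h1 := hL.inf.max_mul (sq_inf hg h0 hb) (sq_inf hg h0' hb')
      (by rw [map_inv₀]; exact inv_le_one_of_one_le₀ ha.le)
      (by rw [map_inv₀]; exact inv_le_one_of_one_le₀ ha'.le)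
    refine (mul_le_mul' h1 le_rfl).trans (le_of_eq ?_)
    rw [← map_mul, ← map_mul, ν.map_sub_swap a]
    congr 1
    field_simp

end pol

variable {Om L : Type*} [Field Om] [Field L] [Algebra Om L]
variable [Algebra (RatFunc Om) L] [IsScalarTower Om (RatFunc Om) L]
  [FiniteDimensional (RatFunc Om) L] [Algebra.IsSeparable (RatFunc Om) L] [IsAlgClosed Om]
variable {ν : Valuation Om ℝ≥0} {F : Om[X]} {x w : L} {g : ℕ}

/-! ### the involution on places -/

theorem j_v_x (h : Hyp F x w) (P : Pl Om L) : (h.siota.pl P).v x = P.v x := by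
  rw [h.siota_v, h.iota_x]

theorem j_j (h : Hyp F x w) (P : Pl Om L) : h.siota.pl (h.siota.pl P) = P := by
  apply Pl.ext
  ext f
  rw [h.siota_v, h.siota_v, h.iota_iota]

theorem j_eq_iff (h : Hyp F x w) {P Q : Pl Om L} : h.siota.pl P = Q ↔ P = h.siota.pl Q :=
  ⟨fun e => by rw [← e, j_j], fun e => by rw [e, j_j]⟩

theorem ev_j_x (h : Hyp F x w) {P : Pl Om L} (hP : P.v x ≤ 1) :
    ev (h.siota.pl P) x = ev P x := ev_eq _ ((h.at_ev hP).iota h).1

theorem ev_j_w (h : Hyp F x w) {P : Pl Om L} (hP : P.v x ≤ 1) :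
    ev (h.siota.pl P) w = -ev P w := ev_eq _ ((h.at_ev hP).iota h).2

theorem iota_ne (h : Hyp F x w) {f : L} (hf : f ≠ 0) : h.iota f ≠ 0 := by simpa using hf

theorem divf_iota (h : Hyp F x w) {f : L} (hf : f ≠ 0) (P : Pl Om L) :
    divf (k := Om) (h.iota f) P = divf (k := Om) f (h.siota.pl P) := by
  have := h.siota_v P f
  rw [v_eq hf, v_eq (iota_ne h hf), exp_inj] at this
  omega

theorem j_ne (h : Hyp F x w) {Q : Pl Om L} (hQ : Q.v x ≤ 1) (hb : ev Q w ≠ 0) :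
    h.siota.pl Q ≠ Q := by
  intro e
  have := ev_j_w h hQ
  rw [e] at this
  exact ne_neg_of h.two hb this

theorem eq_or_j (h : Hyp F x w) {P Q : Pl Om L} (hP : P.v x ≤ 1) (hQ : Q.v x ≤ 1)
    (e : ev P x = ev Q x) : P = Q ∨ P = h.siota.pl Q := by
  have h1 := h.at_ev hP
  have h2 := h.at_ev hQ
  have h3 := (h1.sq h.sq).trans (e ▸ (h2.sq h.sq).symm)
  rcases sq_eq_sq_iff_eq_or_eq_neg.mp h3 with h4 | h4
  · left
    rw [e, h4] at h1
    exact h.at_unique h1 h2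
  · right
    rw [e, h4] at h1
    exact h.at_unique h1 (h2.iota h)

theorem const_of_aff (h : Hyp F x w) (hg : F.natDegree = 2 * g + 1) {f : L} (hf : f ≠ 0)
    (h0 : ∀ P : Pl Om L, P.v x ≤ 1 → divf (k := Om) f P = 0) :
    ∃ c : Om, c ≠ 0 ∧ f = algebraMap Om L c := by
  have h1 : ∃ c : Om, f = algebraMap Om L c := by
    by_contra hc
    push Not at hc
    obtain ⟨P, hP⟩ := Hyp.exists_pole hc
    have h2 : divf (k := Om) f P = 0 := by
      rcases le_or_gt (P.v x) 1 with h3 | h3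
      · exact h0 P h3
      · have := sum_aff h hg (D := divf (k := Om) f) (S := ∅) (by simp)
          (fun P' h4 h5 => absurd (h0 P' h4) h5) h3
        rw [degD_divf hf] at this
        simpa using this.symm
    rw [(v_eq_one_iff hf P).mpr h2] at hP
    exact lt_irrefl _ hP
  obtain ⟨c, rfl⟩ := h1
  exact ⟨c, fun h2 => hf (by rw [h2, map_zero]), rfl⟩

/-! ### the leading coefficient of the norm -/

open Classical in
/-- `x - x(P)` -/
noncomputable def xi (x : L) (P : Pl Om L) : L :=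
  if P.v x ≤ 1 then x - algebraMap Om L (ev P x) else 1

theorem xi_aff {P : Pl Om L} (hP : P.v x ≤ 1) : xi x P = x - algebraMap Om L (ev P x) := if_pos hP

theorem xi_inf {P : Pl Om L} (hP : ¬ P.v x ≤ 1) : xi x P = 1 := if_neg hP

theorem xi_ne (h : Hyp F x w) (P : Pl Om L) : xi x P ≠ 0 := by
  unfold xi
  split_ifs
  · exact h.x_sub_ne _
  · exact one_ne_zero

/-- `∏ (x - x(P)) ^ D(P)` -/
noncomputable def px (x : L) (D : Pl Om L →₀ ℤ) : L := D.prod fun P n => xi x P ^ n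

theorem px_add (h : Hyp F x w) (D E : Pl Om L →₀ ℤ) : px x (D + E) = px x D * px x E :=
  Finsupp.prod_add_index' (fun _ => zpow_zero _) fun P _ _ => zpow_add₀ (xi_ne h P) _ _

theorem px_ne (h : Hyp F x w) (D : Pl Om L →₀ ℤ) : px x D ≠ 0 :=
  Finset.prod_ne_zero_iff.mpr fun P _ => zpow_ne_zero _ (xi_ne h P)

theorem px_zero : px x (0 : Pl Om L →₀ ℤ) = 1 := Finsupp.prod_zero_index

theorem px_single (P : Pl Om L) (n : ℤ) : px x (Finsupp.single P n) = xi x P ^ n :=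
  Finsupp.prod_single_index (zpow_zero _)

theorem divf_xi (h : Hyp F x w) {P : Pl Om L} (hP : P.v x ≤ 1) :
    divf (k := Om) (xi x P) =
      Finsupp.single P 1 + Finsupp.single (h.siota.pl P) 1 - Dinf Om x := by
  have h1 := h.at_ev hP
  rw [xi_aff hP, h.div_x (h1.sq h.sq), h.pt_eq h1, h.pt_eq (h1.iota h)]

theorem divf_px (h : Hyp F x w) (D : Pl Om L →₀ ℤ) {Q : Pl Om L} (hQ : Q.v x ≤ 1) :
    divf (k := Om) (px x D) Q = D Q + D (h.siota.pl Q) := by
  classical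
  induction D using Finsupp.induction_linear with
  | zero => rw [px_zero, divf_one]; simp
  | add D E h1 h2 =>
    rw [px_add h, divf_mul (px_ne h D) (px_ne h E)]
    simp only [Finsupp.add_apply, h1, h2]
    ring
  | single P n =>
    rw [px_single, divf_zpow (xi_ne h P)]
    by_cases hP : P.v x ≤ 1
    · rw [divf_xi h hP]
      simp only [Finsupp.smul_apply, Finsupp.sub_apply, Finsupp.add_apply, Finsupp.single_apply,
        Dinf_of_le h.x_ne hQ, j_eq_iff h, smul_eq_mul]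
      split_ifs <;> ring
    · have h1 : P ≠ Q := fun e => hP (e ▸ hQ)
      have h2 : P ≠ h.siota.pl Q := fun e => hP (by rw [e, j_v_x]; exact hQ)
      rw [xi_inf hP, divf_one]
      simp [Finsupp.single_apply, h1, h2]

/-- the leading coefficient of the norm of `f` -/
noncomputable def kap (h : Hyp F x w) (f : L) : Om :=
  Classical.epsilon fun c => f * h.iota f = algebraMap Om L c * px x (divf (k := Om) f)

theorem exists_kap (h : Hyp F x w) (hg : F.natDegree = 2 * g + 1) {f : L} (hf : f ≠ 0) :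
    ∃ c : Om, f * h.iota f = algebraMap Om L c * px x (divf (k := Om) f) := by
  have h1 := mul_ne_zero hf (iota_ne h hf)
  have h2 := px_ne h (divf (k := Om) f)
  obtain ⟨c, -, hc⟩ := const_of_aff h hg (div_ne_zero h1 h2) (fun P hP => by
    rw [divf_div h1 h2, divf_mul hf (iota_ne h hf), Finsupp.sub_apply, Finsupp.add_apply,
      divf_px h _ hP, divf_iota h hf, sub_self])
  exact ⟨c, by rw [← hc, div_mul_cancel₀ _ h2]⟩

theorem kap_spec (h : Hyp F x w) (hg : F.natDegree = 2 * g + 1) {f : L} (hf : f ≠ 0) :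
    f * h.iota f = algebraMap Om L (kap h f) * px x (divf (k := Om) f) :=
  Classical.epsilon_spec (exists_kap h hg hf)

theorem kap_eq (h : Hyp F x w) (hg : F.natDegree = 2 * g + 1) {f : L} (hf : f ≠ 0) {c : Om}
    (hc : f * h.iota f = algebraMap Om L c * px x (divf (k := Om) f)) : kap h f = c :=
  (algebraMap Om L).injective
    (mul_right_cancel₀ (px_ne h _) ((kap_spec h hg hf).symm.trans hc))

theorem kap_ne (h : Hyp F x w) (hg : F.natDegree = 2 * g + 1) {f : L} (hf : f ≠ 0) :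
    kap h f ≠ 0 := by
  intro h0
  have := kap_spec h hg hf
  rw [h0, map_zero, zero_mul] at this
  exact mul_ne_zero hf (iota_ne h hf) this

theorem kap_mul (h : Hyp F x w) (hg : F.natDegree = 2 * g + 1) {f f' : L} (hf : f ≠ 0)
    (hf' : f' ≠ 0) : kap h (f * f') = kap h f * kap h f' := by
  apply kap_eq h hg (mul_ne_zero hf hf')
  rw [divf_mul hf hf', px_add h, map_mul, map_mul, mul_mul_mul_comm, kap_spec h hg hf,
    kap_spec h hg hf', mul_mul_mul_comm]

theorem kap_const (h : Hyp F x w) (hg : F.natDegree = 2 * g + 1) {c : Om} (hc : c ≠ 0) :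
    kap h (algebraMap Om L c) = c ^ 2 := by
  apply kap_eq h hg (by simpa using hc)
  rw [divf_const hc, px_zero, mul_one, AlgEquiv.commutes, map_pow, sq]

theorem prod_conv {M : Type*} [CommGroupWithZero M] (φ : Pl Om L → M)
    (hφ : ∀ P : Pl Om L, ¬ P.v x ≤ 1 → φ P = 1) {D : Pl Om L →₀ ℤ}
    (h0 : ∀ P : Pl Om L, P.v x ≤ 1 → 0 ≤ D P) {S : Finset (Pl Om L)} (hS : ∀ P ∈ S, P.v x ≤ 1)
    (hD : ∀ P, P.v x ≤ 1 → D P ≠ 0 → P ∈ S) :
    (D.prod fun P n => φ P ^ n) = ∏ P ∈ S, φ P ^ (D P).toNat := by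
  classical
  rw [Finsupp.prod_of_support_subset D (s := D.support ∪ S) Finset.subset_union_left _
    (fun _ _ => zpow_zero _)]
  rw [← Finset.prod_subset (s₁ := S) Finset.subset_union_right]
  · refine Finset.prod_congr rfl fun P hP => ?_
    rw [← zpow_natCast, Int.toNat_of_nonneg (h0 P (hS P hP))]
  · intro P _ hP
    by_cases h1 : P.v x ≤ 1
    · have : D P = 0 := by
        by_contra h2
        exact hP (hD P h1 h2)
      rw [this, zpow_zero]
    · rw [hφ P h1, one_zpow]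

theorem gauss (h : Hyp F x w) (hg : F.natDegree = 2 * g + 1) (hL : LocB ν F) {A B : Om[X]}
    (hA : A ∈ IP ν) (hB : B ∈ IP ν) (hp : ∃ i, ν (A.coeff i) = 1 ∨ ν (B.coeff i) = 1)
    (hne : el x w A B ≠ 0) {S : Finset (Pl Om L)} (hS : ∀ P ∈ S, P.v x ≤ 1)
    (hD : ∀ P, P.v x ≤ 1 → divf (k := Om) (el x w A B) P ≠ 0 → P ∈ S) :
    1 ≤ ν (kap h (el x w A B)) *
      ∏ P ∈ S, Hh ν (ev P x) ^ (divf (k := Om) (el x w A B) P).toNat := by
  have h1 := kap_spec h hg hne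
  rw [h.iota_el, el_norm h.sq, px, prod_conv (xi x) (fun P hP => xi_inf hP)
    (fun P hP => divf_el_nonneg h hne hP) hS hD] at h1
  have h2 : A ^ 2 - B ^ 2 * F = C (kap h (el x w A B)) *
      ∏ P ∈ S, (X - C (ev P x)) ^ (divf (k := Om) (el x w A B) P).toNat := by
    apply sub_eq_zero.mp
    apply h.tr
    rw [map_sub, h1, map_mul, aeval_C, map_prod, sub_eq_zero]
    congr 1
    refine Finset.prod_congr rfl fun P hP => ?_
    rw [xi_aff (hS P hP)]
    simp
  obtain ⟨i, hi⟩ := norm_prim hg hL hA hB hp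
  rw [h2, coeff_C_mul, map_mul] at hi
  exact hi.trans (mul_le_mul' le_rfl (coeff_prod_le S _ _ i))

/-! ### the local symbol -/

open Classical in
/-- the multiplicative local symbol -/
noncomputable def mu0 (ν : Valuation Om ℝ≥0) (g : ℕ) (x w : L) (P Q : Pl Om L) : ℝ≥0 :=
  if P.v x ≤ 1 then
    if P = Q then (dd ν g (ev Q x) (ev Q w) (ev Q x) (-ev Q w) ^ 2 *
      (Hh ν (ev Q x) * Hh ν (ev Q x)))⁻¹
    else dd ν g (ev P x) (ev P w) (ev Q x) (ev Q w) ^ 2 * (Hh ν (ev P x) * Hh ν (ev Q x))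
  else 1

theorem mu0_self {Q : Pl Om L} (hQ : Q.v x ≤ 1) : mu0 ν g x w Q Q =
    (dd ν g (ev Q x) (ev Q w) (ev Q x) (-ev Q w) ^ 2 * (Hh ν (ev Q x) * Hh ν (ev Q x)))⁻¹ := by
  unfold mu0; rw [if_pos hQ, if_pos rfl]

theorem mu0_ne {P Q : Pl Om L} (hP : P.v x ≤ 1) (hne : P ≠ Q) : mu0 ν g x w P Q =
    dd ν g (ev P x) (ev P w) (ev Q x) (ev Q w) ^ 2 * (Hh ν (ev P x) * Hh ν (ev Q x)) := by
  unfold mu0; rw [if_pos hP, if_neg hne]

theorem mu0_inf {P Q : Pl Om L} (hP : ¬ P.v x ≤ 1) : mu0 ν g x w P Q = 1 := if_neg hP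

theorem dd_pos' (h : Hyp F x w) {P Q : Pl Om L} (hP : P.v x ≤ 1) (hQ : Q.v x ≤ 1) (hne : P ≠ Q) :
    0 < dd ν g (ev P x) (ev P w) (ev Q x) (ev Q w) := by
  apply dd_pos
  by_contra hc
  push Not at hc
  have h1 := h.at_ev hP
  rw [hc.1, hc.2] at h1
  exact hne (h.at_unique h1 (h.at_ev hQ))

theorem mu0_pos (h : Hyp F x w) (P : Pl Om L) {Q : Pl Om L} (hQ : Q.v x ≤ 1) (hb : ev Q w ≠ 0) :
    0 < mu0 ν g x w P Q := by
  by_cases hP : P.v x ≤ 1
  · by_cases hne : P = Q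
    · rw [hne, mu0_self hQ]
      exact inv_pos.mpr (mul_pos (pow_pos (dd_pos (Or.inr (ne_neg_of h.two hb))) _)
        (mul_pos (Hh_pos _) (Hh_pos _)))
    · rw [mu0_ne hP hne]
      exact mul_pos (pow_pos (dd_pos' h hP hQ hne) _) (mul_pos (Hh_pos _) (Hh_pos _))
  · rw [mu0_inf hP]; exact zero_lt_one

theorem upper2 (h : Hyp F x w) (hg : F.natDegree = 2 * g + 1) (hL : LocB ν F) {Q : Pl Om L}
    (hQ : Q.v x ≤ 1) (hb' : ev Q w ≠ 0) {A B : Om[X]} (hA : A ∈ IP ν) (hB : B ∈ IP ν)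
    (hp : ∃ i, ν (A.coeff i) = 1 ∨ ν (B.coeff i) = 1)
    (hne : el x w A B ≠ 0) {S : Finset (Pl Om L)} (hS : ∀ P ∈ S, P.v x ≤ 1) (hQS : Q ∈ S)
    (hD : ∀ P, P.v x ≤ 1 → divf (k := Om) (el x w A B) P ≠ 0 → P ∈ S) :
    ν (lv Q (x - algebraMap Om L (ev Q x)) (el x w A B)) ^ 2 ≤ ν (kap h (el x w A B)) *
      ∏ P ∈ S, mu0 ν g x w P Q ^ (divf (k := Om) (el x w A B) P).toNat := by
  classical
  have h1 := upper h hg hL hQ hb' hA hB hne hS hQS hD
  have h2 := gauss h hg hL hA hB hp hne hS hD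
  have h3 := mul_le_mul' h1 h2
  rw [mul_one, mul_left_comm, ← Finset.prod_mul_distrib] at h3
  have hH := Hh_pos (ν := ν) (ev Q x)
  have h4 : ∏ P ∈ S, (del ν g x w P Q ^ 2 * Hh ν (ev Q x)) ^ (divf (k := Om) (el x w A B) P).toNat *
      Hh ν (ev P x) ^ (divf (k := Om) (el x w A B) P).toNat =
      (∏ P ∈ S, mu0 ν g x w P Q ^ (divf (k := Om) (el x w A B) P).toNat) *
        Hh ν (ev Q x) ^ (4 * (divf (k := Om) (el x w A B) Q).toNat) := by
    rw [← Finset.mul_prod_erase S _ hQS, ← Finset.mul_prod_erase S _ hQS, mul_right_comm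
      (mu0 ν g x w Q Q ^ _)]
    congr 1
    · rw [pow_mul, ← mul_pow, ← mul_pow, del_self, mu0_self hQ]
      congr 1
      have := hH.ne'
      rw [mul_inv, inv_pow]
      field_simp
    · refine Finset.prod_congr rfl fun P hP => ?_
      have hne' := Finset.ne_of_mem_erase hP
      rw [← mul_pow, del_ne hne', mu0_ne (hS P (Finset.mem_of_mem_erase hP)) hne']
      congr 1
      ring
  rw [h4, ← mul_assoc] at h3
  exact le_of_mul_le_mul_right h3 (pow_pos hH _)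

theorem mu0_mul (h : Hyp F x w) (hg : F.natDegree = 2 * g + 1) (hL : LocB ν F) {P Q : Pl Om L}
    (hP : P.v x ≤ 1) (hQ : Q.v x ≤ 1) (hb' : ev Q w ≠ 0) :
    mu0 ν g x w P Q * mu0 ν g x w P (h.siota.pl Q) ≤
      ν (lv Q (x - algebraMap Om L (ev Q x)) (xi x P)) ^ 2 := by
  have hu := h.x_sub_ne (ev Q x)
  have hu1 := h.ord_x (h.at_ev hQ) hb'
  have hj := j_ne h hQ hb'
  have hjQ : (h.siota.pl Q).v x ≤ 1 := by rwa [j_v_x]
  have inv_le : ∀ r : ℝ≥0, r⁻¹ * r ≤ 1 := fun r => inv_mul_le_one_of_le₀ le_rfl zero_le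
  by_cases h1 : P = Q
  · rw [h1, mu0_self hQ, mu0_ne hQ hj.symm, ev_j_x h hQ, ev_j_w h hQ, xi_aff hQ, lv_self hu hu1,
      map_one, one_pow]
    exact inv_le _
  by_cases h2 : P = h.siota.pl Q
  · rw [h2, mu0_self hjQ, mu0_ne hjQ hj, xi_aff hjQ, ev_j_x h hQ, ev_j_w h hQ, neg_neg,
      lv_self hu hu1, map_one, one_pow, mul_comm]
    exact inv_le _
  · have h3 : ev Q x - ev P x ≠ 0 := fun e =>
      (eq_or_j h hP hQ (sub_eq_zero.mp e).symm).elim h1 h2
    rw [mu0_ne hP h1, mu0_ne hP h2, ev_j_x h hQ, ev_j_w h hQ, xi_aff hP, ← el_x x w (ev P x),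
      lv_el (h.at_ev hQ) _ (by simpa using h3)]
    simp only [eval_sub, eval_X, eval_C, eval_zero, zero_mul, add_zero]
    rw [ν.map_sub_swap]
    refine le_trans (le_of_eq ?_) (pow_le_pow_left'
      (dd_mul hg hL ((h.at_ev hP).sq h.sq) ((h.at_ev hQ).sq h.sq)) 2)
    ring

/-- the local formula for `f` at `Q` -/
def MLs (ν : Valuation Om ℝ≥0) (g : ℕ) (h : Hyp F x w) (Q : Pl Om L) (f : L) : Prop :=
  ν (lv Q (x - algebraMap Om L (ev Q x)) f) ^ 2 =
    ν (kap h f) * (divf (k := Om) f).prod fun P n => mu0 ν g x w P Q ^ n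

theorem ml_prim (h : Hyp F x w) (hg : F.natDegree = 2 * g + 1) (hL : LocB ν F) {Q : Pl Om L}
    (hQ : Q.v x ≤ 1) (hb' : ev Q w ≠ 0) {A B : Om[X]} (hA : A ∈ IP ν) (hB : B ∈ IP ν)
    (hp : ∃ i, ν (A.coeff i) = 1 ∨ ν (B.coeff i) = 1) (hne : el x w A B ≠ 0) :
    MLs ν g h Q (el x w A B) := by
  classical
  have hjQ : (h.siota.pl Q).v x ≤ 1 := by rwa [j_v_x]
  have hjb : ev (h.siota.pl Q) w ≠ 0 := by rw [ev_j_w h hQ]; exact neg_ne_zero.mpr hb'
  have hu := h.x_sub_ne (ev Q x)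
  have hu1 := h.ord_x (h.at_ev hQ) hb'
  obtain ⟨S, hS, hQS, hjS, hD⟩ : ∃ S : Finset (Pl Om L), (∀ P ∈ S, P.v x ≤ 1) ∧ Q ∈ S ∧
      h.siota.pl Q ∈ S ∧ ∀ P, P.v x ≤ 1 → divf (k := Om) (el x w A B) P ≠ 0 → P ∈ S := by
    refine ⟨(insert Q (insert (h.siota.pl Q) (divf (k := Om) (el x w A B)).support)).filter
      fun P => P.v x ≤ 1, fun P hP => (Finset.mem_filter.mp hP).2, ?_, ?_, fun P h1 h2 => ?_⟩
    · exact Finset.mem_filter.mpr ⟨Finset.mem_insert_self _ _, hQ⟩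
    · exact Finset.mem_filter.mpr ⟨Finset.mem_insert_of_mem (Finset.mem_insert_self _ _), hjQ⟩
    · exact Finset.mem_filter.mpr ⟨Finset.mem_insert_of_mem (Finset.mem_insert_of_mem
        (Finsupp.mem_support_iff.mpr h2)), h1⟩
  have h0 : ∀ P : Pl Om L, P.v x ≤ 1 → 0 ≤ divf (k := Om) (el x w A B) P :=
    fun P hP => divf_el_nonneg h hne hP
  have h1 := upper2 h hg hL hQ hb' hA hB hp hne hS hQS hD
  have h2 := upper2 h hg hL hjQ hjb hA hB hp hne hS hjS hD
  rw [ev_j_x h hQ] at h2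
  have h3 : lv (h.siota.pl Q) (x - algebraMap Om L (ev Q x)) (el x w A B) =
      lv Q (x - algebraMap Om L (ev Q x)) (h.iota (el x w A B)) := by
    have := lv_SI h.siota hu hu1 (iota_ne h hne)
    have e1 : h.siota.f (x - algebraMap Om L (ev Q x)) = x - algebraMap Om L (ev Q x) := by
      show h.iota _ = _
      rw [map_sub, h.iota_x, AlgEquiv.commutes]
    have e2 : h.siota.f (h.iota (el x w A B)) = el x w A B := h.iota_iota _
    rw [e1, e2] at this
    exact this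
  rw [h3] at h2
  have hk := kap_ne h hg hne
  have h4 := congrArg (fun z => ν (lv Q (x - algebraMap Om L (ev Q x)) z)) (kap_spec h hg hne)
  rw [lv_mul hu hu1 hne (iota_ne h hne), lv_mul hu hu1 (by simpa using hk) (px_ne h _),
    lv_const _ _ hk, px, prod_conv (xi x) (fun P hP => xi_inf hP) h0 hS hD,
    lv_prod hu hu1 _ _ (fun P => pow_ne_zero _ (xi_ne h P)), map_mul, map_mul, map_prod] at h4
  simp only [lv_pow hu hu1 (xi_ne h _), map_pow] at h4
  have h5 : (∏ P ∈ S, mu0 ν g x w P Q ^ (divf (k := Om) (el x w A B) P).toNat) *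
      ∏ P ∈ S, mu0 ν g x w P (h.siota.pl Q) ^ (divf (k := Om) (el x w A B) P).toNat ≤
      (∏ P ∈ S, ν (lv Q (x - algebraMap Om L (ev Q x)) (xi x P)) ^
        (divf (k := Om) (el x w A B) P).toNat) ^ 2 := by
    rw [← Finset.prod_mul_distrib, ← Finset.prod_pow]
    refine Finset.prod_le_prod' fun P hP => ?_
    rw [← mul_pow, ← pow_mul, mul_comm _ 2, pow_mul]
    exact pow_le_pow_left' (mu0_mul h hg hL (hS P hP) hQ hb') _
  have h6 : 0 < ν (lv Q (x - algebraMap Om L (ev Q x)) (h.iota (el x w A B))) :=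
    (ν.pos_iff).mpr (lv_ne hu hu1 (iota_ne h hne))
  unfold MLs
  rw [prod_conv (fun P => mu0 ν g x w P Q) (fun P hP => mu0_inf hP) h0 hS hD]
  apply le_antisymm h1
  apply le_of_mul_le_mul_right _ (pow_pos h6 2)
  rw [← mul_pow, h4]
  refine (mul_le_mul' le_rfl h2).trans ?_
  rw [mul_mul_mul_comm, mul_pow, sq]
  exact mul_le_mul' le_rfl h5

theorem ml_const (h : Hyp F x w) (hg : F.natDegree = 2 * g + 1) (Q : Pl Om L) {c : Om}
    (hc : c ≠ 0) : MLs ν g h Q (algebraMap Om L c) := by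
  unfold MLs
  rw [lv_const _ _ hc, kap_const h hg hc, divf_const hc, Finsupp.prod_zero_index, map_pow, mul_one]

theorem prod_mu0_add (h : Hyp F x w) {Q : Pl Om L} (hQ : Q.v x ≤ 1) (hb' : ev Q w ≠ 0)
    (D E : Pl Om L →₀ ℤ) : ((D + E).prod fun P n => mu0 ν g x w P Q ^ n) =
      (D.prod fun P n => mu0 ν g x w P Q ^ n) * E.prod fun P n => mu0 ν g x w P Q ^ n :=
  Finsupp.prod_add_index' (fun _ => zpow_zero _)
    fun P _ _ => zpow_add₀ (mu0_pos h P hQ hb').ne' _ _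

theorem ml_mul (h : Hyp F x w) (hg : F.natDegree = 2 * g + 1) {Q : Pl Om L} (hQ : Q.v x ≤ 1)
    (hb' : ev Q w ≠ 0) {f f' : L} (hf : f ≠ 0) (hf' : f' ≠ 0) (h1 : MLs ν g h Q f)
    (h2 : MLs ν g h Q f') : MLs ν g h Q (f * f') := by
  unfold MLs at *
  rw [lv_mul (h.x_sub_ne _) (h.ord_x (h.at_ev hQ) hb') hf hf', kap_mul h hg hf hf',
    divf_mul hf hf', prod_mu0_add h hQ hb', map_mul, map_mul, mul_pow, h1, h2, mul_mul_mul_comm]

theorem ml_cancel (h : Hyp F x w) (hg : F.natDegree = 2 * g + 1) {Q : Pl Om L} (hQ : Q.v x ≤ 1)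
    (hb' : ev Q w ≠ 0) {f f' : L} (hf : f ≠ 0) (hf' : f' ≠ 0) (h1 : MLs ν g h Q (f * f'))
    (h2 : MLs ν g h Q f') : MLs ν g h Q f := by
  unfold MLs at *
  rw [lv_mul (h.x_sub_ne _) (h.ord_x (h.at_ev hQ) hb') hf hf', kap_mul h hg hf hf',
    divf_mul hf hf', prod_mu0_add h hQ hb', map_mul, map_mul, mul_pow, mul_mul_mul_comm,
    ← h2] at h1
  exact mul_right_cancel₀ (pow_ne_zero _ ((ν.ne_zero_iff).mpr
    (lv_ne (h.x_sub_ne _) (h.ord_x (h.at_ev hQ) hb') hf'))) h1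

theorem ml_el (h : Hyp F x w) (hg : F.natDegree = 2 * g + 1) (hL : LocB ν F) {Q : Pl Om L}
    (hQ : Q.v x ≤ 1) (hb' : ev Q w ≠ 0) {A B : Om[X]} (hne : el x w A B ≠ 0) :
    MLs ν g h Q (el x w A B) := by
  have h0 : A ≠ 0 ∨ B ≠ 0 := by
    by_contra hc
    push Not at hc
    exact hne (by simp [el, hc.1, hc.2])
  obtain ⟨c, A1, B1, hc, hA, hB, rfl, rfl, hp⟩ := exists_prim ν h0
  rw [← el_mul_aeval, aeval_C] at hne ⊢
  exact ml_mul h hg hQ hb' (left_ne_zero_of_mul hne) (right_ne_zero_of_mul hne)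
    (ml_prim h hg hL hQ hb' hA hB hp (left_ne_zero_of_mul hne)) (ml_const h hg Q hc)

/-- **the local formula** -/
theorem ml (h : Hyp F x w) (hg : F.natDegree = 2 * g + 1) (hL : LocB ν F) {Q : Pl Om L}
    (hQ : Q.v x ≤ 1) (hb' : ev Q w ≠ 0) {f : L} (hf : f ≠ 0) : MLs ν g h Q f := by
  obtain ⟨A, B, c, hc, he⟩ := h.gen f
  have h1 := h.aeval_ne hc
  apply ml_cancel h hg hQ hb' hf h1
  · rw [he]
    exact ml_el h hg hL hQ hb' (he ▸ mul_ne_zero hf h1)
  · rw [← el_zero x w] at h1 ⊢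
    exact ml_el h hg hL hQ hb' h1

end Crest.Agent.T15.Fa
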