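import Mathlib
import Crest.Agent.T15.FaD_51

/-!
# Row 15 (helper51): the height pairing on a constant hyperelliptic curve, part E

Reduced divisors, equivariance, the symmetric kernel `mu1`.
-/

set_option autoImplicit false
set_option linter.all false

namespace Crest.Agent.T15.Fa

open Polynomial WithZero Module
open scoped NNReal
open Crest.Agent.R013.RR7_948 Crest.Agent.R013.RR8_948 Crest.Agent.R013.RR9_948
open Crest.Agent.R013.RR11_948 Crest.Agent.R013.RR12_948 Crest.Agent.R013.PicD_398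
open Crest.Agent.R013.GR2_921 Crest.Agent.R013.Frob1_914 Crest.Agent.T15.Disc
open Crest.Agent.T15.Hy

variable {Om L : Type*} [Field Om] [Field L] [Algebra Om L]
variable [Algebra (RatFunc Om) L] [IsScalarTower Om (RatFunc Om) L]
  [FiniteDimensional (RatFunc Om) L] [Algebra.IsSeparable (RatFunc Om) L] [IsAlgClosed Om]
variable {ν : Valuation Om ℝ≥0} {F : Om[X]} {x w : L} {g : ℕ}

/-- affine, not a Weierstrass point -/
def Gd (x w : L) (P : Pl Om L) : Prop := P.v x ≤ 1 ∧ ev P w ≠ 0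

theorem Gd.j (h : Hyp F x w) {P : Pl Om L} (hP : Gd x w P) : Gd x w (h.siota.pl P) :=
  ⟨by rw [j_v_x]; exact hP.1, by rw [ev_j_w h hP.1]; exact neg_ne_zero.mpr hP.2⟩

theorem jD_apply (h : Hyp F x w) (D : Pl Om L →₀ ℤ) (P : Pl Om L) :
    h.siota.D D P = D (h.siota.pl P) := by
  conv_lhs => rw [← j_j h P]
  exact h.siota.D_pl D _

theorem degD_single' (P : Pl Om L) (n : ℤ) : degD (Finsupp.single P n) = n := by
  rw [degD_single, degP_eq_one]; simp

theorem Dinf_eq (h : Hyp F x w) (hg : F.natDegree = 2 * g + 1) {W : Pl Om L} (hW : 1 < W.v x) :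
    Dinf Om x = Finsupp.single W 2 := by
  ext P
  rcases le_or_gt (P.v x) 1 with h1 | h1
  · have : P ≠ W := fun e => absurd (e ▸ h1) (not_le.mpr hW)
    rw [Dinf_of_le h.x_ne h1, Finsupp.single_eq_of_ne this]
  · obtain rfl := h.inf_unique ⟨g, hg⟩ h1 hW
    have := divf_x_inf h hg h1
    rw [divf_inv h.x_ne, Finsupp.neg_apply] at this
    rw [Dinf_of_lt h.x_ne h1, this, Finsupp.single_eq_same]

/-! ### reduced divisors -/

/-- `E + n W` represents `c`, `E` effective, affine, of degree `r` -/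
structure Rp (x : L) (W : Pl Om L) (c : Pic Om L) (E : Pl Om L →₀ ℤ) (r : ℕ) : Prop where
  nonneg : 0 ≤ E
  aff : ∀ P, E P ≠ 0 → P.v x ≤ 1
  deg : degD E = r
  eq : ∃ n : ℤ, cls (E + Finsupp.single W n) = c

theorem exists_rp (h : Hyp F x w) (hg : F.natDegree = 2 * g + 1) {W : Pl Om L} (hW : 1 < W.v x)
    (c : Pic Om L) : ∃ E r, r ≤ g ∧ Rp x W c E r := by
  classical
  obtain ⟨D, rfl⟩ := cls_surjective c
  have h1 : degD (D + Finsupp.single W (g - degD D)) = g := by
    rw [degD_add, degD_single']; ring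
  obtain ⟨f, hf, hm⟩ := exists_mem_LD (D := D + Finsupp.single W (g - degD D))
    (by rw [h1]; exact_mod_cast h.gen_le (by omega))
  rw [mem_LD_iff hf] at hm
  set E0 := D + Finsupp.single W (g - degD D) + divf (k := Om) f with hE0
  have h2 : degD E0 = g := by rw [hE0, degD_add, h1, degD_divf hf, add_zero]
  have h3 : E0 = E0.erase W + Finsupp.single W (E0 W) := (Finsupp.erase_add_single W E0).symm
  have h4 : 0 ≤ E0.erase W := fun P => by
    by_cases e : P = W
    · rw [e, Finsupp.erase_same]; rfl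
    · rw [Finsupp.erase_ne e]; exact hm P
  have h5 : degD (E0.erase W) + E0 W = g := by
    rw [← h2]
    conv_rhs => rw [h3, degD_add, degD_single']
  have h6 := degD_nonneg h4
  have h7 : 0 ≤ E0 W := hm W
  refine ⟨E0.erase W, (degD (E0.erase W)).toNat, by omega, h4, fun P hP => ?_,
    (Int.toNat_of_nonneg h6).symm, E0 W - (g - degD D), ?_⟩
  · by_contra hc
    rw [h.inf_unique ⟨g, hg⟩ (not_le.mp hc) hW, Finsupp.erase_same] at hP
    exact hP rfl
  · rw [Finsupp.single_sub, ← add_sub_assoc, ← h3, cls_eq_iff]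
    exact ⟨f, hf, by rw [hE0]; abel⟩

/-- no pair of conjugate points -/
def Rd (h : Hyp F x w) (E : Pl Om L →₀ ℤ) : Prop :=
  ∀ P, Gd x w P → E P = 0 ∨ E (h.siota.pl P) = 0

theorem exists_rd (h : Hyp F x w) (hg : F.natDegree = 2 * g + 1) {W : Pl Om L} (hW : 1 < W.v x)
    (c : Pic Om L) : ∃ E r, r ≤ g ∧ Rp x W c E r ∧ Rd h E := by
  classical
  obtain ⟨E0, r0, hr0, h0⟩ := exists_rp h hg hW c
  have hex : ∃ r, ∃ E, Rp x W c E r := ⟨r0, E0, h0⟩
  obtain ⟨E, hE⟩ := Nat.find_spec hex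
  refine ⟨E, Nat.find hex, (Nat.find_min' hex ⟨E0, h0⟩).trans hr0, hE, fun P hP => ?_⟩
  by_contra hc
  push Not at hc
  have hj := j_ne h hP.1 hP.2
  have h1 : 0 ≤ E - Finsupp.single P 1 - Finsupp.single (h.siota.pl P) 1 := fun Q => by
    have := hE.nonneg Q
    simp only [Finsupp.coe_zero, Pi.zero_apply, Finsupp.coe_sub, Pi.sub_apply,
      Finsupp.single_apply] at this ⊢
    split_ifs with e1 e2 e2
    · exact absurd (e2.trans e1.symm) hj
    · have := hc.1; rw [e1] at this; omega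
    · have := hc.2; rw [e2] at this; omega
    · omega
  have h2 : degD (E - Finsupp.single P 1 - Finsupp.single (h.siota.pl P) 1) =
      (Nat.find hex : ℤ) - 2 := by
    rw [degD_sub, degD_sub, degD_single', degD_single', hE.deg]; ring
  have h3 := degD_nonneg h1
  obtain ⟨n, hn⟩ := hE.eq
  refine Nat.find_min hex (m := Nat.find hex - 2) (by omega) ⟨_, h1, fun Q hQ => ?_, by omega,
    n + 2, ?_⟩
  · by_contra hq
    have e1 : Q ≠ P := fun e => hq (e ▸ hP.1)
    have e2 : Q ≠ h.siota.pl P := fun e => hq (e ▸ (hP.j h).1)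
    have e3 : E Q = 0 := by
      by_contra e; exact hq (hE.aff Q e)
    simp [Finsupp.single_eq_of_ne e1, Finsupp.single_eq_of_ne e2, e3] at hQ
  · rw [← hn, eq_comm, cls_eq_iff]
    refine ⟨xi x P, xi_ne h P, ?_⟩
    rw [divf_xi h hP.1, Dinf_eq h hg hW, Finsupp.single_add]
    abel

theorem red_unique (h : Hyp F x w) (hg : F.natDegree = 2 * g + 1) {W : Pl Om L} (hW : 1 < W.v x)
    {c : Pic Om L} {E E' : Pl Om L →₀ ℤ} {r r' : ℕ} (hr : r ≤ g) (hr' : r' ≤ g)
    (hE : Rp x W c E r) (hE' : Rp x W c E' r') (hd : Rd h E) (hd' : Rd h E') {P : Pl Om L}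
    (hP : Gd x w P) : E P = E' P := by
  obtain ⟨n, hn⟩ := hE.eq
  obtain ⟨n', hn'⟩ := hE'.eq
  obtain ⟨f, hf, he⟩ := cls_eq_iff.mp (hn.trans hn'.symm)
  have hf' := mul_ne_zero hf (px_ne h E')
  have hW0 : ∀ {D : Pl Om L →₀ ℤ}, (∀ Q, D Q ≠ 0 → Q.v x ≤ 1) → ∀ Q : Pl Om L, 1 < Q.v x →
      D Q = 0 := fun hD Q hQ => by
    by_contra e; exact absurd (hD Q e) (not_le.mpr hQ)
  have h1 : ∀ Q : Pl Om L, Q.v x ≤ 1 →
      divf (k := Om) (f * px x E') Q = E Q + E' (h.siota.pl Q) := fun Q hQ => by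
    have e1 : Q ≠ W := fun e => absurd (e ▸ hQ) (not_le.mpr hW)
    have e2 := congrArg (fun D : Pl Om L →₀ ℤ => D Q) he
    simp only [Finsupp.add_apply, Finsupp.single_eq_of_ne e1] at e2
    rw [divf_mul hf (px_ne h E'), Finsupp.add_apply, divf_px h _ hQ]
    omega
  have h2 : divf (k := Om) (f * px x E') =
      E + h.siota.D E' + Finsupp.single W (divf (k := Om) (f * px x E') W) := by
    ext Q
    rw [Finsupp.add_apply, Finsupp.add_apply, jD_apply]
    rcases le_or_gt (Q.v x) 1 with hQ | hQ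
    · have e1 : Q ≠ W := fun e => absurd (e ▸ hQ) (not_le.mpr hW)
      rw [h1 Q hQ, Finsupp.single_eq_of_ne e1, add_zero]
    · rw [hW0 hE.aff Q hQ, hW0 hE'.aff _ (by rwa [j_v_x]), h.inf_unique ⟨g, hg⟩ hQ hW,
        Finsupp.single_eq_same, add_zero, zero_add]
  have h3 := congrArg degD h2
  rw [degD_divf hf', degD_add, degD_add, degD_single', SI.degD_D, hE.deg, hE'.deg] at h3
  have h4 : f * px x E' ∈ LD (g • Dinf Om x) := by
    rw [mem_LD_iff hf', Dinf_eq h hg hW]
    intro Q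
    rcases le_or_gt (Q.v x) 1 with hQ | hQ
    · have e1 : Q ≠ W := fun e => absurd (e ▸ hQ) (not_le.mpr hW)
      have a1 : 0 ≤ E Q := hE.nonneg Q
      have a2 : 0 ≤ E' (h.siota.pl Q) := hE'.nonneg _
      simp only [Finsupp.coe_zero, Pi.zero_apply, Finsupp.add_apply, Finsupp.smul_apply,
        Finsupp.single_eq_of_ne e1, h1 Q hQ, smul_zero]
      omega
    · rw [h.inf_unique ⟨g, hg⟩ hQ hW]
      simp only [Finsupp.coe_zero, Pi.zero_apply, Finsupp.add_apply, Finsupp.smul_apply,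
        Finsupp.single_eq_same, nsmul_eq_mul]
      omega
  obtain ⟨A, B, hAB, -, hB⟩ := h.of_mem_LD h4
  have hB0 : B = 0 := hB.resolve_right (by omega)
  have h5 : h.iota (f * px x E') = f * px x E' := by rw [hAB, h.iota_el, hB0, neg_zero]
  have h6 := divf_iota h hf' P
  rw [h5, h1 P hP.1, h1 _ (hP.j h).1, j_j] at h6
  have a1 : 0 ≤ E P := hE.nonneg P
  have a2 : 0 ≤ E' P := hE'.nonneg P
  have a3 : 0 ≤ E (h.siota.pl P) := hE.nonneg _
  have a4 : 0 ≤ E' (h.siota.pl P) := hE'.nonneg _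
  rcases hd P hP with b1 | b1 <;> rcases hd' P hP with b2 | b2 <;> omega

/-! ### equivariance -/

theorem ev_SI' (e : SI Om L Om L) (P : Pl Om L) (z : L) :
    ev (e.pl P) (e.f z) = e.s (ev P z) := by
  by_cases hz : P.v z ≤ 1
  · exact ev_SI e P hz
  · have h1 : ¬ (e.pl P).v (e.f z) ≤ 1 := by rwa [e.pl_v_apply]
    unfold ev
    rw [dif_neg hz, dif_neg h1, map_zero]

theorem SI_aeval (e : SI Om L Om L) (z : L) (A : Om[X]) :
    e.f (aeval z A) = aeval (e.f z) (A.map (e.s : Om →+* Om)) := by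
  induction A using Polynomial.induction_on' with
  | add p q hp hq => rw [map_add, map_add, hp, hq, Polynomial.map_add, map_add]
  | monomial n a =>
    rw [map_monomial, aeval_monomial, aeval_monomial, map_mul, map_pow, e.comm]
    rfl

theorem prod_SI {M : Type*} [Field M] (e : SI Om L Om L) (σ : M ≃+* M) {φ ψ : Pl Om L → M}
    (hφ : ∀ P, ψ (e.pl P) = σ (φ P)) (D : Pl Om L →₀ ℤ) :
    ((e.D D).prod fun P n => ψ P ^ n) = σ (D.prod fun P n => φ P ^ n) := by
  have : e.D D = Finsupp.equivMapDomain e.plEquiv D := rfl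
  rw [this, Finsupp.prod_equivMapDomain, Finsupp.prod, Finsupp.prod, map_prod]
  exact Finset.prod_congr rfl fun P _ => by rw [map_zpow₀, ← hφ]; rfl

section eqv

variable {e : SI Om L Om L} (hx : e.f x = x) (hw : e.f w = w)

include hx in
theorem e_v_x (P : Pl Om L) : (e.pl P).v x = P.v x := by
  conv_lhs => rw [← hx]
  exact e.pl_v_apply P x

include hx in
theorem e_ev (P : Pl Om L) : ev (e.pl P) x = e.s (ev P x) := by
  conv_lhs => rw [← hx]
  exact ev_SI' e P x

include hx in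
theorem e_xi (P : Pl Om L) : xi x (e.pl P) = e.f (xi x P) := by
  unfold xi
  rw [e_v_x hx]
  split_ifs
  · rw [map_sub, hx, e.comm, e_ev hx]
  · rw [map_one]

include hx in
theorem e_px (D : Pl Om L →₀ ℤ) : px x (e.D D) = e.f (px x D) := prod_SI e e.f (e_xi hx) D

include hx hw

theorem e_Gd (P : Pl Om L) : Gd x w (e.pl P) ↔ Gd x w P := by
  unfold Gd
  rw [e_v_x hx, e_ev hw]
  simp

theorem e_el (A B : Om[X]) :
    e.f (el x w A B) = el x w (A.map (e.s : Om →+* Om)) (B.map (e.s : Om →+* Om)) := by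
  unfold el
  rw [map_add, map_mul, SI_aeval, SI_aeval, hx, hw]

theorem e_iota (h : Hyp F x w) (f : L) : h.iota (e.f f) = e.f (h.iota f) := by
  obtain ⟨A, B, c, hc, hf⟩ := h.gen f
  have h1 := congrArg e.f hf
  rw [map_mul, SI_aeval, hx, e_el hx hw] at h1
  have h2 := congrArg e.f (h.io_spec hf)
  rw [map_mul, SI_aeval, hx, e_el hx hw, Polynomial.map_neg, ← h.io_spec h1] at h2
  have h3 : c.map (e.s : Om →+* Om) ≠ 0 := by simpa using hc
  exact (mul_right_cancel₀ (h.aeval_ne h3) h2).symm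

theorem e_j (h : Hyp F x w) (P : Pl Om L) : h.siota.pl (e.pl P) = e.pl (h.siota.pl P) := by
  apply Pl.ext
  ext f
  obtain ⟨f, rfl⟩ := e.f.surjective f
  rw [h.siota_v, e_iota hx hw, e.pl_v_apply, e.pl_v_apply, h.siota_v]

theorem e_kap (h : Hyp F x w) (hg : F.natDegree = 2 * g + 1) {f : L} (hf : f ≠ 0) :
    kap h (e.f f) = e.s (kap h f) := by
  apply kap_eq h hg (by simpa using hf)
  rw [e_iota hx hw, ← map_mul, kap_spec h hg hf, map_mul, e.comm, e.divf_f hf, e_px hx]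

theorem e_fix (h : Hyp F x w) (hg : F.natDegree = 2 * g + 1) (hr : ∀ a, F.eval a = 0 → e.s a = a)
    {P : Pl Om L} (hP : ¬ Gd x w P) : e.pl P = P := by
  rcases le_or_gt (P.v x) 1 with h1 | h1
  · have h2 : ev P w = 0 := by
      by_contra hc; exact hP ⟨h1, hc⟩
    have h3 := h.at_ev h1
    have h4 := h3.sq h.sq
    rw [h2, zero_pow two_ne_zero] at h4
    have h5 := h3.SI e
    rw [hx, hw, hr _ h4.symm, h2, map_zero] at h5
    rw [h2] at h3
    exact h.at_unique h5 h3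
  · exact h.inf_unique ⟨g, hg⟩ (by rwa [e_v_x hx]) h1

theorem e_red (h : Hyp F x w) (hg : F.natDegree = 2 * g + 1) (hr : ∀ a, F.eval a = 0 → e.s a = a)
    {W : Pl Om L} (hW : 1 < W.v x) {c : Pic Om L} (hc : e.pic c = c) {E : Pl Om L →₀ ℤ} {r : ℕ}
    (hrg : r ≤ g) (hE : Rp x W c E r) (hd : Rd h E) : e.D E = E := by
  have hWe : e.pl W = W := e_fix hx hw h hg hr fun h1 => absurd h1.1 (not_le.mpr hW)
  have h1 : Rp x W c (e.D E) r := by
    refine ⟨e.D_nonneg hE.nonneg, fun P hP => ?_, by rw [SI.degD_D, hE.deg], ?_⟩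
    · obtain ⟨P, rfl⟩ := e.plEquiv.surjective P
      rw [e.plEquiv_apply] at hP ⊢
      rw [e.D_pl] at hP
      rw [e_v_x hx]
      exact hE.aff P hP
    · obtain ⟨n, hn⟩ := hE.eq
      exact ⟨n, by rw [← hc, ← hn, e.pic_cls, map_add e.D, e.D_single, hWe]⟩
  have h2 : Rd h (e.D E) := fun P hP => by
    obtain ⟨P, rfl⟩ := e.plEquiv.surjective P
    rw [e.plEquiv_apply] at hP ⊢
    rw [e_j hx hw, e.D_pl, e.D_pl]
    exact hd P ((e_Gd hx hw P).mp hP)
  ext P
  by_cases hP : Gd x w P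
  · exact red_unique h hg hW hrg hrg h1 hE h2 hd hP
  · conv_lhs => rw [← e_fix hx hw h hg hr hP]
    exact e.D_pl E P

end eqv

/-! ### the symmetric kernel -/

open Classical in
/-- the kernel, trivial at the Weierstrass points -/
noncomputable def mu1 (ν : Valuation Om ℝ≥0) (g : ℕ) (x w : L) (P Q : Pl Om L) : ℝ≥0 :=
  if Gd x w P ∧ Gd x w Q then mu0 ν g x w P Q else 1

open Classical in
/-- correction at the Weierstrass points -/
noncomputable def om (x w : L) (P Q : Pl Om L) : Om :=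
  if P.v x ≤ 1 ∧ ev P w = 0 then ev Q x - ev P x else 1

theorem mu1_pos' {P Q : Pl Om L} (hP : Gd x w P) (hQ : Gd x w Q) :
    mu1 ν g x w P Q = mu0 ν g x w P Q := if_pos ⟨hP, hQ⟩

theorem mu1_neg {P Q : Pl Om L} (h : ¬ (Gd x w P ∧ Gd x w Q)) : mu1 ν g x w P Q = 1 := if_neg h

theorem om_pos {P : Pl Om L} (h1 : P.v x ≤ 1) (h2 : ev P w = 0) (Q : Pl Om L) :
    om x w P Q = ev Q x - ev P x := if_pos ⟨h1, h2⟩

theorem om_neg {P : Pl Om L} (h : ¬ (P.v x ≤ 1 ∧ ev P w = 0)) (Q : Pl Om L) :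
    om x w P Q = 1 := if_neg h

theorem mu1_symm (P Q : Pl Om L) : mu1 ν g x w P Q = mu1 ν g x w Q P := by
  unfold mu1
  by_cases h1 : Gd x w P ∧ Gd x w Q
  · rw [if_pos h1, if_pos h1.symm]
    by_cases h2 : P = Q
    · rw [h2]
    · rw [mu0_ne h1.1.1 h2, mu0_ne h1.2.1 (Ne.symm h2), dd_symm, mul_comm (Hh ν (ev P x))]
  · rw [if_neg h1, if_neg fun h2 => h1 h2.symm]

theorem mu1_pos (h : Hyp F x w) (P Q : Pl Om L) : 0 < mu1 ν g x w P Q := by
  unfold mu1
  split_ifs with h1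
  · exact mu0_pos h P h1.2.1 h1.2.2
  · exact zero_lt_one

theorem om_ne (h : Hyp F x w) (P : Pl Om L) {Q : Pl Om L} (hQ : Gd x w Q) : om x w P Q ≠ 0 := by
  unfold om
  split_ifs with h1
  · intro h2
    rcases eq_or_j h h1.1 hQ.1 (sub_eq_zero.mp h2).symm with h3 | h3
    · exact hQ.2 (h3 ▸ h1.2)
    · exact (hQ.j h).2 (h3 ▸ h1.2)
  · exact one_ne_zero

theorem mu0_eq (h : Hyp F x w) (hg : F.natDegree = 2 * g + 1) (hL : LocB ν F) (P : Pl Om L)
    {Q : Pl Om L} (hQ : Gd x w Q) : mu0 ν g x w P Q = mu1 ν g x w P Q * ν (om x w P Q) := by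
  have h0 := om_ne h P hQ
  by_cases h1 : P.v x ≤ 1
  · by_cases h2 : ev P w = 0
    · rw [om_pos h1 h2] at h0 ⊢
      rw [mu1_neg fun h3 => h3.1.2 h2, one_mul]
      obtain ⟨W, hW⟩ := h.exists_inf
      have hj : h.siota.pl P = P := by
        have h3 := h.at_ev h1
        have h4 := h3.iota h
        rw [h2, neg_zero] at h4
        rw [h2] at h3
        exact h.at_unique h4 h3
      have hd : divf (k := Om) (xi x P) = Finsupp.single P 2 + Finsupp.single W (-2) := by
        rw [divf_xi h h1, hj, Dinf_eq h hg hW, ← Finsupp.single_add, Finsupp.single_neg,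
          sub_eq_add_neg]
        rfl
      have hk : kap h (xi x P) = 1 := by
        apply kap_eq h hg (xi_ne h P)
        rw [hd, px_add h, px_single, px_single, xi_inf (not_le.mpr hW), one_zpow, map_one, one_mul,
          mul_one, xi_aff h1, map_sub, h.iota_x, AlgEquiv.commutes, zpow_two]
      have h3 := ml (ν := ν) h hg hL hQ.1 hQ.2 (xi_ne h P)
      unfold MLs at h3
      rw [hk, hd, prod_mu0_add h hQ.1 hQ.2, Finsupp.prod_single_index (zpow_zero _),
        Finsupp.prod_single_index (zpow_zero _), mu0_inf (not_le.mpr hW), one_zpow, map_one,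
        one_mul, mul_one, xi_aff h1, ← el_x x w (ev P x),
        lv_el (h.at_ev hQ.1) _ (by simpa using h0), zpow_two, ← sq] at h3
      simp only [eval_sub, eval_X, eval_C, eval_zero, zero_mul, add_zero] at h3
      exact ((pow_left_inj₀ zero_le zero_le two_ne_zero).mp h3).symm
    · rw [mu1_pos' ⟨h1, h2⟩ hQ, om_neg fun h3 => h2 h3.2, map_one, mul_one]
  · rw [mu0_inf h1, mu1_neg fun h3 => h1 h3.1.1, om_neg fun h3 => h1 h3.1, map_one, mul_one]

open Classical in
/-- the normalised value of `f` at `Q` -/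
noncomputable def zq (h : Hyp F x w) (f : L) (Q : Pl Om L) : Om :=
  if Gd x w Q then lv Q (x - algebraMap Om L (ev Q x)) f ^ 2 /
    (kap h f * (divf (k := Om) f).prod fun P n => om x w P Q ^ n) else 1

theorem prod_om_ne (h : Hyp F x w) (D : Pl Om L →₀ ℤ) {Q : Pl Om L} (hQ : Gd x w Q) :
    (D.prod fun P n => om x w P Q ^ n) ≠ 0 :=
  Finset.prod_ne_zero_iff.mpr fun P _ => zpow_ne_zero _ (om_ne h P hQ)

theorem zq_ne (h : Hyp F x w) (hg : F.natDegree = 2 * g + 1) {f : L} (hf : f ≠ 0) (Q : Pl Om L) :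
    zq h f Q ≠ 0 := by
  unfold zq
  split_ifs with hQ
  · exact div_ne_zero (pow_ne_zero _ (lv_ne (h.x_sub_ne _) (h.ord_x (h.at_ev hQ.1) hQ.2) hf))
      (mul_ne_zero (kap_ne h hg hf) (prod_om_ne h _ hQ))
  · exact one_ne_zero

theorem v_zq (h : Hyp F x w) (hg : F.natDegree = 2 * g + 1) (hL : LocB ν F) {f : L} (hf : f ≠ 0)
    (Q : Pl Om L) : ν (zq h f Q) = (divf (k := Om) f).prod fun P n => mu1 ν g x w P Q ^ n := by
  unfold zq
  split_ifs with hQ
  · have h1 := ml (ν := ν) h hg hL hQ.1 hQ.2 hf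
    unfold MLs at h1
    rw [map_div₀, map_pow, h1, div_eq_iff ((ν.ne_zero_iff).mpr
      (mul_ne_zero (kap_ne h hg hf) (prod_om_ne h _ hQ))), map_mul, mul_left_comm]
    congr 1
    rw [Finsupp.prod, Finsupp.prod, Finsupp.prod, map_prod, ← Finset.prod_mul_distrib]
    exact Finset.prod_congr rfl fun P _ => by rw [map_zpow₀, ← mul_zpow, mu0_eq h hg hL P hQ]
  · rw [map_one]
    symm
    refine Finset.prod_eq_one fun P _ => ?_
    show mu1 ν g x w P Q ^ _ = 1
    rw [mu1_neg fun h1 => hQ h1.2, one_zpow]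

theorem zq_smul (h : Hyp F x w) (hg : F.natDegree = 2 * g + 1) {f : L} (hf : f ≠ 0) {c : Om}
    (hc : c ≠ 0) (Q : Pl Om L) : zq h (f * algebraMap Om L c) Q = zq h f Q := by
  have hc' : algebraMap Om L c ≠ 0 := by simpa using hc
  unfold zq
  split_ifs with hQ
  · rw [lv_mul (h.x_sub_ne _) (h.ord_x (h.at_ev hQ.1) hQ.2) hf hc', lv_const _ _ hc,
      kap_mul h hg hf hc', kap_const h hg hc, divf_mul hf hc', divf_const hc, add_zero]
    have h1 := kap_ne h hg hf
    have h2 := prod_om_ne h (divf (k := Om) f) hQ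
    field_simp
  · rfl

theorem e_zq {e : SI Om L Om L} (hx : e.f x = x) (hw : e.f w = w) (h : Hyp F x w)
    (hg : F.natDegree = 2 * g + 1) {f : L} (hf : f ≠ 0) (Q : Pl Om L) :
    zq h (e.f f) (e.pl Q) = e.s (zq h f Q) := by
  unfold zq
  rw [e_Gd hx hw]
  split_ifs with hQ
  · have h1 := lv_SI e (h.x_sub_ne (ev Q x)) (h.ord_x (h.at_ev hQ.1) hQ.2) hf
    rw [map_sub, hx, e.comm, ← e_ev hx] at h1
    rw [h1, e_kap hx hw h hg hf, e.divf_f hf,
      prod_SI e e.s (φ := fun P => om x w P Q) (ψ := fun P => om x w P (e.pl Q)), map_div₀,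
      map_pow, map_mul]
    intro P
    by_cases h2 : P.v x ≤ 1 ∧ ev P w = 0
    · rw [om_pos h2.1 h2.2, om_pos (by rw [e_v_x hx]; exact h2.1)
        (by rw [e_ev hw, h2.2, map_zero]), e_ev hx, e_ev hx, map_sub]
    · rw [om_neg h2, om_neg, map_one]
      rw [e_v_x hx, e_ev hw]
      simpa using h2
  · rw [map_one]

theorem e_zq_prod {e : SI Om L Om L} (hx : e.f x = x) (hw : e.f w = w) (h : Hyp F x w)
    (hg : F.natDegree = 2 * g + 1) {f : L} (hf : f ≠ 0)
    (hD : e.D (divf (k := Om) f) = divf (k := Om) f) {E : Pl Om L →₀ ℤ} (hE : e.D E = E) :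
    e.s (E.prod fun Q n => zq h f Q ^ n) = E.prod fun Q n => zq h f Q ^ n := by
  have hf' : e.f f ≠ 0 := by simpa using hf
  obtain ⟨c, hc, he⟩ := const_of_aff h hg (div_ne_zero hf' hf) (fun P _ => by
    rw [divf_div hf' hf, e.divf_f hf, hD, sub_self]; rfl)
  rw [div_eq_iff hf, mul_comm] at he
  rw [← prod_SI e e.s (ψ := zq h f), hE]
  intro P
  rw [← e_zq hx hw h hg hf, he, zq_smul h hg hf hc]

end Crest.Agent.T15.Fa
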