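import Mathlib
import Crest.Agent.T15.FaE_51
import Crest.Agent.T15.FaDef_51

/-!
# Row 15 (helper51): the height pairing on a constant hyperelliptic curve, part F

Integrality and positivity of the local terms.
-/

set_option autoImplicit false
set_option linter.all false

namespace Crest.Agent.T15.Fa

open Polynomial WithZero Module
open scoped NNReal
open Crest.Agent.R013.RR7_948 Crest.Agent.R013.RR8_948 Crest.Agent.R013.RR9_948
open Crest.Agent.R013.RR11_948 Crest.Agent.R013.RR12_948 Crest.Agent.R013.PicD_398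
open Crest.Agent.R013.GR2_921 Crest.Agent.R013.Frob1_914 Crest.Agent.T15.Disc
open Crest.Agent.T15.Hy

/-! ### bilinear forms given by a kernel -/

section bil

variable {α : Type*}

/-- the bilinear form of a kernel -/
noncomputable def bil (K : α → α → ℝ) (D E : α →₀ ℤ) : ℝ :=
  D.sum fun P n => E.sum fun Q m => (n : ℝ) * m * K P Q

theorem bil_add_left (K : α → α → ℝ) (D D' E : α →₀ ℤ) :
    bil K (D + D') E = bil K D E + bil K D' E := by
  unfold bil
  apply Finsupp.sum_add_index'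
  · intro P; simp
  · intro P n n'
    rw [← Finsupp.sum_add]
    exact Finsupp.sum_congr fun Q _ => by push_cast; ring

theorem bil_swap (K : α → α → ℝ) (D E : α →₀ ℤ) :
    bil K D E = E.sum fun Q m => (m : ℝ) * D.sum fun P n => (n : ℝ) * K P Q := by
  unfold bil
  rw [Finsupp.sum_comm]
  refine Finsupp.sum_congr fun Q _ => ?_
  rw [Finsupp.mul_sum]
  exact Finsupp.sum_congr fun P _ => by ring

theorem bil_symm {K : α → α → ℝ} (hK : ∀ P Q, K P Q = K Q P) (D E : α →₀ ℤ) :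
    bil K D E = bil K E D := by
  unfold bil
  rw [Finsupp.sum_comm]
  exact Finsupp.sum_congr fun Q _ => Finsupp.sum_congr fun P _ => by rw [hK]; ring

theorem bil_single {K : α → α → ℝ} {W : α} (hW : ∀ Q, K W Q = 0) (n : ℤ) (E : α →₀ ℤ) :
    bil K (Finsupp.single W n) E = 0 := by
  unfold bil
  rw [Finsupp.sum_single_index (by simp)]
  simp [hW]

theorem hasSum_bil {T : Type*} {K : T → α → α → ℝ} {M : α → α → ℝ}
    (h : ∀ P Q, HasSum (fun t => K t P Q) (M P Q)) (D E : α →₀ ℤ) :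
    HasSum (fun t => bil (K t) D E) (bil M D E) :=
  hasSum_sum fun P _ => hasSum_sum fun Q _ => (h P Q).mul_left _

theorem log_prod (μ : α → ℝ≥0) (D : α →₀ ℤ) (h : ∀ P ∈ D.support, μ P ≠ 0) :
    Real.log ((D.prod fun P n => μ P ^ n : ℝ≥0) : ℝ) = D.sum fun P n => (n : ℝ) * Real.log (μ P) := by
  rw [Finsupp.prod, NNReal.coe_prod, Real.log_prod, Finsupp.sum]
  · exact Finset.sum_congr rfl fun P _ => by rw [NNReal.coe_zpow, Real.log_zpow]
  · intro P hP
    rw [NNReal.coe_zpow]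
    exact zpow_ne_zero _ (by simpa using h P hP)

theorem log_v_prod {Om : Type*} [Field Om] (ν : Valuation Om ℝ≥0) (ζ : α → Om) (D : α →₀ ℤ)
    (h : ∀ P ∈ D.support, ζ P ≠ 0) :
    Real.log (ν (D.prod fun P n => ζ P ^ n)) = D.sum fun P n => (n : ℝ) * Real.log (ν (ζ P)) := by
  rw [← log_prod (fun P => ν (ζ P)) D fun P hP => (ν.ne_zero_iff).mpr (h P hP)]
  congr 2
  rw [Finsupp.prod, Finsupp.prod, map_prod]
  exact Finset.prod_congr rfl fun P _ => map_zpow₀ _ _ _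

theorem pos_alg [DecidableEq α] (S : Finset α) (n : α → ℤ) (hn : ∀ P, 0 ≤ n P) (K : α → α → ℝ)
    (hh e b : α → ℝ) (r g : ℕ) (hr : ∑ P ∈ S, n P = r) (hrg : r ≤ g) (h0 : ∀ P, 0 ≤ hh P)
    (he : ∀ P, e P ≤ 0) (hb : ∀ P, e P ≤ b P - (2 * g + 2) * hh P)
    (hK : ∀ P ∈ S, ∀ Q ∈ S, K P Q ≤ hh P + hh Q + if P = Q then e P else 0) :
    ∑ P ∈ S, ∑ Q ∈ S, (n P : ℝ) * n Q * K P Q ≤
      ∑ P ∈ S, (n P : ℝ) * b P - 2 * ∑ P ∈ S, (n P : ℝ) * hh P := by
  have hn' : ∀ P, (0 : ℝ) ≤ n P := fun P => by exact_mod_cast hn P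
  have hr' : ∑ P ∈ S, (n P : ℝ) = r := by exact_mod_cast hr
  have hs : 0 ≤ ∑ P ∈ S, (n P : ℝ) * hh P := Finset.sum_nonneg fun P _ => mul_nonneg (hn' P) (h0 P)
  have hrg' : (r : ℝ) ≤ g := by exact_mod_cast hrg
  have h1 : ∑ P ∈ S, ∑ Q ∈ S, (n P : ℝ) * n Q * K P Q ≤
      ∑ P ∈ S, ((n P : ℝ) * hh P * r + n P * (∑ Q ∈ S, (n Q : ℝ) * hh Q) +
        n P * (b P - (2 * g + 2) * hh P)) := by
    refine Finset.sum_le_sum fun P hP => ?_
    have h2 : ∑ Q ∈ S, (n P : ℝ) * n Q * K P Q ≤ ∑ Q ∈ S, ((n P : ℝ) * hh P * n Q +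
        n P * (n Q * hh Q) + if P = Q then (n P : ℝ) * n P * e P else 0) := by
      refine Finset.sum_le_sum fun Q hQ => ?_
      refine (mul_le_mul_of_nonneg_left (hK P hP Q hQ) (mul_nonneg (hn' P) (hn' Q))).trans
        (le_of_eq ?_)
      split_ifs with h3
      · subst h3; ring
      · ring
    rw [Finset.sum_add_distrib, Finset.sum_add_distrib, ← Finset.mul_sum, ← Finset.mul_sum, hr',
      Finset.sum_ite_eq, if_pos hP] at h2
    refine h2.trans ?_
    have h3 : (n P : ℝ) ≤ n P * n P := by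
      have : n P ≤ n P * n P := by have := hn P; nlinarith [Int.le_self_sq (n P)]
      exact_mod_cast this
    have h4 := mul_le_mul_of_nonpos_right h3 (he P)
    have h5 := mul_le_mul_of_nonneg_left (hb P) (hn' P)
    linarith
  refine h1.trans ?_
  rw [Finset.sum_add_distrib, Finset.sum_add_distrib, ← Finset.sum_mul, ← Finset.sum_mul, hr']
  have h6 : ∑ P ∈ S, (n P : ℝ) * (b P - (2 * g + 2) * hh P) =
      ∑ P ∈ S, (n P : ℝ) * b P - (2 * g + 2) * ∑ P ∈ S, (n P : ℝ) * hh P := by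
    rw [Finset.mul_sum, ← Finset.sum_sub_distrib]
    exact Finset.sum_congr rfl fun P _ => by ring
  rw [h6]
  nlinarith [mul_le_mul_of_nonneg_right hrg' hs]

end bil

variable {Om L : Type*} [Field Om] [Field L] [Algebra Om L]
variable [Algebra (RatFunc Om) L] [IsScalarTower Om (RatFunc Om) L]
  [FiniteDimensional (RatFunc Om) L] [Algebra.IsSeparable (RatFunc Om) L] [IsAlgClosed Om]
variable {ν : Valuation Om ℝ≥0} {F : Om[X]} {x w : L} {g : ℕ}

/-- the additive kernel -/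
noncomputable def lg (ν : Valuation Om ℝ≥0) (g : ℕ) (x w : L) (P Q : Pl Om L) : ℝ :=
  Real.log (mu1 ν g x w P Q)

theorem lg_symm (P Q : Pl Om L) : lg ν g x w P Q = lg ν g x w Q P := by
  unfold lg; rw [mu1_symm]

theorem lg_neg {P Q : Pl Om L} (h : ¬ (Gd x w P ∧ Gd x w Q)) : lg ν g x w P Q = 0 := by
  unfold lg; rw [mu1_neg h]; simp

theorem bil_divf (h : Hyp F x w) (hg : F.natDegree = 2 * g + 1) (hL : LocB ν F) {f : L}
    (hf : f ≠ 0) (E : Pl Om L →₀ ℤ) : bil (lg ν g x w) (divf (k := Om) f) E =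
      Real.log (ν (E.prod fun Q n => zq h f Q ^ n)) := by
  rw [bil_swap, log_v_prod ν _ _ fun Q _ => zq_ne h hg hf Q]
  refine Finsupp.sum_congr fun Q _ => ?_
  rw [v_zq h hg hL hf, log_prod _ _ fun P _ => (mu1_pos h P Q).ne']
  rfl

open Classical in
/-- local height of a place -/
noncomputable def hh (ν : Valuation Om ℝ≥0) (x w : L) (P : Pl Om L) : ℝ :=
  if Gd x w P then Real.log (Hh ν (ev P x)) else 0

open Classical in
/-- the square of `w(P)` -/
noncomputable def bb (x w : L) (P : Pl Om L) : Om := if Gd x w P then ev P w ^ 2 else 1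

theorem hh_nonneg (P : Pl Om L) : 0 ≤ hh ν x w P := by
  unfold hh
  split_ifs
  · exact Real.log_nonneg (by exact_mod_cast one_le_Hh _)
  · exact le_rfl

theorem bb_ne (P : Pl Om L) : bb x w P ≠ 0 := by
  unfold bb
  split_ifs with h
  · exact pow_ne_zero _ h.2
  · exact one_ne_zero

theorem e_bb {e : SI Om L Om L} (hx : e.f x = x) (hw : e.f w = w) (P : Pl Om L) :
    bb x w (e.pl P) = e.s (bb x w P) := by
  unfold bb
  rw [e_Gd hx hw]
  split_ifs
  · rw [e_ev hw, map_pow]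
  · rw [map_one]

/-- the local inequality -/
theorem bil_le (h : Hyp F x w) (hg : F.natDegree = 2 * g + 1) (hL : LocB ν F) {E : Pl Om L →₀ ℤ}
    {r : ℕ} (hr : r ≤ g) (h0 : 0 ≤ E) (hdeg : degD E = r) (hd : Rd h E) :
    bil (lg ν g x w) (h.siota.D E) E ≤ Real.log (ν (E.prod fun P n => bb x w P ^ n)) -
      2 * E.sum fun P n => (n : ℝ) * hh ν x w P := by
  classical
  rw [log_v_prod ν _ _ fun P _ => bb_ne P]
  have h1 : bil (lg ν g x w) (h.siota.D E) E =
      ∑ P ∈ E.support, ∑ Q ∈ E.support, (E P : ℝ) * E Q * lg ν g x w (h.siota.pl P) Q := by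
    have : h.siota.D E = Finsupp.equivMapDomain h.siota.plEquiv E := rfl
    rw [bil, this, Finsupp.sum_equivMapDomain]
    rfl
  have hb : ∀ P : Pl Om L, P.v x ≤ 1 → ν (ev P w) ≤ Hh ν (ev P x) ^ (g + 1) := fun P hP =>
    b_le_Hh hL.aff.int hg.le ((h.at_ev hP).sq h.sq)
  have hlog : ∀ {d : ℝ≥0}, d ≤ 1 → Real.log d ≤ 0 := fun hd =>
    Real.log_nonpos (NNReal.coe_nonneg _) (by exact_mod_cast hd)
  rw [h1]
  refine pos_alg E.support E h0 (fun P Q => lg ν g x w (h.siota.pl P) Q) (hh ν x w)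
    (fun P => if Gd x w P then 2 * Real.log (dd ν g (ev P x) (-ev P w) (ev P x) (ev P w)) else 0)
    (fun P => Real.log (ν (bb x w P))) r g (by rw [← hdeg, degD_eq_sum]; rfl) hr hh_nonneg
    (fun P => ?_) (fun P => ?_) (fun P hP Q hQ => ?_)
  · split_ifs with hP
    · have := hlog (dd_le_one (g := g) (a := ev P x) (b := -ev P w)
        (by rw [ν.map_neg]; exact hb P hP.1) (hb P hP.1))
      linarith
    · exact le_rfl
  · unfold hh bb
    split_ifs with hP
    · have h2 := dd_neg_le hL.aff.two g (ev P x) (-ev P w)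
      rw [neg_neg, ν.map_neg] at h2
      have h3 : 0 < dd ν g (ev P x) (-ev P w) (ev P x) (ev P w) :=
        dd_pos (Or.inr (ne_neg_of h.two hP.2).symm)
      have h4 := Real.log_le_log (by exact_mod_cast h3) (NNReal.coe_le_coe.mpr h2)
      have h5 : ((ν (ev P w) : ℝ≥0) : ℝ) ≠ 0 := by simpa using hP.2
      have h6 : ((Hh ν (ev P x) : ℝ≥0) : ℝ) ≠ 0 := by exact_mod_cast (Hh_pos _).ne'
      rw [NNReal.coe_div, NNReal.coe_pow, Real.log_div h5 (pow_ne_zero _ h6), Real.log_pow] at h4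
      rw [map_pow, NNReal.coe_pow, Real.log_pow]
      push_cast at h4 ⊢
      linarith
    · simp
  · by_cases h2 : Gd x w P ∧ Gd x w Q
    · have hne : h.siota.pl P ≠ Q := by
        intro e
        rcases hd P h2.1 with h3 | h3
        · exact Finsupp.mem_support_iff.mp hP h3
        · exact Finsupp.mem_support_iff.mp hQ (e ▸ h3)
      have hj := h2.1.j h
      have h3 := dd_pos' (ν := ν) (g := g) h hj.1 h2.2.1 hne
      have h4 := hlog (dd_le_one (g := g) (hb _ hj.1) (hb Q h2.2.1))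
      unfold lg hh
      rw [mu1_pos' hj h2.2, mu0_ne hj.1 hne, if_pos h2.1, if_pos h2.2, if_pos h2.1]
      have h6 : ∀ a, ((Hh ν a : ℝ≥0) : ℝ) ≠ 0 := fun a => by exact_mod_cast (Hh_pos _).ne'
      rw [NNReal.coe_mul, NNReal.coe_mul, NNReal.coe_pow, Real.log_mul
        (pow_ne_zero _ (by exact_mod_cast h3.ne')) (mul_ne_zero (h6 _) (h6 _)),
        Real.log_mul (h6 _) (h6 _), Real.log_pow]
      rw [ev_j_x h h2.1.1, ev_j_w h h2.1.1] at h4 ⊢
      split_ifs with h5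
      · subst h5; push_cast; linarith
      · push_cast; linarith
    · have h3 : ¬ (Gd x w (h.siota.pl P) ∧ Gd x w Q) := fun h3 =>
        h2 ⟨by have := h3.1.j h; rwa [j_j] at this, h3.2⟩
      rw [lg_neg h3]
      have h4 := hh_nonneg (ν := ν) (x := x) (w := w) P
      have h5 := hh_nonneg (ν := ν) (x := x) (w := w) Q
      split_ifs with h6 h7
      · exact absurd ⟨h7, h6 ▸ h7⟩ h2
      · linarith
      · linarith

/-! ### integrality -/

section rep

variable {k : Type*} [Field k] [Algebra k Om]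

theorem exists_lam [Infinite k] (hν : ∀ c : k, c ≠ 0 → ν (algebraMap k Om c) = 1) {ι : Type*}
    (X : Finset ι) (u u' : ι → Om) :
    ∃ c : k, ∀ i ∈ X, ν (u i + algebraMap k Om c * u' i) = max (ν (u i)) (ν (u' i)) := by
  have hle : ∀ c : k, ν (algebraMap k Om c) ≤ 1 := fun c => by
    by_cases h : c = 0
    · simp [h]
    · exact (hν c h).le
  have h1 : ∀ i, {c : k | ν (u i + algebraMap k Om c * u' i) ≠ max (ν (u i)) (ν (u' i))}.Finite := by
    intro i
    apply Set.Subsingleton.finite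
    have key : ∀ c : k, ν (u i + algebraMap k Om c * u' i) ≠ max (ν (u i)) (ν (u' i)) →
        ν (u i + algebraMap k Om c * u' i) < max (ν (u i)) (ν (u' i)) := fun c hc =>
      lt_of_le_of_ne ((ν.map_add _ _).trans (max_le_max le_rfl (by
        rw [map_mul]; exact mul_le_of_le_one_left' (hle c)))) hc
    intro c hc d hd
    by_contra hne
    have h2 := key c hc
    have h3 := key d hd
    have h4 : ν (u' i) < max (ν (u i)) (ν (u' i)) := by
      have := lt_of_le_of_lt (ν.map_sub _ _) (max_lt h2 h3)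
      rwa [show u i + algebraMap k Om c * u' i - (u i + algebraMap k Om d * u' i) =
        algebraMap k Om (c - d) * u' i by rw [map_sub]; ring, map_mul,
        hν _ (sub_ne_zero.mpr hne), one_mul] at this
    have h5 : ν (u i) < max (ν (u i)) (ν (u' i)) := by
      have h6 : ν (algebraMap k Om c * u' i) < max (ν (u i)) (ν (u' i)) := by
        rw [map_mul]; exact lt_of_le_of_lt (mul_le_of_le_one_left' (hle c)) h4
      have := lt_of_le_of_lt (ν.map_sub _ _) (max_lt h2 h6)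
      rwa [add_sub_cancel_right] at this
    exact lt_irrefl _ (max_lt h5 h4)
  obtain ⟨c, hc⟩ := (Set.Finite.biUnion X.finite_toSet fun i _ => h1 i).infinite_compl.nonempty
  refine ⟨c, fun i hi => ?_⟩
  by_contra h2
  exact hc (Set.mem_biUnion hi h2)

variable (k) (S : Finset Om) (x w)

/-- equivariant functions of two places -/
def Eqv (ζ : Pl Om L → Pl Om L → Om) : Prop :=
  ∀ e, Fx k S x w e → ∀ P Q, ζ (e.pl P) (e.pl Q) = e.s (ζ P Q)

/-- absolute values of equivariant functions, on a finite set of pairs -/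
def Rep (ν : Valuation Om ℝ≥0) (X : Finset (Pl Om L × Pl Om L)) (μ : Pl Om L → Pl Om L → ℝ≥0) :
    Prop := ∃ ζ, Eqv x w k S ζ ∧ ∀ p ∈ X, ν (ζ p.1 p.2) = μ p.1 p.2

variable {k S x w} {X : Finset (Pl Om L × Pl Om L)}

theorem Eqv.sub {ζ ζ' : Pl Om L → Pl Om L → Om} (h : Eqv x w k S ζ) (h' : Eqv x w k S ζ') :
    Eqv x w k S fun P Q => ζ P Q - ζ' P Q := fun e he P Q => by
  simp only [h e he, h' e he, map_sub]

theorem Eqv.mul {ζ ζ' : Pl Om L → Pl Om L → Om} (h : Eqv x w k S ζ) (h' : Eqv x w k S ζ') :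
    Eqv x w k S fun P Q => ζ P Q * ζ' P Q := fun e he P Q => by
  simp only [h e he, h' e he, map_mul]

theorem Eqv.pow {ζ : Pl Om L → Pl Om L → Om} (h : Eqv x w k S ζ) (n : ℕ) :
    Eqv x w k S fun P Q => ζ P Q ^ n := fun e he P Q => by
  simp only [h e he, map_pow]

theorem Eqv.neg {ζ : Pl Om L → Pl Om L → Om} (h : Eqv x w k S ζ) :
    Eqv x w k S fun P Q => -ζ P Q := fun e he P Q => by
  simp only [h e he, map_neg]

theorem Rep.of {ζ : Pl Om L → Pl Om L → Om} (h : Eqv x w k S ζ) :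
    Rep x w k S ν X fun P Q => ν (ζ P Q) := ⟨ζ, h, fun _ _ => rfl⟩

theorem Rep.one : Rep x w k S ν X fun _ _ => 1 :=
  ⟨fun _ _ => 1, fun e _ _ _ => (map_one _).symm, fun _ _ => map_one _⟩

theorem Rep.mul {μ μ' : Pl Om L → Pl Om L → ℝ≥0} (h : Rep x w k S ν X μ) (h' : Rep x w k S ν X μ') :
    Rep x w k S ν X fun P Q => μ P Q * μ' P Q := by
  obtain ⟨ζ, h1, h2⟩ := h
  obtain ⟨ζ', h1', h2'⟩ := h'
  exact ⟨_, h1.mul h1', fun p hp => by simp only [map_mul, h2 p hp, h2' p hp]⟩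

theorem Rep.pow {μ : Pl Om L → Pl Om L → ℝ≥0} (h : Rep x w k S ν X μ) (n : ℕ) :
    Rep x w k S ν X fun P Q => μ P Q ^ n := by
  obtain ⟨ζ, h1, h2⟩ := h
  exact ⟨_, h1.pow n, fun p hp => by simp only [map_pow, h2 p hp]⟩

theorem Rep.inv {μ : Pl Om L → Pl Om L → ℝ≥0} (h : Rep x w k S ν X μ) :
    Rep x w k S ν X fun P Q => (μ P Q)⁻¹ := by
  obtain ⟨ζ, h1, h2⟩ := h
  exact ⟨fun P Q => (ζ P Q)⁻¹, fun e he P Q => by simp only [h1 e he, map_inv₀],
    fun p hp => by simp only [map_inv₀, h2 p hp]⟩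

theorem Rep.div {μ μ' : Pl Om L → Pl Om L → ℝ≥0} (h : Rep x w k S ν X μ) (h' : Rep x w k S ν X μ') :
    Rep x w k S ν X fun P Q => μ P Q / μ' P Q := by
  simpa only [div_eq_mul_inv] using h.mul h'.inv

theorem Rep.ite {μ μ' : Pl Om L → Pl Om L → ℝ≥0} (h : Rep x w k S ν X μ) (h' : Rep x w k S ν X μ')
    (c : Pl Om L → Pl Om L → Prop) [∀ P Q, Decidable (c P Q)]
    (hc : ∀ e, Fx k S x w e → ∀ P Q, c (e.pl P) (e.pl Q) ↔ c P Q) :
    Rep x w k S ν X fun P Q => if c P Q then μ P Q else μ' P Q := by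
  obtain ⟨ζ, h1, h2⟩ := h
  obtain ⟨ζ', h1', h2'⟩ := h'
  refine ⟨fun P Q => if c P Q then ζ P Q else ζ' P Q, fun e he P Q => ?_, fun p hp => ?_⟩
  · simp only [hc e he, h1 e he, h1' e he]
    split_ifs <;> rfl
  · simp only
    split_ifs
    · exact h2 p hp
    · exact h2' p hp

variable [Infinite k] (hν : ∀ c : k, c ≠ 0 → ν (algebraMap k Om c) = 1)
include hν

theorem Rep.max {μ μ' : Pl Om L → Pl Om L → ℝ≥0} (h : Rep x w k S ν X μ) (h' : Rep x w k S ν X μ') :
    Rep x w k S ν X fun P Q => max (μ P Q) (μ' P Q) := by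
  obtain ⟨ζ, h1, h2⟩ := h
  obtain ⟨ζ', h1', h2'⟩ := h'
  obtain ⟨c, hc⟩ := exists_lam hν X (fun p => ζ p.1 p.2) fun p => ζ' p.1 p.2
  refine ⟨fun P Q => ζ P Q + algebraMap k Om c * ζ' P Q, fun e he P Q => ?_, fun p hp => ?_⟩
  · simp only [h1 e he, h1' e he, map_add, map_mul, he.2.2.1 c]
  · simp only [hc p hp, h2 p hp, h2' p hp]

theorem rep_Hh {a : Pl Om L → Pl Om L → Om} (ha : Eqv x w k S a) :
    Rep x w k S ν X fun P Q => Hh ν (a P Q) := Rep.max hν Rep.one (Rep.of ha)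

theorem rep_dd {a b a' b' : Pl Om L → Pl Om L → Om} (ha : Eqv x w k S a) (hb : Eqv x w k S b)
    (ha' : Eqv x w k S a') (hb' : Eqv x w k S b') :
    Rep x w k S ν X fun P Q => dd ν g (a P Q) (b P Q) (a' P Q) (b' P Q) :=
  Rep.max hν ((Rep.of (ha.sub ha')).div ((rep_Hh hν ha).mul (rep_Hh hν ha')))
    ((Rep.max hν (Rep.of (hb.sub hb'))
      (Rep.of ((hb.mul (ha'.pow _)).sub (hb'.mul (ha.pow _))))).div
        (((rep_Hh hν ha).mul (rep_Hh hν ha')).pow _))

theorem rep_mu1 : Rep x w k S ν X (mu1 ν g x w) := by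
  classical
  have a1 : Eqv x w k S fun P _ => ev P x := fun e he P _ => e_ev he.1 P
  have b1 : Eqv x w k S fun P _ => ev P w := fun e he P _ => e_ev he.2.1 P
  have a2 : Eqv x w k S fun _ Q => ev Q x := fun e he _ Q => e_ev he.1 Q
  have b2 : Eqv x w k S fun _ Q => ev Q w := fun e he _ Q => e_ev he.2.1 Q
  have h1 := (((rep_dd (g := g) (X := X) hν a2 b2 a2 b2.neg).pow 2).mul
    ((rep_Hh hν a2).mul (rep_Hh hν a2))).inv
  have h2 := ((rep_dd (g := g) (X := X) hν a1 b1 a2 b2).pow 2).mul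
    ((rep_Hh hν a1).mul (rep_Hh hν a2))
  have h3 := (h1.ite h2 (fun P Q => P = Q) fun e _ P Q => e.pl_injective.eq_iff).ite Rep.one
    (fun P _ => P.v x ≤ 1) fun e he P _ => by rw [e_v_x he.1]
  have h4 := h3.ite Rep.one (fun P Q => Gd x w P ∧ Gd x w Q) fun e he P Q => by
    rw [e_Gd he.1 he.2.1, e_Gd he.1 he.2.1]
  obtain ⟨ζ, h5, h6⟩ := h4
  refine ⟨ζ, h5, fun p hp => (h6 p hp).trans ?_⟩
  unfold mu1 mu0
  congr

theorem exists_inv (h : Hyp F x w) {D E : Pl Om L →₀ ℤ} (hD : ∀ e, Fx k S x w e → e.D D = D)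
    (hE : ∀ e, Fx k S x w e → e.D E = E) :
    ∃ z : Om, z ≠ 0 ∧ (∀ e, Fx k S x w e → e.s z = z) ∧
      bil (lg ν g x w) D E = Real.log (ν z) := by
  obtain ⟨ζ, h1, h2⟩ := rep_mu1 (S := S) (x := x) (w := w) (g := g)
    (X := D.support ×ˢ E.support) hν
  have h3 : ∀ P ∈ D.support, ∀ Q ∈ E.support, ν (ζ P Q) = mu1 ν g x w P Q := fun P hP Q hQ =>
    h2 (P, Q) (Finset.mem_product.mpr ⟨hP, hQ⟩)
  have h4 : ∀ P ∈ D.support, ∀ Q ∈ E.support, ζ P Q ≠ 0 := fun P hP Q hQ =>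
    (ν.ne_zero_iff).mp (by rw [h3 P hP Q hQ]; exact (mu1_pos h P Q).ne')
  have h5 : ∀ Q ∈ E.support, (D.prod fun P n => ζ P Q ^ n) ≠ 0 := fun Q hQ =>
    Finset.prod_ne_zero_iff.mpr fun P hP => zpow_ne_zero _ (h4 P hP Q hQ)
  refine ⟨E.prod fun Q m => (D.prod fun P n => ζ P Q ^ n) ^ m,
    Finset.prod_ne_zero_iff.mpr fun Q hQ => zpow_ne_zero _ (h5 Q hQ), fun e he => ?_, ?_⟩
  · rw [← prod_SI e e.s (ψ := fun Q => D.prod fun P n => ζ P Q ^ n), hE e he]
    intro Q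
    rw [← prod_SI e e.s (ψ := fun P => ζ P (e.pl Q)) (fun P => h1 e he P Q), hD e he]
  · rw [bil_swap, log_v_prod ν _ _ h5]
    refine Finsupp.sum_congr fun Q hQ => ?_
    rw [log_v_prod ν _ _ fun P hP => h4 P hP Q hQ]
    congr 1
    exact Finsupp.sum_congr fun P hP => by rw [h3 P hP Q hQ]; rfl

end rep

end Crest.Agent.T15.Fa
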