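import Mathlib
import Crest.Agent.T15.FaF_51
import Crest.Agent.T15.FaS_49

/-!
# Row 15 (helper51): the height pairing on a constant hyperelliptic curve, part G

The global pairing.
-/

set_option autoImplicit false
set_option linter.all false

namespace Crest.Agent.T15.Fa

open Polynomial WithZero Module Filter
open scoped NNReal
open Crest.Agent.R013.RR7_948 Crest.Agent.R013.RR8_948 Crest.Agent.R013.RR9_948
open Crest.Agent.R013.RR11_948 Crest.Agent.R013.RR12_948 Crest.Agent.R013.PicD_398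
open Crest.Agent.R013.GR2_921 Crest.Agent.R013.Frob1_914 Crest.Agent.T15.Disc
open Crest.Agent.T15.Hy

/-- `ℤ[1/q]` -/
def Zq (q : ℕ) : AddSubgroup ℝ where
  carrier := {r | ∃ (e : ℕ) (n : ℤ), (q : ℝ) ^ e * r = n}
  add_mem' := by
    rintro a b ⟨e, n, h⟩ ⟨e', n', h'⟩
    refine ⟨e + e', q ^ e' * n + q ^ e * n', ?_⟩
    push_cast
    rw [← h, ← h']
    ring
  zero_mem' := ⟨0, 0, by simp⟩
  neg_mem' := by
    rintro a ⟨e, n, h⟩
    exact ⟨e, -n, by push_cast; rw [← h]; ring⟩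

variable {k Om L : Type*} [Field k] [Field Om] [Field L] [Algebra k Om] [Algebra Om L]

theorem root_mem [IsAlgClosed k] {p : k[X]} (hp : p ≠ 0) {a : Om}
    (ha : (p.map (algebraMap k Om)).eval a = 0) : a ∈ Set.range (algebraMap k Om) := by
  have h1 : IsIntegral k a := (show IsAlgebraic k a from ⟨p, hp, by
    rwa [eval_map_algebraMap] at ha⟩).isIntegral
  exact minpoly.mem_range_of_degree_eq_one k a
    (IsAlgClosed.degree_eq_one_of_irreducible k (minpoly.irreducible h1))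

section ev

variable {T : Type*} {ν : T → Valuation Om ℝ≥0} {G : (Om ≃+* Om) → Prop} (hP : PF k ν G)
include hP

theorem PF.ev_eq {z : Om} (hz : z ≠ 0) : ∀ᶠ t in cofinite, ν t z = 1 := hP.fin z hz

theorem PF.ev_le (z : Om) : ∀ᶠ t in cofinite, ν t z ≤ 1 := by
  by_cases hz : z = 0
  · simp [hz]
  · filter_upwards [hP.ev_eq hz] with t ht using ht.le

theorem PF.ev_Hh (z : Om) : ∀ᶠ t in cofinite, Hh (ν t) z = 1 := by
  filter_upwards [hP.ev_le z] with t ht using Hh_of_le ht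

theorem PF.ev_dd (g : ℕ) {a b a' b' : Om} (h : a ≠ a' ∨ b ≠ b') :
    ∀ᶠ t in cofinite, dd (ν t) g a b a' b' = 1 := by
  have h1 : ∀ᶠ t in cofinite, 1 ≤ max (ν t (a - a')) (ν t (b - b')) := by
    rcases h with h | h
    · filter_upwards [hP.ev_eq (sub_ne_zero.mpr h)] with t ht using ht.ge.trans (le_max_left _ _)
    · filter_upwards [hP.ev_eq (sub_ne_zero.mpr h)] with t ht using ht.ge.trans (le_max_right _ _)
  filter_upwards [h1, hP.ev_le a, hP.ev_le a', hP.ev_le b, hP.ev_le (a - a'), hP.ev_le (b - b')]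
    with t h1 h2 h3 h4 h5 h6
  rw [dd_int h2 h3 h4]
  exact le_antisymm (max_le h5 h6) h1

end ev

variable [Algebra (RatFunc Om) L] [IsScalarTower Om (RatFunc Om) L]
  [FiniteDimensional (RatFunc Om) L] [Algebra.IsSeparable (RatFunc Om) L] [IsAlgClosed Om]
  [IsAlgClosed k]
variable {F : k[X]} {x w : L} {g : ℕ} {S : Finset Om}

variable (k) in
/-- invariant divisors -/
def InvD (S : Finset Om) (x w : L) (D : Pl Om L →₀ ℤ) : Prop := ∀ e, Fx k S x w e → e.D D = D

section glob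

variable {T : Type*} {ν : T → Valuation Om ℝ≥0} (hP : PF k ν (Gs k S))
  (h : Hyp (F.map (algebraMap k Om)) x w) (hg : (F.map (algebraMap k Om)).natDegree = 2 * g + 1)

/-- the global kernel -/
noncomputable def MM (ν : T → Valuation Om ℝ≥0) (g : ℕ) (x w : L) (P Q : Pl Om L) : ℝ :=
  ∑' t, lg (ν t) g x w P Q

theorem MM_symm (P Q : Pl Om L) : MM ν g x w P Q = MM ν g x w Q P := by
  unfold MM
  simp only [lg_symm P Q]

theorem MM_neg {P : Pl Om L} (hP : ¬ Gd x w P) (Q : Pl Om L) : MM ν g x w P Q = 0 := by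
  unfold MM
  simp only [lg_neg fun h : Gd x w P ∧ Gd x w Q => hP h.1, tsum_zero]

include h in
theorem root_fix {e : SI Om L Om L} (he : Fx k S x w e) (a : Om)
    (ha : (F.map (algebraMap k Om)).eval a = 0) : e.s a = a := by
  obtain ⟨c, rfl⟩ := root_mem (p := F) (fun h0 => h.F_ne (by rw [h0, Polynomial.map_zero])) ha
  exact he.2.2.1 c

include h in
theorem fix_of {z : Om} (hz : ∀ e, Fx k S x w e → e.s z = z) : ∀ s, Gs k S s → s z = z :=
  fun s hs => by
    obtain ⟨e, rfl, he⟩ := exists_Fx h hs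
    exact hz e he

include h hg in
theorem exists_invD {W : Pl Om L} (hW : 1 < W.v x) {c : Pic Om L} (hc : c ∈ Gam k S x w) :
    ∃ (E : Pl Om L →₀ ℤ) (r : ℕ) (n : ℤ), r ≤ g ∧ Rp x W c E r ∧ Rd h E ∧ InvD k S x w E ∧
      InvD k S x w (E + Finsupp.single W n) ∧ cls (E + Finsupp.single W n) = c := by
  obtain ⟨E, r, hr, hE, hd⟩ := exists_rd h hg hW c
  obtain ⟨n, hn⟩ := hE.eq
  have h1 : InvD k S x w E := fun e he =>
    e_red he.1 he.2.1 h hg (root_fix h he) hW (hc e he) hr hE hd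
  refine ⟨E, r, n, hr, hE, hd, h1, fun e he => ?_, hn⟩
  rw [map_add, h1 e he, e.D_single,
    e_fix he.1 he.2.1 h hg (root_fix h he) fun h2 => absurd h2.1 (not_le.mpr hW)]

include hP h

theorem locB (t : T) : LocB (ν t) (F.map (algebraMap k Om)) :=
  locB_of (hP.const t) h.two ((separable_map _).mp h.sep)

theorem ev_lg (P Q : Pl Om L) : ∀ᶠ t in cofinite, lg (ν t) g x w P Q = 0 := by
  by_cases h1 : Gd x w P ∧ Gd x w Q
  · unfold lg
    by_cases h2 : P = Q
    · filter_upwards [hP.ev_dd g (a := ev Q x) (a' := ev Q x) (Or.inr (ne_neg_of h.two h1.2.2)),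
        hP.ev_Hh (ev Q x)] with t h3 h4
      rw [mu1_pos' h1.1 h1.2, h2, mu0_self h1.2.1, h3, h4]
      simp
    · have h5 : ev P x ≠ ev Q x ∨ ev P w ≠ ev Q w := by
        by_contra hc
        push Not at hc
        have h6 := h.at_ev h1.1.1
        rw [hc.1, hc.2] at h6
        exact h2 (h.at_unique h6 (h.at_ev h1.2.1))
      filter_upwards [hP.ev_dd g h5, hP.ev_Hh (ev P x), hP.ev_Hh (ev Q x)] with t h3 h4 h6
      rw [mu1_pos' h1.1 h1.2, mu0_ne h1.1.1 h2, h3, h4, h6]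
      simp
  · simp only [lg_neg h1, eventually_true]

theorem hasSum_MM (D E : Pl Om L →₀ ℤ) :
    HasSum (fun t => bil (lg (ν t) g x w) D E) (bil (MM ν g x w) D E) :=
  hasSum_bil (fun P Q => (summable_of_hasFiniteSupport (ev_lg hP h P Q)).hasSum) D E

theorem bil_int {D E : Pl Om L →₀ ℤ} (hD : InvD k S x w D) (hE : InvD k S x w E) :
    bil (MM ν g x w) D E ∈ Zq (ringExpChar k) := by
  have h1 : ∀ᶠ t in cofinite, bil (lg (ν t) g x w) D E = 0 := by
    have : ∀ᶠ t in cofinite, ∀ P ∈ D.support, ∀ Q ∈ E.support, lg (ν t) g x w P Q = 0 := by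
      simp only [eventually_all_finset]
      exact fun P _ Q _ => ev_lg hP h P Q
    filter_upwards [this] with t ht
    exact Finset.sum_eq_zero fun P hP => Finset.sum_eq_zero fun Q hQ => by
      show _ * lg (ν t) g x w P Q = 0
      rw [ht P hP Q hQ, mul_zero]
  have h2 : {t | ¬ bil (lg (ν t) g x w) D E = 0}.Finite := h1
  have h3 : HasSum (fun t => bil (lg (ν t) g x w) D E)
      (∑ t ∈ h2.toFinset, bil (lg (ν t) g x w) D E) :=
    hasSum_sum_of_ne_finset_zero fun t ht => by simpa using ht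
  rw [(hasSum_MM hP h D E).unique h3]
  refine (Zq _).sum_mem fun t _ => ?_
  obtain ⟨z, hz, h4, h5⟩ := exists_inv (g := g) (hP.const t) h hD hE
  rw [h5]
  exact hP.int z hz (fix_of h h4) t

include hg

theorem bil_kill {f : L} (hf : f ≠ 0) (hD : InvD k S x w (divf (k := Om) f)) {E : Pl Om L →₀ ℤ}
    (hE : InvD k S x w E) : bil (MM ν g x w) (divf (k := Om) f) E = 0 := by
  have h1 := hP.prod (E.prod fun Q n => zq h f Q ^ n)
    (Finset.prod_ne_zero_iff.mpr fun Q _ => zpow_ne_zero _ (zq_ne h hg hf Q))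
    (fix_of h fun e he => e_zq_prod he.1 he.2.1 h hg hf (hD e he) (hE e he))
  have h2 := hasSum_MM (g := g) hP h (divf (k := Om) f) E
  simp only [fun t => bil_divf h hg (locB hP h t) hf E] at h2
  exact h2.unique h1

theorem bil_congr {D D' E : Pl Om L →₀ ℤ} (hD : InvD k S x w D) (hD' : InvD k S x w D')
    (hE : InvD k S x w E) (hc : cls D = cls D') :
    bil (MM ν g x w) D E = bil (MM ν g x w) D' E := by
  obtain ⟨f, hf, rfl⟩ := cls_eq_iff.mp hc
  rw [bil_add_left, bil_kill hP h hg hf _ hE, add_zero]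
  intro e he
  have := hD e he
  rw [map_add, hD' e he] at this
  exact add_left_cancel this

theorem hasSum_pos {W : Pl Om L} (hW : 1 < W.v x) {c : Pic Om L} {E : Pl Om L →₀ ℤ} {r : ℕ}
    (hr : r ≤ g) (hE : Rp x W c E r) (hd : Rd h E) (hI : InvD k S x w E) :
    ∃ u : T → ℝ, HasSum u (bil (MM ν g x w) E E) ∧
      ∀ t, 2 * (E.sum fun P n => (n : ℝ) * hh (ν t) x w P) ≤ u t := by
  have h2 : divf (k := Om) (px x E) =
      E + h.siota.D E + Finsupp.single W (divf (k := Om) (px x E) W) := by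
    have hW0 : ∀ Q : Pl Om L, 1 < Q.v x → E Q = 0 := fun Q hQ => by
      by_contra e; exact absurd (hE.aff Q e) (not_le.mpr hQ)
    ext Q
    rw [Finsupp.add_apply, Finsupp.add_apply, jD_apply]
    rcases le_or_gt (Q.v x) 1 with hQ | hQ
    · have e1 : Q ≠ W := fun e => absurd (e ▸ hQ) (not_le.mpr hW)
      rw [divf_px h _ hQ, Finsupp.single_eq_of_ne e1, add_zero]
    · rw [hW0 Q hQ, hW0 _ (by rwa [j_v_x]), h.inf_unique ⟨g, hg⟩ hQ hW,
        Finsupp.single_eq_same, add_zero, zero_add]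
  have h3 := bil_kill hP h hg (px_ne h E) (fun e he => by
    rw [← e.divf_f (px_ne h E), ← e_px he.1, hI e he]) hI
  rw [h2, bil_add_left, bil_add_left,
    bil_single (MM_neg fun h4 => absurd h4.1 (not_le.mpr hW)), add_zero] at h3
  have h4 := hP.prod (E.prod fun P n => bb x w P ^ n)
    (Finset.prod_ne_zero_iff.mpr fun P _ => zpow_ne_zero _ (bb_ne P))
    (fix_of h fun e he => by rw [← prod_SI e e.s (e_bb he.1 he.2.1), hI e he])
  have h5 := h4.sub (hasSum_MM (g := g) hP h (h.siota.D E) E)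
  rw [show 0 - bil (MM ν g x w) (h.siota.D E) E = bil (MM ν g x w) E E by linarith] at h5
  refine ⟨_, h5, fun t => ?_⟩
  have := bil_le h hg (locB hP h t) hr hE.nonneg hE.deg hd
  linarith

theorem con_of {W : Pl Om L} (hW : 1 < W.v x) {c : Pic Om L} {E : Pl Om L →₀ ℤ} {r : ℕ}
    (hr : r ≤ g) (hE : Rp x W c E r) (hd : Rd h E) (hI : InvD k S x w E) :
    0 ≤ bil (MM ν g x w) E E ∧ (bil (MM ν g x w) E E = 0 → ∀ P, E P ≠ 0 → Con k x w P) := by
  obtain ⟨u, hu, hle⟩ := hasSum_pos hP h hg hW hr hE hd hI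
  have hn : ∀ t P, 0 ≤ (E P : ℝ) * hh (ν t) x w P := fun t P =>
    mul_nonneg (by exact_mod_cast hE.nonneg P) (hh_nonneg P)
  have hs : ∀ t, 0 ≤ E.sum fun P n => (n : ℝ) * hh (ν t) x w P := fun t =>
    Finset.sum_nonneg fun P _ => hn t P
  have h0 : ∀ t, 0 ≤ u t := fun t => by linarith [hle t, hs t]
  refine ⟨hu.nonneg h0, fun hz => ?_⟩
  have h1 : ∀ P, E P ≠ 0 → Gd x w P → ∀ t, ν t (ev P x) ≤ 1 := fun P hP hG t => by
    have h2 : u t ≤ 0 := hz ▸ le_hasSum hu t fun t' _ => h0 t'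
    have h3 : (E.sum fun P n => (n : ℝ) * hh (ν t) x w P) = 0 := by linarith [hle t, hs t]
    have h4 := (Finset.sum_eq_zero_iff_of_nonneg fun P _ => hn t P).mp h3 P
      (Finsupp.mem_support_iff.mpr hP)
    have h5 : hh (ν t) x w P = 0 := (mul_eq_zero.mp h4).resolve_left (by exact_mod_cast hP)
    unfold hh at h5
    rw [if_pos hG] at h5
    have h6 := Real.eq_one_of_pos_of_log_eq_zero (by exact_mod_cast Hh_pos _) h5
    exact (le_Hh _).trans (le_of_eq (by exact_mod_cast h6))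
  intro P hP'
  have hA := h.at_ev (hE.aff P hP')
  have hsq := hA.sq h.sq
  obtain ⟨a, ha⟩ : ev P x ∈ Set.range (algebraMap k Om) := by
    by_cases hG : Gd x w P
    · refine hP.cst _ fun s hs t => ?_
      obtain ⟨e, rfl, he⟩ := exists_Fx h hs
      rw [← e_ev he.1]
      refine h1 _ ?_ ((e_Gd he.1 he.2.1 P).mpr hG) t
      rwa [← hI e he, e.D_pl]
    · have h2 : ev P w = 0 := by
        by_contra hc; exact hG ⟨hE.aff P hP', hc⟩
      rw [h2, zero_pow two_ne_zero] at hsq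
      exact root_mem (p := F) (fun h0 => h.F_ne (by rw [h0, Polynomial.map_zero])) hsq.symm
  obtain ⟨b, hb⟩ : ev P w ∈ Set.range (algebraMap k Om) := by
    apply root_mem (p := X ^ 2 - C (F.eval a)) (X_pow_sub_C_ne_zero two_pos _)
    rw [← ha, eval_map_algebraMap, aeval_algebraMap_apply, coe_aeval_eq_eval] at hsq
    simp [hsq]
  exact Or.inr ⟨a, b, by rw [ha, hb]; exact hA⟩

/-- the real valued pairing -/
theorem pairing_real : ∃ B : Gam k S x w →+ Gam k S x w →+ ℝ, (∀ c c', B c c' = B c' c) ∧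
    (∀ c c', B c c' ∈ Zq (ringExpChar k)) ∧ (∀ c, 0 ≤ B c c) ∧
    ∀ c, B c c = 0 → ConC k x w (c : Pic Om L) := by
  obtain ⟨W, hW⟩ := h.exists_inf
  choose E r n hr hE hd hI hI' hc using fun c : Gam k S x w => exists_invD h hg hW c.2
  have hsym := bil_symm (K := MM ν g x w) MM_symm
  have hadd : ∀ c c' c'' : Gam k S x w,
      bil (MM ν g x w) (E (c + c') + Finsupp.single W (n (c + c')))
        (E c'' + Finsupp.single W (n c'')) =
      bil (MM ν g x w) (E c + Finsupp.single W (n c)) (E c'' + Finsupp.single W (n c'')) +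
      bil (MM ν g x w) (E c' + Finsupp.single W (n c')) (E c'' + Finsupp.single W (n c'')) := by
    intro c c' c''
    rw [← bil_add_left]
    refine bil_congr hP h hg (hI' _) (fun e he => ?_) (hI' _) ?_
    · rw [map_add, hI' c e he, hI' c' e he]
    · rw [map_add cls (E c + _), hc, hc, hc]; rfl
  have hdiag : ∀ c : Gam k S x w,
      bil (MM ν g x w) (E c + Finsupp.single W (n c)) (E c + Finsupp.single W (n c)) =
      bil (MM ν g x w) (E c) (E c) := by
    intro c
    have h0 := fun (m : ℤ) (D : Pl Om L →₀ ℤ) => bil_single (K := MM ν g x w)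
      (MM_neg fun h4 => absurd h4.1 (not_le.mpr hW)) m D
    rw [bil_add_left, h0, add_zero, hsym, bil_add_left, h0, add_zero]
  refine ⟨AddMonoidHom.mk' (fun c => AddMonoidHom.mk' (fun c' =>
    bil (MM ν g x w) (E c + Finsupp.single W (n c)) (E c' + Finsupp.single W (n c')))
    fun c' c'' => ?_) fun c c' => ?_, fun c c' => hsym _ _, fun c c' => bil_int hP h (hI' c) (hI' c'),
    fun c => ?_, fun c hz => ?_⟩
  · rw [hsym, hadd, hsym, hsym (E c'' + _)]
  · ext c''
    exact hadd c c' c''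
  · show 0 ≤ bil _ _ _
    rw [hdiag]
    exact (con_of hP h hg hW (hr c) (hE c) (hd c) (hI c)).1
  · have hz' : bil (MM ν g x w) (E c) (E c) = 0 := by rw [← hdiag]; exact hz
    refine ⟨_, hc c, fun P hP' => ?_⟩
    rcases le_or_gt (P.v x) 1 with h1 | h1
    · have e1 : P ≠ W := fun e => absurd (e ▸ h1) (not_le.mpr hW)
      rw [Finsupp.add_apply, Finsupp.single_eq_of_ne e1, add_zero] at hP'
      exact (con_of hP h hg hW (hr c) (hE c) (hd c) (hI c)).2 hz' P hP'
    · exact Or.inl h1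

end glob

/-- **the pairing**, from a product formula -/
theorem pairing_of {T : Type*} {ν : T → Valuation Om ℝ≥0} (hP : PF k ν (Gs k S))
    (h : Hyp (F.map (algebraMap k Om)) x w) (hodd : Odd F.natDegree) :
    ∃ B : Gam k S x w →+ Gam k S x w →+ ℚ, (∀ c c', B c c' = B c' c) ∧
      (∀ c c', ∃ (e : ℕ) (n : ℤ), (ringExpChar k : ℚ) ^ e * B c c' = n) ∧ (∀ c, 0 ≤ B c c) ∧
      ∀ c, B c c = 0 → ConC k x w (c : Pic Om L) := by
  obtain ⟨g, hg⟩ := hodd
  obtain ⟨B, h1, h2, h3, h4⟩ := pairing_real hP h (g := g) (by rw [natDegree_map, hg])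
  have hq : (ringExpChar k : ℝ) ≠ 0 := by exact_mod_cast (expChar_pos k (ringExpChar k)).ne'
  have h5 : ∀ c c', ∃ r : ℚ, (r : ℝ) = B c c' := fun c c' => by
    obtain ⟨e, n, hn⟩ := h2 c c'
    refine ⟨n / (ringExpChar k : ℚ) ^ e, ?_⟩
    push_cast
    rw [← hn, mul_div_cancel_left₀ _ (pow_ne_zero _ hq)]
  choose r hr using h5
  have inj : ∀ {a b : ℚ}, (a : ℝ) = b → a = b := fun h => by exact_mod_cast h
  refine ⟨AddMonoidHom.mk' (fun c => AddMonoidHom.mk' (fun c' => r c c') fun c' c'' => ?_)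
    fun c c' => ?_, fun c c' => inj (by show (r c c' : ℝ) = r c' c; rw [hr, hr, h1]),
    fun c c' => ?_, fun c => ?_, fun c hz => h4 c ?_⟩
  · apply inj
    push_cast
    rw [hr, hr, hr, map_add]
  · ext c''
    apply inj
    show (r (c + c') c'' : ℝ) = ((r c c'' + r c' c'' : ℚ) : ℝ)
    push_cast
    rw [hr, hr, hr, map_add]
    rfl
  · obtain ⟨e, n, hn⟩ := h2 c c'
    refine ⟨e, n, inj ?_⟩
    show (((ringExpChar k : ℚ) ^ e * r c c' : ℚ) : ℝ) = _
    push_cast
    rw [hr, hn]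
  · have := h3 c
    rw [← hr] at this
    show 0 ≤ r c c
    exact_mod_cast this
  · rw [← hr]
    have : r c c = 0 := hz
    rw [this, Rat.cast_zero]

/-- infinitely `l`-divisible invariant classes are constant -/
theorem ln_of {T : Type*} {ν : T → Valuation Om ℝ≥0} (hP : PF k ν (Gs k S))
    (h : Hyp (F.map (algebraMap k Om)) x w) (hodd : Odd F.natDegree) {l : ℕ} (hl : 1 < l)
    (hlk : (l : k) ≠ 0) {c : Pic Om L} (hc : ∀ m : ℕ, ∃ c' ∈ Gam k S x w, c = l ^ m • c') :
    ConC k x w c := by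
  obtain ⟨B, -, h2, -, h4⟩ := pairing_of hP h hodd
  have hc0 : c ∈ Gam k S x w := by
    obtain ⟨c', h5, h6⟩ := hc 0
    rw [h6, pow_zero, one_smul]; exact h5
  apply h4 ⟨c, hc0⟩
  obtain ⟨e, n, hn⟩ := h2 ⟨c, hc0⟩ ⟨c, hc0⟩
  have hq : (ringExpChar k : ℚ) ≠ 0 := by exact_mod_cast (expChar_pos k (ringExpChar k)).ne'
  have hcop : Nat.Coprime l (ringExpChar k) := by
    rcases expChar_is_prime_or_one k (ringExpChar k) with h5 | h5
    · haveI : CharP k (ringExpChar k) := by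
        have h6 : ExpChar k (ringExpChar k) := inferInstance
        generalize ringExpChar k = q at h5 h6
        cases h6 with
        | zero => exact absurd h5 Nat.not_prime_one
        | prime _ => assumption
      exact ((Nat.Prime.coprime_iff_not_dvd h5).mpr fun h6 =>
        hlk ((CharP.cast_eq_zero_iff k _ l).mpr h6)).symm
    · rw [h5]; exact Nat.coprime_one_right l
  have h5 : ∀ m : ℕ, (l : ℤ) ^ m ∣ n := fun m => by
    obtain ⟨c', h6, h7⟩ := hc m
    obtain ⟨e', n', hn'⟩ := h2 ⟨c', h6⟩ ⟨c, hc0⟩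
    have h8 : B ⟨c, hc0⟩ ⟨c, hc0⟩ = (l : ℚ) ^ m * B ⟨c', h6⟩ ⟨c, hc0⟩ := by
      have : (⟨c, hc0⟩ : Gam k S x w) = l ^ m • ⟨c', h6⟩ := Subtype.ext h7
      conv_lhs => enter [1]; rw [this]
      rw [map_nsmul, AddMonoidHom.nsmul_apply, nsmul_eq_mul]
      push_cast; rfl
    have h9 : (ringExpChar k : ℤ) ^ e' * n = (l : ℤ) ^ m * ((ringExpChar k : ℤ) ^ e * n') := by
      have : (ringExpChar k : ℚ) ^ e' * n = (l : ℚ) ^ m * ((ringExpChar k : ℚ) ^ e * n') := by
        rw [← hn, ← hn', h8]; ring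
      exact_mod_cast this
    refine IsCoprime.dvd_of_dvd_mul_left ?_ ⟨_, h9⟩
    exact (Nat.isCoprime_iff_coprime.mpr hcop).pow
  have h6 : n = 0 := by
    by_contra h7
    have h8 := Int.le_of_dvd (Int.natCast_pos.mpr (Int.natAbs_pos.mpr h7))
      (Int.dvd_natAbs.mpr (h5 n.natAbs))
    have h9 : n.natAbs < l ^ n.natAbs := Nat.lt_pow_self hl
    have : ((l ^ n.natAbs : ℕ) : ℤ) ≤ n.natAbs := by push_cast at h8 ⊢; exact h8
    omega
  rw [h6, Int.cast_zero] at hn
  exact (mul_eq_zero.mp hn).resolve_left (pow_ne_zero _ hq)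

/-- invariant torsion classes are constant -/
theorem tors_of {T : Type*} {ν : T → Valuation Om ℝ≥0} (hP : PF k ν (Gs k S))
    (h : Hyp (F.map (algebraMap k Om)) x w) (hodd : Odd F.natDegree) {n : ℕ} (hn : n ≠ 0)
    {c : Pic Om L} (hc : c ∈ Gam k S x w) (h0 : n • c = 0) : ConC k x w c := by
  obtain ⟨B, -, -, -, h4⟩ := pairing_of hP h hodd
  apply h4 ⟨c, hc⟩
  have h1 : n • (⟨c, hc⟩ : Gam k S x w) = 0 := Subtype.ext h0
  have h2 : n • B ⟨c, hc⟩ ⟨c, hc⟩ = 0 := by rw [← map_nsmul, h1, map_zero]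
  exact (smul_eq_zero.mp h2).resolve_left hn

end Crest.Agent.T15.Fa
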