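import Crest.Agent.T15.FaDef_51
import Crest.Agent.R013.A2a_275
import Crest.Agent.R013.GR2_921

/-!
# Row 15 (helper34): the product formula on an algebraic closure of `k(z)`
-/

set_option autoImplicit false

namespace Crest.Agent.T15.Fa

open Polynomial WithZero Module
open scoped NNReal IntermediateField
open Crest.Agent.R013.RR7_948 Crest.Agent.R013.RR11_948 Crest.Agent.R013

namespace P34

section val

variable {F Om : Type*} [Field F] [Field Om] [Algebra F Om]

theorem le_one_of_root (ν : Valuation Om ℝ≥0) {p : F[X]} (hp : p.Monic) {z : Om}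
    (hz : aeval z p = 0) (h : ∀ i, ν (algebraMap F Om (p.coeff i)) ≤ 1) : ν z ≤ 1 := by
  by_contra! hlt
  rw [aeval_eq_sum_range, Finset.sum_range_succ, hp.coeff_natDegree, one_smul,
    add_eq_zero_iff_eq_neg] at hz
  have h1 := ν.map_sum_lt (s := Finset.range p.natDegree) (f := fun i => p.coeff i • z ^ i)
    (g := ν z ^ p.natDegree) (pow_ne_zero _ (zero_lt_one.trans hlt).ne') fun i hi => by
      rw [Algebra.smul_def, map_mul, map_pow]
      exact (mul_le_of_le_one_left' (h i)).trans_lt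
        (pow_lt_pow_right₀ hlt (Finset.mem_range.1 hi))
  rw [hz, ν.map_neg, map_pow] at h1
  exact h1.false

variable [IsAlgClosed Om] [Algebra.IsAlgebraic F Om]

theorem conj_of_root {x y : Om} (h : y ∈ (minpoly F x).aroots Om) : ∃ σ : Om ≃ₐ[F] Om, σ x = y := by
  have : IsAlgClosure F Om := ⟨inferInstance, inferInstance⟩
  exact minpoly.exists_algEquiv_of_root' (Algebra.IsAlgebraic.isAlgebraic x) (mem_aroots.1 h).2

theorem pow_mem_of_fixed {x : Om} (h : ∀ σ : Om ≃ₐ[F] Om, σ x = x) :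
    ∃ (e : ℕ) (y : F), algebraMap F Om y = x ^ ringExpChar F ^ e := by
  classical
  refine (minpoly.natSepDegree_eq_one_iff_pow_mem (ringExpChar F)).1 ?_
  rw [natSepDegree_eq_of_isAlgClosed Om, Finset.card_eq_one]
  refine ⟨x, Finset.eq_singleton_iff_unique_mem.2 ⟨?_, fun y hy => ?_⟩⟩
  · exact Multiset.mem_toFinset.2 (mem_aroots.2
      ⟨minpoly.ne_zero (Algebra.IsIntegral.isIntegral x), minpoly.aeval F x⟩)
  · obtain ⟨σ, rfl⟩ := conj_of_root (Multiset.mem_toFinset.1 hy)
    exact h σ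

theorem coeff_le (ν : Valuation Om ℝ≥0) {x : Om} (h : ∀ σ : Om ≃ₐ[F] Om, ν (σ x) ≤ 1) (i : ℕ) :
    ν (algebraMap F Om ((minpoly F x).coeff i)) ≤ 1 := by
  have hm := (minpoly.monic (Algebra.IsIntegral.isIntegral (R := F) x)).map (algebraMap F Om)
  have h1 : (minpoly F x).map (algebraMap F Om) ∈ liftsRing ν.integer.subtype := by
    rw [(IsAlgClosed.splits _).eq_prod_roots_of_monic hm]
    refine multiset_prod_mem _ fun q hq => ?_
    obtain ⟨y, hy, rfl⟩ := Multiset.mem_map.1 hq
    obtain ⟨σ, rfl⟩ := conj_of_root (F := F) hy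
    exact ⟨X - C ⟨σ x, h σ⟩, by simp⟩
  obtain ⟨q, hq⟩ := h1
  rw [← coeff_map, ← hq, coe_mapRingHom, coeff_map]
  exact (q.coeff i).2

end val

theorem one_lt_e : (1 : ℝ≥0) < ⟨Real.exp 1, (Real.exp_pos 1).le⟩ :=
  Real.one_lt_exp_iff.2 one_pos

/-- `exp n ↦ e ^ n` -/
noncomputable def toE : ℤᵐ⁰ →*₀ ℝ≥0 := WithZeroMulInt.toNNReal (zero_lt_one.trans one_lt_e).ne'

theorem toE_mono : StrictMono toE := WithZeroMulInt.toNNReal_strictMono one_lt_e

theorem log_toE (n : ℤ) : Real.log (toE (exp n)) = n := by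
  rw [toE, WithZeroMulInt.toNNReal_neg_apply _ exp_ne_zero, NNReal.coe_zpow, Real.log_zpow]
  change (n : ℝ) * Real.log (Real.exp 1) = n
  rw [Real.log_exp, mul_one]

theorem pf_of {k F Om : Type*} [Field k] [Field F] [Field Om] [Algebra k F] [Algebra F Om]
    [Algebra k Om] [IsScalarTower k F Om] [IsAlgClosed k] [IsAlgClosed Om]
    [Algebra.IsAlgebraic F Om] [Algebra (RatFunc k) F] [IsScalarTower k (RatFunc k) F]
    [FiniteDimensional (RatFunc k) F] [Algebra.IsSeparable (RatFunc k) F]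
    (G : (Om ≃+* Om) → Prop) (hG : ∀ σ : Om ≃ₐ[F] Om, G σ) :
    ∃ ν : Pl k F → Valuation Om ℝ≥0, PF k ν G := by
  have h1 : ∀ P : Pl k F, ∃ W : Valuation Om ℝ≥0, ∀ y, W (algebraMap F Om y) = toE (P.v y) :=
    fun P => by
      obtain ⟨W, hW, -⟩ := A2a_275.exists_ext_lift (K := F) (Ω := Om)
        (P.v.map toE toE_mono.monotone) (by
          obtain ⟨a, ha⟩ := P.surj (exp 1)
          refine ⟨a, ?_⟩
          change 1 < toE (P.v a)
          rw [ha, ← map_one toE, toE_mono.lt_iff_lt, ← exp_zero, exp_lt_exp]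
          exact one_pos)
      exact ⟨W, fun y => DFunLike.congr_fun hW y⟩
  choose ν hν using h1
  have hq : ringExpChar F = ringExpChar k :=
    ringExpChar.eq_iff.2 (expChar_of_injective_algebraMap (algebraMap k F).injective _)
  have hle : ∀ z : Om, {P | ¬ ν P z ≤ 1}.Finite := fun z => by
    refine ((minpoly F z).support.finite_toSet.biUnion fun i hi =>
      finite_ne_one (k := k) (mem_support_iff.1 hi)).subset fun P hP => ?_
    by_contra hcon
    simp only [Set.mem_iUnion, not_exists, Set.mem_ofPred_eq, not_not] at hcon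
    refine hP (le_one_of_root _ (minpoly.monic (Algebra.IsIntegral.isIntegral (R := F) z))
      (minpoly.aeval F z) fun i => ?_)
    by_cases hi : i ∈ (minpoly F z).support
    · rw [hν, hcon i hi, map_one]
    · rw [notMem_support_iff.1 hi, map_zero, map_zero]; exact zero_le
  have key : ∀ z : Om, z ≠ 0 → (∀ s, G s → s z = z) → ∃ (e : ℕ) (y : F), y ≠ 0 ∧ ∀ P,
      (ringExpChar k : ℝ) ^ e * Real.log (ν P z) = (-divf (k := k) y P : ℤ) := fun z hz h => by
    obtain ⟨e, y, hy⟩ := pow_mem_of_fixed (F := F) fun σ => h σ (hG σ)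
    have hy0 : y ≠ 0 := fun h0 => pow_ne_zero _ hz (by rw [← hy, h0, map_zero])
    refine ⟨e, y, hy0, fun P => ?_⟩
    rw [← log_toE, ← v_eq hy0, ← hν, hy, map_pow, NNReal.coe_pow, Real.log_pow, hq, Nat.cast_pow]
  refine ⟨ν, fun P c hc => ?_, fun z hz => ((hle z).union (hle z⁻¹)).subset fun P hP => ?_,
    fun z hz h => ?_, fun z hz h P => ?_, fun z h => ?_⟩
  · rw [IsScalarTower.algebraMap_apply k F Om, hν, P.const c hc, map_one]
  · by_contra hcon
    simp only [Set.mem_union, Set.mem_ofPred_eq, not_or, not_not, map_inv₀] at hcon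
    exact hP (le_antisymm hcon.1
      ((inv_le_one₀ (pos_iff_ne_zero.2 ((ν P).ne_zero_iff.2 hz))).1 hcon.2))
  · obtain ⟨e, y, hy0, hy⟩ := key z hz h
    have h0 : (ringExpChar k : ℝ) ^ e ≠ 0 :=
      pow_ne_zero _ (Nat.cast_ne_zero.2 (expChar_pos k _).ne')
    have h2 := degD_divf (k := k) hy0
    rw [GR2_921.degD_eq_sum, Finsupp.sum] at h2
    have h3 : HasSum (fun P => (ringExpChar k : ℝ) ^ e * Real.log (ν P z)) 0 := by
      simp only [hy]
      have h4 : HasSum (fun P => ((-divf (k := k) y P : ℤ) : ℝ))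
          (∑ P ∈ (divf (k := k) y).support, ((-divf (k := k) y P : ℤ) : ℝ)) :=
        hasSum_sum_of_ne_finset_zero fun P hP => by rw [Finsupp.notMem_support_iff.1 hP]; simp
      rwa [← Int.cast_sum, Finset.sum_neg_distrib, h2, neg_zero, Int.cast_zero] at h4
    simpa [h0] using h3.mul_left ((ringExpChar k : ℝ) ^ e)⁻¹
  · obtain ⟨e, y, -, hy⟩ := key z hz h
    exact ⟨e, _, hy P⟩
  · have h2 : minpoly F z ∈ lifts (algebraMap k F) := (lifts_iff_coeff_lifts _).2 fun i => by
      have h3 : (minpoly F z).coeff i ∈ algebraicClosure k F :=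
        mem_algebraicClosure_iff.2 (isAlgebraic_of_no_poles fun P => by
          have := coeff_le (F := F) (ν P) (fun σ => h σ (hG σ) P) i
          rwa [hν, ← map_one toE, toE_mono.le_iff_le] at this)
      rwa [GR2_921.hc_of_isAlgClosed, IntermediateField.mem_bot] at h3
    obtain ⟨q, hq⟩ := h2
    rw [coe_mapRingHom] at hq
    have h4 : z ∈ algebraicClosure k Om := mem_algebraicClosure_iff.2 ⟨q, fun h0 =>
      minpoly.ne_zero (Algebra.IsIntegral.isIntegral (R := F) z) (by rw [← hq, h0, Polynomial.map_zero]),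
      by rw [← aeval_map_algebraMap F, hq, minpoly.aeval]⟩
    rwa [GR2_921.hc_of_isAlgClosed, IntermediateField.mem_bot] at h4

end P34

theorem exists_pf.{u} (k : Type*) {Om : Type u} [Field k] [Field Om] [Algebra k Om] [IsAlgClosed k]
    [IsAlgClosed Om] (z : Om) (S : Finset Om) (hz : Transcendental k z)
    [Algebra.IsAlgebraic k⟮z⟯ Om] :
    ∃ (T : Type u) (ν : T → Valuation Om ℝ≥0), PF k ν (Gs k S) := by
  let e := RatFunc.algEquivOfTranscendental z hz
  let _ : Algebra (RatFunc k) k⟮z⟯ := (e : RatFunc k →+* k⟮z⟯).toAlgebra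
  let _ : Algebra (RatFunc k) Om := ((algebraMap k⟮z⟯ Om).comp (e : RatFunc k →+* k⟮z⟯)).toAlgebra
  have : IsScalarTower (RatFunc k) k⟮z⟯ Om := IsScalarTower.of_algebraMap_eq fun _ => rfl
  have : IsScalarTower k (RatFunc k) Om := IsScalarTower.of_algebraMap_eq fun c =>
    (congrArg (algebraMap k⟮z⟯ Om) (e.commutes c)).symm
  have : Algebra.IsAlgebraic (RatFunc k) k⟮z⟯ :=
    ⟨fun x => by obtain ⟨y, rfl⟩ := e.surjective x; exact isAlgebraic_algebraMap y⟩
  have : Algebra.IsAlgebraic (RatFunc k) Om := Algebra.IsAlgebraic.trans _ k⟮z⟯ _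
  let F1 := IntermediateField.adjoin (RatFunc k) (S : Set Om)
  have : FiniteDimensional (RatFunc k) F1 := IntermediateField.finiteDimensional_adjoin
    fun x _ => Algebra.IsIntegral.isIntegral x
  let F0 := separableClosure (RatFunc k) Om ⊓ F1
  have : FiniteDimensional (RatFunc k) F0 := FiniteDimensional.of_injective
    (IntermediateField.inclusion (inf_le_right : F0 ≤ F1)).toLinearMap
    (IntermediateField.inclusion_injective (inf_le_right : F0 ≤ F1))
  have : Algebra.IsSeparable (RatFunc k) F0 := (le_separableClosure_iff _ _ F0).1 inf_le_left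
  have : IsScalarTower k F0 Om := IsScalarTower.of_algebraMap_eq fun _ => rfl
  refine ⟨Pl k F0, P34.pf_of _ fun σ => ⟨fun c => ?_, fun y hy => ?_⟩⟩
  · exact (σ.restrictScalars k).commutes c
  · let q := ringExpChar (separableClosure (RatFunc k) Om)
    obtain ⟨n, u, hu⟩ := IsPurelyInseparable.pow_mem (separableClosure (RatFunc k) Om) q y
    have h1 : y ^ q ^ n ∈ F0 := ⟨hu ▸ u.2, pow_mem (IntermediateField.subset_adjoin _ _ hy) _⟩
    have h2 : σ (y ^ q ^ n) = y ^ q ^ n := σ.commutes ⟨_, h1⟩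
    have : ExpChar Om q := expChar_of_injective_algebraMap
      (algebraMap (separableClosure (RatFunc k) Om) Om).injective q
    rw [map_pow] at h2
    exact iterateFrobenius_inj Om q n h2

theorem pfStmt : PFStmt := fun k _ _ _ _ _ _ z S hz _ _ => exists_pf k z S hz

end Crest.Agent.T15.Fa
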