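import Mathlib
import Crest.Agent.T15.FaG_51
import Crest.Agent.T15.FaP_34

/-!
# Row 15 (helper51): the height pairing on a constant hyperelliptic curve, final statements
-/

set_option autoImplicit false
set_option linter.all false

namespace Crest.Agent.T15.Fa

open Polynomial WithZero Module Filter
open scoped NNReal IntermediateField
open Crest.Agent.R013.RR7_948 Crest.Agent.R013.RR8_948 Crest.Agent.R013.RR9_948
open Crest.Agent.R013.RR11_948 Crest.Agent.R013.RR12_948 Crest.Agent.R013.PicD_398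
open Crest.Agent.T15.Hy

variable {k Om L : Type*} [Field k] [Field Om] [Field L] [Algebra k Om] [Algebra Om L]
  [Algebra (RatFunc Om) L] [IsScalarTower Om (RatFunc Om) L]
  [FiniteDimensional (RatFunc Om) L] [Algebra.IsSeparable (RatFunc Om) L] [IsAlgClosed Om]
  [IsAlgClosed k] {F : k[X]} {x w : L} {z : Om}

/-- **the pairing** -/
theorem pairing (hz : Transcendental k z) (ha : Algebra.IsAlgebraic k⟮z⟯ Om)
    (h : Hyp (F.map (algebraMap k Om)) x w) (hodd : Odd F.natDegree) (S : Finset Om) :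
    ∃ B : Gam k S x w →+ Gam k S x w →+ ℚ, (∀ c c', B c c' = B c' c) ∧
      (∀ c c', ∃ (e : ℕ) (n : ℤ), (ringExpChar k : ℚ) ^ e * B c c' = n) ∧ (∀ c, 0 ≤ B c c) ∧
      ∀ c, B c c = 0 → ConC k x w (c : Pic Om L) := by
  obtain ⟨T, ν, hP⟩ := exists_pf k z S hz
  exact pairing_of hP h hodd

/-- the same in exponential characteristic `p` -/
theorem pairing_char (p : ℕ) [ExpChar k p] (hz : Transcendental k z)
    (ha : Algebra.IsAlgebraic k⟮z⟯ Om)
    (h : Hyp (F.map (algebraMap k Om)) x w) (hodd : Odd F.natDegree) (S : Finset Om) :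
    ∃ B : Gam k S x w →+ Gam k S x w →+ ℚ,
      (∀ c c', ∃ (e : ℕ) (n : ℤ), (p : ℚ) ^ e * B c c' = n) ∧
      ∀ c, B c c = 0 → ConC k x w (c : Pic Om L) := by
  obtain ⟨B, -, h1, -, h2⟩ := pairing hz ha h hodd S
  rw [ringExpChar.eq k p] at h1
  exact ⟨B, h1, h2⟩

/-- the same for a polynomial whose coefficients lie in `k`, `p` prime and zero in `k` -/
theorem pairing_prime {p : ℕ} (hp : p.Prime) (hpk : (p : k) = 0) (hz : Transcendental k z)
    (ha : Algebra.IsAlgebraic k⟮z⟯ Om) {Fb : Om[X]} (h : Hyp Fb x w) (hodd : Odd Fb.natDegree)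
    (hF : ∀ i, Fb.coeff i ∈ Set.range (algebraMap k Om)) (S : Finset Om) :
    ∃ B : Gam k S x w →+ Gam k S x w →+ ℚ,
      (∀ c c', ∃ (e : ℕ) (n : ℤ), (p : ℚ) ^ e * B c c' = n) ∧
      ∀ c, B c c = 0 → ConC k x w (c : Pic Om L) := by
  obtain ⟨F, rfl⟩ := (mem_lifts _).mp ((lifts_iff_coeff_lifts Fb).mpr hF)
  haveI : Fact p.Prime := ⟨hp⟩
  haveI : CharP k p := (CharP.charP_iff_prime_eq_zero hp).mpr hpk
  haveI : ExpChar k p := ExpChar.prime hp
  exact pairing_char p hz ha h (by rwa [natDegree_map] at hodd) S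

theorem ln (hz : Transcendental k z) (ha : Algebra.IsAlgebraic k⟮z⟯ Om)
    (h : Hyp (F.map (algebraMap k Om)) x w) (hodd : Odd F.natDegree) {S : Finset Om} {l : ℕ}
    (hl : 1 < l) (hlk : (l : k) ≠ 0) {c : Pic Om L}
    (hc : ∀ m : ℕ, ∃ c' ∈ Gam k S x w, c = l ^ m • c') : ConC k x w c := by
  obtain ⟨T, ν, hP⟩ := exists_pf k z S hz
  exact ln_of hP h hodd hl hlk hc

end Crest.Agent.T15.Fa
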