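import Mathlib
import Crest.Agent.T15.FaC_51
import Crest.Agent.T15.FaS_49

/-!
# Row 15 (helper49): reduced divisors, invariant functions

`exists_red`, `exists_fn_inv`.
-/

set_option autoImplicit false
set_option linter.all false

namespace Crest.Agent.T15.Fa

open Polynomial WithZero Module
open Crest.Agent.R013.RR7_948 Crest.Agent.R013.RR8_948 Crest.Agent.R013.RR9_948
open Crest.Agent.R013.RR11_948 Crest.Agent.R013.RR12_948 Crest.Agent.R013.PicD_398
open Crest.Agent.R013.GR2_921 Crest.Agent.R013.Frob1_914 Crest.Agent.T15.Disc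
open Crest.Agent.T15.Hy

variable {Om L : Type*} [Field Om] [Field L] [Algebra Om L]
  [Algebra (RatFunc Om) L] [IsScalarTower Om (RatFunc Om) L]
  [FiniteDimensional (RatFunc Om) L] [Algebra.IsSeparable (RatFunc Om) L] [IsAlgClosed Om]
  {F : Om[X]} {x w : L}

/-- effective on the affine part, with the largest coefficient at infinity in its class -/
structure Redu (x : L) (W : Pl Om L) (D : Pl Om L →₀ ℤ) : Prop where
  nn : ∀ P, P.v x ≤ 1 → 0 ≤ D P
  mx : ∀ D' : Pl Om L →₀ ℤ, cls D' = cls D → (∀ P, P.v x ≤ 1 → 0 ≤ D' P) → D' W ≤ D W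

theorem le_degD (h : Hyp F x w) (ho : Odd F.natDegree) {W : Pl Om L} (hW : 1 < W.v x)
    {D : Pl Om L →₀ ℤ} (hD : ∀ P, P.v x ≤ 1 → 0 ≤ D P) : D W ≤ degD D := by
  classical
  have h1 : 0 ≤ D - Finsupp.single W (D W) := by
    intro P
    simp only [Finsupp.sub_apply, Finsupp.single_apply, Finsupp.coe_zero, Pi.zero_apply]
    rcases le_or_gt (P.v x) 1 with hP | hP
    · rw [if_neg (by rintro rfl; exact absurd hP (not_le.mpr hW)), sub_zero]
      exact hD P hP
    · rw [h.inf_unique ho hP hW, if_pos rfl, sub_self]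
  have h2 := degD_nonneg h1
  rw [degD_sub, degD_single, degP_eq_one] at h2
  push_cast at h2
  omega

theorem exists_redu (h : Hyp F x w) (ho : Odd F.natDegree) {W : Pl Om L} (hW : 1 < W.v x)
    (c : Pic Om L) : ∃ D, cls D = c ∧ Redu x W D := by
  classical
  obtain ⟨n, ⟨D, hD, hD1, rfl⟩, hn⟩ := Int.exists_greatest_of_bdd
    (P := fun n : ℤ => ∃ D : Pl Om L →₀ ℤ, cls D = c ∧ (∀ P, P.v x ≤ 1 → 0 ≤ D P) ∧ D W = n)
    ⟨degPic c, by
      rintro _ ⟨D, rfl, hD, rfl⟩
      rw [degPic_cls]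
      exact le_degD h ho hW hD⟩ (by
      obtain ⟨D0, rfl⟩ := cls_surjective c
      obtain ⟨f, hf, hfD⟩ := exists_mem_LD (k := Om) (K := L)
        (D := D0 + Finsupp.single W (gen Om L - degD D0)) (by
          rw [degD_add, degD_single, degP_eq_one]; push_cast; omega)
      refine ⟨_, D0 + divf f, by rw [map_add, cls_divf hf, add_zero], fun P hP => ?_, rfl⟩
      have h1 := (mem_LD_iff hf).mp hfD P
      have h2 : W ≠ P := by rintro rfl; exact absurd hP (not_le.mpr hW)
      simpa [Finsupp.single_apply, h2] using h1)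
  exact ⟨D, hD, hD1, fun D' h1 h2 => hn _ ⟨D', h1.trans hD, h2, rfl⟩⟩

theorem Redu.unique {W : Pl Om L} {D D' : Pl Om L →₀ ℤ} (hD : Redu x W D)
    (hc : cls D' = cls D) (hn : ∀ P, P.v x ≤ 1 → 0 ≤ D' P) (hW : D' W = D W) : D' = D := by
  obtain ⟨f, hf, rfl⟩ := cls_eq_iff.mp hc
  have h1 : divf (k := Om) f W = 0 := by simpa using hW
  have h2 : W.v f = 1 := (v_eq_one_iff hf W).mpr h1
  by_cases h3 : f - algebraMap Om L (ev W f) = 0
  · rw [sub_eq_zero.mp h3, divf_const (ev_ne_zero h2), add_zero]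
  · exfalso
    have h4 := hD.mx (D + divf (k := Om) (f - algebraMap Om L (ev W f)))
      (by rw [map_add, cls_divf h3, add_zero]) (fun P hP => by
        have h5 : P.v (f - algebraMap Om L (ev W f)) ≤ exp (D P) := by
          refine (Valuation.map_sub _ _ _).trans (max_le ?_ ?_)
          · rw [v_le_exp_iff hf]
            have := hn P hP
            rw [Finsupp.add_apply] at this
            omega
          · refine (v_const_le P _).trans ?_
            rw [← exp_zero, exp_le_exp]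
            exact hD.nn P hP
        rw [v_le_exp_iff h3] at h5
        rw [Finsupp.add_apply]
        omega)
    have h5 := (v_lt_one_iff h3 W).mp (ev_spec W h2.le)
    rw [Finsupp.add_apply] at h4
    omega

theorem pl_inf_eq (h : Hyp F x w) (ho : Odd F.natDegree) {W : Pl Om L} (hW : 1 < W.v x)
    {e : SI Om L Om L} (he : e.f x = x) : e.pl W = W :=
  h.inf_unique ho (by rw [← he, e.pl_v_apply]; exact hW) hW

theorem Redu.inv (h : Hyp F x w) (ho : Odd F.natDegree) {W : Pl Om L} (hW : 1 < W.v x)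
    {D : Pl Om L →₀ ℤ} (hD : Redu x W D) {e : SI Om L Om L} (he : e.f x = x)
    (hc : e.pic (cls D) = cls D) : e.D D = D := by
  refine hD.unique hc (fun P hP => ?_) ?_
  · rw [e.D_apply]
    apply hD.nn
    rw [← e.pl_v_apply, e.pl_symm_pl, he]
    exact hP
  · conv_lhs => rw [← pl_inf_eq h ho hW he, e.D_pl]

theorem Redu.not_pair (h : Hyp F x w) {W : Pl Om L} (hW : 1 < W.v x)
    {D : Pl Om L →₀ ℤ} (hD : Redu x W D) {P : Pl Om L} (hP : P.v x ≤ 1) :
    ¬ ∀ Q, Q.v x ≤ 1 →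
      (Finsupp.single P 1 + Finsupp.single (h.siota.pl P) 1 : Pl Om L →₀ ℤ) Q ≤ D Q := by
  classical
  intro H
  have hA := h.at_ev hP
  have hb := hA.sq h.sq
  have h1 := h.div_x hb
  rw [h.pt_eq hA, h.pt_eq (hA.iota h)] at h1
  have hne := h.x_sub_ne (ev P x)
  have h2 := hD.mx (D + divf (k := Om) (x - algebraMap Om L (ev P x))⁻¹)
    (by rw [map_add, cls_divf (inv_ne_zero hne), add_zero]) (fun Q hQ => by
      have h3 := H Q hQ
      have h4 := Dinf_nonneg (k := Om) x Q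
      rw [divf_inv hne, h1]
      simp only [Finsupp.add_apply, Finsupp.neg_apply, Finsupp.sub_apply, Finsupp.coe_zero,
        Pi.zero_apply] at h3 h4 ⊢
      omega)
  have h3 : P ≠ W := by rintro rfl; exact absurd hP (not_le.mpr hW)
  have h4 : h.siota.pl P ≠ W := by
    rintro rfl; exact absurd (hA.iota h).x_le (not_le.mpr hW)
  have h5 := divf_neg_of_lt (k := Om) h.x_ne hW
  rw [divf_inv hne, h1] at h2
  simp only [Finsupp.add_apply, Finsupp.neg_apply, Finsupp.sub_apply, Finsupp.single_apply,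
    if_neg h3, if_neg h4, Dinf_of_lt h.x_ne hW] at h2
  omega

theorem Redu.pair (h : Hyp F x w) {W : Pl Om L} (hW : 1 < W.v x)
    {D : Pl Om L →₀ ℤ} (hD : Redu x W D) {P : Pl Om L} (hP : P.v x ≤ 1)
    (hne : P ≠ h.siota.pl P) : D P = 0 ∨ D (h.siota.pl P) = 0 := by
  classical
  by_contra hc
  push Not at hc
  have h1 := hD.nn P hP
  have h2 := hD.nn _ ((h.at_ev hP).iota h).x_le
  refine hD.not_pair h hW hP fun Q hQ => ?_
  have h3 := hD.nn Q hQ
  obtain ⟨hc1, hc2⟩ := hc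
  simp only [Finsupp.add_apply, Finsupp.single_apply]
  by_cases h4 : P = Q
  · subst h4
    rw [if_pos rfl, if_neg hne.symm]; omega
  · by_cases h5 : h.siota.pl P = Q
    · subst h5
      rw [if_neg h4, if_pos rfl]; omega
    · rw [if_neg h4, if_neg h5]; omega

theorem Redu.le_one (h : Hyp F x w) {W : Pl Om L} (hW : 1 < W.v x)
    {D : Pl Om L →₀ ℤ} (hD : Redu x W D) {P : Pl Om L} (hP : P.v x ≤ 1)
    (he : P = h.siota.pl P) : D P ≤ 1 := by
  classical
  by_contra hc
  refine hD.not_pair h hW hP fun Q hQ => ?_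
  have h3 := hD.nn Q hQ
  rw [← he]
  simp only [Finsupp.add_apply, Finsupp.single_apply]
  by_cases h4 : P = Q
  · subst h4
    rw [if_pos rfl]; omega
  · rw [if_neg h4]; omega

/-- reduced representatives -/
theorem exists_red (h : Hyp F x w) (ho : Odd F.natDegree) (c : Pic Om L) :
    ∃ D : Pl Om L →₀ ℤ, cls D = c ∧ (∀ P, P.v x ≤ 1 → 0 ≤ D P) ∧
      (∀ P, P.v x ≤ 1 → P ≠ h.siota.pl P → D P = 0 ∨ D (h.siota.pl P) = 0) ∧
      (∀ P, P.v x ≤ 1 → P = h.siota.pl P → D P ≤ 1) ∧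
      ∀ e : SI Om L Om L, e.f x = x → e.pic c = c → e.D D = D := by
  obtain ⟨W, hW⟩ := h.exists_inf
  obtain ⟨D, rfl, hD⟩ := exists_redu h ho hW c
  exact ⟨D, rfl, hD.nn, fun P hP => hD.pair h hW hP, fun P hP => hD.le_one h hW hP,
    fun e he hc => hD.inv h ho hW he hc⟩

theorem siota_eq_iff (h : Hyp F x w) {P : Pl Om L} (hP : P.v x ≤ 1) :
    P = h.siota.pl P ↔ ev P w = 0 := by
  have hA := h.at_ev hP
  constructor
  · intro he
    have h1 := hA.iota h
    rw [← he] at h1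
    have h2 := (hA.eq h1).2
    by_contra h0
    exact ne_neg_of h.two h0 h2
  · intro h0
    have h1 := hA.iota h
    rw [h0, neg_zero] at h1
    rw [h0] at hA
    exact h.at_unique hA h1

theorem const_of_divf {f : L} (hf : f ≠ 0) (h0 : divf (k := Om) f = 0) :
    ∃ c : Om, c ≠ 0 ∧ f = algebraMap Om L c := by
  have : f ∈ LD (0 : Pl Om L →₀ ℤ) := by rw [mem_LD_iff hf, h0]; simp
  rw [LD_zero hc_of_isAlgClosed, Submodule.mem_one] at this
  obtain ⟨c, rfl⟩ := this
  exact ⟨c, fun h => hf (by rw [h, map_zero]), rfl⟩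

/-- a principal divisor has a generator which is fixed together with the divisor -/
theorem exists_fn_inv (h : Hyp F x w) (ho : Odd F.natDegree) {D : Pl Om L →₀ ℤ} (hD : cls D = 0) :
    ∃ f : L, f ≠ 0 ∧ divf (k := Om) f = D ∧
      ∀ e : SI Om L Om L, e.f x = x → e.f w = w → e.D D = D → e.f f = f := by
  obtain ⟨g, hg⟩ := ho
  obtain ⟨W, hW⟩ := h.exists_inf
  obtain ⟨f0, hf0, rfl⟩ := cls_eq_zero_iff.mp hD
  have h' := hyp_inf h hg
  have hu : w / x ^ (g + 1) ≠ 0 := h'.w_ne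
  have hA := at_inf h hg hW
  have h1 : divf (k := Om) (w / x ^ (g + 1)) W = 1 := by
    have := h'.ord_w hA (h'.deriv_ne (by rw [← hA.sq h'.sq]; simp))
    rwa [map_zero, sub_zero] at this
  have hc := lv_ne hu h1 hf0
  have hc' : algebraMap Om L (lv W (w / x ^ (g + 1)) f0)⁻¹ ≠ 0 := by simpa using hc
  have hf : f0 * algebraMap Om L (lv W (w / x ^ (g + 1)) f0)⁻¹ ≠ 0 := mul_ne_zero hf0 hc'
  have hl : lv W (w / x ^ (g + 1)) (f0 * algebraMap Om L (lv W (w / x ^ (g + 1)) f0)⁻¹) = 1 := by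
    rw [lv_mul hu h1 hf0 hc', lv_const _ _ (inv_ne_zero hc), mul_inv_cancel₀ hc]
  have hd : divf (k := Om) (f0 * algebraMap Om L (lv W (w / x ^ (g + 1)) f0)⁻¹) = divf f0 := by
    rw [divf_mul hf0 hc', divf_const (inv_ne_zero hc), add_zero]
  refine ⟨_, hf, hd, fun e hx hw he => ?_⟩
  rw [← hd] at he
  generalize f0 * algebraMap Om L (lv W (w / x ^ (g + 1)) f0)⁻¹ = f at hf hl he
  have hef : e.f f ≠ 0 := by simpa using hf
  obtain ⟨c, hc0, hce⟩ := const_of_divf (Om := Om) (div_ne_zero hef hf) (by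
    rw [divf_div hef hf, e.divf_f hf, he, sub_self])
  have h2 := lv_SI e hu h1 hf
  rw [pl_inf_eq h ⟨g, hg⟩ hW hx, hl, map_one, map_div₀, map_pow, hx, hw,
    (div_eq_iff hf).mp hce, lv_mul hu h1 (by simpa using hc0) hf, lv_const _ _ hc0, hl,
    mul_one] at h2
  rw [(div_eq_iff hf).mp hce, h2, map_one, one_mul]

end Crest.Agent.T15.Fa
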