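import Mathlib

/-!
# Row 15, block Ht, (FAM) part A: words and polynomial algebra

Hyperelliptic curve `w² = F(x)` of genus `g` over `ℂ`, an abstract class group `A` with point
classes `cl`, hyperelliptic class `del` and exponential `ex`.
-/

set_option autoImplicit false

open Polynomial Filter Topology Function

noncomputable section

namespace Crest.Agent.T15.Fam

abbrev Pt : Type := ℂ × ℂ

/-- the point lies on the affine curve -/
def On (F : ℂ[X]) (P : Pt) : Prop := P.2 ^ 2 = F.eval P.1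

/-- points on the curve with distinct `x` -/
def Gd (F : ℂ[X]) {ι : Type*} (D : ι → Pt) : Prop := (∀ i, On F (D i)) ∧ Injective fun i => (D i).1

/-- first Mumford polynomial -/
def mu {ι : Type*} [Fintype ι] (D : ι → Pt) : ℂ[X] := ∏ i, (X - C (D i).1)

/-- second Mumford polynomial -/
def mv {g : ℕ} (D : Fin g → Pt) : ℂ[X] :=
  Lagrange.interpolate Finset.univ (fun i => (D i).1) fun i => (D i).2

/-- the hypotheses on the class group and the exponential -/
structure Jd (F : ℂ[X]) (g : ℕ) {A : Type*} [AddCommGroup A] (cl : Pt → A) (del : A)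
    (ex : (Fin g → ℂ) →+ A) : Prop where
  pos : 0 < g
  sep : F.Separable
  degpos : 0 < F.natDegree
  deg : F.natDegree ≤ 2 * g + 2
  h1 : ∀ (ι : Type) [Fintype ι] (P : ι → Pt) (a b : ℂ[X]), Fintype.card ι = 4 * g → Gd F P →
    a.natDegree ≤ 2 * g → b.degree < g → (a ≠ 0 ∨ b ≠ 0) →
    (∀ j, a.eval (P j).1 + b.eval (P j).1 * (P j).2 = 0) → ∑ j, cl (P j) = (2 * g) • del
  h2 : ∀ D D' : Fin g → Pt, Gd F D → Gd F D' → ∑ i, cl (D i) = ∑ i, cl (D' i) →
    Set.range D = Set.range D'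
  h3 : ∀ P, On F P → cl P + cl (P.1, -P.2) = del
  h5 : ∀ (ι : Type) [Fintype ι] (P : ι → Pt), Fintype.card ι = 4 * g → Gd F P →
    ∑ j, cl (P j) = (2 * g) • del → ∃ a b : ℂ[X], a.natDegree ≤ 2 * g ∧ b.degree < g ∧
      (a ≠ 0 ∨ b ≠ 0) ∧ ∀ j, a.eval (P j).1 + b.eval (P j).1 * (P j).2 = 0
  path : ∀ (x w m : ℂ → ℂ) (z : ℂ → Fin g → ℂ), AnalyticAt ℂ x 0 → AnalyticAt ℂ w 0 →
    AnalyticAt ℂ m 0 → AnalyticAt ℂ z 0 → z 0 = 0 →
    (∀ᶠ s in 𝓝 (0 : ℂ), w s ^ 2 = F.eval (x s) ∧ HasDerivAt x (m s * w s) s ∧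
      HasDerivAt w (m s * F.derivative.eval (x s) / 2) s ∧
      HasDerivAt z (fun k => x s ^ (k : ℕ) * m s) s) →
    ∀ᶠ s in 𝓝 (0 : ℂ), cl (x s, w s) = cl (x 0, w 0) + ex (z s)

section mumford

variable {ι : Type*} [Fintype ι]

lemma mu_monic (D : ι → Pt) : (mu D).Monic := monic_prod_of_monic _ _ fun _ _ => monic_X_sub_C _

lemma mu_natDegree (D : ι → Pt) : (mu D).natDegree = Fintype.card ι := by
  rw [mu, natDegree_prod_of_monic _ _ fun _ _ => monic_X_sub_C _]
  simp

lemma mu_eval (D : ι → Pt) (i : ι) : (mu D).eval (D i).1 = 0 := by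
  rw [mu, eval_prod]
  exact Finset.prod_eq_zero (Finset.mem_univ i) (by simp)

lemma mu_eval_iff (D : ι → Pt) (y : ℂ) : (mu D).eval y = 0 ↔ ∃ i, (D i).1 = y := by
  rw [mu, eval_prod, Finset.prod_eq_zero_iff]
  simp [sub_eq_zero, eq_comm]

lemma mu_dvd {D : ι → Pt} (hD : Injective fun i => (D i).1) {p : ℂ[X]}
    (h : ∀ i, p.eval (D i).1 = 0) : mu D ∣ p :=
  Fintype.prod_dvd_of_coprime (pairwise_coprime_X_sub_C hD) fun i => dvd_iff_isRoot.mpr (h i)

lemma mu_sep {D : ι → Pt} (hD : Injective fun i => (D i).1) : (mu D).Separable :=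
  separable_prod_X_sub_C_iff.mpr hD

variable {g : ℕ}

lemma mv_eval {D : Fin g → Pt} (hD : Injective fun i => (D i).1) (i : Fin g) :
    (mv D).eval (D i).1 = (D i).2 :=
  Lagrange.eval_interpolate_at_node _ hD.injOn (Finset.mem_univ i)

lemma mv_degree {D : Fin g → Pt} (hD : Injective fun i => (D i).1) : (mv D).degree < g := by
  have := Lagrange.degree_interpolate_lt (fun i => (D i).2)
    (hD.injOn (s := ((Finset.univ : Finset (Fin g)) : Set (Fin g))))
  rwa [Finset.card_univ, Fintype.card_fin] at this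

lemma eq_zero_of_eval {κ : Type*} [Fintype κ] {x : κ → ℂ} (hx : Injective x) {p : ℂ[X]}
    (hp : p.degree < Fintype.card κ) (h : ∀ i, p.eval (x i) = 0) : p = 0 :=
  eq_zero_of_degree_lt_of_eval_index_eq_zero Finset.univ hx.injOn (by simpa using hp)
    fun i _ => h i

lemma mv_eq {D : Fin g → Pt} (hD : Injective fun i => (D i).1) {V : ℂ[X]} (hV : V.degree < g)
    (h : ∀ i, V.eval (D i).1 = (D i).2) : mv D = V := by
  rw [← sub_eq_zero]
  refine eq_zero_of_eval hD ?_ fun i => ?_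
  · rw [Fintype.card_fin]
    exact (degree_sub_le _ _).trans_lt (max_lt (mv_degree hD) hV)
  · rw [eval_sub, mv_eval hD, h, sub_self]

lemma mu_mv_congr {D D' : Fin g → Pt} (hD : Injective fun i => (D i).1)
    (hD' : Injective fun i => (D' i).1) (h : Set.range D = Set.range D') :
    mu D = mu D' ∧ mv D = mv D' := by
  have h1 : ∀ i, ∃ j, D' j = D i := fun i => by
    have : D i ∈ Set.range D' := h ▸ Set.mem_range_self i
    exact this
  constructor
  · refine eq_of_monic_of_dvd_of_natDegree_le (mu_monic D) (mu_monic D') ?_ ?_ |>.symm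
    · refine mu_dvd hD fun i => ?_
      obtain ⟨j, hj⟩ := h1 i
      rw [← hj, mu_eval]
    · rw [mu_natDegree, mu_natDegree]
  · refine mv_eq hD (mv_degree hD') fun i => ?_
    obtain ⟨j, hj⟩ := h1 i
    rw [← hj, mv_eval hD']

lemma range_eq_of_mu_mv {D D' : Fin g → Pt} (hD : Injective fun i => (D i).1)
    (hD' : Injective fun i => (D' i).1) (h : mu D = mu D') (h' : mv D = mv D') :
    ∃ e : Equiv.Perm (Fin g), ∀ i, D' (e i) = D i := by
  have h1 : ∀ i, ∃ j, D' j = D i := fun i => by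
    obtain ⟨j, hj⟩ := (mu_eval_iff D' (D i).1).1 (h ▸ mu_eval D i)
    refine ⟨j, Prod.ext hj ?_⟩
    rw [← mv_eval hD' j, ← mv_eval hD i, hj, h']
  choose f hf using h1
  have hi : Injective f := fun i j e => hD (by
    show (D i).1 = (D j).1
    rw [← hf i, ← hf j, e])
  exact ⟨Equiv.ofBijective f (Finite.injective_iff_bijective.mp hi), hf⟩

lemma mu_dvd_mv {F : ℂ[X]} {D : Fin g → Pt} (hD : Gd F D) : mu D ∣ F - mv D ^ 2 :=
  mu_dvd hD.2 fun i => by rw [eval_sub, eval_pow, mv_eval hD.2, hD.1 i, sub_self]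

end mumford

section pf

variable {R S : Type*} [CommRing R] [CommRing S] {n : ℕ}

/-- the polynomial with given coefficients -/
def pf (v : Fin n → R) : R[X] := ∑ k : Fin n, monomial (k : ℕ) (v k)

lemma pf_coeff (v : Fin n → R) (k : Fin n) : (pf v).coeff k = v k := by
  rw [pf, finsetSum_coeff, Finset.sum_eq_single k]
  · simp
  · intro j _ hj
    rw [coeff_monomial, if_neg (fun h => hj (Fin.ext h))]
  · simp

lemma pf_degree (v : Fin n → R) : (pf v).degree < n :=
  (degree_sum_le _ _).trans_lt ((Finset.sup_lt_iff (WithBot.bot_lt_coe n)).2 fun k _ =>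
    (degree_monomial_le _ _).trans_lt (WithBot.coe_lt_coe.mpr k.2))

lemma pf_map (φ : R →+* S) (v : Fin n → R) : (pf v).map φ = pf fun k => φ (v k) := by
  simp [pf, Polynomial.map_sum]

lemma pf_eval (v : Fin n → R) (x : R) : (pf v).eval x = ∑ k : Fin n, x ^ (k : ℕ) * v k := by
  simp [pf, eval_finsetSum, mul_comm]

lemma pf_coeff_eq {p : R[X]} (hp : p.degree < n) : (pf fun k : Fin n => p.coeff k) = p := by
  ext k
  by_cases hk : k < n
  · exact pf_coeff _ ⟨k, hk⟩
  · have hk' : (n : WithBot ℕ) ≤ k := by exact_mod_cast not_lt.mp hk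
    rw [coeff_eq_zero_of_degree_lt (hp.trans_le hk'),
      coeff_eq_zero_of_degree_lt ((pf_degree _).trans_le hk')]

/-- matrix of multiplication by `b` modulo `U` -/
def mm (n : ℕ) (U b : R[X]) : Matrix (Fin n) (Fin n) R :=
  Matrix.of fun j k => ((b * X ^ (k : ℕ)) %ₘ U).coeff j

lemma mm_mulVec (U b : R[X]) (u : Fin n → R) (j : Fin n) :
    (mm n U b).mulVec u j = ((b * pf u) %ₘ U).coeff j := by
  have : (b * pf u) %ₘ U = ∑ k : Fin n, u k • ((b * X ^ (k : ℕ)) %ₘ U) := by
    rw [pf, Finset.mul_sum, ← modByMonicHom_apply, map_sum]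
    refine Finset.sum_congr rfl fun k _ => ?_
    rw [← modByMonicHom_apply, ← map_smul, ← C_mul_X_pow_eq_monomial, smul_eq_C_mul]
    congr 1
    ring
  rw [this, finsetSum_coeff]
  simp [mm, Matrix.mulVec, dotProduct, mul_comm]

lemma mm_map (φ : R →+* S) {U : R[X]} (hU : U.Monic) (b : R[X]) :
    φ.mapMatrix (mm n U b) = mm n (U.map φ) (b.map φ) := by
  ext j k
  simp [mm, ← coeff_map, map_modByMonic φ hU]

/-- index of the coefficients of `a + b w` -/
abbrev Ix (g : ℕ) : Type := Fin (2 * g + 1) ⊕ Fin g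

variable {g : ℕ}

def pa (v : Ix g → R) : R[X] := pf fun k => v (Sum.inl k)

def pb (v : Ix g → R) : R[X] := pf fun k => v (Sum.inr k)

def row (g : ℕ) (x w : R) : Ix g → R := Sum.elim (fun k => x ^ (k : ℕ)) fun k => x ^ (k : ℕ) * w

lemma row_dot (x w : R) (v : Ix g → R) :
    row g x w ⬝ᵥ v = (pa v).eval x + (pb v).eval x * w := by
  simp only [dotProduct, Fintype.sum_sum_type, row, Sum.elim_inl, Sum.elim_inr, pa, pb, pf_eval,
    Finset.sum_mul]
  congr 1
  exact Finset.sum_congr rfl fun _ _ => by ring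

lemma pa_natDegree (v : Ix g → R) : (pa v).natDegree ≤ 2 * g := by
  apply natDegree_le_of_degree_le
  have := pf_degree fun k => v (Sum.inl k)
  exact Order.le_of_lt_succ (by exact_mod_cast this)

lemma pb_degree (v : Ix g → R) : (pb v).degree < g := pf_degree _

lemma pa_map (φ : R →+* S) (v : Ix g → R) : (pa v).map φ = pa fun k => φ (v k) := pf_map _ _

lemma pb_map (φ : R →+* S) (v : Ix g → R) : (pb v).map φ = pb fun k => φ (v k) := pf_map _ _

lemma exists_vec {a b : R[X]} (ha : a.natDegree ≤ 2 * g) (hb : b.degree < g) :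
    ∃ v : Ix g → R, pa v = a ∧ pb v = b :=
  ⟨Sum.elim (fun k => a.coeff k) fun k => b.coeff k,
    pf_coeff_eq ((degree_le_of_natDegree_le ha).trans_lt (by exact_mod_cast Nat.lt_succ_self _)),
    pf_coeff_eq hb⟩

lemma vec_eq {v v0 : Ix g → R} {c : R} (ha : pa v = C c * pa v0) (hb : pb v = C c * pb v0)
    (k : Ix g) : v k = c * v0 k := by
  rcases k with k | k
  · have := congrArg (fun p => p.coeff k) ha
    simpa [pa, pf_coeff] using this
  · have := congrArg (fun p => p.coeff k) hb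
    simpa [pb, pf_coeff] using this

/-- the linear system: vanishing at the points `Q`, normalisation of the coefficient `k₀` -/
def mat {J : Type*} (e : Option J ≃ Ix g) (k₀ : Ix g) (x w : J → R) : Matrix (Ix g) (Ix g) R :=
  Matrix.of fun i => (e.symm i).elim (Pi.single k₀ 1) fun j => row g (x j) (w j)

lemma mat_some {J : Type*} (e : Option J ≃ Ix g) (k₀ : Ix g) (x w : J → R) (v : Ix g → R) (j : J) :
    (mat e k₀ x w).mulVec v (e (some j)) = (pa v).eval (x j) + (pb v).eval (x j) * w j := by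
  rw [← row_dot]
  simp [mat, Matrix.mulVec]

lemma mat_none {J : Type*} (e : Option J ≃ Ix g) (k₀ : Ix g) (x w : J → R) (v : Ix g → R) :
    (mat e k₀ x w).mulVec v (e none) = v k₀ := by
  simp [mat, Matrix.mulVec]

lemma mat_map {J : Type*} (e : Option J ≃ Ix g) (k₀ : Ix g) (x w : J → R) (φ : R →+* S) :
    φ.mapMatrix (mat e k₀ x w) = mat e k₀ (fun j => φ (x j)) fun j => φ (w j) := by
  ext i k
  simp only [mat, RingHom.mapMatrix_apply, Matrix.map_apply, Matrix.of_apply]
  rcases e.symm i with _ | j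
  · simp [Pi.single_apply]
  · rcases k with k | k <;> simp [row]

end pf

section alg

variable {F : ℂ[X]} {g : ℕ}

lemma nrm_ne (hs : F.Separable) (h0 : 0 < F.natDegree) {a b : ℂ[X]} (hab : a ≠ 0 ∨ b ≠ 0) :
    a ^ 2 - b ^ 2 * F ≠ 0 := by
  intro h
  rw [sub_eq_zero] at h
  have hF : F ≠ 0 := hs.ne_zero
  have hb : b ≠ 0 := by
    rintro rfl
    simp at h hab
    exact hab h
  have ha : a ≠ 0 := by
    rintro rfl
    exact mul_ne_zero (pow_ne_zero 2 hb) hF (by simpa using h.symm)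
  obtain ⟨e, he⟩ := IsAlgClosed.exists_root F (natDegree_pos_iff_degree_pos.mp h0).ne'
  have h1 := rootMultiplicity_le_one_of_separable hs e
  have h2 := (rootMultiplicity_pos hF).mpr he
  have h3 := congrArg (rootMultiplicity e) h
  rw [rootMultiplicity_mul (mul_ne_zero (pow_ne_zero 2 hb) hF), sq, sq,
    rootMultiplicity_mul (mul_ne_zero ha ha), rootMultiplicity_mul (mul_ne_zero hb hb)] at h3
  omega

lemma nrm_natDegree (hd : F.natDegree ≤ 2 * g + 2) {a b : ℂ[X]} (ha : a.natDegree ≤ 2 * g)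
    (hb : b.degree < g) : (a ^ 2 - b ^ 2 * F).natDegree ≤ 4 * g := by
  refine (natDegree_sub_le _ _).trans (max_le ?_ ?_)
  · rw [natDegree_pow]
    omega
  · rcases eq_or_ne b 0 with rfl | hb0
    · simp
    · have := (natDegree_lt_iff_degree_lt hb0).mpr hb
      refine natDegree_mul_le.trans ?_
      rw [natDegree_pow]
      omega

lemma nrm_eval {P : Pt} (hP : On F P) {a b : ℂ[X]} (h : a.eval P.1 + b.eval P.1 * P.2 = 0) :
    (a ^ 2 - b ^ 2 * F).eval P.1 = 0 := by
  rw [eval_sub, eval_mul, eval_pow, eval_pow, ← hP, eq_neg_of_add_eq_zero_left h]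
  ring

/-- a function vanishing at `4g` points with distinct `x` has separable norm of degree `4g` -/
lemma wit (hs : F.Separable) (h0 : 0 < F.natDegree) (hd : F.natDegree ≤ 2 * g + 2) {ι : Type*}
    [Fintype ι] {P : ι → Pt} (hc : Fintype.card ι = 4 * g) (hP : Gd F P) {a b : ℂ[X]}
    (ha : a.natDegree ≤ 2 * g) (hb : b.degree < g) (hab : a ≠ 0 ∨ b ≠ 0)
    (h : ∀ j, a.eval (P j).1 + b.eval (P j).1 * (P j).2 = 0) :
    (a ^ 2 - b ^ 2 * F).Separable ∧ (a ^ 2 - b ^ 2 * F).natDegree = 4 * g := by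
  obtain ⟨c, hc'⟩ := mu_dvd hP.2 fun j => nrm_eval (hP.1 j) (h j)
  have hne := nrm_ne hs h0 hab
  have hle := nrm_natDegree hd ha hb
  rw [hc'] at hne hle ⊢
  have hc0 := right_ne_zero_of_mul hne
  rw [natDegree_mul (mu_monic P).ne_zero hc0, mu_natDegree, hc] at hle ⊢
  have h1 : c.natDegree = 0 := by omega
  refine ⟨(mu_sep hP.2).mul_unit ?_, by omega⟩
  rw [eq_C_of_natDegree_eq_zero h1] at hc0 ⊢
  exact isUnit_C.mpr (isUnit_iff_ne_zero.mpr fun h => hc0 (by rw [h, C_0]))

lemma b_ne {a b : ℂ[X]} (hs : (a ^ 2 - b ^ 2 * F).Separable) {y : ℂ}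
    (hy : (a ^ 2 - b ^ 2 * F).eval y = 0) : b.eval y ≠ 0 := by
  intro hb
  have ha : a.eval y = 0 := by simpa [hb] using hy
  have := hs.aeval_derivative_ne_zero (x := y) (by simpa using hy)
  apply this
  simp [derivative_pow, ha, hb]

/-- uniqueness of the function through `3g` of the points -/
lemma uniq (hd : F.natDegree ≤ 2 * g + 2) {J : Type*} [Fintype J] {x w : J → ℂ}
    (hc : Fintype.card J = 3 * g) (hx : Injective x) {a b a₀ b₀ : ℂ[X]}
    (hs : (a₀ ^ 2 - b₀ ^ 2 * F).Separable) (hn : (a₀ ^ 2 - b₀ ^ 2 * F).natDegree = 4 * g)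
    (ha : a.natDegree ≤ 2 * g) (hb : b.degree < g) (ha₀ : a₀.natDegree ≤ 2 * g)
    (hb₀ : b₀.degree < g) (h : ∀ j, a.eval (x j) + b.eval (x j) * w j = 0)
    (h₀ : ∀ j, a₀.eval (x j) + b₀.eval (x j) * w j = 0) : ∃ c : ℂ, a = C c * a₀ ∧ b = C c * b₀ := by
  have hdeg : ∀ a b : ℂ[X], a.natDegree ≤ 2 * g → b.degree < g →
      (a * b).degree < Fintype.card J := by
    intro a b ha hb
    rcases eq_or_ne (a * b) 0 with h | h
    · rw [h]
      exact WithBot.bot_lt_coe _
    · have := (natDegree_lt_iff_degree_lt (right_ne_zero_of_mul h)).mpr hb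
      rw [← natDegree_lt_iff_degree_lt h, hc]
      exact natDegree_mul_le.trans_lt (by omega)
  have h1 : a * b₀ - a₀ * b = 0 := by
    refine eq_zero_of_eval hx ((degree_sub_le _ _).trans_lt
      (max_lt (hdeg _ _ ha hb₀) (hdeg _ _ ha₀ hb))) fun j => ?_
    rw [eval_sub, eval_mul, eval_mul, eq_neg_of_add_eq_zero_left (h j),
      eq_neg_of_add_eq_zero_left (h₀ j)]
    ring
  have hco : IsCoprime a₀ b₀ := by
    refine (isCoprime_iff_aeval_ne_zero_of_isAlgClosed ℂ ℂ a₀ b₀).mpr fun y => ?_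
    by_contra hn
    push Not at hn
    simp only [coe_aeval_eq_eval] at hn
    exact b_ne hs (by simp [hn.1, hn.2]) hn.2
  obtain ⟨u, v, huv⟩ := hco
  have e1 : a = (u * a + v * b) * a₀ := by linear_combination (-a) * huv + v * h1
  have e2 : b = (u * a + v * b) * b₀ := by linear_combination (-b) * huv - u * h1
  set c := u * a + v * b
  have h2 : c.natDegree = 0 := by
    rcases eq_or_ne c 0 with h | h
    · rw [h, natDegree_zero]
    · have h3 := nrm_natDegree hd ha hb
      have h4 : a ^ 2 - b ^ 2 * F = c ^ 2 * (a₀ ^ 2 - b₀ ^ 2 * F) := by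
        linear_combination (a + c * a₀) * e1 - (b + c * b₀) * F * e2
      rw [h4, natDegree_mul (pow_ne_zero 2 h) hs.ne_zero, natDegree_pow, hn] at h3
      omega
  rw [eq_C_of_natDegree_eq_zero h2] at e1 e2
  exact ⟨_, e1, e2⟩

lemma sep_iff {p : ℂ[X]} {n : ℕ} (hp : p.natDegree = n) (hn : 0 < n) :
    resultant p p.derivative n (n - 1) ≠ 0 ↔ p.Separable := by
  have h1 : p.derivative.natDegree = n - 1 := by rw [natDegree_derivative, hp]
  have h0 : p ≠ 0 := by
    rintro rfl
    simp at hp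
    omega
  rw [← h1, ← hp, Ne, resultant_eq_zero_iff, separable_def]
  tauto

variable {A : Type*} [AddCommGroup A] {cl : Pt → A} {del : A} {ex : (Fin g → ℂ) →+ A}

/-- the residual divisor -/
lemma Jd.resid (H : Jd F g cl del ex) {J : Type} [Fintype J] {Q : J → Pt}
    (hc : Fintype.card J = 3 * g) (hQ : Gd F Q) {a b : ℂ[X]} (ha : a.natDegree ≤ 2 * g)
    (hb : b.degree < g) (hs : (a ^ 2 - b ^ 2 * F).Separable)
    (hn : (a ^ 2 - b ^ 2 * F).natDegree = 4 * g)
    (h : ∀ j, a.eval (Q j).1 + b.eval (Q j).1 * (Q j).2 = 0) :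
    ∃ D : Fin g → Pt, Gd F D ∧ ∑ i, cl (D i) = ∑ j, cl (Q j) - g • del ∧
      (a ^ 2 - b ^ 2 * F) /ₘ mu Q = C ((a ^ 2 - b ^ 2 * F).coeff (4 * g)) * mu D ∧
      ∀ i, b.eval (D i).1 ≠ 0 ∧ b.eval (D i).1 * (D i).2 = a.eval (D i).1 := by
  classical
  obtain ⟨R, hR⟩ := mu_dvd hQ.2 fun j => nrm_eval (hQ.1 j) (h j)
  have hR0 : R ≠ 0 := right_ne_zero_of_mul (hR ▸ hs.ne_zero)
  have hRn : R.natDegree = g := by
    have := hn
    rw [hR, natDegree_mul (mu_monic Q).ne_zero hR0, mu_natDegree, hc] at this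
    omega
  have hRs : R.Separable := (hR ▸ hs).of_mul_right
  have hco : IsCoprime (mu Q) R := (hR ▸ hs).isCoprime
  have hcard : R.roots.toFinset.card = g := by
    rw [Multiset.toFinset_card_of_nodup (nodup_roots hRs), IsAlgClosed.card_roots_eq_natDegree, hRn]
  let y : Fin g → ℂ := fun i => (R.roots.toFinset.equivFinOfCardEq hcard).symm i
  have hy : Injective y := fun i j e =>
    (R.roots.toFinset.equivFinOfCardEq hcard).symm.injective (Subtype.ext e)
  have hyR : ∀ i, R.eval (y i) = 0 := fun i =>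
    (mem_roots hR0).1 (Multiset.mem_toFinset.1 ((R.roots.toFinset.equivFinOfCardEq hcard).symm i).2)
  have hyP : ∀ i, (a ^ 2 - b ^ 2 * F).eval (y i) = 0 := fun i => by
    rw [hR, eval_mul, hyR, mul_zero]
  have hb0 : ∀ i, b.eval (y i) ≠ 0 := fun i => b_ne hs (hyP i)
  let D : Fin g → Pt := fun i => (y i, a.eval (y i) / b.eval (y i))
  have hD : ∀ i, On F (D i) := fun i => by
    have h1 := hyP i
    rw [eval_sub, eval_mul, eval_pow, eval_pow, sub_eq_zero] at h1
    show (a.eval (y i) / b.eval (y i)) ^ 2 = F.eval (y i)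
    rw [div_pow, h1, mul_div_cancel_left₀ _ (pow_ne_zero 2 (hb0 i))]
  have hyQ : ∀ i j, (Q j).1 ≠ y i := fun i j e => by
    have := (isCoprime_iff_aeval_ne_zero_of_isAlgClosed ℂ ℂ _ _).mp hco (y i)
    simp only [coe_aeval_eq_eval] at this
    rcases this with h | h
    · exact h (e ▸ mu_eval Q j)
    · exact h (hyR i)
  have hab : a ≠ 0 ∨ b ≠ 0 := Or.inr fun e => hb0 ⟨0, H.pos⟩ (by simp [e])
  have h1 := H.h1 (J ⊕ Fin g) (Sum.elim Q fun i => ((D i).1, -(D i).2)) a b
    (by rw [Fintype.card_sum, hc, Fintype.card_fin]; ring) ⟨?_, ?_⟩ ha hb hab ?_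
  · refine ⟨D, ⟨hD, hy⟩, ?_, ?_, fun i => ⟨hb0 i, mul_div_cancel₀ _ (hb0 i)⟩⟩
    · have h2 : ∑ i, (cl (D i) + cl ((D i).1, -(D i).2)) = g • del := by
        rw [Finset.sum_congr rfl fun i _ => H.h3 (D i) (hD i)]
        simp
      rw [Fintype.sum_sum_type, two_mul, add_smul] at h1
      rw [Finset.sum_add_distrib] at h2
      simp only [Sum.elim_inl, Sum.elim_inr] at h1
      rw [eq_sub_of_add_eq h1, eq_sub_of_add_eq h2]
      abel
    · obtain ⟨c, hc'⟩ : mu D ∣ R := mu_dvd (D := D) hy hyR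
      have hc0 : c ≠ 0 := right_ne_zero_of_mul (hc' ▸ hR0)
      have h2 : c.natDegree = 0 := by
        rw [hc', natDegree_mul (mu_monic D).ne_zero hc0, mu_natDegree, Fintype.card_fin] at hRn
        omega
      have h3 : (a ^ 2 - b ^ 2 * F).coeff (4 * g) = c.coeff 0 := by
        rw [← hn, coeff_natDegree, hR, hc', leadingCoeff_mul, leadingCoeff_mul,
          (mu_monic Q).leadingCoeff, (mu_monic D).leadingCoeff, one_mul, one_mul, leadingCoeff, h2]
      rw [h3, ← eq_C_of_natDegree_eq_zero h2, hR, mul_divByMonic_cancel_left _ (mu_monic Q), hc',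
        mul_comm]
  · rintro (j | i)
    · exact hQ.1 j
    · show (-(D i).2) ^ 2 = F.eval (D i).1
      rw [neg_sq]
      exact hD i
  · rintro (j | i) (j' | i') e
    · exact congrArg Sum.inl (hQ.2 e)
    · exact absurd e (hyQ i' j)
    · exact absurd e.symm (hyQ i j')
    · exact congrArg Sum.inr (hy e)
  · rintro (j | i)
    · exact h j
    · show a.eval (y i) + b.eval (y i) * -(a.eval (y i) / b.eval (y i)) = 0
      rw [mul_neg, mul_div_cancel₀ _ (hb0 i), add_neg_cancel]

/-- the second Mumford polynomial solves a nonsingular linear system -/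
lemma mm_solve {D : Fin g → Pt} (hD : Injective fun i => (D i).1) {a b : ℂ[X]}
    (h : ∀ i, b.eval (D i).1 ≠ 0 ∧ b.eval (D i).1 * (D i).2 = a.eval (D i).1) :
    (mm g (mu D) b).det ≠ 0 ∧
      (mm g (mu D) b).mulVec (fun k => (mv D).coeff k) = fun j : Fin g => (a %ₘ mu D).coeff j := by
  constructor
  · intro h0
    obtain ⟨u, hu, h1⟩ := Matrix.exists_mulVec_eq_zero_iff.mpr h0
    have h2 : (b * pf u) %ₘ mu D = 0 := by
      have hd : ((b * pf u) %ₘ mu D).degree < g := by
        have := degree_modByMonic_lt (b * pf u) (mu_monic D)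
        rwa [degree_eq_natDegree (mu_monic D).ne_zero, mu_natDegree, Fintype.card_fin] at this
      rw [← pf_coeff_eq hd]
      have : (fun k : Fin g => ((b * pf u) %ₘ mu D).coeff k) = 0 := by
        funext k
        rw [← mm_mulVec, h1]
      rw [this]
      simp [pf]
    obtain ⟨c, hc⟩ := (modByMonic_eq_zero_iff_dvd (mu_monic D)).1 h2
    have h3 : pf u = 0 := by
      refine eq_zero_of_eval hD (by simpa using pf_degree u) fun i => ?_
      have := congrArg (Polynomial.eval (D i).1) hc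
      rw [eval_mul, eval_mul, mu_eval, zero_mul] at this
      exact (mul_eq_zero.mp this).resolve_left (h i).1
    apply hu
    funext k
    rw [← pf_coeff u k, h3]
    simp
  · funext j
    rw [mm_mulVec, pf_coeff_eq (mv_degree hD)]
    congr 1
    refine modByMonic_eq_of_dvd_sub (mu_monic D) (mu_dvd hD fun i => ?_)
    rw [eval_sub, eval_mul, mv_eval hD, (h i).2, sub_self]

variable (F cl) in
/-- the class `a` is the class of `g` affine points with distinct `x` -/
def Good (g : ℕ) (a : A) : Prop := ∃ D : Fin g → Pt, Gd F D ∧ ∑ i, cl (D i) = a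

open Classical in
variable (F cl) in
/-- first Mumford polynomial of a class -/
def MU (g : ℕ) (a : A) : ℂ[X] := if h : Good F cl g a then mu h.choose else 0

open Classical in
variable (F cl) in
/-- second Mumford polynomial of a class -/
def MV (g : ℕ) (a : A) : ℂ[X] := if h : Good F cl g a then mv h.choose else 0

lemma Jd.MU_MV (H : Jd F g cl del ex) {D : Fin g → Pt} (hD : Gd F D) {a : A}
    (ha : ∑ i, cl (D i) = a) : MU F cl g a = mu D ∧ MV F cl g a = mv D := by
  have h : Good F cl g a := ⟨D, hD, ha⟩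
  rw [MU, MV, dif_pos h, dif_pos h]
  exact mu_mv_congr h.choose_spec.1.2 hD.2 (H.h2 _ _ h.choose_spec.1 hD
    (h.choose_spec.2.trans ha.symm))

/-- the Mumford polynomials separate good classes -/
lemma Good.eq {a a' : A} (h : Good F cl g a) (h' : Good F cl g a')
    (hU : MU F cl g a = MU F cl g a') (hV : MV F cl g a = MV F cl g a') : a = a' := by
  rw [MU, MU, dif_pos h, dif_pos h'] at hU
  rw [MV, MV, dif_pos h, dif_pos h'] at hV
  obtain ⟨e, he⟩ := range_eq_of_mu_mv h.choose_spec.1.2 h'.choose_spec.1.2 hU hV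
  calc a = ∑ i, cl (h.choose i) := h.choose_spec.2.symm
    _ = ∑ i, cl (h'.choose (e i)) := by simp only [he]
    _ = ∑ i, cl (h'.choose i) := Equiv.sum_comp e fun i => cl (h'.choose i)
    _ = a' := h'.choose_spec.2

end alg

end Crest.Agent.T15.Fam
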