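import Crest.Agent.N41.Exp.Basic

/-!
# Row 15, block Q, (K4): the sieve model of the primes and its Fourier bound (helper98)

`th` is the indicator of the primes weighted by `log`, `nu z` the normalised indicator of the
integers free of prime factors `≤ z`.  `FbStmt`: for `z` a large power of `log N` the exponential
sums of `th - nu z` over intervals and residue classes are `≤ N / log ^ A N` at EVERY frequency.
-/

set_option autoImplicit false

open Finset Filter

namespace Crest.Agent.T15.Fb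

open Crest.Agent.N41.Exp (e)

/-- `∏_{p ≤ z} (1 - 1/p)` -/
noncomputable def V (z : ℕ) : ℝ := ∏ p ∈ Nat.primesLE z, (1 - 1 / (p : ℝ))

/-- no prime factor `≤ z` -/
def Rough (z n : ℕ) : Prop := ∀ p ∈ Nat.primesLE z, ¬ p ∣ n

instance (z n : ℕ) : Decidable (Rough z n) := by unfold Rough; infer_instance

/-- the model -/
noncomputable def nu (z n : ℕ) : ℝ := if Rough z n then (V z)⁻¹ else 0

/-- the primes -/
noncomputable def th (n : ℕ) : ℝ := if n.Prime then Real.log n else 0

/-- the Fourier bound -/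
def FbStmt : Prop := ∀ A : ℕ, ∃ B : ℕ, ∀ B' : ℕ, ∀ᶠ N : ℕ in atTop, ∀ z : ℕ,
  Real.log N ^ B ≤ z → (z : ℝ) ≤ Real.log N ^ B' →
    (V z)⁻¹ ≤ Real.log N ∧ ∀ (a b M r : ℕ) (α : ℝ), 0 < M → b ≤ N →
      ‖∑ n ∈ (Ioc a b).filter (fun n => n ≡ r [MOD M]),
        ((th n - nu z n : ℝ) : ℂ) * e (α * n)‖ ≤ N / Real.log N ^ A

theorem V_pos (z : ℕ) : 0 < V z := prod_pos fun p hp => by
  have h : (2 : ℝ) ≤ p := by exact_mod_cast (Nat.prime_of_mem_primesLE hp).two_le
  have : 1 / (p : ℝ) ≤ 1 / 2 := one_div_le_one_div_of_le (by norm_num) h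
  linarith

theorem V_le_one (z : ℕ) : V z ≤ 1 := prod_le_one (fun p hp => by
  have h : (2 : ℝ) ≤ p := by exact_mod_cast (Nat.prime_of_mem_primesLE hp).two_le
  have : 1 / (p : ℝ) ≤ 1 / 2 := one_div_le_one_div_of_le (by norm_num) h
  linarith) fun p _ => by
  have : (0 : ℝ) ≤ 1 / (p : ℝ) := by positivity
  linarith

theorem one_le_V_inv (z : ℕ) : 1 ≤ (V z)⁻¹ := (one_le_inv₀ (V_pos z)).2 (V_le_one z)

theorem nu_nonneg (z n : ℕ) : 0 ≤ nu z n := by
  unfold nu; split_ifs
  · exact (inv_pos.2 (V_pos z)).le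
  · exact le_rfl

theorem nu_le (z n : ℕ) : nu z n ≤ (V z)⁻¹ := by
  unfold nu; split_ifs
  · exact le_rfl
  · exact (inv_pos.2 (V_pos z)).le

theorem one_le_nu {z n : ℕ} (h : Rough z n) : 1 ≤ nu z n := by
  unfold nu; rw [if_pos h]; exact one_le_V_inv z

theorem th_nonneg (n : ℕ) : 0 ≤ th n := by
  unfold th; split_ifs
  · exact Real.log_natCast_nonneg n
  · exact le_rfl

theorem th_le {n N : ℕ} (h : n ≤ N) : th n ≤ Real.log N := by
  unfold th; split_ifs with hp
  · exact Real.log_le_log (by exact_mod_cast hp.pos) (by exact_mod_cast h)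
  · exact Real.log_natCast_nonneg N

theorem prime_of_th_ne {n : ℕ} (h : th n ≠ 0) : n.Prime := by
  by_contra hc
  exact h (if_neg hc)

end Crest.Agent.T15.Fb
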