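import Crest.Agent.N41.Exp.Main
import Crest.Agent.N41.Pair.Abel
import Crest.Agent.T15.FbDef_98

/-!
# Row 15, block Q, (K4): inverse theorem for type I sums, and the major arcs (helper98)
-/

set_option autoImplicit false
set_option maxHeartbeats 400000

open Finset Polynomial

namespace Crest.Agent.T15.Fb

open Crest.Agent.N41.Exp

lemma lin_eval (α x : ℝ) : (C α * X : ℝ[X]).eval x = α * x := by simp

lemma lin_deg (α : ℝ) : (C α * X : ℝ[X]).natDegree ≤ 1 :=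
  (natDegree_C_mul_le _ _).trans natDegree_X_le

lemma lin_coeff (α : ℝ) : (C α * X : ℝ[X]).coeff 1 = α := by simp

/-- inverse theorem for type I sums -/
def SvInv (K : ℕ) : Prop := ∀ (α : ℝ) (a b Y : ℕ) (f : ℕ → ℝ) (X D : ℝ), 2 ≤ D → 0 < X →
  (b : ℝ) ≤ X → Real.log b ≤ D → (∀ d, |f d| ≤ 1) → (∀ d, Y < d → f d = 0) → Y * D ^ K ≤ X →
  X ≤ D * ‖∑ d ∈ Ioc 0 b, ((f d : ℝ) : ℂ) *
    ∑ m ∈ (Ioc 0 b).filter (fun m => a < d * m ∧ d * m ≤ b), e (α * ((d * m : ℕ) : ℝ))‖ →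
  Appr α (D ^ K) (D ^ K / X)

theorem exists_svInv : ∃ K, SvInv K := by
  obtain ⟨C', hV⟩ := exists_polyVin 1
  have hW := weylInv_one
  obtain ⟨A, hA⟩ : ∃ A : ℕ, A = 22 * ((1 + 1) * (C' + 1)) + 2 := ⟨_, rfl⟩
  refine ⟨2 * A + 3, ?_⟩
  intro α a b Y f X D hD hX hb hL hf hfY hY hS
  have hD1 : (1 : ℝ) ≤ D := by linarith
  obtain ⟨Z, hZ⟩ : ∃ Z : ℝ, Z = ((D ^ 2) ^ 11) ^ ((1 + 1) * (C' + 1)) := ⟨_, rfl⟩
  have hZ1 : 1 ≤ Z := hZ ▸ one_le_pow₀ (one_le_pow₀ (one_le_pow₀ hD1))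
  obtain ⟨U, hU⟩ : ∃ U : ℕ, U = ⌈2 * Z⌉₊ := ⟨_, rfl⟩
  have hU1 : 2 * Z ≤ U := hU ▸ Nat.le_ceil _
  have hU2 : (U : ℝ) ≤ D ^ A := by
    have h1 : (U : ℝ) < 2 * Z + 1 := hU ▸ Nat.ceil_lt_add_one (by linarith)
    have h2 : Z = D ^ (22 * ((1 + 1) * (C' + 1))) := by
      rw [hZ, ← pow_mul, ← pow_mul]; congr 1; ring
    have h3 := const_mul_pow_le hD (c := 4) (a := 22 * ((1 + 1) * (C' + 1))) (b := A) 2
      (by norm_num) (by omega)
    rw [← h2] at h3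
    linarith
  obtain ⟨J, hJ⟩ : ∃ J : ℕ → Finset ℕ,
    J = fun d => (Ioc 0 b).filter (fun m => a < d * m ∧ d * m ≤ b) := ⟨_, rfl⟩
  have hJc : ∀ d, ((J d).card : ℝ) ≤ X := fun d => by
    have := card_le_card (show J d ⊆ Ioc 0 b from hJ ▸ filter_subset _ _)
    rw [Nat.card_Ioc, Nat.sub_zero] at this
    exact le_trans (by exact_mod_cast this) hb
  have hDA : (0 : ℝ) < D ^ (A + 3) := by positivity
  by_cases hI : ∃ d, 1 ≤ d ∧ d ≤ U ∧ X / D ^ (A + 3) < ‖∑ m ∈ J d, e (α * ((d * m : ℕ) : ℝ))‖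
  · obtain ⟨d, hd1, hd2, hI3⟩ := hI
    have hD' : 2 ≤ D ^ (A + 3) := hD.trans (le_self_pow₀ hD1 (by omega))
    have key := hW.nat (C (d * α) * Polynomial.X) (lin_deg _) (J d)
      (hJ ▸ (cvx_Ioc 0 b).filter_mul a b d) hD' hX (hJc d) (by
      rw [div_lt_iff₀ hDA, mul_comm] at hI3
      simp only [lin_eval]
      refine hI3.le.trans (le_of_eq ?_)
      congr 3
      funext m
      congr 1
      push_cast
      ring)
    rw [lin_coeff, pow_one, pow_one] at key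
    refine (key.of_mul hd1).mono ?_ ?_
    · calc (d : ℝ) * D ^ (A + 3) ≤ D ^ A * D ^ (A + 3) :=
          mul_le_mul_of_nonneg_right (le_trans (by exact_mod_cast hd2) hU2) hDA.le
        _ = _ := by ring
    · exact div_le_div_of_nonneg_right (pow_le_pow_right₀ hD1 (by omega)) hX.le
  push Not at hI
  have h1 := short_sum_le (fun d => if d ≤ U then f d else 0)
    (fun d => ∑ m ∈ J d, e (α * ((d * m : ℕ) : ℝ))) b U (L := 1) (B := X / D ^ (A + 3))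
    zero_le_one (by positivity) (fun d _ => by split_ifs; exacts [hf d, by simp])
    (fun d hd => if_neg (by omega)) hI
  have h2 := short_sum_le (fun d => if d ≤ U then 0 else f d)
    (fun d => ∑ m ∈ J d, (((if m ≤ U then 1 else 0 : ℝ)) : ℂ) * e (α * ((d * m : ℕ) : ℝ))) b Y
    (L := 1) (B := U) zero_le_one (by positivity)
    (fun d _ => by split_ifs; exacts [by simp, hf d])
    (fun d hd => by split_ifs; exacts [rfl, hfY d hd]) (fun d _ _ => by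
      refine (norm_sum_le _ _).trans ?_
      have : ∀ m ∈ J d, ‖(((if m ≤ U then 1 else 0 : ℝ)) : ℂ) * e (α * ((d * m : ℕ) : ℝ))‖ =
          if m ≤ U then 1 else 0 := fun m _ => by
        rw [norm_mul, norm_e]; split_ifs <;> simp
      rw [sum_congr rfl this, sum_boole]
      have h3 : (J d).filter (fun m => m ≤ U) ⊆ Ioc 0 U := fun m hm => by
        rw [hJ] at hm
        simp only [mem_filter, mem_Ioc] at hm ⊢
        omega
      have := card_le_card h3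
      rw [Nat.card_Ioc, Nat.sub_zero] at this
      exact_mod_cast this)
  have hsplit : ∑ d ∈ Ioc 0 b, ((f d : ℝ) : ℂ) * ∑ m ∈ J d, e (α * ((d * m : ℕ) : ℝ)) =
      ∑ d ∈ Ioc 0 b, (((if d ≤ U then f d else 0 : ℝ)) : ℂ) *
        ∑ m ∈ J d, e (α * ((d * m : ℕ) : ℝ)) +
      ∑ d ∈ Ioc 0 b, (((if d ≤ U then 0 else f d : ℝ)) : ℂ) *
        ∑ m ∈ J d, (((if m ≤ U then 1 else 0 : ℝ)) : ℂ) * e (α * ((d * m : ℕ) : ℝ)) +
      ∑ d ∈ Ioc 0 b, (((if d ≤ U then 0 else f d : ℝ)) : ℂ) *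
        ∑ m ∈ J d, (((if m ≤ U then 0 else 1 : ℝ)) : ℂ) * e (α * ((d * m : ℕ) : ℝ)) := by
    rw [← sum_add_distrib, ← sum_add_distrib]
    refine sum_congr rfl fun d _ => ?_
    rw [add_assoc, ← mul_add, ← sum_add_distrib]
    have : ∀ m ∈ J d, (((if m ≤ U then 1 else 0 : ℝ)) : ℂ) * e (α * ((d * m : ℕ) : ℝ)) +
        (((if m ≤ U then 0 else 1 : ℝ)) : ℂ) * e (α * ((d * m : ℕ) : ℝ)) =
        e (α * ((d * m : ℕ) : ℝ)) := fun m _ => by split_ifs <;> simp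
    rw [sum_congr rfl this]
    split_ifs <;> simp
  have hS' : X ≤ D * ‖∑ d ∈ Ioc 0 b, ((f d : ℝ) : ℂ) * ∑ m ∈ J d, e (α * ((d * m : ℕ) : ℝ))‖ := by
    rw [hJ]; exact hS
  rw [hsplit] at hS'
  have e1 : D * (U * (1 * (X / D ^ (A + 3)))) ≤ X / 4 := by
    have h4 := const_mul_pow_le hD (c := 4) (a := A + 1) (b := A + 3) 2 (by norm_num) (by omega)
    calc D * (U * (1 * (X / D ^ (A + 3)))) ≤ D * (D ^ A * (1 * (X / D ^ (A + 3)))) := by gcongr
      _ = X / 4 * (4 * D ^ (A + 1) / D ^ (A + 3)) := by field_simp; ring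
      _ ≤ X / 4 * 1 := by
          gcongr
          rwa [div_le_one hDA]
      _ = X / 4 := mul_one _
  have e2 : D * (Y * (1 * (U : ℝ))) ≤ X / 4 := by
    have h4 := const_mul_pow_le hD (c := 4) (a := A + 1) (b := 2 * A + 3) 2 (by norm_num)
      (by omega)
    calc D * (Y * (1 * (U : ℝ))) ≤ D * (Y * (1 * D ^ A)) := by gcongr
      _ = Y * (4 * D ^ (A + 1)) / 4 := by ring
      _ ≤ Y * D ^ (2 * A + 3) / 4 := by gcongr
      _ ≤ X / 4 := by gcongr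
  have hD2 : 2 ≤ D ^ 2 := by nlinarith
  have key := typeII le_rfl hW hV (C α * Polynomial.X) (lin_deg α) a b U
    (fun d => if d ≤ U then 0 else f d) (fun m => if m ≤ U then 0 else 1)
    (D := D ^ 2) (X := X) hD2 hX hb (by nlinarith) (hZ ▸ hU1)
    (fun d => by split_ifs; exacts [by simp, hf d]) (fun d hd => if_pos hd)
    (fun m _ => by split_ifs; exacts [by rw [abs_zero]; linarith, by rw [abs_one]; linarith])
    (fun m hm => if_pos hm) ?_
  · rw [lin_coeff, pow_one X, ← hZ] at key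
    have hexp : Z ≤ D ^ (2 * A + 3) :=
      le_trans (by linarith : Z ≤ D ^ A) (pow_le_pow_right₀ hD1 (by omega))
    exact key.mono hexp (div_le_div_of_nonneg_right hexp hX.le)
  · simp only [lin_eval]
    rw [hJ] at hS' h1 h2
    generalize ∑ d ∈ Ioc 0 b, (((if d ≤ U then 0 else f d : ℝ)) : ℂ) *
      ∑ m ∈ (Ioc 0 b).filter (fun m => a < d * m ∧ d * m ≤ b),
        (((if m ≤ U then 0 else 1 : ℝ)) : ℂ) * e (α * ((d * m : ℕ) : ℝ)) = T3 at hS' ⊢
    generalize ∑ d ∈ Ioc 0 b, (((if d ≤ U then 0 else f d : ℝ)) : ℂ) *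
      ∑ m ∈ (Ioc 0 b).filter (fun m => a < d * m ∧ d * m ≤ b),
        (((if m ≤ U then 1 else 0 : ℝ)) : ℂ) * e (α * ((d * m : ℕ) : ℝ)) = T2 at hS' h2
    generalize ∑ d ∈ Ioc 0 b, (((if d ≤ U then f d else 0 : ℝ)) : ℂ) *
      ∑ m ∈ (Ioc 0 b).filter (fun m => a < d * m ∧ d * m ≤ b),
        e (α * ((d * m : ℕ) : ℝ)) = T1 at hS' h1
    have h5 : ‖T1 + T2 + T3‖ ≤ ‖T1‖ + ‖T2‖ + ‖T3‖ := norm_add₃_le
    have h6 := mul_le_mul_of_nonneg_left h5 (by linarith : (0 : ℝ) ≤ D)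
    have h7 := mul_le_mul_of_nonneg_left h1 (by linarith : (0 : ℝ) ≤ D)
    have h8 := mul_le_mul_of_nonneg_left h2 (by linarith : (0 : ℝ) ≤ D)
    have h9 : X / 2 ≤ D * ‖T3‖ := by linarith
    have h10 := mul_le_mul_of_nonneg_left h9 (by linarith : (0 : ℝ) ≤ D)
    nlinarith

/-- Abel summation against a slowly turning phase -/
lemma abel_nat (c : ℕ → ℂ) (β : ℝ) (a b : ℕ) {E : ℝ}
    (hE : ∀ x, a ≤ x → x ≤ b → ‖∑ n ∈ Ioc a x, c n‖ ≤ E) (hab : a ≤ b) :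
    ‖∑ n ∈ Ioc a b, c n * e (β * n)‖ ≤ E * (1 + 7 * (|β| * ((b : ℝ) - a))) := by
  have tr : ∀ (g : ℤ → ℂ) (x : ℕ), ∑ n ∈ Ico ((a : ℤ) + 1) ((x : ℤ) + 1), g n =
      ∑ n ∈ Ioc a x, g n := fun g x => by
    refine (sum_bij (fun (n : ℕ) _ => (n : ℤ)) ?_ ?_ ?_ fun _ _ => rfl).symm
    · intro n hn; simp only [mem_Ico, mem_Ioc] at hn ⊢; omega
    · intro n _ m _ h; exact_mod_cast h
    · intro n hn
      simp only [mem_Ico] at hn
      exact ⟨n.toNat, by simp only [mem_Ioc]; omega, by omega⟩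
  have h := N41.Pair.abel_le (fun n => c n.toNat) (fun n => e (β * n)) (a := (a : ℤ) + 1)
    (b := (b : ℤ) + 1) (by omega) (E := E) (fun x h1 h2 => by
      obtain ⟨y, rfl⟩ : ∃ y : ℕ, x = (y : ℤ) + 1 := ⟨(x - 1).toNat, by omega⟩
      rw [tr]
      simpa using hE y (by omega) (by omega)) (N41.Pair.var_e β (by omega))
  rw [tr] at h
  simpa using h

/-- major arcs: small sums over all residue classes give a small exponential sum -/
lemma major (f : ℕ → ℝ) (α : ℝ) (a b : ℕ) (hab : a ≤ b) {Q ε E : ℝ} (h : Appr α Q ε)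
    (hE : ∀ q ρ x : ℕ, 1 ≤ q → (q : ℝ) ≤ Q → a ≤ x → x ≤ b →
      |∑ n ∈ (Ioc a x).filter (fun n => n ≡ ρ [MOD q]), f n| ≤ E) :
    ‖∑ n ∈ Ioc a b, ((f n : ℝ) : ℂ) * e (α * n)‖ ≤ Q * E * (1 + 7 * (ε * ((b : ℝ) - a))) := by
  obtain ⟨q, hq1, hqQ, r, hr⟩ := h
  have hq0 : (0 : ℝ) < q := by exact_mod_cast hq1
  have hq1' : (1 : ℝ) ≤ q := by exact_mod_cast hq1
  have hE0 : 0 ≤ E := (abs_nonneg _).trans (hE q 0 a hq1 hqQ le_rfl hab)
  obtain ⟨β, hβ⟩ : ∃ β : ℝ, β = α - r / q := ⟨_, rfl⟩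
  have hβε : |β| ≤ ε := by
    have : (q : ℝ) * α - r = q * β := by rw [hβ]; field_simp
    rw [this, abs_mul, abs_of_pos hq0] at hr
    nlinarith [abs_nonneg β]
  have h1 := abel_nat (fun n => ((f n : ℝ) : ℂ) * e ((r : ℝ) / q * n)) β a b (E := Q * E)
    (fun x h1 h2 => by
      rw [← sum_fiberwise_of_maps_to (s := Ioc a x) (t := range q) (g := fun n => n % q)
        (fun n _ => mem_range.2 (Nat.mod_lt _ hq1))]
      refine (norm_sum_le _ _).trans ?_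
      have : ∀ ρ ∈ range q, ‖∑ n ∈ (Ioc a x).filter (fun n => n % q = ρ),
          ((f n : ℝ) : ℂ) * e ((r : ℝ) / q * n)‖ ≤ E := fun ρ hρ => by
        have h3 : ∀ n ∈ (Ioc a x).filter (fun n => n % q = ρ),
            ((f n : ℝ) : ℂ) * e ((r : ℝ) / q * n) = ((f n : ℝ) : ℂ) * e ((r : ℝ) / q * ρ) := by
          intro n hn
          have h4 : (n : ℝ) = q * (n / q : ℕ) + ρ := by
            rw [← (mem_filter.1 hn).2]; exact_mod_cast (Nat.div_add_mod n q).symm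
          have h5 : (r : ℝ) / q * n = ((r * (n / q : ℕ) : ℤ) : ℝ) + (r : ℝ) / q * ρ := by
            rw [Int.cast_mul, Int.cast_natCast]
            conv_lhs => rw [h4]
            field_simp
          rw [h5, e_add, e_int, one_mul]
        rw [sum_congr rfl h3, ← sum_mul, norm_mul, norm_e, mul_one, ← Complex.ofReal_sum,
          Complex.norm_real, Real.norm_eq_abs]
        convert hE q ρ x hq1 hqQ h1 h2 using 4
        rw [Nat.ModEq, Nat.mod_eq_of_lt (mem_range.1 hρ)]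
      refine (sum_le_card_nsmul _ _ _ this).trans ?_
      rw [card_range, nsmul_eq_mul]
      exact mul_le_mul_of_nonneg_right hqQ hE0) hab
  have h2 : ∀ n ∈ Ioc a b, ((f n : ℝ) : ℂ) * e ((r : ℝ) / q * n) * e (β * n) =
      ((f n : ℝ) : ℂ) * e (α * n) := fun n _ => by
    rw [mul_assoc, ← e_add, hβ]; congr 2; ring
  rw [sum_congr rfl h2] at h1
  refine h1.trans (mul_le_mul_of_nonneg_left ?_ (mul_nonneg (by linarith) hE0))
  have : (0 : ℝ) ≤ (b : ℝ) - a := sub_nonneg.2 (by exact_mod_cast hab)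
  nlinarith [mul_le_mul_of_nonneg_right hβε this]

end Crest.Agent.T15.Fb
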