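import Crest.Agent.PVc.R26.BH
import Crest.Agent.T15.FbA_98

/-!
# Row 15, block Q, (K4): the sifted set in residue classes and on the minor arcs (helper98)
-/

set_option autoImplicit false
set_option maxHeartbeats 400000

open Finset

namespace Crest.Agent.T15.Fb

open Crest.Agent.N41.Exp
open Crest.Agent.R5 (pd pr)

section gen
variable {S : Finset ℕ}

lemma pd_pos (hS : ∀ p ∈ S, p.Prime) {s : Finset ℕ} (hs : s ⊆ S) : 0 < pd s :=
  prod_pos fun _ hp => (hS _ (hs hp)).pos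

lemma pd_dvd (hS : ∀ p ∈ S, p.Prime) {s : Finset ℕ} (hs : s ⊆ S) {n : ℕ} :
    pd s ∣ n ↔ ∀ p ∈ s, p ∣ n :=
  ⟨fun h _ hp => (dvd_prod_of_mem _ hp).trans h, fun h =>
    prod_primes_dvd n (fun _ hp => (hS _ (hs hp)).prime) h⟩

lemma pd_inj (hS : ∀ p ∈ S, p.Prime) {s t : Finset ℕ} (hs : s ⊆ S) (ht : t ⊆ S)
    (h : pd s = pd t) : s = t := by
  rw [← Nat.primeFactors_prod (s := s) fun p hp => hS _ (hs hp),
    ← Nat.primeFactors_prod (s := t) fun p hp => hS _ (ht hp)]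
  exact congrArg Nat.primeFactors h

lemma abs_sum_le (hS : ∀ p ∈ S, p.Prime) (Y : ℕ) (g : Finset ℕ → ℝ)
    (h : ∀ s ⊆ S, g s ≠ 0 → pd s ≤ Y ∧ |g s| ≤ 1) : |∑ s ∈ S.powerset, g s| ≤ Y := by
  rw [← sum_filter_of_ne (p := fun s => pd s ≤ Y) fun s hs h0 => (h s (mem_powerset.1 hs) h0).1]
  refine (abs_sum_le_sum_abs _ _).trans ((sum_le_card_nsmul _ _ 1 fun s hs => ?_).trans ?_)
  · by_cases h0 : g s = 0
    · rw [h0, abs_zero]; exact zero_le_one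
    · exact (h s (mem_powerset.1 (mem_filter.1 hs).1) h0).2
  · have h1 : (S.powerset.filter fun s => pd s ≤ Y).card ≤ (Icc 1 Y).card := by
      refine card_le_card_of_injOn pd (fun s hs => ?_) fun s hs t ht e => ?_
      · obtain ⟨a, b⟩ := mem_filter.1 (mem_coe.1 hs)
        exact mem_coe.2 (mem_Icc.2 ⟨pd_pos hS (mem_powerset.1 a), b⟩)
      · exact pd_inj hS (mem_powerset.1 (mem_filter.1 (mem_coe.1 hs)).1)
          (mem_powerset.1 (mem_filter.1 (mem_coe.1 ht)).1) e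
    rw [Nat.card_Icc, Nat.add_sub_cancel] at h1
    rw [nsmul_eq_mul, mul_one]
    exact_mod_cast h1

/-- the divisor sum of sieve weights -/
noncomputable def wt (S : Finset ℕ) (l : Finset ℕ → ℝ) (n : ℕ) : ℝ :=
  ∑ s ∈ S.powerset, if pd s ∣ n then l s else 0

lemma wt_eq (hS : ∀ p ∈ S, p.Prime) (l : Finset ℕ → ℝ) (n : ℕ) :
    ∑ s ∈ (S.filter fun p => p ∣ n).powerset, l s = wt S l n := by
  rw [wt, ← sum_filter]
  refine sum_congr ?_ fun _ _ => rfl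
  ext s
  simp only [mem_powerset, mem_filter]
  constructor
  · intro h
    have a : s ⊆ S := h.trans (filter_subset _ _)
    exact ⟨a, (pd_dvd hS a).2 fun p hp => (mem_filter.1 (h hp)).2⟩
  · rintro ⟨a, b⟩ p hp
    exact mem_filter.2 ⟨a hp, (pd_dvd hS a).1 b p hp⟩

lemma cnt {a x : ℕ} (hax : a ≤ x) {q : ℕ} (hq : 0 < q) (ρ : ℕ) :
    |(((Ioc a x).filter (fun n => n ≡ ρ [MOD q])).card : ℝ) - ((x : ℝ) - a) / q| ≤ 1 := by
  have h := Nat.Ioc_filter_modEq_card a x hq ρ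
  have hq' : (0 : ℚ) < q := by exact_mod_cast hq
  have hle : ⌊((a : ℚ) - ρ) / q⌋ ≤ ⌊((x : ℚ) - ρ) / q⌋ :=
    Int.floor_le_floor (div_le_div_of_nonneg_right (by
      have : (a : ℚ) ≤ x := by exact_mod_cast hax
      linarith) hq'.le)
  rw [max_eq_left (by omega)] at h
  have h1 := Int.floor_le (((x : ℚ) - ρ) / q)
  have h2 := Int.lt_floor_add_one (((x : ℚ) - ρ) / q)
  have h3 := Int.floor_le (((a : ℚ) - ρ) / q)
  have h4 := Int.lt_floor_add_one (((a : ℚ) - ρ) / q)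
  have h5 : ((((Ioc a x).filter (fun n => n ≡ ρ [MOD q])).card : ℤ) : ℚ) =
      (⌊((x : ℚ) - ρ) / q⌋ : ℚ) - ⌊((a : ℚ) - ρ) / q⌋ := by rw [h]; push_cast; rfl
  have h6 : ((x : ℚ) - a) / q = ((x : ℚ) - ρ) / q - ((a : ℚ) - ρ) / q := by ring
  have h7 : |((((Ioc a x).filter (fun n => n ≡ ρ [MOD q])).card : ℤ) : ℚ) - ((x : ℚ) - a) / q| ≤ 1 := by
    rw [h5, h6, abs_le]; constructor <;> linarith
  have h8 := (Rat.cast_le (K := ℝ)).2 h7
  push_cast at h8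
  exact h8

/-- the sum of a sieve divisor sum over a residue class -/
lemma wt_class (hS : ∀ p ∈ S, p.Prime) {q : ℕ} (hq : 0 < q) (hSq : ∀ p ∈ S, ¬ p ∣ q)
    (l : Finset ℕ → ℝ) (Y : ℕ) (h1 : ∀ s, |l s| ≤ 1) (h2 : ∀ s, l s ≠ 0 → pd s ≤ Y)
    {a x : ℕ} (hax : a ≤ x) (ρ : ℕ) :
    |∑ n ∈ (Ioc a x).filter (fun n => n ≡ ρ [MOD q]), wt S l n -
      ((x : ℝ) - a) / q * ∑ s ∈ S.powerset, l s / pd s| ≤ Y := by
  simp only [wt]
  rw [sum_comm, mul_sum, ← sum_sub_distrib]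
  refine abs_sum_le hS Y _ fun s hs h0 => ?_
  have hco : q.Coprime (pd s) := Nat.Coprime.prod_right fun p hp =>
    ((Nat.Prime.coprime_iff_not_dvd (hS p (hs hp))).2 (hSq p (hs hp))).symm
  obtain ⟨k, hk1, hk2⟩ := Nat.chineseRemainder hco ρ 0
  have hp0 : (0 : ℝ) < pd s := by exact_mod_cast pd_pos hS hs
  have e : ∑ n ∈ (Ioc a x).filter (fun n => n ≡ ρ [MOD q]), (if pd s ∣ n then l s else 0) -
      ((x : ℝ) - a) / q * (l s / pd s) =
      l s * ((((Ioc a x).filter (fun n => n ≡ k [MOD q * pd s])).card : ℝ) -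
        ((x : ℝ) - a) / (q * pd s : ℕ)) := by
    rw [← sum_filter, filter_filter, sum_const, nsmul_eq_mul]
    have : (Ioc a x).filter (fun n => n ≡ ρ [MOD q] ∧ pd s ∣ n) =
        (Ioc a x).filter (fun n => n ≡ k [MOD q * pd s]) := filter_congr fun n _ => by
      rw [← Nat.modEq_and_modEq_iff_modEq_mul hco, ← Nat.modEq_zero_iff_dvd]
      exact ⟨fun h => ⟨h.1.trans hk1.symm, h.2.trans hk2.symm⟩,
        fun h => ⟨h.1.trans hk1, h.2.trans hk2⟩⟩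
    rw [this]
    push_cast
    field_simp
  rw [e] at h0 ⊢
  refine ⟨h2 s (left_ne_zero_of_mul h0), ?_⟩
  rw [abs_mul]
  exact mul_le_one₀ (h1 s) (abs_nonneg _) (cnt hax (Nat.mul_pos hq (pd_pos hS hs)) k)

/-- a sieve divisor sum is a type I sum -/
lemma wt_typeI (hS : ∀ p ∈ S, p.Prime) (l : Finset ℕ → ℝ) (Y : ℕ) (h1 : ∀ s, |l s| ≤ 1)
    (h2 : ∀ s, l s ≠ 0 → pd s ≤ Y) : ∃ f : ℕ → ℝ, (∀ d, |f d| ≤ 1) ∧ (∀ d, Y < d → f d = 0) ∧
    ∀ (v : ℕ → ℂ) (a b : ℕ), ∑ n ∈ Ioc a b, ((wt S l n : ℝ) : ℂ) * v n =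
      ∑ d ∈ Ioc 0 b, ((f d : ℝ) : ℂ) *
        ∑ m ∈ (Ioc 0 b).filter (fun m => a < d * m ∧ d * m ≤ b), v (d * m) := by
  let F : ArithmeticFunction ℝ := ⟨fun d => ∑ s ∈ S.powerset.filter (fun s => pd s = d), l s,
    sum_eq_zero fun s hs => by
      obtain ⟨a, b⟩ := mem_filter.1 hs
      exact absurd b (pd_pos hS (mem_powerset.1 a)).ne'⟩
  have hF : ∀ d, F d = ∑ s ∈ S.powerset.filter (fun s => pd s = d), l s := fun _ => rfl
  refine ⟨F, fun d => ?_, fun d hd => ?_, fun v a b => ?_⟩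
  · rw [hF]
    have hc : (S.powerset.filter (fun s => pd s = d)).card ≤ 1 := card_le_one.2 fun s hs t ht =>
      pd_inj hS (mem_powerset.1 (mem_filter.1 hs).1) (mem_powerset.1 (mem_filter.1 ht).1)
        ((mem_filter.1 hs).2.trans (mem_filter.1 ht).2.symm)
    refine (abs_sum_le_sum_abs _ _).trans ((sum_le_card_nsmul _ _ 1 fun s _ => h1 s).trans ?_)
    rw [nsmul_eq_mul, mul_one]
    exact_mod_cast hc
  · rw [hF]
    refine sum_eq_zero fun s hs => ?_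
    by_contra h0
    have := h2 s h0
    have := (mem_filter.1 hs).2
    omega
  · have h := sum_conv F zeR v a b
    have e1 : ∀ n ∈ Ioc a b, (((F * zeR) n : ℝ) : ℂ) * v n = ((wt S l n : ℝ) : ℂ) * v n := by
      intro n hn
      have hn0 : n ≠ 0 := by have := (mem_Ioc.1 hn).1; omega
      congr 2
      rw [zeR, ArithmeticFunction.coe_mul_zeta_apply, wt]
      simp only [hF, sum_filter]
      rw [sum_comm]
      refine sum_congr rfl fun s _ => ?_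
      rw [sum_ite_eq]
      simp [hn0]
    rw [sum_congr rfl e1] at h
    rw [h]
    refine sum_congr rfl fun d _ => ?_
    congr 1
    refine sum_congr rfl fun m hm => ?_
    rw [zeR_apply (mem_Ioc.1 (mem_filter.1 hm).1).1.ne']
    simp

end gen

/-- the weights for a set of primes `≤ z` -/
lemma weights : ∃ C : ℝ, 1 ≤ C ∧ ∀ (z m : ℕ) (S : Finset ℕ), 1 ≤ z → (∀ p ∈ S, p.Prime ∧ p ≤ z) →
    ∃ lp lm : Finset ℕ → ℝ,
      (∀ n, wt S lm n ≤ (if ∀ p ∈ S, ¬ p ∣ n then (1 : ℝ) else 0) ∧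
        (if ∀ p ∈ S, ¬ p ∣ n then (1 : ℝ) else 0) ≤ wt S lp n) ∧
      (∀ s, |lp s| ≤ 1) ∧ (∀ s, |lm s| ≤ 1) ∧ (∀ s, lp s ≠ 0 → pd s ≤ z ^ (6 * (m + 1))) ∧
      (∀ s, lm s ≠ 0 → pd s ≤ z ^ (6 * (m + 1))) ∧
      ∑ s ∈ S.powerset, lp s / pd s - ∑ s ∈ S.powerset, lm s / pd s ≤
        C / 2 ^ m * ∏ p ∈ S, (1 - 1 / (p : ℝ)) ∧
      ∑ s ∈ S.powerset, lm s / pd s ≤ ∏ p ∈ S, (1 - 1 / (p : ℝ)) ∧
      ∏ p ∈ S, (1 - 1 / (p : ℝ)) ≤ ∑ s ∈ S.powerset, lp s / pd s := by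
  obtain ⟨C, hC, H⟩ := R26.BH.bh'
  refine ⟨C, hC, fun z m S hz hS => ?_⟩
  obtain ⟨lp, lm, a1, a2, a3, a4, a5, a6⟩ := H z m S hz hS
  refine ⟨lp, lm, fun n => ?_, fun s => (a2 s).1, fun s => (a2 s).2,
    fun s h => (a3 s (Or.inl h)).2, fun s h => (a3 s (Or.inr h)).2, ?_, a5, a6⟩
  · have h := a1 (S.filter fun p => p ∣ n) (filter_subset _ _)
    rw [wt_eq (fun p hp => (hS p hp).1), wt_eq (fun p hp => (hS p hp).1)] at h
    simpa only [filter_eq_empty_iff] using h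
  · simpa only [sub_div, sum_sub_distrib] using a4

lemma nu_eq (z n : ℕ) :
    nu z n = (V z)⁻¹ * if ∀ p ∈ Nat.primesLE z, ¬ p ∣ n then (1 : ℝ) else 0 := by
  unfold nu Rough; split_ifs <;> simp

/-- the model in residue classes to small moduli -/
lemma nu_class : ∃ C : ℝ, 1 ≤ C ∧ ∀ (z m q ρ a x : ℕ), 1 ≤ q → q ≤ z → a ≤ x →
    |∑ n ∈ (Ioc a x).filter (fun n => n ≡ ρ [MOD q]), nu z n -
      (if ρ.Coprime q then ((x : ℝ) - a) / q.totient else 0)| ≤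
      ((x : ℝ) - a) * (C / 2 ^ m) + (V z)⁻¹ * (z ^ (6 * (m + 1)) : ℕ) := by
  obtain ⟨C, hC, H⟩ := weights
  refine ⟨C, hC, fun z m q ρ a x hq hqz hax => ?_⟩
  have hxa : (0 : ℝ) ≤ (x : ℝ) - a := sub_nonneg.2 (by exact_mod_cast hax)
  have hVi : 0 < (V z)⁻¹ := inv_pos.2 (V_pos z)
  split_ifs with hco
  swap
  · rw [sum_eq_zero, sub_zero, abs_zero]
    · positivity
    intro n hn
    obtain ⟨p, hp, h1, h2⟩ := Nat.Prime.not_coprime_iff_dvd.1 hco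
    refine if_neg fun hr => hr p (Nat.mem_primesLE.2 ⟨(Nat.le_of_dvd hq h2).trans hqz, hp⟩) ?_
    exact (((mem_filter.1 hn).2.of_dvd h2).dvd_iff dvd_rfl).2 h1
  obtain ⟨S, hS⟩ : ∃ S, S = (Nat.primesLE z).filter (fun p => ¬ p ∣ q) := ⟨_, rfl⟩
  have hS1 : ∀ p ∈ S, p.Prime ∧ p ≤ z := fun p hp => by
    rw [hS] at hp
    exact (Nat.mem_primesLE.1 (mem_filter.1 hp).1).symm
  have hS2 : ∀ p ∈ S, ¬ p ∣ q := fun p hp => by
    rw [hS] at hp
    exact (mem_filter.1 hp).2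
  obtain ⟨lp, lm, a1, a2, a3, a4, a5, a6, a7, a8⟩ := H z m S (hq.trans hqz) hS1
  have b1 := wt_class (fun p hp => (hS1 p hp).1) hq hS2 lp _ a2 a4 hax ρ
  have b2 := wt_class (fun p hp => (hS1 p hp).1) hq hS2 lm _ a3 a5 hax ρ
  have e1 : ∀ n ∈ (Ioc a x).filter (fun n => n ≡ ρ [MOD q]),
      nu z n = (V z)⁻¹ * if ∀ p ∈ S, ¬ p ∣ n then (1 : ℝ) else 0 := fun n hn => by
    rw [nu_eq]
    congr 1
    refine if_congr ⟨fun h p hp => h p (by rw [hS] at hp; exact (mem_filter.1 hp).1),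
      fun h p hp hd => ?_⟩ rfl rfl
    by_cases hpq : p ∣ q
    · have h1 : p ∣ ρ := (((mem_filter.1 hn).2.of_dvd hpq).dvd_iff dvd_rfl).1 hd
      exact Nat.Prime.not_coprime_iff_dvd.2 ⟨p, Nat.prime_of_mem_primesLE hp, h1, hpq⟩ hco
    · exact h p (by rw [hS]; exact mem_filter.2 ⟨hp, hpq⟩) hd
  rw [sum_congr rfl e1, ← mul_sum]
  have c1 := sum_le_sum fun n (_ : n ∈ (Ioc a x).filter (fun n => n ≡ ρ [MOD q])) => (a1 n).1
  have c2 := sum_le_sum fun n (_ : n ∈ (Ioc a x).filter (fun n => n ≡ ρ [MOD q])) => (a1 n).2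
  have hq0 : (0 : ℝ) < q := by exact_mod_cast hq
  have hφ1 : (1 : ℝ) ≤ q.totient := by exact_mod_cast Nat.totient_pos.2 hq
  have hV : V z = (∏ p ∈ S, (1 - 1 / (p : ℝ))) * (q.totient / q) := by
    have h1 : (q.totient : ℝ) = q * ∏ p ∈ q.primeFactors, (1 - 1 / (p : ℝ)) := by
      have := congrArg (Rat.cast : ℚ → ℝ) (Nat.totient_eq_mul_prod_factors q)
      push_cast at this
      simpa only [one_div] using this
    have h2 : (Nat.primesLE z).filter (fun p => p ∣ q) = q.primeFactors := by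
      ext p
      simp only [mem_filter, Nat.mem_primesLE, Nat.mem_primeFactors]
      exact ⟨fun h => ⟨h.1.2, h.2, by omega⟩,
        fun h => ⟨⟨(Nat.le_of_dvd hq h.2.1).trans hqz, h.1⟩, h.2.1⟩⟩
    rw [V, ← prod_filter_mul_prod_filter_not (Nat.primesLE z) (fun p => p ∣ q), h2, ← hS, h1]
    field_simp
  generalize ∑ n ∈ (Ioc a x).filter (fun n => n ≡ ρ [MOD q]),
    (if ∀ p ∈ S, ¬ p ∣ n then (1 : ℝ) else 0) = T at *
  generalize ∑ n ∈ (Ioc a x).filter (fun n => n ≡ ρ [MOD q]), wt S lp n = Tp at *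
  generalize ∑ n ∈ (Ioc a x).filter (fun n => n ≡ ρ [MOD q]), wt S lm n = Tm at *
  generalize ∑ s ∈ S.powerset, lp s / pd s = Wp at *
  generalize ∑ s ∈ S.powerset, lm s / pd s = Wm at *
  generalize ∏ p ∈ S, (1 - 1 / (p : ℝ)) = W at *
  generalize ((z ^ (6 * (m + 1)) : ℕ) : ℝ) = Y at *
  have hc0 : 0 ≤ C / 2 ^ m := by positivity
  generalize C / 2 ^ m = c at *
  generalize (x : ℝ) - a = y at *
  have hW : 0 < W := by
    have := V_pos z
    rw [hV] at this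
    rcases lt_or_ge 0 W with h' | h'
    · exact h'
    · exact absurd this (not_lt.2 (mul_nonpos_of_nonpos_of_nonneg h' (by positivity)))
  have hy : 0 ≤ y / q := by positivity
  have k1 : |T - y / q * W| ≤ y / q * (c * W) + Y := by
    rw [abs_le] at b1 b2 ⊢
    have m1 := mul_le_mul_of_nonneg_left (show Wp ≤ W + c * W by linarith) hy
    have m2 := mul_le_mul_of_nonneg_left (show W - c * W ≤ Wm by linarith) hy
    constructor <;> nlinarith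
  have e2 : (V z)⁻¹ * T - y / q.totient = (V z)⁻¹ * (T - y / q * W) := by
    rw [hV]; field_simp
  have e3 : (V z)⁻¹ * (y / q * (c * W)) = y * c / q.totient := by
    rw [hV]; field_simp
  rw [e2, abs_mul, abs_of_pos hVi]
  refine (mul_le_mul_of_nonneg_left k1 hVi.le).trans ?_
  rw [mul_add, e3]
  have : y * c / q.totient ≤ y * c := div_le_self (by positivity) hφ1
  linarith

/-- the model on the minor arcs -/
lemma nu_minor : ∃ (C : ℝ) (K : ℕ), 1 ≤ C ∧ ∀ (z m a b : ℕ) (α X D : ℝ), 1 ≤ z → a ≤ b → 2 ≤ D →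
    0 < X → (b : ℝ) ≤ X → Real.log b ≤ D → (z ^ (6 * (m + 1)) : ℕ) * D ^ K ≤ X →
    ¬ Appr α (D ^ K) (D ^ K / X) →
    ‖∑ n ∈ Ioc a b, ((nu z n : ℝ) : ℂ) * e (α * n)‖ ≤
      (V z)⁻¹ * (X / D + X * (C / 2 ^ m) + 2 * (z ^ (6 * (m + 1)) : ℕ)) := by
  obtain ⟨C, hC, H⟩ := weights
  obtain ⟨K, hK⟩ := exists_svInv
  refine ⟨C, K, hC, fun z m a b α X D hz hab hD hX hb hL hY hα => ?_⟩
  have hS : ∀ p ∈ Nat.primesLE z, p.Prime := fun p hp => Nat.prime_of_mem_primesLE hp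
  obtain ⟨lp, lm, a1, a2, a3, a4, a5, a6, -, -⟩ := H z m (Nat.primesLE z) hz
    fun p hp => (Nat.mem_primesLE.1 hp).symm
  obtain ⟨f, f1, f2, f3⟩ := wt_typeI hS lp _ a2 a4
  have h1 : ‖∑ n ∈ Ioc a b, ((wt (Nat.primesLE z) lp n : ℝ) : ℂ) * e (α * n)‖ ≤ X / D := by
    by_contra hc
    rw [not_le, div_lt_iff₀ (by linarith), mul_comm, f3 (fun n => e (α * n))] at hc
    exact hα (hK α a b _ f X D hD hX hb hL f1 f2 hY hc.le)
  have hq : ∀ p ∈ Nat.primesLE z, ¬ p ∣ 1 := fun p hp => (hS p hp).not_dvd_one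
  have b1 := wt_class hS one_pos hq lp _ a2 a4 hab 0
  have b2 := wt_class hS one_pos hq lm _ a3 a5 hab 0
  simp only [Nat.modEq_one, filter_true, Nat.cast_one, div_one] at b1 b2
  have hVi : 0 < (V z)⁻¹ := inv_pos.2 (V_pos z)
  have e1 : ∑ n ∈ Ioc a b, ((nu z n : ℝ) : ℂ) * e (α * n) = (((V z)⁻¹ : ℝ) : ℂ) *
      (∑ n ∈ Ioc a b, ((wt (Nat.primesLE z) lp n : ℝ) : ℂ) * e (α * n) -
      ∑ n ∈ Ioc a b, ((wt (Nat.primesLE z) lp n -
        (if ∀ p ∈ Nat.primesLE z, ¬ p ∣ n then (1 : ℝ) else 0) : ℝ) : ℂ) * e (α * n)) := by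
    rw [← sum_sub_distrib, mul_sum]
    refine sum_congr rfl fun n _ => ?_
    rw [nu_eq]; push_cast; ring
  have h2 : ‖∑ n ∈ Ioc a b, ((wt (Nat.primesLE z) lp n -
        (if ∀ p ∈ Nat.primesLE z, ¬ p ∣ n then (1 : ℝ) else 0) : ℝ) : ℂ) * e (α * n)‖ ≤
      ∑ n ∈ Ioc a b, wt (Nat.primesLE z) lp n - ∑ n ∈ Ioc a b, wt (Nat.primesLE z) lm n := by
    rw [← sum_sub_distrib]
    refine (norm_sum_le _ _).trans (sum_le_sum fun n _ => ?_)
    rw [norm_mul, norm_e, mul_one, Complex.norm_real, Real.norm_eq_abs,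
      abs_of_nonneg (sub_nonneg.2 (a1 n).2)]
    linarith [(a1 n).1]
  rw [e1, norm_mul, Complex.norm_real, Real.norm_eq_abs, abs_of_pos hVi]
  refine mul_le_mul_of_nonneg_left ((norm_sub_le _ _).trans ?_) hVi.le
  have hc0 : 0 ≤ C / 2 ^ m := by positivity
  have hba : (0 : ℝ) ≤ (b : ℝ) - a := sub_nonneg.2 (by exact_mod_cast hab)
  have hba' : (b : ℝ) - a ≤ X := by linarith [(Nat.cast_nonneg a : (0 : ℝ) ≤ a)]
  have a7 : C / 2 ^ m * ∏ p ∈ Nat.primesLE z, (1 - 1 / (p : ℝ)) ≤ C / 2 ^ m :=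
    mul_le_of_le_one_right hc0 (V_le_one z)
  have m1 := mul_le_mul_of_nonneg_left (a6.trans a7) hba
  have m2 := mul_le_mul_of_nonneg_right hba' hc0
  rw [abs_le] at b1 b2
  rw [mul_sub] at m1
  linarith [b1.2, b2.1]

/-- Mertens: the normalisation is small -/
lemma V_inv_le : ∃ C : ℝ, 0 < C ∧ ∀ z : ℕ, 2 ≤ z → (V z)⁻¹ ≤ C * Real.log z ^ 2 := by
  obtain ⟨C, hC, h, -⟩ := R5.mertens
  have hl2 : 0 < Real.log 2 := Real.log_pos (by norm_num)
  refine ⟨Real.exp (2 * (1 / 2 + C / Real.log 2 - Real.log (Real.log 2))), Real.exp_pos _,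
    fun z hz => ?_⟩
  have hz' : (2 : ℝ) ≤ z := by exact_mod_cast hz
  have hl : 0 < Real.log z := Real.log_pos (by linarith)
  have h1 := (abs_le.1 (h 2 z le_rfl hz')).2
  have h2 : ∑ p ∈ Nat.primesLE z, 1 / (p : ℝ) ≤ 1 / 2 + ∑ p ∈ pr 2 z, 1 / (p : ℝ) := by
    have : Nat.primesLE z ⊆ insert 2 (pr 2 z) := fun p hp => by
      obtain ⟨a, b⟩ := Nat.mem_primesLE.1 hp
      rcases b.two_le.eq_or_lt with h | h
      · exact h ▸ mem_insert_self _ _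
      · refine mem_insert_of_mem ?_
        rw [pr, mem_filter, mem_Icc, Nat.floor_natCast]
        exact ⟨⟨b.pos, a⟩, b, by exact_mod_cast h⟩
    refine (sum_le_sum_of_subset_of_nonneg this fun _ _ _ => by positivity).trans ?_
    rw [sum_insert (by rw [pr, mem_filter]; simp)]
    simp
  have h3 : (V z)⁻¹ ≤ Real.exp (2 * ∑ p ∈ Nat.primesLE z, 1 / (p : ℝ)) := by
    rw [V, ← prod_inv_distrib, mul_sum, Real.exp_sum]
    refine prod_le_prod (fun p hp => ?_) fun p hp => ?_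
    · exact inv_nonneg.2 (sub_nonneg.2 (R26.BH.w01 p).2)
    · have h4 : (2 : ℝ) ≤ p := by exact_mod_cast (Nat.prime_of_mem_primesLE hp).two_le
      have h5 : 1 / (p : ℝ) ≤ 1 / 2 := one_div_le_one_div_of_le (by norm_num) h4
      have h6 : (0 : ℝ) ≤ 1 / (p : ℝ) := by positivity
      generalize 1 / (p : ℝ) = t at *
      refine le_trans ?_ (Real.add_one_le_exp _)
      rw [inv_le_iff_one_le_mul₀ (by linarith)]
      nlinarith
  refine h3.trans ?_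
  rw [← Real.exp_log (pow_pos hl 2), ← Real.exp_add, Real.log_pow]
  refine Real.exp_le_exp.2 ?_
  push_cast
  linarith

end Crest.Agent.T15.Fb
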