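import Crest.Agent.SW.Final
import Crest.Agent.T15.FbB_98

/-!
# Row 15, block Q, (K4): the primes in residue classes and the Fourier bound (helper98)
-/

set_option autoImplicit false
set_option maxHeartbeats 400000

open Finset Filter

namespace Crest.Agent.T15.Fb

open Crest.Agent.N41.Exp

lemma ev_log (c : ℝ) : ∀ᶠ N : ℕ in atTop, c ≤ Real.log N :=
  (Real.tendsto_log_atTop.comp tendsto_natCast_atTop_atTop).eventually_ge_atTop c

lemma ev_pow (c : ℝ) (k : ℕ) : ∀ᶠ x : ℝ in atTop, c * Real.log x ^ k ≤ x := by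
  have h := (Real.tendsto_pow_log_div_mul_add_atTop 1 0 k one_ne_zero).eventually_le_const
    (u := 1 / (|c| + 1)) (by positivity)
  filter_upwards [h, eventually_ge_atTop (1 : ℝ)] with x hx hx1
  have hl : 0 ≤ Real.log x ^ k := pow_nonneg (Real.log_nonneg hx1) k
  rw [one_mul, add_zero, div_le_div_iff₀ (by linarith) (by positivity)] at hx
  nlinarith [le_abs_self c]

lemma ev_sqrt (c : ℝ) (k : ℕ) : ∀ᶠ N : ℕ in atTop, c * Real.log N ^ k ≤ √(N : ℝ) := by
  filter_upwards [tendsto_natCast_atTop_atTop.eventually (ev_pow (c ^ 2) (2 * k))] with N hN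
  refine Real.le_sqrt_of_sq_le ?_
  rw [mul_pow, ← pow_mul, mul_comm k]
  exact hN

lemma ev_loglog (c : ℝ) : ∀ᶠ N : ℕ in atTop, c * Real.log (Real.log N) ^ 2 ≤ Real.log N :=
  (Real.tendsto_log_atTop.comp tendsto_natCast_atTop_atTop).eventually (ev_pow c 2)

lemma level (B' J : ℕ) : ∀ᶠ N : ℕ in atTop, ∃ m : ℕ, Real.log N ^ J ≤ 2 ^ m ∧
    ∀ z : ℕ, (z : ℝ) ≤ Real.log N ^ B' → ((z ^ (6 * (m + 1)) : ℕ) : ℝ) ≤ √(N : ℝ) := by
  filter_upwards [ev_loglog (12 * B' * (3 * J + 1)), ev_log 3, eventually_ge_atTop 1]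
    with N h1 h2 hN
  have hN0 : (0 : ℝ) < N := by exact_mod_cast hN
  obtain ⟨L, hL⟩ : ∃ L, L = Real.log N := ⟨_, rfl⟩
  rw [← hL] at h1 h2 ⊢
  have hL0 : 0 < L := by linarith
  obtain ⟨u, hu⟩ : ∃ u, u = Real.log L := ⟨_, rfl⟩
  have hu1 : 1 ≤ u := by
    rw [hu, Real.le_log_iff_exp_le hL0]
    linarith [Real.exp_one_lt_d9]
  rw [← hu] at h1
  obtain ⟨t, ht⟩ : ∃ t : ℕ, t = ⌈2 * u⌉₊ := ⟨_, rfl⟩
  have ht1 : 2 * u ≤ t := ht ▸ Nat.le_ceil _
  have ht2 : (t : ℝ) ≤ 3 * u := by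
    have : (t : ℝ) < 2 * u + 1 := ht ▸ Nat.ceil_lt_add_one (by linarith)
    linarith
  have hLe : L = Real.exp u := by rw [hu, Real.exp_log hL0]
  refine ⟨t * J, ?_, fun z hz => ?_⟩
  · rw [pow_mul]
    refine pow_le_pow_left₀ hL0.le ?_ J
    rw [hLe, ← Real.exp_log (show (0 : ℝ) < 2 by norm_num), ← Real.exp_nat_mul]
    refine Real.exp_le_exp.2 ?_
    nlinarith [Real.log_two_gt_d9]
  · have e1 : √(N : ℝ) = Real.exp (L / 2) := by
      rw [Real.exp_half, hL, Real.exp_log hN0]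
    push_cast
    refine (pow_le_pow_left₀ (Nat.cast_nonneg z) hz _).trans ?_
    rw [e1, ← pow_mul]
    conv_lhs => rw [hLe]
    rw [← Real.exp_nat_mul]
    refine Real.exp_le_exp.2 ?_
    push_cast
    have hJ : (0 : ℝ) ≤ J := Nat.cast_nonneg J
    have hB : (0 : ℝ) ≤ B' := Nat.cast_nonneg B'
    have h3 : (t : ℝ) * J + 1 ≤ (3 * J + 1) * u := by nlinarith
    have h4 := mul_le_mul_of_nonneg_left h3 (show 0 ≤ 6 * (B' : ℝ) * u by positivity)
    nlinarith

lemma th_le_vm (n : ℕ) : th n ≤ ArithmeticFunction.vonMangoldt n := by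
  unfold th; split_ifs with h
  · rw [ArithmeticFunction.vonMangoldt_apply_prime h]
  · exact ArithmeticFunction.vonMangoldt_nonneg

lemma vm_sub_th {I : Finset ℕ} {N : ℕ} (hN : 1 ≤ N) (hI : I ⊆ Ioc 0 N) :
    ∑ n ∈ I, (ArithmeticFunction.vonMangoldt n - th n) ≤ 2 * √(N : ℝ) * Real.log N := by
  refine (sum_le_sum_of_subset_of_nonneg hI fun n _ _ => sub_nonneg.2 (th_le_vm n)).trans ?_
  have h := Chebyshev.psi_sub_theta_le (x := N) (by exact_mod_cast hN)
  rw [Chebyshev.psi, Chebyshev.theta, Nat.floor_natCast, sum_filter] at h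
  rw [sum_sub_distrib]
  exact h

lemma sqrt_small {N : ℕ} {c L : ℝ} {k : ℕ} (hL : 0 < L) (h : c * L ^ k ≤ √(N : ℝ)) :
    c * √(N : ℝ) ≤ N / L ^ k := by
  rw [le_div_iff₀ (pow_pos hL k)]
  have := mul_le_mul_of_nonneg_left h (Real.sqrt_nonneg (N : ℝ))
  rw [Real.mul_self_sqrt (Nat.cast_nonneg N)] at this
  linarith

/-- Siegel-Walfisz, uniformly in the endpoint -/
lemma th_class (A K : ℕ) : ∀ᶠ N : ℕ in atTop, ∀ q ρ x : ℕ, 1 ≤ q → (q : ℝ) ≤ Real.log N ^ K →
    x ≤ N → |∑ n ∈ (Ioc 0 x).filter (fun n => n ≡ ρ [MOD q]), th n -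
      (if ρ.Coprime q then (x : ℝ) / q.totient else 0)| ≤ N / Real.log N ^ A := by
  obtain ⟨C, hC⟩ := SW.psiAP_holds ((A + 1 : ℕ) : ℝ) ((2 * K : ℕ) : ℝ)
  filter_upwards [ev_log 4, ev_log (2 ^ (A + 2) * |C|), ev_sqrt 4 (A + 1), eventually_ge_atTop 1]
    with N h1 h2 h3 hN q ρ x hq hqL hx
  have hN0 : (0 : ℝ) < N := by exact_mod_cast hN
  have hN1 : (1 : ℝ) ≤ N := by exact_mod_cast hN
  have hs1 : 1 ≤ √(N : ℝ) := Real.one_le_sqrt.2 hN1
  have hxN : (x : ℝ) ≤ N := by exact_mod_cast hx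
  have hsub : (Ioc 0 x).filter (fun n => n ≡ ρ [MOD q]) ⊆ Ioc 0 N :=
    (filter_subset _ _).trans (Ioc_subset_Ioc_right hx)
  have hd := vm_sub_th hN hsub
  have hth : ∀ n ∈ (Ioc 0 x).filter (fun n => n ≡ ρ [MOD q]), th n ≤ Real.log N :=
    fun n hn => th_le (mem_Ioc.1 (hsub hn)).2
  obtain ⟨L, hL⟩ : ∃ L, L = Real.log N := ⟨_, rfl⟩
  rw [← hL] at h1 h2 h3 hqL hd hth ⊢
  have hL0 : 0 < L := by linarith
  have h4 : 4 * L * √(N : ℝ) ≤ N / L ^ A := sqrt_small hL0 (by rw [pow_succ] at h3; linarith)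
  have h5 : L ≤ L * √(N : ℝ) := le_mul_of_one_le_right hL0.le hs1
  have h6 : √(N : ℝ) ≤ L * √(N : ℝ) := le_mul_of_one_le_left (by linarith) (by linarith)
  have hT0 : 0 ≤ ∑ n ∈ (Ioc 0 x).filter (fun n => n ≡ ρ [MOD q]), th n :=
    sum_nonneg fun n _ => th_nonneg n
  split_ifs with hco
  swap
  · obtain ⟨p, hp, d1, d2⟩ := Nat.Prime.not_coprime_iff_dvd.1 hco
    rw [sub_zero, abs_of_nonneg hT0, ← sum_filter_of_ne (p := fun n => n = p) (fun n hn h0 =>
      ((Nat.prime_dvd_prime_iff_eq hp (prime_of_th_ne h0)).1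
        ((((mem_filter.1 hn).2.of_dvd d2).dvd_iff dvd_rfl).2 d1)).symm)]
    refine (sum_le_card_nsmul _ _ L fun n hn => hth n (mem_filter.1 hn).1).trans ?_
    have hc : (((Ioc 0 x).filter (fun n => n ≡ ρ [MOD q])).filter (fun n => n = p)).card ≤ 1 :=
      card_le_one.2 fun s hs t ht => (mem_filter.1 hs).2.trans (mem_filter.1 ht).2.symm
    have hc' : ((((Ioc 0 x).filter (fun n => n ≡ ρ [MOD q])).filter (fun n => n = p)).card : ℝ) ≤ 1 := by
      exact_mod_cast hc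
    rw [nsmul_eq_mul]
    nlinarith
  have hφ1 : (1 : ℝ) ≤ q.totient := by exact_mod_cast Nat.totient_pos.2 hq
  have hx0 : (0 : ℝ) ≤ x := Nat.cast_nonneg x
  rcases le_or_gt (x : ℝ) √(N : ℝ) with hxs | hxs
  · have b1 : ∑ n ∈ (Ioc 0 x).filter (fun n => n ≡ ρ [MOD q]), th n ≤ √(N : ℝ) * L := by
      refine (sum_le_card_nsmul _ _ L hth).trans ?_
      have hc := card_le_card (filter_subset (fun n => n ≡ ρ [MOD q]) (Ioc 0 x))
      rw [Nat.card_Ioc, Nat.sub_zero] at hc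
      rw [nsmul_eq_mul]
      exact mul_le_mul_of_nonneg_right (le_trans (by exact_mod_cast hc) hxs) hL0.le
    have b2 : (x : ℝ) / q.totient ≤ x := div_le_self hx0 hφ1
    have b3 : 0 ≤ (x : ℝ) / q.totient := by positivity
    rw [abs_le]
    constructor <;> nlinarith
  · have hl : L / 2 ≤ Real.log x := by
      rw [hL, ← Real.log_sqrt hN0.le]
      exact Real.log_le_log (by linarith) hxs.le
    have hx2 : (2 : ℝ) ≤ x := by
      have := Real.log_le_sub_one_of_pos (show (0 : ℝ) < x by linarith)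
      linarith
    have key := hC x hx2 q hq (by
      rw [Real.rpow_natCast, pow_mul]
      refine hqL.trans (pow_le_pow_left₀ hL0.le ?_ K)
      nlinarith) ρ hco
    rw [Real.rpow_natCast, Nat.floor_natCast,
      show Icc 1 x = Ioc 0 x from by ext n; simp only [mem_Icc, mem_Ioc]; omega] at key
    have b1 : C * x / Real.log x ^ (A + 1) ≤ N / L ^ A / 2 := by
      have hp : 0 < (L / 2) ^ (A + 1) := by positivity
      calc C * x / Real.log x ^ (A + 1) ≤ |C| * N / (L / 2) ^ (A + 1) := by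
            refine div_le_div₀ (by positivity) ?_ hp (pow_le_pow_left₀ (by linarith) hl _)
            exact (mul_le_mul_of_nonneg_right (le_abs_self C) hx0).trans
              (mul_le_mul_of_nonneg_left hxN (abs_nonneg C))
        _ = N / L ^ A / 2 * (2 ^ (A + 2) * |C| / L) := by rw [div_pow]; field_simp; ring
        _ ≤ N / L ^ A / 2 * 1 := by
            refine mul_le_mul_of_nonneg_left ?_ (by positivity)
            rwa [div_le_one hL0]
        _ = _ := mul_one _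
    have b2 : 0 ≤ ∑ n ∈ (Ioc 0 x).filter (fun n => n ≡ ρ [MOD q]),
        (ArithmeticFunction.vonMangoldt n - th n) := sum_nonneg fun n _ => sub_nonneg.2 (th_le_vm n)
    rw [sum_sub_distrib] at hd b2
    rw [abs_le] at key ⊢
    constructor <;> nlinarith [key.1, key.2]

lemma pw_anti {N L : ℝ} (hN : 0 ≤ N) (hL : 1 ≤ L) {i j : ℕ} (h : j ≤ i) : N / L ^ i ≤ N / L ^ j :=
  div_le_div_of_nonneg_left hN (by positivity) (pow_le_pow_right₀ hL h)

lemma pw_step {N L c : ℝ} (hN : 0 ≤ N) (hL : 0 < L) (hc : c ≤ L) (i : ℕ) :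
    c * (N / L ^ (i + 1)) ≤ N / L ^ i := by
  have : N / L ^ i = L * (N / L ^ (i + 1)) := by field_simp; ring
  rw [this]
  exact mul_le_mul_of_nonneg_right hc (by positivity)

/-- **the Fourier bound** -/
theorem fb : FbStmt := by
  intro A
  obtain ⟨K0, hK0⟩ := exists_primeWeylInv 1 le_rfl
  obtain ⟨C1, K1, hC1, H1⟩ := nu_minor
  obtain ⟨C2, hC2, H2⟩ := nu_class
  obtain ⟨C3, hC3, H3⟩ := V_inv_le
  obtain ⟨K, hK⟩ : ∃ K, K = K0 + K1 := ⟨_, rfl⟩
  obtain ⟨R, hR⟩ : ∃ R, R = 2 * ((A + 2) * K) + A := ⟨_, rfl⟩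
  refine ⟨(A + 2) * K + 1, fun B' => ?_⟩
  filter_upwards [th_class (R + 1) ((A + 2) * K), level B' (R + 2), ev_log 32, ev_log (3 + C1),
    ev_log C2, ev_loglog (C3 * B' ^ 2), ev_sqrt 4 (R + 2), eventually_ge_atTop 1]
    with N hth hlev l1 l2 l3 l4 l5 hN z hz1 hz2
  obtain ⟨m, hm1, hm2⟩ := hlev
  have hY := hm2 z hz2
  have hN0 : (0 : ℝ) < N := by exact_mod_cast hN
  have hlogb : ∀ b : ℕ, b ≤ N → Real.log b ≤ Real.log N := fun b hb => by
    rcases Nat.eq_zero_or_pos b with rfl | h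
    · simpa using Real.log_natCast_nonneg N
    · exact Real.log_le_log (by exact_mod_cast h) (by exact_mod_cast hb)
  have hvt := fun (a b : ℕ) (hb : b ≤ N) => vm_sub_th (I := Ioc a b) hN
    (Ioc_subset_Ioc (Nat.zero_le a) hb)
  obtain ⟨L, hL⟩ : ∃ L, L = Real.log N := ⟨_, rfl⟩
  rw [← hL] at hth hm1 l1 l2 l3 l4 l5 hz1 hz2 hlogb hvt ⊢
  have hL0 : 0 < L := by linarith
  have hL1 : 1 ≤ L := by linarith
  have hzL : L ≤ z := (le_self_pow₀ hL1 (by omega)).trans hz1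
  have hz2' : 2 ≤ z := by
    have : (2 : ℝ) ≤ z := by linarith
    exact_mod_cast this
  have hVL : (V z)⁻¹ ≤ L := by
    refine (H3 z hz2').trans (le_trans ?_ l4)
    have h1 : Real.log z ≤ B' * Real.log L := by
      rw [← Real.log_pow]; exact Real.log_le_log (by linarith) hz2
    have h2 := pow_le_pow_left₀ (Real.log_natCast_nonneg z) h1 2
    rw [mul_pow] at h2
    rw [mul_assoc]
    exact mul_le_mul_of_nonneg_left h2 hC3.le
  refine ⟨hVL, fun a b M r α hM hb => ?_⟩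
  have hVi : 0 < (V z)⁻¹ := inv_pos.2 (V_pos z)
  obtain ⟨γ, hγ⟩ := exists_linear_twist (Ioc a b) (fun n => ((th n - nu z n : ℝ) : ℂ))
    (Polynomial.C α * Polynomial.X) M r hM
  simp only [← add_mul, ← Polynomial.C_add, lin_eval] at hγ
  refine hγ.trans ?_
  generalize α + γ = β
  rcases lt_or_ge b a with hab | hab
  · rw [Ioc_eq_empty (by omega), sum_empty, norm_zero]; positivity
  have hbN : (b : ℝ) ≤ N := by exact_mod_cast hb
  have ha0 : (0 : ℝ) ≤ a := Nat.cast_nonneg a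
  have hab' : (a : ℝ) ≤ b := by exact_mod_cast hab
  obtain ⟨D, hD⟩ : ∃ D, D = L ^ (A + 2) := ⟨_, rfl⟩
  have hLD : L ≤ D := hD ▸ le_self_pow₀ hL1 (by omega)
  have hD2 : 2 ≤ D := by linarith
  have hD1 : 1 ≤ D := by linarith
  have hs0 : 0 ≤ √(N : ℝ) := Real.sqrt_nonneg _
  have s1 : 4 * L * √(N : ℝ) ≤ N / L ^ (R + 1) :=
    sqrt_small hL0 (by rw [pow_succ] at l5; linarith)
  have hm3 : ∀ c : ℝ, 0 ≤ c → (N : ℝ) * (c / 2 ^ m) ≤ c * (N / L ^ (R + 2)) := fun c hc => by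
    have := div_le_div_of_nonneg_left hN0.le (pow_pos hL0 _) hm1
    calc (N : ℝ) * (c / 2 ^ m) = c * (N / 2 ^ m) := by ring
      _ ≤ _ := mul_le_mul_of_nonneg_left this hc
  have hVY : (V z)⁻¹ * ((z ^ (6 * (m + 1)) : ℕ) : ℝ) ≤ L * √(N : ℝ) :=
    mul_le_mul hVL hY (Nat.cast_nonneg _) hL0.le
  have hLs : 0 ≤ L * √(N : ℝ) := by positivity
  by_cases hap : Appr β (D ^ K) (D ^ K / N)
  · have hQ : D ^ K = L ^ ((A + 2) * K) := by rw [hD, pow_mul]
    have key := major (fun n => th n - nu z n) β a b hab hap (E := 4 * (N / L ^ (R + 1)))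
      (fun q ρ x hq hqQ hax hxb => by
        rw [hQ] at hqQ
        have hqz : q ≤ z := by
          have := hqQ.trans ((pow_le_pow_right₀ hL1 (Nat.le_succ _)).trans hz1)
          exact_mod_cast this
        have t1 := hth q ρ x hq hqQ (hxb.trans hb)
        have t2 := hth q ρ a hq hqQ (hab.trans hb)
        have t3 := H2 z m q ρ a x hq hqz hax
        have t4 : ∑ n ∈ (Ioc a x).filter (fun n => n ≡ ρ [MOD q]), th n =
            ∑ n ∈ (Ioc 0 x).filter (fun n => n ≡ ρ [MOD q]), th n -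
            ∑ n ∈ (Ioc 0 a).filter (fun n => n ≡ ρ [MOD q]), th n := by
          simp only [sum_filter]
          rw [← sum_Ioc_consecutive _ (Nat.zero_le a) hax]
          ring
        have t5 : (if ρ.Coprime q then ((x : ℝ) - a) / q.totient else 0) =
            (if ρ.Coprime q then (x : ℝ) / q.totient else 0) -
            (if ρ.Coprime q then (a : ℝ) / q.totient else 0) := by
          split_ifs
          · ring
          · ring
        have t6 : ((x : ℝ) - a) * (C2 / 2 ^ m) ≤ N / L ^ (R + 1) := by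
          have : (x : ℝ) ≤ N := by exact_mod_cast hxb.trans hb
          refine (mul_le_mul_of_nonneg_right (show (x : ℝ) - a ≤ N by linarith)
            (by positivity)).trans ((hm3 C2 (by linarith)).trans (pw_step hN0.le hL0 l3 _))
        rw [sum_sub_distrib, t4]
        rw [t5] at t3
        rw [abs_le] at t1 t2 t3 ⊢
        constructor <;> linarith [t1.1, t1.2, t2.1, t2.2, t3.1, t3.2])
    refine key.trans ?_
    have hQ1 : 1 ≤ D ^ K := one_le_pow₀ hD1
    have u1 : D ^ K / N * ((b : ℝ) - a) ≤ D ^ K := by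
      rw [div_mul_eq_mul_div, div_le_iff₀ hN0]
      exact mul_le_mul_of_nonneg_left (by linarith) (by linarith)
    calc D ^ K * (4 * (N / L ^ (R + 1))) * (1 + 7 * (D ^ K / N * ((b : ℝ) - a)))
        ≤ D ^ K * (4 * (N / L ^ (R + 1))) * (8 * D ^ K) :=
          mul_le_mul_of_nonneg_left (by linarith) (by positivity)
      _ = 32 * (N / L ^ (A + 1)) := by rw [hQ, hR]; field_simp; ring
      _ ≤ _ := pw_step hN0.le hL0 l1 _
  · have mono : ∀ k, k ≤ K → ¬ Appr β (D ^ k) (D ^ k / N) := fun k hk h =>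
      hap (h.mono (pow_le_pow_right₀ hD1 hk)
        (div_le_div_of_nonneg_right (pow_le_pow_right₀ hD1 hk) hN0.le))
    have v1 : ‖∑ n ∈ Ioc a b, ((ArithmeticFunction.vonMangoldt n : ℝ) : ℂ) * e (β * n)‖ ≤
        N / D := by
      by_contra hc
      rw [not_le, div_lt_iff₀ (by linarith), mul_comm] at hc
      have := hK0 (Polynomial.C β * Polynomial.X) (lin_deg β) a b N D hD2 hN0 hbN
        ((hlogb b hb).trans hLD) (by simpa only [lin_eval] using hc.le)
      rw [lin_coeff, pow_one] at this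
      exact mono K0 (by omega) this
    have v2 := H1 z m a b β N D (by omega) hab hD2 hN0 hbN ((hlogb b hb).trans hLD) (by
      have w1 : D ^ K1 ≤ √(N : ℝ) := by
        rw [hD, ← pow_mul]
        have : L ^ ((A + 2) * K1) ≤ L ^ (R + 2) := pow_le_pow_right₀ hL1 (by
          have := Nat.mul_le_mul_left (A + 2) (show K1 ≤ K by omega)
          omega)
        have := pow_pos hL0 (R + 2)
        linarith
      have := mul_le_mul hY w1 (by positivity) hs0
      rwa [Real.mul_self_sqrt hN0.le] at this) (mono K1 (by omega))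
    have v3 : ‖∑ n ∈ Ioc a b, ((ArithmeticFunction.vonMangoldt n - th n : ℝ) : ℂ) * e (β * n)‖ ≤
        2 * √(N : ℝ) * L := by
      refine (norm_sum_le _ _).trans (le_trans (sum_le_sum fun n _ => ?_) (hvt a b hb))
      rw [norm_mul, norm_e, mul_one, Complex.norm_real, Real.norm_eq_abs,
        abs_of_nonneg (sub_nonneg.2 (th_le_vm n))]
    have e1 : ∑ n ∈ Ioc a b, ((th n - nu z n : ℝ) : ℂ) * e (β * n) =
        ∑ n ∈ Ioc a b, ((ArithmeticFunction.vonMangoldt n : ℝ) : ℂ) * e (β * n) -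
        ∑ n ∈ Ioc a b, ((ArithmeticFunction.vonMangoldt n - th n : ℝ) : ℂ) * e (β * n) -
        ∑ n ∈ Ioc a b, ((nu z n : ℝ) : ℂ) * e (β * n) := by
      rw [← sum_sub_distrib, ← sum_sub_distrib]
      refine sum_congr rfl fun n _ => ?_
      push_cast; ring
    rw [e1]
    refine (norm_sub_le _ _).trans ((add_le_add (norm_sub_le _ _) le_rfl).trans ?_)
    have w2 : (N : ℝ) / D ≤ N / L ^ (A + 1) := by rw [hD]; exact pw_anti hN0.le hL1 (by omega)
    have w3 : (V z)⁻¹ * (N / D) ≤ N / L ^ (A + 1) := by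
      rw [hD]; exact pw_step hN0.le hL0 hVL _
    have w4 : (N : ℝ) / L ^ (R + 1) ≤ N / L ^ (A + 1) := pw_anti hN0.le hL1 (by omega)
    have w5 : (V z)⁻¹ * (N * (C1 / 2 ^ m)) ≤ C1 * (N / L ^ (A + 1)) := by
      refine (mul_le_mul_of_nonneg_left (hm3 C1 (by linarith)) hVi.le).trans ?_
      rw [mul_left_comm]
      exact mul_le_mul_of_nonneg_left ((pw_step hN0.le hL0 hVL _).trans w4) (by linarith)
    have w6 := pw_step hN0.le hL0 l2 A
    rw [mul_add, mul_add, mul_left_comm _ (2 : ℝ)] at v2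
    linarith

end Crest.Agent.T15.Fb
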