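import Crest.Agent.T15.QDef_22

/-!
# Row 15, block Q, leaf K4: the model of the primes and the Fourier leaf (helper26)
-/

set_option autoImplicit false

namespace Crest.Agent.T15.K4

open Finset

/-- the logarithm on primes, zero elsewhere -/
noncomputable def lp (n : ℕ) : ℝ := if n.Prime then Real.log n else 0

/-- the density of the `z`-rough numbers -/
noncomputable def V (z : ℕ) : ℝ := ∏ p ∈ Nat.primesLE z, (1 - 1 / (p : ℝ))

/-- no prime factor `≤ z` -/
def Rough (z n : ℕ) : Prop := ∀ p : ℕ, p.Prime → p ≤ z → ¬ p ∣ n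

open Classical in
/-- the model: normalised indicator of the `z`-rough numbers -/
noncomputable def nu (z n : ℕ) : ℝ := if Rough z n then (V z)⁻¹ else 0

/-- `e(x) = exp(2 π i x)` -/
noncomputable def ee (x : ℝ) : ℂ := Complex.exp (2 * Real.pi * Complex.I * x)

/-- the sieving limit `⌊(log N)^B⌋` -/
noncomputable def zz (B N : ℕ) : ℕ := ⌊Real.log N ^ B⌋₊

/-- **Fourier leaf**: the primes and the model have the same exponential sums in every reduced
class, up to an arbitrary power of the logarithm. -/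
def FbStmt : Prop := ∀ A : ℕ, ∃ B : ℕ, 1 ≤ B ∧ ∀ q r : ℕ, 0 < q → r.Coprime q →
  ∃ C : ℝ, ∃ N₀ : ℕ, ∀ N : ℕ, N₀ ≤ N → ∀ α : ℝ,
    ‖∑ n ∈ (Icc 1 N).filter (fun n => n ≡ r [MOD q]),
      ((lp n - nu (zz B N) n : ℝ) : ℂ) * ee (n * α)‖ ≤ C * N / Real.log N ^ A

/-- glue: the Fourier leaf gives the prime pattern -/
def K4Glue : Prop := FbStmt → Q.K4Stmt

end Crest.Agent.T15.K4
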