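import Crest.Agent.T15.FbC_98
import Crest.Agent.T15.K4Def_26

/-!
# Row 15, block Q, (K4): the Fourier leaf in the words of `K4Def_26` (helper98)
-/

set_option autoImplicit false
set_option maxHeartbeats 400000

open Finset Filter

namespace Crest.Agent.T15.Fb

lemma nu_eq_k4 (z n : ℕ) : K4.nu z n = nu z n := by
  have h : K4.Rough z n ↔ Rough z n :=
    ⟨fun h p hp => h p (Nat.mem_primesLE.1 hp).2 (Nat.mem_primesLE.1 hp).1,
      fun h p hp hz => h p (Nat.mem_primesLE.2 ⟨hz, hp⟩)⟩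
  unfold K4.nu nu
  by_cases hr : Rough z n
  · rw [if_pos hr, if_pos (h.2 hr)]; rfl
  · rw [if_neg hr, if_neg fun h' => hr (h.1 h')]

theorem k4fb : K4.FbStmt := by
  intro A
  obtain ⟨B, hB⟩ := fb A
  refine ⟨B + 1, by omega, fun q r hq _ => ?_⟩
  have h : ∀ᶠ N : ℕ in atTop, ∀ α : ℝ,
      ‖∑ n ∈ (Icc 1 N).filter (fun n => n ≡ r [MOD q]),
        ((K4.lp n - K4.nu (K4.zz (B + 1) N) n : ℝ) : ℂ) * K4.ee (n * α)‖ ≤
        1 * N / Real.log N ^ A := by
    filter_upwards [hB (B + 1), ev_log 2] with N hN hL α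
    have h1 : 1 ≤ Real.log N ^ B := one_le_pow₀ (by linarith)
    have h2 := (hN (K4.zz (B + 1) N) (by
      have := Nat.lt_floor_add_one (Real.log N ^ (B + 1))
      rw [pow_succ] at this
      rw [K4.zz, pow_succ]
      nlinarith) (Nat.floor_le (by positivity))).2 0 N q r α hq le_rfl
    rw [one_mul, show Icc 1 N = Ioc 0 N from by ext n; simp only [mem_Icc, mem_Ioc]; omega]
    simp only [nu_eq_k4, mul_comm _ α]
    exact h2
  obtain ⟨N₀, hN₀⟩ := eventually_atTop.1 h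
  exact ⟨1, N₀, hN₀⟩

end Crest.Agent.T15.Fb
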