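import Crest.Agent.T15.FlTop_23
import Crest.Agent.T15.RDef_20

/-!
# Row 15, block Fl: the contract `R.L3Out` (helper23)
-/

set_option autoImplicit false

namespace Crest.Agent.T15.FlTop

/-- **`R.L3Out`** (definitionally also `Sel.L3Stmt`) -/
theorem l3Out {ι : C.Om →+* ℂ} {P : Top.Plc} (h3 : P.rchar = 3) (Λ : Fl.Loc3 ι P) :
    R.L3Out (Top.Lc.of h3 Λ) := l3_top Λ h3

end Crest.Agent.T15.FlTop
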