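import Crest.Agent.T15.ThF_59
import Crest.Agent.T15.MDef_7

/-!
# Row 15, block C (helper59): the leaf `ThStmt` (theta series of `ℚ(i)`)
-/

set_option autoImplicit false
set_option maxHeartbeats 400000

noncomputable section

open Complex NumberField Module Ideal
open scoped NumberTheorySymbols nonZeroDivisors

namespace Crest.Agent.T15.Th

open Crest.Agent.T15.C

/-- coordinates of a Gaussian integer -/
def ziE : Zi ≃ₗ[ℤ] (Fin 2 → ℤ) where
  toFun x := ![x.re, x.im]
  invFun v := ⟨v 0, v 1⟩
  map_add' x y := by funext i; fin_cases i <;> simp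
  map_smul' c x := by funext i; fin_cases i <;> simp
  left_inv x := rfl
  right_inv v := by funext i; fin_cases i <;> rfl

theorem exists_field : ∃ (K : Type) (_ : Field K) (_ : NumberField K) (σ : K →+* ℂ)
    (e : Zi ≃+* 𝓞 K), IQ σ ∧ (∀ x, σ (e x) = GaussianInt.toComplex x) ∧ discr K = -4 := by
  have : Module.Finite ℤ Zi := Module.Finite.equiv ziE.symm
  let K := FractionRing Zi
  let : Algebra ℤ K := Ring.toIntAlgebra K
  have : CharZero K := charZero_of_injective_algebraMap (IsFractionRing.injective Zi K)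
  have : IsScalarTower ℤ ℚ K := IsScalarTower.of_algebraMap_eq' (RingHom.ext_int _ _)
  have : NumberField K := { to_finiteDimensional := Module.Finite.of_isLocalization ℤ Zi ℤ⁰ }
  let e : Zi ≃+* 𝓞 K := (RingOfIntegers.equiv Zi).symm
  have he : ∀ x, ((e x : 𝓞 K) : K) = algebraMap Zi K x := fun x =>
    IsIntegralClosure.algebraMap_equiv ℤ Zi K (𝓞 K) x
  let σ : K →+* ℂ := IsFractionRing.lift GaussianInt.toComplex_injective
  have hσ : ∀ x, σ (e x) = GaussianInt.toComplex x := fun x => by
    rw [he]; exact IsFractionRing.lift_algebraMap _ x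
  let b : Basis (Fin 2) ℤ (𝓞 K) := Basis.ofEquivFun (e.symm.toAddEquiv.toIntLinearEquiv.trans ziE)
  have H : IQ σ := by
    refine ⟨by rw [← RingOfIntegers.rank, finrank_eq_card_basis b]; simp, fun h => ?_⟩
    have h1 := congrArg (fun f : K →+* ℂ => (f (e ii)).im) h
    simp only [ComplexEmbedding.conjugate_coe_eq, conj_im, hσ] at h1
    have h2 : (GaussianInt.toComplex ii).im = 1 := by simp [GaussianInt.toComplex_def]
    rw [h2] at h1
    norm_num at h1
  refine ⟨K, inferInstance, inferInstance, σ, e, H, hσ, ?_⟩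
  have hb0 : b 0 = e 1 := by
    rw [Basis.coe_ofEquivFun]; rfl
  have hb1 : b 1 = e ii := by
    rw [Basis.coe_ofEquivFun]; rfl
  have h := H.discr_eq b
  rw [hb0, hb1, hσ, hσ] at h
  have h3 : Th.dl (GaussianInt.toComplex 1) (GaussianInt.toComplex ii) = 1 := by
    simp [Th.dl, GaussianInt.toComplex_def]
  rw [h3] at h
  exact_mod_cast h.trans (by norm_num : (-4 * 1 ^ 2 : ℝ) = ((-4 : ℤ) : ℝ))

theorem unit_eq {x : Zi} (h : IsUnit x) : ∃ k : ℕ, x = ii ^ k := by
  have h1 := (Zsqrtd.norm_eq_one_iff' (by norm_num) x).2 h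
  obtain ⟨a, b⟩ := x
  rw [Zsqrtd.norm_def] at h1
  simp only at h1
  have ha : a ≤ 1 := by nlinarith [mul_self_nonneg b]
  have ha' : -1 ≤ a := by nlinarith [mul_self_nonneg b]
  have hb : b ≤ 1 := by nlinarith [mul_self_nonneg a]
  have hb' : -1 ≤ b := by nlinarith [mul_self_nonneg a]
  interval_cases a <;> interval_cases b <;> first
    | omega
    | exact ⟨0, by decide⟩
    | exact ⟨1, by decide⟩
    | exact ⟨2, by decide⟩
    | exact ⟨3, by decide⟩

variable {m : ℕ} {ε : Zi → Zi}

theorem psi_assoc (h : Eps m ε) {x y : Zi} (hxy : Associated x y) : x * ε x = y * ε y := by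
  obtain ⟨u, rfl⟩ := hxy
  obtain ⟨k, hk⟩ := unit_eq u.isUnit
  rw [hk]
  clear hk
  induction k with
  | zero => simp
  | succ k ih =>
    rw [pow_succ, ← mul_assoc, h.mul, ih]
    linear_combination (-(x * ii ^ k * ε (x * ii ^ k))) * h.ei

theorem eps_zero (h : Eps m ε) {x : Zi} (hx : ¬ x.norm.natAbs.Coprime m) : ε x = 0 := by
  refine h.zero x fun hc => hx ?_
  have h1 : IsCoprime (star x) (m : Zi) := by
    obtain ⟨u, v, huv⟩ := hc
    exact ⟨star u, star v, by
      have := congrArg star huv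
      simpa [mul_comm] using this⟩
  obtain ⟨u, v, huv⟩ := hc.mul_left h1
  rw [← Zsqrtd.norm_eq_mul_conj] at huv
  have h2 := congrArg Zsqrtd.re huv
  rw [← Nat.isCoprime_iff_coprime, GaussianInt.natCast_natAbs_norm]
  exact ⟨u.re, v.re, by simpa using h2⟩

theorem thStmt : ThStmt := by
  classical
  intro m ε h
  obtain ⟨K, _, _, σ, e, H, hσ, hD⟩ := exists_field
  have hgen : ∀ I : Ideal (𝓞 K), ∃ x : Zi, span {e x} = I := by
    intro I
    obtain ⟨x, hx⟩ := (IsPrincipalIdealRing.principal (I.comap e)).principal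
    refine ⟨x, ?_⟩
    rw [← Set.image_singleton, ← map_span, ← map_comap_of_surjective e e.surjective I, hx]
  choose gen hgen using hgen
  have hass : ∀ x y : Zi, span {e x} = span {e y} → Associated x y := fun x y hxy => by
    simpa using (span_singleton_eq_span_singleton.1 hxy).map e.symm
  have hg : ∀ x : Zi, gen (span {e x}) * ε (gen (span {e x})) = x * ε x := fun x =>
    psi_assoc h (hass _ _ (hgen _))
  let ψ : Ideal (𝓞 K) →* Zi :=
    { toFun I := gen I * ε (gen I)
      map_one' := by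
        rw [one_eq_top, ← span_singleton_one, ← map_one e, hg, h.one, mul_one]
      map_mul' I J := by
        conv_lhs => rw [← hgen I, ← hgen J, span_singleton_mul_span_singleton, ← map_mul, hg, h.mul]
        ring }
  have hψ : ∀ x : Zi, ψ (span {e x}) = x * ε x := hg
  have hN : ∀ x : Zi, absNorm (span {e x}) = x.norm.natAbs := by
    intro x
    have := H.norm (e x)
    rw [hσ, ← GaussianInt.intCast_real_norm, ← GaussianInt.natCast_natAbs_norm] at this
    exact_mod_cast this
  have hper : ∀ x : Zi, ε (e.symm (Ideal.Quotient.mk (span {(m : 𝓞 K)}) (e x)).out) = ε x := by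
    intro x
    obtain ⟨y, hy⟩ := mem_span_singleton'.1 (Ideal.Quotient.eq.1
      (Ideal.Quotient.mk_out (Ideal.Quotient.mk (span {(m : 𝓞 K)}) (e x))))
    rw [← h.per x (e.symm y), eq_add_of_sub_eq hy.symm]
    congr 1
    simp [add_comm, mul_comm]
  let X : HC σ (span {(m : 𝓞 K)}) :=
    { ψ := (GaussianInt.toComplex : Zi →* ℂ).comp ψ
      ε :=
        { toFun q := GaussianInt.toComplex (ε (e.symm q.out))
          map_one' := by rw [← map_one (Ideal.Quotient.mk _), ← map_one e, hper, h.one, map_one]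
          map_mul' p q := by
            obtain ⟨p, rfl⟩ := Ideal.Quotient.mk_surjective p
            obtain ⟨q, rfl⟩ := Ideal.Quotient.mk_surjective q
            obtain ⟨p, rfl⟩ := e.surjective p
            obtain ⟨q, rfl⟩ := e.surjective q
            rw [← map_mul, ← map_mul, hper, hper, hper, h.mul, map_mul] }
      span x := by
        obtain ⟨x, rfl⟩ := e.surjective x
        simp only [MonoidHom.coe_comp, Function.comp, MonoidHom.coe_coe, hψ, MonoidHom.coe_mk,
          OneHom.coe_mk, hper, hσ, map_mul] }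
  have hXa : ∀ n, X.a n = GaussianInt.toComplex (ac ψ n) := fun n => (map_ac _ _ n).symm
  have hstar : ∀ n, star (ac ψ n) = ac ψ n := by
    intro n
    have hc : ∀ I, span {e (star (gen (span {e (star (gen I))})))} = I := by
      intro I
      conv_rhs => rw [← hgen I]
      obtain ⟨u, hu⟩ := hass _ _ (hgen (span {e (star (gen I))}))
      have h1 : star (gen (span {e (star (gen I))})) * star (u : Zi) = gen I := by
        rw [← star_mul', hu, star_star]
      conv_rhs => rw [← h1, map_mul]
      exact (span_singleton_mul_right_unit (u.isUnit.star.map e) _).symm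
    have hm : ∀ I ∈ nf K n, span {e (star (gen I))} ∈ nf K n := fun I hI => by
      rw [mem_nf, hN, Zsqrtd.norm_conj, ← hN, hgen, mem_nf.1 hI]
    rw [ac, star_sum]
    refine Finset.sum_nbij' (fun I => span {e (star (gen I))}) (fun I => span {e (star (gen I))})
      hm hm (fun I _ => hc I) (fun I _ => hc I) fun I _ => ?_
    rw [hψ, h.conj, ← star_mul']
    rfl
  have hre : ∀ n, (((ac ψ n).re : ℤ) : Zi) = ac ψ n := by
    intro n
    have h1 := congrArg Zsqrtd.im (hstar n)
    rw [Zsqrtd.im_star] at h1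
    ext
    · simp
    · simp only [Zsqrtd.im_intCast]; omega
  have hXa' : ∀ n, (((ac ψ n).re : ℤ) : ℂ) = X.a n := fun n => by
    rw [hXa, ← hre, map_intCast, Zsqrtd.re_intCast]
  have hm0 : span {(m : 𝓞 K)} ≠ ⊥ :=
    absNorm_eq_zero_iff.not.1 (by rw [absNorm_nat H.two]; exact pow_ne_zero _ h.pos)
  have hJ : ∀ n : ℕ, Odd n → J(discr K | n) = ZMod.χ₄ (n : ZMod 4) := fun n hn => by
    rw [hD, show (-4 : ℤ) = -1 * 4 by norm_num, jacobiSym.mul_left, jacobiSym.at_neg_one hn,
      jacobiSym.at_four hn, mul_one]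
  have hneb : ∀ n : ℕ, n.Coprime (4 * m ^ 2) → X.neb n = 1 := by
    intro n hn
    have h1 : n.Coprime m := hn.coprime_dvd_right ((dvd_pow_self m two_ne_zero).mul_left 4)
    have h2 : Odd n := Nat.coprime_two_right.1 (h1.coprime_dvd_right h.two)
    have h3 : X.ε n = ((ZMod.χ₄ (n : ZMod 4) : ℤ) : ℂ) := by
      have h4 := hper n
      rw [map_natCast e, map_natCast] at h4
      change GaussianInt.toComplex (ε (e.symm (n : 𝓞 K ⧸ span {(m : 𝓞 K)}).out)) = _
      rw [h4, h.int n h1, map_intCast]
    rw [HC.neb, h3, hJ n h2, ← Int.cast_mul, ZMod.χ₄_eq_neg_one_pow (Nat.odd_iff.1 h2), ← mul_pow]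
    simp
  have hzero : ∀ n, ¬ n.Coprime m → ac ψ n = 0 := fun n hn =>
    Finset.sum_eq_zero fun I hI => by
      rw [← hgen I, hψ, eps_zero h (by rw [← hN, hgen, mem_nf.1 hI]; exact hn), mul_zero]
  have : NeZero (4 * m ^ 2) := ⟨mul_ne_zero (by norm_num) (pow_ne_zero _ h.pos)⟩
  have hL : Lv (span {(m : 𝓞 K)}) (4 * m ^ 2) := by
    obtain ⟨k, rfl⟩ := h.two
    refine ⟨⟨-1, ?_⟩, ⟨-(k : ℤ) ^ 2, ?_⟩⟩
    · rw [hD, absNorm_nat H.two]; push_cast; ring
    · rw [hD]; push_cast; ring
  refine ⟨fun n => (ac ψ n).re, ⟨⟨X.cf0 H hm0 _ hL hneb, fun z => ?_⟩, ?_, ?_, fun l hl hlN n => ?_⟩,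
    fun n hn => by simp only [hzero n hn, Zsqrtd.re_zero], fun p hp hp4 => ?_, fun x hx => ?_⟩
  · refine (X.hasSum_q H hm0 z).congr_fun fun n => ?_
    simp only [hXa']
    rw [smul_eq_mul, Function.Periodic.qParam, ← Complex.exp_nat_mul]
    congr 2
    push_cast
    ring
  · simp only [hXa', X.a_zero]
  · simp only [hXa', X.a_one]
  · have hl2 : l ≠ 2 := by
      rintro rfl
      exact hlN (Dvd.dvd.mul_right (by norm_num) _)
    have := X.a_rec H hl hl2 n
    rw [hneb l ((Nat.Prime.coprime_iff_not_dvd hl).2 hlN), one_mul] at this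
    simpa only [hXa'] using this
  · have h1 := H.card_nf hp (by omega)
    rw [hJ p (Nat.odd_iff.2 (by omega)), ZMod.χ₄_nat_three_mod_four hp4] at h1
    have h2 : nf K p = ∅ := Finset.card_eq_zero.1 (by omega)
    simp only [ac, h2, Finset.sum_empty, Zsqrtd.re_zero]
  · simp only [hre]
    by_cases hc : x.norm.natAbs.Coprime m
    swap
    · rw [hzero _ hc, eps_zero h hc]; simp
    have hodd : Odd x.norm.natAbs := Nat.coprime_two_right.1 (hc.coprime_dvd_right h.two)
    have hP := hN x
    have hQ : absNorm (span {e (star x)}) = x.norm.natAbs := by rw [hN, Zsqrtd.norm_conj]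
    have hPQ : span {((x.norm.natAbs : ℕ) : 𝓞 K)} = span {e x} * span {e (star x)} := by
      rw [span_singleton_mul_span_singleton, ← map_mul, ← Zsqrtd.norm_eq_mul_conj,
        ← map_natCast e, GaussianInt.natCast_natAbs_norm]
    have hnf := nf_eq hx hP hQ fun R hR hl' => by
      have h5 : span {e x} * span {e (star x)} ≤ R := hPQ ▸ (span_singleton_le_iff_mem _).2 hl'
      rcases hR.isPrime.mul_le.1 h5 with h6 | h6
      · exact Or.inl ((max_of_norm hx hP).eq_of_le hR.ne_top h6).symm
      · exact Or.inr ((max_of_norm hx hQ).eq_of_le hR.ne_top h6).symm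
    have hne : span {e x} ≠ span {e (star x)} := by
      intro he
      have h1 := H.card_nf hx (by rintro h2; rw [h2] at hodd; exact absurd hodd (by decide))
      rw [hnf, ← he, hJ _ hodd, ZMod.χ₄_eq_neg_one_pow (Nat.odd_iff.1 hodd)] at h1
      simp only [Finset.mem_singleton, Finset.insert_eq_of_mem, Finset.card_singleton,
        Nat.cast_one, left_eq_add] at h1
      exact pow_ne_zero _ (by norm_num) h1
    rw [ac, hnf, Finset.sum_pair hne, hψ, hψ, h.conj, star_mul']

end Crest.Agent.T15.Th
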