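import Crest.Agent.T15.ExC_49
import Crest.Agent.T15.MDef_7

/-!
# Row 15, block C (helper49): the `3`-adic character `(x) ↦ x ^ u` of `ℚ(i)`
-/

set_option autoImplicit false

noncomputable section

open NumberField IsDedekindDomain WithZero
open scoped Pointwise

namespace Crest.Agent.T15.Ex

open Crest.Agent.T15.Art Crest.Agent.R018.Placesx484

section Gen

variable {K : Type*} [Field K] [NumberField K] [IsPrincipalIdealRing (𝓞 K)]

omit [NumberField K] in
theorem coprime_of_val {s c : 𝓞 K} (hc : c ≠ 0) (h : ∀ w : Pr K, c ∈ w.asIdeal → s ∉ w.asIdeal) :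
    IsCoprime s c := by
  refine isCoprime_of_prime_dvd (fun h => hc h.2) fun z hz h1 h2 => ?_
  exact h ⟨Ideal.span {z}, (Ideal.span_singleton_prime hz.ne_zero).2 hz, by simpa using hz.ne_zero⟩
    (Ideal.mem_span_singleton.2 h2) (Ideal.mem_span_singleton.2 h1)

theorem evI_span {A B : Type*} [CommGroup A] [CommMonoid B] (l : A →* B) (f : Pr K → A)
    (g : 𝓞 K →* B) (c : 𝓞 K) (hU : ∀ x, IsUnit x → g x = 1)
    (hf : ∀ (w : Pr K) (x : 𝓞 K), w.asIdeal = Ideal.span {x} → IsCoprime x c → l (f w) = g x)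
    (x : 𝓞 K) (hx : x ≠ 0) (hc : IsCoprime x c) : l (evI f (Ideal.span {x})) = g x := by
  induction x using UniqueFactorizationMonoid.induction_on_prime with
  | h₁ => exact absurd rfl hx
  | h₂ x hu => rw [Ideal.span_singleton_eq_top.2 hu, evI_top, map_one, hU x hu]
  | h₃ x p hx0 hp ih =>
    let w : Pr K := ⟨Ideal.span {p}, (Ideal.span_singleton_prime hp.ne_zero).2 hp,
      by simpa using hp.ne_zero⟩
    rw [← Ideal.span_singleton_mul_span_singleton, evI_mul f w.ne_bot (by simpa using hx0), map_mul,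
      ih hx0 hc.of_mul_left_right, map_mul, ← hf w p rfl hc.of_mul_left_left, evI_prime]

theorem exists_frac {c : 𝓞 K} (hc : c ≠ 0) {a : K} (h : ∀ w : Pr K, c ∈ w.asIdeal →
    w.valuation K (a - 1) ≤ w.valuation K (c : K)) :
    ∃ s t : 𝓞 K, s ≠ 0 ∧ IsCoprime s c ∧ a * s = (s + c * t : 𝓞 K) := by
  obtain ⟨t, s, hts, e⟩ := IsFractionRing.exists_reduced_fraction (𝓞 K) ((a - 1) / c)
  have hs : (s : 𝓞 K) ≠ 0 := nonZeroDivisors.ne_zero s.2
  have hs' : ((s : 𝓞 K) : K) ≠ 0 := by exact_mod_cast hs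
  have hc' : (c : K) ≠ 0 := by exact_mod_cast hc
  rw [IsFractionRing.mk'_eq_div] at e
  have e2 : (t : K) = (a - 1) / c * (s : 𝓞 K) := (div_eq_iff hs').1 e
  refine ⟨s, t, hs, coprime_of_val hc fun w hw hsw => ?_, ?_⟩
  · have h1 : w.valuation K ((a - 1) / c) ≤ 1 := by
      rw [map_div₀]; exact div_le_one_of_le₀ (h w hw) zero_le
    have h2 : w.valuation K (t : K) < 1 := by
      rw [e2, map_mul]
      exact (mul_le_of_le_one_left' h1).trans_lt ((T24.Hn.Loc.val_int_lt_iff w _).2 hsw)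
    obtain ⟨x, y, hxy⟩ := hts.isCoprime
    exact w.isPrime.ne_top ((Ideal.eq_top_iff_one _).2 (hxy ▸ add_mem
      (Ideal.mul_mem_left _ _ ((T24.Hn.Loc.val_int_lt_iff w _).1 h2)) (Ideal.mul_mem_left _ _ hsw)))
  · have e3 : ((s + c * t : 𝓞 K) : K) = (s : 𝓞 K) + c * (t : K) := by push_cast; rfl
    rw [e3, e2]
    field_simp
    ring

end Gen

theorem xi_gen (hA : ArtStmt) {K E : Type} [Field K] [NumberField K] [IsTotallyComplex K]
    [IsPrincipalIdealRing (𝓞 K)] [Field E] [CharZero E] [IsAlgClosed E] [Algebra.IsAlgebraic ℚ E]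
    [Algebra K E] [IsGalois K E] {p : ℕ} (hp : p.Prime) (hp2 : p ≠ 2) {A : Type} [CommRing A]
    [Finite A] (ψ : 𝓞 K →+* A) {k m u : ℕ} (hk : (p : A) ^ (k + 1) = 0)
    (hU : ∀ x, IsUnit x → ψ x ^ u = 1) (hF : ∀ x, IsCoprime x (p : 𝓞 K) → (ψ x ^ u) ^ p ^ m = 1) :
    ∃ ξ : (E ≃ₐ[K] E) →* Aˣ, IsOpen (ξ.ker : Set (E ≃ₐ[K] E)) ∧ ∀ P : Place E, P.rchar ≠ p →
      P.ideal.inertia (E ≃ₐ[K] E) ≤ ξ.ker ∧ ∀ x : 𝓞 K, (pr K P).asIdeal = Ideal.span {x} →
        ∀ φ, IsF P φ → (ξ φ : A) = ψ x ^ u := by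
  classical
  have hp0 : (p : 𝓞 K) ≠ 0 := Nat.cast_ne_zero.2 hp.ne_zero
  obtain ⟨T, hT⟩ : ∃ T : Finset (Pr K), ∀ w, w ∈ T ↔ (p : 𝓞 K) ∈ w.asIdeal :=
    ⟨(Ideal.finite_factors (I := Ideal.span {(p : 𝓞 K)}) (by simpa using hp.ne_zero)).toFinset,
      fun w => by simp [Ideal.dvd_span_singleton]⟩
  have hcop : ∀ (w : Pr K) (x : 𝓞 K), w.asIdeal = Ideal.span {x} →
      (IsCoprime x (p : 𝓞 K) ↔ w ∉ T) := fun w x hx => by
    rw [hT]
    refine ⟨fun ⟨a, b, h⟩ hw => w.isPrime.ne_top ((Ideal.eq_top_iff_one _).2 (h ▸ add_mem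
      (Ideal.mul_mem_left _ _ (hx ▸ Ideal.mem_span_singleton_self x)) (Ideal.mul_mem_left _ _ hw))),
      fun hw => coprime_of_val hp0 fun v hv hxv => hw ?_⟩
    rwa [w.isMaximal.eq_of_le v.isPrime.ne_top (hx ▸ (Ideal.span_singleton_le_iff_mem _).2 hxv)]
  have hex : ∀ w : Pr K, ∃ a : Aˣ, (w ∈ T → a = 1) ∧ ∀ x : 𝓞 K, w.asIdeal = Ideal.span {x} →
      IsCoprime x (p : 𝓞 K) → (a : A) = ψ x ^ u := fun w => by
    by_cases hw : w ∈ T
    · exact ⟨1, fun _ => rfl, fun x hx h => absurd hw ((hcop w x hx).1 h)⟩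
    obtain ⟨y, hy⟩ := (IsPrincipalIdealRing.principal w.asIdeal).principal
    have h1 := hF y ((hcop w y hy).2 hw)
    refine ⟨(IsUnit.of_pow_eq_one h1 (pow_ne_zero _ hp.ne_zero)).unit, fun h => absurd h hw,
      fun x hx _ => ?_⟩
    obtain ⟨e, rfl⟩ := Ideal.span_singleton_eq_span_singleton.1 (hy.symm.trans hx)
    rw [IsUnit.unit_spec, map_mul, mul_pow, hU e e.isUnit, mul_one]
  choose f hf1 hf using hex
  obtain ⟨ξ, ho, hξ⟩ := existence (E := E) hA hp hp2 (T := T) (m := m) (f := f) (fun w hw => by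
      simpa using (w.valuation_eq_one_iff_notMem (K := K)).2 (mt (hT w).2 hw)) hf1 (fun w => by
      by_cases hw : w ∈ T
      · rw [hf1 w hw, one_pow]
      obtain ⟨y, hy⟩ := (IsPrincipalIdealRing.principal w.asIdeal).principal
      exact Units.ext (by rw [Units.val_pow_eq_pow_val, hf w y hy ((hcop w y hy).2 hw),
        hF y ((hcop w y hy).2 hw), Units.val_one])) ⟨p ^ (k + 1), pow_ne_zero _ hp.ne_zero,
      fun a ha => by
        obtain ⟨s, t, hs, hc, e⟩ := exists_frac (c := (p : 𝓞 K) ^ (k + 1)) (pow_ne_zero _ hp0)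
          (a := a) fun w hw => by
            simpa using (ha w ((hT w).2 (w.isPrime.mem_of_pow_mem _ hw))).le
        have hs' : (s : K) ≠ 0 := by exact_mod_cast hs
        have hc1 : IsCoprime s (p : 𝓞 K) := hc.of_isCoprime_of_dvd_right (dvd_pow_self _ k.succ_ne_zero)
        have hc2 : IsCoprime (s + (p : 𝓞 K) ^ (k + 1) * t) (p : 𝓞 K) := by
          rw [pow_succ', mul_assoc]; exact hc1.add_mul_left_left _
        have h0 : s + (p : 𝓞 K) ^ (k + 1) * t ≠ 0 := fun h0 => by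
          rw [h0] at e
          exact mul_ne_zero a.ne_zero hs' (by simpa using e)
        have key := fun x hx hc => evI_span (Units.coeHom A) f
          ((powMonoidHom u).comp ψ.toMonoidHom) (p : 𝓞 K) hU hf x hx hc
        have h2 : ev f (a * Units.mk0 _ hs') = ev f (Units.mk0 _ hs') := Units.ext (by
          rw [ev_int f _ _ e, ev_int f _ s rfl]
          refine (key _ h0 hc2).trans (Eq.trans ?_ (key _ hs hc1).symm)
          simp [hk])
        rwa [map_mul, mul_eq_right] at h2⟩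
  refine ⟨ξ, ho, fun P hP => ?_⟩
  have hw : pr K P ∉ T := fun h => by
    have h1 : algebraMap (𝓞 K) (𝓞 E) (p : 𝓞 K) ∈ P.ideal := (hT _).1 h
    rw [map_natCast] at h1
    exact hP (Place.rchar_eq_of_mem P hp h1)
  exact ⟨hξ.inertia_le hw, fun x hx φ hφ => by
    rw [hξ P hw φ hφ, hf _ x hx ((hcop _ x hx).2 hw)]⟩

section Zi

open Crest.Agent.T15.C

theorem zi_norm (x : Zi) : Algebra.norm ℤ x = x.norm := by
  let b : Module.Basis (Fin 2) ℤ Zi := Module.Basis.ofEquivFun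
    { toFun := fun x => ![x.re, x.im]
      invFun := fun v => ⟨v 0, v 1⟩
      map_add' := fun x y => by ext i; fin_cases i <;> simp
      map_smul' := fun c x => by ext i; fin_cases i <;> simp
      left_inv := fun x => rfl
      right_inv := fun v => by ext i; fin_cases i <;> rfl }
  have h0 : b 0 = ⟨1, 0⟩ := by rw [Module.Basis.coe_ofEquivFun]; rfl
  have h1 : b 1 = ⟨0, 1⟩ := by rw [Module.Basis.coe_ofEquivFun]; rfl
  have h2 : ∀ y i, b.repr y i = ![y.re, y.im] i := fun _ _ => rfl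
  rw [Algebra.norm_eq_matrix_det b, Matrix.det_fin_two]
  simp [Algebra.leftMulMatrix_eq_repr_mul, h0, h1, h2, Zsqrtd.norm_def]

theorem zi_unit {x : Zi} (h : IsUnit x) : x ^ 4 = 1 := by
  have h1 := (Zsqrtd.norm_eq_one_iff' (by norm_num) x).2 h
  obtain ⟨a, b⟩ := x
  simp only [Zsqrtd.norm_def] at h1
  have : a ≤ 1 ∧ -1 ≤ a ∧ b ≤ 1 ∧ -1 ≤ b :=
    ⟨by nlinarith [sq_nonneg b], by nlinarith [sq_nonneg b], by nlinarith [sq_nonneg a],
      by nlinarith [sq_nonneg a]⟩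
  obtain ⟨h2, h3, h4, h5⟩ := this
  interval_cases a <;> interval_cases b <;> first | decide | simp at h1

theorem zi_pow_eight {x : Zi} (h : IsCoprime x 3) : (3 : Zi) ∣ x ^ 8 - 1 := by
  have h3 : ∀ y : Zi, (3 : Zi) ∣ y ↔ (3 : ℤ) ∣ y.re ∧ (3 : ℤ) ∣ y.im := fun y => by
    simpa using Zsqrtd.intCast_dvd 3 y
  have h1 : (3 : Zi) ∣ x - ⟨x.re % 3, x.im % 3⟩ := by
    rw [h3]; constructor <;> simp <;> omega
  have h2 : (3 : Zi) ∣ (⟨x.re % 3, x.im % 3⟩ : Zi) ^ 8 - 1 := by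
    have h4 : ¬ (x.re % 3 = 0 ∧ x.im % 3 = 0) := fun h4 => by
      have := zi_unit (h.symm.isUnit_of_dvd ((h3 x).2 ⟨by omega, by omega⟩))
      exact absurd this (by decide)
    have a1 := Int.emod_nonneg x.re (by norm_num : (3 : ℤ) ≠ 0)
    have a2 := Int.emod_lt_of_pos x.re (by norm_num : (0 : ℤ) < 3)
    have b1 := Int.emod_nonneg x.im (by norm_num : (3 : ℤ) ≠ 0)
    have b2 := Int.emod_lt_of_pos x.im (by norm_num : (0 : ℤ) < 3)
    generalize x.re % 3 = a at *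
    generalize x.im % 3 = b at *
    rw [h3]
    interval_cases a <;> interval_cases b <;> first | decide | simp at h4
  simpa using dvd_add (h1.trans (sub_dvd_pow_sub_pow _ _ 8)) h2

theorem xiStmt (hA : ArtStmt) (hQ : QiStmt) : XiStmt := by
  classical
  rintro j A _ _ φ ⟨k, hk⟩ u ⟨v, rfl⟩
  obtain ⟨hfin, htc, e, he⟩ := hQ j
  have : NumberField (Ki j) := NumberField.of_module_finite ℚ _
  have : IsPrincipalIdealRing (𝓞 (Ki j)) := IsPrincipalIdealRing.of_surjective e e.surjective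
  obtain ⟨ξ, ho, hξ⟩ := xi_gen (K := Ki j) (E := Om) hA Nat.prime_three (by norm_num)
    (φ.comp e.symm.toRingHom) (k := k) (m := k) (u := 8 * v) (by simp [pow_succ, hk])
    (fun x hx => by
      have := zi_unit (hx.map e.symm)
      simp only [RingHom.comp_apply, RingEquiv.toRingHom_eq_coe, RingEquiv.coe_toRingHom]
      rw [← map_pow, show 8 * v = 4 * (2 * v) by ring, pow_mul, this, one_pow, map_one])
    (fun x hx => by
      have h1 := map_dvd φ (zi_pow_eight (x := e.symm x) (by simpa [map_ofNat] using hx.map e.symm.toRingHom))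
      rw [map_sub, map_pow, map_one, map_ofNat] at h1
      have h2 := dvd_sub_pow_of_dvd_sub (p := 3) (by simpa using h1) k
      rw [Nat.cast_ofNat, pow_succ, hk, zero_mul, zero_dvd_iff, one_pow, sub_eq_zero] at h2
      simp only [RingHom.comp_apply, RingEquiv.toRingHom_eq_coe, RingEquiv.coe_toRingHom]
      rw [pow_mul, pow_right_comm, h2, one_pow])
  have hfix : ∀ g : Gam, g (dl j) = dl j → ∃ y, rs (Ki j) y = g := fun g hg => by
    have h1 : MulAction.stabilizer Gam (dl j) ≤ (Ki j).fixingSubgroup :=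
      (IntermediateField.le_iff_le _ _).1 (IntermediateField.adjoin_simple_le_iff.2 fun g => g.2)
    have h2 := h1 hg
    rwa [← rs_range] at h2
  let X : Gam → A := fun g => if h : ∃ y, rs (Ki j) y = g then ξ h.choose else 1
  have hX : ∀ y, X (rs (Ki j) y) = ξ y := fun y => by
    have h : ∃ z, rs (Ki j) z = rs (Ki j) y := ⟨y, rfl⟩
    simp only [X, dif_pos h, rs_inj _ h.choose_spec]
  refine ⟨X, ?_, fun g h hg hh => ?_, ⟨ξ.ker.map (rs (Ki j)), rs_map_open _ ho, ?_⟩,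
    fun P hP t ht h => ?_, fun P s x hx hP h3 _ hs hF => ?_⟩
  · rw [← map_one (rs (Ki j)), hX, map_one, Units.val_one]
  · obtain ⟨y, rfl⟩ := hfix g hg
    obtain ⟨z, rfl⟩ := hfix h hh
    rw [← map_mul, hX, hX, hX, map_mul, Units.val_mul]
  · rintro _ ⟨y, hy, rfl⟩ -
    rw [hX, show ξ y = 1 from hy, Units.val_one]
  · obtain ⟨y, rfl⟩ := hfix t h
    rw [hX, show ξ y = 1 from (hξ P hP).1 ht, Units.val_one]
  · obtain ⟨y, rfl⟩ := hfix s hs
    have hx' : Prime (e x) := (MulEquiv.prime_iff e).2 hx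
    have h1 : (pr (Ki j) P).asIdeal = Ideal.span {e x} :=
      ((((Ideal.span_singleton_prime hx'.ne_zero).2 hx').isMaximal (by simpa using hx.ne_zero)).eq_of_le
        (pr (Ki j) P).isPrime.ne_top ((Ideal.span_singleton_le_iff_mem _).2
          (show algebraMap _ (𝓞 Om) (e x) ∈ P.ideal from he x ▸ hP))).symm
    have h2 : P.qv (Ki j) = x.norm.natAbs := by
      rw [qv_eq, h1, Ideal.absNorm_span_singleton, ← zi_norm]
      exact congrArg Int.natAbs (Algebra.norm_eq_of_algEquiv e.toIntAlgEquiv x)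
    rw [hX, (hξ P h3).2 _ h1 y fun z => h2 ▸ hF z]
    simp

end Zi

end Crest.Agent.T15.Ex
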