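import Crest.Agent.T15.ModI_44
import Crest.Agent.T15.Art_34
import Crest.Agent.T15.Qi_28
import Crest.Agent.T15.Eps_73
import Crest.Agent.T15.Tame_25
import Crest.Agent.T15.ThG_59
import Crest.Agent.T15.Xi_49

/-!
# Row 15, block C (helper73): modularity of the residual representation, no hypothesis left
-/

set_option autoImplicit false

namespace Crest.Agent.T15.C

theorem modI_all : ModI :=
  modI (epsStmt_of (Tame.tameStmt Art.artin) Qi.qiStmt) Th.thStmt (Ex.xiStmt Art.artin Qi.qiStmt)

end Crest.Agent.T15.C
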