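import Crest.Agent.T15.K4C_26

/-!
# K4: the Fourier leaf implies the prime pattern
-/

set_option autoImplicit false

namespace Crest.Agent.T15.K4

open Finset Filter

lemma ev_log_pow (k : ℕ) {ε : ℝ} (hε : 0 < ε) : ∀ᶠ x : ℝ in atTop, Real.log x ^ k ≤ ε * x := by
  have h := (Real.isLittleO_pow_log_id_atTop (n := k)).def hε
  filter_upwards [h, eventually_ge_atTop (0 : ℝ)] with x h1 h2
  rw [Real.norm_eq_abs, Real.norm_eq_abs, id, abs_of_nonneg h2] at h1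
  exact (le_abs_self _).trans h1

lemma abs_lp_le {N k : ℕ} (h1 : 1 ≤ k) (h2 : k ≤ N) : |lp k| ≤ Real.log N := by
  have h3 : (1 : ℝ) ≤ k := by exact_mod_cast h1
  have h4 : (k : ℝ) ≤ N := by exact_mod_cast h2
  unfold lp
  split_ifs
  · rw [abs_of_nonneg (Real.log_nonneg h3)]
    exact Real.log_le_log (by linarith) h4
  · simpa using Real.log_nonneg (h3.trans h4)

lemma abs_nu_le (z k : ℕ) : |nu z k| ≤ (V z)⁻¹ := by
  rw [abs_of_nonneg (nu_nonneg z k)]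
  unfold nu
  split_ifs
  exacts [le_rfl, (inv_pos.2 (V_pos z)).le]

theorem k4Glue : K4Glue := by
  intro hF g D c₀ hg h6 hD hDg hc₀
  obtain ⟨s, κ, hκ, hM⟩ := main_term
  obtain ⟨K₂, hK₂, hV⟩ := V_inv_le
  obtain ⟨B, hB, hF⟩ := hF 15
  set c := c₀ % g with hc
  have hcg : c.Coprime g := by
    rw [hc, Nat.Coprime, ← Nat.gcd_rec]; exact hc₀.symm
  have hcc : c ≡ c₀ [MOD g] := Nat.mod_modEq _ _
  obtain ⟨C₁, N₁, hF₁⟩ := hF g c hg hcg
  obtain ⟨C₂, N₂, hF₂⟩ := hF 1 0 one_pos (by simp)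
  set K := D * g * (4 * g + 2) with hK
  have hK0 : 0 < K := by positivity
  have hK0' : (0 : ℝ) < K := by exact_mod_cast hK0
  set K' := g + D + 2 with hK'
  set C := max (max C₁ C₂) 1 with hC
  have hC0 : 0 < C := lt_of_lt_of_le one_pos (le_max_right _ _)
  set Θ : ℝ := 6 * K' ^ 3 * K₂ ^ 5 * C * K ^ 3 / κ ^ 3 with hΘ
  have tN : Tendsto (fun m : ℕ => K * m) atTop atTop :=
    tendsto_id.const_mul_atTop' hK0
  have tR : Tendsto (fun m : ℕ => ((K * m : ℕ) : ℝ)) atTop atTop :=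
    tendsto_natCast_atTop_atTop.comp tN
  have tL := Real.tendsto_log_atTop.comp tR
  obtain ⟨m, ⟨⟨⟨⟨⟨hm, h1⟩, h2⟩, h3⟩, h4⟩, h5⟩, h7⟩ := (((((((eventually_ge_atTop 1).and
    (tN.eventually_ge_atTop N₁)).and (tN.eventually_ge_atTop N₂)).and
    (tL.eventually_ge_atTop 2)).and (tL.eventually_gt_atTop Θ)).and
    (tR.eventually (ev_log_pow B one_pos))).and
    (tR.eventually (ev_log_pow (B * s) (inv_pos.2 hK0')))).exists
  obtain ⟨N, hN⟩ : ∃ N, N = K * m := ⟨_, rfl⟩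
  simp only [Function.comp] at h3 h4
  rw [← hN] at h1 h2 h3 h4 h5 h7
  have hN0 : 0 < N := by rw [hN]; positivity
  have hN0' : (0 : ℝ) < N := by exact_mod_cast hN0
  have hNr : (N : ℝ) = K * m := by exact_mod_cast hN
  set ℓ := Real.log N with hℓ
  have hℓ0 : 0 < ℓ := by linarith
  set z := zz B N with hz
  have hz1 : (z : ℝ) ≤ ℓ ^ B := Nat.floor_le (by positivity)
  have hz2 : 2 ≤ z := Nat.le_floor (by
    push_cast
    exact h3.trans (le_self_pow₀ (by linarith) (by omega)))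
  have hz2' : (2 : ℝ) ≤ z := by exact_mod_cast hz2
  have hlz0 : 0 < Real.log z := Real.log_pos (by linarith)
  have hlz : Real.log z ≤ ℓ := Real.log_le_log (by linarith) (by linarith)
  have hzs : (z : ℝ) ^ s ≤ m := by
    calc (z : ℝ) ^ s ≤ (ℓ ^ B) ^ s := by gcongr
      _ = ℓ ^ (B * s) := by rw [pow_mul]
      _ ≤ (K : ℝ)⁻¹ * N := h7
      _ = m := by rw [hNr]; field_simp
  set n := K' * N with hn
  have hmain := hM g D c hg h6 hD hDg hcg (Nat.mod_lt _ hg) z m N n hz2 hm hzs hN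
    (Nat.mul_le_mul_right N (by omega))
  set L := K₂ * ℓ with hL
  have hL0 : 0 ≤ L := by positivity
  have bF : ∀ q g c, Bd (ker (edge q g c N lp)) L := fun q g c =>
    ker_edge_bd q g c N hL0 fun k a b => (abs_lp_le a b).trans (le_mul_of_one_le_left hℓ0.le hK₂)
  have bG : ∀ q g c, Bd (ker (edge q g c N (nu z))) L := fun q g c =>
    ker_edge_bd q g c N hL0 fun k _ _ => (abs_nu_le z k).trans ((hV z hz2).trans (by
      rw [hL]; gcongr))
  set η := C * N / ℓ ^ 15 with hη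
  have f₁ : ∀ α : ℝ, ‖∑ k ∈ (Icc 1 N).filter (fun n => n ≡ c [MOD g]),
      ((lp k - nu z k : ℝ) : ℂ) * ee (k * α)‖ ≤ η := fun α => (hF₁ N h1 α).trans (by
    rw [hη]; gcongr; exact (le_max_left _ _).trans (le_max_left _ _))
  have f₂ : ∀ α : ℝ, ‖∑ k ∈ (Icc 1 N).filter (fun n => n ≡ 0 [MOD 1]),
      ((lp k - nu z k : ℝ) : ℂ) * ee (k * α)‖ ≤ η := fun α => (hF₂ N h2 α).trans (by
    rw [hη]; gcongr; exact (le_max_right _ _).trans (le_max_left _ _))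
  have lt : ∀ q, q ≤ g + D → q * N < n := fun q hq =>
    Nat.mul_lt_mul_of_pos_right (by omega) hN0
  have cg := cut_edge lp (nu z) hg (lt g (by omega)) η (L ^ 2) f₁
  have cD := cut_edge lp (nu z) hD (lt D (by omega)) η (L ^ 2) f₁
  have c1 := cut_edge lp (nu z) one_pos (lt 1 (by omega)) η (L ^ 2) f₂
  have hcount := counting (range n) (bF _ _ _) (bF _ _ _) (bF _ _ _) (bF _ _ _) (bF _ _ _)
    (bG _ _ _) (bG _ _ _) (bG _ _ _) (bG _ _ _) (bG _ _ _) cg c1 c1 cD c1 cg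
  have hpos : 0 < T4 (range n) (ker (edge g g c N lp)) (ker (edge 1 1 0 N lp))
      (ker (edge 1 1 0 N lp)) (ker (edge D g c N lp)) (ker (edge 1 1 0 N lp))
      (ker (edge g g c N lp)) := by
    have hm0 : (0 : ℝ) < m := by exact_mod_cast hm
    have e1 : (N : ℝ) * (κ * m / ℓ ^ 3) ^ 3 ≤ N * (κ * m / Real.log z ^ 3) ^ 3 := by gcongr
    have e2 : 6 * (((range n).card : ℝ) ^ 2 * (L * (η * n * (L ^ 2) ^ 2))) =
        N * (κ * m / ℓ ^ 3) ^ 3 * (Θ / ℓ) := by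
      rw [card_range, hn, hη, hL, hΘ]
      push_cast
      rw [hNr]
      field_simp
    have e3 : Θ / ℓ < 1 := (div_lt_one hℓ0).2 h4
    have e4 : 0 < (N : ℝ) * (κ * m / ℓ ^ 3) ^ 3 := by positivity
    have e5 := mul_lt_mul_of_pos_left e3 e4
    linarith
  unfold T4 S4 at hpos
  obtain ⟨a, -, ha⟩ := exists_ne_zero_of_sum_ne_zero hpos.ne'
  obtain ⟨b, -, hb⟩ := exists_ne_zero_of_sum_ne_zero ha
  obtain ⟨c', -, hc'⟩ := exists_ne_zero_of_sum_ne_zero hb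
  obtain ⟨d, -, hd⟩ := exists_ne_zero_of_sum_ne_zero hc'
  simp only [ne_eq, mul_eq_zero, not_or] at hd
  obtain ⟨⟨⟨⟨⟨d1, d2⟩, d3⟩, d4⟩, d5⟩, d6⟩ := hd
  obtain ⟨x, x1, x2, x3⟩ := ker_edge_ne d1
  obtain ⟨v, v1, v2, -⟩ := ker_edge_ne d2
  obtain ⟨A, A1, A2, -⟩ := ker_edge_ne d3
  obtain ⟨Z, Z1, Z2, Z3⟩ := ker_edge_ne d4
  obtain ⟨u, u1, u2, -⟩ := ker_edge_ne d5
  obtain ⟨y, y1, y2, y3⟩ := ker_edge_ne d6
  exact ⟨x, y, Z, u, v, A, x2, y2, Z2, u2, v2, A2, x3.trans hcc, y3.trans hcc, Z3.trans hcc,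
    by omega, by omega, by omega⟩

end Crest.Agent.T15.K4
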