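import Crest.Agent.T15.Fb_98
import Crest.Agent.T15.K4D_26

/-! # Row 15, block Q: (K4) holds (helper98) -/

set_option autoImplicit false

namespace Crest.Agent.T15.Fb

theorem k4 : Q.K4Stmt := K4.k4Glue k4fb

end Crest.Agent.T15.Fb
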