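import Crest.Agent.T15.Top0_15

/-!
# Row 15 (S0020): top chain, first layer (helper88)

`S0020 ⇐ LGlue, QStmt, HStmt`.
-/

set_option autoImplicit false

namespace Crest.Agent.T15.Top

/-- the statement S0020 -/
def Goal : Prop := ¬ ComputablePred Crest.NumberTheoryR.PolyCode.HasRatZero

/-- `y` lies in the maximal ideal at every prime where `w` has odd valuation -/
def InJ (w y : ℚ) : Prop :=
  ∀ p : ℕ, p.Prime → Odd (padicValRat p w) → y = 0 ∨ 0 < padicValRat p y

/-- BLOCK Q: the full quantifier: sound for every `w`, complete for every prime `w ≡ 1 mod 8`. -/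
def QStmt : Prop :=
  ∃ J : ℚ × ℚ → Prop, Dio J ∧ (∀ w y, J (w, y) → InJ w y) ∧
    ∀ l : ℕ, l.Prime → l % 8 = 1 → ∀ y, InJ l y → J ((l : ℚ), y)

/-- Q at one fixed prime -/
def QFix (p : ℕ) : Prop := Dio fun y : ℚ => y = 0 ∨ 0 < padicValRat p y

theorem inJ_prime {l : ℕ} (hl : l.Prime) (y : ℚ) : InJ l y ↔ (y = 0 ∨ 0 < padicValRat l y) := by
  have := Fact.mk hl
  constructor
  · intro h
    refine h l hl ?_
    rw [padicValRat.self hl.one_lt]; exact odd_one
  · intro h p hp ho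
    by_cases e : p = l
    · subst e; exact h
    · have := Fact.mk hp
      exfalso
      have : padicValRat p (l : ℚ) = 0 := by
        rw [padicValRat.of_nat, padicValNat_primes e]; rfl
      rw [this] at ho
      exact absurd ho (by decide)

/-- Q away from `2, 3` (stronger than needed) -/
def Q1Stmt : Prop :=
  ∃ J : ℚ × ℚ → Prop, Dio J ∧ (∀ w y, J (w, y) → InJ w y) ∧
    ∀ l : ℕ, l.Prime → 3 < l → ∀ y, InJ l y → J ((l : ℚ), y)

theorem q_of (h1 : Q1Stmt) (_h2 : QFix 2) (_h3 : QFix 3) : QStmt := by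
  obtain ⟨J, hJ, hs, hc⟩ := h1
  exact ⟨J, hJ, hs, fun l hl h8 y hy => hc l hl (by have := hl.two_le; omega) y hy⟩

/-- linear forms `c j * y - d j`, a base point `b`, a modulus `M` and a real radius `δ`.  The
denominator of `y` needs no form: at `p ∣ den y`, `p ∤ M`, every form has valuation `v_p y`. -/
structure Nb where
  m : ℕ
  c : Fin m → ℤ
  d : Fin m → ℤ
  M : ℕ
  b : ℚ
  δ : ℚ
  hM : 0 < M
  h24 : 24 ∣ M
  h17 : ¬ 17 ∣ M
  hδ : 0 < δ
  hc : ∀ j, c j ≠ 0
  ne : ∀ j, (c j : ℚ) * b - d j ≠ 0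
  unit : ∀ p : ℕ, p.Prime → ¬ p ∣ M → ∀ j, padicValRat p ((c j : ℚ) * b - d j) = 0

/-- the forms -/
def Nb.fm (D : Nb) (j : Fin D.m) (y : ℚ) : ℚ := (D.c j : ℚ) * y - D.d j

/-- the side conditions of the certificate: `y` is close to `b` at `∞` and at the primes of `M`
(depth `v_p M`), the primes of `S` are `1 mod M`, and outside `M` and `S` the forms have even
valuation. -/
structure Side (D : Nb) (y : ℚ) (S : Finset ℕ) : Prop where
  real : |y - D.b| < D.δ
  adic : ∀ p : ℕ, p.Prime → p ∣ D.M → y = D.b ∨ (padicValNat p D.M : ℤ) ≤ padicValRat p (y - D.b)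
  prime : ∀ p ∈ S, p.Prime
  cls : ∀ p ∈ S, p ≡ 1 [MOD D.M]
  even : ∀ p : ℕ, p.Prime → ¬ p ∣ D.M → p ∉ S → ∀ j, Even (padicValRat p (D.fm j y))

/-- (H): the height bound, polynomial in the radical of `S`. -/
def HStmt : Prop :=
  ∃ (D : Nb) (C : ℝ) (k : ℕ), ∀ (y : ℚ) (S : Finset ℕ), Side D y S →
    Height.logHeight₁ y ≤ C * (∏ p ∈ S, (p : ℝ)) ^ k

/-- BLOCK L -/
def LGlue : Prop := QStmt → HStmt → Goal

theorem goal_of (hL : LGlue) (hQ : QStmt) (hH : HStmt) :
    ¬ ComputablePred Crest.NumberTheoryR.PolyCode.HasRatZero := hL hQ hH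

end Crest.Agent.T15.Top
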