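import Crest.Agent.T15.QHG_22
import Crest.Agent.T15.Top_88

/-!
# Row 15, block Q: `Top.QStmt` from `JStmt` and the prime `2` (helper22)
-/

set_option autoImplicit false

namespace Crest.Agent.T15.Q

theorem q_of_J (hJ : JStmt) (h2 : Top.QFix 2) : Top.QStmt := by
  obtain ⟨J, dJ, sJ, cJ⟩ := hJ
  refine ⟨fun x => J x.1 x.2 ∧ (x.1 - 1 = 0 ∨ 0 < padicValRat 2 (x.1 - 1)), dJ.and
    (Dio.comp (S := fun y : ℚ => y = 0 ∨ 0 < padicValRat 2 y) h2 (g := fun x : ℚ × ℚ => x.1 - 1)
      (by fun_prop)), ?_, ?_⟩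
  · rintro w y ⟨h, h'⟩ p hp ow
    dsimp only at h h'
    by_cases e : p = 2
    · subst e
      exfalso
      have w0 := ne_of_odd ow
      rcases h' with h' | h'
      · rw [sub_eq_zero.1 h'] at ow; simp at ow
      · have := padicValRat.add_eq_of_lt (p := 2) (q := 1) (r := w - 1) (by simpa using w0) one_ne_zero
          (by rintro e; simp [e] at h') (by simpa using h')
        rw [add_sub_cancel] at this
        rw [this] at ow; simp at ow
    · exact sJ w y h p hp e ow
  · intro l hl h1 y hy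
    refine ⟨cJ l hl h1 y ((Top.inJ_prime hl y).1 hy), .inr ?_⟩
    have h1l := hl.one_lt
    have : ((l : ℚ) - 1) = ((l - 1 : ℕ) : ℚ) := by push_cast [h1l.le]; ring
    simp only [this, padicValRat.of_nat]
    exact_mod_cast one_le_padicValNat_of_dvd (p := 2) (by omega) (by omega)

theorem q_of (H : HGStmt) (K : K4Stmt) (h2 : Top.QFix 2) : Top.QStmt := q_of_J (jGlue H K) h2

theorem q_top (C : CMStmt) (K : K4Stmt) (h2 : Top.QFix 2) : Top.QStmt := q_of (hgGlue C) K h2

end Crest.Agent.T15.Q
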