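import Crest.Agent.T15.CmD_33
import Crest.Agent.T15.Cm_13
import Crest.Agent.T15.Cl_28
import Crest.Agent.T15.K4_98
import Crest.Agent.T15.QTop_22
import Crest.Agent.T15.Zl_15

/-!
# Row 15, block Q: assembly (helper33)
-/

set_option autoImplicit false

namespace Crest.Agent.T15.QAll

theorem sqStmt : Cm.SqStmt := fun p q hp hq hp8 hq8 _ _ _ _ hδ hθ hπ σ hσ hO ha hT =>
  CmD.sqrtp p q hp hq hp8 hq8 hδ hθ hπ σ hσ hO ha hT

theorem cmStmt : Q.CMStmt := Cm.cm_of_cl sqStmt Cm.clStmt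

/-- **block Q** -/
theorem qStmt : Top.QStmt := Q.q_top cmStmt Fb.k4 (Zl.qFix Nat.prime_two)

end Crest.Agent.T15.QAll
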