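import Crest.Agent.T15.RTb_3

/-!
# Row 15, block R (helper3): proof of the abstract `R = T` theorem

The data of `patch_fin` at one level, and the theorem `rt : RTStmt`.
-/

set_option autoImplicit false
set_option linter.unusedSectionVars false

noncomputable section

namespace Crest.Agent.T15.RT

open Matrix IsLocalRing Function
open Crest.Agent.T15.Ps Crest.Agent.T15.Pat Crest.Agent.T15.Blr Crest.Agent.T15.Inert
open Crest.Agent.R018.Placesx484

lemma exists_ev_mod {O R σ κ : Type*} [CommRing O] [IsLocalRing O] [IsNoetherianRing O] [CommRing R]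
    [Algebra O R] [Module.Finite O R] [Finite σ] (hO : Cpt (maximalIdeal O)) (xs : σ → R)
    (hx : ∀ i, TN O (xs i)) (u : κ → R) (h : Algebra.adjoin O (Set.range xs ∪ Set.range u) = ⊤)
    (a : R) : ∃ w, a - ev hO xs hx w ∈ Ideal.span (Set.range u) := by
  have ha : a ∈ Algebra.adjoin O (Set.range xs ∪ Set.range u) := h ▸ Algebra.mem_top
  induction ha using Algebra.adjoin_induction with
  | mem a ha =>
    rcases ha with ⟨i, rfl⟩ | ha
    · exact ⟨MvPowerSeries.X i, by simp⟩
    · exact ⟨0, by simpa using Ideal.subset_span ha⟩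
  | algebraMap c => exact ⟨MvPowerSeries.C c, by simp⟩
  | add a b _ _ ha hb =>
    obtain ⟨w, hw⟩ := ha
    obtain ⟨w', hw'⟩ := hb
    exact ⟨w + w', by rw [map_add, add_sub_add_comm]; exact add_mem hw hw'⟩
  | mul a b _ _ ha hb =>
    obtain ⟨w, hw⟩ := ha
    obtain ⟨w', hw'⟩ := hb
    refine ⟨w * w', ?_⟩
    rw [map_mul, show a * b - ev hO xs hx w * ev hO xs hx w' =
      (a - ev hO xs hx w) * b + ev hO xs hx w * (b - ev hO xs hx w') by ring]
    exact add_mem (Ideal.mul_mem_right _ _ hw) (Ideal.mul_mem_left _ _ hw')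

lemma norm_aeval {O A Δ G : Type*} [CommRing O] [CommRing A] [Algebra O A] [CommGroup Δ] [Fintype Δ]
    (dia : Δ →* A) (c : G → Δ) (t : G → A) (P : MvPolynomial G O) :
    (∑ x, dia x) * MvPolynomial.aeval (fun g => dia (c g) * t g) P =
      (∑ x, dia x) * MvPolynomial.aeval t P := by
  have h : ∀ y, (∑ x, dia x) * dia y = ∑ x, dia x := fun y => by
    rw [Finset.sum_mul]
    simp only [← map_mul]
    exact Fintype.sum_equiv (Equiv.mulRight y) _ _ fun _ => rfl
  induction P using MvPolynomial.induction_on with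
  | C a => simp
  | add P Q hP hQ => rw [map_add, map_add, mul_add, mul_add, hP, hQ]
  | mul_X P g hP =>
    rw [map_mul, map_mul, MvPolynomial.aeval_X, MvPolynomial.aeval_X, ← mul_assoc, hP]
    linear_combination MvPolynomial.aeval t P * t g * h (c g)

variable {F E : Type} [Field F] [NumberField F] [Field E] [CharZero E] [IsAlgClosed E]
  [Algebra.IsAlgebraic ℚ E] [Algebra F E] [IsGalois F E]
  {O : Type} [CommRing O] [IsLocalRing O] [IsNoetherianRing O]
  {O' : Type} [CommRing O'] [Algebra O O'] {p n r e : ℕ} {ρ : (E ≃ₐ[F] E) →* M2 O} {Λ : Type}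
  {Pl : Λ → Place E} {d C C' Δ H A : Type} [CommRing C] [Algebra O C] [CommRing C'] [CommGroup Δ]
  [AddCommGroup H] [Module O H] [Module C H] [CommRing A] [Algebra O A] {q' : O' →+* C'}
  {del : Fin r → Δ} {δ : (E ≃ₐ[F] E) →* Δ} {ρH : (E ≃ₐ[F] E) →* Module.End O H}
  {ac : A →ₐ[O] Module.End O H} {dia : Δ →* A} {t : (E ≃ₐ[F] E) → A} {θ : A →+* C'}

/-- passage to the faithful quotient -/
lemma Lev.faithful (hL : Lev p n r e ρ Pl d C q' del δ ρH ac dia t θ) :
    Lev p n r e ρ Pl d C q' del δ ρH (Ideal.kerLiftAlg ac)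
      ((Ideal.Quotient.mk (RingHom.ker ac)).toMonoidHom.comp dia)
      (fun g => Ideal.Quotient.mk (RingHom.ker ac) (t g))
      (Ideal.Quotient.lift (RingHom.ker ac) θ hL.thK) where
  finC := hL.finC
  surj := hL.surj
  ker := hL.ker
  twg := hL.twg
  free := hL.free
  comm g a := by
    obtain ⟨a, rfl⟩ := Ideal.Quotient.mk_surjective a
    exact hL.comm g a
  opnH := hL.opnH
  opnδ := hL.opnδ
  opnρ := hL.opnρ
  ch := hL.ch
  res := hL.res
  tw := hL.tw
  thO := hL.thO
  thD := hL.thD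
  thK a ha := by
    obtain ⟨a, rfl⟩ := Ideal.Quotient.mk_surjective a
    exact hL.thK a ha
  thI := hL.thI
  sel := hL.sel

lemma norm_faithful [Fintype Δ] {P : MvPolynomial (E ≃ₐ[F] E) O}
    (hP : ∑ x, ac (dia x * MvPolynomial.aeval t P) = 0) :
    ∑ x, Ideal.kerLiftAlg ac (((Ideal.Quotient.mk (RingHom.ker ac)).toMonoidHom.comp dia) x *
      MvPolynomial.aeval (fun g => Ideal.Quotient.mk (RingHom.ker ac) (t g)) P) = 0 := by
  rw [← hP]
  refine Finset.sum_congr rfl fun x _ => ?_
  have h : Ideal.Quotient.mk (RingHom.ker ac) (MvPolynomial.aeval t P) =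
      MvPolynomial.aeval (fun g => Ideal.Quotient.mk (RingHom.ker ac) (t g)) P :=
    MvPolynomial.comp_aeval_apply t (Ideal.Quotient.mkₐ O (RingHom.ker ac)) P
  rw [← h]
  rfl

lemma exists_dim (S : Type*) [CommRing S] [IsLocalRing S] [IsNoetherianRing S] :
    ∃ D : ℕ, ringKrullDim S = D := by
  have h1 := ringKrullDim_ne_top (R := S)
  have h2 := ringKrullDim_ne_bot (R := S)
  generalize ringKrullDim S = z at h1 h2
  induction z using WithBot.recBotCoe with
  | bot => exact absurd rfl h2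
  | coe z =>
    induction z using ENat.recTopCoe with
    | top => exact absurd rfl h1
    | coe z => exact ⟨z, rfl⟩

/-- the hypotheses of `patch_fin` at one level -/
def Out (e : ℕ) {S B T O C O' C' d ι κ : Type} [CommRing S] [CommRing B] [CommRing T] [CommRing O]
    [CommRing C] [CommRing O'] [CommRing C'] [Fintype d] [DecidableEq d] (p : S →+* B)
    (q : O →+* C) (q' : O' →+* C') (ε : S →+* O) (ε' : S →+* O') (cst : κ → O') (c : O)
    (φ : T →+* Matrix d d B) (s ψ : S →+* T) (x : T →+* C) (θ : T →+* C') (u v : κ → T)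
    (y : ι → T) : Prop :=
  (∀ a, φ (s a) = Matrix.scalar d (p a)) ∧ (∀ a, x (s a) = q (ε a)) ∧ (∀ a, θ (s a) = q' (ε' a)) ∧
    RingHom.ker φ ≤ RingHom.ker θ ∧ (∀ j, φ (u j * v j) ^ e = 0) ∧ (∀ j, θ (v j) = q' (cst j)) ∧
    (∀ j, x (u j) = 0) ∧ (∀ i, x (y i) = 0) ∧
    (∀ i, ∃ w, x (ψ w) = 0 ∧ (y i ^ 2 - ψ w * (1 + y i)) ^ e ∈ Ideal.span (Set.range u)) ∧
    (∀ a, ∃ P : MvPolynomial ι S, a - MvPolynomial.eval₂Hom ψ y P ∈ Ideal.span (Set.range u)) ∧
    ∃ t, (∀ i j, φ t i j ∈ (RingHom.ker ε).map p) ∧ x t = q c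

set_option maxHeartbeats 800000 in
theorem level (hG : Glob p ρ Pl) (hL : Lev p n r e ρ Pl d C q' del δ ρH ac dia t θ)
    (hac : Injective ac) [Fintype Δ] [Fintype d] [DecidableEq d] [IsScalarTower O C H]
    [Module.Finite O C] (P : MvPolynomial (E ≃ₐ[F] E) O)
    (hP : ∑ x, ac (dia x * MvPolynomial.aeval t P) = 0) :
    ∃ (T : Type) (_ : CommRing T) (φ : T →+* Matrix d d (MonoidAlgebra C Δ))
      (s ψ : MvPowerSeries (Fin r) O →+* T) (x : T →+* C) (θ' : T →+* C') (u v : Λ × Bool → T)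
      (y : Fin r → T), Out (e + 2) (hL.twg.gr C hG.cpt hG.prime hG.pmem) (algebraMap O C) q'
        MvPowerSeries.constantCoeff ((algebraMap O O').comp MvPowerSeries.constantCoeff)
        (fun j => ((Pl j.1).qv F : O') ^ 2 - 1) (MvPolynomial.aeval (fun g => (ρ g).trace) P)
        φ s ψ x θ' u v y := by
  have hfC := hL.finC
  obtain ⟨m, hli, hsp⟩ := hL.free
  have : Module.Finite C H := ⟨⟨(Set.finite_range _).toFinset, by rwa [Set.Finite.coe_toFinset]⟩⟩
  have : Finite H := Module.finite_of_finite C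
  have : Finite A := Finite.of_injective (fun a v => ac a v) fun a b h => hac (LinearMap.ext fun v =>
    congrFun h v)
  obtain ⟨φ, L, f1, f2, f3, f4⟩ := exists_phi hL.surj ac hac dia m hli hsp
  obtain ⟨M, hM⟩ := exp_twg hL.twg
  obtain ⟨sq, -, hsq, -⟩ := exists_sqrt_inv (MonoidHom.id Δ)
    ((hG.prime.odd_of_ne_two hG.odd).pow (n := M)) hM
  obtain ⟨u, v, xs, g1, g2, g3, g4, g5⟩ := gal_step hG hL hac sq hsq
  let R := trRing O (fun g => dia (sq (δ g)) * t g) (bar C ρ)
  let Y : Fin r → A × C := fun i => (dia (sq (del i) * del i) - 1, 0)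
  let T := Algebra.adjoin O ((R : Set (A × C)) ∪ Set.range Y)
  let inc : R →ₐ[O] T := Subalgebra.inclusion fun a ha => Algebra.subset_adjoin (Or.inl ha)
  let y : Fin r → T := fun i => ⟨Y i, Algebra.subset_adjoin (Or.inr ⟨i, rfl⟩)⟩
  let al : T →ₐ[O] A := (AlgHom.fst O A C).comp T.val
  let x : T →ₐ[O] C := (AlgHom.snd O A C).comp T.val
  have hext : ∀ a : T, al a = 0 → x a = 0 → a = 0 := fun a h1 h2 => Subtype.ext (Prod.ext h1 h2)
  have hz : ∀ i, dia (sq (del i) * del i) ^ 2 = dia (del i) := fun i => by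
    rw [← map_pow, mul_pow, pow_two (del i), ← mul_assoc]
    exact congrArg (fun w => dia (w * del i)) (hsq _) |>.trans (by rw [one_mul])
  have hal : ∀ i, al ((1 + y i) ^ 2) = dia (del i) := fun i => by
    rw [← hz, map_pow, map_add, map_one]
    exact congrArg (· ^ 2) (add_sub_cancel _ _)
  have hx0 : ∀ i, x (y i) = 0 := fun _ => rfl
  have hx : ∀ i, x ((1 + y i) ^ 2) = 1 := fun i => by
    rw [map_pow, map_add, map_one, hx0, add_zero, one_pow]
  have hs : ∀ i, TN O ((1 + y i) ^ 2 - 1) := fun i =>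
    TN.sub_one hG.prime hG.pmem (m := M) (sub_eq_zero.1 (hext _
      (by rw [map_sub, map_pow, hal, ← map_pow, hM, map_one, map_one, sub_self])
      (by rw [map_sub, map_pow, hx, one_pow, map_one, sub_self])))
  let s := ev hG.cpt _ hs
  let ψ := inc.toRingHom.comp (ev hG.cpt xs fun i => TN.of_nilpotent (g2 i))
  have hmod : ∀ a : R, ∃ w, inc a - ψ w ∈ Ideal.span (Set.range fun j => inc (u j)) := fun a => by
    obtain ⟨w, hw⟩ := exists_ev_mod hG.cpt xs (fun i => TN.of_nilpotent (g2 i)) u g1 a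
    have := Ideal.mem_map_of_mem inc.toRingHom hw
    rw [Ideal.map_span, ← Set.range_comp, map_sub] at this
    exact ⟨w, this⟩
  have hxu : Ideal.span (Set.range fun j => inc (u j)) ≤ RingHom.ker x :=
    Ideal.span_le.2 (by rintro _ ⟨j, rfl⟩; exact g4 j)
  have hsL : al.toRingHom.comp s = L.comp (hL.twg.gr C hG.cpt hG.prime hG.pmem) :=
    fin_ext hG.cpt (fun a => by
      rw [RingHom.comp_apply, RingHom.comp_apply, TWg.gr_C, f3, ev_C]; exact al.commutes a)
      (fun i => by
        rw [RingHom.comp_apply, RingHom.comp_apply, TWg.gr_X, ev_X, map_sub, map_sub, f2, map_one,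
          map_one]
        exact congrArg (· - 1) (hal i))
      fun i => by rw [RingHom.comp_apply, ev_X]; exact (hs i).mapₐ al
  refine ⟨T, inferInstance, φ.comp al.toRingHom, s, ψ, x.toRingHom, θ.comp al.toRingHom,
    fun j => inc (u j), fun j => inc (v j), y, fun a => ?_, fun a => ?_, fun a => ?_,
    fun a ha => ?_, fun j => ?_, fun j => ?_, g4, hx0, fun i => ?_, fun a => ?_, ?_⟩
  · rw [← f4]; exact congrArg φ (RingHom.congr_fun hsL a)
  · refine RingHom.congr_fun (mv_ext_zero (g := x.toRingHom.comp s)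
      (g' := (algebraMap O C).comp MvPowerSeries.constantCoeff) (fun a => ?_) (fun i => ?_)
      fun i => by simp) a
    · rw [RingHom.comp_apply, ev_C]; exact (x.commutes a).trans (by simp)
    · rw [RingHom.comp_apply, ev_X, map_sub, map_one]; exact sub_eq_zero.2 (hx i)
  · refine RingHom.congr_fun (mv_ext_zero (g := (θ.comp al.toRingHom).comp s)
      (g' := q'.comp ((algebraMap O O').comp MvPowerSeries.constantCoeff)) (fun a => ?_)
      (fun i => ?_) fun i => by simp) a
    · rw [RingHom.comp_apply, ev_C]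
      exact (congrArg θ (al.commutes a)).trans ((hL.thO a).trans (by simp))
    · rw [RingHom.comp_apply, ev_X, map_sub, map_one]
      exact sub_eq_zero.2 ((congrArg θ (hal i)).trans (hL.thD _))
  · have h0 : al a = 0 := f1 (ha.trans (map_zero φ).symm)
    exact (congrArg θ h0).trans (map_zero θ)
  · rw [← map_mul, ← map_pow, ← map_pow, pow_add, g3, mul_zero, map_zero, map_zero]
  · rw [map_sub, map_pow, map_natCast, map_one]; exact g5 j
  · obtain ⟨τ, t1, t2, t3⟩ := hL.tw i
    obtain ⟨w, hw⟩ := hmod (trT O _ _ τ - 2)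
    have h1 : x (inc (trT O _ _ τ - 2)) = 0 := by
      rw [map_sub, map_sub, map_ofNat, map_ofNat]
      change (bar C ρ τ).trace - 2 = 0
      rw [trace_bar, t2]; simp [map_ofNat]
    have h2 : al (y i ^ 2 - inc (trT O _ _ τ - 2) * (1 + y i)) = -(t τ - 1 - dia (del i)) := by
      rw [map_sub inc, map_ofNat]
      simp only [map_sub, map_mul, map_pow, map_add, map_one, map_ofNat]
      change (dia (sq (del i) * del i) - 1) ^ 2 -
        (dia (sq (δ τ)) * t τ - 2) * (1 + (dia (sq (del i) * del i) - 1)) = _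
      have h3 : dia (sq (del i)) * dia (sq (del i) * del i) = 1 := by
        rw [← map_mul, ← mul_assoc, ← pow_two]; exact (congrArg dia (hsq _)).trans (map_one _)
      rw [t1]
      linear_combination hz i - t τ * h3
    have h3 : (y i ^ 2 - inc (trT O _ _ τ - 2) * (1 + y i)) ^ (e + 2) = 0 := hext _
      (by
        rw [map_pow, h2, neg_pow, pow_add (_ - _), hac ((map_pow ac _ _).trans
          (t3.trans (map_zero ac).symm)), zero_mul, mul_zero])
      (by rw [map_pow, map_sub, map_mul, map_pow, h1, hx0]; simp)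
    refine ⟨w, ?_, ?_⟩
    · have := hxu hw
      rwa [RingHom.mem_ker, map_sub, h1, zero_sub, neg_eq_zero] at this
    · rw [← Ideal.Quotient.eq_zero_iff_mem, ← map_zero (Ideal.Quotient.mk _), ← h3]
      simp only [map_pow, map_sub, map_mul]
      rw [← Ideal.Quotient.eq.2 hw, map_sub inc, map_sub]
  · obtain ⟨a, ha⟩ := a
    set I := Ideal.span (Set.range fun j => inc (u j))
    have : Ideal.Quotient.mk I ⟨a, ha⟩ ∈
        ((Ideal.Quotient.mk I).comp (MvPolynomial.eval₂Hom ψ y)).range := by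
      induction ha using Algebra.adjoin_induction with
      | mem a ha =>
        rcases ha with ha | ⟨i, rfl⟩
        · obtain ⟨w, hw⟩ := hmod ⟨a, ha⟩
          refine ⟨MvPolynomial.C w, ?_⟩
          rw [RingHom.comp_apply, MvPolynomial.eval₂Hom_C]
          exact (Ideal.Quotient.eq.2 hw).symm
        · exact ⟨MvPolynomial.X i, by rw [RingHom.comp_apply, MvPolynomial.eval₂Hom_X']⟩
      | algebraMap c =>
        refine ⟨MvPolynomial.C (MvPowerSeries.C c), ?_⟩
        rw [RingHom.comp_apply, MvPolynomial.eval₂Hom_C, RingHom.comp_apply, ev_C]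
        rfl
      | add a b _ _ ha hb => exact add_mem ha hb
      | mul a b _ _ ha hb => exact mul_mem ha hb
    obtain ⟨Q, hQ⟩ := this
    exact ⟨Q, Ideal.Quotient.eq.1 hQ.symm⟩
  · let tT : (E ≃ₐ[F] E) → R := trT O _ _
    refine ⟨inc (MvPolynomial.aeval tT P), fun i j => ?_, ?_⟩
    · have h1 : al (inc (MvPolynomial.aeval tT P)) =
          MvPolynomial.aeval (fun g => dia (sq (δ g)) * t g) P :=
        MvPolynomial.comp_aeval_apply tT (al.comp inc) P
      have h2 : (∑ x, dia x) * MvPolynomial.aeval t P = 0 :=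
        hac (by rw [Finset.sum_mul, map_sum, hP, map_zero])
      have h3 := congrArg φ ((norm_aeval dia (fun g => sq (δ g)) t P).trans h2)
      rw [map_mul, ← h1, ← Finset.sum_congr rfl fun x _ => f2 x, ← map_sum, f4, map_zero] at h3
      refine mem_of_norm hL.twg _ _ _ hL.surj ?_
      have h4 := congrFun (congrFun h3 i) j
      rwa [scalar_apply, diagonal_mul] at h4
    · refine (MvPolynomial.comp_aeval_apply tT (x.comp inc) P).trans ?_
      refine Eq.trans ?_ (MvPolynomial.comp_aeval_apply _ (Algebra.ofId O C) P).symm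
      exact congrArg (MvPolynomial.aeval · P) (funext fun g => trace_bar ρ g)

/-- **abstract `R = T`** -/
theorem rt : RTStmt := by
  intro F E _ _ _ _ _ _ _ _ O _ _ _ _ O' _ _ _ _ J' p r e ρ Λ _ Pl d _ _ C C' Δ H A _ _ _ _ _ _ _ _ _
    _ _ q' del δ ρH ac dia t θ hG hO' hL P hP
  classical
  have := Fintype.ofFinite Λ
  have := Fintype.ofFinite d
  have : ∀ n, Module.Finite O (C n) := fun n => Module.Finite.of_surjective
    (Algebra.linearMap O (C n)) (hL n).surj
  have hC : Sys (maximalIdeal O) fun n => algebraMap O (C n) :=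
    ⟨hG.cpt, fun n => (hL n).surj, fun n => (hL n).ker.trans (Ideal.pow_le_pow_right n.le_succ)⟩
  choose T iT φ s ψ x θ' u v y h using fun n => level hG (hL n).faithful
    (Ideal.kerLiftAlg_injective (ac n)) P (norm_faithful (hP n))
  have : IsDomain (MvPowerSeries (Fin r) O) := NoZeroDivisors.to_isDomain _
  obtain ⟨D, hD⟩ := exists_dim (MvPowerSeries (Fin r) O)
  refine patch_fin (sys_gr hG.prime hG.pmem hC fun n => (hL n).twg) (cpt_mv hG.cpt _) hC hO' hD.le
    hD.ge φ s (fun n => (h n).1) ψ x _ (fun n => (h n).2.1) θ' _ (fun n => (h n).2.2.1)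
    (fun n => (h n).2.2.2.1) (Nat.succ_pos _) u v _ (fun j h0 => ?_) (fun n => (h n).2.2.2.2.1)
    (fun n => (h n).2.2.2.2.2.1) (fun n => (h n).2.2.2.2.2.2.1) y (fun n => (h n).2.2.2.2.2.2.2.1)
    (fun n => (h n).2.2.2.2.2.2.2.2.1) (fun n => (h n).2.2.2.2.2.2.2.2.2.1)
    fun n => (h n).2.2.2.2.2.2.2.2.2.2
  have h1 := Place.one_lt_qv (F := F) (Pl j.1)
  have h2 : (Pl j.1).qv F ^ 2 = 1 := by exact_mod_cast sub_eq_zero.1 h0
  nlinarith

end Crest.Agent.T15.RT

end
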