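import Crest.Agent.T15.TopC_88
import Crest.Agent.T15.RDef_20
import Crest.Agent.T15.RT_3
import Crest.Agent.T15.TwAsm_16

/-!
# Row 15: the final glue, on the outputs of the blocks (helper88)
-/

set_option autoImplicit false

noncomputable section

namespace Crest.Agent.T15.Top

open Crest.Agent.T15.C (Om Gam)

/-- a statement for the local data of every `Fl.Loc3` -/
def AllX (A : Lc → Prop) : Prop :=
  ∀ (ι : Om →+* ℂ) (P : Plc) (h3 : P.rchar = 3) (L : Fl.Loc3 ι P), A (Lc.of h3 L)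

theorem AllX.exists {A : Lc → Prop} (h : AllX A) : ∃ (ι : Om →+* ℂ) (P : Plc) (h3 : P.rchar = 3)
    (L : Fl.Loc3 ι P), A (Lc.of h3 L) := by
  obtain ⟨P, hP⟩ := TwAsm.exists_place_rchar Nat.prime_three
  let ι : Om →+* ℂ := (IsAlgClosed.lift : Om →ₐ[ℚ] ℂ)
  obtain ⟨L⟩ := Fl.setup Om ι P hP
  exact ⟨ι, P, hP, L, h ι P hP L⟩

theorem final {Lk : LkT} {D : Nb} {G : Type} [Group G] {𝓛 : R.Lv G} (hL : LGlue) (hQ : QStmt)
    (hF : AllX fun X => FStmt X Lk D) (hHt : HtStmt Lk) (hE : EmbStmt) (hX : ExtStmt)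
    (hRes : ResStmt) (hD : AllX DihStmt) (hR : R.RStmt) (hW : C.TWStmt) (hM : C.ModI)
    (h3 : AllX R.L3Out) (hT : AllX fun X => R.TOut X 𝓛) (hEsc : R.EscOut 𝓛) :
    ¬ ComputablePred Crest.NumberTheoryR.PolyCode.HasRatZero := by
  obtain ⟨ι, P, hP, L, h⟩ := hF.exists
  exact top hL hQ h hHt hE (bGlue _ hX hRes (hD ι P hP L))
    (hR _ G 𝓛 RT.rt hW (theta_of hM) (h3 ι P hP L) (hT ι P hP L) hEsc)

end Crest.Agent.T15.Top
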