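import Crest.Agent.T15.LAll_15
import Crest.Agent.T15.TopD_88
import Crest.Agent.T15.QAll_33
import Crest.Agent.T15.CAll_7
import Crest.Agent.T15.ModAll_73
import Crest.Agent.T15.Dih_27
import Crest.Agent.T15.Ext_41
import Crest.Agent.T15.Res_67
import Crest.Agent.T15.FlOut_23

/-!
# Row 15: `Top.final` with the closed blocks discharged (helper15)
-/

set_option autoImplicit false

namespace Crest.Agent.T15.Top

theorem final0 {Lk : LkT} {D : Nb} {G : Type} [Group G] {𝓛 : R.Lv G}
    (hF : AllX fun X => FStmt X Lk D) (hHt : HtStmt Lk) (hR : R.RStmt)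
    (hT : AllX fun X => R.TOut X 𝓛) (hEsc : R.EscOut 𝓛) :
    ¬ ComputablePred Crest.NumberTheoryR.PolyCode.HasRatZero :=
  final LAll.lGlue QAll.qStmt hF hHt embStmt extStmt Rb.resStmt
    (fun _ _ h3 L => Dih.dihStmt L h3) hR C.twStmt_all C.modI_all
    (fun _ _ h3 L => FlTop.l3Out h3 L) hT hEsc

end Crest.Agent.T15.Top
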