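import Crest.Agent.T15.LDef_15

/-!
# Row 15, block L: `K` disjoint systems give multiplication (helper15)
-/

set_option autoImplicit false

namespace Crest.Agent.T15.Fin

open Val LDef Height

/-- two numbers have no common prime of odd valuation -/
theorem exists_dj (hQ : Top.QStmt) : ∃ Dj : ℚ → ℚ → Prop, (Dio fun q : ℚ × ℚ => Dj q.1 q.2) ∧
    (∀ w w', Dj w w' → ∀ p : ℕ, p.Prime → Odd (padicValRat p w) → ¬ Odd (padicValRat p w')) ∧
    ∀ l l' : ℕ, Vis l → Vis l' → l ≠ l' → Dj l l' := by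
  obtain ⟨J, dJ, sJ, cJ⟩ := hQ
  refine ⟨fun w w' => ∃ j, J (w, j) ∧ J (w', 1 - j), .ex (.and (dJ.comp (by fun_prop))
    (dJ.comp (by fun_prop))), fun w w' ⟨j, h1, h2⟩ p hp o1 o2 => not_pz_one (p := p) ?_,
    fun l l' ⟨hl, h8, _⟩ ⟨hl', h8', _⟩ h => ?_⟩
  · simpa using Pz.add hp (sJ _ _ h1 p hp o1) (sJ _ _ h2 p hp o2)
  · obtain ⟨u, v, huv⟩ := Nat.isCoprime_iff_coprime.2 ((Nat.coprime_primes hl hl').2 h)
    refine ⟨(u * l : ℤ), cJ l hl (h8.of_dvd (by decide : 8 ∣ 24)) _ ((Top.inJ_prime hl _).2 ((pz_int hl).2 (dvd_mul_left _ _))),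
      cJ l' hl' (h8'.of_dvd (by decide : 8 ∣ 24)) _ ((Top.inJ_prime hl' _).2 ?_)⟩
    have : (1 : ℚ) - (u * l : ℤ) = (v * l' : ℤ) := by rw [sub_eq_iff_eq_add']; exact_mod_cast huv.symm
    exact this ▸ (pz_int hl').2 (dvd_mul_left _ _)

variable {V : Type} [AddCommGroup V] [Module ℚ V] {n : ℕ} (M : Model V n)

/-- `z = x y` modulo the primes of `w` -/
def Link (w : ℚ) (x y z : V) : Prop :=
  ∃ r : ℚ × ℚ, M.Read w x r.1 ∧ M.Read w y r.2 ∧ M.Read w z (r.1 * r.2)

theorem dio_link : Dio fun q : ℚ × V × V × V => Link M q.1 q.2.1 q.2.2.1 q.2.2.2 :=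
  .ex (.and (M.dR.comp (g := fun q : (ℚ × V × V × V) × ℚ × ℚ => (q.1.1, q.1.2.1, q.2.1)) (by fun_prop))
    (.and (M.dR.comp (g := fun q : (ℚ × V × V × V) × ℚ × ℚ => (q.1.1, q.1.2.2.1, q.2.2)) (by fun_prop))
      (M.dR.comp (g := fun q : (ℚ × V × V × V) × ℚ × ℚ => (q.1.1, q.1.2.2.2, q.2.1 * q.2.2))
        (by fun_prop))))

theorem link_sound {w : ℚ} {a b c : ℤ} (h : Link M w (M.rep a) (M.rep b) (M.rep c)) {p : ℕ}
    (hp : p.Prime) (hB : M.B0 < p) (ho : Odd (padicValRat p w)) : (p : ℤ) ∣ a * b - c := by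
  obtain ⟨⟨x, y⟩, h1, h2, h3⟩ := h
  have h1 := M.sound _ _ _ h1 p hp hB ho
  have h2 := M.sound _ _ _ h2 p hp hB ho
  have h3 := M.sound _ _ _ h3 p hp hB ho
  have := ((h3.sub hp (h1.mul hp h2)).sub hp (h1.mul_int hp b)).sub hp (h2.mul_int hp a)
  refine (pz_int hp).1 (cast (congrArg _ ?_) this)
  push_cast
  ring

theorem link_complete {p : ℕ} (hp : Vis p) (hB : M.B0 < p) (a b : ℤ) :
    Link M p (M.rep a) (M.rep b) (M.rep (a * b)) :=
  ⟨(a, b), M.complete p hp hB a, M.complete p hp hB b, by simpa using M.complete p hp hB (a * b)⟩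

theorem final_ineq {X P C D : ℝ} {K k : ℕ} (hk : 0 < k) (hK : K = 2 * k) (hD : 0 < D) (hP : 0 ≤ P)
    (hX : 1 ≤ X) (hC : 0 ≤ C) (h1 : X ^ K ≤ D ^ K * P ^ k) (h2 : P ≤ C * (1 + X)) :
    X ≤ 2 * C * D ^ 2 := by
  rw [hK, pow_mul, pow_mul, ← mul_pow] at h1
  have h3 := le_of_pow_le_pow_left₀ hk.ne' (by positivity) h1
  have h4 : X * X ≤ 2 * C * D ^ 2 * X := by
    have : P ≤ 2 * C * X := by nlinarith
    nlinarith [mul_le_mul_of_nonneg_left this (sq_nonneg D)]
  exact le_of_mul_le_mul_right h4 (by linarith)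

include M in
theorem goal_of [Module.Finite ℚ V] (hQ : Top.QStmt) (hS : SzStmt) : Top.Goal := by
  classical
  obtain ⟨Dj, dD, sD, cD⟩ := exists_dj hQ
  obtain ⟨m, Sz, C1, k0, dS, sS, cS⟩ := hS
  -- constants
  let k := k0 + 1
  let N0 : ℝ := ∏ p ∈ Finset.Icc 1 M.B0, (p : ℝ)
  have hN0 : 1 ≤ N0 := Finset.one_le_prod fun p hp => by exact_mod_cast (Finset.mem_Icc.1 hp).1
  let Λ := Option (Fin 3 × Fin n)
  let D : ℝ := Fintype.card Λ * ((|C1| + 1) * N0 ^ k0)
  have hD : 0 < D := mul_pos (by exact_mod_cast Fintype.card_pos) (by positivity)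
  obtain ⟨r0, hr0⟩ : ∃ r0 : ℚ, max 1 (2 * (3 * |M.C|) * D ^ 2) < logHeight₁ r0 := by
    by_contra h
    push Not at h
    exact Set.infinite_univ ((NumberField.finite_setOfPred_logHeight₁_le (K := ℚ) _).subset
      fun x _ => h x)
  let r : V × V × V → Λ → ℚ := fun q l =>
    l.elim r0 fun t => M.co t.2 (![q.1, q.2.1, q.2.2] t.1)
  have pr : ∀ l, PolM fun q => r q l := by
    rintro (_ | ⟨t, i⟩)
    · exact .const r0
    · refine (M.pco i).comp ?_
      fin_cases t <;> simp <;> fun_prop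
  let Pt : V → Prop := fun v => ∃ a, M.rep a = v
  let Mul : V → V → V → Prop := fun x y z => Pt x ∧ Pt y ∧ Pt z ∧
    ∃ W : Fin (2 * k) → Λ → Fin m → ℚ, (∀ s l, Sz (r (x, y, z) l) (W s l)) ∧
      (∀ s l j, Link M (W s l j) x y z) ∧ ∀ s s' l l' j j', s ≠ s' → Dj (W s l j) (W s' l' j')
  have hr : ∀ a, Function.invFun M.rep (M.rep a) = a := Function.leftInverse_invFun M.inj
  refine Top0.s0020_of_model (Function.invFun M.rep) M.rep hr
    (fun x y z => Pt x ∧ Pt y ∧ M.Add x y z) Mul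
    (.and (M.dPt.comp (by fun_prop)) (.and (M.dPt.comp (by fun_prop)) M.dA))
    (.and (M.dPt.comp (by fun_prop)) (.and (M.dPt.comp (by fun_prop)) (.and (M.dPt.comp (by fun_prop))
      (.ex (.and (.forall_fin fun s => .forall_fin fun l => ?_)
        (.and (.forall_fin fun s => .forall_fin fun l => .forall_fin fun j => ?_)
          (.forall_fin fun s => .forall_fin fun s' => .forall_fin fun l => .forall_fin fun l' =>
            .forall_fin fun j => .forall_fin fun j' => ?_))))))) ?_ ?_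
    (fun a b => ⟨⟨_, rfl⟩, ⟨_, rfl⟩, (M.add_iff _ _ _).2 rfl⟩)
    fun a b => ⟨⟨_, rfl⟩, ⟨_, rfl⟩, ⟨_, rfl⟩, ?_⟩
  · exact dS.comp (g := fun q : (V × V × V) × (Fin (2 * k) → Λ → Fin m → ℚ) => (r q.1 l, q.2 s l))
      (.prodMk ((pr l).comp (by fun_prop)) (by fun_prop))
  · exact (dio_link M).comp
      (g := fun q : (V × V × V) × (Fin (2 * k) → Λ → Fin m → ℚ) => (q.2 s l j, q.1)) (by fun_prop)
  · by_cases h : s = s'
    · exact Dio.true.congr fun _ => by simp [h]
    · exact (dD.comp (g := fun q : (V × V × V) × (Fin (2 * k) → Λ → Fin m → ℚ) =>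
        (q.2 s l j, q.2 s' l' j')) (by fun_prop)).congr fun _ => by simp [h]
  · rintro _ _ z ⟨⟨a, rfl⟩, ⟨b, rfl⟩, h⟩
    rw [(M.add_iff _ _ _).1 h, hr, hr, hr]
  · rintro _ _ _ ⟨⟨a, rfl⟩, ⟨b, rfl⟩, ⟨c, rfl⟩, W, h1, h2, h3⟩
    rw [hr, hr, hr]
    by_contra hne
    have fin : ∀ s, {p : ℕ | p.Prime ∧ M.B0 < p ∧ ∃ l j, Odd (padicValRat p (W s l j))}.Finite :=
      fun s => (Set.finite_iUnion fun l => Set.finite_iUnion fun j => finite_odd (W s l j)).subset
        fun p ⟨hp, _, l, j, h⟩ => Set.mem_iUnion₂.2 ⟨l, j, hp, h⟩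
    let S : Fin (2 * k) → Finset ℕ := fun s => (fin s).toFinset
    have hS : ∀ s p, p ∈ S s ↔ p.Prime ∧ M.B0 < p ∧ ∃ l j, Odd (padicValRat p (W s l j)) :=
      fun s p => Set.Finite.mem_toFinset _
    let R : Fin (2 * k) → ℝ := fun s => ∏ p ∈ S s, (p : ℝ)
    have hR : ∀ s, 1 ≤ R s := fun s => Finset.one_le_prod fun p hp => by
      exact_mod_cast ((hS s p).1 hp).1.one_le
    let X : ℝ := ∑ l, logHeight₁ (r (M.rep a, M.rep b, M.rep c) l)
    have hX0 : logHeight₁ r0 ≤ X :=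
      Finset.single_le_sum (f := fun l => logHeight₁ (r (M.rep a, M.rep b, M.rep c) l))
        (fun _ _ => zero_le_logHeight₁ _) (Finset.mem_univ none)
    have hXR : ∀ s, X ≤ D * R s ^ k := fun s => by
      refine (Finset.sum_le_card_nsmul _ _ ((|C1| + 1) * N0 ^ k0 * R s ^ k) fun l _ => ?_).trans_eq
        (by rw [nsmul_eq_mul, ← mul_assoc]; rfl)
      let S0 := (Finset.Icc 1 M.B0).filter Nat.Prime
      refine (sS _ _ (h1 s l) (S0 ∪ S s) (fun p hp => ?_) fun p hp j ho => ?_).trans ?_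
      · exact (Finset.mem_union.1 hp).elim (fun h => (Finset.mem_filter.1 h).2) fun h => ((hS s p).1 h).1
      · by_cases h : M.B0 < p
        · exact Finset.mem_union_right _ ((hS s p).2 ⟨hp, h, l, j, ho⟩)
        · exact Finset.mem_union_left _ (Finset.mem_filter.2 ⟨Finset.mem_Icc.2 ⟨hp.one_le, not_lt.1 h⟩, hp⟩)
      · have e1 : ∏ p ∈ S0 ∪ S s, (p : ℝ) ≤ N0 * R s := by
          rw [Finset.prod_union (Finset.disjoint_left.2 fun p h h' =>
            (Finset.mem_Icc.1 (Finset.mem_filter.1 h).1).2.not_gt ((hS s p).1 h').2.1)]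
          refine mul_le_mul_of_nonneg_right (Finset.prod_le_prod_of_subset_of_one_le
            (Finset.filter_subset _ _) (fun _ _ => Nat.cast_nonneg _) fun p hp _ => ?_) (by linarith [hR s])
          exact_mod_cast (Finset.mem_Icc.1 hp).1
        have e2 := hR s
        calc _ ≤ (|C1| + 1) * (N0 * R s) ^ k0 := by
              gcongr
              linarith [le_abs_self C1]
          _ ≤ _ := by
              rw [mul_pow, ← mul_assoc]
              gcongr
              exact Nat.le_succ _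
    have hdvd : (∏ s, ∏ p ∈ S s, (p : ℤ)) ∣ a * b - c := by
      rw [← Finset.prod_biUnion fun s _ s' _ hss' => Finset.disjoint_left.2 fun p hp hp' => by
        obtain ⟨hp, -, l, j, ho⟩ := (hS s p).1 hp
        obtain ⟨-, -, l', j', ho'⟩ := (hS s' p).1 hp'
        exact sD _ _ (h3 s s' l l' j j' hss') p hp ho ho']
      refine Finset.prod_dvd_of_coprime (fun p hp p' hp' h => ?_) fun p hp => ?_
      · obtain ⟨s, -, hs⟩ := Finset.mem_biUnion.1 (Finset.mem_coe.1 hp)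
        obtain ⟨s', -, hs'⟩ := Finset.mem_biUnion.1 (Finset.mem_coe.1 hp')
        exact Nat.isCoprime_iff_coprime.2 ((Nat.coprime_primes ((hS _ _).1 hs).1 ((hS _ _).1 hs').1).2 h)
      · obtain ⟨s, -, hs⟩ := Finset.mem_biUnion.1 hp
        obtain ⟨hp, hB, l, j, ho⟩ := (hS s p).1 hs
        exact link_sound M (h2 s l j) hp hB ho
    have hP : ∏ s, R s ≤ 3 * |M.C| * (1 + X) := by
      have e1 : ∏ s, R s ≤ |(a : ℝ) * b - c| := by
        have := Int.le_of_dvd (abs_pos.2 (sub_ne_zero.2 (Ne.symm hne))) ((dvd_abs _ _).2 hdvd)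
        have := (Int.cast_le (R := ℝ)).2 this
        push_cast at this
        exact this
      have e2 : ∀ (t : Fin 3) (x : ℤ), ![M.rep a, M.rep b, M.rep c] t = M.rep x →
          (x : ℝ) ^ 2 ≤ |M.C| * (1 + X) := fun t x hx => by
        have e3 : ∑ i, logHeight₁ (M.co i (M.rep x)) ≤ X := by
          simp only [X, Λ, Fintype.sum_option, Fintype.sum_prod_type, r, Option.elim, ← hx]
          exact le_add_of_nonneg_of_le (zero_le_logHeight₁ _) (Finset.single_le_sum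
            (f := fun t => ∑ i, logHeight₁ (M.co i (![M.rep a, M.rep b, M.rep c] t)))
            (fun _ _ => Finset.sum_nonneg fun _ _ => zero_le_logHeight₁ _) (Finset.mem_univ t))
        have e4 : 0 ≤ ∑ i, logHeight₁ (M.co i (M.rep x)) :=
          Finset.sum_nonneg fun _ _ => zero_le_logHeight₁ _
        refine (M.ht x).trans ?_
        gcongr
        exact le_abs_self _
      have e5 : |(c : ℝ)| ≤ (c : ℝ) ^ 2 := by
        have : |c| ≤ c ^ 2 := by nlinarith [abs_mul_abs_self c, Int.le_self_sq |c|]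
        exact_mod_cast this
      have := e2 0 a rfl
      have := e2 1 b rfl
      have := e2 2 c rfl
      refine e1.trans (abs_le.2 ⟨?_, ?_⟩)
      · nlinarith [sq_nonneg ((a : ℝ) + b), le_abs_self (c : ℝ), sq_nonneg (a : ℝ), sq_nonneg (b : ℝ)]
      · nlinarith [sq_nonneg ((a : ℝ) - b), neg_abs_le (c : ℝ), sq_nonneg (a : ℝ), sq_nonneg (b : ℝ)]
    have hX1 : 1 ≤ X := ((le_max_left _ _).trans hr0.le).trans hX0
    refine (((le_max_right _ _).trans_lt hr0).trans_le hX0).not_ge (final_ineq (Nat.succ_pos k0) rfl hD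
      (Finset.prod_nonneg fun s _ => by linarith [hR s]) hX1 (by positivity) ?_ hP)
    have := Finset.prod_le_prod (s := Finset.univ) (fun s _ => by linarith : ∀ s ∈ _, 0 ≤ X)
      fun s _ => hXR s
    rwa [Finset.prod_const, Finset.prod_mul_distrib, Finset.prod_const, Finset.prod_pow,
      Finset.card_fin] at this
  · choose f hf1 hf2 using fun (B : ℕ) l => cS (r (M.rep a, M.rep b, M.rep (a * b)) l) B
    let B : ℕ → ℕ := fun s => Nat.rec M.B0
      (fun _ x => max x (Finset.univ.sup fun q : Λ × Fin m => f x q.1 q.2)) s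
    have hB : Monotone B := monotone_nat_of_le_succ fun s => le_max_left _ _
    have hlt : ∀ s s' l l' j j', s < s' → f (B s) l j < f (B s') l' j' := fun s s' l l' j j' h =>
      lt_of_le_of_lt ((le_max_of_le_right (Finset.le_sup (f := fun q : Λ × Fin m => f (B s) q.1 q.2)
        (Finset.mem_univ (l, j)))).trans (hB (show s + 1 ≤ s' from h))) (hf1 _ l' j').2
    refine ⟨fun s l j => f (B s) l j, fun s l => hf2 _ l, fun s l j => link_complete M (hf1 _ l j).1
      (lt_of_le_of_lt (hB (Nat.zero_le s)) (hf1 _ l j).2) a b, fun s s' l l' j j' h =>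
      cD _ _ (hf1 _ l j).1 (hf1 _ l' j').1 ?_⟩
    rcases lt_or_gt_of_ne (Fin.val_ne_of_ne h) with h | h
    · exact (hlt _ _ _ _ _ _ h).ne
    · exact (hlt _ _ _ _ _ _ h).ne'

/-- block L from its two halves -/
theorem lglue_of (hS : Top.QStmt → Top.HStmt → SzStmt) (hL : LkStmt) : Top.LGlue := fun hQ hH => by
  obtain ⟨V, _, _, _, n, ⟨M⟩⟩ := hL hQ
  exact goal_of M hQ (hS hQ hH)

end Crest.Agent.T15.Fin
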