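import Crest.Agent.T15.FlL_80

/-!
# Row 15, block Fl: best approximation of a cube root (helper80)
-/

set_option autoImplicit false

noncomputable section

namespace Crest.Agent.T15.Fl

open scoped NNReal IntermediateField
open Polynomial Module

variable {F Ω : Type*} [Field F] [Field Ω] [Algebra F Ω] {w : Valuation Ω ℝ≥0}
  {K : IntermediateField F Ω}

lemma w_sq_ne {z : Ω} (h1 : ∀ a ∈ K, w z ≠ w a) (h3 : ∃ a ∈ K, w z ^ 3 = w a) :
    ∀ a ∈ K, w z ^ 2 ≠ w a := by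
  intro a ha h
  obtain ⟨c, hc, h3⟩ := h3
  have hz : w z ≠ 0 := by simpa using h1 0 K.zero_mem
  refine h1 (c / a) (K.div_mem hc ha) ?_
  rw [map_div₀, ← h, ← h3]; field_simp

/-- `1, z, z²` is orthogonal over `K` -/
lemma orth3 {z : Ω} (h1 : ∀ a ∈ K, w z ≠ w a) (h3 : ∃ a ∈ K, w z ^ 3 = w a) {a0 a1 a2 : Ω}
    (h0' : a0 ∈ K) (h1' : a1 ∈ K) (h2' : a2 ∈ K) :
    w a0 ≤ w (a0 + a1 * z + a2 * z ^ 2) ∧ w (a1 * z) ≤ w (a0 + a1 * z + a2 * z ^ 2) ∧
      w (a2 * z ^ 2) ≤ w (a0 + a1 * z + a2 * z ^ 2) := by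
  have h2 := w_sq_ne h1 h3
  have hz : w z ≠ 0 := by simpa using h1 0 K.zero_mem
  have e01 : w a0 = w (a1 * z) → a0 = 0 ∧ a1 * z = 0 := fun h => by
    rcases eq_or_ne a1 0 with rfl | h0
    · simpa using h
    · refine (h1 (a0 / a1) (K.div_mem h0' h1') ?_).elim
      have : w a1 ≠ 0 := by simpa using h0
      rw [map_div₀, h, map_mul]; field_simp
  have e02 : w a0 = w (a2 * z ^ 2) → a0 = 0 ∧ a2 * z ^ 2 = 0 := fun h => by
    rcases eq_or_ne a2 0 with rfl | h0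
    · simpa using h
    · refine (h2 (a0 / a2) (K.div_mem h0' h2') ?_).elim
      have : w a2 ≠ 0 := by simpa using h0
      rw [map_div₀, h, map_mul, map_pow]; field_simp
  have e12 : w (a1 * z) = w (a2 * z ^ 2) → a1 * z = 0 ∧ a2 * z ^ 2 = 0 := fun h => by
    rcases eq_or_ne a2 0 with rfl | h0
    · simpa using h
    · refine (h1 (a1 / a2) (K.div_mem h1' h2') ?_).elim
      have : w a2 ≠ 0 := by simpa using h0
      rw [map_mul, map_mul, map_pow] at h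
      rw [map_div₀, eq_div_iff this]
      exact mul_right_cancel₀ hz (by rw [h]; ring)
  have key := fun i : Fin 3 => le_map_sum (w := w) Finset.univ ![a0, a1 * z, a2 * z ^ 2]
    (fun i _ j _ h0 h => by
      fin_cases i <;> fin_cases j <;> first
        | rfl
        | exact (h0 (e01 h).1).elim | exact (h0 (e02 h).1).elim | exact (h0 (e12 h).1).elim
        | exact (h0 (e01 h.symm).2).elim | exact (h0 (e02 h.symm).2).elim
        | exact (h0 (e12 h.symm).2).elim) (Finset.mem_univ i)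
  simp only [Fin.sum_univ_three] at key
  exact ⟨key 0, key 1, key 2⟩

/-- `1, z, z²` spans a cubic extension -/
lemma span3 {L : IntermediateField K Ω} (hL : finrank K L = 3) {z : Ω} (hz : z ∈ L)
    (h1 : ∀ a ∈ K, w z ≠ w a) (h3 : ∃ a ∈ K, w z ^ 3 = w a) {c : Ω} (hc : c ∈ L) :
    ∃ a0 ∈ K, ∃ a1 ∈ K, ∃ a2 ∈ K, c = a0 + a1 * z + a2 * z ^ 2 := by
  have : FiniteDimensional K L := finite_of_finrank_pos (by omega)
  let b : Fin 3 → L := fun i => (⟨z, hz⟩ : L) ^ (i : ℕ)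
  have hsum : ∀ a : Fin 3 → K, ((∑ i, a i • b i : L) : Ω) = a 0 + a 1 * z + a 2 * z ^ 2 := fun a => by
    simp [b, Fin.sum_univ_three, Algebra.smul_def]
  have hz0 : z ≠ 0 := by simpa using h1 0 K.zero_mem
  have hli : LinearIndependent K b := by
    rw [Fintype.linearIndependent_iff]
    intro a ha i
    have := orth3 h1 h3 (a 0).2 (a 1).2 (a 2).2
    rw [← hsum, ha] at this
    fin_cases i
    · simpa using this.1
    · simpa [hz0] using this.2.1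
    · simpa [hz0] using this.2.2
  obtain ⟨a, ha⟩ := (Submodule.mem_span_range_iff_exists_fun K).1
    (hli.span_eq_top_of_card_eq_finrank' (by simp [hL]) ▸ Submodule.mem_top : (⟨c, hc⟩ : L) ∈ _)
  exact ⟨_, (a 0).2, _, (a 1).2, _, (a 2).2, by rw [← hsum, ha]⟩

lemma finrank_cube {ζ b : Ω} (hζ : IsPrimitiveRoot ζ 3) (hζK : ζ ∈ K) (hb3 : b ^ 3 ∈ K)
    (hb : b ∉ K) : finrank K K⟮b⟯ = 3 := by
  have hirr : Irreducible (X ^ 3 - C (⟨b ^ 3, hb3⟩ : K)) := by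
    refine X_pow_sub_C_irreducible_of_prime Nat.prime_three fun r hr => hb ?_
    have hr' : (r : Ω) ^ 3 = b ^ 3 := congrArg Subtype.val hr
    rcases eq_or_ne (r : Ω) 0 with h0 | h0
    · rw [h0, eq_comm, zero_pow three_ne_zero, pow_eq_zero_iff three_ne_zero] at hr'
      exact hr' ▸ K.zero_mem
    obtain ⟨i, -, hi⟩ := hζ.eq_pow_of_pow_eq_one (ξ := b / r) (by rw [div_pow, ← hr']; field_simp)
    have : b = ζ ^ i * r := by rw [hi]; field_simp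
    exact this ▸ K.mul_mem (pow_mem hζK i) r.2
  have hm : (X ^ 3 - C (⟨b ^ 3, hb3⟩ : K)).Monic := monic_X_pow_sub_C _ three_ne_zero
  have hev : aeval b (X ^ 3 - C (⟨b ^ 3, hb3⟩ : K)) = 0 := by simp
  rw [IntermediateField.adjoin.finrank ⟨_, hm, hev⟩, ← minpoly.eq_of_irreducible_of_monic hirr hev hm,
    natDegree_X_pow_sub_C]

lemma w_root_sub_one {u : Ω} (hu : u ^ 3 = 1) : w u = 1 ∧ w (u - 1) ^ 2 ≤ w 3 := by
  have h1 : w u = 1 := by
    rw [← pow_eq_one_iff_of_nonneg zero_le three_ne_zero, ← map_pow, hu, map_one]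
  refine ⟨h1, ?_⟩
  rcases eq_or_ne u 1 with rfl | h
  · simp
  have : (u - 1) ^ 2 = -(3 * u) :=
    mul_left_cancel₀ (sub_ne_zero.2 h) (by linear_combination hu)
  rw [← map_pow, this, Valuation.map_neg, map_mul, h1, mul_one]

variable [CharZero Ω] [IsGalois F Ω] [IsAlgClosed Ω]

/-- **best approximation** of a cube root `b` by elements of `K`; `j` is the level of the class of `b³` -/
theorem Ctx.best (hc : Ctx F w) (hf : Full F w) (K : IntermediateField F Ω) [FiniteDimensional F K]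
    {ζ b : Ω} (hζ : IsPrimitiveRoot ζ 3) (hζK : ζ ∈ K) (hb3 : b ^ 3 ∈ K) (hb : b ∉ K) :
    ∃ (z : Ω) (j : ℕ), 2 * j < 3 * finrank F K ∧
      ((j = 0 ∧ z = b) ∨ (¬ 3 ∣ j ∧ ∃ x ∈ K, x ≠ 0 ∧ z = b / x - 1 ∧
        w z ^ (3 * finrank F K) = w 3 ^ j ∧ w (b ^ 3 / x ^ 3 - 1) = w z ^ 3 ∧
        w (b ^ 3 / x ^ 3 - 1) ^ finrank F K = w 3 ^ j)) ∧
      (∀ a ∈ K, w z ≠ w a) ∧
      (∀ c ∈ K⟮b⟯, ∃ a0 ∈ K, ∃ a1 ∈ K, ∃ a2 ∈ K, c = a0 + a1 * z + a2 * z ^ 2 ∧ w a0 ≤ w c ∧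
        w (a1 * z) ≤ w c ∧ w (a2 * z ^ 2) ≤ w c) ∧
      ∀ s : Ω ≃ₐ[F] Ω, (∀ a ∈ K, s a = a) → ∀ c ∈ K⟮b⟯, w c ≤ 1 →
        w (s c - c) ^ (6 * finrank F K) ≤ w 3 ^ (3 * finrank F K - 2 * j) := by
  have hL := finrank_cube hζ hζK hb3 hb
  have : FiniteDimensional K K⟮b⟯ := finite_of_finrank_pos (by omega)
  have : FiniteDimensional F (K⟮b⟯.restrictScalars F) :=
    show FiniteDimensional F K⟮b⟯ from Module.Finite.trans K K⟮b⟯
  have hLF : finrank F (K⟮b⟯.restrictScalars F) = 3 * finrank F K := by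
    rw [← hL, mul_comm]; exact (finrank_mul_finrank F K K⟮b⟯).symm
  obtain ⟨p, hpK, -, hp, hpv, -, -⟩ := hc.mono hf K
  obtain ⟨β, hβL, -, hβ, hβv, -, -⟩ := hc.mono hf (K⟮b⟯.restrictScalars F)
  rw [hLF] at hβ
  have he : 0 < finrank F K := finrank_pos
  set e := finrank F K
  have h3 : 0 < w 3 := w3_pos
  have hβp : w β ^ 3 = w p := by
    rw [← pow_left_inj₀ zero_le zero_le he.ne', ← pow_mul, hβ, hp]
  have hβ0 : 0 < w β := pos_of_ne_zero fun h => by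
    rw [h, zero_pow (by omega)] at hβ; exact h3.ne hβ
  have hβ1 : w β < 1 := by
    rw [← pow_lt_one_iff_of_nonneg zero_le (show 3 * e ≠ 0 by omega), hβ]; exact hc.w3
  have hβne : ∀ a ∈ K, w β ≠ w a := fun a ha h => by
    obtain ⟨n, hn⟩ := hpv a ha (fun h0 => by simp [h0, hβ0.ne'] at h)
    rw [hn, ← hβp, ← zpow_natCast, ← zpow_mul] at h
    have := zpow_right_injective₀ hβ0 hβ1.ne ((zpow_one _).trans h)
    omega
  have hbL : b ∈ K⟮b⟯ := IntermediateField.mem_adjoin_simple_self K b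
  have hb0 : b ≠ 0 := fun h => hb (h ▸ K.zero_mem)
  -- the two last clauses
  have fin : ∀ (z : Ω) (j : ℕ), z ∈ K⟮b⟯ → 2 * j < 3 * e → (∀ a ∈ K, w z ≠ w a) →
      (∃ a ∈ K, w z ^ 3 = w a) → (∀ s : Ω ≃ₐ[F] Ω, (∀ a ∈ K, s a = a) →
        (w (s z - z) / w z) ^ (6 * e) ≤ w 3 ^ (3 * e - 2 * j)) →
      (∀ c ∈ K⟮b⟯, ∃ a0 ∈ K, ∃ a1 ∈ K, ∃ a2 ∈ K, c = a0 + a1 * z + a2 * z ^ 2 ∧ w a0 ≤ w c ∧
        w (a1 * z) ≤ w c ∧ w (a2 * z ^ 2) ≤ w c) ∧
      ∀ s : Ω ≃ₐ[F] Ω, (∀ a ∈ K, s a = a) → ∀ c ∈ K⟮b⟯, w c ≤ 1 →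
        w (s c - c) ^ (6 * e) ≤ w 3 ^ (3 * e - 2 * j) := by
    intro z j hz _ h1 h3' hs
    have hz0 : w z ≠ 0 := by simpa using h1 0 K.zero_mem
    refine ⟨fun c hcL => ?_, fun s hsK c hcL hc1 => ?_⟩
    · obtain ⟨a0, h0, a1, h1', a2, h2, rfl⟩ := span3 hL hz h1 h3' hcL
      exact ⟨a0, h0, a1, h1', a2, h2, rfl, orth3 h1 h3' h0 h1' h2⟩
    · obtain ⟨a0, h0, a1, h1', a2, h2, rfl⟩ := span3 hL hz h1 h3' hcL
      obtain ⟨-, k1, k2⟩ := orth3 h1 h3' h0 h1' h2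
      refine le_trans (pow_le_pow_left₀ zero_le ?_ _) (hs s hsK)
      have : s (a0 + a1 * z + a2 * z ^ 2) - (a0 + a1 * z + a2 * z ^ 2) =
          (s z - z) * (a1 + a2 * (s z + z)) := by
        simp only [map_add, map_mul, map_pow, hsK _ h0, hsK _ h1', hsK _ h2]; ring
      rw [this, map_mul, div_eq_mul_inv]
      refine mul_le_mul' le_rfl ?_
      rw [← one_div, le_div_iff₀ (pos_of_ne_zero hz0), ← map_mul, add_mul]
      refine (w.map_add _ _).trans (max_le (k1.trans hc1) (le_trans ?_ (k2.trans hc1)))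
      rw [mul_assoc, map_mul, map_mul, map_mul, map_pow, sq]
      exact mul_le_mul' le_rfl (mul_le_mul' ((w.map_add _ _).trans (by simp [hc.inv])) le_rfl)
  have hs : ∀ s : Ω ≃ₐ[F] Ω, (∀ a ∈ K, s a = a) → w (s b / b - 1) ^ 2 ≤ w 3 := fun s hsK =>
    (w_root_sub_one (by rw [div_pow, ← map_pow, hsK _ hb3]; field_simp)).2
  by_cases hcase : ∀ a ∈ K, w b ≠ w a
  · refine ⟨b, 0, by omega, Or.inl ⟨rfl, rfl⟩, hcase,
      fin b 0 hbL (by omega) hcase ⟨_, hb3, (map_pow _ _ _).symm⟩ fun s hsK => ?_⟩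
    rw [← map_div₀, sub_div, div_self hb0, show 6 * e = 2 * (3 * e) by ring, pow_mul]
    simpa using pow_le_pow_left₀ zero_le (hs s hsK) _
  push Not at hcase
  obtain ⟨a, haK, hba⟩ := hcase
  obtain ⟨a0, h0, a1, h1, a2, h2, hbe⟩ := span3 hL hβL hβne ⟨p, hpK, hβp⟩ hbL
  obtain ⟨-, k1, k2⟩ := orth3 hβne ⟨p, hpK, hβp⟩ h0 h1 h2
  rw [← hbe] at k1 k2
  have hu : ∀ c ∈ K, w (b - a0) ≠ w c := fun c hcK h => by
    have hu' : b - a0 = 0 + a1 * β + a2 * β ^ 2 := by rw [hbe]; ring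
    obtain ⟨-, l1, l2⟩ := orth3 hβne ⟨p, hpK, hβp⟩ K.zero_mem h1 h2
    rw [← hu'] at l1 l2
    have hne : w (b - a0) ≠ 0 := fun h => hb (sub_eq_zero.1 (w_eq_zero h) ▸ h0)
    have l3 : w (b - a0) ≤ max (w (a1 * β)) (w (a2 * β ^ 2)) := by
      rw [hu', zero_add]; exact w.map_add _ _
    rcases le_max_iff.1 l3 with l | l
    · have e1 := le_antisymm l l1
      have : w a1 ≠ 0 := fun h => hne (by rw [e1, map_mul, h, zero_mul])
      refine hβne (c / a1) (K.div_mem hcK h1) ?_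
      rw [map_div₀, ← h, e1, map_mul]; field_simp
    · have e1 := le_antisymm l l2
      have : w a2 ≠ 0 := fun h => hne (by rw [e1, map_mul, h, zero_mul])
      refine w_sq_ne hβne ⟨p, hpK, hβp⟩ (c / a2) (K.div_mem hcK h2) ?_
      rw [map_div₀, ← h, e1, map_mul, map_pow]; field_simp
  have hlt : w (b - a0) < w b := by
    refine lt_of_le_of_ne ?_ (hba ▸ hu a haK)
    have hu' : b - a0 = a1 * β + a2 * β ^ 2 := by rw [hbe]; ring
    rw [hu']; exact (w.map_add _ _).trans (max_le k1 k2)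
  have hwa : w a0 = w b := by
    have := w.map_sub_eq_of_lt_left hlt
    rwa [sub_sub_cancel] at this
  have ha0 : a0 ≠ 0 := fun h => hb0 (w_eq_zero (w := w) (by rw [← hwa, h, map_zero]))
  have hwa0 : w a0 ≠ 0 := by simpa using ha0
  have hz : b / a0 - 1 = (b - a0) / a0 := by field_simp
  have hzL : b / a0 - 1 ∈ K⟮b⟯ :=
    sub_mem (div_mem hbL (K⟮b⟯.algebraMap_mem ⟨a0, h0⟩)) (one_mem _)
  have hzK : ∀ c ∈ K, w (b / a0 - 1) ≠ w c := fun c hcK h => hu (c * a0) (K.mul_mem hcK h0) (by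
    rw [map_mul, ← h, hz, map_div₀]; field_simp)
  have hz1 : w (b / a0 - 1) < 1 := by
    rw [hz, map_div₀, hwa, div_lt_one (hwa ▸ pos_of_ne_zero hwa0)]; exact hlt
  have hcub : b ^ 3 / a0 ^ 3 - 1 =
      (b / a0 - 1) ^ 3 + (3 * (b / a0 - 1) + 3 * (b / a0 - 1) ^ 2) := by rw [← div_pow]; ring
  have hsz : ∀ s : Ω ≃ₐ[F] Ω, (∀ a ∈ K, s a = a) →
      w (s (b / a0 - 1) - (b / a0 - 1)) = w (s b / b - 1) := fun s hsK => by
    have : s (b / a0 - 1) - (b / a0 - 1) = (s b / b - 1) * (b / a0) := by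
      rw [map_sub, map_div₀, hsK _ h0, map_one]; field_simp; ring
    rw [this, map_mul, map_div₀, ← hwa, div_self hwa0, mul_one]
  generalize hzd : b / a0 - 1 = z at *
  have hz0 : w z ≠ 0 := by simpa using hzK 0 K.zero_mem
  obtain ⟨n, hn⟩ := hβv z hzL (by simpa using hz0)
  have hn0 : 0 < n := by rwa [hn, zpow_lt_one_iff_right_of_lt_one₀ hβ0 hβ1] at hz1
  obtain ⟨j, rfl⟩ := Int.eq_ofNat_of_zero_le hn0.le
  rw [zpow_natCast] at hn
  have hj3 : ¬ 3 ∣ j := by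
    rintro ⟨k, rfl⟩
    exact hzK (p ^ k) (pow_mem hpK k) (by rw [hn, pow_mul, hβp, map_pow])
  have h33 : w (3 * z + 3 * z ^ 2) = w 3 * w z := by
    rw [w.map_add_eq_of_lt_left, map_mul]
    rw [map_mul, map_mul, map_pow, sq]
    exact mul_lt_mul_of_pos_left (mul_lt_of_lt_one_right (pos_of_ne_zero hz0) hz1) h3
  have hj : 2 * j < 3 * e := by
    by_contra hcon
    have hlt : w (z ^ 3) < w (3 * z + 3 * z ^ 2) := by
      rw [h33, map_pow, hn, ← hβ, ← pow_mul, ← pow_add]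
      exact pow_lt_pow_right_of_lt_one₀ hβ0 hβ1 (by omega)
    refine hzK ((b ^ 3 / a0 ^ 3 - 1) / 3)
      (div_mem (sub_mem (div_mem hb3 (pow_mem h0 3)) (one_mem _)) (ofNat_mem K 3)) ?_
    rw [map_div₀, hcub, w.map_add_eq_of_lt_right hlt, h33]
    field_simp
  have hcw : w (b ^ 3 / a0 ^ 3 - 1) = w z ^ 3 := by
    rw [hcub, w.map_add_eq_of_lt_left, map_pow]
    rw [h33, map_pow, hn, ← hβ, ← pow_mul, ← pow_add]
    exact pow_lt_pow_right_of_lt_one₀ hβ0 hβ1 (by omega)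
  have hze : w z ^ (3 * e) = w 3 ^ j := by rw [hn, ← hβ, ← pow_mul, ← pow_mul, mul_comm]
  refine ⟨z, j, hj, Or.inr ⟨hj3, a0, h0, ha0, hzd.symm, hze, hcw, by rw [hcw, ← pow_mul, hze]⟩, hzK,
    fin z j hzL hj hzK ⟨p ^ j, pow_mem hpK j, ?_⟩ fun s hsK => ?_⟩
  · rw [hn, map_pow, ← hβp, ← pow_mul, ← pow_mul, mul_comm]
  · rw [hsz s hsK, div_pow, div_le_iff₀ (pow_pos (pos_of_ne_zero hz0) _),
      show 6 * e = 2 * (3 * e) by ring, pow_mul' (w z), hze, ← pow_mul (w 3), ← pow_add, pow_mul,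
      show 3 * e - 2 * j + j * 2 = 3 * e by omega]
    exact pow_le_pow_left₀ zero_le (hs s hsK) _

end Crest.Agent.T15.Fl
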