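import Mathlib

/-!
# Row 15, block Fl: flat modules at `3` (helper80)

`Ω/F` is an algebraic closure, `w` a Galois invariant valuation of `Ω` over `3`, `F` absolutely
unramified (`ℚ₃`, a finite unramified extension, `ℚ₃^nr`, or a henselisation of `ℚ`).  A finite Galois
module `V` is *flat* if it has a Hopf order, written as an algebra of functions `V → Ω`.
-/

set_option autoImplicit false

noncomputable section

namespace Crest.Agent.T15.Fl

open scoped NNReal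

variable (F : Type*) {Ω : Type*} [Field F] [Field Ω] [Algebra F Ω] (w : Valuation Ω ℝ≥0)

/-- the valuation ring of `F` -/
def OF : Subring F := (w.comap (algebraMap F Ω)).integer

/-- the local context: invariant valuation over `3`, `3` is a uniformiser of `F` -/
structure Ctx : Prop where
  inv : ∀ (σ : Ω ≃ₐ[F] Ω) (x : Ω), w (σ x) = w x
  w3 : w 3 < 1
  disc : ∀ a : F, a ≠ 0 → ∃ n : ℤ, w (algebraMap F Ω a) = w 3 ^ n

variable {F} {V : Type*} [AddCommGroup V]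

/-- `A` is a Hopf order of the Galois module `(V, ρ)` -/
structure IsOrd (ρ : (Ω ≃ₐ[F] Ω) →* AddMonoid.End V) (A : Subalgebra (OF F w) (V → Ω)) : Prop where
  fg : (Subalgebra.toSubmodule A).FG
  equiv : ∀ f ∈ A, ∀ (σ : Ω ≃ₐ[F] Ω) (v : V), f (ρ σ v) = σ (f v)
  sep : ∀ u v : V, (∀ f ∈ A, f u = f v) → u = v
  comul : ∀ f ∈ A, ∃ (n : ℕ) (g h : Fin n → V → Ω), (∀ i, g i ∈ A) ∧ (∀ i, h i ∈ A) ∧
    ∀ a b, f (a + b) = ∑ i, g i a * h i b

/-- the Galois module `(V, ρ)` is flat -/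
def Flat (ρ : (Ω ≃ₐ[F] Ω) →* AddMonoid.End V) : Prop := ∃ A, IsOrd w ρ A

/-! ### the statements of the block (all over `Type`) -/

/-- submodules (and isomorphic copies) -/
def SubStmt : Prop := ∀ (F Ω : Type) [Field F] [Field Ω] [Algebra F Ω] (w : Valuation Ω ℝ≥0)
  (V V' : Type) [AddCommGroup V] [AddCommGroup V'] (ρ : (Ω ≃ₐ[F] Ω) →* AddMonoid.End V)
  (ρ' : (Ω ≃ₐ[F] Ω) →* AddMonoid.End V') (i : V' →+ V), Function.Injective i →
  (∀ σ v, i (ρ' σ v) = ρ σ (i v)) → Flat w ρ → Flat w ρ'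

/-- a module that embeds into a finite product of flat modules is flat -/
def PiStmt : Prop := ∀ (F Ω : Type) [Field F] [Field Ω] [Algebra F Ω] (w : Valuation Ω ℝ≥0)
  (ι : Type) [Finite ι] (V : ι → Type) [∀ j, AddCommGroup (V j)] (V' : Type) [AddCommGroup V']
  (ρ : ∀ j, (Ω ≃ₐ[F] Ω) →* AddMonoid.End (V j)) (ρ' : (Ω ≃ₐ[F] Ω) →* AddMonoid.End V')
  (i : ∀ j, V' →+ V j), (∀ v, (∀ j, i j v = 0) → v = 0) →
  (∀ j σ v, i j (ρ' σ v) = ρ j σ (i j v)) → (∀ j, Flat w (ρ j)) → Flat w ρ'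

/-- quotients -/
def QuotStmt : Prop := ∀ (F Ω : Type) [Field F] [Field Ω] [Algebra F Ω] [IsGalois F Ω] [CharZero Ω]
  (w : Valuation Ω ℝ≥0), Ctx F w → ∀ (V V' : Type) [AddCommGroup V] [AddCommGroup V'] [Finite V]
  (ρ : (Ω ≃ₐ[F] Ω) →* AddMonoid.End V) (ρ' : (Ω ≃ₐ[F] Ω) →* AddMonoid.End V') (q : V →+ V'),
  Function.Surjective q → (∀ σ v, q (ρ σ v) = ρ' σ (q v)) → Flat w ρ → Flat w ρ'

/-- base change -/
def BaseStmt : Prop := ∀ (F F' Ω : Type) [Field F] [Field F'] [Field Ω] [Algebra F Ω] [Algebra F' Ω]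
  [Algebra F F'] [IsScalarTower F F' Ω] (w : Valuation Ω ℝ≥0) (V : Type) [AddCommGroup V]
  (ρ : (Ω ≃ₐ[F] Ω) →* AddMonoid.End V) (ρ' : (Ω ≃ₐ[F'] Ω) →* AddMonoid.End V),
  (∀ σ, ρ' σ = ρ (σ.restrictScalars F)) → Flat w ρ → Flat w ρ'

/-- **Fontaine's property `(P_m)`, `m > 3/2`**: `L` contains the splitting field of a flat module killed by
`3`, `η` is an `F`-linear map that is multiplicative modulo `μ < |3|^{3/2}` on integers; an automorphism
that fixes the image of `η` acts trivially on the module -/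
def PStmt : Prop := ∀ (F Ω : Type) [Field F] [Field Ω] [Algebra F Ω] [IsGalois F Ω] [CharZero Ω]
  (w : Valuation Ω ℝ≥0), Ctx F w → ∀ (V : Type) [AddCommGroup V] [Finite V]
  (ρ : (Ω ≃ₐ[F] Ω) →* AddMonoid.End V), Flat w ρ → (∀ v : V, 3 • v = 0) →
  ∀ (L : IntermediateField F Ω) [FiniteDimensional F L] [Normal F L],
    (∀ y : Ω, (∀ σ, ρ σ = 1 → σ y = y) → y ∈ L) → ∀ (η : L →ₗ[F] Ω) (μ : ℝ≥0), μ ^ 2 < w 3 ^ 3 →
    η 1 = 1 → (∀ s : L, w s ≤ 1 → w (η s) ≤ 1) →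
    (∀ s t : L, w s ≤ 1 → w t ≤ 1 → w (η (s * t) - η s * η t) ≤ μ) →
    (∀ s : L, w s ≤ 1 → w (η s) ^ 2 < w 3 → w s ^ 2 < w 3) →
    ∀ σ : Ω ≃ₐ[F] Ω, (∀ s, σ (η s) = η s) → ρ σ = 1

end Crest.Agent.T15.Fl
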