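import Crest.Agent.T15.FlR_23

/-!
# Row 15, block Fl: Fontaine's ramification bound for flat modules killed by `3` (helper23)
-/

set_option autoImplicit false

noncomputable section

namespace Crest.Agent.T15.FlR

open scoped NNReal
open Polynomial

variable {Ω : Type*} [Field Ω] (w : Valuation Ω ℝ≥0)

/-- a polynomial with `Y(0) = 0` and `(1+Y)^3 ≡ 1` modulo `d`, `|d| < |3|^{3/2}`, is small -/
theorem small_of_cube (hw3 : w 3 < 1) (Y H : (w.valuationSubring)[X]) (d : w.valuationSubring)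
    (hY0 : Y.eval 0 = 0) (hY : Y ^ 3 + 3 * Y ^ 2 + 3 * Y = C d * H) (hd : w d ^ 2 < w 3 ^ 3) :
    w (Y.eval 1 : w.valuationSubring) ^ 2 < w 3 := by
  have hI := Valuation.valuationSubring.integers w
  have h30 : 0 < w 3 := by
    rcases eq_or_ne (w 3) 0 with h | h
    · rw [h] at hd; simp at hd
    · exact pos_iff_ne_zero.mpr h
  by_cases hY0' : Y = 0
  · simpa [hY0'] using h30
  obtain ⟨i, hi, hmax⟩ := Y.support.exists_max_image (fun i => w (Y.coeff i : w.valuationSubring))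
    (support_nonempty.mpr hY0')
  obtain ⟨c, hc⟩ : ∃ c, c = Y.coeff i := ⟨_, rfl⟩
  have hc0 : c ≠ 0 := hc ▸ mem_support_iff.mp hi
  have hdvd : C c ∣ Y := by
    rw [C_dvd_iff_dvd_coeff]
    intro j
    by_cases hj : j ∈ Y.support
    · exact hI.dvd_of_le (by rw [hc]; exact hmax j hj)
    · rw [notMem_support_iff.mp hj]; exact dvd_zero _
  obtain ⟨Z, hZ⟩ := hdvd
  have hZi : Z.coeff i = 1 := by
    have := congrArg (fun p => p.coeff i) hZ
    simp only [coeff_C_mul] at this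
    rw [← hc] at this
    exact (mul_left_cancel₀ hc0 (this.symm.trans (mul_one c).symm))
  have hZ0 : Z.eval 0 = 0 := by
    rw [hZ, eval_mul, eval_C] at hY0
    exact (mul_eq_zero.mp hY0).resolve_left hc0
  have hle : ∀ x : w.valuationSubring, w x ≤ 1 := fun x => x.2
  by_cases hcase : w c ^ 2 < w 3
  · rw [hZ, eval_mul, eval_C]
    push_cast
    rw [map_mul, mul_pow]
    exact lt_of_le_of_lt (mul_le_of_le_one_right' (pow_le_one₀ zero_le (hle _))) hcase
  exfalso
  push Not at hcase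
  have h3 : ((3 : w.valuationSubring) : Ω) = 3 := rfl
  obtain ⟨u, hu⟩ : c ^ 2 ∣ 3 := hI.dvd_of_le (by
    change w ((3 : w.valuationSubring) : Ω) ≤ w ((c ^ 2 : w.valuationSubring) : Ω)
    rw [h3]; push_cast; rw [map_pow]; exact hcase)
  have hdc : w d < w c ^ 3 := by
    refine lt_of_pow_lt_pow_left₀ 2 zero_le (hd.trans_le ?_)
    calc w 3 ^ 3 ≤ (w c ^ 2) ^ 3 := pow_le_pow_left' hcase 3
      _ = (w c ^ 3) ^ 2 := by ring
  obtain ⟨e, he⟩ : c ^ 3 ∣ d := hI.dvd_of_le (by
    change w (d : Ω) ≤ w ((c ^ 3 : w.valuationSubring) : Ω)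
    push_cast; rw [map_pow]; exact hdc.le)
  have hwc : 0 < w c := by
    rw [pos_iff_ne_zero, Valuation.ne_zero_iff]; exact_mod_cast hc0
  have he1 : w e < 1 := by
    have h1 : w d = w c ^ 3 * w e := by rw [he]; push_cast; rw [map_mul, map_pow]
    rw [h1] at hdc
    exact (mul_lt_iff_lt_one_right (pow_pos hwc 3)).mp hdc
  have hcu : w ((c * u : w.valuationSubring) : Ω) < 1 := by
    have h1 : w 3 = w c ^ 2 * w u := by rw [← h3, hu]; push_cast; rw [map_mul, map_pow]
    refine lt_of_pow_lt_pow_left₀ 2 zero_le ?_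
    push_cast
    rw [map_mul, one_pow]
    calc (w c * w u) ^ 2 = w 3 * w u := by rw [h1]; ring
      _ ≤ w 3 := mul_le_of_le_one_right' (hle u)
      _ < 1 := hw3
  have hE : Z ^ 3 + C (c * u) * Z ^ 2 + C u * Z = C e * H := by
    have h33 : (3 : (w.valuationSubring)[X]) = C c ^ 2 * C u := by
      rw [← C_pow, ← C_mul, ← hu]; rfl
    apply mul_left_cancel₀ (a := C c ^ 3) (pow_ne_zero _ (by simpa using hc0))
    rw [hZ, h33, he] at hY
    rw [C_mul, C_pow] at hY
    rw [C_mul]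
    linear_combination hY
  let r := IsLocalRing.residue w.valuationSubring
  have hr : ∀ x : w.valuationSubring, w x < 1 → r x = 0 := fun x hx =>
    (IsLocalRing.residue_eq_zero_iff _).mpr ((Valuation.mem_maximalIdeal_iff _ w).mpr hx)
  have hE' := congrArg (Polynomial.map r) hE
  simp only [Polynomial.map_add, Polynomial.map_mul, Polynomial.map_pow, map_C, hr _ hcu, hr _ he1,
    C_0, zero_mul, add_zero] at hE'
  obtain ⟨Zb, hZb⟩ : ∃ Zb, Zb = Z.map r := ⟨_, rfl⟩
  rw [← hZb] at hE'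
  have hZb0 : Zb ≠ 0 := by
    intro h0
    have := congrArg (fun p => p.coeff i) (hZb.symm.trans h0)
    simp [hZi] at this
  have h2 : Zb ^ 2 = C (-r u) := by
    apply mul_left_cancel₀ hZb0
    rw [C_neg]
    linear_combination hE'
  have h4 : Zb.natDegree = 0 := by
    have := congrArg natDegree h2
    rw [natDegree_pow, natDegree_C] at this
    omega
  apply hZb0
  rw [eq_C_of_natDegree_eq_zero h4, coeff_zero_eq_eval_zero, hZb, eval_zero_map, hZ0]
  simp

/-- the core of Fontaine's bound: a polynomial whose values on `T` are cube roots of unity -/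
theorem font_core (hw3 : w 3 < 1) (T S : Finset w.valuationSubring) (hST : S ⊆ T)
    (q : (w.valuationSubring)[X]) (hq : ∀ y ∈ T, q.eval y ^ 3 = 1) (a b : w.valuationSubring)
    (ha : a ∈ T) (hb : b ∈ T) (hS : ∀ y ∈ S, w ((b - a : w.valuationSubring) : Ω) ≤
      w ((a - y : w.valuationSubring) : Ω))
    (hd : (∏ y ∈ S, w ((a - y : w.valuationSubring) : Ω)) ^ 2 < w 3 ^ 3) : q.eval b = q.eval a := by
  classical
  have hI := Valuation.valuationSubring.integers w
  obtain ⟨f, hf⟩ : ∃ f : (w.valuationSubring)[X], f = ∏ y ∈ T, (X - C y) := ⟨_, rfl⟩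
  have hfm : f.Monic := hf ▸ monic_prod_of_monic _ _ fun y _ => monic_X_sub_C y
  have hfd : f.degree = T.card := by
    rw [hf, degree_prod]; simp
  have hdiv : f ∣ q ^ 3 - 1 := by
    rw [← modByMonic_eq_zero_iff_dvd hfm]
    refine eq_zero_of_degree_lt_of_eval_finset_eq_zero T (hfd ▸ degree_modByMonic_lt _ hfm) ?_
    intro y hy
    have h1 := congrArg (eval y) (modByMonic_add_div (q ^ 3 - 1) f)
    have h2 : f.eval y = 0 := by
      rw [hf, eval_prod]
      exact Finset.prod_eq_zero hy (by simp)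
    simpa [h2, hq y hy] using h1
  obtain ⟨ℓ, hℓ⟩ : ∃ ℓ : (w.valuationSubring)[X], ℓ = C a + C (b - a) * X := ⟨_, rfl⟩
  have hdiv2 : C (∏ y ∈ S, (a - y)) ∣ f.comp ℓ := by
    rw [hf, Polynomial.prod_comp, map_prod]
    refine (Finset.prod_dvd_prod_of_dvd _ _ fun y hy => ?_).trans
      (Finset.prod_dvd_prod_of_subset _ _ _ hST)
    obtain ⟨e, he⟩ : a - y ∣ b - a := hI.dvd_of_le (hS y hy)
    refine ⟨1 + C e * X, ?_⟩
    rw [sub_comp, X_comp, C_comp, hℓ, he, C_mul, C_sub]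
    ring
  obtain ⟨h, hh⟩ := hdiv
  obtain ⟨H, hH⟩ := hdiv2
  obtain ⟨Q, hQ⟩ : ∃ Q, Q = q.comp ℓ := ⟨_, rfl⟩
  have hQ3 : Q ^ 3 - 1 = C (∏ y ∈ S, (a - y)) * (H * h.comp ℓ) := by
    have := congrArg (fun p => p.comp ℓ) hh
    simp only [sub_comp, pow_comp, one_comp, mul_comp] at this
    rw [hQ, this, hH, mul_assoc]
  have hQ0 : Q.eval 0 = q.eval a := by rw [hQ, eval_comp, hℓ]; simp
  have hQ1 : Q.eval 1 = q.eval b := by rw [hQ, eval_comp, hℓ]; simp
  obtain ⟨s, hs⟩ : ∃ s, s = q.eval a := ⟨_, rfl⟩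
  obtain ⟨t, ht⟩ : ∃ t, t = q.eval b := ⟨_, rfl⟩
  have hs3 : s ^ 3 = 1 := hs ▸ hq a ha
  have ht3 : t ^ 3 = 1 := ht ▸ hq b hb
  have hC : (C s) ^ 3 = (1 : (w.valuationSubring)[X]) := by rw [← C_pow, hs3, C_1]
  have key := small_of_cube w hw3 (Q * C s ^ 2 - 1) (H * h.comp ℓ) (∏ y ∈ S, (a - y))
    (by simp only [eval_sub, eval_mul, eval_pow, eval_C, eval_one, hQ0, ← hs]
        linear_combination hs3)
    (by rw [← hQ3]; linear_combination (Q ^ 3 * (C s ^ 3 + 1)) * hC)
    (by push_cast; rw [map_prod]; simpa using hd)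
  simp only [eval_sub, eval_mul, eval_pow, eval_C, eval_one, hQ1, ← ht] at key
  rw [← hs, ← ht]
  obtain ⟨y, hy⟩ : ∃ y, y = t * s ^ 2 - 1 := ⟨_, rfl⟩
  rw [← hy] at key
  have hy3 : y * (y ^ 2 + 3 * (1 + y)) = 0 := by
    rw [hy]; linear_combination (s ^ 6) * ht3 + (s ^ 3 + 1) * hs3
  rcases mul_eq_zero.mp hy3 with h0 | h0
  · rw [hy] at h0
    linear_combination s * h0 - t * hs3
  · exfalso
    have h1 : (1 + y) ^ 3 = 1 := by rw [hy]; linear_combination (s ^ 6) * ht3 + (s ^ 3 + 1) * hs3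
    have h2 : w ((1 + y : w.valuationSubring) : Ω) = 1 := by
      have := congrArg (fun x : w.valuationSubring => w (x : Ω)) h1
      simp only [SubmonoidClass.coe_pow, map_pow, OneMemClass.coe_one, map_one] at this
      exact (pow_eq_one_iff_of_nonneg zero_le (by norm_num)).mp this
    have h4 : y ^ 2 = -(3 * (1 + y)) := by linear_combination h0
    have h5 := congrArg (fun x : w.valuationSubring => w (x : Ω)) h4
    have h3 : ((3 : w.valuationSubring) : Ω) = 3 := rfl
    simp only [SubmonoidClass.coe_pow, map_pow, NegMemClass.coe_neg, Valuation.map_neg,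
      MulMemClass.coe_mul, map_mul, h2, h3, mul_one] at h5
    exact key.ne h5

variable (G : Type*) [Group G] [MulSemiringAction G Ω]

/-- monogenicity: finitely many integers are simultaneously integral polynomials in one integer `α`,
equivariantly (true for `G = Gal(Ω/F)`, `F` discretely valued with the residue field of `Ω`) -/
def Mono : Prop := ∀ A : Finset Ω, (∀ a ∈ A, w a ≤ 1) → ∃ α : Ω, w α ≤ 1 ∧
  (Set.range fun g : G => g • α).Finite ∧
  ∀ a ∈ A, ∃ p : Polynomial Ω, (∀ i, w (p.coeff i) ≤ 1) ∧ ∀ g : G, g • a = p.eval (g • α)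

variable {w G}

theorem exists_poly (hM : Mono w G) {ι : Type*} [Finite ι] (F : ι → G → Ω) (hF : ∀ i, F i ∈ RR w G) :
    ∃ α : Ω, w α ≤ 1 ∧ (Set.range fun g : G => g • α).Finite ∧
      ∀ i, ∃ q : (w.valuationSubring)[X], ∀ g : G,
        F i g = (q.map w.valuationSubring.subtype).eval (g • α) := by
  classical
  have key : ∀ F ∈ RR w G, ∃ A : Finset Ω, (∀ a ∈ A, w a ≤ 1) ∧ ∀ α : Ω,
      (∀ a ∈ A, ∃ p : Polynomial Ω, (∀ i, w (p.coeff i) ≤ 1) ∧ ∀ g : G, g • a = p.eval (g • α)) →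
      ∃ q : (w.valuationSubring)[X], ∀ g : G,
        F g = (q.map w.valuationSubring.subtype).eval (g • α) := by
    intro F hF
    induction hF using Subring.closure_induction with
    | mem x hx =>
      rcases hx with ⟨c, hc, rfl⟩ | ⟨a, ha, rfl⟩
      · exact ⟨∅, by simp, fun α _ => ⟨C ⟨c, hc⟩, fun g => by simp⟩⟩
      · refine ⟨{a}, by simpa using ha, fun α h => ?_⟩
        obtain ⟨p, hp, hpg⟩ := h a (by simp)
        obtain ⟨q, rfl⟩ : p ∈ lifts w.valuationSubring.subtype :=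
          (lifts_iff_coeff_lifts p).mpr fun i => ⟨⟨p.coeff i, hp i⟩, rfl⟩
        exact ⟨q, hpg⟩
    | zero => exact ⟨∅, by simp, fun α _ => ⟨0, fun g => by simp⟩⟩
    | one => exact ⟨∅, by simp, fun α _ => ⟨1, fun g => by simp⟩⟩
    | add x y _ _ hx hy =>
      obtain ⟨A, hA, hA'⟩ := hx
      obtain ⟨B, hB, hB'⟩ := hy
      refine ⟨A ∪ B, fun a ha => (Finset.mem_union.mp ha).elim (hA a) (hB a), fun α h => ?_⟩
      obtain ⟨p, hp⟩ := hA' α fun a ha => h a (Finset.mem_union_left _ ha)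
      obtain ⟨q, hq⟩ := hB' α fun a ha => h a (Finset.mem_union_right _ ha)
      exact ⟨p + q, fun g => by simp [hp, hq]⟩
    | neg x _ hx =>
      obtain ⟨A, hA, hA'⟩ := hx
      refine ⟨A, hA, fun α h => ?_⟩
      obtain ⟨p, hp⟩ := hA' α h
      exact ⟨-p, fun g => by simp [hp]⟩
    | mul x y _ _ hx hy =>
      obtain ⟨A, hA, hA'⟩ := hx
      obtain ⟨B, hB, hB'⟩ := hy
      refine ⟨A ∪ B, fun a ha => (Finset.mem_union.mp ha).elim (hA a) (hB a), fun α h => ?_⟩
      obtain ⟨p, hp⟩ := hA' α fun a ha => h a (Finset.mem_union_left _ ha)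
      obtain ⟨q, hq⟩ := hB' α fun a ha => h a (Finset.mem_union_right _ ha)
      exact ⟨p * q, fun g => by simp [hp, hq]⟩
  have := Fintype.ofFinite ι
  choose A hA hA' using fun i => key (F i) (hF i)
  obtain ⟨α, h1, h2, h3⟩ := hM (Finset.univ.biUnion A) (fun a ha => by
    obtain ⟨i, -, hi⟩ := Finset.mem_biUnion.mp ha
    exact hA i a hi)
  exact ⟨α, h1, h2, fun i => hA' i α fun a ha =>
    h3 a (Finset.mem_biUnion.mpr ⟨i, Finset.mem_univ _, ha⟩)⟩

theorem coeff_prod_le {T : Finset Ω} (hT : ∀ y ∈ T, w y ≤ 1) (i : ℕ) :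
    w ((∏ y ∈ T, (X - C y)).coeff i) ≤ 1 := by
  have : (∏ y ∈ T, (X - C y)) ∈ lifts w.valuationSubring.subtype := by
    refine Subsemiring.prod_mem _ fun y hy => ⟨X - C ⟨y, hT y hy⟩, by simp⟩
  obtain ⟨q, hq⟩ := this
  rw [← hq]
  rw [coe_mapRingHom, coeff_map]
  exact (q.coeff i).2

/-- the contribution of one coset to the different -/
theorem coset_le [DecidableEq Ω] (hinv : ∀ (g : G) (x : Ω), w (g • x) = w x) (N : Subgroup G) (α : Ω)
    (hα : w α ≤ 1) (T : Finset Ω) (hT : ∀ y, y ∈ T ↔ ∃ n ∈ N, n • α = y) (γ : G) (β : ℝ≥0)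
    (hβ : ∀ c, w c ≤ 1 → (∀ n ∈ N, n • c = c) → w (γ • c - c) ≤ β) :
    ∏ y ∈ T.image (γ • ·), w (α - y) ≤ β := by
  obtain ⟨P, hP⟩ : ∃ P : Polynomial Ω, P = ∏ y ∈ T, (X - C y) := ⟨_, rfl⟩
  have hsm : ∀ g : G, g • P = ∏ y ∈ T.image (g • ·), (X - C y) := by
    intro g
    rw [hP, Finset.smul_prod', Finset.prod_image fun x _ y _ h => MulAction.injective g h]
    simp [smul_sub]
  have hN : ∀ n ∈ N, n • P = P := by
    intro n hn
    rw [hsm, hP]
    congr 1
    ext y
    simp only [Finset.mem_image, hT]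
    constructor
    · rintro ⟨_, ⟨m, hm, rfl⟩, rfl⟩
      exact ⟨n * m, N.mul_mem hn hm, mul_smul _ _ _⟩
    · rintro ⟨m, hm, rfl⟩
      exact ⟨_, ⟨n⁻¹ * m, N.mul_mem (N.inv_mem hn) hm, rfl⟩, by rw [smul_smul]; simp⟩
  have hc : ∀ i, w ((γ • P - P).coeff i) ≤ β := by
    intro i
    rw [coeff_sub, coeff_smul]
    refine hβ _ ?_ fun n hn => by rw [← coeff_smul, hN n hn]
    rw [hP]
    exact coeff_prod_le (fun y hy => by
      obtain ⟨n, -, rfl⟩ := (hT y).mp hy
      rwa [hinv]) i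
  have h0 : P.eval α = 0 := by
    rw [hP, eval_prod]
    exact Finset.prod_eq_zero ((hT α).mpr ⟨1, N.one_mem, one_smul _ _⟩) (by simp)
  have h1 : ∏ y ∈ T.image (γ • ·), (α - y) = (γ • P - P).eval α := by
    rw [eval_sub, h0, sub_zero, hsm, eval_prod]; simp
  rw [← map_prod, h1, eval_eq_sum_range]
  refine w.map_sum_le fun i _ => ?_
  rw [map_mul, map_pow]
  exact (mul_le_of_le_one_right' (pow_le_one₀ zero_le hα)).trans (hc i)

variable {V : Type*} [AddCommGroup V]

/-- **Fontaine's bound.**  `V` flat and killed by `3`, `N` a subgroup containing the kernel of the action,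
`γ i` representatives of distinct non-trivial cosets of `N` that move the `N`-invariant integers by at most
`β i`: then `∏ β i ≥ |3|^{3/2}`. -/
theorem font [IsAlgClosed Ω] [CharZero Ω] [Finite V] (hw3 : w 3 < 1)
    (hinv : ∀ (g : G) (x : Ω), w (g • x) = w x) (hM : Mono w G) {ρ : G → V → V} (hF : Flat w G ρ)
    (h3 : ∀ v : V, 3 • v = 0) (N : Subgroup G)
    (hker : ∀ g g', (∀ v, ρ g v = ρ g' v) → g⁻¹ * g' ∈ N) {ι : Type*} [Fintype ι] (γ : ι → G)
    (hγ : ∀ i, γ i ∉ N) (hγ' : ∀ i j, (γ i)⁻¹ * γ j ∈ N → i = j) (β : ι → ℝ≥0)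
    (hβ : ∀ i c, w c ≤ 1 → (∀ n ∈ N, n • c = c) → w (γ i • c - c) ≤ β i) :
    w 3 ^ 3 ≤ (∏ i, β i) ^ 2 := by
  classical
  rcases isEmpty_or_nonempty ι with hι | ⟨⟨i0⟩⟩
  · simpa using pow_le_one₀ zero_le hw3.le
  by_contra hcon
  push Not at hcon
  have hch : ∀ u : V, ∃ χ : AddChar V Ω, u ≠ 0 → χ u ≠ 1 := fun u => by
    by_cases hu : u = 0
    · exact ⟨1, fun h => absurd hu h⟩
    · obtain ⟨χ, h⟩ := exists_char (Ω := Ω) hu
      exact ⟨χ, fun _ => h⟩
  choose χ hχ using hch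
  obtain ⟨α, hα, hfin, hq⟩ := exists_poly hM (fun (x : V × V) g => χ x.1 (ρ g x.2))
    (fun x => hF x.2 (χ x.1))
  choose q hq using hq
  have hsep : ∀ g g' : G, (∀ x, ((q x).map w.valuationSubring.subtype).eval (g • α) =
      ((q x).map w.valuationSubring.subtype).eval (g' • α)) → g⁻¹ * g' ∈ N := by
    intro g g' h
    refine hker g g' fun v => ?_
    by_contra hne
    apply hχ _ (sub_ne_zero.mpr hne)
    have := h (ρ g v - ρ g' v, v)
    rw [← hq, ← hq] at this
    rw [AddChar.map_sub_eq_div, this]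
    exact div_self (AddChar.val_isUnit _ _).ne_zero
  have hsep' : ∀ g g' : G, g • α = g' • α → g⁻¹ * g' ∈ N := fun g g' h =>
    hsep g g' fun x => by rw [h]
  have hfinN : {y | ∃ n ∈ N, n • α = y}.Finite := hfin.subset (by rintro _ ⟨n, -, rfl⟩; exact ⟨n, rfl⟩)
  have hfinS : {y | ∃ g ∉ N, g • α = y}.Finite := hfin.subset (by rintro _ ⟨n, -, rfl⟩; exact ⟨n, rfl⟩)
  have hle : ∀ g : G, w (g • α) ≤ 1 := fun g => by rwa [hinv]
  -- the product over the non-trivial cosets
  have hprod : ∏ y ∈ hfinS.toFinset, w (α - y) ≤ ∏ i, β i := by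
    have hdisj : ((Finset.univ : Finset ι) : Set ι).PairwiseDisjoint
        fun i => hfinN.toFinset.image (γ i • ·) := by
      intro i _ j _ hij
      rw [Function.onFun, Finset.disjoint_left]
      intro y hi hj
      simp only [Finset.mem_image, Set.Finite.mem_toFinset, Set.mem_ofPred_eq] at hi hj
      obtain ⟨_, ⟨n, hn, rfl⟩, rfl⟩ := hi
      obtain ⟨_, ⟨m, hm, rfl⟩, h⟩ := hj
      rw [smul_smul, smul_smul] at h
      have := hsep' _ _ h.symm
      apply hij (hγ' i j _)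
      have h2 := N.mul_mem (N.mul_mem hn this) (N.inv_mem hm)
      simpa [mul_assoc] using h2
    calc ∏ y ∈ hfinS.toFinset, w (α - y)
        ≤ ∏ y ∈ Finset.univ.biUnion fun i => hfinN.toFinset.image (γ i • ·), w (α - y) := by
          refine Finset.prod_le_prod_of_subset_of_le_one' ?_ fun y hy _ => ?_
          · intro y hy
            simp only [Finset.mem_biUnion, Finset.mem_image, Set.Finite.mem_toFinset,
              Set.mem_ofPred_eq] at hy ⊢
            obtain ⟨i, -, _, ⟨n, hn, rfl⟩, rfl⟩ := hy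
            exact ⟨γ i * n, fun h => hγ i (by simpa using N.mul_mem h (N.inv_mem hn)), mul_smul _ _ _⟩
          · obtain ⟨g, -, rfl⟩ := hfinS.mem_toFinset.mp hy
            exact (w.map_sub _ _).trans (max_le hα (hle g))
      _ = ∏ i, ∏ y ∈ hfinN.toFinset.image (γ i • ·), w (α - y) := Finset.prod_biUnion hdisj
      _ ≤ ∏ i, β i := Finset.prod_le_prod' fun i _ =>
          coset_le hinv N α hα _ (fun y => hfinN.mem_toFinset) (γ i) (β i) (hβ i)
  obtain ⟨b, hb, hmin⟩ := hfinS.toFinset.exists_min_image (fun y => w (α - y))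
    ⟨γ i0 • α, hfinS.mem_toFinset.mpr ⟨_, hγ i0, rfl⟩⟩
  obtain ⟨g0, hg0, rfl⟩ := hfinS.mem_toFinset.mp hb
  apply hg0
  have hinj : Function.Injective w.valuationSubring.subtype := Subtype.val_injective
  let T := hfin.toFinset.preimage w.valuationSubring.subtype hinj.injOn
  let S := hfinS.toFinset.preimage w.valuationSubring.subtype hinj.injOn
  suffices h : (1 : G)⁻¹ * g0 ∈ N by simpa using h
  refine hsep 1 g0 fun x => ?_
  have key := font_core w hw3 T S ?_ (q x) ?_ ⟨α, hα⟩ ⟨g0 • α, hle g0⟩ ?_ ?_ ?_ ?_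
  · have := congrArg w.valuationSubring.subtype key
    rw [← eval_map_apply, ← eval_map_apply] at this
    rw [one_smul]
    exact this.symm
  · intro y hy
    simp only [T, S, Finset.mem_preimage, Set.Finite.mem_toFinset] at hy ⊢
    obtain ⟨g, -, h⟩ := hy
    exact ⟨g, h⟩
  · intro y hy
    simp only [T, Finset.mem_preimage, Set.Finite.mem_toFinset] at hy
    obtain ⟨g, h⟩ := hy
    apply hinj
    rw [map_pow, ← eval_map_apply, ← h, map_one]
    change ((q x).map w.valuationSubring.subtype).eval (g • α) ^ 3 = 1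
    rw [← hq, ← AddChar.map_nsmul_eq_pow, h3, AddChar.map_zero_eq_one]
  · simp only [T, Finset.mem_preimage, Set.Finite.mem_toFinset]
    exact ⟨1, one_smul _ _⟩
  · simp only [T, Finset.mem_preimage, Set.Finite.mem_toFinset]
    exact ⟨g0, rfl⟩
  · intro y hy
    simp only [S, Finset.mem_preimage] at hy
    have := hmin _ hy
    rw [w.map_sub_swap] at this
    exact this
  · refine lt_of_le_of_lt (pow_le_pow_left' (le_trans (le_of_eq ?_) hprod) 2) hcon
    refine Finset.prod_preimage w.valuationSubring.subtype _ hinj.injOn (fun y => w (α - y))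
      fun y hy hy' => ?_
    obtain ⟨g, -, rfl⟩ := hfinS.mem_toFinset.mp hy
    exact absurd ⟨⟨_, hle g⟩, rfl⟩ hy'

end Crest.Agent.T15.FlR
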