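import Crest.Agent.T15.FlF_23

/-!
# Row 15, block Fl: Kummer classes of flat modules have level at least `5` (helper23)
-/

set_option autoImplicit false

noncomputable section

namespace Crest.Agent.T15.FlR

open scoped NNReal

variable {Ω : Type*} [Field Ω] {w : Valuation Ω ℝ≥0} {G : Type*} [Group G] [MulSemiringAction G Ω]

/-- the norm from the fixed field of a subgroup of finite index -/
theorem pow_index (hinv : ∀ (g : G) (x : Ω), w (g • x) = w x)
    (hdisc : ∀ a : Ω, a ≠ 0 → (∀ g : G, g • a = a) → ∃ n : ℤ, w a = w 3 ^ n) (H : Subgroup G)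
    (hH : H.index ≠ 0) (c : Ω) (hc0 : c ≠ 0) (hc : ∀ h ∈ H, h • c = c) :
    ∃ n : ℤ, w c ^ H.index = w 3 ^ n := by
  classical
  have : Finite (G ⧸ H) := Subgroup.index_ne_zero_iff_finite.mp hH
  have := Fintype.ofFinite (G ⧸ H)
  have hout : ∀ (g : G) (q : G ⧸ H), (g • q).out • c = g • q.out • c := by
    intro g q
    obtain ⟨h, hh⟩ := QuotientGroup.mk_out_eq_mul H (g * q.out)
    have h1 : g • q = ((g * q.out : G) : G ⧸ H) := by
      conv_lhs => rw [← QuotientGroup.out_eq' q]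
      rfl
    rw [h1, hh, mul_smul, mul_smul, hc h h.2]
  obtain ⟨n, hn⟩ := hdisc (∏ q : G ⧸ H, q.out • c)
    (Finset.prod_ne_zero_iff.mpr fun q _ => (smul_ne_zero_iff_ne _).mpr hc0) (fun g => by
      rw [Finset.smul_prod']
      exact Fintype.prod_bijective _ (MulAction.bijective g) _ _ fun q => (hout g q).symm)
  refine ⟨n, ?_⟩
  rw [← hn, map_prod]
  simp [hinv, Subgroup.index, Nat.card_eq_fintype_card]

theorem index_stab_le {H : Type*} [Group H] [MulAction H Ω] (x a : Ω) (n : ℕ) (hn : 0 < n)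
    (h : ∀ g : H, (g • x) ^ n = a) :
    (MulAction.stabilizer H x).index ≠ 0 ∧ (MulAction.stabilizer H x).index ≤ n := by
  classical
  rw [MulAction.index_stabilizer]
  have hsub : MulAction.orbit H x ⊆ ↑((Polynomial.nthRoots n a).toFinset) := by
    rintro _ ⟨g, rfl⟩
    simpa [Polynomial.mem_nthRoots hn] using h g
  have hfin : (MulAction.orbit H x).Finite := (Finset.finite_toSet _).subset hsub
  refine ⟨Set.ncard_ne_zero_of_mem (MulAction.mem_orbit_self x) hfin, ?_⟩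
  refine (Set.ncard_le_ncard hsub (Finset.finite_toSet _)).trans ?_
  rw [Set.ncard_coe_finset]
  exact (Multiset.toFinset_card_le _).trans (Polynomial.card_nthRoots n a)

theorem cube_close {x y : Ω} (hx : w x = 1) (h : y ^ 3 = x ^ 3) : w (y - x) ^ 2 ≤ w 3 := by
  have hy : w y = 1 := by
    have := congrArg w h
    rw [map_pow, map_pow, hx, one_pow] at this
    exact (pow_eq_one_iff_of_nonneg zero_le (by norm_num)).mp this
  have h1 : (y - x) * ((y - x) ^ 2 + 3 * (x * y)) = 0 := by linear_combination h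
  rcases mul_eq_zero.mp h1 with h0 | h0
  · simp [h0]
  · have h2 : (y - x) ^ 2 = -(3 * (x * y)) := by linear_combination h0
    rw [← map_pow, h2, Valuation.map_neg, map_mul, map_mul, hx, hy]; simp

theorem le_of_three {a b c : Ω} (hab : a ≠ 0 → b ≠ 0 → w a ≠ w b) (hac : a ≠ 0 → c ≠ 0 → w a ≠ w c)
    (hbc : b ≠ 0 → c ≠ 0 → w b ≠ w c) : w b ≤ w (a + b + c) := by
  by_cases hb : b = 0
  · simp [hb]
  by_contra hcon
  push Not at hcon
  have hb' : 0 < w b := pos_iff_ne_zero.mpr ((Valuation.ne_zero_iff w).mpr hb)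
  have h1 : w (a + c) = w b := by
    have : a + c = (a + b + c) - b := by ring
    rw [this, Valuation.map_sub_eq_of_lt_right _ hcon]
  by_cases ha : a = 0
  · by_cases hc : c = 0
    · simp [ha, hc] at h1; exact hb'.ne h1
    · exact hbc hb hc (by simpa [ha] using h1.symm)
  by_cases hc : c = 0
  · exact hab ha hb (by simpa [hc] using h1)
  rcases lt_or_gt_of_ne (hac ha hc) with h | h
  · rw [Valuation.map_add_eq_of_lt_right _ h] at h1
    exact hbc hb hc h1.symm
  · rw [Valuation.map_add_eq_of_lt_left _ h] at h1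
    exact hab ha hb h1

/-- resolvents: an element fixed by `N ⊓ Stab x` is a quadratic polynomial in `x` over the fixed field
of `N` -/
theorem exists_quad [CharZero Ω] (N : Subgroup G) (x ζ : Ω) (hx0 : x ≠ 0) (hζ : ζ ^ 2 + ζ + 1 = 0)
    (hζN : ∀ n ∈ N, n • ζ = ζ) (hx3 : ∀ n ∈ N, (n • x) ^ 3 = x ^ 3) (s : G) (hs : s ∈ N)
    (hsx : s • x = ζ * x) (c : Ω) (hc : ∀ n ∈ N, n • x = x → n • c = c) :
    ∃ a0 a1 a2 : Ω, (∀ n ∈ N, n • a0 = a0) ∧ (∀ n ∈ N, n • a1 = a1) ∧ (∀ n ∈ N, n • a2 = a2) ∧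
      c = a0 + a1 * x + a2 * x ^ 2 := by
  have hζ3 : ζ ^ 3 = 1 := by linear_combination (ζ - 1) * hζ
  have hζ0 : ζ ≠ 0 := by rintro rfl; simp at hζ
  have hsζ := hζN s hs
  have hs2 : (s * s) • x = ζ ^ 2 * x := by rw [mul_smul, hsx, smul_mul', hsζ, hsx]; ring
  have hs3 : s • s • s • c = c := by
    rw [smul_smul, smul_smul]
    refine hc _ (N.mul_mem (N.mul_mem hs hs) hs) ?_
    rw [mul_assoc, mul_smul, hs2, smul_mul', smul_pow', hsζ, hsx]
    linear_combination x * hζ3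
  have hconj : ∀ t ∈ N, ∀ e : Ω, (∀ n ∈ N, n • e = e) → t • x = e * x →
      ∀ n ∈ N, n • x = x → n • t • c = t • c := by
    intro t ht e he htx n hn hnx
    have : (t⁻¹ * n * t) • c = c := by
      refine hc _ (N.mul_mem (N.mul_mem (N.inv_mem ht) hn) ht) ?_
      rw [mul_smul, mul_smul, htx, smul_mul', he n hn, hnx, ← htx, inv_smul_smul]
    rw [mul_smul, mul_smul, inv_smul_eq_iff] at this
    exact this
  have h1 := hconj s hs ζ hζN hsx
  have h2 : ∀ n ∈ N, n • x = x → n • s • s • c = s • s • c := by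
    have := hconj (s * s) (N.mul_mem hs hs) (ζ ^ 2) (fun n hn => by rw [smul_pow', hζN n hn]) hs2
    simpa only [mul_smul] using this
  have hfix : ∀ a : Ω, s • a = a → (∀ n ∈ N, n • x = x → n • a = a) → ∀ n ∈ N, n • a = a := by
    intro a hsa ha n hn
    have h3 : (n • x - x) * (n • x - ζ * x) * (n • x - ζ ^ 2 * x) = 0 := by
      linear_combination hx3 n hn - (x * (n • x) ^ 2 - x ^ 2 * (n • x) * ζ) * hζ - x ^ 3 * hζ3
    have hgen : ∀ t ∈ N, t • a = a → n • x = t • x → n • a = a := by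
      intro t ht hta h
      have := ha (t⁻¹ * n) (N.mul_mem (N.inv_mem ht) hn) (by rw [mul_smul, h, inv_smul_smul])
      rw [mul_smul, inv_smul_eq_iff, hta] at this
      exact this
    rcases mul_eq_zero.mp h3 with h4 | h4
    · rcases mul_eq_zero.mp h4 with h5 | h5
      · exact ha n hn (sub_eq_zero.mp h5)
      · exact hgen s hs hsa ((sub_eq_zero.mp h5).trans hsx.symm)
    · exact hgen (s * s) (N.mul_mem hs hs) (by rw [mul_smul, hsa, hsa])
        ((sub_eq_zero.mp h4).trans hs2.symm)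
  have h3 : ∀ g : G, g • (3 : Ω) = 3 := fun g => map_ofNat (MulSemiringAction.toRingHom G Ω g) 3
  refine ⟨(c + s • c + s • s • c) / 3, (c + ζ ^ 2 * s • c + ζ * s • s • c) / (3 * x),
    (c + ζ * s • c + ζ ^ 2 * s • s • c) / (3 * x ^ 2), hfix _ ?_ ?_, hfix _ ?_ ?_, hfix _ ?_ ?_, ?_⟩
  · simp only [smul_div₀', smul_add, h3, hs3]; ring
  · intro n hn hnx
    simp only [smul_div₀', smul_add, h3, hc n hn hnx, h1 n hn hnx, h2 n hn hnx]
  · simp only [smul_div₀', smul_add, smul_mul', smul_pow', h3, hs3, hsζ, hsx]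
    field_simp
    linear_combination (-(s • c)) * hζ3
  · intro n hn hnx
    simp only [smul_div₀', smul_add, smul_mul', smul_pow', h3, hc n hn hnx, h1 n hn hnx,
      h2 n hn hnx, hζN n hn, hnx]
  · simp only [smul_div₀', smul_add, smul_mul', smul_pow', h3, hs3, hsζ, hsx]
    field_simp
    linear_combination (-(s • c) - ζ * s • s • c) * hζ3
  · intro n hn hnx
    simp only [smul_div₀', smul_add, smul_mul', smul_pow', h3, hc n hn hnx, h1 n hn hnx,
      h2 n hn hnx, hζN n hn, hnx]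
  · field_simp
    linear_combination (-(s • c) - s • s • c) * hζ

variable {V : Type*} [AddCommGroup V]

/-- **Kummer classes inside the field of a flat module killed by `3` have level `≥ 5`** over
`K = F(π)`, `π ^ 8 = -3`. -/
theorem kum [IsAlgClosed Ω] [CharZero Ω] [Finite V] (hw3 : w 3 < 1)
    (hinv : ∀ (g : G) (x : Ω), w (g • x) = w x) (hM : Mono w G)
    (hdisc : ∀ a : Ω, a ≠ 0 → (∀ g : G, g • a = a) → ∃ n : ℤ, w a = w 3 ^ n)
    (hres : ∀ c : Ω, w c ≤ 1 → ∃ a, (∀ g : G, g • a = a) ∧ w (c - a) < 1)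
    {ρ : G → V → V} (hF : Flat w G ρ) (h3 : ∀ v : V, 3 • v = 0) (π x : Ω) (hπ : π ^ 8 = -3)
    (hker : ∀ g g', (∀ v, ρ g v = ρ g' v) → (g⁻¹ * g') • π = π ∧ (g⁻¹ * g') • x = x)
    (hx3 : ∀ g : G, g • π = π → g • x ^ 3 = x ^ 3) (j : ℕ) (hj : j ≤ 4) (hj3 : ¬ 3 ∣ j)
    (hxj : w (x - 1) ^ 24 = w 3 ^ j) : False := by
  classical
  obtain ⟨s24, hs24⟩ := IsAlgClosed.exists_pow_nat_eq (3 : Ω) (n := 24) (by norm_num)
  obtain ⟨p, hp⟩ : ∃ p, p = w s24 := ⟨_, rfl⟩
  have hp24 : p ^ 24 = w 3 := by rw [hp, ← map_pow, hs24]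
  have h30 : w 3 ≠ 0 := (Valuation.ne_zero_iff w).mpr (by norm_num)
  have hp0 : 0 < p := by
    rw [pos_iff_ne_zero]; rintro rfl; exact h30 (by rw [← hp24]; simp)
  have hp1 : p < 1 := by
    by_contra h
    push Not at h
    exact absurd (hp24 ▸ one_le_pow₀ h) (not_le.mpr hw3)
  have hzinj : ∀ a b : ℤ, p ^ a = p ^ b → a = b := fun a b h => zpow_right_injective₀ hp0 hp1.ne h
  have hroot : ∀ (a : ℝ≥0) (k : ℕ) (n : ℤ), k ≠ 0 → a ^ k = (p ^ n) ^ k → a = p ^ n :=
    fun a k n hk h => (pow_left_inj₀ zero_le zero_le hk).mp h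
  have h3g : ∀ g : G, g • (3 : Ω) = 3 := fun g => map_ofNat (MulSemiringAction.toRingHom G Ω g) 3
  have hj0 : 0 < j := Nat.pos_of_ne_zero (by rintro rfl; simp at hj3)
  have hz : w (x - 1) = p ^ (j : ℤ) := hroot _ 24 _ (by norm_num) (by
    rw [hxj, ← hp24, zpow_natCast]; ring)
  have hz1 : w (x - 1) < 1 := by rw [hz, zpow_natCast]; exact pow_lt_one₀ zero_le hp1 hj0.ne'
  have hz0 : x - 1 ≠ 0 := by
    intro h; rw [h, map_zero] at hz; exact (zpow_pos hp0 _).ne hz
  have hx1 : w x = 1 := by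
    have : x = 1 + (x - 1) := by ring
    rw [this]; exact w.map_one_add_of_lt hz1
  have hx0 : x ≠ 0 := by rintro rfl; simp at hx1
  have hπ0 : π ≠ 0 := by rintro rfl; norm_num at hπ
  have hwπ : w π = p ^ (3 : ℤ) := hroot _ 8 _ (by norm_num) (by
    rw [← map_pow, hπ, Valuation.map_neg, ← hp24]; norm_cast; ring)
  obtain ⟨N, hN⟩ : ∃ N, N = MulAction.stabilizer G π := ⟨_, rfl⟩
  have hNm : ∀ g, g ∈ N ↔ g • π = π := fun g => by rw [hN]; rfl
  obtain ⟨N1, hN1⟩ : ∃ N1, N1 = MulAction.stabilizer G x ⊓ N := ⟨_, rfl⟩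
  have hN1m : ∀ g, g ∈ N1 ↔ g • x = x ∧ g ∈ N := fun g => by rw [hN1]; rfl
  have hpow : ∀ (H : Subgroup G), H.index ≠ 0 → ∀ c : Ω, c ≠ 0 → (∀ h ∈ H, h • c = c) →
      ∃ n : ℤ, w c ^ H.index = p ^ (24 * n) := by
    intro H hH c hc0 hc
    obtain ⟨n, hn⟩ := pow_index hinv hdisc H hH c hc0 hc
    exact ⟨n, by rw [hn, ← hp24, zpow_mul]; norm_cast⟩
  have hN8 : N.index = 8 := by
    obtain ⟨h1, h2⟩ := index_stab_le (H := G) π (-3) 8 (by norm_num) fun g => by
      rw [← smul_pow', hπ, smul_neg, h3g]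
    rw [← hN] at h1 h2
    obtain ⟨n, hn⟩ := hpow N h1 π hπ0 fun h hh => (hNm h).mp hh
    rw [hwπ, ← zpow_natCast, ← zpow_mul] at hn
    have := hzinj _ _ hn
    omega
  have hx3' : ∀ n ∈ N, (n • x) ^ 3 = x ^ 3 := fun n hn => by
    rw [← smul_pow', hx3 n ((hNm n).mp hn)]
  have hzfix : ∀ h ∈ N1, h • (x - 1) = x - 1 := fun h hh => by
    rw [smul_sub, smul_one, ((hN1m h).mp hh).1]
  have hN24 : N1.index = 24 := by
    obtain ⟨h1, h2⟩ := index_stab_le (H := N) x (x ^ 3) 3 (by norm_num) fun g => hx3' g g.2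
    have h4 : MulAction.stabilizer N x = N1.subgroupOf N := by
      ext g; rw [Subgroup.mem_subgroupOf, hN1m]; simp [Subgroup.smul_def]
    rw [h4] at h1 h2
    have h5 : N1.relIndex N * N.index = N1.index :=
      Subgroup.relIndex_mul_index fun g hg => ((hN1m g).mp hg).2
    change N1.relIndex N ≠ 0 at h1
    change N1.relIndex N ≤ 3 at h2
    rw [hN8] at h5
    obtain ⟨n, hn⟩ := hpow N1 (by omega) (x - 1) hz0 hzfix
    rw [hz, ← zpow_natCast, ← zpow_mul, ← h5] at hn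
    have h6 := hzinj _ _ hn
    obtain ⟨r, hr⟩ : ∃ r, r = N1.relIndex N := ⟨_, rfl⟩
    rw [← hr] at h1 h2 h5 h6
    have : r = 1 ∨ r = 2 ∨ r = 3 := by omega
    rcases this with rfl | rfl | rfl <;> push_cast at h6 <;> omega
  obtain ⟨s, hs, hsx⟩ : ∃ s ∈ N, s • x ≠ x := by
    by_contra hcon
    push Not at hcon
    have : N1 = N := by ext g; rw [hN1m]; exact ⟨fun h => h.2, fun h => ⟨hcon g h, h⟩⟩
    rw [this] at hN24; omega
  obtain ⟨ζ, hζdef⟩ : ∃ ζ, ζ = s • x / x := ⟨_, rfl⟩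
  have hsζ : s • x = ζ * x := by rw [hζdef]; field_simp
  have hζ1 : ζ - 1 ≠ 0 := by
    intro h; apply hsx; rw [hsζ, sub_eq_zero.mp h, one_mul]
  have hζ : ζ ^ 2 + ζ + 1 = 0 := by
    have h1 := hx3' s hs
    rw [hsζ] at h1
    apply mul_left_cancel₀ (mul_ne_zero hζ1 (pow_ne_zero 3 hx0))
    linear_combination h1
  have hζN : ∀ n ∈ N, n • ζ = ζ := by
    intro n hn
    have h2 : ∀ g : G, g • (2 : Ω) = 2 := fun g => map_ofNat (MulSemiringAction.toRingHom G Ω g) 2
    have h1 : (2 * ζ + 1 - π ^ 4) * (2 * ζ + 1 + π ^ 4) = 0 := by linear_combination 4 * hζ - hπ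
    have hπn := (hNm n).mp hn
    apply mul_left_cancel₀ (two_ne_zero (α := Ω))
    rcases mul_eq_zero.mp h1 with h | h
    · have := congrArg (n • ·) h
      simp only [smul_sub, smul_add, smul_mul', smul_pow', smul_one, smul_zero, h2, hπn] at this
      linear_combination this - h
    · have := congrArg (n • ·) h
      simp only [smul_add, smul_mul', smul_pow', smul_one, smul_zero, h2, hπn] at this
      linear_combination this - h
  -- generic bound
  have hgen : ∀ (g : G) (c : Ω), w c ≤ 1 → (∀ n ∈ N1, n • c = c) → w (g • c - c) ≤ p := by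
    intro g c hc hcN
    obtain ⟨a, ha, hca⟩ := hres c hc
    have h1 : w (c - a) ≤ p := by
      by_cases h0 : c - a = 0
      · simp [h0]
      obtain ⟨n, hn⟩ := hpow N1 (by omega) (c - a) h0 fun h hh => by rw [smul_sub, ha, hcN h hh]
      rw [hN24, mul_comm, zpow_mul] at hn
      have h2 := hroot _ 24 n (by norm_num) (by exact_mod_cast hn)
      rw [h2] at hca ⊢
      have h4 : 0 < n := (zpow_lt_one_iff_right_of_lt_one₀ hp0 hp1).mp hca
      simpa using zpow_le_zpow_right_of_le_one₀ hp0 hp1.le (show 1 ≤ n by omega)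
    have : g • c - c = g • (c - a) - (c - a) := by rw [smul_sub, ha]; ring
    rw [this]
    exact (w.map_sub _ _).trans (max_le (by rwa [hinv]) h1)
  -- wild bound
  have hwild : ∀ g ∈ N, ∀ c : Ω, w c ≤ 1 → (∀ n ∈ N1, n • c = c) → w (g • c - c) ≤ p ^ 8 := by
    intro g hg c hc hcN
    obtain ⟨a0, a1, a2, h0, h1, h2, hca⟩ := exists_quad N x ζ hx0 hζ hζN hx3' s hs hsζ c
      fun n hn hnx => hcN n ((hN1m n).mpr ⟨hnx, hn⟩)
    have h2g : ∀ g : G, g • (2 : Ω) = 2 := fun g => map_ofNat (MulSemiringAction.toRingHom G Ω g) 2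
    obtain ⟨z, hzz⟩ : ∃ z, z = x - 1 := ⟨_, rfl⟩
    obtain ⟨c0, hc0⟩ : ∃ c0, c0 = a0 + a1 + a2 := ⟨_, rfl⟩
    obtain ⟨c1, hc1⟩ : ∃ c1, c1 = a1 + 2 * a2 := ⟨_, rfl⟩
    have f0 : ∀ n ∈ N, n • c0 = c0 := fun n hn => by
      rw [hc0, smul_add, smul_add, h0 n hn, h1 n hn, h2 n hn]
    have f1 : ∀ n ∈ N, n • c1 = c1 := fun n hn => by
      rw [hc1, smul_add, smul_mul', h2g, h1 n hn, h2 n hn]
    have hcz : c = c0 + c1 * z + a2 * z ^ 2 := by rw [hca, hc0, hc1, hzz]; ring
    rw [← hzz] at hz hz0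
    have hval : ∀ a : Ω, (∀ n ∈ N, n • a = a) → ∀ i : ℕ, a * z ^ i ≠ 0 →
        ∃ n : ℤ, w (a * z ^ i) = p ^ (3 * n + j * i) := by
      intro a ha i hi
      obtain ⟨n, hn⟩ := hpow N (by omega) a (left_ne_zero_of_mul hi) ha
      have h4 := hroot (w a) 8 (3 * n) (by norm_num) (by
        rw [← hN8, hn, hN8, ← zpow_natCast, ← zpow_mul]; congr 1; push_cast; ring)
      exact ⟨n, by rw [map_mul, map_pow, h4, hz, zpow_add₀ hp0.ne', zpow_mul, zpow_mul, zpow_natCast,
        zpow_natCast]⟩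
    have hne : ∀ a b : Ω, (∀ n ∈ N, n • a = a) → (∀ n ∈ N, n • b = b) → ∀ i k : ℕ, i < 3 → k < 3 →
        i ≠ k → a * z ^ i ≠ 0 → b * z ^ k ≠ 0 → w (a * z ^ i) ≠ w (b * z ^ k) := by
      intro a b ha hb i k hi hk hik h1 h2 h
      obtain ⟨n, hn⟩ := hval a ha i h1
      obtain ⟨m, hm⟩ := hval b hb k h2
      rw [hn, hm] at h
      have := hzinj _ _ h
      interval_cases i <;> interval_cases k <;> push_cast at this <;> omega
    have e01 := hne c0 c1 f0 f1 0 1 (by norm_num) (by norm_num) (by norm_num)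
    have e02 := hne c0 a2 f0 h2 0 2 (by norm_num) (by norm_num) (by norm_num)
    have e12 := hne c1 a2 f1 h2 1 2 (by norm_num) (by norm_num) (by norm_num)
    simp only [pow_zero, mul_one, pow_one] at e01 e02 e12
    have b1 : w (c1 * z) ≤ 1 := (le_of_three e01 e02 e12).trans (hcz ▸ hc)
    have b2 : w (a2 * z ^ 2) ≤ 1 := by
      have := le_of_three e02 e01 fun h h' => (e12 h' h).symm
      rw [add_right_comm, ← hcz] at this
      exact this.trans hc
    have hd : w (g • z - z) ≤ p ^ 12 := by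
      have h4 : g • z - z = g • x - x := by rw [hzz, smul_sub, smul_one]; ring
      have h5 := cube_close hx1 (hx3' g hg)
      rw [h4]
      refine le_of_pow_le_pow_left₀ two_ne_zero zero_le ?_
      rw [← hp24] at h5
      calc _ ≤ p ^ 24 := h5
        _ = _ := by ring
    have hE : (g • c - c) * z = (g • z - z) * (c1 * z + a2 * z * (g • z + z)) := by
      conv_lhs => rw [hcz]
      simp only [smul_add, smul_mul', smul_pow', f0 g hg, f1 g hg, h2 g hg]
      ring
    have b3 : w (a2 * z * (g • z + z)) ≤ 1 := by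
      refine le_trans ?_ b2
      rw [pow_two, ← mul_assoc, map_mul _ (a2 * z), map_mul _ (a2 * z)]
      exact mul_le_mul_right ((w.map_add _ _).trans (max_le (hinv g z).le le_rfl)) _
    have b4 : w (g • c - c) * p ^ j ≤ p ^ 12 := by
      have := congrArg w hE
      rw [map_mul, map_mul, hz, zpow_natCast] at this
      rw [this]
      exact (mul_le_of_le_one_right' ((w.map_add _ _).trans (max_le b1 b3))).trans hd
    have b5 : w (g • c - c) * p ^ 4 ≤ p ^ 8 * p ^ 4 := by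
      calc _ ≤ w (g • c - c) * p ^ j := mul_le_mul_right (pow_le_pow_of_le_one zero_le hp1.le hj) _
        _ ≤ p ^ 12 := b4
        _ = _ := by ring
    exact le_of_mul_le_mul_right b5 (pow_pos hp0 4)
  have : Finite (G ⧸ N1) := Subgroup.index_ne_zero_iff_finite.mp (by omega)
  have := Fintype.ofFinite (G ⧸ N1)
  let ι := {q : G ⧸ N1 // q ≠ ((1 : G) : G ⧸ N1)}
  have hcard : Fintype.card ι = 23 := by
    have h1 : Fintype.card (G ⧸ N1) = 24 := by rw [← hN24, Subgroup.index, Nat.card_eq_fintype_card]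
    rw [Fintype.card_subtype_compl, h1]; simp
  have key := font hw3 hinv hM hF h3 N1
    (fun g g' h => (hN1m _).mpr ⟨(hker g g' h).2, (hNm _).mpr (hker g g' h).1⟩)
    (fun q : ι => q.1.out) (fun q h => q.2 (by
      rw [← QuotientGroup.out_eq' q.1, eq_comm, QuotientGroup.eq]; simpa using h))
    (fun q q' h => Subtype.ext (by
      rw [← QuotientGroup.out_eq' q.1, ← QuotientGroup.out_eq' q'.1, QuotientGroup.eq]; exact h))
    (fun q => p * if q.1.out ∈ N then p ^ 7 else 1) (fun q c hc hcN => by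
      split_ifs with h
      · exact (hwild _ h c hc hcN).trans (le_of_eq (by ring))
      · simpa using hgen _ c hc hcN)
  have hs1 : s ∉ N1 := fun h => hsx ((hN1m s).mp h).1
  have hs2 : s * s ∉ N1 := fun h => by
    have h1 := ((hN1m _).mp h).1
    rw [mul_smul, hsζ, smul_mul', hζN s hs, hsζ] at h1
    have h2 : (ζ - 1) * x = 0 := by linear_combination (-ζ) * h1 + (ζ - 1) * x * hζ
    exact mul_ne_zero hζ1 hx0 h2
  have hq : ∀ t : G, t ∉ N1 → (t : G ⧸ N1) ≠ ((1 : G) : G ⧸ N1) := fun t ht h => by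
    rw [eq_comm, QuotientGroup.eq] at h; exact ht (by simpa using h)
  have hout : ∀ t ∈ N, (t : G ⧸ N1).out ∈ N := fun t ht => by
    obtain ⟨h, hh⟩ := QuotientGroup.mk_out_eq_mul N1 t
    rw [hh]; exact N.mul_mem ht ((hN1m h).mp h.2).2
  have hne : (⟨_, hq s hs1⟩ : ι) ≠ ⟨_, hq _ hs2⟩ := fun h => by
    have h1 := congrArg Subtype.val h
    simp only [QuotientGroup.eq] at h1
    exact hs1 (by simpa using h1)
  have hle : ∏ q : ι, (if q.1.out ∈ N then p ^ 7 else 1) ≤ p ^ 7 * p ^ 7 := by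
    refine (Finset.prod_le_prod_of_subset_of_le_one'
      (Finset.subset_univ {(⟨_, hq s hs1⟩ : ι), ⟨_, hq _ hs2⟩}) fun q _ _ => ?_).trans ?_
    · split_ifs
      · exact pow_le_one₀ zero_le hp1.le
      · exact le_rfl
    · rw [Finset.prod_pair hne, if_pos (hout s hs), if_pos (hout _ (N.mul_mem hs hs))]
  rw [Finset.prod_mul_distrib, Finset.prod_const, Finset.card_univ, hcard, ← hp24] at key
  have h72 : p ^ 72 ≤ p ^ 74 := by
    calc p ^ 72 = (p ^ 24) ^ 3 := by ring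
      _ ≤ _ := key
      _ ≤ (p ^ 23 * (p ^ 7 * p ^ 7)) ^ 2 := pow_le_pow_left' (mul_le_mul_right hle _) 2
      _ = p ^ 74 := by ring
  exact absurd h72 (not_le.mpr (pow_lt_pow_right_of_lt_one₀ hp0 hp1 (by norm_num)))

end Crest.Agent.T15.FlR
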