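import Crest.Agent.T15.FlL_80
import Crest.Agent.T15.FlF_23

/-!
# Row 15, block Fl: `Mono` for the inertia group (helper80)
-/

set_option autoImplicit false

noncomputable section

namespace Crest.Agent.T15.Fl

open scoped NNReal
open Polynomial Module

variable {F Ω : Type*} [Field F] [Field Ω] [Algebra F Ω] {w : Valuation Ω ℝ≥0}

/-- orbits of an algebraic extension are finite -/
lemma finite_orbit [Algebra.IsAlgebraic F Ω] (α : Ω) :
    (Set.range fun g : Ω ≃ₐ[F] Ω => g • α).Finite := by
  refine ((minpoly F α).rootSet_finite Ω).subset ?_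
  rintro _ ⟨g, rfl⟩
  rw [mem_rootSet]
  refine ⟨minpoly.ne_zero (Algebra.IsIntegral.isIntegral α), ?_⟩
  change aeval (g α) _ = 0
  rw [aeval_algHom_apply, minpoly.aeval, map_zero]

/-- **MONO in helper23's words** -/
theorem mono_of [CharZero Ω] [IsAlgClosed Ω] (hc : Ctx F w) (hf : Res F w) [IsGalois F Ω] :
    FlR.Mono w (Ω ≃ₐ[F] Ω) := by
  intro A hA
  have : FiniteDimensional F (IntermediateField.adjoin F (A : Set Ω)) :=
    IntermediateField.finiteDimensional_adjoin fun x _ => Algebra.IsIntegral.isIntegral x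
  obtain ⟨α, -, h1, -, -, h2, -⟩ := hc.mono hf (IntermediateField.adjoin F (A : Set Ω))
  refine ⟨α, h1, finite_orbit α, fun a ha => ?_⟩
  obtain ⟨p, rfl⟩ := h2 a (IntermediateField.subset_adjoin F _ ha) (hA a ha)
  refine ⟨p.map (algebraMap (OF F w) Ω), fun i => ?_, fun g => ?_⟩
  · rw [coeff_map]; exact (p.coeff i).2
  · rw [eval_map_algebraMap]
    exact (aeval_algHom_apply (g.restrictScalars (OF F w)) α p).symm

end Crest.Agent.T15.Fl
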