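import Crest.Agent.T15.FlR_23

/-!
# Row 15, block Fl: invariant integral functions and Raynaud's bound for tame flat modules (helper38)
-/

set_option autoImplicit false

noncomputable section

namespace Crest.Agent.T15.FlR

open scoped NNReal

variable {Ω : Type*} [Field Ω] {w : Valuation Ω ℝ≥0} {G : Type*} [Group G] [MulSemiringAction G Ω]

/-- every element of `RR` is a finite sum `∑ c i * g • a i` -/
theorem exists_rep_38 {F : G → Ω} (h : F ∈ RR w G) :
    ∃ (n : ℕ) (c a : Fin n → Ω), (∀ i, w (c i) ≤ 1) ∧ (∀ i, w (a i) ≤ 1) ∧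
      ∀ g, F g = ∑ i, c i * g • a i := by
  have key : ∃ (ι : Type) (_ : Fintype ι) (c a : ι → Ω), (∀ i, w (c i) ≤ 1) ∧ (∀ i, w (a i) ≤ 1) ∧
      ∀ g, F g = ∑ i, c i * g • a i := by
    induction h using Subring.closure_induction with
    | mem x hx =>
      rcases hx with ⟨c, hc, rfl⟩ | ⟨a, ha, rfl⟩
      · exact ⟨Unit, inferInstance, fun _ => c, fun _ => 1, fun _ => hc, fun _ => by simp,
          fun g => by simp⟩
      · exact ⟨Unit, inferInstance, fun _ => 1, fun _ => a, fun _ => by simp, fun _ => ha,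
          fun g => by simp⟩
    | zero => exact ⟨Empty, inferInstance, fun _ => 0, fun _ => 0, fun i => i.elim, fun i => i.elim,
        fun g => by simp⟩
    | one => exact ⟨Unit, inferInstance, fun _ => 1, fun _ => 1, fun _ => by simp, fun _ => by simp,
        fun g => by simp⟩
    | add x y _ _ hx hy =>
      obtain ⟨ι, _, c, a, hc, ha, e⟩ := hx
      obtain ⟨ι', _, c', a', hc', ha', e'⟩ := hy
      refine ⟨ι ⊕ ι', inferInstance, Sum.elim c c', Sum.elim a a', ?_, ?_, fun g => ?_⟩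
      · rintro (i | i); exacts [hc i, hc' i]
      · rintro (i | i); exacts [ha i, ha' i]
      · simp [e, e', Fintype.sum_sum_type]
    | neg x _ hx =>
      obtain ⟨ι, _, c, a, hc, ha, e⟩ := hx
      exact ⟨ι, inferInstance, fun i => -c i, a, fun i => by simpa using hc i, ha,
        fun g => by simp [e]⟩
    | mul x y _ _ hx hy =>
      obtain ⟨ι, _, c, a, hc, ha, e⟩ := hx
      obtain ⟨ι', _, c', a', hc', ha', e'⟩ := hy
      refine ⟨ι × ι', inferInstance, fun p => c p.1 * c' p.2, fun p => a p.1 * a' p.2,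
        fun p => by simpa using mul_le_one' (hc p.1) (hc' p.2),
        fun p => by simpa using mul_le_one' (ha p.1) (ha' p.2), fun g => ?_⟩
      rw [Pi.mul_apply, e, e', Finset.sum_mul_sum, Fintype.sum_prod_type]
      refine Finset.sum_congr rfl fun i _ => Finset.sum_congr rfl fun j _ => ?_
      rw [smul_mul']; ring
  obtain ⟨ι, _, c, a, hc, ha, e⟩ := key
  let E := (Fintype.equivFin ι).symm
  exact ⟨_, c ∘ E, a ∘ E, fun i => hc _, fun i => ha _, fun g => by
    rw [e, ← E.sum_comp]; rfl⟩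

/-- a representation with independent coefficients -/
theorem exists_indep_38 (n : ℕ) : ∀ (c a : Fin n → Ω), (∀ i, w (c i) ≤ 1) → (∀ i, w (a i) ≤ 1) →
    ∃ (m : ℕ) (c' a' : Fin m → Ω), (∀ i, w (c' i) ≤ 1) ∧ (∀ i, w (a' i) ≤ 1) ∧
      LinearIndependent (FixedPoints.subfield G Ω) c' ∧
      ∀ g : G, ∑ i, c i * g • a i = ∑ i, c' i * g • a' i := by
  induction n with
  | zero => exact fun c a hc ha => ⟨0, c, a, hc, ha, linearIndependent_empty_type, fun _ => rfl⟩
  | succ n ih =>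
    intro c a hc ha
    by_cases hl : LinearIndependent (FixedPoints.subfield G Ω) c
    · exact ⟨_, c, a, hc, ha, hl, fun _ => rfl⟩
    obtain ⟨β, hβ, i1, hi1⟩ := Fintype.not_linearIndependent_iff.mp hl
    obtain ⟨i0, -, hi0⟩ := Finset.exists_max_image Finset.univ (fun i => w (β i : Ω))
      ⟨i1, Finset.mem_univ _⟩
    have h0 : (β i0 : Ω) ≠ 0 := by
      intro h
      have := hi0 i1 (Finset.mem_univ _)
      rw [h, map_zero, nonpos_iff_eq_zero, map_eq_zero] at this
      exact hi1 (Subtype.ext this)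
    have hw0 : 0 < w (β i0 : Ω) := pos_iff_ne_zero.mpr ((map_ne_zero w).mpr h0)
    have hfix : ∀ (g : G) i, g • (β i : Ω) = β i := fun g i => (β i).2 g
    have hrel : (β i0 : Ω) * c i0 + ∑ i, (β (i0.succAbove i) : Ω) * c (i0.succAbove i) = 0 := by
      rw [← Fin.sum_univ_succAbove (fun i => (β i : Ω) * c i) i0]
      exact hβ
    obtain ⟨m, c', a', h1, h2, h3, h4⟩ := ih (fun i => c (i0.succAbove i))
      (fun i => a (i0.succAbove i) - (β (i0.succAbove i) : Ω) / β i0 * a i0) (fun i => hc _)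
      (fun i => (w.map_sub _ _).trans (max_le (ha _) (by
        rw [map_mul, map_div₀]
        exact mul_le_one' ((div_le_one₀ hw0).mpr (hi0 _ (Finset.mem_univ _))) (ha _))))
    refine ⟨m, c', a', h1, h2, h3, fun g => ?_⟩
    rw [← h4 g, Fin.sum_univ_succAbove _ i0]
    have e1 : c i0 = -∑ i, (β (i0.succAbove i) : Ω) / β i0 * c (i0.succAbove i) := by
      have : ∑ i, (β (i0.succAbove i) : Ω) / β i0 * c (i0.succAbove i) =
          (∑ i, (β (i0.succAbove i) : Ω) * c (i0.succAbove i)) / β i0 := by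
        rw [Finset.sum_div]
        exact Finset.sum_congr rfl fun i _ => by ring
      rw [this, eq_neg_iff_add_eq_zero]
      field_simp
      linear_combination hrel
    rw [e1, neg_mul, Finset.sum_mul, ← Finset.sum_neg_distrib, ← Finset.sum_add_distrib]
    refine Finset.sum_congr rfl fun i _ => ?_
    rw [smul_sub, smul_mul', smul_div₀', hfix, hfix]
    ring

theorem eq_zero_of_indep_38 {m : ℕ} {c b : Fin m → Ω}
    (hc : LinearIndependent (FixedPoints.subfield G Ω) c) (h : ∀ g : G, ∑ i, c i * g • b i = 0)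
    (i : Fin m) : b i = 0 := by
  classical
  have hinj := hc.injective
  have h1 : LinearIndepOn (FixedPoints.subfield G Ω) id
      ((Finset.univ.image c : Finset Ω) : Set Ω) := by
    have := hc.linearIndepOn_id
    simpa using this
  have h2 := FixedPoints.linearIndependent_smul_of_linearIndependent G Ω h1
  have h3 : LinearIndependent Ω (fun i => MulAction.toFun G Ω (c i)) :=
    LinearIndependent.comp h2 (fun i => (⟨c i, by simp⟩ : ((Finset.univ.image c : Finset Ω) : Set Ω)))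
      (fun i j hij => hinj (congrArg Subtype.val hij))
  refine Fintype.linearIndependent_iff.mp h3 b ?_ i
  ext g
  have := congrArg (fun x => g • x) (h g⁻¹)
  simp only [Finset.smul_sum, smul_mul', smul_inv_smul, smul_zero] at this
  simp only [Finset.sum_apply, Pi.smul_apply, smul_eq_mul, Pi.zero_apply]
  rw [← this]
  exact Finset.sum_congr rfl fun i _ => mul_comm _ _

/-- **(INV)** an integral function that is right invariant under `N` comes from `N`-fixed integers -/
theorem exists_rep_fixed {F : G → Ω} (h : F ∈ RR w G) (N : Set G)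
    (hN : ∀ s, ∀ u ∈ N, F (s * u) = F s) :
    ∃ (n : ℕ) (c a : Fin n → Ω), (∀ i, w (c i) ≤ 1) ∧ (∀ i, w (a i) ≤ 1) ∧
      (∀ i, ∀ u ∈ N, u • a i = a i) ∧ ∀ g, F g = ∑ i, c i * g • a i := by
  obtain ⟨n, c, a, hc, ha, e⟩ := exists_rep_38 h
  obtain ⟨m, c', a', h1, h2, h3, h4⟩ := exists_indep_38 (G := G) n c a hc ha
  refine ⟨m, c', a', h1, h2, fun i u hu => ?_, fun g => (e g).trans (h4 g)⟩
  refine sub_eq_zero.mp (eq_zero_of_indep_38 (b := fun i => u • a' i - a' i) h3 (fun g => ?_) i)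
  have := hN g u hu
  rw [e, e, h4, h4] at this
  simp only [smul_sub, mul_sub, Finset.sum_sub_distrib, ← mul_smul, this, sub_self]

/-! ### the tame setting -/

/-- `π ^ m` is a uniformiser of the fixed field, `τ π = ζ π` -/
structure Tame (w : Valuation Ω ℝ≥0) (m : ℕ) (π ζ : Ω) (τ : G) : Prop where
  inv : ∀ (g : G) (x : Ω), w (g • x) = w x
  w3 : w 3 < 1
  w30 : w 3 ≠ 0
  disc : ∀ x : Ω, (∀ g : G, g • x = x) → x ≠ 0 → ∃ n : ℤ, w x = w 3 ^ n
  wm : w m = 1
  prim : IsPrimitiveRoot ζ m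
  fz : ∀ g : G, g • ζ = ζ
  fp : ∀ g : G, g • π ^ m = π ^ m
  wp : w π ^ m = w 3
  tp : τ • π = ζ * π

namespace Tame

variable {m : ℕ} {π ζ : Ω} {τ : G} (T : Tame w m π ζ τ)
include T

theorem m_ne : m ≠ 0 := by
  rintro rfl
  simpa using T.wm

theorem pi_ne : π ≠ 0 := by
  rintro rfl
  have := T.wp
  rw [map_zero, zero_pow T.m_ne] at this
  exact T.w30 this.symm

theorem wz : w ζ = 1 := by
  have := congrArg w T.prim.pow_eq_one
  rw [map_pow, map_one] at this
  exact (pow_eq_one_iff_of_nonneg zero_le T.m_ne).mp this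

theorem z_ne : ζ ≠ 0 := T.prim.ne_zero T.m_ne

theorem pow_smul (i : ℕ) : τ ^ i • π = ζ ^ i * π := by
  induction i with
  | zero => simp
  | succ i ih => rw [pow_succ', mul_smul, ih, smul_mul', smul_pow', T.fz, T.tp]; ring

theorem exists_pow (g : G) : ∃ i < m, g • π = ζ ^ i * π := by
  have : NeZero m := ⟨T.m_ne⟩
  have h : (g • π / π) ^ m = 1 := by
    rw [div_pow, ← smul_pow', T.fp, div_self (pow_ne_zero _ T.pi_ne)]
  obtain ⟨i, hi, e⟩ := T.prim.eq_pow_of_pow_eq_one h
  exact ⟨i, hi, by rw [e, div_mul_cancel₀ _ T.pi_ne]⟩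

omit T in
/-- an element fixed by the stabiliser of `π` only sees the action on `π` -/
theorem smul_eq_of {a : Ω} (ha : ∀ u : G, u • π = π → u • a = a) {g g' : G} (h : g • π = g' • π) :
    g • a = g' • a := by
  have := ha (g'⁻¹ * g) (by rw [mul_smul, h, inv_smul_smul])
  rw [mul_smul, inv_smul_eq_iff] at this
  exact this

theorem fourier_le {a : Ω} (h1 : w a ≤ 1) (ha : ∀ u : G, u • π = π → u • a = a) {j : ℕ}
    (hj : j < m) : w (∑ i ∈ Finset.range m, (ζ⁻¹ ^ j) ^ i * τ ^ i • a) ≤ w π ^ j := by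
  set A := ∑ i ∈ Finset.range m, (ζ⁻¹ ^ j) ^ i * τ ^ i • a with hA
  have hz := T.z_ne
  have hp := T.pi_ne
  have hA1 : w A ≤ 1 := by
    refine w.map_sum_le fun i _ => ?_
    rw [map_mul, T.inv, map_pow, map_pow, map_inv₀, T.wz]
    simpa using h1
  have fzi : ∀ g : G, g • ζ⁻¹ = ζ⁻¹ := fun g => by rw [smul_inv'', T.fz]
  have hτ : τ • A = ζ ^ j * A := by
    let f : ℕ → Ω := fun i => (ζ⁻¹ ^ j) ^ i * τ ^ i • a
    have hf : f m = f 0 := by
      have e1 : τ ^ m • a = a := ha _ (by rw [T.pow_smul, T.prim.pow_eq_one, one_mul])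
      simp only [f, e1, pow_zero, one_smul]
      rw [← pow_mul, mul_comm j m, pow_mul, inv_pow, T.prim.pow_eq_one]; simp
    have e2 : ∑ i ∈ Finset.range m, f (i + 1) = ∑ i ∈ Finset.range m, f i := by
      have := Finset.sum_range_succ' f m
      rw [Finset.sum_range_succ, hf] at this
      exact (add_right_cancel this).symm
    change τ • ∑ i ∈ Finset.range m, f i = ζ ^ j * ∑ i ∈ Finset.range m, f i
    conv_rhs => rw [← e2]
    rw [Finset.smul_sum, Finset.mul_sum]
    refine Finset.sum_congr rfl fun i _ => ?_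
    simp only [f]
    rw [smul_mul', smul_pow', smul_pow', fzi, ← mul_smul, ← pow_succ', pow_succ (ζ⁻¹ ^ j), inv_pow]
    field_simp
  have hτi : ∀ i : ℕ, τ ^ i • A = (ζ ^ j) ^ i * A := by
    intro i
    induction i with
    | zero => simp
    | succ i ih =>
      rw [pow_succ', mul_smul, ih, smul_mul', smul_pow', smul_pow', T.fz, hτ]; ring
  have hN : ∀ u : G, u • π = π → u • A = A := by
    intro u hu
    rw [hA, Finset.smul_sum]
    refine Finset.sum_congr rfl fun i _ => ?_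
    rw [smul_mul', smul_pow', smul_pow', fzi, ← mul_smul]
    congr 1
    refine smul_eq_of ha ?_
    rw [mul_smul, T.pow_smul, smul_mul', smul_pow', T.fz, hu]
  have hfix : ∀ g : G, g • (A / π ^ j) = A / π ^ j := by
    intro g
    obtain ⟨i, -, hi⟩ := T.exists_pow g
    rw [smul_div₀', smul_pow', hi, smul_eq_of hN (hi.trans (T.pow_smul i).symm), hτi, mul_pow,
      ← pow_mul, ← pow_mul, mul_comm i j]
    field_simp
  by_cases h0 : A = 0
  · simp [h0]
  obtain ⟨n, hn⟩ := T.disc _ hfix (div_ne_zero h0 (pow_ne_zero _ hp))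
  have hwp : w π ≠ 0 := (map_ne_zero w).mpr hp
  have hwp1 : w π < 1 := by
    by_contra hcon
    have := one_le_pow₀ (n := m) (not_lt.mp hcon)
    rw [T.wp] at this
    exact absurd T.w3 (not_lt.mpr this)
  rw [map_div₀, map_pow, div_eq_iff (pow_ne_zero _ hwp)] at hn
  rw [hn] at hA1 ⊢
  have hn0 : 0 ≤ n := by
    by_contra hcon
    rw [← T.wp, ← zpow_natCast, ← zpow_mul, ← zpow_natCast, ← zpow_add₀ hwp] at hA1
    have := (zpow_le_one_iff_right_of_lt_one₀ (pos_iff_ne_zero.mpr hwp) hwp1).mp hA1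
    nlinarith [(Int.ofNat_lt.mpr hj : (j : ℤ) < m)]
  exact mul_le_of_le_one_left' (zpow_le_one₀ (pos_iff_ne_zero.mpr T.w30) T.w3.le hn0)

/-- Fourier coefficients of an integral function on the tame quotient -/
theorem fourier_RR {F : G → Ω} (h : F ∈ RR w G) (hN : ∀ s u : G, u • π = π → F (s * u) = F s) {j : ℕ}
    (hj : j < m) : w (∑ i ∈ Finset.range m, (ζ⁻¹ ^ j) ^ i * F (τ ^ i)) ≤ w π ^ j := by
  obtain ⟨n, c, a, hc, ha, hf, e⟩ := exists_rep_fixed h {u : G | u • π = π} hN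
  have : ∑ i ∈ Finset.range m, (ζ⁻¹ ^ j) ^ i * F (τ ^ i) =
      ∑ l, c l * ∑ i ∈ Finset.range m, (ζ⁻¹ ^ j) ^ i * τ ^ i • a l := by
    simp only [e, Finset.mul_sum]
    rw [Finset.sum_comm]
    exact Finset.sum_congr rfl fun l _ => Finset.sum_congr rfl fun i _ => by ring
  rw [this]
  refine w.map_sum_le fun l _ => ?_
  rw [map_mul]
  exact (mul_le_of_le_one_left' (hc l)).trans (T.fourier_le (ha l) (hf l) hj)

theorem wpi_lt : w π < 1 := by
  by_contra hcon
  have := one_le_pow₀ (n := m) (not_lt.mp hcon)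
  rw [T.wp] at this
  exact absurd T.w3 (not_lt.mpr this)

variable {V : Type*} [AddCommGroup V] {ρ : G → V → V}

theorem ray_val (hF : Flat w G ρ) (hN : ∀ (s u : G) (v : V), u • π = π → ρ (s * u) v = ρ s v) {ω : Ω}
    (hω : ω ^ 2 + ω + 1 = 0) (φ : V →+ ZMod 3) (v : V) {j : ℕ} (hj : j < m) (hj2 : m < 2 * j) :
    w (∑ i ∈ Finset.range m, (ζ⁻¹ ^ j) ^ i * ((φ (ρ (τ ^ i) v)).val : Ω)) < 1 := by
  have h3 : ω ^ 3 = 1 := by linear_combination (ω - 1) * hω
  have hS := T.fourier_RR (hF v ((AddChar.zmodChar 3 h3).compAddMonoidHom φ))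
    (fun s u hu => by simp only [hN s u v hu]) hj
  simp only [AddChar.compAddMonoidHom_apply, AddChar.zmodChar_apply] at hS
  have wω : w ω = 1 := by
    have := congrArg w h3
    rw [map_pow, map_one] at this
    exact (pow_eq_one_iff_of_nonneg zero_le (by norm_num)).mp this
  have wl : w (ω - 1) ^ 2 = w 3 := by
    have : (ω - 1) ^ 2 = -(3 * ω) := by linear_combination hω
    rw [← map_pow, this, Valuation.map_neg, map_mul, wω, mul_one]
  have wl0 : w (ω - 1) ≠ 0 := fun h => T.w30 (by rw [← wl, h]; simp)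
  have wl1 : w (ω - 1) < 1 := by
    by_contra hcon
    have := one_le_pow₀ (n := 2) (not_lt.mp hcon)
    rw [wl] at this
    exact absurd T.w3 (not_lt.mpr this)
  have hexp : ∀ t : ZMod 3, ∃ e : Ω, w e ≤ 1 ∧
      ω ^ t.val = 1 + (ω - 1) * (t.val : Ω) + (ω - 1) ^ 2 * e := by
    intro t
    have ht : t.val < 3 := ZMod.val_lt t
    generalize t.val = s at ht
    interval_cases s
    · exact ⟨0, by simp, by simp⟩
    · exact ⟨0, by simp, by simp⟩
    · exact ⟨1, by simp, by push_cast; ring⟩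
  choose e he1 he2 using hexp
  set u := ζ⁻¹ ^ j with hu
  have wu : w u = 1 := by rw [hu, map_pow, map_inv₀, T.wz]; simp
  have hgeom : ∑ i ∈ Finset.range m, u ^ i = 0 := by
    have h1 : u ≠ 1 := T.prim.inv.pow_ne_one_of_pos_of_lt (by omega) hj
    have h2 : u ^ m = 1 := by
      rw [hu, ← pow_mul, mul_comm, pow_mul, T.prim.inv.pow_eq_one, one_pow]
    have := mul_geom_sum u m
    rw [h2, sub_self] at this
    exact (mul_eq_zero.mp this).resolve_left (sub_ne_zero.mpr h1)
  set X := ∑ i ∈ Finset.range m, u ^ i * ((φ (ρ (τ ^ i) v)).val : Ω) with hX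
  set E := ∑ i ∈ Finset.range m, u ^ i * e (φ (ρ (τ ^ i) v)) with hE
  have wE : w E ≤ 1 := w.map_sum_le fun i _ => by
    rw [map_mul, map_pow, wu, one_pow, one_mul]; exact he1 _
  have hsum : ∑ i ∈ Finset.range m, u ^ i * ω ^ (φ (ρ (τ ^ i) v)).val =
      (ω - 1) * (X + (ω - 1) * E) := by
    rw [hX, hE, ← zero_add ((ω - 1) * _), ← hgeom, Finset.mul_sum, ← Finset.sum_add_distrib,
      Finset.mul_sum, ← Finset.sum_add_distrib]
    exact Finset.sum_congr rfl fun i _ => by rw [he2]; ring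
  rw [hsum, map_mul] at hS
  have hlt : w π ^ j < w (ω - 1) := by
    refine lt_of_pow_lt_pow_left₀ 2 zero_le ?_
    rw [wl, ← T.wp, ← pow_mul]
    exact pow_lt_pow_right_of_lt_one₀ (pos_iff_ne_zero.mpr ((map_ne_zero w).mpr T.pi_ne)) T.wpi_lt
      (by omega)
  have h1 : w (X + (ω - 1) * E) < 1 := by
    have := hS.trans_lt hlt
    rwa [mul_lt_iff_lt_one_right (pos_iff_ne_zero.mpr wl0)] at this
  have h2 : w ((ω - 1) * E) < 1 := by
    rw [map_mul]; exact (mul_le_of_le_one_right' wE).trans_lt wl1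
  have : X = (X + (ω - 1) * E) - (ω - 1) * E := by ring
  rw [this]
  exact (w.map_sub _ _).trans_lt (max_lt h1 h2)

/-- **(RAY)** on a tame flat module the eigenvalues of `τ` in characteristic `3` are `ζ ^ j` with
`2 j ≤ m`: an eigenfunctional with eigenvalue `ζ ^ j`, `m < 2 j < 2 m`, vanishes -/
theorem ray (hF : Flat w G ρ) (h1 : ∀ v, ρ 1 v = v) (hm : ∀ s u v, ρ (s * u) v = ρ s (ρ u v))
    (hN : ∀ (u : G) (v : V), u • π = π → ρ u v = v) {ω : Ω} (hω : ω ^ 2 + ω + 1 = 0)
    {κ : Type*} [Field κ] [CharP κ 3] (red : w.integer →+* κ)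
    (hred : ∀ x : w.integer, w x < 1 → red x = 0) (z : w.integer) (hz : (z : Ω) = ζ)
    (ψ : V →+ κ) {j : ℕ} (hj : j < m) (hj2 : m < 2 * j)
    (hψ : ∀ v, ψ (ρ τ v) = red z ^ j * ψ v) : ψ = 0 := by
  classical
  have : Fact (Nat.Prime 3) := ⟨Nat.prime_three⟩
  let _ : Algebra (ZMod 3) κ := ZMod.algebra κ 3
  let b := Module.Basis.ofVectorSpace (ZMod 3) κ
  let zi : w.integer := ⟨ζ⁻¹, by
    rw [Valuation.mem_integer_iff, map_inv₀, T.wz]; simp⟩
  have hzz : red zi * red z = 1 := by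
    rw [← map_mul, ← map_one red]
    congr 1
    exact Subtype.ext (by simp [zi, hz, T.z_ne])
  ext v
  have hy : ∀ i : ℕ, ψ (ρ (τ ^ i) v) = (red z ^ j) ^ i * ψ v := by
    intro i
    induction i with
    | zero => simp [h1]
    | succ i ih => rw [pow_succ', hm, hψ, ih]; ring
  have hco : ∀ l, ∑ i ∈ Finset.range m,
      (red zi ^ j) ^ i * algebraMap (ZMod 3) κ (b.repr (ψ (ρ (τ ^ i) v)) l) = 0 := by
    intro l
    have := T.ray_val hF (fun s u v hu => by rw [hm, hN u v hu]) hω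
      ((b.coord l).toAddMonoidHom.comp ψ) v hj hj2
    have h0 := hred (∑ i ∈ Finset.range m, (zi ^ j) ^ i *
      (((b.repr (ψ (ρ (τ ^ i) v)) l).val : ℕ) : w.integer)) (by
        push_cast
        exact this)
    rw [map_sum] at h0
    rw [← h0]
    refine Finset.sum_congr rfl fun i _ => ?_
    rw [map_mul, map_pow, map_pow, map_natCast]
    conv_lhs => rw [← ZMod.natCast_zmod_val (b.repr (ψ (ρ (τ ^ i) v)) l), map_natCast]
  let S := (Finset.range m).biUnion fun i => (b.repr (ψ (ρ (τ ^ i) v))).support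
  have hS : ∀ i ∈ Finset.range m, ψ (ρ (τ ^ i) v) =
      ∑ l ∈ S, algebraMap (ZMod 3) κ (b.repr (ψ (ρ (τ ^ i) v)) l) * b l := by
    intro i hi
    conv_lhs => rw [← b.linearCombination_repr (ψ (ρ (τ ^ i) v)), Finsupp.linearCombination_apply]
    rw [Finsupp.sum_of_support_subset _ (s := S)
      (Finset.subset_biUnion_of_mem (fun i => (b.repr (ψ (ρ (τ ^ i) v))).support) hi) _ (by simp)]
    simp only [Algebra.smul_def]
  have h0 : ∑ i ∈ Finset.range m, (red zi ^ j) ^ i * ψ (ρ (τ ^ i) v) = 0 := by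
    rw [Finset.sum_congr rfl fun i hi => by rw [hS i hi, Finset.mul_sum], Finset.sum_comm]
    refine Finset.sum_eq_zero fun l _ => ?_
    simp only [← mul_assoc]
    rw [← Finset.sum_mul, hco, zero_mul]
  have h2 : ∑ i ∈ Finset.range m, (red zi ^ j) ^ i * ψ (ρ (τ ^ i) v) = (m : κ) * ψ v := by
    rw [Finset.sum_congr rfl (g := fun _ => ψ v) fun i _ => by
      rw [hy, ← mul_assoc, ← mul_pow, ← mul_pow, hzz]; simp]
    simp
  have hm0 : (m : κ) ≠ 0 := by
    have hmΩ : (m : Ω) ≠ 0 := fun h => by simpa [h] using T.wm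
    let mi : w.integer := ⟨(m : Ω)⁻¹, by rw [Valuation.mem_integer_iff, map_inv₀, T.wm]; simp⟩
    have : red mi * (m : κ) = 1 := by
      rw [← map_natCast red, ← map_mul, ← map_one red]
      congr 1
      exact Subtype.ext (by simp [mi, hmΩ])
    exact right_ne_zero_of_mul_eq_one this
  rw [h2] at h0
  exact (mul_eq_zero.mp h0).resolve_left hm0

end Tame

/-- existence of the tame generator -/
theorem exists_tame {m : ℕ} {π ζ : Ω} (inv : ∀ (g : G) (x : Ω), w (g • x) = w x) (w3 : w 3 < 1)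
    (w30 : w 3 ≠ 0) (disc : ∀ x : Ω, (∀ g : G, g • x = x) → x ≠ 0 → ∃ n : ℤ, w x = w 3 ^ n)
    (wm : w m = 1) (prim : IsPrimitiveRoot ζ m) (fz : ∀ g : G, g • ζ = ζ)
    (fp : ∀ g : G, g • π ^ m = π ^ m) (wp : w π ^ m = w 3) : ∃ τ : G, Tame w m π ζ τ := by
  have hm : m ≠ 0 := by rintro rfl; simp at wm
  have hp : π ≠ 0 := by
    rintro rfl
    rw [map_zero, zero_pow hm] at wp
    exact w30 wp.symm
  have hz : ζ ≠ 0 := prim.ne_zero hm
  have : NeZero m := ⟨hm⟩
  let H : AddSubgroup ℤ :=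
    { carrier := {i | ∃ g : G, g • π = ζ ^ i * π}
      zero_mem' := ⟨1, by simp⟩
      add_mem' := by
        rintro i j ⟨g, hg⟩ ⟨g', hg'⟩
        refine ⟨g * g', ?_⟩
        rw [mul_smul, hg', smul_mul', smul_zpow₀', fz, hg, zpow_add₀ hz]; ring
      neg_mem' := by
        rintro i ⟨g, hg⟩
        refine ⟨g⁻¹, ?_⟩
        rw [inv_smul_eq_iff, smul_mul', smul_zpow₀', fz, hg, zpow_neg]; field_simp }
  obtain ⟨d, hd⟩ := Int.subgroup_cyclic H
  have hmem : ∀ i, i ∈ H ↔ d ∣ i := fun i => by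
    rw [hd, AddSubgroup.mem_closure_singleton]
    exact ⟨fun ⟨n, hn⟩ => ⟨n, by rw [← hn]; simp [mul_comm]⟩, fun ⟨n, hn⟩ => ⟨n, by simp [hn, mul_comm]⟩⟩
  obtain ⟨e, he⟩ := (hmem m).mp ⟨1, by rw [zpow_natCast, prim.pow_eq_one]; simp⟩
  have hfix : ∀ g : G, g • π ^ e = π ^ e := by
    intro g
    have h : (g • π / π) ^ m = 1 := by rw [div_pow, ← smul_pow', fp, div_self (pow_ne_zero _ hp)]
    obtain ⟨i, -, hi⟩ := prim.eq_pow_of_pow_eq_one h
    have hg : g • π = ζ ^ (i : ℤ) * π := by rw [zpow_natCast, hi, div_mul_cancel₀ _ hp]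
    obtain ⟨k, hk⟩ := (hmem i).mp ⟨g, hg⟩
    rw [smul_zpow₀', hg, mul_zpow, ← zpow_mul, hk, show d * k * e = (m : ℤ) * k by rw [he]; ring,
      zpow_mul, zpow_natCast, prim.pow_eq_one]
    simp
  obtain ⟨n, hn⟩ := disc _ hfix (zpow_ne_zero _ hp)
  have hwp : w π ≠ 0 := (map_ne_zero w).mpr hp
  have hwp1 : w π ≠ 1 := by
    intro h
    rw [h, one_pow] at wp
    exact w3.ne wp.symm
  rw [map_zpow₀, ← wp, ← zpow_natCast, ← zpow_mul] at hn
  have hen : e = m * n := zpow_right_injective₀ (pos_iff_ne_zero.mpr hwp) hwp1 hn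
  have h1 : d ∣ 1 := ⟨n, by
    have hm' : (m : ℤ) ≠ 0 := by exact_mod_cast hm
    apply mul_left_cancel₀ hm'
    rw [hen] at he
    linear_combination he⟩
  obtain ⟨τ, hτ⟩ := (hmem 1).mpr h1
  exact ⟨τ, inv, w3, w30, disc, wm, prim, fz, fp, wp, by simpa using hτ⟩

end Crest.Agent.T15.FlR
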