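import Crest.Agent.T15.L3D_27

/-!
# Row 15, LOC3, part E (helper27): the dimension bound `loc3`.
-/

set_option autoImplicit false

open scoped NNReal
open Matrix

namespace Crest.Agent.T15.L3

variable {Ω : Type*} [Field Ω] {D : Type*} [Group D] [MulSemiringAction D Ω]
variable {v : Valuation Ω ℝ≥0} {ϖ : Ω} {I : Subgroup D} {k : Type*} [Field k]

/-- an equivariant homomorphism `ker ρ → ad⁰ ρ` -/
structure Cl (ρ : D →* Matrix (Fin 2) (Fin 2) k) (f : D → Matrix (Fin 2) (Fin 2) k) : Prop where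
  add : ∀ n n', ρ n = 1 → ρ n' = 1 → f (n * n') = f n + f n'
  conj : ∀ g n, ρ n = 1 → f (g * n * g⁻¹) = ρ g * f n * ρ g⁻¹
  tr : ∀ n, ρ n = 1 → (f n).trace = 0

theorem Cl.tr_conj {ρ : D →* Matrix (Fin 2) (Fin 2) k} {f : D → Matrix (Fin 2) (Fin 2) k}
    (h : Cl ρ f) (y : Matrix (Fin 2) (Fin 2) k) (g : D) {σ : D} (hσ : ρ σ = 1) :
    (y * f (g⁻¹ * σ * g)).trace = (ρ g * y * ρ g⁻¹ * f σ).trace := by
  have := h.conj g⁻¹ σ hσ
  rw [inv_inv] at this
  rw [this, ← mul_assoc, trace_mul_comm]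
  simp only [mul_assoc]

/-- **LOC3**: flat classes span at most a line locally at `3`. -/
theorem loc3 (c : DC v ϖ I) [Finite k] [CharP k 3] (ρ : D →* Matrix (Fin 2) (Fin 2) k) (F0 : D)
    (hF0 : ∀ x, v x ≤ 1 → v (F0 • x - x ^ 3) < 1) (hcomm : ∀ g, F0 * g * F0⁻¹ * g⁻¹ ∈ I)
    (hS : ∀ σ ∈ SS I ϖ, ρ σ = 1) (h4 : ∀ τ ∈ I, (τ • ϖ) ^ 4 = -ϖ ^ 4 → ρ τ ^ 4 = -1)
    {V : Type*} [AddCommGroup V] [Module k V] (φ : V →ₗ[k] (D → Matrix (Fin 2) (Fin 2) k))
    (hφ : ∀ u, Cl ρ (φ u)) (N : Subgroup D) (hN : N ≤ SS I ϖ) (hfin : N.relIndex (SS I ϖ) ≠ 0)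
    (hcl : ∀ σ ∈ SS I ϖ, (∀ x : Ω, Fx N x → σ • x = x) → σ ∈ N) (h0 : ∀ u, ∀ σ ∈ N, φ u σ = 0)
    (hK : ∀ x : Ω, x ≠ 0 → Fx N x → Fx (SS I ϖ) (x ^ 3) →
      v (x ^ 3 - 1) ≠ v ϖ ^ 2 ∧ v (x ^ 3 - 1) ≠ v ϖ ^ 4) :
    ∃ l : V →ₗ[k] k, ∀ u, l u = 0 → ∀ n, ρ n = 1 → φ u n = 0 := by
  have h2 : (2 : k) ≠ 0 := two_ne3
  obtain ⟨τ, hτ, hτ4⟩ := c.exists_tau
  obtain ⟨Fr, hF1, hF2, hF3, hF4⟩ := c.exists_fr hτ hτ4 F0 hF0 hcomm
  obtain ⟨e, e1, e0, e3, einj, efix, eneg⟩ := c.exists_e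
  obtain ⟨t, ht, -⟩ := exists_tr k
  obtain ⟨θ, h8, hθ⟩ := c.theta τ
  have hθ4 := c.theta4 hτ4 hθ
  have hA4 : ρ τ ^ 4 = -1 := h4 τ hτ hτ4
  set A := ρ τ with hA
  set A' := ρ τ⁻¹ with hA'
  set F := ρ Fr with hF
  set F' := ρ Fr⁻¹ with hF'
  have hAA : A * A' = 1 := by rw [hA, hA', ← map_mul, mul_inv_cancel, map_one]
  have hAA' : A' * A = 1 := by rw [hA, hA', ← map_mul, inv_mul_cancel, map_one]
  have hFF : F * F' = 1 := by rw [hF, hF', ← map_mul, mul_inv_cancel, map_one]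
  have hFA : F * A = A ^ 3 * F := by
    have e : Fr * τ = τ ^ 3 * ((τ ^ 3)⁻¹ * (Fr * τ * Fr⁻¹)) * Fr := by group
    rw [hF, hA, ← map_mul, e, map_mul, map_mul, hS _ hF4, mul_one, map_pow]
  have hB : A * A * (A * A) = -1 := by rw [← hA4]; noncomm_ring
  have hBF : A * A * F = -(F * (A * A)) := by
    have : F * (A * A) = A ^ 4 * (A * A * F) := by
      rw [← mul_assoc, hFA, mul_assoc, hFA]; noncomm_ring
    rw [this, hA4]; noncomm_ring
  -- the characters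
  let ch : V → Matrix (Fin 2) (Fin 2) k → D → Ω := fun u y σ => e (t (y * φ u σ).trace)
  have ch3 : ∀ u y, ∀ σ ∈ SS I ϖ, ch u y σ ^ 3 = 1 := fun u y σ _ => e3 _
  have chτ : ∀ u y, ∀ σ ∈ SS I ϖ, τ • ch u y (τ⁻¹ * σ * τ) = ch u (-(A * y * A')) σ := by
    intro u y σ hσ
    simp only [ch]
    rw [eneg τ hτ4, (hφ u).tr_conj y τ (hS σ hσ), neg_mul, trace_neg, map_neg]
  have kτ : ∀ u y x, Kum (SS I ϖ) (ch u y) x → Kum (SS I ϖ) (ch u (-(A * y * A'))) (τ • x) :=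
    fun u y x h => (h.smul c.SS_normal τ).congr (chτ u y)
  have hQ : ∀ u y, (A * y * A' = y ∨ A * (A * y * A') * A' = -y) → ∀ x,
      Kum (SS I ϖ) (ch u y) x → Fx (SS I ϖ) (x * τ • x * τ • τ • x * τ • τ • τ • x) := by
    intro u y hy x h
    have k1 := kτ u _ _ h
    have k2 := kτ u _ _ k1
    have k3 := kτ u _ _ k2
    refine (((h.mul k1).mul k2).mul k3).fx fun σ _ => ?_
    simp only [ch]
    rw [← e1, ← e1, ← e1, ← map_add, ← map_add, ← map_add, ← trace_add, ← trace_add, ← trace_add,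
      ← add_mul, ← add_mul, ← add_mul]
    have : y + -(A * y * A') + -(A * -(A * y * A') * A') +
        -(A * -(A * -(A * y * A') * A') * A') = 0 := by
      simp only [mul_neg, neg_mul, neg_neg]
      rcases hy with hy | hy
      · simp only [hy]; abel
      · simp only [hy, mul_neg, neg_mul]; abel
    rw [this, zero_mul, trace_zero, map_zero, e0]
  have hex : ∀ u y, (A * y * A' = y ∨ A * (A * y * A') * A' = -y) → ∃ r, Rl v ϖ I (ch u y) r := by
    intro u y hy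
    have hN1 : ∀ σ ∈ N, ch u y σ = 1 := fun σ hσ => by
      simp only [ch]; rw [h0 u σ hσ, mul_zero, trace_zero, map_zero, e0]
    obtain ⟨x₀, hx₀⟩ := exists_kum hN hfin hcl (ψ := ch u y) (fun σ hσ σ' hσ' => by
      simp only [ch]
      rw [(hφ u).add σ σ' (hS σ hσ) (hS σ' hσ'), mul_add, trace_add, map_add, e1]) hN1
      (fun σ _ g hg => efix g hg.2 _)
    obtain ⟨x, hx, hv⟩ := c.norm10 hτ hτ4 (ch3 u y) (hQ u y hy) (fun x hx => hK x hx.1
      (fun σ hσ => by rw [hx.2 σ (hN hσ), hN1 σ hσ, one_mul]) (hx.cube (ch3 u y))) hx₀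
    exact ⟨_, x, hx, c.Lv_of_le hv⟩
  have hzero : ∀ u y, (A * y * A' = y ∨ A * (A * y * A') * A' = -y) → ∀ r,
      Rl v ϖ I (ch u y) r → v r < 1 → ∀ σ ∈ SS I ϖ, t (y * φ u σ).trace = 0 := by
    rintro u y hy r ⟨x, hx, hl⟩ hr σ hσ
    exact einj _ (c.triv10 hτ hτ4 (ch3 u y) hx (hQ u y hy x hx) (c.Lv_lt hl hr) σ hσ)
  have lin : ∀ u y σ, (∀ a : k, t (y * φ (a • u) σ).trace = 0) → (y * φ u σ).trace = 0 := by
    intro u y σ h
    refine ht _ fun a => ?_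
    have := h a
    rwa [map_smul, Pi.smul_apply, mul_smul_comm, trace_smul, smul_eq_mul] at this
  -- the direction `A ^ 2`
  have yB : A * (A * A) * A' = A * A := by rw [mul_assoc, mul_assoc, hAA, mul_one]
  have hBz : ∀ u, ∀ σ ∈ SS I ϖ, (A * A * φ u σ).trace = 0 := by
    intro u σ hσ
    refine lin u _ σ fun a => ?_
    obtain ⟨r, hr⟩ := hex (a • u) _ (Or.inl yB)
    refine hzero _ _ (Or.inl yB) r hr ?_ σ hσ
    have hr1 : v r ≤ 1 := hr.choose_spec.2.1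
    have hv : v θ = 1 := DC.v_root (by norm_num) h8
    have r1 := c.Rl_res (r' := r * θ ^ 10) (c.Rl_congr (c.Rl_smul hr hθ) (chτ _ _)) (by
      rw [← sub_mul, map_mul, map_pow, hv, one_pow, mul_one]; exact c.inert hτ hr1)
    have r2 := c.Rl_congr (ψ' := fun _ => 1) (c.Rl_mul hr r1) fun σ _ => by
      simp only [ch]
      rw [← e1, ← map_add, ← trace_add, ← add_mul, yB, add_neg_cancel, zero_mul, trace_zero,
        map_zero, e0]
    have r3 := c.Rl_uniq (fun _ _ => one_pow 3) r2 c.Rl_one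
    have e : 2 * r = (r + r * θ ^ 10 - 0) * (1 - θ ^ 10) := by
      have : θ ^ 20 = -1 := by rw [show 20 = 4 * 5 from rfl, pow_mul, hθ4]; norm_num
      linear_combination r * this
    have : v (2 * r) < 1 := by
      rw [e, map_mul]
      exact (mul_le_of_le_one_right' (v.map_sub_le (by simp) (by simp [hv]))).trans_lt r3
    rwa [map_mul, c.v2, one_mul] at this
  -- the direction `F`
  have yF : A * (A * F * A') * A' = -F := by
    calc A * (A * F * A') * A' = A * A * F * A' * A' := by noncomm_ring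
      _ = -(F * (A * (A * A') * A')) := by rw [hBF]; noncomm_ring
      _ = -F := by rw [hAA, mul_one, hAA, mul_one]
  have hn : ∀ u, ∃ n : ℤ, Rl v ϖ I (ch u F) n := by
    intro u
    obtain ⟨r, hr⟩ := hex u _ (Or.inr yF)
    have hr1 : v r ≤ 1 := hr.choose_spec.2.1
    have r1 := c.Rl_congr (ψ' := ch u F) (c.Rl_smul hr (g := Fr) (θ := 1) (by rw [hF1, one_mul]))
      fun σ hσ => by
        simp only [ch]
        rw [efix Fr hF1, (hφ u).tr_conj F Fr (hS σ hσ), ← hF, ← hF', mul_assoc F F F', hFF, mul_one]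
    have r2 := c.Rl_uniq (ch3 u F) r1 hr
    obtain ⟨n, hn⟩ := c.exists_int (r := r) (by
      have e : r ^ 3 - r = (Fr • r * 1 ^ 10 - r) - (Fr • r - r ^ 3) := by ring
      rw [e]; exact v.map_sub_lt r2 (hF2 r hr1))
    exact ⟨n, c.Rl_res hr hn⟩
  choose nn hnn using hn
  let m : V →+ ZMod 3 := AddMonoidHom.mk' (fun u => (nn u : ZMod 3)) fun u u' => by
    have r1 := c.Rl_congr (ψ' := ch (u + u') F) (c.Rl_mul (hnn u) (hnn u')) fun σ _ => by
      simp only [ch]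
      rw [map_add φ, Pi.add_apply, mul_add, trace_add, map_add, e1]
    have r2 := c.Rl_uniq (ch3 _ F) (hnn (u + u')) r1
    have := (c.v_int (n := nn (u + u') - (nn u + nn u'))).1 (by push_cast; exact r2)
    push_cast at this
    exact sub_eq_zero.1 this
  obtain ⟨l, hl⟩ := exists_fun (k := k) m
  refine ⟨l, fun u hu => ?_⟩
  have hFz : ∀ σ ∈ SS I ϖ, (F * φ u σ).trace = 0 := fun σ hσ => lin u _ σ fun a =>
    hzero _ _ (Or.inr yF) _ (hnn (a • u)) (c.v_int.2 (hl u hu a)) σ hσ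
  have hSz : ∀ σ ∈ SS I ϖ, φ u σ = 0 := by
    intro σ hσ
    refine quat_zero h2 hB hFF hBF ((hφ u).tr σ (hS σ hσ)) (hBz u σ hσ) (hFz σ hσ) ?_
    have := hFz _ (c.SS_normal.conj_mem' σ hσ τ⁻¹)
    rw [(hφ u).tr_conj F τ⁻¹ (hS σ hσ), inv_inv, ← hA, ← hA', mul_assoc A' F A, hFA,
      show A' * (A ^ 3 * F) = A' * A * (A * A * F) by noncomm_ring, hAA', one_mul] at this
    exact this
  have ker : ∀ σ ∈ I, ρ σ = 1 → σ ∈ SS I ϖ := by
    intro σ hσ h1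
    obtain ⟨i, hi, e⟩ := c.exists_pow hτ hτ4 σ
    have h5 := hS _ (c.mem_SS hσ (I.pow_mem hτ i) e)
    have h6 : A ^ i = 1 := by
      rw [hA, ← map_pow, ← mul_inv_cancel_left σ (τ ^ i), map_mul, h5, h1, mul_one]
    have ho : orderOf A = 2 ^ (2 + 1) := orderOf_eq_prime_pow (p := 2) (by
      intro h
      rw [show 2 ^ 2 = 4 from rfl, hA4] at h
      have := congrFun (congrFun h 0) 0
      simp only [Matrix.neg_apply, one_apply_eq] at this
      exact h2 (by linear_combination -this)) (by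
      rw [show 2 ^ (2 + 1) = 4 * 2 from rfl, pow_mul, hA4]; simp)
    have hd := orderOf_dvd_of_pow_eq_one h6
    rw [ho] at hd
    obtain rfl : i = 0 := Nat.eq_zero_of_dvd_of_lt hd (by simpa using hi)
    exact ⟨hσ, by simpa using e⟩
  intro n hn
  have cm : ∀ g : D, g * n * g⁻¹ * n⁻¹ ∈ I → ρ g * φ u n = φ u n * ρ g := by
    intro g hg
    have hn' : ρ n⁻¹ = 1 := by rw [← mul_one (ρ n⁻¹), ← hn, ← map_mul, inv_mul_cancel, map_one, hn]
    have hgg : ρ g⁻¹ * ρ g = 1 := by rw [← map_mul, inv_mul_cancel, map_one]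
    have h1 : ρ (g * n * g⁻¹ * n⁻¹) = 1 := by
      rw [map_mul, hn', mul_one, map_mul, map_mul, hn, mul_one, ← map_mul, mul_inv_cancel, map_one]
    have h3 := (hφ u).add _ n h1 hn
    rw [inv_mul_cancel_right, (hφ u).conj g n hn, hSz _ (ker _ hg h1), zero_add] at h3
    nth_rewrite 2 [← h3]
    rw [mul_assoc, hgg, mul_one]
  have cA := cm τ (by
    have := I.mul_mem hτ (c.normal.conj_mem _ (I.inv_mem hτ) n)
    simpa [mul_assoc] using this)
  refine quat_comm h2 hB hFF hBF ((hφ u).tr n hn) ?_ (cm Fr (hF3 n))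
  rw [mul_assoc, cA, ← mul_assoc, cA, mul_assoc]

end Crest.Agent.T15.L3
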