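import Crest.Agent.T15.TopB_88
import Crest.Agent.T15.Sel_78
import Crest.Agent.T15.FlG_23
import Crest.Agent.T15.FlTm_38
import Crest.Agent.T15.L3E_27

/-!
# Row 15, block Fl: the local bound at `3` in global words (helper23)
-/

set_option autoImplicit false

noncomputable section

namespace Crest.Agent.T15.FlTop

open scoped NNReal
open Crest.Agent.T15.C (Om Gam In De om Hyp Cls Triv)
open Crest.Agent.T15.Ps Crest.Agent.T15.Fl Crest.Agent.T15.FlR Crest.Agent.T15.L3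

/-- the kernel of a flat module is open -/
theorem exists_fix {Ω : Type*} [Field Ω] [IsAlgClosed Ω] [CharZero Ω] {w : Valuation Ω ℝ≥0}
    {G : Type*} [Group G] [MulSemiringAction G Ω] (hM : Mono w G) {V : Type*} [AddCommGroup V]
    [Finite V] {ρ : G → V → V} (hF : Flat w G ρ) :
    ∃ α : Ω, ∀ g g' : G, g • α = g' • α → ∀ v, ρ g v = ρ g' v := by
  have hch : ∀ u : V, ∃ χ : AddChar V Ω, u ≠ 0 → χ u ≠ 1 := fun u => by
    by_cases hu : u = 0
    · exact ⟨1, fun h => absurd hu h⟩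
    · obtain ⟨χ, h⟩ := exists_char (Ω := Ω) hu
      exact ⟨χ, fun _ => h⟩
  choose χ hχ using hch
  obtain ⟨α, -, -, hq⟩ := exists_poly hM (fun (x : V × V) g => χ x.1 (ρ g x.2))
    (fun x => hF x.2 (χ x.1))
  refine ⟨α, fun g g' h v => ?_⟩
  by_contra hne
  apply hχ _ (sub_ne_zero.mpr hne)
  obtain ⟨q, hq⟩ := hq (ρ g v - ρ g' v, v)
  have := (hq g).trans (h ▸ (hq g').symm)
  rw [AddChar.map_sub_eq_div, this]
  exact div_self (AddChar.val_isUnit _ _).ne_zero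

variable {ι : Om →+* ℂ} {P : Top.Plc} (Λ : Loc3 ι P)

theorem dc {π : ℂ} (hπ : π ^ 8 = -3) : DC Λ.w π Λ.I where
  inv := Λ.w_D
  normal := ⟨fun n hn g => by
    have := Λ.I.mul_mem (Λ.comm_mem_I g n) hn
    simpa using this⟩
  h8 := hπ
  ne := by norm_num
  lt := Λ.w3
  unr := fun _ h0 hx => Λ.disc_I h0 hx
  res := fun _ hx => Λ.res_I hx

theorem exists_tame8 {π : ℂ} (hπ : π ^ 8 = -3) : ∃ (ζ : ℂ) (t : Λ.G), Tame Λ.w 8 π ζ t := by
  have hζ := Complex.isPrimitiveRoot_exp 8 (by norm_num)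
  obtain ⟨ζ, hζ⟩ : ∃ ζ : ℂ, IsPrimitiveRoot ζ 8 := ⟨_, hζ⟩
  have hw8 : Λ.w ((8 : ℕ) : ℂ) = 1 := Λ.w_natCast (by norm_num)
  have hwζ : Λ.w ζ = 1 := w_eq_one_of_pow (by norm_num) hζ.pow_eq_one
  have hζ0 : ζ ≠ 0 := hζ.ne_zero (by norm_num)
  refine ⟨ζ, exists_tame Λ.w_G Λ.w3 ((Valuation.ne_zero_iff _).mpr (by norm_num))
    (fun x hx h0 => disc_of Λ.ctx x h0 hx) hw8 hζ (fun g => ?_) (fun g => ?_) ?_⟩
  · have h1 : g ζ / ζ = 1 := by
      refine eq_one_of_pow (m := 8) hw8 ?_ ?_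
      · rw [div_pow, ← map_pow, hζ.pow_eq_one, map_one, div_one]
      · have : g ζ / ζ - 1 = (g ζ - ζ) / ζ := by field_simp
        rw [this, map_div₀, hwζ, div_one]
        exact Λ.w_G_sub g hwζ.le
    exact (div_eq_one_iff_eq hζ0).mp h1
  · rw [hπ]
    change g (-3) = -3
    rw [map_neg, map_ofNat]
  · rw [← map_pow, hπ, Valuation.map_neg]

variable {k : Type} [Field k] [Finite k] [CharP k 3] {ρ : Gam →* M2 k}

omit [Finite k] [CharP k 3] in
theorem pow_four (hyp : Hyp ρ) (loc : Top.Loc ρ P) {π : ℂ} (hπ : π ^ 8 = -3) (t : Λ.D) (ht : t ∈ Λ.I)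
    (h : (t • π) ^ 4 = -π ^ 4) : ρ (Λ.rD t) ^ 4 = -1 := by
  have hne : Λ.rD t om ≠ om := by
    intro hom
    have h1 : t (ι om) = ι om := by rw [← Λ.iota_rD, hom]
    have h2 : ι om ^ 2 + ι om + 1 = 0 := by
      have h3 := (C.om_spec.map_of_injective ι.injective).geom_sum_eq_zero (by norm_num)
      simp only [Finset.sum_range_succ, Finset.range_zero, Finset.sum_empty] at h3
      linear_combination h3
    have h4 : (2 * ι om + 1 - π ^ 4) * (2 * ι om + 1 + π ^ 4) = 0 := by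
      linear_combination 4 * h2 - hπ
    have h5 : t (π ^ 4) = -π ^ 4 := by rw [map_pow]; exact h
    have h6 : π ^ 4 = 0 := by
      rcases mul_eq_zero.mp h4 with h7 | h7
      · have := congrArg t h7
        rw [map_sub, map_add, map_mul, map_ofNat, map_one, map_zero, h1, h5] at this
        linear_combination (this - h7) / 2
      · have := congrArg t h7
        rw [map_add, map_add, map_mul, map_ofNat, map_one, map_zero, h1, h5] at this
        linear_combination (h7 - this) / 2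
    have : (-3 : ℂ) = 0 := by rw [← hπ]; linear_combination π ^ 4 * h6
    norm_num at this
  rw [loc.2 _ ((Λ.rD_mem_inertia t).mpr ht), hyp.det, if_neg hne]
  simp

omit [CharP k 3] in
theorem eq_one_of_fix (hyp : Hyp ρ) (loc : Top.Loc ρ P) {π ζ : ℂ} {t : Λ.G} (T : Tame Λ.w 8 π ζ t)
    (g : Λ.G) (hg : g • π = π) : ρ (Λ.rG g) = 1 := by
  have key := T.eq_one_of_comm (fun g _ hx => Λ.w_G_sub g hx) (ρ.comp Λ.rG).toHomUnits
    (fun s t => Units.ext (loc.1 _ (Λ.rG_mem s) _ (Λ.rG_mem t))) (fun s => Units.ext ?_)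
    (fun N hN => ?_) hg
  · exact congrArg Units.val key
  · change ρ (Λ.rG s) ^ (4 * 2) = 1
    rw [pow_mul, loc.2 _ (Λ.rG_mem s), hyp.det]
    split_ifs <;> simp
  · obtain ⟨L, h1, h2, -⟩ := Λ.exists_field_G hyp.opn
    refine clo_of_open N L (h2 ▸ fun s hs => hN ?_)
    exact Units.ext hs

theorem fix_of_eq_one (hyp : Hyp ρ) (loc : Top.Loc ρ P) {π ζ : ℂ} (hπ : π ^ 8 = -3) {t : Λ.G}
    (T : Tame Λ.w 8 π ζ t) (g : Λ.G) (hg : ρ (Λ.rG g) = 1) : g • π = π := by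
  obtain ⟨i, -, hi⟩ := T.exists_pow g
  have h1 : ρ (Λ.rG ((t ^ i)⁻¹ * g)) = 1 := eq_one_of_fix Λ hyp loc T _ (by
    rw [mul_smul, hi, inv_smul_eq_iff, T.pow_smul])
  have h2 : ρ (Λ.rG t) ^ i = 1 := by
    have : ρ (Λ.rG (t ^ i)) * ρ (Λ.rG ((t ^ i)⁻¹ * g)) = ρ (Λ.rG g) := by
      rw [← map_mul, ← map_mul, mul_inv_cancel_left]
    rwa [h1, hg, mul_one, map_pow, map_pow] at this
  have h4 : ρ (Λ.rG t) ^ 4 = -1 := pow_four Λ hyp loc hπ (Λ.inc t) (Λ.inc_mem t) (by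
    have h3 : ζ ^ 4 = -1 := (T.prim.pow (by norm_num) (show 8 = 4 * 2 by norm_num)).eq_neg_one_of_two_right
    change (t • π) ^ 4 = _
    rw [T.tp, mul_pow, h3]; ring)
  have h8 : orderOf (ρ (Λ.rG t)) = 2 ^ (2 + 1) := by
    refine orderOf_eq_prime_pow (fun h => ?_) ?_
    · rw [show 2 ^ 2 = 4 by norm_num, h4] at h
      have h5 := congrFun (congrFun h 0) 0
      simp only [Matrix.neg_apply, Matrix.one_apply_eq] at h5
      have h6 : ((3 : ℕ) : k) = 0 := CharP.cast_eq_zero k 3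
      have : (1 : k) = 0 := by push_cast at h6; linear_combination h6 + h5
      exact one_ne_zero this
    · rw [show 2 ^ (2 + 1) = 4 * 2 by norm_num, pow_mul, h4]; simp
  have h9 : 8 ∣ i := by simpa [h8] using orderOf_dvd_of_pow_eq_one h2
  rw [hi, (T.prim.pow_eq_one_iff_dvd i).mpr h9, one_mul]

/-- **the local bound at `3`** -/
theorem l3_lin (hyp : Hyp ρ) (loc : Top.Loc ρ P) {W : Type} [AddCommGroup W] [Finite W]
    (τ : Gam →* AddMonoid.End W) (h3 : ∀ x : W, 3 • x = 0)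
    (hF : Flat Λ.w Λ.G (fun g x => τ (Λ.rG g) x)) {V : Type} [AddCommGroup V] [Module k V]
    (c : V →ₗ[k] (Gam → M2 k)) (hc : ∀ v, Cls ρ (c v))
    (hker : ∀ g ∈ In P, τ g = 1 → ρ g = 1 ∧ ∀ v, c v g = 0) :
    ∃ l : V →ₗ[k] k, ∀ v, l v = 0 → Triv ρ (c v) (De P) := by
  obtain ⟨π, hπ⟩ := IsAlgClosed.exists_pow_nat_eq (-3 : ℂ) (n := 8) (by norm_num)
  obtain ⟨ζ, t, T⟩ := exists_tame8 Λ hπ
  obtain ⟨F0, hF0⟩ := Λ.exists_frob
  have hD := dc Λ hπ
  have hfinE : Finite (AddMonoid.End W) := Finite.of_injective _ DFunLike.coe_injective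
  obtain ⟨N, hN⟩ : ∃ N, N = SS Λ.I π ⊓ (τ.comp Λ.rD).toHomUnits.ker := ⟨_, rfl⟩
  have hNm : ∀ s, s ∈ N ↔ (s ∈ Λ.I ∧ s • π = π) ∧ τ (Λ.rD s) = 1 := fun s => by
    rw [hN, Subgroup.mem_inf, MonoidHom.mem_ker, Units.ext_iff]; rfl
  refine Exists.imp (fun l hl v hv n hn hρ => ?_) (loc3 hD (ρ.comp Λ.rD) F0 hF0 (Λ.comm_mem_I F0)
    (fun s hs => by
      obtain ⟨g, rfl⟩ := Λ.exists_inc hs.1
      exact eq_one_of_fix Λ hyp loc T g hs.2)
    (fun t ht h => pow_four Λ hyp loc hπ t ht h) ((LinearMap.funLeft k (M2 k) Λ.rD).comp c)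
    (fun u => ⟨fun n n' h h' => by
      change c u (Λ.rD (n * n')) = _
      rw [map_mul]; exact (hc u).add _ _ h h', fun g n h => by
      change c u (Λ.rD (g * n * g⁻¹)) = ρ (Λ.rD g) * c u (Λ.rD n) * ρ (Λ.rD g⁻¹)
      rw [map_mul, map_mul, map_inv]; exact (hc u).conj _ _ h, fun n h => (hc u).tr _ h⟩)
    N (hN ▸ inf_le_left)
    (by rw [hN, Subgroup.inf_relIndex_left]; exact Subgroup.FiniteIndex.index_ne_zero)
    (fun s hs h => ?_)
    (fun u s hs => (hker _ ((Λ.rD_mem_inertia s).mpr ((hNm s).mp hs).1.1) ((hNm s).mp hs).2).2 u)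
    (fun x hx0 hxN hx3 => ?_))
  · obtain ⟨s, rfl⟩ := Λ.exists_rD hn
    exact hl v hv s hρ
  · obtain ⟨g, rfl⟩ := Λ.exists_inc hs.1
    obtain ⟨α, hα⟩ := exists_fix (mono_of Λ.ctx Λ.full) hF
    have : FiniteDimensional Λ.Fn (IntermediateField.adjoin Λ.Fn ({π, α} : Set ℂ)) :=
      IntermediateField.finiteDimensional_adjoin fun x _ => Algebra.IsIntegral.isIntegral x
    refine clo_of_open (N.comap Λ.inc) (IntermediateField.adjoin Λ.Fn ({π, α} : Set ℂ))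
      (fun u hu => ?_) g fun y hy => h y fun n hn => ?_
    · rw [IntermediateField.mem_fixingSubgroup_iff] at hu
      refine (hNm _).mpr ⟨⟨Λ.inc_mem u, hu π (IntermediateField.subset_adjoin _ _ (by simp))⟩, ?_⟩
      ext v
      have := hα u 1 (by
        rw [one_smul]; exact hu α (IntermediateField.subset_adjoin _ _ (by simp))) v
      simpa [Λ.rG_apply] using this
    · obtain ⟨u, rfl⟩ := Λ.exists_inc ((hNm n).mp hn).1.1
      exact hy u hn
  · have key : ∀ j : ℕ, j ≤ 4 → ¬ 3 ∣ j → Λ.w (x ^ 3 - 1) ≠ Λ.w π ^ j := by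
      intro j hj hj3 hxj
      have hq0 := hD.ctx.q_pos
      have hq1 := hD.ctx.q_lt
      have hq8 := hD.ctx.q8
      have hj0 : j ≠ 0 := by rintro rfl; simp at hj3
      have hx1 : Λ.w x = 1 := by
        have h1 : Λ.w (x ^ 3) = 1 := v_eq_one_of (hxj ▸ pow_lt_one₀ zero_le hq1 hj0)
        rw [map_pow] at h1
        exact (pow_eq_one_iff_of_nonneg zero_le (by norm_num)).mp h1
      have hbig : Λ.w π ^ 4 < Λ.w (x - 1) := by
        by_contra hcon
        push Not at hcon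
        have e : x ^ 3 - 1 = (x - 1) ^ 3 + 3 * x * (x - 1) := by ring
        have h2 : Λ.w (x ^ 3 - 1) ≤ Λ.w π ^ 12 := by
          rw [e]
          refine (Λ.w.map_add _ _).trans (max_le ?_ ?_)
          · rw [map_pow]
            exact (pow_le_pow_left' hcon 3).trans (le_of_eq (by ring))
          · rw [map_mul, map_mul, hx1, mul_one, ← hq8]
            exact (mul_le_mul_right hcon _).trans (le_of_eq (by ring))
        rw [hxj] at h2
        exact absurd h2 (not_le.mpr (pow_lt_pow_right_of_lt_one₀ hq0 hq1 (by omega)))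
      rw [hD.cube_big hx1.le hbig] at hxj
      refine kumF' Λ.ctx Λ.full hF (fun v => by simp) (fun g g' v => by simp) h3 π x hπ
        (fun g hg => ?_) (fun g hg => hx3 (Λ.inc g) ⟨Λ.inc_mem g, hg⟩) j hj hj3 ?_
      · have h1 : τ (Λ.rG g) = 1 := AddMonoidHom.ext hg
        have h2 := fix_of_eq_one Λ hyp loc hπ T g (hker _ (Λ.rG_mem g) h1).1
        exact ⟨h2, hxN (Λ.inc g) ((hNm _).mpr ⟨⟨Λ.inc_mem g, h2⟩, h1⟩)⟩
      · rw [show 24 = 3 * 8 by norm_num, pow_mul, hxj, ← hq8]; ring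
    exact ⟨key 2 (by norm_num) (by norm_num), key 4 (by norm_num) (by norm_num)⟩

omit [Finite k] [CharP k 3] in
theorem cls_comb {c c' : Gam → M2 k} (h : Cls ρ c) (h' : Cls ρ c') (a b : k) :
    Cls ρ (a • c + b • c') where
  add n n' h1 h2 := by
    simp only [Pi.add_apply, Pi.smul_apply, h.add n n' h1 h2, h'.add n n' h1 h2, smul_add]; abel
  conj g n h1 := by
    simp only [Pi.add_apply, Pi.smul_apply, h.conj g n h1, h'.conj g n h1, mul_add, add_mul,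
      mul_smul_comm, smul_mul_assoc]
  tr n h1 := by simp [h.tr n h1, h'.tr n h1]
  opn := by
    obtain ⟨U, hU, h1⟩ := h.opn
    obtain ⟨U', hU', h2⟩ := h'.opn
    exact ⟨U ⊓ U', hU.inter hU', fun n hn hρ => by simp [h1 n hn.1 hρ, h2 n hn.2 hρ]⟩

/-- **the local bound at `3`** in the words of `Sel_78` -/
theorem selL3 (hyp : Hyp ρ) (loc : Top.Loc ρ P) : Sel.L3 Λ.w Λ.G Λ.rG ρ P := by
  intro X _ _ τ h3 _ hF hle c c' hc hc' ht ht'
  obtain ⟨l, hl⟩ := l3_lin Λ hyp loc τ h3 hF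
    ((LinearMap.toSpanSingleton k _ c).coprod (LinearMap.toSpanSingleton k _ c'))
    (fun v => cls_comb hc hc' v.1 v.2) (fun g _ hg => ⟨hle hg, fun v => by
      simp [ht g hg (hle hg), ht' g hg (hle hg)]⟩)
  obtain ⟨v, hv, hv0⟩ : ∃ v : k × k, l v = 0 ∧ v ≠ 0 := by
    have h := LinearMap.ker_ne_bot_of_finrank_lt (f := l) (by simp)
    obtain ⟨v, hv, hv0⟩ := Submodule.exists_mem_ne_zero_of_ne_bot h
    exact ⟨v, hv, hv0⟩
  refine ⟨v.1, v.2, ?_, hl v hv⟩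
  by_contra hcon
  push Not at hcon
  exact hv0 (Prod.ext hcon.1 hcon.2)

/-- the same for `X = Lc.of h3 Λ` -/
theorem l3_top (h3 : P.rchar = 3) (k : Type) [Field k] [Finite k] [CharP k 3] (ρ : Gam →* M2 k)
    (hyp : Hyp ρ) (loc : Top.Loc ρ (Top.Lc.of h3 Λ).P) :
    Sel.L3 (Top.Lc.of h3 Λ).w (Top.Lc.of h3 Λ).G (Top.Lc.of h3 Λ).r ρ (Top.Lc.of h3 Λ).P :=
  selL3 Λ hyp loc

/-- **BLOCK Fl, `Top.L3Stmt`** -/
theorem l3Stmt (h3 : P.rchar = 3) : Top.L3Stmt (Top.Lc.of h3 Λ) :=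
  fun _ _ _ _ _ hyp loc _ _ _ τ h3 hF _ _ _ c hc hker => l3_lin Λ hyp loc τ h3 hF c hc hker

end Crest.Agent.T15.FlTop
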