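import Mathlib
import Crest.Agent.T15.Wp1_31
import Crest.Agent.R013.RR22_948
import Crest.Agent.R013.Div6_280

/-!
# Row 15, block Fl (helper76): non-degeneracy of the Weil pairing

`K / k` a function field (R013 words), `k` algebraically closed.
* `psh` push-forward of divisors, `ev_psh`, `divf_norm_psh`, `con_psh`, `ev_norm`, `wp_adj`;
* `exists_wp_gal`: for `L / K` finite Galois and `σ ∈ Gal`, one `n`-torsion class `y` with
  `σ θ = wp n (cls D) y * θ` whenever `θ ^ n = f`, `div f = n D`;
* `exists_wp_ne_one`: non-degeneracy.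
-/

set_option autoImplicit false
set_option linter.all false

namespace Crest.Agent.T15.Wp

open WithZero Module
open Crest.Agent.R013.RR7_948 Crest.Agent.R013.RR8_948 Crest.Agent.R013.RR9_948
open Crest.Agent.R013.RR11_948 Crest.Agent.R013.RR12_948
open Crest.Agent.R013.RR18_948 Crest.Agent.R013.RR19_948 Crest.Agent.R013.RR21_948
open Crest.Agent.R013.RR22_948
open Crest.Agent.R013.WR2_777 Crest.Agent.R013.WR4_777 Crest.Agent.R013.PicD_398
open Crest.Agent.R013.GR2_921 (hc_of_isAlgClosed exists_const degP_eq_one)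

theorem ev_zsmul {k : Type*} [Field k] {K : Type*} [Field K] [Algebra k K] (u : K) (n : ℤ)
    (E : Pl k K →₀ ℤ) : ev u (n • E) = ev u E ^ n := by
  induction n using Int.induction_on with
  | zero => simp
  | succ n ih => rw [add_smul, one_smul, ev_add, ih, zpow_add_one]
  | pred n ih => rw [sub_smul, one_smul, ev_sub, ih, zpow_sub_one, div_eq_mul_inv]

section psh

variable {k : Type*} [Field k] {K : Type*} [Field K] [Algebra k K] [Algebra (RatFunc k) K]
  [IsScalarTower k (RatFunc k) K] [FiniteDimensional (RatFunc k) K]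
  [Algebra.IsSeparable (RatFunc k) K]
  {L : Type*} [Field L] [Algebra k L] [Algebra K L] [IsScalarTower k K L]
  [FiniteDimensional K L]

variable (K) in
/-- push-forward of divisors (places of degree one) -/
noncomputable def psh : (Pl k L →₀ ℤ) →+ (Pl k K →₀ ℤ) :=
  Finsupp.mapDomain.addMonoidHom (under K)

theorem psh_single (Q : Pl k L) (n : ℤ) :
    psh K (Finsupp.single Q n) = Finsupp.single (under K Q) n := Finsupp.mapDomain_single

theorem psh_apply [Algebra.IsSeparable K L] (E : Pl k L →₀ ℤ) (P : Pl k K) :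
    psh K E P = ∑ Q ∈ above L P, E Q := by
  classical
  induction E using Finsupp.induction_linear with
  | zero => simp
  | add D E h1 h2 =>
    rw [map_add, Finsupp.add_apply, h1, h2, ← Finset.sum_add_distrib]
    rfl
  | single Q n =>
    rw [psh_single, Finsupp.single_apply]
    by_cases h : under K Q = P
    · rw [if_pos h, Finset.sum_eq_single Q]
      · rw [Finsupp.single_eq_same]
      · intro Q' _ hQ'
        rw [Finsupp.single_apply, if_neg (Ne.symm hQ')]
      · intro h'; exact absurd (mem_above.mpr h) h'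
    · rw [if_neg h, Finset.sum_eq_zero]
      intro Q' hQ'
      rw [Finsupp.single_apply, if_neg]
      rintro rfl
      exact h (mem_above.mp hQ')

theorem con_eq_zero_iff [Algebra.IsSeparable K L] (D : Pl k K →₀ ℤ) (Q : Pl k L) :
    con L D Q = 0 ↔ D (under K Q) = 0 := by
  rw [con_apply, mul_eq_zero]
  have := eR_pos (K := K) Q
  constructor
  · rintro (h | h)
    · omega
    · exact h
  · exact Or.inr

theorem con_nsmul [Algebra.IsSeparable K L] (n : ℕ) (D : Pl k K →₀ ℤ) :
    con L (n • D) = n • con L D := by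
  rw [← natCast_zsmul, con_zsmul, natCast_zsmul]

theorem Dj.psh [Algebra.IsSeparable K L] {D : Pl k K →₀ ℤ} {E : Pl k L →₀ ℤ}
    (h : Dj (con L D) E) : Dj D (psh K E) := by
  intro P
  by_cases hP : D P = 0
  · exact Or.inl hP
  · right
    rw [psh_apply]
    refine Finset.sum_eq_zero fun Q hQ => (h Q).resolve_left ?_
    rw [con_eq_zero_iff, mem_above.mp hQ]
    exact hP

theorem psh_mapD (σ : L ≃ₐ[K] L) (E : Pl k L →₀ ℤ) :
    psh K (mapD (σ.restrictScalars k) E) = psh K E := by
  induction E using Finsupp.induction_linear with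
  | zero => simp
  | add D E h1 h2 => rw [map_add, map_add, map_add, h1, h2]
  | single Q n => rw [mapD_single, psh_single, psh_single, under_mapPl]

variable [IsAlgClosed k]
  [Algebra (RatFunc k) L] [IsScalarTower k (RatFunc k) L] [FiniteDimensional (RatFunc k) L]
  [Algebra.IsSeparable (RatFunc k) L]

theorem nrm_algebraMap (Q : Pl k L) (f : K) :
    nrm Q (algebraMap K L f) = nrm (under K Q) f := by
  by_cases hf : (under K Q).v f = 1
  · refine nrm_eq_of_lt ?_
    rw [IsScalarTower.algebraMap_apply k K L, ← map_sub, ← under_lt_one_iff]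
    exact v_sub_nrm hf
  · rw [nrm_of_ne hf, nrm_of_ne]
    intro h
    apply hf
    exact (under_isEquiv Q).eq_one_iff_eq_one.mpr h

theorem ev_psh (f : K) (E : Pl k L →₀ ℤ) : ev (algebraMap K L f) E = ev f (psh K E) := by
  induction E using Finsupp.induction_linear with
  | zero => simp
  | add D E h1 h2 => rw [map_add, ev_add, ev_add, h1, h2]
  | single Q n => rw [psh_single, ev_single, ev_single, nrm_algebraMap]

theorem degD_psh (E : Pl k L →₀ ℤ) : degD (psh K E) = degD E := by
  induction E using Finsupp.induction_linear with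
  | zero => simp [degD_zero]
  | add D E h1 h2 => rw [map_add, degD_add, degD_add, h1, h2]
  | single Q n => rw [psh_single, degD_single, degD_single, degP_eq_one, degP_eq_one]

theorem nrm_mapPl (σ : L ≃ₐ[k] L) (Q : Pl k L) (u : L) : nrm (mapPl σ Q) (σ u) = nrm Q u := by
  by_cases hu : Q.v u = 1
  · refine nrm_eq_of_lt ?_
    rw [← σ.commutes, ← map_sub, mapPl_v_apply]
    exact v_sub_nrm hu
  · rw [nrm_of_ne hu, nrm_of_ne]
    rwa [mapPl_v_apply]

theorem nrm_prod {ι : Type*} (s : Finset ι) (Q : Pl k L) (u : ι → L)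
    (h : ∀ i ∈ s, Q.v (u i) = 1) : nrm Q (∏ i ∈ s, u i) = ∏ i ∈ s, nrm Q (u i) := by
  classical
  induction s using Finset.induction_on with
  | empty =>
    have := nrm_const Q (1 : kˣ)
    simpa using this
  | insert a s ha ih =>
    rw [Finset.prod_insert ha, Finset.prod_insert ha, nrm_mul (h a (Finset.mem_insert_self a s)),
      ih fun i hi => h i (Finset.mem_insert_of_mem hi)]
    rw [map_prod]
    exact Finset.prod_eq_one fun i hi => h i (Finset.mem_insert_of_mem hi)

theorem ev_sum {ι : Type*} (s : Finset ι) (u : L) (E : ι → (Pl k L →₀ ℤ)) :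
    ev u (∑ i ∈ s, E i) = ∏ i ∈ s, ev u (E i) := by
  classical
  induction s using Finset.induction_on with
  | empty => simp
  | insert a s ha ih => rw [Finset.sum_insert ha, Finset.prod_insert ha, ev_add, ih]

variable [IsScalarTower (RatFunc k) K L]

theorem divf_norm_psh [Algebra.IsSeparable K L] {u : L} (hu : u ≠ 0) :
    divf (k := k) (Algebra.norm K u) = psh K (divf (k := k) u) := by
  ext P
  rw [psh_apply, divf_norm_of_degP hu P fun Q _ => by rw [degP_eq_one, degP_eq_one]]

theorem con_single_under [IsGalois K L] (Q : Pl k L) :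
    con L (Finsupp.single (under K Q) 1) =
      ∑ σ : L ≃ₐ[K] L, Finsupp.single (mapPl (σ.restrictScalars k) Q) (1 : ℤ) := by
  classical
  ext R
  have h := sum_galois (K := K) Q (fun Q' => if Q' = R then 1 else 0)
  rw [degP_eq_one, degP_eq_one, Finset.sum_ite_eq'] at h
  simp only [Nat.cast_one, mul_one, one_mul] at h
  rw [Finsupp.finsetSum_apply, con_apply, Finsupp.single_apply]
  simp only [Finsupp.single_apply]
  rw [← h]
  by_cases h1 : under K Q = under K R
  · rw [if_pos h1, if_pos (mem_above.mpr h1.symm), eR_eq_of_under_eq h1]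
  · rw [if_neg h1, if_neg (fun h2 => h1 (mem_above.mp h2).symm), mul_zero, mul_zero]

theorem con_psh [IsGalois K L] (E : Pl k L →₀ ℤ) :
    con L (psh K E) = ∑ σ : L ≃ₐ[K] L, mapD (σ.restrictScalars k) E := by
  induction E using Finsupp.induction_linear with
  | zero => simp [con_zero]
  | add D E h1 h2 =>
    rw [map_add, con_add, h1, h2, ← Finset.sum_add_distrib]
    simp only [map_add]
  | single Q n =>
    have h1 : Finsupp.single (under K Q) n = n • Finsupp.single (under K Q) (1 : ℤ) := by simp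
    rw [psh_single, h1, con_zsmul, con_single_under, Finset.smul_sum]
    refine Finset.sum_congr rfl fun σ _ => ?_
    rw [mapD_single]; simp

theorem nrm_norm [IsGalois K L] {u : L} {P : Pl k K} (h : ∀ Q : Pl k L, under K Q = P → Q.v u = 1) :
    nrm P (Algebra.norm K u) = ev u (con L (Finsupp.single P 1)) := by
  obtain ⟨Q, hQ⟩ := above_nonempty (L := L) P
  rw [mem_above] at hQ
  subst hQ
  rw [← nrm_algebraMap, Algebra.norm_eq_prod_automorphisms, con_single_under, ev_sum,
    ← Equiv.prod_comp (Equiv.inv (L ≃ₐ[K] L)), nrm_prod]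
  · refine Finset.prod_congr rfl fun σ _ => ?_
    rw [ev_single, zpow_one, ← nrm_mapPl (σ.restrictScalars k) Q]
    congr 1
    exact σ.apply_symm_apply u
  · intro σ _
    exact h (mapPl (σ.restrictScalars k) Q) (under_mapPl σ Q)

theorem ev_norm [IsGalois K L] {u : L} (hu : u ≠ 0) {D : Pl k K →₀ ℤ}
    (h : Dj (divf (k := k) u) (con L D)) : ev (Algebra.norm K u) D = ev u (con L D) := by
  have h1 : ∀ D : Pl k K →₀ ℤ,
      ev u (con L D) = pw (fun P => ev u (con L (Finsupp.single P (1 : ℤ)))) D := by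
    intro D
    induction D using Finsupp.induction_linear with
    | zero => simp [con_zero]
    | add D E h1 h2 => rw [con_add, ev_add, pw_add, h1, h2]
    | single P n =>
      have h2 : Finsupp.single P n = n • Finsupp.single P (1 : ℤ) := by simp
      rw [pw_single, h2, con_zsmul, ev_zsmul]
  rw [h1]
  refine pw_congr fun P hP => nrm_norm fun Q hQ => v_one_of_dj hu h ?_
  rw [ne_eq, con_eq_zero_iff, hQ]
  exact hP

/-- adjointness of conorm and norm -/
theorem wp_adj [IsGalois K L] {n : ℕ} (hn : n ≠ 0) {D : Pl k K →₀ ℤ} {E : Pl k L →₀ ℤ}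
    (hD : n • cls D = (0 : Pic k K)) (hE : n • cls E = (0 : Pic k L)) :
    wp n (cls (con L D)) (cls E) = wp n (cls D) (cls (psh K E)) := by
  obtain ⟨f, hf, hf'⟩ := exists_fun hD
  obtain ⟨E', g, hg, hcl, hg', hS⟩ := exists_move' hE (con L D).support
  have h1 : Dj (con L D) E' := (dj_of_supp hS subset_rfl).symm
  have h2 : cls (psh K E) = cls (psh K E') := by
    obtain ⟨w, hw, hw'⟩ := cls_eq_iff.mp hcl
    rw [hw', map_add, map_add, ← divf_norm_psh hw, cls_divf (Algebra.norm_ne_zero_iff.mpr hw),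
      add_zero]
  have hf0 : algebraMap K L f ≠ 0 := by simpa using hf
  rw [h2, ← hcl, wp_eq hc_of_isAlgClosed hn hf0 hg (by rw [← con_divf hf, hf', con_nsmul]) hg' h1,
    wp_eq hc_of_isAlgClosed hn hf (Algebra.norm_ne_zero_iff.mpr hg) hf'
      (by rw [divf_norm_psh hg, hg', map_nsmul]) h1.psh, ev_psh, ev_norm hg]
  rw [hg']
  exact h1.symm.nsmul_left n

theorem divf_root [Algebra.IsSeparable K L] {n : ℕ} (hn : n ≠ 0) {D : Pl k K →₀ ℤ} {f : K}
    (hf : f ≠ 0) (hD : divf (k := k) f = n • D) {θ : L} (hθ : θ ^ n = algebraMap K L f) :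
    divf (k := k) θ = con L D := by
  have h0 : θ ≠ 0 := by
    rintro rfl
    rw [zero_pow hn] at hθ
    exact hf ((_root_.map_eq_zero _).1 hθ.symm)
  have h1 : n • divf (k := k) θ = n • con L D := by
    rw [← divf_pow h0, hθ, ← con_divf hf, hD, con_nsmul]
  ext Q
  have h2 := DFunLike.congr_fun h1 Q
  rw [Finsupp.smul_apply, Finsupp.smul_apply, nsmul_eq_mul, nsmul_eq_mul] at h2
  exact mul_left_cancel₀ (by exact_mod_cast hn) h2

/-- **Kummer pairing = Weil pairing.**  `y` is the norm of any `n`-th part of `σ⁻¹ Q - Q`. -/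
theorem wp_gal [IsGalois K L] {n : ℕ} (hn : n ≠ 0) (σ : L ≃ₐ[K] L) (Q : Pl k L)
    {E : Pl k L →₀ ℤ} (hE : n • cls E = cls (Finsupp.single (mapPl (σ.symm.restrictScalars k) Q) 1
      - Finsupp.single Q 1)) :
    n • cls (psh K E) = (0 : Pic k K) ∧ ∀ (D : Pl k K →₀ ℤ) (f : K) (θ : L), f ≠ 0 →
      divf (k := k) f = n • D → θ ^ n = algebraMap K L f →
      σ θ = algebraMap k L (wp n (cls D) (cls (psh K E)) : k) * θ := by
  classical
  rw [← map_nsmul] at hE
  obtain ⟨u, hu, hu'⟩ := cls_eq_iff.mp hE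
  have hN : Algebra.norm K u ≠ 0 := Algebra.norm_ne_zero_iff.mpr hu
  have hg : divf (k := k) (Algebra.norm K u) = n • psh K E := by
    rw [divf_norm_psh hu, ← map_nsmul, hu', map_add, map_sub, psh_single, psh_single, under_mapPl,
      sub_self, zero_add]
  refine ⟨nsmul_cls hN hg, ?_⟩
  have key : ∀ (D : Pl k K →₀ ℤ) (f : K) (θ : L), f ≠ 0 →
      divf (k := k) f = n • D → θ ^ n = algebraMap K L f → D (under K Q) = 0 → Dj (con L D) E →
      σ θ = algebraMap k L (wp n (cls D) (cls (psh K E)) : k) * θ := by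
    intro D f θ hf hD hθ hQ hDE
    have h0 : θ ≠ 0 := by
      rintro rfl
      rw [zero_pow hn] at hθ
      exact hf ((_root_.map_eq_zero _).1 hθ.symm)
    have hd := divf_root hn hf hD hθ
    have hσ0 : σ θ ≠ 0 := by simpa using h0
    have hd' : divf (k := k) (σ θ) = con L D :=
      divf_root hn hf hD (by rw [← map_pow, hθ, σ.commutes])
    obtain ⟨c, hc⟩ := exists_const_of_divf (k := k) hc_of_isAlgClosed
      (mul_ne_zero hσ0 (inv_ne_zero h0)) (by
        rw [divf_mul hσ0 (inv_ne_zero h0), divf_inv h0, hd, hd', add_neg_cancel])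
    have hc' : σ θ = algebraMap k L c * θ := by rw [← hc]; field_simp
    have hQ1 : con L D Q = 0 := (con_eq_zero_iff D Q).mpr hQ
    have hQ2 : con L D (mapPl (σ.symm.restrictScalars k) Q) = 0 := by
      rw [con_eq_zero_iff, under_mapPl]; exact hQ
    have hdu : Dj (divf (k := k) u) (con L D) := by
      intro R
      by_cases hR : con L D R = 0
      · exact Or.inr hR
      · left
        have h1 := DFunLike.congr_fun hu' R
        rw [Finsupp.smul_apply, (hDE R).resolve_left hR, Finsupp.add_apply, Finsupp.sub_apply,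
          Finsupp.single_apply, Finsupp.single_apply, if_neg, if_neg] at h1
        · simpa using h1.symm
        · rintro rfl; exact hR hQ1
        · rintro rfl; exact hR hQ2
    have hv : Q.v θ = 1 := by rw [v_eq_one_iff h0, hd]; exact hQ1
    have h3 : nrm (mapPl (σ.symm.restrictScalars k) Q) θ = c * nrm Q θ := by
      have h4 := nrm_mapPl (σ.symm.restrictScalars k) Q (σ θ)
      have h5 : (σ.symm.restrictScalars k) (σ θ) = θ := σ.symm_apply_apply θ
      rw [h5] at h4
      rw [h4, hc', nrm_mul (Q.const _ c.ne_zero) hv, nrm_const, degP_eq_one, pow_one]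
    have h6 : wp n (cls D) (cls (psh K E)) = c := by
      rw [wp_eq hc_of_isAlgClosed hn hf hN hD hg hDE.psh, ← ev_psh, ← hθ,
        ev_pow h0 (hd ▸ hDE), ← ev_nsmul, hu', ev_add, ev_recip h0 hu (hd ▸ hdu.symm), hd,
        ev_norm hu hdu, mul_div_cancel_right, ev_sub, ev_single, ev_single, zpow_one, zpow_one, h3,
        mul_div_cancel_right]
    rw [h6, hc']
  intro D f θ hf hD hθ
  obtain ⟨D', hcl, hS⟩ := exists_move (cls D) (insert (under K Q) (E.support.image (under K)))
  obtain ⟨w, hw, hw'⟩ := cls_eq_iff.mp hcl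
  have hw0 : algebraMap K L w ≠ 0 := by simpa using hw
  have h1 := key D' (f * w ^ n) (θ * algebraMap K L w) (mul_ne_zero hf (pow_ne_zero n hw))
    (by rw [divf_mul hf (pow_ne_zero n hw), divf_pow hw, hD, hw', nsmul_add])
    (by rw [mul_pow, hθ, map_mul, map_pow]) (hS _ (Finset.mem_insert_self _ _)) (by
      intro R
      by_cases hR : E R = 0
      · exact Or.inr hR
      · left
        rw [con_eq_zero_iff]
        exact hS _ (Finset.mem_insert_of_mem
          (Finset.mem_image_of_mem _ (Finsupp.mem_support_iff.mpr hR))))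
  rw [hcl, map_mul, σ.commutes, ← mul_assoc] at h1
  exact mul_right_cancel₀ hw0 h1

theorem exists_wp_gal [IsGalois K L] {n : ℕ} (hn : n ≠ 0)
    (hdiv : ∀ z : Pic k L, degPic z = 0 → ∃ z' : Pic k L, n • z' = z) (σ : L ≃ₐ[K] L) :
    ∃ y : Pic k K, n • y = 0 ∧ ∀ (D : Pl k K →₀ ℤ) (f : K) (θ : L), f ≠ 0 →
      divf (k := k) f = n • D → θ ^ n = algebraMap K L f →
      σ θ = algebraMap k L (wp n (cls D) y : k) * θ := by
  obtain ⟨Q, -⟩ := exists_notMem (k := k) (K := L) ∅
  obtain ⟨z', hz'⟩ := hdiv (cls (Finsupp.single (mapPl (σ.symm.restrictScalars k) Q) 1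
      - Finsupp.single Q 1)) (by
    rw [degPic_cls, degD_sub, degD_single, degD_single, degP_mapPl, sub_self])
  obtain ⟨E, rfl⟩ := cls_surjective z'
  exact ⟨_, wp_gal hn σ Q hz'⟩

theorem exists_wp_ne_one_of [IsGalois K L] {n : ℕ} (hn : n ≠ 0)
    (hdiv : ∀ z : Pic k L, degPic z = 0 → ∃ z' : Pic k L, n • z' = z)
    {D : Pl k K →₀ ℤ} {f : K} (hf : f ≠ 0) (hD : divf (k := k) f = n • D) {θ : L}
    (hθ : θ ^ n = algebraMap K L f) (hx : cls D ≠ 0) :
    ∃ y : Pic k K, n • y = 0 ∧ wp n (cls D) y ≠ 1 := by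
  by_contra hcon
  push Not at hcon
  have h1 : ∀ σ : L ≃ₐ[K] L, σ θ = θ := by
    intro σ
    obtain ⟨y, hy, h⟩ := exists_wp_gal hn hdiv σ
    rw [h D f θ hf hD hθ, hcon y hy, Units.val_one, map_one, one_mul]
  obtain ⟨a, ha⟩ := (IsGalois.mem_range_algebraMap_iff_fixed θ).mpr h1
  have h2 := divf_root hn hf hD hθ
  have ha0 : a ≠ 0 := by
    rintro rfl
    rw [map_zero] at ha
    rw [← ha, zero_pow hn] at hθ
    exact hf ((_root_.map_eq_zero _).1 hθ.symm)
  rw [← ha, ← con_divf ha0] at h2
  exact hx (by rw [← con_injective h2, cls_divf ha0])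

end psh

universe u v

/-- `Pic⁰` of every function field over `k` (in universe `v`) is `n`-divisible -/
def DivHyp (k : Type u) [Field k] (n : ℕ) : Prop :=
  ∀ (L : Type v) [Field L] [Algebra k L] [Algebra (RatFunc k) L] [IsScalarTower k (RatFunc k) L]
    [FiniteDimensional (RatFunc k) L] [Algebra.IsSeparable (RatFunc k) L],
    ∀ z : Pic k L, degPic z = 0 → ∃ z' : Pic k L, n • z' = z

theorem divHyp_charZero (k : Type u) [Field k] [IsAlgClosed k] [CharZero k] {n : ℕ} (hn : n ≠ 0) :
    DivHyp.{u, v} k n := by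
  intro L _ _ _ _ _ _ z hz
  obtain ⟨D, rfl⟩ := cls_surjective z
  obtain ⟨E, f, hf, -, h⟩ := Crest.Agent.R013.Div6_280.exists_div (Nat.pos_of_ne_zero hn) hz
  exact ⟨cls E, by rw [h, map_add, cls_divf hf, add_zero, map_nsmul]⟩

section main

variable {k : Type u} [Field k] [IsAlgClosed k] {K : Type v} [Field K] [Algebra k K]
  [Algebra (RatFunc k) K] [IsScalarTower k (RatFunc k) K] [FiniteDimensional (RatFunc k) K]
  [Algebra.IsSeparable (RatFunc k) K]

open Polynomial in
/-- **non-degeneracy of the Weil pairing** -/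
theorem exists_wp_ne_one' {n : ℕ} (hn : (n : k) ≠ 0) (hdiv : DivHyp.{u, v} k n) {x : Pic k K}
    (hx : n • x = 0) (hx0 : x ≠ 0) : ∃ y : Pic k K, n • y = 0 ∧ wp n x y ≠ 1 := by
  have hn0 : n ≠ 0 := by rintro rfl; simp at hn
  obtain ⟨D, rfl⟩ := cls_surjective x
  obtain ⟨f, hf, hD⟩ := exists_fun hx
  have hnK : (n : K) ≠ 0 := by
    rw [← map_natCast (algebraMap k K)]
    exact (_root_.map_ne_zero _).mpr hn
  have hsep : (X ^ n - C f : K[X]).Separable := separable_X_pow_sub_C f hnK hf
  let L := (X ^ n - C f : K[X]).SplittingField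
  haveI : IsGalois K L := IsGalois.of_separable_splitting_field hsep
  obtain ⟨θ, hθ⟩ := (SplittingField.splits (X ^ n - C f : K[X])).exists_eval_eq_zero (by
    rw [degree_map, degree_X_pow_sub_C (Nat.pos_of_ne_zero hn0)]
    exact_mod_cast hn0)
  rw [eval_map_algebraMap, map_sub, map_pow, aeval_X, aeval_C, sub_eq_zero] at hθ
  haveI : IsScalarTower k (RatFunc k) L := IsScalarTower.of_algebraMap_eq fun c => by
    rw [IsScalarTower.algebraMap_apply (RatFunc k) K L,
      ← IsScalarTower.algebraMap_apply k (RatFunc k) K, ← IsScalarTower.algebraMap_apply k K L]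
  haveI : FiniteDimensional (RatFunc k) L := Module.Finite.trans K L
  haveI : Algebra.IsSeparable (RatFunc k) L := Algebra.IsSeparable.trans (RatFunc k) K L
  exact exists_wp_ne_one_of hn0 (hdiv L) hf hD hθ hx0

/-- **non-degeneracy of the Weil pairing**, characteristic zero -/
theorem exists_wp_ne_one [CharZero k] {n : ℕ} (hn : n ≠ 0) {x : Pic k K}
    (hx : n • x = 0) (hx0 : x ≠ 0) : ∃ y : Pic k K, n • y = 0 ∧ wp n x y ≠ 1 :=
  exists_wp_ne_one' (Nat.cast_ne_zero.mpr hn) (divHyp_charZero k hn) hx hx0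

end main

end Crest.Agent.T15.Wp
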