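import Mathlib
import Crest.Agent.T15.TopH_88

/-!
# Row 15, block Ht (helper33): the place and the Frobenius element of a valuation on `ℚ̄`
-/

set_option autoImplicit false

noncomputable section

namespace Crest.Agent.T15.FrQ

open NumberField Crest.Agent.R018.Placesx484
open scoped NNReal
open Crest.Agent.T15.C (Om Gam)
open Crest.Agent.T15.Top (Plc IsFr)

/-- a ring automorphism of `ℚ̄` as an element of the Galois group -/
def gam (s : Om ≃+* Om) : Gam := AlgEquiv.ofRingEquiv (f := s) fun q => by simp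

@[simp] theorem gam_apply (s : Om ≃+* Om) (c : Om) : gam s c = s c := rfl

/-- the place and the Frobenius of a valuation -/
theorem plS : ∀ (v : Valuation Om ℝ≥0) (p : ℕ) (s : Om ≃+* Om), p.Prime → v p < 1 →
    (∀ a, v a ≤ 1 → v (s a - a ^ p) < 1) →
    ∃ (Q : Plc) (σ : Gam), Q.rchar = p ∧ IsFr Q σ ∧ ∀ c, s c = σ c := by
  intro v p s hp hv hs
  have hp0 : (p : Om) ≠ 0 := Nat.cast_ne_zero.2 hp.ne_zero
  have hO : v.valuationSubring ≠ ⊤ := fun e => by
    have : ((p : Om)⁻¹) ∈ v.valuationSubring := e ▸ ValuationSubring.mem_top _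
    rw [Valuation.mem_valuationSubring_iff, map_inv₀,
      inv_le_one₀ (pos_iff_ne_zero.2 ((Valuation.ne_zero_iff v).2 hp0))] at this
    exact absurd hv (not_lt.2 this)
  have hm : ∀ x : 𝓞 Om, x ∈ (Place.ofVal _ hO).ideal ↔ v (x : Om) < 1 := fun x => by
    rw [Place.mem_ofVal, ← (Valuation.isEquiv_valuation_valuationSubring v).lt_one_iff_lt_one]
  have hq : (Place.ofVal _ hO).rchar = p :=
    Place.rchar_eq_of_mem _ hp ((hm _).2 (by simpa using hv))
  refine ⟨Place.ofVal _ hO, gam s, hq, fun x => ?_, fun _ => rfl⟩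
  rw [hq, hm]
  exact hs x (Place.int_mem_valuationSubring v.valuationSubring x)

end Crest.Agent.T15.FrQ
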