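import Mathlib
import Crest.Agent.T15.HopfB_71
import Crest.Agent.R013.Clause1_97
import Crest.Agent.R013.Hens3_899
import Crest.Agent.R013.Unr9_957
import Crest.Agent.R013.Div3_280

/-!
# Row 15 (helper11): lifting automorphisms of residue fields

* `lift_res` : `E / F` Galois; an automorphism of the residue field of `E` which fixes the residues
  of `F` lifts to an isometric element of `Gal(E / F)`;
* `ext_res` : extension of isometric embeddings with prescribed residue action;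
* Gauss points `GP` : `GP.exists_aut` (in particular lifts of Frobenius `z ↦ z ^ p`),
  `GP.exists_fin`, `GP.alg`.
-/

set_option autoImplicit false
set_option linter.all false

namespace Crest.Agent.T15.Id

open Module Polynomial
open scoped NNReal
open Crest.Agent.R013.GR4_921
open Crest.Agent.R013.Clause1_97 (BB AA QQ mem_QQ mem_BB)
open Crest.Agent.R013.Hens_899 (hens inv_hens residue_hens Inv)
open Crest.Agent.T15.Disc (exists_resEquiv)

section lift

variable {F E Ω : Type*} [Field F] [Field E] [Algebra F E] [Field Ω]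
  {v : Valuation E ℝ≥0} {ρ : E → Ω}

theorem lift_res_inv [IsGalois F E] (h : IsRes v ρ) (hI : Inv F v) (γ : Ω ≃+* Ω)
    (hγ : ∀ a : F, v (algebraMap F E a) ≤ 1 → γ (ρ (algebraMap F E a)) = ρ (algebraMap F E a)) :
    ∃ g : E ≃ₐ[F] E, ∀ x, v x ≤ 1 → ρ (g x) = γ (ρ x) := by
  have hB : ∀ b : BB F v, v (b : E) ≤ 1 := fun b => by simpa using b.2 1
  have hB' : ∀ x : E, v x ≤ 1 → x ∈ BB F v := fun x hx g => by rw [hI g x]; exact hx
  let ψ : BB F v →+* Ω :=
    { toFun := fun b => ρ b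
      map_one' := h.one
      map_mul' := fun a b => h.mul _ _ (hB a) (hB b)
      map_zero' := h.zero
      map_add' := fun a b => h.add _ _ (hB a) (hB b) }
  have hker : ∀ b, b ∈ QQ F v ↔ ψ b = 0 := fun b => by
    rw [mem_QQ]; exact (h.zero_iff _ (hB b)).symm
  let ψ' : (BB F v ⧸ QQ F v) →+* Ω := Ideal.Quotient.lift _ ψ fun b hb => (hker b).mp hb
  have hψ' : ∀ b, ψ' (Ideal.Quotient.mk _ b) = ρ b := fun b => rfl
  have hbij : Function.Bijective ψ' := by
    constructor
    · rw [injective_iff_map_eq_zero]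
      intro y hy
      obtain ⟨b, rfl⟩ := Ideal.Quotient.mk_surjective y
      exact Ideal.Quotient.eq_zero_iff_mem.mpr ((hker b).mpr hy)
    · intro y
      obtain ⟨x, hx, rfl⟩ := h.surj y
      exact ⟨Ideal.Quotient.mk _ ⟨x, hB' x hx⟩, rfl⟩
  let e : (BB F v ⧸ QQ F v) ≃+* Ω := RingEquiv.ofBijective ψ' hbij
  have he : ∀ b, e (Ideal.Quotient.mk _ b) = ρ b := fun b => rfl
  let f : (BB F v ⧸ QQ F v) ≃+* (BB F v ⧸ QQ F v) := (e.trans γ).trans e.symm
  have hf : ∀ y, e (f y) = γ (e y) := fun y => by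
    change e (e.symm (γ (e y))) = _
    rw [RingEquiv.apply_symm_apply]
  let P : Ideal (AA F v) := (QQ F v).under (AA F v)
  have hcomm : ∀ r : AA F v ⧸ P, f (algebraMap (AA F v ⧸ P) (BB F v ⧸ QQ F v) r)
      = algebraMap (AA F v ⧸ P) (BB F v ⧸ QQ F v) r := by
    intro r
    obtain ⟨a, rfl⟩ := Ideal.Quotient.mk_surjective r
    have h1 : algebraMap (AA F v ⧸ P) (BB F v ⧸ QQ F v) (Ideal.Quotient.mk P a)
        = Ideal.Quotient.mk (QQ F v) (algebraMap (AA F v) (BB F v) a) := rfl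
    apply e.injective
    rw [hf, h1, he]
    exact hγ a a.2
  let σ : (BB F v ⧸ QQ F v) ≃ₐ[AA F v ⧸ P] (BB F v ⧸ QQ F v) := AlgEquiv.ofRingEquiv (f := f) hcomm
  obtain ⟨⟨g, hg⟩, hgσ⟩ := Ideal.Quotient.stabilizerHom_surjective_of_profinite
    (G := E ≃ₐ[F] E) P (QQ F v) σ
  refine ⟨g, fun x hx => ?_⟩
  have h1 : Ideal.Quotient.stabilizerHom (QQ F v) P (E ≃ₐ[F] E) ⟨g, hg⟩
      (Ideal.Quotient.mk (QQ F v) ⟨x, hB' x hx⟩) = f (Ideal.Quotient.mk (QQ F v) ⟨x, hB' x hx⟩) := by
    rw [hgσ]; rfl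
  have h2 : Ideal.Quotient.mk (QQ F v) (g • (⟨x, hB' x hx⟩ : BB F v))
      = f (Ideal.Quotient.mk (QQ F v) ⟨x, hB' x hx⟩) := h1
  have h3 := congrArg e h2
  rw [hf, he, he] at h3
  exact h3

/-- **LIFT** -/
theorem lift_res [IsGalois F E] (h : IsRes v ρ) (γ : Ω ≃+* Ω)
    (hγ : ∀ a : F, v (algebraMap F E a) ≤ 1 → γ (ρ (algebraMap F E a)) = ρ (algebraMap F E a)) :
    ∃ g : E ≃ₐ[F] E, (∀ x, v (g x) = v x) ∧ ∀ x, v x ≤ 1 → ρ (g x) = γ (ρ x) := by
  obtain ⟨g, hg⟩ := lift_res_inv (F := hens F v) h (inv_hens v) γ (by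
    intro a ha
    obtain ⟨b, hb⟩ := residue_hens a.2 ha
    have hb1 : v (algebraMap F E b) ≤ 1 := by
      have h1 : algebraMap F E b = (a : E) - ((a : E) - algebraMap F E b) := by ring
      rw [h1]
      exact (Valuation.map_sub _ _ _).trans (max_le ha hb.le)
    have h2 : ρ (algebraMap (hens F v) E a) = ρ (algebraMap F E b) := (h.eq_iff ha hb1).mpr hb
    rw [h2]
    exact hγ b hb1)
  exact ⟨g.restrictScalars F, fun x => inv_hens v g x, hg⟩

theorem isAlg_of_range {A : Type*} [CommRing A] [Algebra A E]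
    (hinj : Function.Injective (algebraMap A E)) (h : ∀ a : A, ∃ b, algebraMap F E b = algebraMap A E a)
    [Algebra.IsAlgebraic A E] : Algebra.IsAlgebraic F E := by
  choose f hf using h
  have hi := (algebraMap F E).injective
  let φ : A →+* F :=
    { toFun := f
      map_one' := hi (by rw [hf, map_one, map_one])
      map_mul' := fun a b => hi (by rw [map_mul, hf, hf, hf, map_mul])
      map_zero' := hi (by rw [hf, map_zero, map_zero])
      map_add' := fun a b => hi (by rw [map_add, hf, hf, hf, map_add]) }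
  exact ⟨fun x => Crest.Agent.R013.Div3_280.isAlgebraic_of_ringHom φ hf hinj
    (Algebra.IsAlgebraic.isAlgebraic x)⟩

/-- **EXT** -/
theorem ext_res [IsAlgClosed E] [CharZero E] [Algebra.IsAlgebraic F E] (h : IsRes v ρ)
    (s : F →+* E) (halg : @Algebra.IsAlgebraic F E _ _ s.toAlgebra)
    (hv : ∀ a, v (s a) = v (algebraMap F E a)) (γ : Ω ≃+* Ω)
    (hγ : ∀ a : F, v (algebraMap F E a) ≤ 1 → ρ (s a) = γ (ρ (algebraMap F E a))) :
    ∃ g : E ≃+* E, (∀ a, g (algebraMap F E a) = s a) ∧ (∀ x, v (g x) = v x) ∧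
      ∀ x, v x ≤ 1 → ρ (g x) = γ (ρ x) := by
  haveI : CharZero F := (algebraMap F E).charZero
  haveI : IsAlgClosure F E := ⟨inferInstance, inferInstance⟩
  haveI : IsGalois F E := inferInstance
  obtain ⟨g0, hg0⟩ := @Crest.Agent.R013.Div2_280.exists_ringEquiv F E E _ _ _ _ s.toAlgebra _ _ _ halg
  have hg0' : ∀ a, g0 (algebraMap F E a) = s a := hg0
  obtain ⟨σ, hσ⟩ := Crest.Agent.R013.Unr9_957.exists_conj_normal (F := F)
    (v.comap (g0 : E →+* E)) v (by
      ext a
      change ((v (g0 (algebraMap F E a)) : ℝ≥0) : ℝ) = ((v (algebraMap F E a) : ℝ≥0) : ℝ)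
      rw [hg0', hv])
  let g1 : E ≃+* E := σ.toRingEquiv.trans g0
  have h1 : ∀ x, v (g1 x) = v x := fun x => (hσ x).symm
  have h2 : ∀ a, g1 (algebraMap F E a) = s a := fun a => by
    change g0 (σ (algebraMap F E a)) = _
    rw [σ.commutes, hg0']
  obtain ⟨τ, hτ⟩ := exists_resEquiv h g1 h1
  obtain ⟨g2, h3, h4⟩ := lift_res (F := F) h (γ.trans τ.symm) (by
    intro a ha
    change τ.symm (γ _) = _
    rw [← hγ a ha, ← h2, hτ _ ha, τ.symm_apply_apply])
  refine ⟨g2.toRingEquiv.trans g1, fun a => ?_, fun x => ?_, fun x hx => ?_⟩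
  · change g1 (g2 (algebraMap F E a)) = _
    rw [g2.commutes, h2]
  · change v (g1 (g2 x)) = _
    rw [h1, h3]
  · change ρ (g1 (g2 x)) = _
    rw [hτ _ (by rw [h3]; exact hx), h4 x hx]
    exact τ.apply_symm_apply _

/-- independent residues have independent lifts -/
theorem indep_lift (h : IsRes v ρ) {K : Type*} [Field K] [Algebra K Ω]
    (hK : ∀ c : F, v (algebraMap F E c) ≤ 1 → ρ (algebraMap F E c) ∈ Set.range (algebraMap K Ω))
    {ι : Type*} [Fintype ι] {a : ι → E} (ha : ∀ i, v (a i) ≤ 1)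
    (hli : LinearIndependent K fun i => ρ (a i)) : LinearIndependent F a := by
  rw [Fintype.linearIndependent_iff] at hli ⊢
  intro c hc j
  by_contra hj
  obtain ⟨i, -, hi⟩ := Finset.exists_max_image Finset.univ (fun j => v (algebraMap F E (c j)))
    ⟨j, Finset.mem_univ _⟩
  have h0 : c i ≠ 0 := by
    intro h3
    have h4 := hi j (Finset.mem_univ _)
    rw [h3, map_zero, map_zero] at h4
    exact hj (by simpa using (Valuation.zero_iff v).mp (le_antisymm h4 zero_le))
  have h1 : ∀ l, v (algebraMap F E (c l / c i)) ≤ 1 := fun l => by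
    rw [map_div₀, map_div₀]; exact div_le_one_of_le₀ (hi l (Finset.mem_univ _)) zero_le
  choose r hr using fun l => hK _ (h1 l)
  have h2 : ∑ l, algebraMap F E (c l / c i) * a l = 0 := by
    have h3 : ∑ l, algebraMap F E (c l / c i) * a l = (c i)⁻¹ • ∑ l, c l • a l := by
      rw [Finset.smul_sum]
      refine Finset.sum_congr rfl fun l _ => ?_
      rw [smul_smul, Algebra.smul_def, div_eq_inv_mul]
    rw [h3, hc, smul_zero]
  have h3 := h.sum Finset.univ (fun l => algebraMap F E (c l / c i) * a l) fun l _ => by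
    rw [map_mul]; exact mul_le_one' (h1 l) (ha l)
  rw [h2, h.zero] at h3
  have h4 := hli r (by
    rw [h3]
    refine Finset.sum_congr rfl fun l _ => ?_
    rw [h.mul _ _ (h1 l) (ha l), ← hr, Algebra.smul_def]) i
  have h5 := hr i
  rw [h4, map_zero, div_self h0, map_one, h.one] at h5
  exact zero_ne_one h5

theorem res_eval₂ (h : IsRes v ρ) {C : Type*} [Field C] (j : C →+* E) {z : E} (hz : v z ≤ 1)
    {p : C[X]} (hp : ∀ i, v (j (p.coeff i)) ≤ 1) :
    v (eval₂ j z p) ≤ 1 ∧
      ρ (eval₂ j z p) = ∑ i ∈ Finset.range (p.natDegree + 1), ρ (j (p.coeff i)) * ρ z ^ i := by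
  have h1 : ∀ i, v (z ^ i) ≤ 1 := fun i => by rw [map_pow]; exact pow_le_one' hz i
  have h2 : ∀ i, v (j (p.coeff i) * z ^ i) ≤ 1 := fun i => by
    rw [map_mul]; exact mul_le_one' (hp i) (h1 i)
  rw [eval₂_eq_sum_range]
  refine ⟨Valuation.map_sum_le _ fun i _ => h2 i, ?_⟩
  rw [h.sum _ _ fun i _ => h2 i]
  exact Finset.sum_congr rfl fun i _ => by rw [h.mul _ _ (hp i) (h1 i), h.pow hz]

theorem exists_prim {C : Type*} [Field C] (vC : Valuation C ℝ≥0) {p : C[X]} (hp : p ≠ 0) :
    ∃ (c : C) (q : C[X]), c ≠ 0 ∧ p = Polynomial.C c * q ∧ (∀ i, vC (q.coeff i) ≤ 1) ∧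
      ∃ i, q.coeff i = 1 := by
  obtain ⟨i, -, hi⟩ := Finset.exists_max_image (Finset.range (p.natDegree + 1))
    (fun j => vC (p.coeff j)) ⟨0, by simp⟩
  have h0 : p.coeff i ≠ 0 := by
    intro h3
    have h4 := hi p.natDegree (by simp)
    rw [h3, map_zero] at h4
    exact hp (leadingCoeff_eq_zero.mp ((Valuation.zero_iff vC).mp (le_antisymm h4 zero_le)))
  refine ⟨p.coeff i, Polynomial.C (p.coeff i)⁻¹ * p, h0, ?_, fun j => ?_, i, ?_⟩
  · rw [← mul_assoc, ← map_mul, mul_inv_cancel₀ h0, map_one, one_mul]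
  · rw [coeff_C_mul, map_mul, map_inv₀, inv_mul_le_iff₀ (by rwa [Valuation.pos_iff]), mul_one]
    by_cases hj : j ≤ p.natDegree
    · exact hi j (by simp; omega)
    · rw [coeff_eq_zero_of_natDegree_lt (by omega), map_zero]; exact zero_le
  · rw [coeff_C_mul, inv_mul_cancel₀ h0]

end lift

section gp

variable {C E k Ω : Type*} [Field C] [Field E] [Algebra C E] [Field k] [Field Ω] [Algebra k Ω]

/-- `z` is a Gauss point: its residue is transcendental; `E` is algebraic over `C(z)` -/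
structure GP (vC : Valuation C ℝ≥0) (ρC : C → k) (v : Valuation E ℝ≥0) (ρ : E → Ω) (z : E) :
    Prop where
  resC : IsRes vC ρC
  res : IsRes v ρ
  v_c : ∀ c, v (algebraMap C E c) = vC c
  ρ_c : ∀ c, vC c ≤ 1 → ρ (algebraMap C E c) = algebraMap k Ω (ρC c)
  le : v z ≤ 1
  tr : Transcendental k (ρ z)
  alg : Algebra.IsAlgebraic (Algebra.adjoin C {z}) E

namespace GP

variable {vC : Valuation C ℝ≥0} {ρC : C → k} {v : Valuation E ℝ≥0} {ρ : E → Ω} {z : E}
  (h : GP vC ρC v ρ z)

include h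

theorem res_prim {q : C[X]} (hq : ∀ i, vC (q.coeff i) ≤ 1) :
    v (aeval z q) ≤ 1 ∧ ρ (aeval z q) ∈ Algebra.adjoin k {ρ z} ∧
      ((∃ i, q.coeff i = 1) → v (aeval z q) = 1) := by
  obtain ⟨h1, h2⟩ := res_eval₂ h.res (algebraMap C E) h.le (p := q) fun i => by
    rw [h.v_c]; exact hq i
  rw [← aeval_def] at h1 h2
  have h3 : ρ (aeval z q) =
      aeval (ρ z) (∑ i ∈ Finset.range (q.natDegree + 1), monomial i (ρC (q.coeff i))) := by
    rw [h2, map_sum]
    exact Finset.sum_congr rfl fun i _ => by rw [aeval_monomial, h.ρ_c _ (hq i)]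
  refine ⟨h1, by rw [h3]; exact aeval_mem_adjoin_singleton _ _, ?_⟩
  rintro ⟨i, hi⟩
  rw [← h.res.ne_zero_iff h1, h3]
  intro h4
  have h5 := congrArg (fun p => coeff p i) (transcendental_iff.mp h.tr _ h4)
  have h6 : i ≤ q.natDegree := le_natDegree_of_ne_zero (by rw [hi]; exact one_ne_zero)
  simp only [finset_sum_coeff, coeff_monomial, Finset.sum_ite_eq', Finset.mem_range, coeff_zero]
    at h5
  rw [if_pos (by omega), hi, h.resC.one] at h5
  exact one_ne_zero h5

theorem trC : Transcendental C z := by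
  rw [transcendental_iff]
  intro p hp
  by_contra h0
  obtain ⟨c, q, hc, rfl, h1, h2⟩ := exists_prim vC h0
  have h3 := (h.res_prim h1).2.2 h2
  rw [map_mul, aeval_C, mul_eq_zero] at hp
  rcases hp with hp | hp
  · exact hc (by simpa using hp)
  · rw [hp, map_zero] at h3
    exact zero_ne_one h3

/-- the residues of `C(z)` lie in `k(ρ z)` -/
theorem res_mem {a : E} (ha : a ∈ IntermediateField.adjoin C {z}) (h1 : v a ≤ 1) :
    ρ a ∈ IntermediateField.adjoin k {ρ z} := by
  obtain ⟨r, s, rfl⟩ := (IntermediateField.mem_adjoin_simple_iff C a).mp ha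
  by_cases hr : r = 0
  · rw [hr, map_zero, zero_div, h.res.zero]; exact zero_mem _
  by_cases hs : s = 0
  · rw [hs, map_zero, div_zero, h.res.zero]; exact zero_mem _
  obtain ⟨c, q, hc, rfl, h2, h3⟩ := exists_prim vC hr
  obtain ⟨c', q', hc', rfl, h2', h3'⟩ := exists_prim vC hs
  obtain ⟨h4, h5, h6⟩ := h.res_prim h2
  obtain ⟨h4', h5', h6'⟩ := h.res_prim h2'
  have e : aeval z (Polynomial.C c * q) / aeval z (Polynomial.C c' * q')
      = algebraMap C E (c / c') * aeval z q / aeval z q' := by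
    rw [map_mul, map_mul, aeval_C, aeval_C, map_div₀, mul_div_mul_comm, mul_div_assoc]
  rw [e] at h1 ⊢
  have h7 : vC (c / c') ≤ 1 := by
    rwa [map_div₀, map_mul, h6 h3, h6' h3', mul_one, div_one, h.v_c] at h1
  have h8 : v (algebraMap C E (c / c')) ≤ 1 := by rw [h.v_c]; exact h7
  rw [h.res.div (by rw [map_mul]; exact mul_le_one' h8 h4) (h6' h3'), h.res.mul _ _ h8 h4,
    h.ρ_c _ h7]
  exact div_mem (mul_mem (IntermediateField.algebraMap_mem _ _)
    (IntermediateField.algebra_adjoin_le_adjoin _ _ h5))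
    (IntermediateField.algebra_adjoin_le_adjoin _ _ h5')

theorem alg' : Algebra.IsAlgebraic (IntermediateField.adjoin C {z}) E := by
  haveI := h.alg
  exact isAlg_of_range (A := Algebra.adjoin C {z}) Subtype.val_injective fun a =>
    ⟨⟨a, IntermediateField.algebra_adjoin_le_adjoin _ _ a.2⟩, rfl⟩

theorem indep {ι : Type*} [Fintype ι] {a : ι → E} (ha : ∀ i, v (a i) ≤ 1)
    (hli : LinearIndependent (IntermediateField.adjoin k {ρ z}) fun i => ρ (a i)) :
    LinearIndependent (IntermediateField.adjoin C {z}) a :=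
  indep_lift h.res (fun c hc => ⟨⟨_, h.res_mem c.2 hc⟩, rfl⟩) ha hli

/-- **ALG**: the residue field is algebraic over `k(ρ z)` -/
theorem alg_res : Algebra.IsAlgebraic (IntermediateField.adjoin k {ρ z}) Ω := by
  haveI := h.alg'
  refine ⟨fun y => ?_⟩
  obtain ⟨x, hx, rfl⟩ := h.res.surj y
  by_contra hcon
  obtain ⟨p, hp0, hp⟩ := Algebra.IsAlgebraic.isAlgebraic (R := IntermediateField.adjoin C {z}) x
  have h1 : LinearIndependent (IntermediateField.adjoin C {z})
      fun i : Fin (p.natDegree + 1) => x ^ (i : ℕ) := by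
    refine h.indep (fun i => by rw [map_pow]; exact pow_le_one' hx _) ?_
    rw [Fintype.linearIndependent_iff]
    intro c hc i
    have h2 : aeval (ρ x) (∑ j : Fin (p.natDegree + 1), monomial (j : ℕ) (c j)) = 0 := by
      rw [map_sum, ← hc]
      exact Finset.sum_congr rfl fun j _ => by rw [aeval_monomial, h.res.pow hx, Algebra.smul_def]
    have h3 := congrArg (fun p => coeff p i) (transcendental_iff.mp hcon _ h2)
    simp only [finset_sum_coeff, coeff_monomial, Fin.val_inj, Finset.sum_ite_eq', Finset.mem_univ,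
      if_true, coeff_zero] at h3
    exact h3
  rw [Fintype.linearIndependent_iff] at h1
  have h2 := h1 (fun i => p.coeff i) (by
    rw [← hp, aeval_eq_sum_range, Finset.sum_range]) (Fin.last _)
  exact hp0 (leadingCoeff_eq_zero.mp h2)

theorem alg_res' : Algebra.IsAlgebraic (Algebra.adjoin k {ρ z}) Ω := by
  haveI := h.alg_res
  exact (IntermediateField.isAlgebraic_adjoin_iff_top).mp this

variable [IsAlgClosed E] [CharZero E]

/-- **FIN + LIFT**: automorphisms of `Ω` over a finitely generated field lift over `C(z, T)` -/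
theorem exists_fin (T : Finset E) : ∃ S : Finset Ω, ρ z ∈ S ∧ ∀ γ : Ω ≃+* Ω,
    (∀ c, γ (algebraMap k Ω c) = algebraMap k Ω c) → (∀ s ∈ S, γ s = s) →
    ∃ g : E ≃+* E, (∀ c, g (algebraMap C E c) = algebraMap C E c) ∧ g z = z ∧ (∀ t ∈ T, g t = t) ∧
      (∀ x, v (g x) = v x) ∧ ∀ x, v x ≤ 1 → ρ (g x) = γ (ρ x) := by
  classical
  haveI := h.alg'
  set F1 := IntermediateField.adjoin C {z} with hF1
  set K1 := IntermediateField.adjoin k {ρ z} with hK1
  let F0 : IntermediateField F1 E := IntermediateField.adjoin F1 (T : Set E)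
  haveI : FiniteDimensional F1 F0 := IntermediateField.finiteDimensional_adjoin fun x _ =>
    (Algebra.IsAlgebraic.isAlgebraic (R := F1) x).isIntegral
  let A : Set Ω := {y | ∃ a : F0, v (a : E) ≤ 1 ∧ ρ a = y}
  obtain ⟨B, hBA, hspan, hli⟩ := exists_linearIndependent K1 A
  have hfin : B.Finite := by
    by_contra hinf
    obtain ⟨B', hB', hcard⟩ := Set.Infinite.exists_subset_card_eq hinf (finrank F1 F0 + 1)
    choose a ha1 ha2 using fun b : B' => hBA (hB' b.2)
    have h1 : LinearIndependent K1 fun b : B' => ρ (a b) := by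
      simp only [ha2]
      exact hli.comp (fun b : B' => (⟨b, hB' b.2⟩ : B)) fun b b' hb =>
        Subtype.ext (congrArg (fun x : B => (x : Ω)) hb)
    have h2 := h.indep ha1 h1
    have h3 : LinearIndependent F1 a := LinearIndependent.of_comp F0.val.toLinearMap h2
    have h4 := h3.fintype_card_le_finrank
    rw [Fintype.card_coe, hcard] at h4
    omega
  refine ⟨insert (ρ z) hfin.toFinset, Finset.mem_insert_self _ _, fun γ hk hS => ?_⟩
  have hK : ∀ y ∈ K1, γ y = y := by
    intro y hy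
    induction hy using IntermediateField.adjoin_induction with
    | mem x hx => rw [Set.mem_singleton_iff.mp hx]; exact hS _ (Finset.mem_insert_self _ _)
    | algebraMap c => exact hk c
    | add x y _ _ h1 h2 => rw [map_add, h1, h2]
    | inv x _ h1 => rw [map_inv₀, h1]
    | mul x y _ _ h1 h2 => rw [map_mul, h1, h2]
  have hA : ∀ y ∈ Submodule.span K1 B, γ y = y := by
    intro y hy
    induction hy using Submodule.span_induction with
    | mem x hx => exact hS _ (Finset.mem_insert_of_mem (hfin.mem_toFinset.mpr hx))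
    | zero => exact map_zero _
    | add x y _ _ h1 h2 => rw [map_add, h1, h2]
    | smul c x _ h1 =>
      rw [Algebra.smul_def, map_mul, h1]
      exact congrArg (· * x) (hK _ c.2)
  haveI : Algebra.IsAlgebraic F0 E := Algebra.IsAlgebraic.tower_top (K := F1) F0
  haveI : CharZero F0 := (algebraMap F0 E).charZero
  haveI : IsAlgClosure F0 E := ⟨inferInstance, inferInstance⟩
  haveI : IsGalois F0 E := inferInstance
  obtain ⟨g, hg1, hg2⟩ := lift_res (F := F0) h.res γ fun a ha =>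
    hA _ (by rw [hspan]; exact Submodule.subset_span ⟨a, ha, rfl⟩)
  have hg : ∀ x ∈ F0, g x = x := fun x hx => g.commutes ⟨x, hx⟩
  have hg' : ∀ x ∈ F1, g x = x := fun x hx => hg x (F0.algebraMap_mem ⟨x, hx⟩)
  exact ⟨g.toRingEquiv, fun c => hg' _ (F1.algebraMap_mem c),
    hg' _ (IntermediateField.mem_adjoin_simple_self C z),
    fun t ht => hg t (IntermediateField.subset_adjoin _ _ ht), hg1, hg2⟩

/-- **SIG**: an automorphism with prescribed action on `C`, on `z` and on the residue field -/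
theorem exists_aut (σ : C ≃+* C) (hσ : ∀ c, vC (σ c) = vC c) (γ : Ω ≃+* Ω)
    (hγ : ∀ c, vC c ≤ 1 → algebraMap k Ω (ρC (σ c)) = γ (algebraMap k Ω (ρC c)))
    {z' : E} (hz' : v z' ≤ 1) (htr : Transcendental C z') (hzz : ρ z' = γ (ρ z)) :
    ∃ g : E ≃+* E, (∀ c, g (algebraMap C E c) = algebraMap C E (σ c)) ∧ g z = z' ∧
      (∀ x, v (g x) = v x) ∧ ∀ x, v x ≤ 1 → ρ (g x) = γ (ρ x) := by
  let j : C →+* E := (algebraMap C E).comp (σ : C →+* C)
  have hj : ∀ c, j c = algebraMap C E (σ c) := fun c => rfl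
  have hev : ∀ p : C[X], eval₂ j z' p = aeval z' (p.map (σ : C →+* C)) := fun p => by
    rw [aeval_def, eval₂_map]
  have hinj : Function.Injective (eval₂RingHom j z') := by
    rw [injective_iff_map_eq_zero]
    intro p hp
    rw [coe_eval₂RingHom, hev] at hp
    exact (Polynomial.map_eq_zero_iff σ.injective).mp (transcendental_iff.mp htr _ hp)
  have hinj1 : Function.Injective (eval₂RingHom (algebraMap C E) z) :=
    transcendental_iff_injective.mp h.trC
  let s : RatFunc C →+* E := RatFunc.liftRingHom (eval₂RingHom j z')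
    (nonZeroDivisors_le_comap_nonZeroDivisors_of_injective _ hinj)
  let s1 : RatFunc C →+* E := RatFunc.liftRingHom (eval₂RingHom (algebraMap C E) z)
    (nonZeroDivisors_le_comap_nonZeroDivisors_of_injective _ hinj1)
  have hs : ∀ p q : C[X], s (algebraMap _ _ p / algebraMap _ _ q) = eval₂ j z' p / eval₂ j z' q :=
    fun p q => RatFunc.liftRingHom_apply_div _ _ p q
  have hs1 : ∀ p q : C[X], s1 (algebraMap _ _ p / algebraMap _ _ q) = aeval z p / aeval z q :=
    fun p q => RatFunc.liftRingHom_apply_div _ _ p q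
  have key : ∀ q : C[X], (∀ i, vC (q.coeff i) ≤ 1) →
      v (eval₂ j z' q) ≤ 1 ∧ ρ (eval₂ j z' q) = γ (ρ (aeval z q)) := by
    intro q hq
    obtain ⟨h1, h2⟩ := res_eval₂ h.res j hz' (p := q) fun i => by rw [hj, h.v_c, hσ]; exact hq i
    obtain ⟨-, h3⟩ := res_eval₂ h.res (algebraMap C E) h.le (p := q) fun i => by
      rw [h.v_c]; exact hq i
    refine ⟨h1, ?_⟩
    rw [h2, aeval_def, h3, map_sum]
    refine Finset.sum_congr rfl fun i _ => ?_
    rw [map_mul, map_pow, hzz, hj, h.ρ_c _ (by rw [hσ]; exact hq i), h.ρ_c _ (hq i), hγ _ (hq i)]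
  have key' : ∀ q : C[X], (∀ i, vC (q.coeff i) ≤ 1) → (∃ i, q.coeff i = 1) →
      v (eval₂ j z' q) = 1 := by
    intro q hq hq'
    obtain ⟨h1, h2⟩ := key q hq
    obtain ⟨h3, -, h4⟩ := h.res_prim hq
    rw [← h.res.ne_zero_iff h1, h2, _root_.map_ne_zero]
    exact (h.res.ne_zero_iff h3).mpr (h4 hq')
  have nf : ∀ a : RatFunc C, ∃ (c : C) (q q' : C[X]), (∀ i, vC (q.coeff i) ≤ 1) ∧
      (∃ i, q.coeff i = 1) ∧ (∀ i, vC (q'.coeff i) ≤ 1) ∧ (∃ i, q'.coeff i = 1) ∧
      s a = j c * eval₂ j z' q / eval₂ j z' q' ∧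
      s1 a = algebraMap C E c * aeval z q / aeval z q' := by
    intro a
    have h1 : ∀ i, vC ((1 : C[X]).coeff i) ≤ 1 := fun i => by
      rw [coeff_one]; split_ifs <;> simp
    by_cases ha : a = 0
    · exact ⟨0, 1, 1, h1, ⟨0, by simp⟩, h1, ⟨0, by simp⟩, by simp [ha], by simp [ha]⟩
    obtain ⟨c, q, hc, e, h2, h3⟩ := exists_prim vC (RatFunc.num_ne_zero ha)
    obtain ⟨c', q', hc', e', h2', h3'⟩ := exists_prim vC (RatFunc.denom_ne_zero a)
    refine ⟨c / c', q, q', h2, h3, h2', h3', ?_, ?_⟩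
    · rw [← RatFunc.num_div_denom a, hs, e, e', eval₂_mul, eval₂_mul, eval₂_C, eval₂_C, map_div₀,
        mul_div_mul_comm, mul_div_assoc]
    · rw [← RatFunc.num_div_denom a, hs1, e, e', map_mul, map_mul, aeval_C, aeval_C, map_div₀,
        mul_div_mul_comm, mul_div_assoc]
  have halg : @Algebra.IsAlgebraic (RatFunc C) E _ _ s.toAlgebra := by
    letI := s.toAlgebra
    haveI := Crest.Agent.R013.Div2_280.exchange h.trC htr h.alg
    refine isAlg_of_range (A := Algebra.adjoin C {z'}) Subtype.val_injective ?_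
    rintro ⟨a, ha⟩
    rw [Algebra.adjoin_singleton_eq_range_aeval] at ha
    obtain ⟨p, rfl⟩ := ha
    refine ⟨algebraMap _ _ (p.map (σ.symm : C →+* C)) / algebraMap _ _ (1 : C[X]), ?_⟩
    change s _ = aeval z' p
    rw [hs, hev, eval₂_one, div_one, Polynomial.map_map]
    simp
  letI := s1.toAlgebra
  haveI : Algebra.IsAlgebraic (RatFunc C) E := by
    haveI := h.alg
    refine isAlg_of_range (A := Algebra.adjoin C {z}) Subtype.val_injective ?_
    rintro ⟨a, ha⟩
    rw [Algebra.adjoin_singleton_eq_range_aeval] at ha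
    obtain ⟨p, rfl⟩ := ha
    refine ⟨algebraMap _ _ p / algebraMap _ _ (1 : C[X]), ?_⟩
    change s1 _ = aeval z p
    rw [hs1, map_one, div_one]
  obtain ⟨g, hg1, hg2, hg3⟩ := ext_res (F := RatFunc C) h.res s halg (fun a => by
    obtain ⟨c, q, q', h1, h2, h3, h4, e, e1⟩ := nf a
    change v (s a) = v (s1 a)
    rw [e, e1, map_div₀, map_div₀, map_mul, map_mul, key' q h1 h2, key' q' h3 h4,
      (h.res_prim h1).2.2 h2, (h.res_prim h3).2.2 h4, hj, h.v_c, h.v_c, hσ]) γ (fun a ha => by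
    obtain ⟨c, q, q', h1, h2, h3, h4, e, e1⟩ := nf a
    change v (s1 a) ≤ 1 at ha
    change ρ (s a) = γ (ρ (s1 a))
    rw [e1, map_div₀, map_mul, (h.res_prim h1).2.2 h2, (h.res_prim h3).2.2 h4, mul_one, div_one,
      h.v_c] at ha
    have h5 : v (j c) ≤ 1 := by rw [hj, h.v_c, hσ]; exact ha
    have h6 : v (algebraMap C E c) ≤ 1 := by rw [h.v_c]; exact ha
    rw [e, e1, h.res.div (by rw [map_mul]; exact mul_le_one' h5 (key q h1).1) (key' q' h3 h4),
      h.res.mul _ _ h5 (key q h1).1, (key q h1).2, (key q' h3).2,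
      h.res.div (by rw [map_mul]; exact mul_le_one' h6 (h.res_prim h1).1) ((h.res_prim h3).2.2 h4),
      h.res.mul _ _ h6 (h.res_prim h1).1, map_div₀, map_mul, hj,
      h.ρ_c _ (by rw [hσ]; exact ha), h.ρ_c _ ha, hγ _ ha])
  have hg1' : ∀ p : C[X], g (aeval z p) = eval₂ j z' p := fun p => by
    have h1 : g (s1 _) = s _ := hg1 (algebraMap _ _ p / algebraMap _ _ (1 : C[X]))
    rwa [hs, hs1, map_one, eval₂_one, div_one, div_one] at h1
  refine ⟨g, fun c => ?_, ?_, hg2, hg3⟩
  · have h1 := hg1' (Polynomial.C c)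
    rwa [aeval_C, eval₂_C] at h1
  · have h1 := hg1' X
    rwa [aeval_X, eval₂_X] at h1

/-- lifts of Frobenius with `z ↦ z ^ p` -/
theorem exists_frob [PerfectField Ω] {p : ℕ} [Fact p.Prime] [CharP Ω p] (σ : C ≃+* C)
    (hσ : ∀ c, vC (σ c) = vC c) (hp : ∀ c, vC c ≤ 1 → ρC (σ c) = ρC c ^ p) :
    ∃ g : E ≃+* E, (∀ c, g (algebraMap C E c) = algebraMap C E (σ c)) ∧ g z = z ^ p ∧
      (∀ x, v (g x) = v x) ∧ ∀ x, v x ≤ 1 → ρ (g x) = ρ x ^ p :=
  h.exists_aut σ hσ (frobeniusEquiv Ω p) (fun c hc => by rw [hp c hc, map_pow]; rfl)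
    (by rw [map_pow]; exact pow_le_one' h.le p) (h.trC.pow (Fact.out : p.Prime).pos)
    (by rw [h.res.pow h.le]; rfl)

end GP

end gp

end Crest.Agent.T15.Id
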