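import Mathlib
import Crest.Agent.T15.HonF_74
import Crest.Agent.T15.FaS_49
import Crest.Agent.T15.IdWB_11
import Crest.Agent.T15.NgB_77

/-!
# Row 15, block Ht (helper13): the generic point of a residue disc (leaf GEN)

* `Gen.em_aeval`, `Gen.em_x`, `Gen.gp_x` : `em (a + t)` is a Gauss point;
* `Gen.exists_gen` : the embedding `ψ : K → Ω` with `ψ z = em (a + t)`, `ψ w = em wt`;
* `Gen.v_hom`, `Gen.res_hom` : it is isometric for the naive norm and induces an embedding of the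
  residue fields.
-/

set_option autoImplicit false
set_option linter.all false

noncomputable section

namespace Crest.Agent.T15.Hon.Gen

open scoped NNReal PowerSeries
open Polynomial
open Crest.Agent.R013.GR4_921 Crest.Agent.R013.GR6_921
open Crest.Agent.T15.Hy Crest.Agent.T15.Ng
open Crest.Agent.T15.Id (GP res_eval₂)

section gp

variable {C E k Ω : Type*} [Field C] [Field E] [Algebra C E] [Field k] [Field Ω] [Algebra k Ω]
  {vC : Valuation C ℝ≥0} {ρC : C → k} {v : Valuation E ℝ≥0} {ρ : E → Ω} {z : E}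

theorem gp_res_aeval (h : GP vC ρC v ρ z) {q : C[X]} (hq : IntP vC q) :
    ρ (aeval z q) = aeval (ρ z) (redP ρC q) := by
  obtain ⟨-, h2⟩ := res_eval₂ h.res (algebraMap C E) h.le (p := q) fun i => by
    rw [h.v_c]; exact hq i
  rw [← aeval_def] at h2
  rw [h2, redP, map_sum]
  exact Finset.sum_congr rfl fun i _ => by
    rw [map_mul, map_pow, aeval_C, aeval_X, h.ρ_c _ (hq i)]

theorem gp_v_aeval (h : GP vC ρC v ρ z) {q : C[X]} (hq : IntP vC q) (h0 : redP ρC q ≠ 0) :
    v (aeval z q) = 1 := by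
  rw [← h.res.ne_zero_iff (h.res_prim hq).1, gp_res_aeval h hq]
  exact fun h1 => h0 (transcendental_iff.mp h.tr _ h1)

/-- a translate of a Gauss point is a Gauss point -/
theorem gp_add (h : GP vC ρC v ρ z) {a : C} (ha : vC a ≤ 1) :
    GP vC ρC v ρ (algebraMap C E a + z) := by
  have h1 : v (algebraMap C E a) ≤ 1 := by rw [h.v_c]; exact ha
  refine ⟨h.resC, h.res, h.v_c, h.ρ_c, (Valuation.map_add _ _ _).trans (max_le h1 h.le), ?_, ?_⟩
  · rw [h.res.add _ _ h1 h.le, h.ρ_c _ ha]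
    intro h2
    have h3 := h2.sub (isAlgebraic_algebraMap (A := Ω) (ρC a))
    rw [add_sub_cancel_left] at h3
    exact h.tr h3
  · have e : Algebra.adjoin C {algebraMap C E a + z} = Algebra.adjoin C {z} := by
      apply le_antisymm
      · exact Algebra.adjoin_le (Set.singleton_subset_iff.mpr
          (add_mem (Subalgebra.algebraMap_mem _ a) (Algebra.self_mem_adjoin_singleton C z)))
      · refine Algebra.adjoin_le (Set.singleton_subset_iff.mpr ?_)
        have := sub_mem (Algebra.self_mem_adjoin_singleton C (algebraMap C E a + z))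
          (Subalgebra.algebraMap_mem _ a)
        rwa [add_sub_cancel_left] at this
    have key : ∀ S T : Subalgebra C E, S = T → Algebra.IsAlgebraic T E → Algebra.IsAlgebraic S E :=
      fun S T e h => e ▸ h
    exact key _ _ e h.alg

variable {K κ : Type*} [Field K] [Algebra C K] [Field κ] [Algebra k κ]
  {F : C[X]} {x w : K} {H Eb : k[X]} {xb wb : κ} {W : Valuation K ℝ≥0} {res : K → κ}

/-- an embedding which sends `x` to a Gauss point is isometric for the naive norm -/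
theorem v_hom (h : GP vC ρC v ρ z) (n : NR vC ρC F x w H Eb xb wb W res) (ψ : K →ₐ[C] E)
    (hx : ψ x = z) (f : K) : v (ψ f) = W f :=
  n.W_hom v (ψ : K →+* E) (fun c => by
      change v (ψ _) = _
      rw [ψ.commutes, h.v_c])
    (fun A hA => by
      change v (ψ _) ≤ _
      rw [← aeval_algHom_apply, hx]; exact (h.res_prim hA).1)
    (fun A hA h0 => by
      change v (ψ _) = _
      rw [← aeval_algHom_apply, hx]; exact gp_v_aeval h hA h0) f

/-- ... and induces an embedding of the residue fields -/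
theorem res_hom (h : GP vC ρC v ρ z) (n : NR vC ρC F x w H Eb xb wb W res) (ψ : K →ₐ[C] E)
    (hx : ψ x = z) : ∃ τ : κ →ₐ[k] Ω, τ xb = ρ z ∧ τ (aeval xb H * wb) = ρ (ψ w) ∧
      ∀ f, W f ≤ 1 → ρ (ψ f) = τ (res f) := by
  have htr := transcendental_iff.mp h.tr
  have hH : aeval (ρ z) H ≠ 0 := fun h0 => n.H0 (htr _ h0)
  have hw : v (ψ w) ≤ 1 := by rw [v_hom h n ψ hx]; exact n.W_w.le
  have h1 : ρ (ψ w) ^ 2 = aeval (ρ z) H ^ 2 * aeval (ρ z) Eb := by
    rw [← h.res.pow hw, ← map_pow, n.hyp.sq, ← aeval_algHom_apply, hx, gp_res_aeval h n.int, n.red,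
      map_mul, map_pow]
  obtain ⟨φ, h2, h3, h4⟩ := Fa.exists_hom n.hyb (RingHom.id k) (x' := ρ z)
    (w' := ρ (ψ w) / aeval (ρ z) H) (by simpa using htr)
    (by rw [Polynomial.map_id, div_pow, h1]; field_simp)
  let τ : κ →ₐ[k] Ω := { φ with commutes' := h2 }
  have h5 : τ (aeval xb H * wb) = ρ (ψ w) := by
    rw [map_mul, ← aeval_algHom_apply]
    change aeval (φ xb) H * φ wb = _
    rw [h3, h4]; field_simp
  refine ⟨τ, h3, h5, fun f hf => ?_⟩
  refine n.res_hom h.res (ψ : K →+* E) (v_hom h n ψ hx) φ (fun c hc => ?_) ?_ h5.symm hf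
  · change ρ (ψ _) = _
    rw [ψ.commutes, h.ρ_c c hc, h2]; rfl
  · change ρ (ψ x) = _
    rw [hx, h3]

/-- the target is algebraic over the image -/
theorem alg_range (h : GP vC ρC v ρ z) (ψ : K →ₐ[C] E) {x : K} (hx : ψ x = z) :
    @Algebra.IsAlgebraic K E _ _ (ψ : K →+* E).toAlgebra := by
  letI := (ψ : K →+* E).toAlgebra
  haveI := h.alg
  refine Id.isAlg_of_range (A := Algebra.adjoin C {z}) Subtype.val_injective fun a => ?_
  obtain ⟨a, ha⟩ := a
  rw [Algebra.adjoin_singleton_eq_range_aeval] at ha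
  obtain ⟨q, rfl⟩ := ha
  exact ⟨aeval x q, by
    change ψ (aeval x q) = aeval z q
    rw [← aeval_algHom_apply, hx]⟩

end gp

section vs

variable {C : Type} [Field C] {K0 : Subfield C} {v0 : Valuation K0 ℝ≥0} {p : ℕ} {hp : p ≠ 0}
  {σ : K0 →+* K0} (X : Vs C K0 v0 p hp σ) {f g : K0⟦X⟧}

theorem em_zero : X.em 0 = 0 := by simpa using X.em_C 0 (by simp)

theorem em_one : X.em 1 = 1 := by simpa using X.em_C 1 (by simp)

theorem em_neg (hf : AI v0 f) : X.em (-f) = -X.em f := by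
  have := X.em_add f (-f) hf hf.neg
  rw [add_neg_cancel, em_zero] at this
  exact (neg_eq_of_add_eq_zero_right this.symm).symm

theorem em_sub (hf : AI v0 f) (hg : AI v0 g) : X.em (f - g) = X.em f - X.em g := by
  rw [sub_eq_add_neg, X.em_add _ _ hf hg.neg, em_neg X hg, sub_eq_add_neg]

theorem em_pow (hf : AI v0 f) (n : ℕ) : X.em (f ^ n) = X.em f ^ n := by
  induction n with
  | zero => simpa using em_one X
  | succ n ih => rw [pow_succ, X.em_mul _ _ (hf.pow n) hf, ih, pow_succ]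

theorem em_sum {ι : Type*} (s : Finset ι) {f : ι → K0⟦X⟧} (h : ∀ i ∈ s, AI v0 (f i)) :
    X.em (∑ i ∈ s, f i) = ∑ i ∈ s, X.em (f i) := by
  classical
  induction s using Finset.induction_on with
  | empty => simpa using em_zero X
  | insert i s hi ih =>
    have h1 : ∀ j ∈ s, AI v0 (f j) := fun j hj => h j (Finset.mem_insert_of_mem hj)
    rw [Finset.sum_insert hi, Finset.sum_insert hi,
      X.em_add _ _ (h i (Finset.mem_insert_self _ _)) (AI.sum s h1), ih h1]

theorem em_inv (hf : AI v0 f) (h0 : v0 (PowerSeries.constantCoeff f) = 1) :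
    X.em f⁻¹ = (X.em f)⁻¹ := by
  have h1 : PowerSeries.constantCoeff f ≠ 0 := fun h => by simp [h] at h0
  have h2 := X.em_mul f f⁻¹ hf (hf.inv h0)
  rw [PowerSeries.mul_inv_cancel f h1, em_one] at h2
  exact (eq_inv_of_mul_eq_one_right h2.symm)

theorem em_C_mul {a : K0} (ha : v0 a ≤ 1) (hf : AI v0 f) :
    X.em (PowerSeries.C a * f) = algebraMap C X.Ω a * X.em f := by
  rw [X.em_mul _ _ (AI.const ha) hf, X.em_C a ha]

theorem v_em_le (hf : AI v0 f) : X.v (X.em f) ≤ 1 := X.v_em f 1 hf hf.1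

theorem ai_aeval (hf : AI v0 f) {F : K0[X]} (hF : ∀ n, v0 (F.coeff n) ≤ 1) :
    AI v0 (aeval f F) := by
  rw [aeval_eq_sum_range]
  refine AI.sum _ fun i _ => ?_
  rw [PowerSeries.smul_eq_C_mul]
  exact (AI.const (hF i)).mul (hf.pow i)

theorem em_aeval (hf : AI v0 f) {F : K0[X]} (hF : ∀ n, v0 (F.coeff n) ≤ 1) :
    X.em (aeval f F) = aeval (X.em f) (F.map K0.subtype) := by
  rw [aeval_eq_sum_range, aeval_eq_sum_range, natDegree_map, em_sum]
  · refine Finset.sum_congr rfl fun i _ => ?_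
    rw [PowerSeries.smul_eq_C_mul, em_C_mul X (hF i) (hf.pow i), em_pow X hf, coeff_map,
      Algebra.smul_def]
    rfl
  · intro i _
    rw [PowerSeries.smul_eq_C_mul]
    exact (AI.const (hF i)).mul (hf.pow i)

theorem em_x {a : K0} (ha : v0 a ≤ 1) :
    X.em (PowerSeries.C a + PowerSeries.X) = algebraMap C X.Ω a + X.em PowerSeries.X := by
  rw [X.em_add _ _ (AI.const ha) AI.X', X.em_C a ha]

/-- `t` is a Gauss point -/
theorem gp_t : GP (X.v.comap (algebraMap C X.Ω)) X.ρC X.v X.ρ (X.em PowerSeries.X) :=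
  ⟨X.resC, X.res, fun _ => rfl, X.comp, v_em_le X AI.X', X.tr,
    IntermediateField.isAlgebraic_adjoin_iff_top.mp ⟨X.alg⟩⟩

/-- `a + t` is a Gauss point -/
theorem gp_x {a : K0} (ha : v0 a ≤ 1) :
    GP (X.v.comap (algebraMap C X.Ω)) X.ρC X.v X.ρ (X.em (PowerSeries.C a + PowerSeries.X)) := by
  rw [em_x X ha]
  exact gp_add (gp_t X) (a := a) (by change X.v _ ≤ 1; rw [X.v_K0]; exact ha)

variable {K : Type*} [Field K] [Algebra C K] {F : K0[X]} {z w : K}

/-- **GEN** -/
theorem exists_gen' (hy : Hyp (F.map K0.subtype) z w) (hF : ∀ n, v0 (F.coeff n) ≤ 1) {a : K0}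
    (ha : v0 a ≤ 1) {wt : K0⟦X⟧} (hw : AI v0 wt)
    (hsq : wt ^ 2 = aeval (PowerSeries.C a + PowerSeries.X : K0⟦X⟧) F) :
    ∃ ψ : K →ₐ[C] X.Ω, ψ z = X.em (PowerSeries.C a + PowerSeries.X) ∧ ψ w = X.em wt := by
  obtain ⟨φ, h1, h2, h3⟩ := Fa.exists_hom hy (RingHom.id C)
    (x' := X.em (PowerSeries.C a + PowerSeries.X)) (w' := X.em wt)
    (by simpa using transcendental_iff.mp (gp_x X ha).trC)
    (by rw [Polynomial.map_id, ← em_pow X hw, hsq, em_aeval X ((AI.const ha).add AI.X') hF])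
  exact ⟨{ φ with commutes' := h1 }, h2, h3⟩

/-- **GEN** for the branch through a good point -/
theorem exists_gen {a b : K0} (h : GdP v0 F a b) (hy : Hyp (F.map K0.subtype) z w) :
    ∃ ψ : K →ₐ[C] X.Ω, ψ z = X.em (PowerSeries.C a + PowerSeries.X) ∧ ψ w = X.em (wt F a b) :=
  exists_gen' X hy h.cF h.va h.ai_wt (wt_spec h.two_ne h.b_ne h.on).1

/-- **GEN** with all the extras of 54's list -/
theorem exists_gen_NR {κ : Type*} [Field κ] [Algebra X.k κ] {H Eb : X.k[X]} {xb wb : κ}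
    {W : Valuation K ℝ≥0} {res : K → κ} {a b : K0} (h : GdP v0 F a b)
    (n : NR (X.v.comap (algebraMap C X.Ω)) X.ρC (F.map K0.subtype) z w H Eb xb wb W res) :
    ∃ (ψ : K →ₐ[C] X.Ω) (τ : κ →ₐ[X.k] X.k'), ψ z = X.em (PowerSeries.C a + PowerSeries.X) ∧
      ψ w = X.em (wt F a b) ∧ (∀ f, X.v (ψ f) = W f) ∧ ∀ f, W f ≤ 1 → X.ρ (ψ f) = τ (res f) := by
  obtain ⟨ψ, h1, h2⟩ := exists_gen X h n.hyp
  obtain ⟨τ, -, -, h3⟩ := res_hom (gp_x X h.va) n ψ h1
  exact ⟨ψ, τ, h1, h2, v_hom (gp_x X h.va) n ψ h1, h3⟩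

end vs

end Crest.Agent.T15.Hon.Gen
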