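import Mathlib
import Crest.Agent.T15.HopfB_71
import Crest.Agent.R013.CE8_280
import Crest.Agent.R013.CE5_280

/-!
# Row 15 (helper11): base change of a norm with orthonormal bases to a constant field extension

`BC vC ρC W ρ vE ρE ι' ι` : `W` a norm of `M / C` with residue field `K / k`, `E ⊇ C` valued with
residue field `Ω ⊇ k`, `N = M_E`, `L = K_Ω`.  Then `N` carries a norm `h.W'` with residue field `L`
(`BC.red`, `BC.orth'`), extending `W` and `ρ`.
-/

set_option autoImplicit false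
set_option linter.all false

namespace Crest.Agent.T15.Id

open Module
open scoped NNReal TensorProduct
open Crest.Agent.R013.GR4_921 Crest.Agent.R013.GR6_921
open Crest.Agent.R013.CE3_280

section ce

variable {F K Ω L : Type*} [Field F] [Field K] [Algebra F K] [Field Ω] [Algebra F Ω]
  [Field L] [Algebra Ω L] [Algebra F L] [IsScalarTower F Ω L] {ι : K →ₐ[F] L}

theorem ce_indep (h : IsCE Ω ι) {κ : Type*} [Fintype κ] {b : κ → K} (hb : LinearIndependent F b)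
    (a : κ → Ω) (h0 : ∑ j, algebraMap Ω L (a j) * ι (b j) = 0) : a = 0 := by
  refine Crest.Agent.R013.CE8_280.coeff_eq_zero hb a (h.inj ?_)
  rw [map_sum, map_zero, ← h0]
  exact Finset.sum_congr rfl fun j _ => mu_tmul ι _ _

/-- every tensor is a combination of any family spanning a fixed finite dimensional space -/
theorem mu_rep (ι : K →ₐ[F] L) (t : Ω ⊗[F] K) : ∃ V : Submodule F K, FiniteDimensional F V ∧
    ∀ (m : ℕ) (b : Fin m → K), V ≤ Submodule.span F (Set.range b) →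
      ∃ a : Fin m → Ω, mu ι t = ∑ j, algebraMap Ω L (a j) * ι (b j) := by
  induction t with
  | zero => exact ⟨⊥, inferInstance, fun m b _ => ⟨0, by simp⟩⟩
  | add s t hs ht =>
    obtain ⟨V, hV, h1⟩ := hs
    obtain ⟨V', hV', h2⟩ := ht
    refine ⟨V ⊔ V', inferInstance, fun m b hb => ?_⟩
    obtain ⟨a, ha⟩ := h1 m b (le_sup_left.trans hb)
    obtain ⟨a', ha'⟩ := h2 m b (le_sup_right.trans hb)
    refine ⟨a + a', ?_⟩
    rw [map_add, ha, ha', ← Finset.sum_add_distrib]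
    exact Finset.sum_congr rfl fun j _ => by rw [Pi.add_apply, map_add, add_mul]
  | tmul c f =>
    refine ⟨Submodule.span F {f}, inferInstance, fun m b hb => ?_⟩
    have h1 := hb (Submodule.mem_span_singleton_self f)
    rw [← Fintype.range_linearCombination, LinearMap.mem_range] at h1
    obtain ⟨d, hd⟩ := h1
    rw [Fintype.linearCombination_apply] at hd
    refine ⟨fun j => c * algebraMap F Ω (d j), ?_⟩
    rw [mu_tmul, ← hd, map_sum, Finset.mul_sum]
    refine Finset.sum_congr rfl fun j _ => ?_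
    rw [map_smul, Algebra.smul_def, map_mul, ← IsScalarTower.algebraMap_apply, mul_assoc]

end ce

section on

variable {C M k K : Type*} [Field C] [Field M] [Algebra C M] [Field k] [Field K] [Algebra k K]
  {vC : Valuation C ℝ≥0} {ρC : C → k} {W : Valuation M ℝ≥0} {ρ : M → K}

/-- orthonormal family -/
def ON (vC : Valuation C ℝ≥0) (W : Valuation M ℝ≥0) {m : ℕ} (b : Fin m → M) : Prop :=
  (∀ i, W (b i) ≤ 1) ∧ ∀ (c : Fin m → C) i, vC (c i) ≤ W (∑ j, c j • b j)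

theorem exists_ON (hO : Orth vC W) (V : Submodule C M) (hV : FiniteDimensional C V) :
    ∃ (m : ℕ) (b : Fin m → M), ON vC W b ∧ V ≤ Submodule.span C (Set.range b) := by
  obtain ⟨m, b, -, h2, h3, h4⟩ := hO V hV
  exact ⟨m, b, ⟨h3, h4⟩, h2⟩

theorem ON.li {m : ℕ} {b : Fin m → M} (hb : ON vC W b) : LinearIndependent C b := by
  rw [Fintype.linearIndependent_iff]
  intro c hc i
  have h1 := hb.2 c i
  rw [hc, map_zero] at h1
  exact (Valuation.zero_iff vC).mp (le_antisymm h1 zero_le)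

theorem res_comb (h : Red vC ρC W ρ) {m : ℕ} {b : Fin m → M} (hb : ∀ i, W (b i) ≤ 1)
    {c : Fin m → C} (hc : ∀ i, vC (c i) ≤ 1) :
    W (∑ j, c j • b j) ≤ 1 ∧ ρ (∑ j, c j • b j) = ∑ j, ρC (c j) • ρ (b j) := by
  have hw1 : ∀ j, W (c j • b j) ≤ 1 := fun j => by
    rw [Algebra.smul_def, map_mul, h.norm]; exact mul_le_one' (hc j) (hb j)
  refine ⟨Valuation.map_sum_le _ fun j _ => hw1 j, ?_⟩
  rw [h.res.sum _ _ fun j _ => hw1 j]
  refine Finset.sum_congr rfl fun j _ => ?_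
  rw [Algebra.smul_def, h.res.mul _ _ (by rw [h.norm]; exact hc j) (hb j), h.comp _ (hc j),
    ← Algebra.smul_def]

theorem ON.li_res (h : Red vC ρC W ρ) {m : ℕ} {b : Fin m → M} (hb : ON vC W b) :
    LinearIndependent k fun i => ρ (b i) := by
  rw [Fintype.linearIndependent_iff]
  intro r hr i
  choose c hc1 hc2 using fun i => h.resC.surj (r i)
  obtain ⟨h1, h2⟩ := res_comb h hb.1 hc1
  simp only [hc2] at h2
  rw [hr, h.res.zero_iff _ h1] at h2
  rw [← hc2 i, h.resC.zero_iff _ (hc1 i)]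
  exact lt_of_le_of_lt (hb.2 c i) h2

end on

section bc

variable {C E M N k Ω K L : Type*} [Field C] [Field E] [Algebra C E] [Field M] [Algebra C M]
  [Field N] [Algebra E N] [Algebra C N] [IsScalarTower C E N]
  [Field k] [Field Ω] [Algebra k Ω] [Field K] [Algebra k K] [Field L] [Algebra Ω L] [Algebra k L]
  [IsScalarTower k Ω L]

/-- the data of a base change -/
structure BC (vC : Valuation C ℝ≥0) (ρC : C → k) (W : Valuation M ℝ≥0) (ρ : M → K)
    (vE : Valuation E ℝ≥0) (ρE : E → Ω) (ι' : M →ₐ[C] N) (ι : K →ₐ[k] L) : Prop where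
  rd : Red vC ρC W ρ
  orth : Orth vC W
  resE : IsRes vE ρE
  vE_c : ∀ c, vE (algebraMap C E c) = vC c
  ρE_c : ∀ c, vC c ≤ 1 → ρE (algebraMap C E c) = algebraMap k Ω (ρC c)
  ce' : IsCE E ι'
  ce : IsCE Ω ι

/-- the graph of the reduction map on `O_E ⊗ O_M` -/
inductive Rs (W : Valuation M ℝ≥0) (ρ : M → K) (vE : Valuation E ℝ≥0) (ρE : E → Ω)
    (ι' : M →ₐ[C] N) (ι : K →ₐ[k] L) : N → L → Prop
  | zero : Rs W ρ vE ρE ι' ι 0 0
  | step (a : E) (f : M) (x : N) (y : L) : vE a ≤ 1 → W f ≤ 1 → Rs W ρ vE ρE ι' ι x y →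
      Rs W ρ vE ρE ι' ι (algebraMap E N a * ι' f + x) (algebraMap Ω L (ρE a) * ι (ρ f) + y)

variable {vC : Valuation C ℝ≥0} {ρC : C → k} {W : Valuation M ℝ≥0} {ρ : M → K}
  {vE : Valuation E ℝ≥0} {ρE : E → Ω} {ι' : M →ₐ[C] N} {ι : K →ₐ[k] L}

local notation "R" => Rs W ρ vE ρE ι' ι

theorem Rs.cast {x x' : N} {y y' : L} (h : R x y) (hx : x = x') (hy : y = y') : R x' y' :=
  hx ▸ hy ▸ h

theorem Rs.add {x x' : N} {y y' : L} (h : R x y) (h' : R x' y') : R (x + x') (y + y') := by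
  induction h with
  | zero => exact h'.cast (zero_add _).symm (zero_add _).symm
  | step a f x y ha hf _ ih =>
    exact (Rs.step a f _ _ ha hf ih).cast (add_assoc _ _ _).symm (add_assoc _ _ _).symm

theorem Rs.gen {a : E} {f : M} (ha : vE a ≤ 1) (hf : W f ≤ 1) :
    R (algebraMap E N a * ι' f) (algebraMap Ω L (ρE a) * ι (ρ f)) :=
  (Rs.step a f 0 0 ha hf Rs.zero).cast (add_zero _) (add_zero _)

theorem Rs.sum {κ : Type*} (s : Finset κ) (x : κ → N) (y : κ → L) (h : ∀ i ∈ s, R (x i) (y i)) :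
    R (∑ i ∈ s, x i) (∑ i ∈ s, y i) := by
  classical
  induction s using Finset.induction_on with
  | empty => simpa using Rs.zero
  | insert i s hi ih =>
    rw [Finset.sum_insert hi, Finset.sum_insert hi]
    exact (h i (Finset.mem_insert_self _ _)).add
      (ih fun j hj => h j (Finset.mem_insert_of_mem hj))

namespace BC

variable (h : BC vC ρC W ρ vE ρE ι' ι)

include h

theorem gen_mul {a : E} {f : M} (ha : vE a ≤ 1) (hf : W f ≤ 1) {x : N} {y : L} (hx : R x y) :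
    R (algebraMap E N a * ι' f * x) (algebraMap Ω L (ρE a) * ι (ρ f) * y) := by
  induction hx with
  | zero => exact Rs.zero.cast (mul_zero _).symm (mul_zero _).symm
  | step a' f' x y ha' hf' _ ih =>
    refine (Rs.step (a * a') (f * f') _ _ (by rw [map_mul]; exact mul_le_one' ha ha')
      (by rw [map_mul]; exact mul_le_one' hf hf') ih).cast ?_ ?_
    · rw [map_mul, map_mul]; ring
    · rw [h.resE.mul _ _ ha ha', h.rd.res.mul _ _ hf hf', map_mul, map_mul]; ring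

theorem mul {x x' : N} {y y' : L} (hx : R x y) (hx' : R x' y') : R (x * x') (y * y') := by
  induction hx with
  | zero => exact Rs.zero.cast (zero_mul _).symm (zero_mul _).symm
  | step a f x y ha hf _ ih =>
    exact ((h.gen_mul ha hf hx').add ih).cast (add_mul _ _ _).symm (add_mul _ _ _).symm

theorem const {a : E} (ha : vE a ≤ 1) : R (algebraMap E N a) (algebraMap Ω L (ρE a)) :=
  (Rs.gen (f := 1) ha (by simp)).cast (by simp) (by simp [h.rd.res.one])

theorem iota {f : M} (hf : W f ≤ 1) : R (ι' f) (ι (ρ f)) :=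
  (Rs.gen (a := 1) (by simp) hf).cast (by simp) (by simp [h.resE.one])

theorem one : R 1 1 := (h.const (a := 1) (by simp)).cast (by simp) (by simp [h.resE.one])

theorem neg {x : N} {y : L} (hx : R x y) : R (-x) (-y) := by
  refine (h.mul (h.const (a := -1) (by simp)) hx).cast (by simp) ?_
  rw [h.resE.neg (by simp), h.resE.one]
  simp

theorem nf {x : N} {y : L} (hx : R x y) : ∃ V : Submodule C M, FiniteDimensional C V ∧
    ∀ (m : ℕ) (b : Fin m → M), ON vC W b → V ≤ Submodule.span C (Set.range b) →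
      ∃ a : Fin m → E, (∀ i, vE (a i) ≤ 1) ∧ x = ∑ j, algebraMap E N (a j) * ι' (b j) ∧
        y = ∑ j, algebraMap Ω L (ρE (a j)) * ι (ρ (b j)) := by
  induction hx with
  | zero => exact ⟨⊥, inferInstance, fun m b _ _ => ⟨0, by simp, by simp, by simp [h.resE.zero]⟩⟩
  | step a f x y ha hf _ ih =>
    obtain ⟨V, hV, h1⟩ := ih
    refine ⟨V ⊔ Submodule.span C {f}, inferInstance, fun m b hb hle => ?_⟩
    obtain ⟨a', ha1, ha2, ha3⟩ := h1 m b hb (le_sup_left.trans hle)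
    have h2 := (le_sup_right.trans hle) (Submodule.mem_span_singleton_self f)
    rw [← Fintype.range_linearCombination, LinearMap.mem_range] at h2
    obtain ⟨d, hd⟩ := h2
    rw [Fintype.linearCombination_apply] at hd
    have hd1 : ∀ j, vC (d j) ≤ 1 := fun j => (hb.2 d j).trans (by rw [hd]; exact hf)
    have hd2 : ∀ j, vE (algebraMap C E (d j)) ≤ 1 := fun j => by rw [h.vE_c]; exact hd1 j
    have hd3 : ∀ j, vE (a * algebraMap C E (d j)) ≤ 1 := fun j => by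
      rw [map_mul]; exact mul_le_one' ha (hd2 j)
    refine ⟨fun j => a * algebraMap C E (d j) + a' j, fun j =>
      (Valuation.map_add _ _ _).trans (max_le (hd3 j) (ha1 j)), ?_, ?_⟩
    · rw [ha2, ← hd, map_sum, Finset.mul_sum, ← Finset.sum_add_distrib]
      refine Finset.sum_congr rfl fun j _ => ?_
      rw [map_smul, Algebra.smul_def, map_add, map_mul, ← IsScalarTower.algebraMap_apply]
      ring
    · rw [ha3, ← hd, (res_comb h.rd hb.1 hd1).2, map_sum, Finset.mul_sum, ← Finset.sum_add_distrib]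
      refine Finset.sum_congr rfl fun j _ => ?_
      rw [map_smul, Algebra.smul_def, h.resE.add _ _ (hd3 j) (ha1 j), h.resE.mul _ _ ha (hd2 j),
        h.ρE_c _ (hd1 j), map_add, map_mul, ← IsScalarTower.algebraMap_apply]
      ring

theorem eq_zero {y : L} (hy : R 0 y) : y = 0 := by
  obtain ⟨V, hV, h1⟩ := h.nf hy
  obtain ⟨m, b, hb, hle⟩ := exists_ON h.orth V hV
  obtain ⟨a, -, ha2, ha3⟩ := h1 m b hb hle
  have h2 := ce_indep h.ce' hb.li a ha2.symm
  rw [ha3, h2]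
  simp [h.resE.zero]

theorem unique {x : N} {y y' : L} (hy : R x y) (hy' : R x y') : y = y' :=
  sub_eq_zero.mp (h.eq_zero ((hy.add (h.neg hy')).cast (add_neg_cancel x) (sub_eq_add_neg _ _).symm))

theorem ne_zero {x : N} {y : L} (hx : R x y) (hy : y ≠ 0) : x ≠ 0 := by
  rintro rfl
  exact hy (h.eq_zero hx)

/-- a combination of an orthonormal family is its largest coefficient times a unit -/
theorem comb {m : ℕ} {b : Fin m → M} (hb : ON vC W b) (a : Fin m → E) {i : Fin m}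
    (hi : ∀ j, vE (a j) ≤ vE (a i)) (h0 : a i ≠ 0) :
    ∃ x y, R x y ∧ y ≠ 0 ∧ ∑ j, algebraMap E N (a j) * ι' (b j) = algebraMap E N (a i) * x := by
  have hpos : 0 < vE (a i) := by rwa [Valuation.pos_iff]
  have h1 : ∀ j, vE (a j / a i) ≤ 1 := fun j => by
    rw [map_div₀]; exact div_le_one_of_le₀ (hi j) zero_le
  refine ⟨_, _, Rs.sum Finset.univ _ _ fun j _ => Rs.gen (h1 j) (hb.1 j), ?_, ?_⟩
  · intro h2
    have h3 := congrFun (ce_indep h.ce (hb.li_res h.rd) _ h2) i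
    rw [div_self h0, h.resE.one] at h3
    exact one_ne_zero h3
  · rw [Finset.mul_sum]
    refine Finset.sum_congr rfl fun j _ => ?_
    rw [← mul_assoc, ← map_mul, mul_div_cancel₀ _ h0]

theorem exists_unit {t : E ⊗[C] M} (ht : t ≠ 0) :
    ∃ (a : E) (x : N) (y : L), a ≠ 0 ∧ R x y ∧ y ≠ 0 ∧ mu ι' t = algebraMap E N a * x := by
  obtain ⟨V, hV, h1⟩ := mu_rep ι' t
  obtain ⟨m, b, hb, hle⟩ := exists_ON h.orth V hV
  obtain ⟨a, ha⟩ := h1 m b hle
  have h2 : ∃ j, a j ≠ 0 := by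
    by_contra hcon
    push Not at hcon
    apply h.ce'.ne_zero ht
    rw [ha]
    simp [hcon]
  obtain ⟨j, hj⟩ := h2
  obtain ⟨i, -, hi⟩ := Finset.exists_max_image Finset.univ (fun j => vE (a j))
    ⟨j, Finset.mem_univ _⟩
  have h0 : a i ≠ 0 := by
    intro h3
    have h4 := hi j (Finset.mem_univ _)
    rw [h3, map_zero] at h4
    exact hj ((Valuation.zero_iff vE).mp (le_antisymm h4 zero_le))
  obtain ⟨x, y, h5, h6, h7⟩ := h.comb hb a (fun j => hi j (Finset.mem_univ _)) h0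
  exact ⟨a i, x, y, h0, h5, h6, ha.trans h7⟩

end BC

/-- normal form: a constant times a quotient of units -/
def Nf (W : Valuation M ℝ≥0) (ρ : M → K) (vE : Valuation E ℝ≥0) (ρE : E → Ω)
    (ι' : M →ₐ[C] N) (ι : K →ₐ[k] L) (f : N) (a : E) (y : L) : Prop :=
  ∃ x₁ y₁ x₂ y₂, Rs W ρ vE ρE ι' ι x₁ y₁ ∧ Rs W ρ vE ρE ι' ι x₂ y₂ ∧ y₁ ≠ 0 ∧ y₂ ≠ 0 ∧
    f * x₂ = algebraMap E N a * x₁ ∧ y = y₁ / y₂

local notation "NF" => Nf W ρ vE ρE ι' ι

namespace BC

variable (h : BC vC ρC W ρ vE ρE ι' ι)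

include h

theorem exists_nf (f : N) : ∃ p : E × L, NF f p.1 p.2 := by
  by_cases hf : f = 0
  · exact ⟨(0, 1 / 1), 1, 1, 1, 1, h.one, h.one, one_ne_zero, one_ne_zero, by simp [hf], rfl⟩
  obtain ⟨s, t, ht, hst⟩ := h.ce'.frac f
  have hs : s ≠ 0 := by
    rintro rfl
    rw [map_zero] at hst
    exact mul_ne_zero hf (h.ce'.ne_zero ht) hst
  obtain ⟨a₁, x₁, y₁, ha₁, h1, hy₁, e₁⟩ := h.exists_unit hs
  obtain ⟨a₂, x₂, y₂, ha₂, h2, hy₂, e₂⟩ := h.exists_unit ht
  refine ⟨(a₁ / a₂, y₁ / y₂), x₁, y₁, x₂, y₂, h1, h2, hy₁, hy₂, ?_, rfl⟩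
  have h3 : algebraMap E N a₂ ≠ 0 := by simpa using ha₂
  rw [e₁, e₂] at hst
  show f * x₂ = algebraMap E N (a₁ / a₂) * x₁
  rw [map_div₀, div_mul_eq_mul_div, eq_div_iff h3, ← hst]
  ring

theorem le_of_nf {f : N} {a₀ a : E} {y₀ yz y₂ : L} {z x₂ : N} (h0 : NF f a₀ y₀) (hz : R z yz)
    (h2 : R x₂ y₂) (hy : y₂ ≠ 0) (e : f * x₂ = algebraMap E N a * z) :
    vE a₀ ≤ vE a ∧
      (vE a ≤ 1 → algebraMap Ω L (ρE a₀) * y₀ = algebraMap Ω L (ρE a) * yz / y₂) := by
  obtain ⟨u₁, v₁, u₂, v₂, hu₁, hu₂, hv₁, hv₂, e₀, rfl⟩ := h0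
  have key : algebraMap E N a₀ * (u₁ * x₂) = algebraMap E N a * (z * u₂) := by
    rw [← mul_assoc, ← e₀, ← mul_assoc, ← e]; ring
  have hle : vE a₀ ≤ vE a := by
    by_contra hlt
    push Not at hlt
    have ha₀ : a₀ ≠ 0 := by
      rintro rfl
      rw [map_zero] at hlt
      exact not_lt_zero hlt
    have hpos : 0 < vE a₀ := by rwa [Valuation.pos_iff]
    have h3 : vE (a / a₀) < 1 := by rw [map_div₀]; exact (div_lt_one₀ hpos).mpr hlt
    have h4 := h.mul (h.const h3.le) (h.mul hz hu₂)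
    have h5 : algebraMap E N (a / a₀) * (z * u₂) = u₁ * x₂ := by
      have h6 : algebraMap E N a₀ ≠ 0 := by simpa using ha₀
      rw [map_div₀, div_mul_eq_mul_div, div_eq_iff h6, ← key, mul_comm]
    rw [h5, (h.resE.zero_iff _ h3.le).mpr h3, map_zero, zero_mul] at h4
    exact mul_ne_zero hv₁ hy (h.unique (h.mul hu₁ h2) h4)
  refine ⟨hle, fun ha => ?_⟩
  have h3 := h.mul (h.const (hle.trans ha)) (h.mul hu₁ h2)
  rw [key] at h3
  have h4 := h.unique h3 (h.mul (h.const ha) (h.mul hz hu₂))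
  rw [eq_div_iff hy, ← mul_div_assoc, div_mul_eq_mul_div, div_eq_iff hv₂, mul_assoc, h4, mul_assoc]

/-- the constant of the chosen normal form -/
noncomputable def cf (f : N) : E := (h.exists_nf f).choose.1

/-- the residue map of the base change -/
noncomputable def ρ' (f : N) : L := algebraMap Ω L (ρE (h.cf f)) * (h.exists_nf f).choose.2

theorem nf_cf (f : N) : NF f (h.cf f) (h.exists_nf f).choose.2 := (h.exists_nf f).choose_spec

theorem cf_le {f : N} {a : E} {yz y₂ : L} {z x₂ : N} (hz : R z yz)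
    (h2 : R x₂ y₂) (hy : y₂ ≠ 0) (e : f * x₂ = algebraMap E N a * z) :
    vE (h.cf f) ≤ vE a ∧ (vE a ≤ 1 → h.ρ' f = algebraMap Ω L (ρE a) * yz / y₂) :=
  h.le_of_nf (h.nf_cf f) hz h2 hy e

theorem cf_eq {f : N} {a : E} {y : L} (h0 : NF f a y) : vE (h.cf f) = vE a := by
  apply le_antisymm
  · obtain ⟨u₁, v₁, u₂, v₂, hu₁, hu₂, hv₁, hv₂, e₀, rfl⟩ := h0
    exact (h.cf_le hu₁ hu₂ hv₂ e₀).1
  · obtain ⟨u₁, v₁, u₂, v₂, hu₁, hu₂, hv₁, hv₂, e₀, -⟩ := h.nf_cf f
    exact (h.le_of_nf h0 hu₁ hu₂ hv₂ e₀).1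

theorem nf_const (a : E) : NF (algebraMap E N a) a (1 / 1) :=
  ⟨1, 1, 1, 1, h.one, h.one, one_ne_zero, one_ne_zero, rfl, rfl⟩

theorem nf_mul {f f' : N} {a a' : E} {y y' : L} (h0 : NF f a y) (h1 : NF f' a' y') :
    NF (f * f') (a * a') (y * y') := by
  obtain ⟨u₁, v₁, u₂, v₂, hu₁, hu₂, hv₁, hv₂, e₀, rfl⟩ := h0
  obtain ⟨u₁', v₁', u₂', v₂', hu₁', hu₂', hv₁', hv₂', e₀', rfl⟩ := h1
  refine ⟨_, _, _, _, h.mul hu₁ hu₁', h.mul hu₂ hu₂', mul_ne_zero hv₁ hv₁', mul_ne_zero hv₂ hv₂',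
    ?_, div_mul_div_comm _ _ _ _⟩
  rw [map_mul, mul_mul_mul_comm, e₀, e₀']
  ring

theorem cf_add_le {f f' : N} (hle : vE (h.cf f') ≤ vE (h.cf f)) :
    vE (h.cf (f + f')) ≤ vE (h.cf f) := by
  obtain ⟨u₁, v₁, u₂, v₂, hu₁, hu₂, hv₁, hv₂, e₀, -⟩ := h.nf_cf f
  obtain ⟨u₁', v₁', u₂', v₂', hu₁', hu₂', hv₁', hv₂', e₀', -⟩ := h.nf_cf f'
  have h1 : vE (h.cf f' / h.cf f) ≤ 1 := by
    rw [map_div₀]; exact div_le_one_of_le₀ hle zero_le
  have h2 : h.cf f' = h.cf f * (h.cf f' / h.cf f) := by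
    by_cases h0 : h.cf f = 0
    · rw [h0, map_zero] at hle
      rw [h0, zero_mul]
      exact (Valuation.zero_iff vE).mp (le_antisymm hle zero_le)
    · rw [mul_div_cancel₀ _ h0]
  refine (h.cf_le ((h.mul hu₁ hu₂').add (h.mul (h.const h1) (h.mul hu₁' hu₂))) (h.mul hu₂ hu₂')
    (mul_ne_zero hv₂ hv₂') ?_).1
  rw [mul_add, ← mul_assoc (algebraMap E N (h.cf f)) (algebraMap E N _), ← map_mul, ← h2,
    ← mul_assoc (algebraMap E N (h.cf f')), ← e₀', ← mul_assoc (algebraMap E N (h.cf f)), ← e₀]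
  ring

/-- the norm of the base change -/
noncomputable def W' : Valuation N ℝ≥0 where
  toFun f := vE (h.cf f)
  map_zero' := by
    have h1 := h.cf_eq (h.nf_const 0)
    rwa [map_zero, map_zero] at h1
  map_one' := by
    have h1 := h.cf_eq (h.nf_const 1)
    rwa [map_one, map_one] at h1
  map_mul' f f' := by
    rw [h.cf_eq (h.nf_mul (h.nf_cf f) (h.nf_cf f')), map_mul]
  map_add_le_max' f f' := by
    rcases le_total (vE (h.cf f')) (vE (h.cf f)) with h1 | h1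
    · exact (h.cf_add_le h1).trans (le_max_left _ _)
    · rw [add_comm]
      exact (h.cf_add_le h1).trans (le_max_right _ _)

theorem W'_apply (f : N) : h.W' f = vE (h.cf f) := rfl

theorem of_Rs {x : N} {y : L} (hx : R x y) : h.W' x ≤ 1 ∧ h.ρ' x = y := by
  obtain ⟨h1, h2⟩ := h.cf_le (f := x) (a := 1) hx h.one one_ne_zero (by simp)
  rw [map_one] at h1 h2
  refine ⟨h1, ?_⟩
  rw [h2 le_rfl, h.resE.one]
  simp

theorem isRes : IsRes h.W' h.ρ' := by
  refine ⟨fun f f' hf hf' => ?_, fun f f' hf hf' => ?_, (h.of_Rs h.one).2, fun f hf => ?_,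
    fun y => ?_⟩
  · obtain ⟨u₁, v₁, u₂, v₂, hu₁, hu₂, hv₁, hv₂, e₀, -⟩ := h.nf_cf f
    obtain ⟨u₁', v₁', u₂', v₂', hu₁', hu₂', hv₁', hv₂', e₀', -⟩ := h.nf_cf f'
    have h1 := (h.cf_le (f := f + f') (a := 1) ((h.mul (h.const hf) (h.mul hu₁ hu₂')).add
      (h.mul (h.const hf') (h.mul hu₁' hu₂))) (h.mul hu₂ hu₂') (mul_ne_zero hv₂ hv₂') (by
        rw [← mul_assoc (algebraMap E N (h.cf f')), ← e₀', ← mul_assoc (algebraMap E N (h.cf f)),
          ← e₀, map_one]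
        ring)).2 (by simp)
    rw [h1, (h.cf_le hu₁ hu₂ hv₂ e₀).2 hf, (h.cf_le hu₁' hu₂' hv₂' e₀').2 hf', h.resE.one]
    field_simp
    simp only [map_one]
    ring
  · obtain ⟨u₁, v₁, u₂, v₂, hu₁, hu₂, hv₁, hv₂, e₀, -⟩ := h.nf_cf f
    obtain ⟨u₁', v₁', u₂', v₂', hu₁', hu₂', hv₁', hv₂', e₀', -⟩ := h.nf_cf f'
    have h1 := (h.cf_le (f := f * f') (a := h.cf f * h.cf f') (h.mul hu₁ hu₁')
      (h.mul hu₂ hu₂') (mul_ne_zero hv₂ hv₂') (by
        rw [map_mul, mul_mul_mul_comm, e₀, e₀']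
        ring)).2 (by rw [map_mul]; exact mul_le_one' hf hf')
    rw [h1, (h.cf_le hu₁ hu₂ hv₂ e₀).2 hf, (h.cf_le hu₁' hu₂' hv₂' e₀').2 hf',
      h.resE.mul _ _ hf hf', map_mul]
    field_simp
  · obtain ⟨u₁, v₁, u₂, v₂, hu₁, hu₂, hv₁, hv₂, e₀, -⟩ := h.nf_cf f
    rw [(h.cf_le hu₁ hu₂ hv₂ e₀).2 hf, h.W'_apply, ← h.resE.zero_iff _ hf]
    simp [hv₁, hv₂]
  · have key : ∀ t : Ω ⊗[k] K, ∃ x, R x (mu ι t) := by
      intro t
      induction t with
      | zero => exact ⟨0, Rs.zero.cast rfl (map_zero _).symm⟩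
      | add s t hs ht =>
        obtain ⟨x, hx⟩ := hs
        obtain ⟨x', hx'⟩ := ht
        exact ⟨x + x', (hx.add hx').cast rfl (map_add _ _ _).symm⟩
      | tmul c g =>
        obtain ⟨a, ha, rfl⟩ := h.resE.surj c
        obtain ⟨f, hf, rfl⟩ := h.rd.res.surj g
        exact ⟨_, (Rs.gen ha hf).cast rfl (mu_tmul _ _ _).symm⟩
    obtain ⟨s, t, ht, hst⟩ := h.ce.frac y
    obtain ⟨x₁, h1⟩ := key s
    obtain ⟨x₂, h2⟩ := key t
    have h3 := h.ce.ne_zero ht
    have h4 := h.ne_zero h2 h3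
    obtain ⟨h5, h6⟩ := h.cf_le (f := x₁ / x₂) (a := 1) h1 h2 h3 (by
      rw [div_mul_cancel₀ _ h4, map_one, one_mul])
    rw [map_one] at h5 h6
    refine ⟨x₁ / x₂, h5, ?_⟩
    rw [h6 le_rfl, h.resE.one, map_one, one_mul, div_eq_iff h3, hst]

theorem red : Red vE ρE h.W' h.ρ' :=
  ⟨h.resE, h.isRes, fun c => h.cf_eq (h.nf_const c), fun c hc => (h.of_Rs (h.const hc)).2,
    fun f _ => ⟨h.cf f, rfl⟩⟩

theorem ρ'_iota {f : M} (hf : W f ≤ 1) : h.ρ' (ι' f) = ι (ρ f) := (h.of_Rs (h.iota hf)).2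

theorem W'_of_Rs {x : N} {y : L} (hx : R x y) (hy : y ≠ 0) : h.W' x = 1 := by
  obtain ⟨h1, h2⟩ := h.of_Rs hx
  exact (h.isRes.ne_zero_iff h1).mp (by rwa [h2])

theorem W'_iota (f : M) : h.W' (ι' f) = W f := by
  by_cases hf : f = 0
  · simp [hf]
  obtain ⟨c, hc, h1, h2⟩ := h.rd.normalise hf
  have h3 := h.W'_of_Rs (h.iota h2.le) (by
    rw [map_ne_zero]; exact (h.rd.res.ne_zero_iff h2.le).mpr h2)
  rw [map_mul, AlgHom.commutes, IsScalarTower.algebraMap_apply C E N, map_mul, h.red.norm, h.vE_c,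
    map_inv₀, mul_inv_eq_one₀ (by simpa using hc)] at h3
  rw [h3, h1]

/-- orthonormal families stay orthonormal -/
theorem le_W' {m : ℕ} {b : Fin m → M} (hb : ON vC W b) (a : Fin m → E) (i : Fin m) :
    vE (a i) ≤ h.W' (∑ j, algebraMap E N (a j) * ι' (b j)) := by
  obtain ⟨i₀, -, hi⟩ := Finset.exists_max_image Finset.univ (fun j => vE (a j))
    ⟨i, Finset.mem_univ _⟩
  refine (hi i (Finset.mem_univ _)).trans ?_
  by_cases h0 : a i₀ = 0
  · rw [h0, map_zero]; exact zero_le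
  obtain ⟨x, y, h1, h2, h3⟩ := h.comb hb a (fun j => hi j (Finset.mem_univ _)) h0
  rw [h3, map_mul, h.W'_of_Rs h1 h2, mul_one, h.red.norm]

/-- common denominators -/
theorem exists_den (S : Finset N) : ∃ (x : N) (V : Submodule C M), h.W' x = 1 ∧
    (∃ t, x = mu (Ω := E) ι' t) ∧ FiniteDimensional C V ∧
    ∀ (m : ℕ) (b : Fin m → M), V ≤ Submodule.span C (Set.range b) →
      ∀ f ∈ S, ∃ a : Fin m → E, f * x = ∑ j, algebraMap E N (a j) * ι' (b j) := by
  classical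
  have key : ∃ t : E ⊗[C] M, t ≠ 0 ∧ ∀ f ∈ S, ∃ s : E ⊗[C] M, f * mu ι' t = mu ι' s := by
    induction S using Finset.induction_on with
    | empty => exact ⟨1, fun h0 => by
        have := congrArg (mu (Ω := E) ι') h0
        simp at this, by simp⟩
    | insert g S _ ih =>
      obtain ⟨t, ht, h1⟩ := ih
      obtain ⟨s', t', ht', h2⟩ := h.ce'.frac g
      refine ⟨t * t', fun h0 => ?_, fun f hf => ?_⟩
      · have := congrArg (mu (Ω := E) ι') h0
        rw [map_mul, map_zero] at this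
        exact mul_ne_zero (h.ce'.ne_zero ht) (h.ce'.ne_zero ht') this
      · rcases Finset.mem_insert.mp hf with rfl | hf
        · exact ⟨s' * t, by rw [map_mul, map_mul, ← h2]; ring⟩
        · obtain ⟨s, hs⟩ := h1 f hf
          exact ⟨s * t', by rw [map_mul, map_mul, ← hs]; ring⟩
  obtain ⟨t, ht, h1⟩ := key
  obtain ⟨a, x, y, ha, hx, hy, e⟩ := h.exists_unit ht
  have ha' : algebraMap E N a ≠ 0 := by simpa using ha
  have hx' : x = mu ι' (a⁻¹ • t) := by
    rw [map_smul, e, Algebra.smul_def, map_inv₀, inv_mul_cancel_left₀ ha']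
  have h2 : ∀ f : S, ∃ s : E ⊗[C] M, (f : N) * x = mu ι' s := by
    rintro ⟨f, hf⟩
    obtain ⟨s, hs⟩ := h1 f hf
    refine ⟨a⁻¹ • s, ?_⟩
    rw [hx', map_smul, map_smul, ← hs, mul_smul_comm]
  choose s hs using h2
  choose V hV h3 using fun f : S => mu_rep ι' (s f)
  refine ⟨x, ⨆ f, V f, h.W'_of_Rs hx hy, ⟨_, hx'⟩, inferInstance, fun m b hb f hf => ?_⟩
  obtain ⟨a', ha'⟩ := h3 ⟨f, hf⟩ m b ((le_iSup V ⟨f, hf⟩).trans hb)
  exact ⟨a', (hs ⟨f, hf⟩).trans ha'⟩

theorem orth' : Orth vE h.W' := by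
  intro U hU
  obtain ⟨S, hS⟩ := (Submodule.fg_iff_finiteDimensional U).mpr hU
  obtain ⟨x, V, hx, -, hV, h1⟩ := h.exists_den S
  obtain ⟨m, b, hb, hle⟩ := exists_ON h.orth V hV
  have hx0 : x ≠ 0 := by rintro rfl; simp at hx
  refine HasON.mono h.red.norm (V := Submodule.span E (Set.range fun j => ι' (b j) / x))
    ⟨m, fun j => ι' (b j) / x, fun j => Submodule.subset_span ⟨j, rfl⟩, le_rfl, fun j => ?_,
      fun c i => ?_⟩ ?_
  · rw [map_div₀, hx, div_one, h.W'_iota]; exact hb.1 j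
  · have h2 : ∑ j, c j • (ι' (b j) / x) = (∑ j, algebraMap E N (c j) * ι' (b j)) / x := by
      rw [Finset.sum_div]
      exact Finset.sum_congr rfl fun j _ => by rw [Algebra.smul_def, mul_div_assoc]
    rw [h2, map_div₀, hx, div_one]
    exact h.le_W' hb c i
  · rw [← hS, Submodule.span_le]
    intro f hf
    obtain ⟨a, ha⟩ := h1 m b hle f hf
    rw [← eq_div_iff hx0, Finset.sum_div] at ha
    rw [ha]
    refine Submodule.sum_mem _ fun j _ => ?_
    rw [mul_div_assoc, ← Algebra.smul_def]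
    exact Submodule.smul_mem _ _ (Submodule.subset_span ⟨j, rfl⟩)

/-- semilinear maps that are contractions on `E` and on `M` are contractions on tensors -/
theorem W'_map_le (s : E → E) (g : N →+* N) (hc : ∀ a, g (algebraMap E N a) = algebraMap E N (s a))
    (hs : ∀ a, vE (s a) ≤ vE a) (hg : ∀ f : M, ∃ f', g (ι' f) = ι' f' ∧ W f' ≤ W f)
    (t : E ⊗[C] M) : h.W' (g (mu ι' t)) ≤ h.W' (mu ι' t) := by
  obtain ⟨V, hV, h1⟩ := mu_rep ι' t
  obtain ⟨m, b, hb, hle⟩ := exists_ON h.orth V hV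
  obtain ⟨a, ha⟩ := h1 m b hle
  rw [ha, map_sum]
  refine Valuation.map_sum_le _ fun j _ => ?_
  obtain ⟨f', h2, h3⟩ := hg (b j)
  rw [map_mul, hc, h2, map_mul, h.red.norm, h.W'_iota]
  exact (mul_le_of_le_one_right' (h3.trans (hb.1 j))).trans ((hs _).trans (h.le_W' hb a j))

end BC

end bc

end Crest.Agent.T15.Id
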