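import Mathlib
import Crest.Agent.T15.IdWA_11
import Crest.Agent.T15.IdWB_11
import Crest.Agent.T15.FaDef_51
import Crest.Agent.R013.Tors15_235

/-!
# Row 15 (helper11): the characteristic zero wrapper for FAITH

* `BC.exists_good` : good reduction after base change; `BC.W'_SI`, `BC.sp_conP`, `BC.spPic_base`;
* `exists_SI` : semilinear automorphisms of a constant field extension;
* `BC.wr` : `Ψ = ∑ b i ∘ S i` kills the `n`-torsion ⇒ `sp (Ψ x) = n • c` with `c` invariant.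
-/

set_option autoImplicit false
set_option linter.all false

namespace Crest.Agent.T15.Id

open Module WithZero
open scoped NNReal TensorProduct
open Crest.Agent.R013.RR7_948 Crest.Agent.R013.RR8_948 Crest.Agent.R013.RR9_948
open Crest.Agent.R013.RR11_948 Crest.Agent.R013.RR12_948 Crest.Agent.R013.RR13_948
open Crest.Agent.R013.GR4_921 Crest.Agent.R013.GR5_921 Crest.Agent.R013.GR6_921
open Crest.Agent.R013.CE3_280 Crest.Agent.R013.CE5_280
open Crest.Agent.R013.PicD_398 Crest.Agent.R013.Frob1_914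
open Crest.Agent.T15.Disc (Good exists_good)

section ce

variable {F K Ω L : Type*} [Field F] [Field K] [Algebra F K] [Field Ω] [Algebra F Ω]
  [Field L] [Algebra Ω L] [Algebra F L] [IsScalarTower F Ω L] {ι : K →ₐ[F] L}

theorem ce_ext (h : IsCE Ω ι) {L' : Type*} [Field L'] {g g' : L →+* L'}
    (h1 : ∀ a, g (algebraMap Ω L a) = g' (algebraMap Ω L a)) (h2 : ∀ f, g (ι f) = g' (ι f))
    (x : L) : g x = g' x := by
  have key : ∀ t : Ω ⊗[F] K, g (mu ι t) = g' (mu ι t) := by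
    intro t
    induction t with
    | zero => simp
    | add s t hs ht => rw [map_add, map_add, map_add, hs, ht]
    | tmul c f => rw [mu_tmul, map_mul, map_mul, h1, h2]
  obtain ⟨s, t, ht, hst⟩ := h.frac x
  rw [← eq_div_iff (h.ne_zero ht)] at hst
  rw [hst, map_div₀, map_div₀, key, key]

theorem SI_s_const (e : SI Ω L Ω L) (he : ∀ f, e.f (ι f) = ι f) (c : F) :
    e.s (algebraMap F Ω c) = algebraMap F Ω c := by
  apply (algebraMap Ω L).injective
  rw [← e.comm, ← IsScalarTower.algebraMap_apply, ← ι.commutes, he]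

/-- semilinear isomorphisms of constant field extensions -/
theorem exists_SI {F' K' Ω' L' : Type*} [Field F'] [Field K'] [Algebra F' K'] [Field Ω']
    [Algebra F' Ω'] [Field L'] [Algebra Ω' L'] [Algebra F' L'] [IsScalarTower F' Ω' L']
    {ι' : K' →ₐ[F'] L'} (h : IsCE Ω ι) (h' : IsCE Ω' ι') (σ : Ω ≃+* Ω') (e0 : SI F K F' K')
    (hσ : ∀ c, σ (algebraMap F Ω c) = algebraMap F' Ω' (e0.s c)) :
    ∃ e : SI Ω L Ω' L', e.s = σ ∧ ∀ f, e.f (ι f) = ι' (e0.f f) := by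
  let φ : Ω ⊗[F] K →+* Ω' ⊗[F'] K' := Algebra.TensorProduct.mapRingHom (e0.s : F →+* F')
    (σ : Ω →+* Ω') (e0.f : K →+* K') (RingHom.ext hσ) (RingHom.ext e0.comm)
  have hσ' : ∀ c, σ.symm (algebraMap F' Ω' c) = algebraMap F Ω (e0.s.symm c) := fun c => by
    rw [RingEquiv.symm_apply_eq, hσ, RingEquiv.apply_symm_apply]
  let ψ : Ω' ⊗[F'] K' →+* Ω ⊗[F] K := Algebra.TensorProduct.mapRingHom (e0.s.symm : F' →+* F)
    (σ.symm : Ω' →+* Ω) (e0.f.symm : K' →+* K) (RingHom.ext hσ') (RingHom.ext e0.symm.comm)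
  have hφ : ∀ c f, φ (c ⊗ₜ f) = σ c ⊗ₜ e0.f f := fun c f =>
    Algebra.TensorProduct.mapRingHom_tmul _ _ _ _ _ c f
  have hψ : ∀ c f, ψ (c ⊗ₜ f) = σ.symm c ⊗ₜ e0.f.symm f := fun c f =>
    Algebra.TensorProduct.mapRingHom_tmul _ _ _ _ _ c f
  let θ : Ω ⊗[F] K ≃+* Ω' ⊗[F'] K' :=
    { φ with
      invFun := ψ
      left_inv := fun t => by
        change ψ (φ t) = t
        induction t with
        | zero => simp
        | add s t hs ht => rw [map_add, map_add, hs, ht]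
        | tmul c f => rw [hφ, hψ, RingEquiv.symm_apply_apply, RingEquiv.symm_apply_apply]
      right_inv := fun t => by
        change φ (ψ t) = t
        induction t with
        | zero => simp
        | add s t hs ht => rw [map_add, map_add, hs, ht]
        | tmul c f => rw [hψ, hφ, RingEquiv.apply_symm_apply, RingEquiv.apply_symm_apply] }
  have hθ : ∀ c f, θ (c ⊗ₜ f) = σ c ⊗ₜ e0.f f := hφ
  letI : Algebra (Ω ⊗[F] K) L := (mu (Ω := Ω) ι).toRingHom.toAlgebra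
  letI : Algebra (Ω' ⊗[F'] K') L' := (mu (Ω := Ω') ι').toRingHom.toAlgebra
  have halg : ∀ t : Ω ⊗[F] K, algebraMap (Ω ⊗[F] K) L t = mu ι t := fun t => rfl
  have halg' : ∀ t : Ω' ⊗[F'] K', algebraMap (Ω' ⊗[F'] K') L' t = mu ι' t := fun t => rfl
  letI : CommRing (Ω ⊗[F] K) := inferInstance
  haveI : FaithfulSMul (Ω ⊗[F] K) L := (faithfulSMul_iff_algebraMap_injective _ _).mpr h.inj
  haveI : FaithfulSMul (Ω' ⊗[F'] K') L' := (faithfulSMul_iff_algebraMap_injective _ _).mpr h'.inj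
  haveI : IsFractionRing (Ω ⊗[F] K) L := IsFractionRing.of_field _ _ fun z => by
    obtain ⟨a, b, hb, hab⟩ := h.frac z
    exact ⟨a, b, by rw [halg, halg, eq_div_iff (h.ne_zero hb)]; exact hab⟩
  haveI : IsFractionRing (Ω' ⊗[F'] K') L' := IsFractionRing.of_field _ _ fun z => by
    obtain ⟨a, b, hb, hab⟩ := h'.frac z
    exact ⟨a, b, by rw [halg', halg', eq_div_iff (h'.ne_zero hb)]; exact hab⟩
  refine ⟨⟨σ, IsFractionRing.ringEquivOfRingEquiv (K := L) (L := L') θ, fun c => ?_⟩, rfl,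
    fun f => ?_⟩
  · have h1 := IsFractionRing.ringEquivOfRingEquiv_algebraMap (K := L) (L := L') θ (c ⊗ₜ 1)
    rw [hθ, halg, halg', mu_tmul, mu_tmul, map_one, map_one, map_one, mul_one, mul_one] at h1
    exact h1
  · have h1 := IsFractionRing.ringEquivOfRingEquiv_algebraMap (K := L) (L := L') θ (1 ⊗ₜ f)
    rw [hθ, halg, halg', mu_tmul, mu_tmul, map_one, map_one, map_one, one_mul, one_mul] at h1
    exact h1

end ce

section pic

variable {k K k' K' : Type*} [Field k] [Field K] [Algebra k K] [Field k'] [Field K'] [Algebra k' K']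
  [Algebra (RatFunc k) K] [IsScalarTower k (RatFunc k) K] [FiniteDimensional (RatFunc k) K]
  [Algebra.IsSeparable (RatFunc k) K]
  [Algebra (RatFunc k') K'] [IsScalarTower k' (RatFunc k') K'] [FiniteDimensional (RatFunc k') K']
  [Algebra.IsSeparable (RatFunc k') K']

omit [Algebra (RatFunc k) K] [IsScalarTower k (RatFunc k) K] [FiniteDimensional (RatFunc k) K]
  [Algebra.IsSeparable (RatFunc k) K]
  [Algebra (RatFunc k') K'] [IsScalarTower k' (RatFunc k') K'] [FiniteDimensional (RatFunc k') K']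
  [Algebra.IsSeparable (RatFunc k') K'] in
theorem pl_congr {e e' : SI k K k' K'} (h : ∀ f, e.f f = e'.f f) (P : Pl k K) :
    e.pl P = e'.pl P := by
  have h1 : e.f = e'.f := RingEquiv.ext h
  apply Pl.ext
  ext x
  rw [SI.pl_v, SI.pl_v, h1]

theorem pic_congr {e e' : SI k K k' K'} (h : ∀ f, e.f f = e'.f f) (x : Pic k K) :
    e.pic x = e'.pic x := by
  obtain ⟨D, rfl⟩ := cls_surjective x
  rw [SI.pic_cls, SI.pic_cls]
  congr 1
  induction D using Finsupp.induction_linear with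
  | zero => simp
  | add D E h1 h2 => simp only [map_add, h1, h2]
  | single P n => rw [SI.D_single, SI.D_single, pl_congr h]

theorem refl_pic (x : Pic k K) : (SI.refl k K).pic x = x := by
  obtain ⟨D, rfl⟩ := cls_surjective x
  rw [SI.pic_cls]
  congr 1
  ext P
  rw [SI.D_apply]
  rfl

theorem symm_pic_pic (e : SI k K k' K') (x : Pic k K) : e.symm.pic (e.pic x) = x := by
  obtain ⟨D, rfl⟩ := cls_surjective x
  rw [SI.pic_cls, SI.pic_cls, SI.symm_D_D]

theorem exists_div_pic [IsAlgClosed k] [CharZero k] {n : ℕ} (hn : 0 < n) {x : Pic k K}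
    (hx : degPic x = 0) : ∃ y : Pic k K, degPic y = 0 ∧ n • y = x := by
  obtain ⟨D, rfl⟩ := cls_surjective x
  obtain ⟨E, f, hf, hE, rfl⟩ := Crest.Agent.R013.Div6_280.exists_div hn hx
  exact ⟨cls E, hE, by rw [map_add, cls_divf hf, add_zero, map_nsmul]⟩

end pic

section base

variable {F K Ω L : Type*} [Field F] [IsAlgClosed F] [Field K] [Algebra F K]
  [Algebra (RatFunc F) K] [IsScalarTower F (RatFunc F) K] [FiniteDimensional (RatFunc F) K]
  [Algebra.IsSeparable (RatFunc F) K]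
  [Field Ω] [Algebra F Ω] [IsAlgClosed Ω]
  [Field L] [Algebra Ω L] [Algebra F L] [IsScalarTower F Ω L]
  [Algebra (RatFunc Ω) L] [IsScalarTower Ω (RatFunc Ω) L]
  [FiniteDimensional (RatFunc Ω) L] [Algebra.IsSeparable (RatFunc Ω) L] {ι : K →ₐ[F] L}

/-- constant classes -/
noncomputable def baseP (hι : IsCE Ω ι) : Pic F K →+ Pic Ω L :=
  QuotientAddGroup.map (Prin F K) (Prin Ω L) (base hι) (by
    rintro _ ⟨f, hf, rfl⟩
    exact ⟨ι f, by simpa using hf, (Crest.Agent.R013.Tors15_235.base_divf hι hf).symm⟩)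

theorem baseP_cls (hι : IsCE Ω ι) (D : Pl F K →₀ ℤ) : baseP hι (cls D) = cls (base hι D) := rfl

theorem degPic_baseP (hι : IsCE Ω ι) (x : Pic F K) : degPic (baseP hι x) = degPic x := by
  obtain ⟨D, rfl⟩ := cls_surjective x
  rw [baseP_cls, degPic_cls, degPic_cls, degD_base]

theorem pl_conP (hι : IsCE Ω ι) (e : SI Ω L Ω L) (e0 : SI F K F K)
    (he : ∀ f, e.f (ι f) = ι (e0.f f)) (P : Pl F K) : e.pl (conP hι P) = conP hι (e0.pl P) := by
  have h0 : ∀ f, (e.pl (conP hι P)).v (ι f) = (e0.pl P).v f := fun f => by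
    obtain ⟨f, rfl⟩ := e0.f.surjective f
    rw [← he, SI.pl_v_apply, SI.pl_v_apply, (conP_Over hι P).v_iota hι]
  exact Over.unique hι ⟨fun f hf => by rwa [h0], fun f hf => by rwa [h0]⟩ (conP_Over hι _)

theorem pic_baseP (hι : IsCE Ω ι) (e : SI Ω L Ω L) (e0 : SI F K F K)
    (he : ∀ f, e.f (ι f) = ι (e0.f f)) (x : Pic F K) : e.pic (baseP hι x) = baseP hι (e0.pic x) := by
  obtain ⟨D, rfl⟩ := cls_surjective x
  rw [baseP_cls, SI.pic_cls, SI.pic_cls, baseP_cls]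
  congr 1
  induction D using Finsupp.induction_linear with
  | zero => simp
  | add D E h1 h2 => simp only [map_add, h1, h2]
  | single P n => rw [base_single, SI.D_single, SI.D_single, base_single, pl_conP hι e e0 he]

/-- torsion classes are constant -/
theorem exists_baseP_of_torsion [CharZero F] (hι : IsCE Ω ι) (hx : xK Ω L = ι (xK F K)) {n : ℕ}
    (hn : 0 < n) {y : Pic Ω L} (hy : n • y = 0) : ∃ y0 : Pic F K, n • y0 = 0 ∧ y = baseP hι y0 := by
  obtain ⟨D, rfl⟩ := cls_surjective y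
  rw [← map_nsmul, cls_eq_zero_iff] at hy
  obtain ⟨f, hf, hD⟩ := hy
  obtain ⟨D₀, f₀, g, hf₀, hg, h1, h2⟩ := Crest.Agent.R013.Rig_280.torsion_rigid hι hx hn hf hD.symm
  exact ⟨cls D₀, by rw [← map_nsmul, h1, cls_divf hf₀],
    by rw [h2, map_add, cls_divf hg, add_zero, baseP_cls]⟩

/-- the place of a point is fixed by the automorphisms which fix its coordinates -/
theorem pl_plQ (hι : IsCE Ω ι) (e : SI Ω L Ω L) (e0 : SI F K F K)
    (he : ∀ f, e.f (ι f) = ι (e0.f f)) (Q Q' : K →ₐ[F] Ω) (hQ : ∀ f, e.s (Q f) = Q' (e0.f f)) :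
    e.pl (plQ hι Q) = plQ hι Q' := by
  refine At.unique hι (fun f => ?_) (plQ_At hι Q')
  obtain ⟨f, rfl⟩ := e0.f.surjective f
  rw [← he, ← hQ, ← e.comm, ← map_sub, SI.pl_v_apply]
  exact plQ_At hι Q f

/-- classes fixed by all automorphisms over `K` and `S` -/
def GamI (ι : K →ₐ[F] L) (S : Finset Ω) : AddSubgroup (Pic Ω L) where
  carrier := {c | ∀ e : SI Ω L Ω L, (∀ f, e.f (ι f) = ι f) → (∀ s ∈ S, e.s s = s) → e.pic c = c}
  add_mem' := fun {a b} ha hb e h1 h2 => by rw [map_add, ha e h1 h2, hb e h1 h2]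
  zero_mem' := fun e _ _ => map_zero _
  neg_mem' := fun {a} ha e h1 h2 => by rw [map_neg, ha e h1 h2]

theorem mem_GamI {S : Finset Ω} {c : Pic Ω L} : c ∈ GamI ι S ↔
    ∀ e : SI Ω L Ω L, (∀ f, e.f (ι f) = ι f) → (∀ s ∈ S, e.s s = s) → e.pic c = c := Iff.rfl

theorem baseP_mem_GamI (hι : IsCE Ω ι) (S : Finset Ω) (x : Pic F K) : baseP hι x ∈ GamI ι S :=
  fun e h1 _ => by rw [pic_baseP hι e (SI.refl F K) h1, refl_pic]

/-- bridge to the words of the height pairing -/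
theorem GamI_le_Gam {F0 : Polynomial F} {x w : K} (hy : Hy.Hyp F0 x w) (S : Finset Ω) :
    GamI ι S ≤ Fa.Gam F S (ι x) (ι w) := by
  intro c hc e he
  obtain ⟨h1, h2, h3, h4⟩ := he
  refine hc e (fun f => ?_) h4
  have key : ∀ A : Polynomial F, e.f (ι (Polynomial.aeval x A)) = ι (Polynomial.aeval x A) := by
    intro A
    induction A using Polynomial.induction_on' with
    | add p q hp hq => rw [map_add, map_add, map_add, hp, hq]
    | monomial n a =>
      rw [Polynomial.aeval_monomial, map_mul, map_pow, map_mul, map_pow, h1, AlgHom.commutes,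
        IsScalarTower.algebraMap_apply F Ω L, e.comm, h3]
  obtain ⟨A, B, c, hc0, hf⟩ := hy.gen f
  rw [← eq_div_iff (hy.aeval_ne hc0)] at hf
  rw [hf, Hy.el, map_div₀, map_add, map_mul, map_div₀, map_add, map_mul, key, key, key, h2]

end base

section bc0

variable {C E M N k Ω K L : Type*} [Field C] [Field E] [Algebra C E] [Field M] [Algebra C M]
  [Field N] [Algebra E N] [Algebra C N] [IsScalarTower C E N]
  [Field k] [Field Ω] [Algebra k Ω] [Field K] [Algebra k K] [Field L] [Algebra Ω L] [Algebra k L]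
  [IsScalarTower k Ω L]
  {vC : Valuation C ℝ≥0} {ρC : C → k} {W : Valuation M ℝ≥0} {ρ : M → K}
  {vE : Valuation E ℝ≥0} {ρE : E → Ω} {ι' : M →ₐ[C] N} {ι : K →ₐ[k] L}

theorem BC.W'_SI (h : BC vC ρC W ρ vE ρE ι' ι) (e : SI E N E N) (hs : ∀ a, vE (e.s a) = vE a)
    (e0 : M ≃+* M) (h0 : ∀ f, W (e0 f) = W f) (he : ∀ f, e.f (ι' f) = ι' (e0 f)) (x : N) :
    h.W' (e.f x) = h.W' x := by
  have he' : ∀ f, e.f.symm (ι' f) = ι' (e0.symm f) := fun f => by
    rw [RingEquiv.symm_apply_eq, he, RingEquiv.apply_symm_apply]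
  have h1 : ∀ t : E ⊗[C] M, h.W' (e.f (mu ι' t)) ≤ h.W' (mu ι' t) :=
    h.W'_map_le e.s (e.f : N →+* N) e.comm (fun a => (hs a).le) fun f => ⟨e0 f, he f, (h0 f).le⟩
  have h2 : ∀ t : E ⊗[C] M, h.W' (e.f.symm (mu ι' t)) ≤ h.W' (mu ι' t) :=
    h.W'_map_le e.s.symm (e.f.symm : N →+* N) e.symm.comm
      (fun a => by rw [← hs, RingEquiv.apply_symm_apply])
      fun f => ⟨e0.symm f, he' f, by rw [← h0, RingEquiv.apply_symm_apply]⟩
  have h3 : ∀ t : E ⊗[C] M, ∃ t' : E ⊗[C] M, e.f (mu ι' t) = mu ι' t' := by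
    intro t
    induction t with
    | zero => exact ⟨0, by simp⟩
    | add s t hs ht =>
      obtain ⟨s', hs'⟩ := hs
      obtain ⟨t', ht'⟩ := ht
      exact ⟨s' + t', by rw [map_add, map_add, map_add, hs', ht']⟩
    | tmul c f => exact ⟨e.s c ⊗ₜ e0 f, by rw [mu_tmul, mu_tmul, map_mul, e.comm, he]⟩
  have h4 : ∀ t : E ⊗[C] M, h.W' (e.f (mu ι' t)) = h.W' (mu ι' t) := fun t => by
    refine le_antisymm (h1 t) ?_
    obtain ⟨t', ht'⟩ := h3 t
    have h5 := h2 t'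
    rwa [← ht', RingEquiv.symm_apply_apply] at h5
  obtain ⟨s, t, ht, hst⟩ := h.ce'.frac x
  rw [← eq_div_iff (h.ce'.ne_zero ht)] at hst
  rw [hst, map_div₀, map_div₀, map_div₀, h4, h4]

/-- admissible automorphisms: isometric, preserving `M`, residue action a power map -/
structure Adm (W : Valuation M ℝ≥0) (vE : Valuation E ℝ≥0) (ρE : E → Ω) (ι' : M →ₐ[C] N)
    (e : SI E N E N) : Prop where
  iso : ∀ a, vE (e.s a) = vE a
  pres : ∃ e0 : M ≃+* M, (∀ f, W (e0 f) = W f) ∧ ∀ f, e.f (ι' f) = ι' (e0 f)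
  frob : ∃ q : ℕ, ∀ a, vE a ≤ 1 → ρE (e.s a) = ρE a ^ q

theorem Adm.refl : Adm W vE ρE ι' (SI.refl E N) :=
  ⟨fun _ => rfl, ⟨RingEquiv.refl M, fun _ => rfl, fun _ => rfl⟩, 1, fun _ _ => (pow_one _).symm⟩

theorem Adm.trans {e e' : SI E N E N} (h : Adm W vE ρE ι' e) (h' : Adm W vE ρE ι' e') :
    Adm W vE ρE ι' (e.trans e') := by
  obtain ⟨e0, h1, h2⟩ := h.pres
  obtain ⟨e0', h1', h2'⟩ := h'.pres
  obtain ⟨q, hq⟩ := h.frob
  obtain ⟨q', hq'⟩ := h'.frob
  refine ⟨fun a => (h'.iso _).trans (h.iso a), ⟨e0.trans e0', fun f => (h1' _).trans (h1 f),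
    fun f => ?_⟩, q * q', fun a ha => ?_⟩
  · change e'.f (e.f _) = _
    rw [h2, h2']; rfl
  · change ρE (e'.s (e.s a)) = _
    rw [hq' _ (by rw [h.iso]; exact ha), hq a ha, pow_mul]

end bc0

section bc

variable {C E M N k Ω K L : Type*} [Field C] [IsAlgClosed C] [CharZero C]
  [Field E] [IsAlgClosed E] [CharZero E] [Algebra C E] [Field M] [Algebra C M]
  [Algebra (RatFunc C) M] [IsScalarTower C (RatFunc C) M] [FiniteDimensional (RatFunc C) M]
  [Field N] [Algebra E N] [Algebra C N] [IsScalarTower C E N]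
  [Algebra (RatFunc E) N] [IsScalarTower E (RatFunc E) N] [FiniteDimensional (RatFunc E) N]
  [Field k] [IsAlgClosed k] [Field Ω] [IsAlgClosed Ω] [Algebra k Ω] [Field K] [Algebra k K]
  [Algebra (RatFunc k) K] [IsScalarTower k (RatFunc k) K] [FiniteDimensional (RatFunc k) K]
  [Algebra.IsSeparable (RatFunc k) K]
  [Field L] [Algebra Ω L] [Algebra k L] [IsScalarTower k Ω L]
  [Algebra (RatFunc Ω) L] [IsScalarTower Ω (RatFunc Ω) L] [FiniteDimensional (RatFunc Ω) L]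
  [Algebra.IsSeparable (RatFunc Ω) L]
  {vC : Valuation C ℝ≥0} {ρC : C → k} {W : Valuation M ℝ≥0} {ρ : M → K}
  {vE : Valuation E ℝ≥0} {ρE : E → Ω} {ι' : M →ₐ[C] N} {ι : K →ₐ[k] L}

namespace BC

variable (h : BC vC ρC W ρ vE ρE ι' ι)

include h

/-- **BC** -/
theorem exists_good' (hg : gen k K = gen C M) (hx' : xK E N = ι' (xK C M))
    (hx : xK Ω L = ι (xK k K)) : ∃ sp' : Pl E N → Pl Ω L, Good vE ρE h.W' h.ρ' sp' :=
  exists_good h.red h.orth' (by rw [gen_eq h.ce hx, gen_eq h.ce' hx', hg])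

variable {sp' : Pl E N → Pl Ω L} (hG' : Good vE ρE h.W' h.ρ' sp')

include hG'

theorem sp_conP {sp : Pl C M → Pl k K} (hsp : SpP W ρ sp) (P : Pl C M) :
    sp' (conP h.ce' P) = conP h.ce (sp P) := by
  obtain ⟨u, hu1, hu2, hu3⟩ := exists_fun h.rd P
  obtain ⟨b, hb⟩ := exists_pole hu3
  rw [sp_eq_of_pole hsp hu1 hu2 hb]
  apply sp_eq_of_pole hG'.spp (u := ι' u) ?_ (by rw [h.W'_iota, hu2])
  · rw [h.ρ'_iota hu2.le, (conP_Over h.ce b).v_iota h.ce]; exact hb
  · intro Q hQ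
    rcases Crest.Agent.R013.CE3_280.cases h.ce' Q with ⟨P', rfl⟩ | ⟨Q', rfl⟩
    · exact (conP_Over h.ce' P').1 u (hu1 P' fun h1 => hQ (by rw [h1]))
    · exact ((plQ_At h.ce' Q').iota_eq_one (by rintro rfl; simp at hu2)).le

theorem mapDomain_base {sp : Pl C M → Pl k K} (hsp : SpP W ρ sp) (D : Pl C M →₀ ℤ) :
    (base h.ce' D).mapDomain sp' = base h.ce (D.mapDomain sp) := by
  induction D using Finsupp.induction_linear with
  | zero => simp
  | add D E h1 h2 => simp only [map_add, Finsupp.mapDomain_add, h1, h2]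
  | single P n =>
    rw [base_single, Finsupp.mapDomain_single, Finsupp.mapDomain_single, base_single,
      h.sp_conP hG' hsp]

theorem spPic_baseP {sp : Pl C M → Pl k K} (hG : Good vC ρC W ρ sp) (x : Pic C M) :
    hG'.spPic (baseP h.ce' x) = baseP h.ce (hG.spPic x) := by
  obtain ⟨D, rfl⟩ := cls_surjective x
  rw [baseP_cls, hG'.spPic_cls, hG.spPic_cls, baseP_cls, h.mapDomain_base hG' hG.spp]

/-- **EQ** -/
theorem sp_pl (e' : SI E N E N) (hs : ∀ a, vE (e'.s a) = vE a) (e0 : M ≃+* M)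
    (h0 : ∀ f, W (e0 f) = W f) (he' : ∀ f, e'.f (ι' f) = ι' (e0 f)) (e : SI Ω L Ω L)
    (h1 : ∀ a, vE a ≤ 1 → ρE (e'.s a) = e.s (ρE a))
    (h2 : ∀ f, W f ≤ 1 → ι (ρ (e0 f)) = e.f (ι (ρ f))) (P : Pl E N) :
    sp' (e'.pl P) = e.pl (sp' P) := by
  obtain ⟨eb, h3, h4, h5⟩ := hG'.exists_bar e' (h.W'_SI e' hs e0 h0 he')
  rw [h5]
  refine pl_congr (ce_ext h.ce (g := (eb.f : L →+* L)) (g' := (e.f : L →+* L)) (fun a => ?_)
    fun f => ?_) _
  · obtain ⟨a, ha, rfl⟩ := h.resE.surj a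
    change eb.f _ = e.f _
    rw [eb.comm, e.comm, ← h4 a ha, h1 a ha]
  · obtain ⟨f, hf, rfl⟩ := h.rd.res.surj f
    change eb.f _ = e.f _
    rw [← h2 f hf, ← h.ρ'_iota hf, ← h3 _ (by rw [h.W'_iota]; exact hf), he',
      h.ρ'_iota (by rw [h0]; exact hf)]

theorem spPic_fix (e' : SI E N E N) (hs : ∀ a, vE (e'.s a) = vE a)
    (he' : ∀ f, e'.f (ι' f) = ι' f) (e : SI Ω L Ω L)
    (h1 : ∀ a, vE a ≤ 1 → ρE (e'.s a) = e.s (ρE a)) (h2 : ∀ f, e.f (ι f) = ι f) (y : Pic E N) :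
    hG'.spPic (e'.pic y) = e.pic (hG'.spPic y) :=
  hG'.spPic_pic e' (h.sp_pl hG' e' hs (RingEquiv.refl M) (fun _ => rfl) he' e h1
    fun f _ => (h2 _).symm) y

/-- moving a lifted automorphism through `Ψ` -/
theorem spPic_comm (e' : SI E N E N) (hs : ∀ a, vE (e'.s a) = vE a)
    (he' : ∀ f, e'.f (ι' f) = ι' f) (γ : Ω ≃+* Ω) (h1 : ∀ a, vE a ≤ 1 → ρE (e'.s a) = γ (ρE a))
    (b : Pic E N →+ Pic E N)
    (hb : ∀ e : SI E N E N, (∀ f, e.f (ι' f) = ι' f) → ∀ y, b (e.pic y) = e.pic (b y))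
    {S : SI E N E N} (hS : Adm W vE ρE ι' S) (y : Pic E N) :
    hG'.spPic (e'.pic (b (S.pic y))) = hG'.spPic (b (S.pic (e'.pic y))) := by
  obtain ⟨e0, h2, h3⟩ := hS.pres
  obtain ⟨q, hq⟩ := hS.frob
  let τ : SI E N E N := (S.symm.trans e'.symm).trans (S.trans e')
  have hτ : ∀ f, τ.f (ι' f) = ι' f := fun f => by
    obtain ⟨f, rfl⟩ := e0.surjective f
    change e'.f (S.f (e'.f.symm (S.f.symm (ι' (e0 f))))) = _
    rw [← h3, RingEquiv.symm_apply_apply, ← he' f, RingEquiv.symm_apply_apply, h3, he', he', h3]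
  have hτs : ∀ a, τ.s (S.s (e'.s a)) = e'.s (S.s a) := fun a => by
    change e'.s (S.s (e'.s.symm (S.s.symm _))) = _
    rw [RingEquiv.symm_apply_apply, RingEquiv.symm_apply_apply]
  have h4 : e'.pic (S.pic y) = τ.pic (S.pic (e'.pic y)) := by
    rw [SI.pic_trans, SI.pic_trans, SI.pic_trans, symm_pic_pic, symm_pic_pic]
  rw [← hb e' he', h4, hb τ hτ, h.spPic_fix hG' τ (fun a => ?_) hτ (SI.refl Ω L) (fun a ha => ?_)
    (fun _ => rfl), refl_pic]
  · obtain ⟨a, rfl⟩ := S.s.surjective a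
    obtain ⟨a, rfl⟩ := e'.s.surjective a
    rw [hτs, hs, hS.iso, hS.iso, hs]
  · obtain ⟨a, rfl⟩ := S.s.surjective a
    obtain ⟨a, rfl⟩ := e'.s.surjective a
    rw [hS.iso] at ha
    have ha' : vE a ≤ 1 := by rwa [hs] at ha
    change _ = ρE _
    rw [hτs, h1 _ (by rw [hS.iso]; exact ha'), hq _ ha, hq _ ha', h1 _ ha', map_pow]

/-- **WR**: the wrapper -/
theorem wr {z : E} (hz : GP vC ρC vE ρE z) (T : Finset E) : ∃ S : Finset Ω, ρE z ∈ S ∧
    ∀ (I : Type) [Fintype I] (b : I → Pic E N →+ Pic E N) (Sg : I → SI E N E N),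
      (∀ i (e : SI E N E N), (∀ f, e.f (ι' f) = ι' f) → ∀ y, b i (e.pic y) = e.pic (b i y)) →
      (∀ i, Adm W vE ρE ι' (Sg i)) → ∀ x : Pic E N,
      (∀ e : SI E N E N, (∀ f, e.f (ι' f) = ι' f) → e.s z = z → (∀ t ∈ T, e.s t = t) →
        e.pic x = x) →
      hG'.spPic (∑ i, b i ((Sg i).pic x)) ∈ GamI ι S ∧
      ∀ n : ℕ, 0 < n → degPic x = 0 → (∀ y : Pic E N, n • y = 0 → ∑ i, b i ((Sg i).pic y) = 0) →
        ∃ c ∈ GamI ι S, hG'.spPic (∑ i, b i ((Sg i).pic x)) = n • c := by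
  obtain ⟨S, hzS, hS⟩ := hz.exists_fin T
  refine ⟨S, hzS, fun I _ b Sg hb hSg x hx => ?_⟩
  have key : ∀ e : SI Ω L Ω L, (∀ f, e.f (ι f) = ι f) → (∀ s ∈ S, e.s s = s) →
      ∃ e' : SI E N E N, e'.pic x = x ∧ ∀ y, e.pic (hG'.spPic (∑ i, b i ((Sg i).pic y))) =
        hG'.spPic (∑ i, b i ((Sg i).pic (e'.pic y))) := by
    intro e h1 h2
    obtain ⟨g, hg1, hg2, hg3, hg4, hg5⟩ := hS e.s (SI_s_const e h1) h2
    obtain ⟨e', rfl, he'⟩ := exists_SI h.ce' h.ce' g (SI.refl C M) hg1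
    refine ⟨e', hx e' he' hg2 hg3, fun y => ?_⟩
    rw [← h.spPic_fix hG' e' hg4 he' e hg5 h1, map_sum, map_sum, map_sum]
    exact Finset.sum_congr rfl fun i _ => h.spPic_comm hG' e' hg4 he' e.s hg5 (b i) (hb i) (hSg i) y
  refine ⟨fun e h1 h2 => ?_, fun n hn hx0 hk => ?_⟩
  · obtain ⟨e', h3, h4⟩ := key e h1 h2
    rw [h4, h3]
  · obtain ⟨y, -, rfl⟩ := exists_div_pic hn hx0
    refine ⟨hG'.spPic (∑ i, b i ((Sg i).pic y)), fun e h1 h2 => ?_, ?_⟩
    · obtain ⟨e', h3, h4⟩ := key e h1 h2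
      have h5 := hk (e'.pic y - y) (by rw [nsmul_sub, ← map_nsmul, h3, sub_self])
      simp only [map_sub, Finset.sum_sub_distrib, sub_eq_zero] at h5
      rw [h4, h5]
    · simp only [map_nsmul, ← Finset.smul_sum]

end BC

end bc

end Crest.Agent.T15.Id
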