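import Mathlib
import Crest.Agent.T15.IdWC_11
import Crest.Agent.T15.NgB_77
import Crest.Agent.T15.Rk2_31
import Crest.Agent.T15.HonDef_54

/-!
# Row 15 (helper11): the wrapper in the words of naive good reduction

* `BC.nr`, `exists_NG_base` : naive good reduction after base change;
* `wr_NG` : the wrapper with values in `Fa.Gam`;
* `vs_gp` : the variable of a `Vs` is a Gauss point.
-/

set_option autoImplicit false
set_option linter.all false

namespace Crest.Agent.T15.Id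

open Module WithZero Polynomial
open scoped NNReal TensorProduct
open Crest.Agent.R013.RR7_948 Crest.Agent.R013.RR8_948 Crest.Agent.R013.RR9_948
open Crest.Agent.R013.RR11_948 Crest.Agent.R013.RR12_948 Crest.Agent.R013.RR13_948
open Crest.Agent.R013.GR4_921 Crest.Agent.R013.GR6_921
open Crest.Agent.R013.CE3_280 Crest.Agent.R013.CE5_280
open Crest.Agent.R013.PicD_398 Crest.Agent.R013.Frob1_914
open Crest.Agent.T15.Hy Crest.Agent.T15.Ng

section nr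

variable {C E M N k Ω K L : Type*} [Field C] [Field E] [Algebra C E] [Field M] [Algebra C M]
  [Field N] [Algebra E N] [Algebra C N] [IsScalarTower C E N]
  [Field k] [Field Ω] [Algebra k Ω] [Field K] [Algebra k K] [Field L] [Algebra Ω L] [Algebra k L]
  [IsScalarTower k Ω L]
  {vC : Valuation C ℝ≥0} {ρC : C → k} {W : Valuation M ℝ≥0} {ρ : M → K}
  {vE : Valuation E ℝ≥0} {ρE : E → Ω} {ι' : M →ₐ[C] N} {ι : K →ₐ[k] L}
  {F : C[X]} {x w : M} {H Fb : k[X]} {xb wb : K}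

theorem intP_map (hv : ∀ c, vE (algebraMap C E c) = vC c) {A : C[X]} (hA : IntP vC A) :
    IntP vE (A.map (algebraMap C E)) := fun i => by rw [coeff_map, hv]; exact hA i

theorem redP_map' (h0 : IsRes vC ρC) (h1 : IsRes vE ρE)
    (hρ : ∀ c, vC c ≤ 1 → ρE (algebraMap C E c) = algebraMap k Ω (ρC c)) {A : C[X]}
    (hA : IntP vC A) : redP ρE (A.map (algebraMap C E)) = (redP ρC A).map (algebraMap k Ω) := by
  ext n
  rw [coeff_rp h1, coeff_map, coeff_map, coeff_rp h0, hρ _ (hA n)]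

/-- the base change data of a naive norm -/
theorem bc_of_NR (hM : NR vC ρC F x w H Fb xb wb W ρ) {z : E} (hz : GP vC ρC vE ρE z)
    (ce' : IsCE E ι') (ce : IsCE Ω ι) : BC vC ρC W ρ vE ρE ι' ι :=
  ⟨hM.rd, hM.orth, hz.res, hz.v_c, hz.ρ_c, ce', ce⟩

variable [IsAlgClosed C] [IsAlgClosed k]

theorem BC.nr (h : BC vC ρC W ρ vE ρE ι' ι) (hM : NR vC ρC F x w H Fb xb wb W ρ) :
    NR vE ρE (F.map (algebraMap C E)) (ι' x) (ι' w) (H.map (algebraMap k Ω))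
      (Fb.map (algebraMap k Ω)) (ι xb) (ι wb) h.W' h.ρ' where
  hyp := Rk.hyp_base h.ce' hM.hyp
  hyb := Rk.hyp_base h.ce hM.hyb
  int := intP_map h.vE_c hM.int
  red := by
    rw [redP_map' hM.rd.resC h.resE h.ρE_c hM.int, hM.red, Polynomial.map_mul, Polynomial.map_pow]
  H0 := by simpa using hM.H0
  rd := h.red
  wx := by rw [h.W'_iota]; exact hM.wx
  rx := by rw [h.ρ'_iota hM.wx, hM.rx]
  rw := by rw [h.ρ'_iota hM.W_w.le, hM.rw, map_mul, Rk.aeval_iota]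

omit [IsAlgClosed C] [IsAlgClosed k] in
theorem nr_unique {W' : Valuation M ℝ≥0} {ρ' : M → K} (h : NR vC ρC F x w H Fb xb wb W ρ)
    (h' : NR vC ρC F x w H Fb xb wb W' ρ') : W' = W ∧ ∀ f, W f ≤ 1 → ρ' f = ρ f := by
  have h1 : ∀ f, W' f = W f := h.W_hom W' (RingHom.id M) h'.rd.norm
    (fun A hA => w_aeval_le h'.rd hA h'.wx) fun A hA h0 => h'.W_aeval hA h0
  exact ⟨Valuation.ext h1, fun f hf => h.res_hom h'.rd.res (RingHom.id M) h1 (RingHom.id K)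
    h'.rd.comp h'.rx h'.rw hf⟩

end nr

section ng

variable {C E M N k Ω K L : Type*} [Field C] [IsAlgClosed C] [CharZero C]
  [Field E] [IsAlgClosed E] [CharZero E] [Algebra C E] [Field M] [Algebra C M]
  [Algebra (RatFunc C) M] [IsScalarTower C (RatFunc C) M] [FiniteDimensional (RatFunc C) M]
  [Field N] [Algebra E N] [Algebra C N] [IsScalarTower C E N]
  [Algebra (RatFunc E) N] [IsScalarTower E (RatFunc E) N] [FiniteDimensional (RatFunc E) N]
  [Field k] [IsAlgClosed k] [Field Ω] [IsAlgClosed Ω] [Algebra k Ω] [Field K] [Algebra k K]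
  [Algebra (RatFunc k) K] [IsScalarTower k (RatFunc k) K] [FiniteDimensional (RatFunc k) K]
  [Algebra.IsSeparable (RatFunc k) K]
  [Field L] [Algebra Ω L] [Algebra k L] [IsScalarTower k Ω L]
  [Algebra (RatFunc Ω) L] [IsScalarTower Ω (RatFunc Ω) L] [FiniteDimensional (RatFunc Ω) L]
  [Algebra.IsSeparable (RatFunc Ω) L]
  {vC : Valuation C ℝ≥0} {ρC : C → k} {W : Valuation M ℝ≥0} {ρ : M → K}
  {vE : Valuation E ℝ≥0} {ρE : E → Ω} {ι' : M →ₐ[C] N} {ι : K →ₐ[k] L}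
  {F : C[X]} {x w : M} {Fb : k[X]} {xb wb : K}
  {W' : Valuation N ℝ≥0} {ρ' : N → L} {sp' : Pl E N → Pl Ω L}

/-- naive good reduction after base change -/
theorem exists_NG_base (hM : NR vC ρC F x w 1 Fb xb wb W ρ) {z : E} (hz : GP vC ρC vE ρE z)
    (ce' : IsCE E ι') (ce : IsCE Ω ι) (hodd : Odd Fb.natDegree)
    (hd : F.natDegree ≤ Fb.natDegree + 1) :
    ∃ (W' : Valuation N ℝ≥0) (ρ' : N → L) (sp' : Pl E N → Pl Ω L),
      NG vE ρE (F.map (algebraMap C E)) (ι' x) (ι' w) (Fb.map (algebraMap k Ω)) (ι xb) (ι wb)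
        W' ρ' sp' := by
  have h := (bc_of_NR hM hz ce' ce).nr hM
  exact exists_NG hz.res h.hyp h.hyb h.int (by simpa using h.red) (by rwa [natDegree_map])
    (by rwa [natDegree_map, natDegree_map])

theorem BC.eq_of_NG (h : BC vC ρC W ρ vE ρE ι' ι) (hM : NR vC ρC F x w 1 Fb xb wb W ρ)
    (hN : NG vE ρE (F.map (algebraMap C E)) (ι' x) (ι' w) (Fb.map (algebraMap k Ω)) (ι xb) (ι wb)
      W' ρ' sp') : h.W' = W' ∧ ∀ f, W' f ≤ 1 → h.ρ' f = ρ' f :=
  nr_unique hN.nr (by simpa using h.nr hM)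

theorem BC.good_of_NG (h : BC vC ρC W ρ vE ρE ι' ι) (hM : NR vC ρC F x w 1 Fb xb wb W ρ)
    (hN : NG vE ρE (F.map (algebraMap C E)) (ι' x) (ι' w) (Fb.map (algebraMap k Ω)) (ι xb) (ι wb)
      W' ρ' sp') : Disc.Good vE ρE h.W' h.ρ' sp' := by
  obtain ⟨h1, h2⟩ := h.eq_of_NG hM hN
  refine ⟨h.red, h.orth', hN.disc.gen_eq, fun u hu => ?_⟩
  rw [h1] at hu
  rw [h2 u hu.le]
  exact hN.disc.spp u hu

/-- **WR** in the words of `NG` and `Fa.Gam` -/
theorem wr_NG (hM : NR vC ρC F x w 1 Fb xb wb W ρ) (ce' : IsCE E ι') (ce : IsCE Ω ι)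
    (hN : NG vE ρE (F.map (algebraMap C E)) (ι' x) (ι' w) (Fb.map (algebraMap k Ω)) (ι xb) (ι wb)
      W' ρ' sp') {z : E} (hz : GP vC ρC vE ρE z) (T : Finset E) : ∃ S : Finset Ω, ρE z ∈ S ∧
    ∀ (I : Type) [Fintype I] (b : I → Pic E N →+ Pic E N) (Sg : I → SI E N E N),
      (∀ i (e : SI E N E N), (∀ f, e.f (ι' f) = ι' f) → ∀ y, b i (e.pic y) = e.pic (b i y)) →
      (∀ i, Adm W vE ρE ι' (Sg i)) → ∀ x0 : Pic E N,
      (∀ e : SI E N E N, (∀ f, e.f (ι' f) = ι' f) → e.s z = z → (∀ t ∈ T, e.s t = t) →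
        e.pic x0 = x0) →
      hN.disc.spPic (∑ i, b i ((Sg i).pic x0)) ∈ Fa.Gam k S (ι xb) (ι wb) ∧
      ∀ n : ℕ, 0 < n → degPic x0 = 0 → (∀ y : Pic E N, n • y = 0 → ∑ i, b i ((Sg i).pic y) = 0) →
        ∃ c ∈ Fa.Gam k S (ι xb) (ι wb), hN.disc.spPic (∑ i, b i ((Sg i).pic x0)) = n • c := by
  have h := bc_of_NR hM hz ce' ce
  obtain ⟨S, hS, h1⟩ := h.wr (h.good_of_NG hM hN) hz T
  refine ⟨S, hS, fun I _ b Sg hb hSg x0 hx0 => ?_⟩
  obtain ⟨h2, h3⟩ := h1 I b Sg hb hSg x0 hx0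
  refine ⟨GamI_le_Gam hM.hyb S h2, fun n hn hd hk => ?_⟩
  obtain ⟨c, hc, h4⟩ := h3 n hn hd hk
  exact ⟨c, GamI_le_Gam hM.hyb S hc, h4⟩

theorem sp_conP_NG {sp : Pl C M → Pl k K} (hM : NG vC ρC F x w Fb xb wb W ρ sp)
    (ce' : IsCE E ι') (ce : IsCE Ω ι)
    (hN : NG vE ρE (F.map (algebraMap C E)) (ι' x) (ι' w) (Fb.map (algebraMap k Ω)) (ι xb) (ι wb)
      W' ρ' sp') {z : E} (hz : GP vC ρC vE ρE z) (P : Pl C M) :
    sp' (conP ce' P) = conP ce (sp P) :=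
  (bc_of_NR hM.nr hz ce' ce).sp_conP ((bc_of_NR hM.nr hz ce' ce).good_of_NG hM.nr hN)
    hM.disc.spp P

theorem spPic_baseP_NG {sp : Pl C M → Pl k K} (hM : NG vC ρC F x w Fb xb wb W ρ sp)
    (ce' : IsCE E ι') (ce : IsCE Ω ι)
    (hN : NG vE ρE (F.map (algebraMap C E)) (ι' x) (ι' w) (Fb.map (algebraMap k Ω)) (ι xb) (ι wb)
      W' ρ' sp') {z : E} (hz : GP vC ρC vE ρE z) (y : Pic C M) :
    hN.disc.spPic (Rk.baseP ce' y) = Rk.baseP ce (hM.disc.spPic y) :=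
  (bc_of_NR hM.nr hz ce' ce).spPic_baseP ((bc_of_NR hM.nr hz ce' ce).good_of_NG hM.nr hN) hM.disc y

end ng

/-- the variable of the valued set-up is a Gauss point -/
theorem vs_gp {C : Type} [Field C] {K0 : Subfield C} {v0 : Valuation K0 ℝ≥0} {p : ℕ} {hp : p ≠ 0}
    {σ : K0 →+* K0} (V : Hon.Vs C K0 v0 p hp σ) (h1 : Hon.AI v0 PowerSeries.X) :
    GP (V.v.comap (algebraMap C V.Ω)) V.ρC V.v V.ρ (V.em PowerSeries.X) where
  resC := V.resC
  res := V.res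
  v_c := fun _ => rfl
  ρ_c := V.comp
  le := V.v_em _ 1 h1 h1.1
  tr := V.tr
  alg := IntermediateField.isAlgebraic_adjoin_iff_top.mp ⟨V.alg⟩

theorem ai_X {K0 : Type*} [Field K0] (v0 : Valuation K0 ℝ≥0) : Hon.AI v0 PowerSeries.X := by
  refine ⟨fun n => ?_, ?_⟩
  · rw [PowerSeries.coeff_X]; split_ifs <;> simp
  · have h : (PowerSeries.X : PowerSeries K0) = algebraMap K0[X] (PowerSeries K0) X := by
      simp [PowerSeries.algebraMap_apply']
    rw [h]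
    exact isAlgebraic_algebraMap _

end Crest.Agent.T15.Id
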