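import Mathlib
import Crest.Agent.T15.IdWD_11
import Crest.Agent.T15.RatB_42

/-!
# Row 15 (helper11): the frame in generic words

`tri_NG` : wrapper and height pairing give `Rat.Tri`; `tri_NG_base` : the torsion hypothesis is read
on the curve over `C`.
-/

set_option autoImplicit false
set_option linter.all false

namespace Crest.Agent.T15.Id

open Module WithZero Polynomial
open scoped NNReal TensorProduct
open Crest.Agent.R013.RR7_948 Crest.Agent.R013.RR8_948 Crest.Agent.R013.RR9_948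
open Crest.Agent.R013.RR11_948 Crest.Agent.R013.RR12_948 Crest.Agent.R013.RR13_948
open Crest.Agent.R013.GR4_921 Crest.Agent.R013.GR6_921
open Crest.Agent.R013.CE3_280 Crest.Agent.R013.CE5_280
open Crest.Agent.R013.PicD_398 Crest.Agent.R013.Frob1_914
open Crest.Agent.T15.Hy Crest.Agent.T15.Ng

/-- what is used of the height pairing -/
def HasPair (p : ℕ) (k : Type*) {Ω L : Type} [Field k] [Field Ω] [Field L] [Algebra k Ω]
    [Algebra Ω L] [Algebra (RatFunc Ω) L] [IsScalarTower Ω (RatFunc Ω) L]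
    [FiniteDimensional (RatFunc Ω) L] [Algebra.IsSeparable (RatFunc Ω) L] (z : Ω) (x w : L) : Prop :=
  ∀ S : Finset Ω, z ∈ S → ∃ B : Fa.Gam k S x w →+ Fa.Gam k S x w →+ ℚ,
    (∀ c c', ∃ (e : ℕ) (n : ℤ), (p : ℚ) ^ e * B c c' = n) ∧ ∀ c, B c c = 0 → Fa.ConC k x w c.1

variable {C E M N k K : Type*} {Ω L : Type} [Field C] [IsAlgClosed C] [CharZero C]
  [Field E] [IsAlgClosed E] [CharZero E] [Algebra C E] [Field M] [Algebra C M]
  [Algebra (RatFunc C) M] [IsScalarTower C (RatFunc C) M] [FiniteDimensional (RatFunc C) M]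
  [Field N] [Algebra E N] [Algebra C N] [IsScalarTower C E N]
  [Algebra (RatFunc E) N] [IsScalarTower E (RatFunc E) N] [FiniteDimensional (RatFunc E) N]
  [Field k] [IsAlgClosed k] [Field Ω] [IsAlgClosed Ω] [Algebra k Ω] [Field K] [Algebra k K]
  [Algebra (RatFunc k) K] [IsScalarTower k (RatFunc k) K] [FiniteDimensional (RatFunc k) K]
  [Algebra.IsSeparable (RatFunc k) K]
  [Field L] [Algebra Ω L] [Algebra k L] [IsScalarTower k Ω L]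
  [Algebra (RatFunc Ω) L] [IsScalarTower Ω (RatFunc Ω) L] [FiniteDimensional (RatFunc Ω) L]
  [Algebra.IsSeparable (RatFunc Ω) L]
  {vC : Valuation C ℝ≥0} {ρC : C → k} {W : Valuation M ℝ≥0} {ρ : M → K}
  {vE : Valuation E ℝ≥0} {ρE : E → Ω} {ι' : M →ₐ[C] N} {ι : K →ₐ[k] L}
  {F : C[X]} {x w : M} {Fb : k[X]} {xb wb : K}
  {W' : Valuation N ℝ≥0} {ρ' : N → L} {sp' : Pl E N → Pl Ω L}

theorem tri_NG (hM : NR vC ρC F x w 1 Fb xb wb W ρ) (ce' : IsCE E ι') (ce : IsCE Ω ι)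
    (hN : NG vE ρE (F.map (algebraMap C E)) (ι' x) (ι' w) (Fb.map (algebraMap k Ω)) (ι xb) (ι wb)
      W' ρ' sp') {z : E} (hz : GP vC ρC vE ρE z) (T : Finset E) {l p : ℕ} (hl : 0 < l)
    (hP : HasPair p k (ρE z) (ι xb) (ι wb))
    {Wd : Type*} [AddCommGroup Wd] {I : Type} [Fintype I]
    (b : I → Wd →+ Pic E N →+ Pic E N) (Sg : I → SI E N E N)
    (hb : ∀ i Ψ (e : SI E N E N), (∀ f, e.f (ι' f) = ι' f) → ∀ y, b i Ψ (e.pic y) = e.pic (b i Ψ y))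
    (hSg : ∀ i, Adm W vE ρE ι' (Sg i)) (x0 : Pic E N) (hd : degPic x0 = 0)
    (hx0 : ∀ e : SI E N E N, (∀ f, e.f (ι' f) = ι' f) → e.s z = z → (∀ t ∈ T, e.s t = t) →
      e.pic x0 = x0) :
    Rat.Tri l p (fun (Ψ : Wd) m => ∀ y : Pic E N, l ^ m • y = 0 → ∑ i, b i Ψ ((Sg i).pic y) = 0)
      fun Ψ => Fa.ConC k (ι xb) (ι wb) (hN.disc.spPic (∑ i, b i Ψ ((Sg i).pic x0))) := by
  obtain ⟨S, hS, h1⟩ := wr_NG hM ce' ce hN hz T
  obtain ⟨B, hB1, hB2⟩ := hP S hS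
  have h2 := fun Ψ => h1 I (fun i => b i Ψ) Sg (fun i => hb i Ψ) hSg x0 hx0
  let φ : Wd →+ Fa.Gam k S (ι xb) (ι wb) :=
    { toFun := fun Ψ => ⟨_, (h2 Ψ).1⟩
      map_zero' := Subtype.ext (by simp)
      map_add' := fun Ψ Ψ' => Subtype.ext (by simp [Finset.sum_add_distrib]) }
  refine ⟨_, inferInstance, φ, B, hB1, fun Ψ m hk => ?_, fun Ψ h0 => hB2 _ h0⟩
  obtain ⟨c, hc, h3⟩ := (h2 Ψ).2 (l ^ m) (pow_pos hl m) hd hk
  exact ⟨⟨c, hc⟩, Subtype.ext h3⟩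

theorem tri_NG_base (hM : NR vC ρC F x w 1 Fb xb wb W ρ) (ce' : IsCE E ι') (ce : IsCE Ω ι)
    (hN : NG vE ρE (F.map (algebraMap C E)) (ι' x) (ι' w) (Fb.map (algebraMap k Ω)) (ι xb) (ι wb)
      W' ρ' sp') {z : E} (hz : GP vC ρC vE ρE z) (T : Finset E) {l p : ℕ} (hl : 0 < l)
    (hP : HasPair p k (ρE z) (ι xb) (ι wb))
    {Wd : Type*} [AddCommGroup Wd] {I : Type} [Fintype I]
    (b : I → Wd →+ Pic E N →+ Pic E N) (Sg : I → SI E N E N)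
    (b0 : I → Wd → Pic C M → Pic C M) (S0 : I → SI C M C M)
    (hb : ∀ i Ψ (e : SI E N E N), (∀ f, e.f (ι' f) = ι' f) → ∀ y, b i Ψ (e.pic y) = e.pic (b i Ψ y))
    (hb0 : ∀ i Ψ y, b i Ψ (Rk.baseP ce' y) = Rk.baseP ce' (b0 i Ψ y))
    (hS0 : ∀ i f, (Sg i).f (ι' f) = ι' ((S0 i).f f)) (hW : ∀ i f, W ((S0 i).f f) = W f)
    (hiso : ∀ i a, vE ((Sg i).s a) = vE a)
    (hfr : ∀ i, ∃ q : ℕ, ∀ a, vE a ≤ 1 → ρE ((Sg i).s a) = ρE a ^ q)
    (x0 : Pic E N) (hd : degPic x0 = 0)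
    (hx0 : ∀ e : SI E N E N, (∀ f, e.f (ι' f) = ι' f) → e.s z = z → (∀ t ∈ T, e.s t = t) →
      e.pic x0 = x0) :
    Rat.Tri l p (fun (Ψ : Wd) m => ∀ y : Pic C M, l ^ m • y = 0 → ∑ i, b0 i Ψ ((S0 i).pic y) = 0)
      fun Ψ => Fa.ConC k (ι xb) (ι wb) (hN.disc.spPic (∑ i, b i Ψ ((Sg i).pic x0))) := by
  refine (tri_NG hM ce' ce hN hz T hl hP b Sg hb
    (fun i => ⟨hiso i, ⟨(S0 i).f, hW i, hS0 i⟩, hfr i⟩) x0 hd hx0).mono
    (fun Ψ m hk y hy => ?_) fun _ h => h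
  obtain ⟨y0, h1, rfl⟩ := Rk.exists_baseP ce' (pow_pos hl m).ne' hy
  have h2 : ∀ i, (Sg i).pic (Rk.baseP ce' y0) = Rk.baseP ce' ((S0 i).pic y0) := fun i =>
    pic_baseP ce' (Sg i) (S0 i) (hS0 i) y0
  simp only [h2, hb0, ← map_sum, hk y0 h1, map_zero]

end Crest.Agent.T15.Id
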