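import Mathlib
import Crest.Agent.T15.IdWE_11
import Crest.Agent.T15.HonD_54
import Crest.Agent.T15.HonG_13

/-!
# Row 15 (helper11): `Rat.Tri` on the frame `Fm`
-/

set_option autoImplicit false
set_option linter.all false

noncomputable section

namespace Crest.Agent.T15.Hon

open scoped NNReal PowerSeries
open Polynomial
open Crest.Agent.R013.RR7_948 Crest.Agent.R013.RR9_948 Crest.Agent.R013.RR11_948
open Crest.Agent.R013.PicD_398 Crest.Agent.R013.Frob1_914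
open Crest.Agent.T15.Id (pic_congr refl_pic symm_pic_pic exists_div_pic HasPair)

section op

variable {A B : Type*} [AddCommGroup A] [AddCommGroup B]

theorem aeval_semi11 (φ : A →+ B) (j : A →+ A) (j' : B →+ B) (h : ∀ c, φ (j c) = j' (φ c)) (P : ℤ[X])
    (c : A) : φ (aeval (j.toIntLinearMap : Module.End ℤ A) P c) =
      aeval (j'.toIntLinearMap : Module.End ℤ B) P (φ c) := by
  have h1 : ∀ (n : ℕ) c, φ (((j.toIntLinearMap : Module.End ℤ A) ^ n) c) =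
      ((j'.toIntLinearMap : Module.End ℤ B) ^ n) (φ c) := by
    intro n
    induction n with
    | zero => intro c; rfl
    | succ n ih => intro c; rw [pow_succ, pow_succ, Module.End.mul_apply, Module.End.mul_apply, ih]
                   exact congrArg _ (h c)
  induction P using Polynomial.induction_on' with
  | add p q hp hq => rw [map_add, map_add, LinearMap.add_apply, LinearMap.add_apply, map_add, hp, hq]
  | monomial n a =>
    rw [aeval_monomial, aeval_monomial, Module.End.mul_apply, Module.End.mul_apply,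
      Module.algebraMap_end_apply, Module.algebraMap_end_apply, map_zsmul, h1]

theorem iter_semi11 (φ : A →+ B) (e : A →+ A) (e' : B →+ B) (h : ∀ c, φ (e c) = e' (φ c)) (n : ℕ)
    (c : A) : φ (e^[n] c) = e'^[n] (φ c) := by
  induction n with
  | zero => rfl
  | succ n ih => rw [Function.iterate_succ_apply', Function.iterate_succ_apply', h, ih]

/-- words are natural -/
theorem op_semi11 (φ : A →+ B) {j e : A →+ A} {j' e' : B →+ B} (hj : ∀ c, φ (j c) = j' (φ c))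
    (he : ∀ c, φ (e c) = e' (φ c)) (Ψ : Fin 3 → ℤ[X]) (c : A) :
    φ (op j e Ψ c) = op j' e' Ψ (φ c) := by
  rw [op, op, map_sum]
  exact Finset.sum_congr rfl fun i _ => by rw [aeval_semi11 φ j j' hj, iter_semi11 φ e e' he]

/-- `op` as a biadditive map -/
def opH11 (j e : A →+ A) : (Fin 3 → ℤ[X]) →+ A →+ A where
  toFun Ψ :=
    { toFun := op j e Ψ
      map_zero' := by simp [op]
      map_add' := fun c c' => by simp [op, iterate_map_add, Finset.sum_add_distrib] }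
  map_zero' := AddMonoidHom.ext fun c => show op j e 0 c = 0 by simp [op]
  map_add' Ψ Ψ' := AddMonoidHom.ext fun c =>
    show op j e (Ψ + Ψ') c = op j e Ψ c + op j e Ψ' c by simp [op, Finset.sum_add_distrib]

theorem opH11_apply (j e : A →+ A) (Ψ : Fin 3 → ℤ[X]) (c : A) : opH11 j e Ψ c = op j e Ψ c := rfl

/-- the torsion hypothesis moves along a map which is onto on the torsion -/
theorem Kill.of_map11 (φ : A →+ B) {j e : A →+ A} {j' e' : B →+ B} (hj : ∀ c, φ (j c) = j' (φ c))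
    (he : ∀ c, φ (e c) = e' (φ c)) {Ψ : Fin 3 → ℤ[X]} {m : ℕ}
    (hs : ∀ y : B, 3 ^ m • y = 0 → ∃ c, 3 ^ m • c = 0 ∧ y = φ c) (h : Kill j e Ψ m) :
    Kill j' e' Ψ m := fun y hy => by
  obtain ⟨c, h1, rfl⟩ := hs y hy
  rw [← op_semi11 φ hj he, h c h1, map_zero]

end op

namespace Fm

variable {C : Type} [Field C] {K0 : Subfield C} {v0 : Valuation K0 ℝ≥0} {p : ℕ} {hp : p ≠ 0}
  {σ : K0 →+* K0} {X : Vs C K0 v0 p hp σ} {g : ℕ} {F : K0[X]} {N : Fin g → Fin g → K0}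
  {J : Matrix (Fin g) (Fin g) ℤ} (Y : Fm X g F N J)

theorem spc_fix11 {e : SI X.Ω Y.L X.Ω Y.L} (he : Y.Fx e)
    (hc : ∀ c, e.s (algebraMap C X.Ω c) = algebraMap C X.Ω c) (hs : ∀ a, X.v (e.s a) = X.v a)
    (eb : SI X.k' Y.κ X.k' Y.κ) (hx : eb.f Y.xb = Y.xb) (hw : eb.f Y.wb = Y.wb)
    (hr : ∀ a, X.v a ≤ 1 → X.ρ (e.s a) = eb.s (X.ρ a)) (y : Pic X.Ω Y.L) :
    Y.spc (e.pic y) = eb.pic (Y.spc y) := by
  obtain ⟨h1, h2⟩ := Y.Fx_zw e he fun a _ => hc a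
  obtain ⟨e1, h3, h4, h5⟩ := Y.ng.disc.exists_bar e (Y.ng.nr.W_fix e hs h1)
  rw [spc, Y.ng.disc.spPic_pic e h5]
  refine pic_congr (Fa.SI_ext Y.ng.nr.hyb (fun c => ?_) ?_ ?_) _
  · obtain ⟨a, ha, rfl⟩ := X.res.surj c
    rw [← h4 a ha, hr a ha]
  · rw [hx, ← Y.ng.nr.rx, ← h3 _ Y.ng.nr.wx, h1]
  · rw [hw, ← Y.ng.rw, ← h3 _ Y.ng.nr.W_w.le, h2]

/-- powers of the Frobenius lift -/
structure Ad11 (S : SI X.Ω Y.L X.Ω Y.L) : Prop where
  fx : Y.Fx S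
  con : ∃ s : C ≃+* C, ∀ c, S.s (algebraMap C X.Ω c) = algebraMap C X.Ω (s c)
  iso : ∀ a, X.v (S.s a) = X.v a
  frob : ∃ q : ℕ, ∀ a, X.v a ≤ 1 → X.ρ (S.s a) = X.ρ a ^ q

theorem ad_e11 : Y.Ad11 Y.e := by
  refine ⟨Y.e_Fx, ⟨X.s, ?_⟩, ?_, p, fun a ha => ?_⟩
  · rw [Y.e_s]; exact X.S_C
  · rw [Y.e_s]; exact X.S_iso
  · rw [Y.e_s, ← X.res.pow ha, X.res.eq_iff (by rw [X.S_iso]; exact ha)
      (by rw [map_pow]; exact pow_le_one₀ zero_le' ha)]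
    exact X.S_res a ha

theorem exists_ad11 (i : ℕ) : ∃ S, Y.Ad11 S ∧ ∀ y, S.pic y = Y.e.pic.toAddMonoidHom^[i] y := by
  induction i with
  | zero =>
    have h1 : ∀ a, (Y.e.trans Y.e.symm).s a = a := fun a => Y.e.s.symm_apply_apply a
    exact ⟨Y.e.trans Y.e.symm, ⟨Y.Fx_trans _ _ Y.e_Fx (Y.Fx_symm _ Y.e_Fx),
      ⟨RingEquiv.refl C, fun c => h1 _⟩, fun a => by rw [h1], 1, fun a _ => by rw [h1, pow_one]⟩,
      fun y => by rw [SI.pic_trans, symm_pic_pic]; rfl⟩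
  | succ i ih =>
    obtain ⟨S, ⟨h1, ⟨s, h2⟩, h3, q, h4⟩, h5⟩ := ih
    obtain ⟨h1', ⟨s', h2'⟩, h3', q', h4'⟩ := Y.ad_e11
    refine ⟨S.trans Y.e, ⟨Y.Fx_trans _ _ h1 h1', ⟨s.trans s', fun c => ?_⟩,
      fun a => (h3' _).trans (h3 a), q * q', fun a ha => ?_⟩, fun y => ?_⟩
    · change Y.e.s (S.s _) = _
      rw [h2, h2']; rfl
    · change X.ρ (Y.e.s (S.s a)) = _
      rw [h4' _ (by rw [h3]; exact ha), h4 a ha, pow_mul]
    · rw [SI.pic_trans, h5, Function.iterate_succ_apply']; rfl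

theorem spc_comm11 {e : SI X.Ω Y.L X.Ω Y.L} (he : Y.Fx e)
    (hc : ∀ c, e.s (algebraMap C X.Ω c) = algebraMap C X.Ω c) (hs : ∀ a, X.v (e.s a) = X.v a)
    (γ : X.k' ≃+* X.k') (hr : ∀ a, X.v a ≤ 1 → X.ρ (e.s a) = γ (X.ρ a))
    (b : Pic X.Ω Y.L → Pic X.Ω Y.L) (hb : ∀ e, Y.Fx e → ∀ y, e.pic (b y) = b (e.pic y))
    {S : SI X.Ω Y.L X.Ω Y.L} (hS : Y.Ad11 S) (y : Pic X.Ω Y.L) :
    Y.spc (e.pic (b (S.pic y))) = Y.spc (b (S.pic (e.pic y))) := by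
  obtain ⟨s, h2⟩ := hS.con
  obtain ⟨q, hq⟩ := hS.frob
  let τ := (S.symm.trans e.symm).trans (S.trans e)
  have hτ : Y.Fx τ := Y.Fx_trans _ _ (Y.Fx_trans _ _ (Y.Fx_symm _ hS.fx) (Y.Fx_symm _ he))
    (Y.Fx_trans _ _ hS.fx he)
  have hτs : ∀ a, τ.s (S.s (e.s a)) = e.s (S.s a) := fun a => by
    change e.s (S.s (e.s.symm (S.s.symm _))) = _
    rw [RingEquiv.symm_apply_apply, RingEquiv.symm_apply_apply]
  have h4 : e.pic (S.pic y) = τ.pic (S.pic (e.pic y)) := by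
    rw [SI.pic_trans, SI.pic_trans, SI.pic_trans, symm_pic_pic, symm_pic_pic]
  rw [hb e he, h4, ← hb τ hτ, Y.spc_fix11 hτ (fun c => ?_) (fun a => ?_) (SI.refl _ _) rfl rfl
    (fun a ha => ?_), refl_pic]
  · obtain ⟨c, rfl⟩ := s.surjective c
    have h5 := hτs (algebraMap C X.Ω c)
    rwa [hc, h2, hc] at h5
  · obtain ⟨a, rfl⟩ := S.s.surjective a
    obtain ⟨a, rfl⟩ := e.s.surjective a
    rw [hτs, hs, hS.iso, hS.iso, hs]
  · obtain ⟨a, rfl⟩ := S.s.surjective a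
    obtain ⟨a, rfl⟩ := e.s.surjective a
    rw [hS.iso] at ha
    have ha' : X.v a ≤ 1 := by rwa [hs] at ha
    change _ = X.ρ _
    rw [hτs, hr _ (by rw [hS.iso]; exact ha'), hq _ ha, hq _ ha', hr _ ha', map_pow]

theorem spc_op11 {e : SI X.Ω Y.L X.Ω Y.L} (he : Y.Fx e)
    (hc : ∀ c, e.s (algebraMap C X.Ω c) = algebraMap C X.Ω c) (hs : ∀ a, X.v (e.s a) = X.v a)
    (γ : X.k' ≃+* X.k') (hr : ∀ a, X.v a ≤ 1 → X.ρ (e.s a) = γ (X.ρ a)) (Ψ : Fin 3 → ℤ[X])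
    (y : Pic X.Ω Y.L) : Y.spc (e.pic (op Y.j Y.e.pic.toAddMonoidHom Ψ y)) =
      Y.spc (op Y.j Y.e.pic.toAddMonoidHom Ψ (e.pic y)) := by
  rw [op, op, map_sum, map_sum, map_sum]
  refine Finset.sum_congr rfl fun i _ => ?_
  obtain ⟨S, hS, h1⟩ := Y.exists_ad11 i
  rw [← h1, ← h1]
  exact Y.spc_comm11 he hc hs γ hr _
    (fun e he y => aeval_semi11 e.pic.toAddMonoidHom Y.j Y.j (Y.j_comm e he) (Ψ i) y) hS y

variable {a b : K0}

theorem on_t11 (h : GdP v0 F a b) : X.em (wt F a b) ^ 2 =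
    (F.map ((algebraMap C X.Ω).comp K0.subtype)).eval
      (X.em (PowerSeries.C a + PowerSeries.X)) := by
  rw [← Gen.em_pow X h.ai_wt, (wt_spec h.two_ne h.b_ne h.on).1, Gen.em_aeval X h.ai_x h.cF,
    ← Polynomial.map_map, eval_map_algebraMap]

theorem on_011 (h : GdP v0 F a b) : algebraMap C X.Ω b ^ 2 =
    (F.map ((algebraMap C X.Ω).comp K0.subtype)).eval (algebraMap C X.Ω a) := by
  have h1 := congrArg ((algebraMap C X.Ω).comp K0.subtype) h.on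
  rw [map_pow, ← eval₂_at_apply, ← eval_map] at h1
  exact h1

theorem pl_pt11 {e : SI X.Ω Y.L X.Ω Y.L} (hz : e.f Y.z = Y.z) (hw : e.f Y.w = Y.w) {α β : X.Ω}
    (h : β ^ 2 = (F.map ((algebraMap C X.Ω).comp K0.subtype)).eval α) :
    e.pl (Hy.pt Y.z Y.w α β) = Hy.pt Y.z Y.w (e.s α) (e.s β) := by
  have h1 := (Y.ng.nr.hyp.at_pt h).SI e
  rw [hz, hw] at h1
  exact (Y.ng.nr.hyp.pt_eq h1).symm

theorem degPic_x11 (a b : K0) : degPic (Y.x a b) = 0 := by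
  rw [x, map_sub, degPic_cls, degPic_cls, degD_single, degD_single,
    Crest.Agent.R013.CE5_280.degP_eq_one, Crest.Agent.R013.CE5_280.degP_eq_one, sub_self]

theorem pic_x11 (h : GdP v0 F a b) {e : SI X.Ω Y.L X.Ω Y.L} (he : Y.Fx e)
    (hc : ∀ c, e.s (algebraMap C X.Ω c) = algebraMap C X.Ω c)
    (ht : e.s (X.em PowerSeries.X) = X.em PowerSeries.X)
    (hw : e.s (X.em (wt F a b)) = X.em (wt F a b)) : e.pic (Y.x a b) = Y.x a b := by
  obtain ⟨h1, h2⟩ := Y.Fx_zw e he fun a _ => hc a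
  have h3 : e.s (X.em (PowerSeries.C a + PowerSeries.X)) =
      X.em (PowerSeries.C a + PowerSeries.X) := by rw [Gen.em_x X h.va, map_add, hc, ht]
  rw [x, map_sub, SI.pic_cls, SI.pic_cls, SI.D_single, SI.D_single, Y.pl_pt11 h1 h2 (on_t11 h),
    Y.pl_pt11 h1 h2 (on_011 h), h3, hw, hc, hc]

/-- **TRI** on a frame -/
theorem tri (h : GdP v0 F a b) (hP : HasPair p X.k (X.ρ (X.em PowerSeries.X)) Y.xb Y.wb) :
    Rat.Tri 3 p (Kill Y.j Y.e.pic.toAddMonoidHom) (Y.Cg a b) := by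
  obtain ⟨S, hzS, hS⟩ := (Gen.gp_t X).exists_fin {X.em (wt F a b)}
  obtain ⟨B, hB1, hB2⟩ := hP S hzS
  have key : ∀ eb, Fa.Fx X.k S Y.xb Y.wb eb → ∃ e : SI X.Ω Y.L X.Ω Y.L,
      e.pic (Y.x a b) = Y.x a b ∧ ∀ Ψ y, eb.pic (Y.spc (opH11 Y.j Y.e.pic.toAddMonoidHom Ψ y)) =
        Y.spc (opH11 Y.j Y.e.pic.toAddMonoidHom Ψ (e.pic y)) := by
    rintro eb ⟨h1, h2, h3, h4⟩
    obtain ⟨γ, hg1, hg2, hg3, hg4, hg5⟩ := hS eb.s h3 h4
    obtain ⟨e, he, rfl⟩ := Y.Fx_ex γ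
    refine ⟨e, Y.pic_x11 h he hg1 hg2 (hg3 _ (Finset.mem_singleton_self _)), fun Ψ y => ?_⟩
    rw [← Y.spc_fix11 he hg1 hg4 eb h1 h2 hg5]
    exact Y.spc_op11 he hg1 hg4 eb.s hg5 Ψ y
  have h2 : ∀ Ψ, Y.spc (opH11 Y.j Y.e.pic.toAddMonoidHom Ψ (Y.x a b)) ∈ Fa.Gam X.k S Y.xb Y.wb :=
    fun Ψ eb hb => by
      obtain ⟨e, h3, h4⟩ := key eb hb
      rw [h4, h3]
  let φ : (Fin 3 → ℤ[X]) →+ Fa.Gam X.k S Y.xb Y.wb :=
    { toFun := fun Ψ => ⟨_, h2 Ψ⟩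
      map_zero' := Subtype.ext (by simp)
      map_add' := fun Ψ Ψ' => Subtype.ext (by simp) }
  refine ⟨_, inferInstance, φ, B, hB1, fun Ψ m hk => ?_, fun Ψ h0 => hB2 _ h0⟩
  obtain ⟨y, -, hy⟩ := exists_div_pic (pow_pos (by norm_num : 0 < 3) m) (Y.degPic_x11 a b)
  refine ⟨⟨Y.spc (opH11 Y.j Y.e.pic.toAddMonoidHom Ψ y), fun eb hb => ?_⟩, Subtype.ext ?_⟩
  · obtain ⟨e, h3, h4⟩ := key eb hb
    have h5 : opH11 Y.j Y.e.pic.toAddMonoidHom Ψ (e.pic y - y) = 0 :=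
      hk _ (by rw [nsmul_sub, ← map_nsmul, hy, h3, sub_self])
    rw [map_sub, sub_eq_zero] at h5
    rw [h4, h5]
  · change Y.spc (opH11 Y.j Y.e.pic.toAddMonoidHom Ψ (Y.x a b)) =
      3 ^ m • Y.spc (opH11 Y.j Y.e.pic.toAddMonoidHom Ψ y)
    rw [← hy, map_nsmul, map_nsmul]

end Fm

end Crest.Agent.T15.Hon
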