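import Mathlib
import Crest.Agent.T15.IdWF_11
import Crest.Agent.T15.FaG_51
import Crest.Agent.T15.FaP_34

/-!
# Row 15 (helper11): `Rat.Tri` on the frame `Fm`, unconditional
-/

set_option autoImplicit false
set_option linter.all false

noncomputable section

open scoped NNReal PowerSeries
open Polynomial
open Crest.Agent.R013.GR4_921 Crest.Agent.R013.GR6_921

namespace Crest.Agent.T15.Id

theorem res_natCast11 {L κ : Type*} [Field L] [Field κ] {w : Valuation L ℝ≥0} {ρ : L → κ}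
    (h : IsRes w ρ) (n : ℕ) : ρ n = n := by
  induction n with
  | zero => simpa using h.zero
  | succ n ih =>
    rw [Nat.cast_succ, h.add _ _ (Hon.v_natCast_le w n) (by simp), ih, h.one, Nat.cast_succ]

theorem ringExpChar_res11 {L κ : Type*} [Field L] [Field κ] {w : Valuation L ℝ≥0} {ρ : L → κ}
    (h : IsRes w ρ) {p : ℕ} (hp : p.Prime) (h1 : w p < 1) : ringExpChar κ = p := by
  have h2 : (p : κ) = 0 := by
    rw [← res_natCast11 h]; exact (h.zero_iff _ h1.le).mpr h1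
  haveI := (CharP.charP_iff_prime_eq_zero (R := κ) hp).mpr h2
  haveI : ExpChar κ p := ExpChar.prime hp
  exact ringExpChar.eq κ p

/-- the height pairing in the words of the wrapper -/
theorem hasPair {k : Type*} {Ω L : Type} [Field k] [Field Ω] [Field L] [Algebra k Ω]
    [IsAlgClosed k] [IsAlgClosed Ω]
    [Algebra Ω L] [Algebra (RatFunc Ω) L] [IsScalarTower Ω (RatFunc Ω) L]
    [FiniteDimensional (RatFunc Ω) L] [Algebra.IsSeparable (RatFunc Ω) L] {z : Ω} {x w : L}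
    (hz : Transcendental k z) (ha : Algebra.IsAlgebraic (IntermediateField.adjoin k {z}) Ω)
    {F : k[X]} (h : Hy.Hyp (F.map (algebraMap k Ω)) x w) (ho : Odd F.natDegree) :
    HasPair (ringExpChar k) k z x w := fun S _ => by
  obtain ⟨T, ν, hP⟩ := Fa.exists_pf k z S hz
  obtain ⟨B, -, h1, -, h2⟩ := Fa.pairing_of hP h ho
  exact ⟨B, h1, h2⟩

end Crest.Agent.T15.Id

namespace Crest.Agent.T15.Hon.Fm

variable {C : Type} [Field C] {K0 : Subfield C} {v0 : Valuation K0 ℝ≥0} {p : ℕ} {hp : p ≠ 0}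
  {σ : K0 →+* K0} {X : Vs C K0 v0 p hp σ} {g : ℕ} {F : K0[X]} {N : Fin g → Fin g → K0}
  {J : Matrix (Fin g) (Fin g) ℤ} (Y : Fm X g F N J)

theorem Fb_eq11 (hF : ∀ n, v0 (F.coeff n) ≤ 1) :
    Y.Fb = (redP X.ρC (F.map K0.subtype)).map (algebraMap X.k X.k') := by
  have h1 := Y.ng.nr.red
  rw [one_pow, one_mul, ← Polynomial.map_map] at h1
  rw [← h1]
  refine Id.redP_map' X.resC X.res X.comp fun n => ?_
  rw [coeff_map]
  change X.v _ ≤ 1
  exact (X.v_K0 _).trans_le (hF n)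

theorem hasPair11 (U : Un v0 p σ) (hF : ∀ n, v0 (F.coeff n) ≤ 1) :
    Id.HasPair p X.k (X.ρ (X.em PowerSeries.X)) Y.xb Y.wb := by
  have h1 : ringExpChar X.k = p := Id.ringExpChar_res11 X.resC U.prime (by
    have h2 := X.v_K0 p
    change X.v (algebraMap C X.Ω (p : C)) < 1
    exact (X.v_K0 p).trans_lt U.lt)
  have h3 := Y.ng.nr.hyb
  have h4 := Y.degb
  rw [Y.Fb_eq11 hF] at h3 h4
  rw [natDegree_map] at h4
  have h5 := Id.hasPair X.tr (Gen.gp_t X).alg_res h3 ⟨g, h4⟩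
  rwa [h1] at h5

/-- **TRI** on a frame, unconditional -/
theorem tri_U (U : Un v0 p σ) {a b : K0} (h : GdP v0 F a b) :
    Rat.Tri 3 p (Kill Y.j Y.e.pic.toAddMonoidHom) (Y.Cg a b) :=
  Y.tri h (Y.hasPair11 U h.cF)

end Crest.Agent.T15.Hon.Fm
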