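import Mathlib
import Crest.Agent.T15.NgB_77
import Crest.Agent.T15.MoB_29
import Crest.Agent.T15.HopfB_71

/-!
# Row 15 (helper77): naive good reduction of the curve `Y` of the family

* `Gd v P` : `2`, the `p_i`, the `d_i` and `t` are units; `Gd.red` the reduced parameters;
* `Gd.exists_NG` : good reduction; `Gd.W_act` : every `Act` preserves the Gauss norm;
* `NG.pic_triv` : automorphisms trivial on the residues act trivially on the torsion;
* `exists_good_off` : an odd separable polynomial with algebraic coefficients is good off some `B`.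
-/

set_option autoImplicit false
set_option linter.all false

namespace Crest.Agent.T15.Ng

open Polynomial WithZero Module
open scoped NNReal
open Crest.Agent.R013.RR7_948 Crest.Agent.R013.RR8_948 Crest.Agent.R013.RR9_948
open Crest.Agent.R013.RR11_948 Crest.Agent.R013.RR12_948 Crest.Agent.R013.PicD_398
open Crest.Agent.R013.GR2_921 Crest.Agent.R013.Frob1_914
open Crest.Agent.R013.GR4_921 Crest.Agent.R013.GR6_921
open Crest.Agent.T15.Hy Crest.Agent.T15.Mo

section units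

variable {C : Type*} [Field C] {v : Valuation C ℝ≥0}

theorem unit_of_mul {x y : C} (hx : v x ≤ 1) (hy : v y ≤ 1) (h : v (x * y) = 1) :
    v x = 1 ∧ v y = 1 := by
  rw [map_mul] at h
  refine ⟨le_antisymm hx ?_, le_antisymm hy ?_⟩
  · calc (1 : ℝ≥0) = v x * v y := h.symm
      _ ≤ v x * 1 := by gcongr
      _ = v x := mul_one _
  · calc (1 : ℝ≥0) = v x * v y := h.symm
      _ ≤ 1 * v y := by gcongr
      _ = v y := one_mul _

theorem unit_of_sq {x : C} (h : v (x ^ 2) = 1) : v x = 1 := by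
  rw [map_pow] at h
  exact (pow_eq_one_iff_of_nonneg zero_le two_ne_zero).mp h

theorem v_add_le {x y : C} (hx : v x ≤ 1) (hy : v y ≤ 1) : v (x + y) ≤ 1 :=
  (Valuation.map_add _ _ _).trans (max_le hx hy)

theorem v_sub_le {x y : C} (hx : v x ≤ 1) (hy : v y ≤ 1) : v (x - y) ≤ 1 :=
  (Valuation.map_sub _ _ _).trans (max_le hx hy)

theorem v_nat_le (n : ℕ) : v (n : C) ≤ 1 := by
  induction n with
  | zero => simp
  | succ n ih => rw [Nat.cast_succ]; exact v_add_le ih (by simp)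

theorem v_int_le (n : ℤ) : v (n : C) ≤ 1 := by
  rcases Int.natAbs_eq n with h | h
  · rw [h, Int.cast_natCast]; exact v_nat_le _
  · rw [h, Int.cast_neg, Int.cast_natCast, Valuation.map_neg]; exact v_nat_le _

/-- integers prime to the residue characteristic are units -/
theorem v_int_eq {p : ℕ} (hp : p.Prime) (hv : v (p : C) < 1) {n : ℤ} (hn : ¬ (p : ℤ) ∣ n) :
    v (n : C) = 1 := by
  refine le_antisymm (v_int_le n) (not_lt.mp fun h => ?_)
  obtain ⟨a, b, hab⟩ := ((Nat.prime_iff_prime_int.mp hp).coprime_iff_not_dvd).mpr hn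
  have h1 : (a : C) * p + b * n = 1 := by exact_mod_cast congrArg (Int.cast : ℤ → C) hab
  have h2 : v ((a : C) * p + b * n) < 1 := by
    refine Valuation.map_add_lt _ ?_ ?_ <;> rw [map_mul]
    · exact mul_lt_one_of_nonneg_of_lt_one_right (v_int_le a) zero_le hv
    · exact mul_lt_one_of_nonneg_of_lt_one_right (v_int_le b) zero_le h
  rw [h1, map_one] at h2
  exact lt_irrefl _ h2

theorem v_nat_eq {p : ℕ} (hp : p.Prime) (hv : v (p : C) < 1) {n : ℕ} (hn : ¬ p ∣ n) :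
    v (n : C) = 1 := by
  have := v_int_eq hp hv (n := n) (by exact_mod_cast hn)
  rwa [Int.cast_natCast] at this

theorem res_nat {k : Type*} [Field k] {ρ : C → k} (h : IsRes v ρ) (n : ℕ) : ρ n = n := by
  induction n with
  | zero => simp [h.zero]
  | succ n ih => rw [Nat.cast_succ, h.add _ _ (v_nat_le n) (by simp), ih, h.one, Nat.cast_succ]

theorem res_two {k : Type*} [Field k] {ρ : C → k} (h : IsRes v ρ) : ρ 2 = 2 := by
  exact_mod_cast res_nat h 2

theorem v_two_le : v (2 : C) ≤ 1 := by exact_mod_cast v_nat_le (v := v) 2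

end units

/-- all the parameters are units -/
structure Gd {C : Type*} [Field C] (v : Valuation C ℝ≥0) (P : Par C) : Prop where
  two : v 2 = 1
  p1 : v P.p1 = 1
  p2 : v P.p2 = 1
  p3 : v P.p3 = 1
  d1 : v P.d1 = 1
  d2 : v P.d2 = 1
  d3 : v P.d3 = 1
  t : v P.t = 1

/-- `Gd` from integer parameters -/
theorem gd_of_int {C : Type*} [Field C] {v : Valuation C ℝ≥0} {P : Par C} {p1 p2 p3 t : ℤ}
    (h1 : P.p1 = p1) (h2 : P.p2 = p2) (h3 : P.p3 = p3) (ht : P.t = t) {l : ℕ} (hl : l.Prime)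
    (hv : v (l : C) < 1)
    (hd : ¬ (l : ℤ) ∣ 2 * p1 * p2 * p3 * (p2 - p3) * (p3 - p1) * (p1 - p2) * t) : Gd v P := by
  have key : ∀ n : ℤ, n ∣ 2 * p1 * p2 * p3 * (p2 - p3) * (p3 - p1) * (p1 - p2) * t →
      v (n : C) = 1 := fun n hn => v_int_eq hl hv fun h => hd (h.trans hn)
  refine ⟨?_, ?_, ?_, ?_, ?_, ?_, ?_, ?_⟩
  · exact_mod_cast key 2 ⟨p1 * p2 * p3 * (p2 - p3) * (p3 - p1) * (p1 - p2) * t, by ring⟩
  · rw [h1]; exact key p1 ⟨2 * p2 * p3 * (p2 - p3) * (p3 - p1) * (p1 - p2) * t, by ring⟩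
  · rw [h2]; exact key p2 ⟨2 * p1 * p3 * (p2 - p3) * (p3 - p1) * (p1 - p2) * t, by ring⟩
  · rw [h3]; exact key p3 ⟨2 * p1 * p2 * (p2 - p3) * (p3 - p1) * (p1 - p2) * t, by ring⟩
  · rw [Par.d1, h2, h3]
    exact_mod_cast key (p2 - p3) ⟨2 * p1 * p2 * p3 * (p3 - p1) * (p1 - p2) * t, by ring⟩
  · rw [Par.d2, h3, h1]
    exact_mod_cast key (p3 - p1) ⟨2 * p1 * p2 * p3 * (p2 - p3) * (p1 - p2) * t, by ring⟩
  · rw [Par.d3, h1, h2]
    exact_mod_cast key (p1 - p2) ⟨2 * p1 * p2 * p3 * (p2 - p3) * (p3 - p1) * t, by ring⟩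
  · rw [ht]; exact key t ⟨2 * p1 * p2 * p3 * (p2 - p3) * (p3 - p1) * (p1 - p2), by ring⟩

namespace Gd

variable {C k : Type*} [Field C] [Field k] {v : Valuation C ℝ≥0} {ρ : C → k} {P : Par C}
  (g : Gd v P)
include g

theorem two_ne : (2 : C) ≠ 0 := by
  intro h; have := g.two; rw [h] at this; simp at this

theorem al : v P.al = 1 := unit_of_sq (by rw [P.al_sq]; simp [g.p2, g.d2])
theorem be : v P.be = 1 := unit_of_sq (by rw [P.be_sq]; simp [g.p3, g.d3])

theorem add_sub : v (P.al + P.be) = 1 ∧ v (P.al - P.be) = 1 :=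
  unit_of_mul (v_add_le g.al.le g.be.le) (v_sub_le g.al.le g.be.le)
    (by rw [P.sq_sub]; simp [g.p1, g.d1])

theorem add_sub2 : v (P.al * P.p3 + P.be * P.p2) = 1 ∧ v (P.al * P.p3 - P.be * P.p2) = 1 :=
  unit_of_mul (v_add_le (by simp [g.al, g.p3]) (by simp [g.be, g.p2]))
    (v_sub_le (by simp [g.al, g.p3]) (by simp [g.be, g.p2]))
    (by rw [P.sq_sub2]; simp [g.p1, g.p2, g.p3, g.d1])

theorem add3 : v (P.be * P.d3 * P.p2 + P.al * P.d2 * P.p3) = 1 :=
  (unit_of_mul (y := P.be * P.d3 * P.p2 - P.al * P.d2 * P.p3)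
    (v_add_le (by simp [g.be, g.d3, g.p2]) (by simp [g.al, g.d2, g.p3]))
    (v_sub_le (by simp [g.be, g.d3, g.p2]) (by simp [g.al, g.d2, g.p3]))
    (by rw [P.sq_sub3]; simp [g.p1, g.p2, g.p3, g.d1])).1

theorem a1 : v P.a1 = 1 := by simp [Par.a1, g.p1, g.d1]
theorem a2 : v P.a2 = 1 := by simp [Par.a2, g.p1, g.d1]
theorem a3 : v P.a3 = 1 := by rw [P.a3_eq]; simp [g.add_sub.1, g.add_sub.2]
theorem b : v P.b = 1 := by simp [Par.b, g.add_sub2.1, g.add_sub2.2]
theorem c : v P.c = 1 := by rw [P.c_eq]; simp [g.t, g.p1, g.add3, g.two, g.al, g.be]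

theorem int_F : IntP v P.F :=
  ((((intP_C g.c.le).mul intP_X).mul ((intP_X.pow 2).sub (intP_C g.a1.le))).mul
    ((intP_X.pow 2).sub (intP_C g.a2.le))).mul ((intP_X.pow 2).sub (intP_C g.a3.le))

/-- isometric images -/
theorem map {C' : Type*} [Field C'] {v' : Valuation C' ℝ≥0} (f : C →+* C')
    (hf : ∀ c, v' (f c) = v c) : Gd v' (P.map f) := by
  refine ⟨?_, ?_, ?_, ?_, ?_, ?_, ?_, ?_⟩
  · rw [← map_ofNat f 2, hf, g.two]
  all_goals simp only [Par.map_p1, Par.map_p2, Par.map_p3, Par.map_d1, Par.map_d2, Par.map_d3,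
    Par.map_t, hf]
  exacts [g.p1, g.p2, g.p3, g.d1, g.d2, g.d3, g.t]

variable (h : IsRes v ρ)
include h

theorem ne {x : C} (hx : v x = 1) : ρ x ≠ 0 := (h.ne_zero_iff hx.le).mpr hx

theorem two_ne_res : (2 : k) ≠ 0 := by rw [← res_two h]; exact g.ne h g.two

/-- the reduced parameters -/
def red : Par k where
  p1 := ρ P.p1
  p2 := ρ P.p2
  p3 := ρ P.p3
  t := ρ P.t
  al := ρ P.al
  be := ρ P.be
  sum := by
    rw [← h.add _ _ g.p1.le g.p2.le, ← h.add _ _ (v_add_le g.p1.le g.p2.le) g.p3.le, P.sum, h.zero]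
  h1 := g.ne h g.p1
  h2 := g.ne h g.p2
  h3 := g.ne h g.p3
  k1 := by rw [← h.sub g.p2.le g.p3.le]; exact g.ne h g.d1
  k2 := by rw [← h.sub g.p3.le g.p1.le]; exact g.ne h g.d2
  k3 := by rw [← h.sub g.p1.le g.p2.le]; exact g.ne h g.d3
  ht := g.ne h g.t
  hal := by
    rw [← h.pow g.al.le, P.al_sq, h.mul _ _ (by simp [g.p2]) g.d2.le, h.neg (by simp [g.p2]),
      h.pow g.p2.le, Par.d2, h.sub g.p3.le g.p1.le]
  hbe := by
    rw [← h.pow g.be.le, P.be_sq, h.mul _ _ (by simp [g.p3]) g.d3.le, h.pow g.p3.le, Par.d3,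
      h.sub g.p1.le g.p2.le]

theorem red_p1 : (g.red h).p1 = ρ P.p1 := rfl
theorem red_p2 : (g.red h).p2 = ρ P.p2 := rfl
theorem red_p3 : (g.red h).p3 = ρ P.p3 := rfl
theorem red_t : (g.red h).t = ρ P.t := rfl
theorem red_al : (g.red h).al = ρ P.al := rfl
theorem red_be : (g.red h).be = ρ P.be := rfl
theorem red_d1 : (g.red h).d1 = ρ P.d1 := (h.sub g.p2.le g.p3.le).symm
theorem red_d2 : (g.red h).d2 = ρ P.d2 := (h.sub g.p3.le g.p1.le).symm
theorem red_d3 : (g.red h).d3 = ρ P.d3 := (h.sub g.p1.le g.p2.le).symm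

theorem red_a1 : (g.red h).a1 = ρ P.a1 := by
  rw [Par.a1, Par.a1, h.div (by simp [g.p1]) g.d1, h.neg g.p1.le, g.red_d1, g.red_p1]

theorem red_a2 : (g.red h).a2 = ρ P.a2 := by
  rw [Par.a2, Par.a2, h.div (by simp [g.d1]) g.p1, h.neg g.d1.le, g.red_d1, g.red_p1]

theorem red_a3 : (g.red h).a3 = ρ P.a3 := by
  rw [Par.a3_eq, Par.a3_eq, h.div g.add_sub.1.le g.add_sub.2, h.add _ _ g.al.le g.be.le,
    h.sub g.al.le g.be.le, g.red_al, g.red_be]

theorem red_b : (g.red h).b = ρ P.b := by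
  rw [Par.b, Par.b, h.div g.add_sub2.1.le g.add_sub2.2,
    h.add _ _ (by simp [g.al, g.p3]) (by simp [g.be, g.p2]),
    h.sub (by simp [g.al, g.p3]) (by simp [g.be, g.p2]), h.mul _ _ g.al.le g.p3.le,
    h.mul _ _ g.be.le g.p2.le, g.red_al, g.red_be, g.red_p2, g.red_p3]

theorem red_c : (g.red h).c = ρ P.c := by
  rw [Par.c_eq, Par.c_eq, h.div (by simp [g.t, g.p1, g.add3]) (by simp [g.two, g.al, g.be]),
    h.mul _ _ (by simp [g.t, g.p1]) g.add3.le, h.mul _ _ g.t.le g.p1.le,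
    h.add _ _ (by simp [g.be, g.d3, g.p2]) (by simp [g.al, g.d2, g.p3]),
    h.mul _ _ (by simp [g.be, g.d3]) g.p2.le, h.mul _ _ g.be.le g.d3.le,
    h.mul _ _ (by simp [g.al, g.d2]) g.p3.le, h.mul _ _ g.al.le g.d2.le,
    h.mul _ _ (by simp [g.two, g.al]) g.be.le, h.mul _ _ g.two.le g.al.le, res_two h,
    g.red_al, g.red_be, g.red_p1, g.red_p2, g.red_p3, g.red_t, g.red_d2, g.red_d3]

theorem red_F : redP ρ P.F = (g.red h).F := by
  have q : ∀ a : C, v a ≤ 1 → IntP v (X ^ 2 - Polynomial.C a) := fun a ha =>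
    (intP_X.pow 2).sub (intP_C ha)
  have r : ∀ a : C, v a ≤ 1 → redP ρ (X ^ 2 - Polynomial.C a) = X ^ 2 - Polynomial.C (ρ a) :=
    fun a ha => by rw [redP_sub h (intP_X.pow 2) (intP_C ha), redP_pow h intP_X, redP_X h, redP_C h]
  have h0 : IntP v (Polynomial.C P.c * X) := (intP_C g.c.le).mul intP_X
  rw [Par.F, Par.F, Fm, Fm, redP_mul h ((h0.mul (q _ g.a1.le)).mul (q _ g.a2.le)) (q _ g.a3.le),
    redP_mul h (h0.mul (q _ g.a1.le)) (q _ g.a2.le), redP_mul h h0 (q _ g.a1.le),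
    redP_mul h (intP_C g.c.le) intP_X, r _ g.a1.le, r _ g.a2.le, r _ g.a3.le, redP_C h, redP_X h,
    g.red_a1, g.red_a2, g.red_a3, g.red_c]

theorem deg_red : (g.red h).F.natDegree = 7 := (g.red h).natDegree_F (g.two_ne_res h)

theorem hf : HF (g.red h).F :=
  ⟨g.two_ne_res h, (g.red h).sep_F (g.two_ne_res h), by rw [g.deg_red h]; norm_num⟩

omit h in
/-- an automorphism which is trivial on the residues fixes `al` and `be` -/
theorem fix_al {s : C →+* C} (hf : P.Fix s) (hs : ∀ c, v c ≤ 1 → v (s c - c) < 1) :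
    s P.al = P.al ∧ s P.be = P.be := by
  have key : ∀ a : C, v a = 1 → (s a = a ∨ s a = -a) → s a = a := by
    rintro a ha (h | h)
    · exact h
    · have h1 := hs a ha.le
      rw [h, show -a - a = -(2 * a) by ring, Valuation.map_neg, map_mul, g.two, ha, mul_one] at h1
      exact absurd h1 (lt_irrefl _)
  exact ⟨key _ g.al hf.al, key _ g.be hf.be⟩

end Gd

section act

variable {C Y k κ : Type*} [Field C] [Field Y] [Algebra C Y] [Field k] [IsAlgClosed k] [Field κ]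
  [Algebra k κ] {v : Valuation C ℝ≥0} {ρ : C → k} {W : Valuation Y ℝ≥0} {res : Y → κ}
  {P : Par C} {A B2 u : Y} {H E : k[X]} {zb wb : κ}

/-- every `Act` with an isometric action on the constants preserves the Gauss norm -/
theorem NR.W_act (h : NR v ρ P.F (P.zY A B2 u) (P.wY A B2 u) H E zb wb W res) (hY : IsY P A B2 u)
    (e : SI C Y C Y) (hs : ∀ c, v (e.s c) = v c) {lam : C} (hl : v lam = 1)
    (a : Act P A B2 u (e.s : C →+* C) (e.f : Y →+* Y) lam) (f : Y) : W (e.f f) = W f := by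
  have h2 : v (lam ^ 2) = 1 := by simp [hl]
  have h3 : v (-lam ^ 2) = 1 := by simp [hl]
  rcases a.fix.al with h1 | h1 <;> rcases a.fix.be with h1' | h1'
  · refine h.W_aff e hs h2 (b := 0) (by simp) ?_ f
    simpa using a.z_pp h1 h1'
  · refine h.W_inv e hs h2 ?_ f
    simpa [div_eq_mul_inv] using a.z_pm hY h1 h1'
  · refine h.W_inv e hs h3 ?_ f
    simpa [div_eq_mul_inv] using a.z_mp hY h1 h1'
  · refine h.W_aff e hs h3 (b := 0) (by simp) ?_ f
    simpa using a.z_mm h1 h1'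

/-- the Galois action preserves the Gauss norm -/
theorem NR.W_gal (h : NR v ρ P.F (P.zY A B2 u) (P.wY A B2 u) H E zb wb W res) (hY : IsY P A B2 u)
    (e : SI C Y C Y) (hs : ∀ c, v (e.s c) = v c) (hf : P.Fix e.s) (hA : e.f A = A)
    (hB : e.f B2 = B2) (hu : e.f u = u) (f : Y) : W (e.f f) = W f :=
  h.W_act hY e hs (map_one v) (hY.act_SI e hf hA hB hu) f

/-- inertia acts trivially on the residue field -/
theorem NR.res_gal (h : NR v ρ P.F (P.zY A B2 u) (P.wY A B2 u) H E zb wb W res) (g : Gd v P)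
    (hY : IsY P A B2 u) (e : SI C Y C Y) (hs : ∀ c, v (e.s c) = v c)
    (hr : ∀ c, v c ≤ 1 → v (e.s c - c) < 1) (hf : P.Fix e.s) (hA : e.f A = A)
    (hB : e.f B2 = B2) (hu : e.f u = u) {f : Y} (hf' : W f ≤ 1) : res (e.f f) = res f := by
  obtain ⟨h1, h2⟩ := g.fix_al (s := (e.s : C →+* C)) hf hr
  obtain ⟨h3, h4⟩ := hY.act_pp (hY.act_SI e hf hA hB hu) h1 h2
  refine h.res_triv e (h.W_gal hY e hs hf hA hB hu) hr ?_ ?_ hf'
  · rw [show e.f (P.zY A B2 u) = _ from h3]; simp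
  · rw [show e.f (P.wY A B2 u) = _ from h4]; simp

end act

section good

variable {C K : Type*} [Field C] [IsAlgClosed C] [Field K] [Algebra C K]
  [Algebra (RatFunc C) K] [IsScalarTower C (RatFunc C) K] [FiniteDimensional (RatFunc C) K]
  [Algebra.IsSeparable (RatFunc C) K]
  {k κ : Type*} [Field k] [IsAlgClosed k] [Field κ] [Algebra k κ]
  [Algebra (RatFunc k) κ] [IsScalarTower k (RatFunc k) κ] [FiniteDimensional (RatFunc k) κ]
  [Algebra.IsSeparable (RatFunc k) κ]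
  {v : Valuation C ℝ≥0} {ρ : C → k} {W : Valuation K ℝ≥0} {res : K → κ}

/-- **(NG2)** good reduction of `w² = P.F(z)` -/
theorem Gd.exists_NG {P : Par C} (g : Gd v P) (h : IsRes v ρ) {z w : K} (hy : Hyp P.F z w)
    {zb wb : κ} (hb : Hyp (g.red h).F zb wb) :
    ∃ (W : Valuation K ℝ≥0) (res : K → κ) (sp : Pl C K → Pl k κ),
      NG v ρ P.F z w (g.red h).F zb wb W res sp :=
  Ng.exists_NG h hy hb g.int_F (g.red_F h) (by rw [g.deg_red h]; decide)
    (by rw [g.deg_red h, P.natDegree_F g.two_ne]; norm_num)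

/-- automorphisms which are trivial on the residue field act trivially on the torsion -/
theorem pic_triv [CharZero C] {sp : Pl C K → Pl k κ} (h : Disc.Good v ρ W res sp) (e : SI C K C K)
    (hW : ∀ f, W (e.f f) = W f) (hr : ∀ f, W f ≤ 1 → res (e.f f) = res f) {n : ℕ}
    (hn : (n : k) ≠ 0) {a : Pic C K} (ha : n • a = 0) : e.pic a = a := by
  obtain ⟨eb, h1, -, h3⟩ := h.exists_bar e hW
  have h4 : ∀ z, eb.f z = z := by
    intro z
    obtain ⟨u, hu, rfl⟩ := h.rd.res.surj z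
    rw [← h1 u hu, hr u hu]
  have h5 : ∀ P, sp (e.pl P) = (SI.refl k κ).pl (sp P) := by
    intro P
    rw [h3, SI.pl_refl]
    ext z
    conv_lhs => rw [← h4 z]
    rw [SI.pl_v_apply]
  rw [← sub_eq_zero]
  refine h.eq_zero_of_spPic hn (by rw [nsmul_sub, ← map_nsmul, ha, map_zero, sub_self]) ?_
  rw [map_sub, h.spPic_pic e h5, sub_eq_zero]
  obtain ⟨D, hD⟩ := cls_surjective (h.spPic a)
  rw [← hD, SI.pic_cls]
  congr 1
  rw [Disc.D_eq_mapDomain]
  have : ((SI.refl k κ).pl : Pl k κ → Pl k κ) = id := funext fun P => SI.pl_refl P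
  rw [this, Finsupp.mapDomain_id]

end good

section unr

variable {C Y : Type*} [Field C] [IsAlgClosed C] [CharZero C] [Field Y] [Algebra C Y]
  [Algebra (RatFunc C) Y] [IsScalarTower C (RatFunc C) Y] [FiniteDimensional (RatFunc C) Y]
  [Algebra.IsSeparable (RatFunc C) Y] {v : Valuation C ℝ≥0}

theorem isAlgClosed_res {C k : Type*} [Field C] [IsAlgClosed C] [Field k] {v : Valuation C ℝ≥0}
    {ρ : C → k} (h : IsRes v ρ) : IsAlgClosed k := by
  apply IsAlgClosed.of_exists_root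
  intro p hp hirr
  obtain ⟨q, rfl, hdeg, hq⟩ := lifts_and_degree_eq_and_monic
    ((mem_lifts p).mpr (map_surjective (resHom h) (rd_resHom h).surj p)) hp
  obtain ⟨t, ht⟩ := IsAlgClosed.exists_root (q.map v.integer.subtype) (by
    rw [hq.degree_map, hdeg]; exact (degree_pos_of_irreducible hirr).ne')
  have h1 : v t ≤ 1 := (Valuation.integer.integers v).mem_of_integral
    ⟨q, hq, by rw [← eval_map]; exact ht⟩
  refine ⟨resHom h ⟨t, h1⟩, ?_⟩
  have h2 : q.eval ⟨t, h1⟩ = 0 := Subtype.ext (by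
    have := ht.eq_zero
    rw [eval_map, show t = v.integer.subtype ⟨t, h1⟩ from rfl, eval₂_at_apply] at this
    exact this)
  rw [eval_map, eval₂_at_apply, h2, map_zero]

theorem exists_res {C : Type*} [Field C] [IsAlgClosed C] (v : Valuation C ℝ≥0) :
    ∃ ρ : C → IsLocalRing.ResidueField v.valuationSubring, IsRes v ρ ∧
      IsAlgClosed (IsLocalRing.ResidueField v.valuationSubring) := by
  obtain ⟨ρ, h, -⟩ := exists_isRes v
  exact ⟨ρ, h, isAlgClosed_res h⟩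

/-- **unramified at the good places** -/
theorem Gd.unr {P : Par C} (g : Gd v P) {A B2 u : Y} (hY : IsY P A B2 u) (e : SI C Y C Y)
    (hs : ∀ c, v (e.s c) = v c) (hr : ∀ c, v c ≤ 1 → v (e.s c - c) < 1) (hf : P.Fix e.s)
    (hA : e.f A = A) (hB : e.f B2 = B2) (hu : e.f u = u) {n : ℕ} (hn : v (n : C) = 1)
    {a : Pic C Y} (ha : n • a = 0) : e.pic a = a := by
  obtain ⟨ρ, h, hk⟩ := exists_res v
  haveI := g.hf h
  obtain ⟨W, res, sp, hN⟩ := g.exists_NG h hY.hyp (Hf.hyp (g.red h).F)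
  exact pic_triv hN.disc e (hN.nr.W_gal hY e hs hf hA hB hu)
    (fun f hf' => hN.nr.res_gal g hY e hs hr hf hA hB hu hf')
    (by rw [← res_nat h]; exact g.ne h hn) ha

end unr

section off

variable {C : Type*} [Field C] [CharZero C]

theorem v_le_of_isIntegral {v : Valuation C ℝ≥0} {c : C} (hc : IsIntegral ℤ c) : v c ≤ 1 :=
  (Valuation.integer.integers v).mem_of_integral hc.tower_top

/-- algebraic numbers are integral off some `B` -/
theorem exists_int_off {c : C} (hc : IsAlgebraic ℚ c) :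
    ∃ B : ℕ, B ≠ 0 ∧ ∀ v : Valuation C ℝ≥0, v (B : C) = 1 → v c ≤ 1 := by
  obtain ⟨y, hy, h⟩ := ((IsFractionRing.isAlgebraic_iff ℤ ℚ C).mpr hc).exists_integral_multiple
  refine ⟨y.natAbs, Int.natAbs_ne_zero.mpr hy, fun v hv => ?_⟩
  have h1 := v_le_of_isIntegral (v := v) h
  have h2 : v (y : C) = 1 := by
    rcases Int.natAbs_eq y with h3 | h3
    · rw [h3, Int.cast_natCast, hv]
    · rw [h3, Int.cast_neg, Int.cast_natCast, Valuation.map_neg, hv]
  rwa [zsmul_eq_mul, map_mul, h2, one_mul] at h1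

theorem exists_off_finset {ι : Type*} (s : Finset ι) (Q : ι → Valuation C ℝ≥0 → Prop)
    (h : ∀ i ∈ s, ∃ B : ℕ, B ≠ 0 ∧ ∀ v : Valuation C ℝ≥0, v (B : C) = 1 → Q i v) :
    ∃ B : ℕ, B ≠ 0 ∧ ∀ v : Valuation C ℝ≥0, v (B : C) = 1 → ∀ i ∈ s, Q i v := by
  classical
  induction s using Finset.induction_on with
  | empty => exact ⟨1, one_ne_zero, by simp⟩
  | insert a s ha ih =>
    obtain ⟨B, hB, h1⟩ := h a (Finset.mem_insert_self _ _)
    obtain ⟨B', hB', h2⟩ := ih fun i hi => h i (Finset.mem_insert_of_mem hi)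
    refine ⟨B * B', mul_ne_zero hB hB', fun v hv i hi => ?_⟩
    rw [Nat.cast_mul] at hv
    obtain ⟨h3, h4⟩ := unit_of_mul (v_nat_le B) (v_nat_le B') hv
    rcases Finset.mem_insert.mp hi with rfl | hi
    exacts [h1 v h3, h2 v h4 i hi]

theorem off_and {Q Q' : Valuation C ℝ≥0 → Prop}
    (h : ∃ B : ℕ, B ≠ 0 ∧ ∀ v : Valuation C ℝ≥0, v (B : C) = 1 → Q v)
    (h' : ∃ B : ℕ, B ≠ 0 ∧ ∀ v : Valuation C ℝ≥0, v (B : C) = 1 → Q' v) :
    ∃ B : ℕ, B ≠ 0 ∧ ∀ v : Valuation C ℝ≥0, v (B : C) = 1 → Q v ∧ Q' v := by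
  obtain ⟨B, hB, h1⟩ := h
  obtain ⟨B', hB', h2⟩ := h'
  refine ⟨B * B', mul_ne_zero hB hB', fun v hv => ?_⟩
  rw [Nat.cast_mul] at hv
  obtain ⟨h3, h4⟩ := unit_of_mul (v_nat_le B) (v_nat_le B') hv
  exact ⟨h1 v h3, h2 v h4⟩

/-- nonzero algebraic numbers are units off some `B` -/
theorem exists_unit_off {c : C} (hc : IsAlgebraic ℚ c) (h0 : c ≠ 0) :
    ∃ B : ℕ, B ≠ 0 ∧ ∀ v : Valuation C ℝ≥0, v (B : C) = 1 → v c = 1 := by
  obtain ⟨B, hB, h⟩ := off_and (exists_int_off hc) (exists_int_off hc.inv)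
  exact ⟨B, hB, fun v hv => (unit_of_mul (h v hv).1 (h v hv).2 (by simp [h0])).1⟩

variable [Algebra.IsAlgebraic ℚ C]

theorem exists_intP_off (A : C[X]) :
    ∃ B : ℕ, B ≠ 0 ∧ ∀ v : Valuation C ℝ≥0, v (B : C) = 1 → IntP v A := by
  obtain ⟨B, hB, h⟩ := exists_off_finset A.support (fun i v => v (A.coeff i) ≤ 1)
    fun i _ => exists_int_off (Algebra.IsAlgebraic.isAlgebraic _)
  refine ⟨B, hB, fun v hv i => ?_⟩
  by_cases hi : i ∈ A.support
  · exact h v hv i hi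
  · rw [notMem_support_iff.mp hi]; simp

omit [CharZero C] [Algebra.IsAlgebraic ℚ C] in
theorem redP_derivative {k : Type*} [Field k] {v : Valuation C ℝ≥0} {ρ : C → k} (h : IsRes v ρ)
    {A : C[X]} (hA : IntP v A) :
    IntP v (derivative A) ∧ redP ρ (derivative A) = derivative (redP ρ A) := by
  obtain ⟨A, rfl⟩ := hA.lift
  rw [derivative_map, redP_map h, redP_map h, derivative_map]
  exact ⟨intP_map _, rfl⟩

omit [CharZero C] [Algebra.IsAlgebraic ℚ C] in
theorem natDegree_redP {k : Type*} [Field k] {v : Valuation C ℝ≥0} {ρ : C → k} (h : IsRes v ρ)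
    {A : C[X]} (hA : v A.leadingCoeff = 1) : (redP ρ A).natDegree = A.natDegree :=
  le_antisymm (natDegree_redP_le h A) (le_natDegree_of_ne_zero (by
    rw [coeff_rp h]; exact (h.ne_zero_iff hA.le).mpr hA))

/-- **(NG3)** a separable polynomial with algebraic coefficients is good off some `B` -/
theorem exists_good_off {F : C[X]} (hs : F.Separable) (hp : 0 < F.natDegree) :
    ∃ B : ℕ, B ≠ 0 ∧ ∀ v : Valuation C ℝ≥0, v (B : C) = 1 → v 2 = 1 ∧ IntP v F ∧
      v F.leadingCoeff = 1 ∧ ∀ (k : Type) [Field k] (ρ : C → k), IsRes v ρ →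
        HF (redP ρ F) ∧ (redP ρ F).natDegree = F.natDegree := by
  obtain ⟨a, b, hab⟩ := hs
  have h0 : F ≠ 0 := by rintro rfl; simp at hp
  obtain ⟨B, hB, h⟩ := off_and (off_and (exists_intP_off a) (exists_intP_off b))
    (off_and (exists_intP_off F) (off_and
      (exists_unit_off (Algebra.IsAlgebraic.isAlgebraic F.leadingCoeff) (leadingCoeff_ne_zero.mpr h0))
      (exists_unit_off (Algebra.IsAlgebraic.isAlgebraic (2 : C)) two_ne_zero)))
  refine ⟨B, hB, fun v hv => ?_⟩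
  obtain ⟨⟨ha, hb⟩, hF, hl, h2⟩ := h v hv
  refine ⟨h2, hF, hl, fun k _ ρ hr => ⟨⟨?_, ⟨redP ρ a, redP ρ b, ?_⟩, ?_⟩, natDegree_redP hr hl⟩⟩
  · rw [← res_two hr]; exact (hr.ne_zero_iff h2.le).mpr h2
  · obtain ⟨h3, h4⟩ := redP_derivative hr hF
    rw [← h4, ← redP_mul hr ha hF, ← redP_mul hr hb h3, ← redP_add hr (ha.mul hF) (hb.mul h3), hab,
      redP_one hr]
  · rw [natDegree_redP hr hl]; exact hp

end off

end Crest.Agent.T15.Ng
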