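import Mathlib
import Crest.Agent.T15.NgC_77
import Crest.Agent.T15.HonDef_54

/-!
# Row 15 (helper77): the fields `ng`, `deg`, `degb`, `e_iso` of the frame
-/

set_option autoImplicit false
set_option linter.all false

namespace Crest.Agent.T15.Ng

open Polynomial
open scoped NNReal
open Crest.Agent.R013.RR7_948 Crest.Agent.R013.RR11_948 Crest.Agent.R013.Frob1_914
open Crest.Agent.R013.GR4_921
open Crest.Agent.T15.Hy Crest.Agent.T15.Mo Crest.Agent.T15.Hon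

/-- the numbers which have to be units -/
noncomputable def S0 {C : Type*} [Field C] (P : Par C) : Finset C := by
  classical
  exact {2, P.p1, P.p2, P.p3, P.d1, P.d2, P.d3, P.t, P.al, P.be}

theorem mem_S0 {C : Type*} [Field C] (P : Par C) (s : C) : s ∈ S0 P ↔ s = 2 ∨ s = P.p1 ∨ s = P.p2 ∨
    s = P.p3 ∨ s = P.d1 ∨ s = P.d2 ∨ s = P.d3 ∨ s = P.t ∨ s = P.al ∨ s = P.be := by
  simp [S0]

theorem zero_notMem_S0 {C : Type*} [Field C] [CharZero C] (P : Par C) : (0 : C) ∉ S0 P := by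
  rw [mem_S0]
  push Not
  exact ⟨two_ne_zero.symm, P.h1.symm, P.h2.symm, P.h3.symm, P.d1_ne.symm, P.d2_ne.symm,
    P.d3_ne.symm, P.ht.symm, P.al_ne.symm, P.be_ne.symm⟩

theorem gd_of_S0 {C : Type*} [Field C] {v : Valuation C ℝ≥0} {P : Par C}
    (h : ∀ s ∈ S0 P, v s = 1) : Gd v P := by
  refine ⟨?_, ?_, ?_, ?_, ?_, ?_, ?_, ?_⟩ <;> exact h _ (by simp [mem_S0])

section vs

variable {C : Type} [Field C] {K0 : Subfield C} {v0 : Valuation K0 ℝ≥0} {p : ℕ} {hp : p ≠ 0}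
  {σ : K0 →+* K0} (X : Vs C K0 v0 p hp σ) {P : Par C}

theorem gd_vsC (h : ∀ s ∈ S0 P, ∃ hs : s ∈ K0, v0 ⟨s, hs⟩ = 1) :
    Gd (X.v.comap (algebraMap C X.Ω)) P :=
  gd_of_S0 fun s hs => by
    obtain ⟨h1, h2⟩ := h s hs
    exact (X.v_K0 ⟨s, h1⟩).trans h2

theorem gd_vs (h : ∀ s ∈ S0 P, ∃ hs : s ∈ K0, v0 ⟨s, hs⟩ = 1) :
    Gd X.v (P.map (algebraMap C X.Ω)) := (gd_vsC X h).map _ fun _ => rfl

theorem map_F0 {F0 : K0[X]} (hF : F0.map K0.subtype = P.F) :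
    F0.map ((algebraMap C X.Ω).comp K0.subtype) = (P.map (algebraMap C X.Ω)).F := by
  rw [← Polynomial.map_map, hF, P.map_F]

omit X in
theorem deg_F0 [CharZero C] {F0 : K0[X]} (hF : F0.map K0.subtype = P.F) :
    F0.natDegree = 2 * 3 + 1 := by
  rw [← natDegree_map K0.subtype, hF, P.natDegree_F two_ne_zero]

/-- the reduced polynomial comes from the small residue field -/
theorem red_vs (h : ∀ s ∈ S0 P, ∃ hs : s ∈ K0, v0 ⟨s, hs⟩ = 1) :
    ((gd_vs X h).red X.res).F = ((gd_vsC X h).red X.resC).F.map (algebraMap X.k X.k') := by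
  rw [← Gd.red_F, ← Gd.red_F, P.map_F]
  ext n
  rw [coeff_map, coeff_rp X.res, coeff_rp X.resC, coeff_map, X.comp _ ((gd_vsC X h).int_F n)]

variable {L : Type} [Field L] [Algebra X.Ω L] [Algebra (RatFunc X.Ω) L]
  [IsScalarTower X.Ω (RatFunc X.Ω) L] [FiniteDimensional (RatFunc X.Ω) L]
  [Algebra.IsSeparable (RatFunc X.Ω) L]

/-- **`ng`, `degb`, `e_iso`** for any model `κ` of the reduced curve -/
theorem frame_ng' (h : ∀ s ∈ S0 P, ∃ hs : s ∈ K0, v0 ⟨s, hs⟩ = 1) {F0 : K0[X]}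
    (hF : F0.map K0.subtype = P.F) {A B2 u : L} (hY : IsY (P.map (algebraMap C X.Ω)) A B2 u)
    {κ : Type} [Field κ] [Algebra X.k' κ] [Algebra (RatFunc X.k') κ]
    [IsScalarTower X.k' (RatFunc X.k') κ] [FiniteDimensional (RatFunc X.k') κ]
    [Algebra.IsSeparable (RatFunc X.k') κ] {xb wb : κ}
    (hb : Hyp ((gd_vs X h).red X.res).F xb wb) :
    ∃ (W : Valuation L ℝ≥0) (res : L → κ) (sp : Pl X.Ω L → Pl X.k' κ),
      NG X.v X.ρ (F0.map ((algebraMap C X.Ω).comp K0.subtype))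
        ((P.map (algebraMap C X.Ω)).zY A B2 u) ((P.map (algebraMap C X.Ω)).wY A B2 u)
        ((gd_vs X h).red X.res).F xb wb W res sp ∧
      ∀ e : SI X.Ω L X.Ω L, (∀ c, X.v (e.s c) = X.v c) → (P.map (algebraMap C X.Ω)).Fix e.s →
        e.f A = A → e.f B2 = B2 → e.f u = u → ∀ f, W (e.f f) = W f := by
  obtain ⟨W, res, sp, hN⟩ := (gd_vs X h).exists_NG X.res hY.hyp hb
  exact ⟨W, res, sp, by rw [map_F0 X hF]; exact hN, fun e h1 h2 h3 h4 h5 =>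
    hN.nr.W_gal hY e h1 h2 h3 h4 h5⟩

/-- **`ng`, `degb`, `e_iso`** -/
theorem frame_ng (h : ∀ s ∈ S0 P, ∃ hs : s ∈ K0, v0 ⟨s, hs⟩ = 1) {F0 : K0[X]}
    (hF : F0.map K0.subtype = P.F) {A B2 u : L} (hY : IsY (P.map (algebraMap C X.Ω)) A B2 u) :
    ∃ (Fb : X.k'[X]) (_ : HF Fb) (W : Valuation L ℝ≥0) (res : L → Hf Fb)
      (sp : Pl X.Ω L → Pl X.k' (Hf Fb)),
      NG X.v X.ρ (F0.map ((algebraMap C X.Ω).comp K0.subtype))
        ((P.map (algebraMap C X.Ω)).zY A B2 u) ((P.map (algebraMap C X.Ω)).wY A B2 u)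
        Fb (Hf.x Fb) (Hf.w Fb) W res sp ∧ Fb.natDegree = 2 * 3 + 1 ∧
      ∀ e : SI X.Ω L X.Ω L, (∀ c, X.v (e.s c) = X.v c) →
        e.s (algebraMap C X.Ω P.p1) = algebraMap C X.Ω P.p1 →
        e.s (algebraMap C X.Ω P.p2) = algebraMap C X.Ω P.p2 →
        e.s (algebraMap C X.Ω P.t) = algebraMap C X.Ω P.t →
        e.f A = A → e.f B2 = B2 → e.f u = u → ∀ f, W (e.f f) = W f := by
  haveI := (gd_vs X h).hf X.res
  obtain ⟨W, res, sp, h1, h2⟩ := frame_ng' X h hF hY (Hf.hyp _)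
  refine ⟨_, this, W, res, sp, h1, (gd_vs X h).deg_red X.res, fun e hs a b c => h2 e hs ⟨a, b, ?_, c⟩⟩
  rw [Par.p3_eq, map_sub, map_neg]
  exact congrArg₂ (fun s t => -s - t) a b

end vs

end Crest.Agent.T15.Ng
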