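import Mathlib
import Crest.Agent.T15.HonH_54
import Crest.Agent.T15.Fn2_39
import Crest.Agent.T15.NgD_77
import Crest.Agent.T15.Gal_31
import Crest.Agent.T15.IdWH_11

/-!
# Row 15, block Ht (helper90): the assembly of the frame
-/

set_option autoImplicit false
set_option linter.all false

noncomputable section

namespace Crest.Agent.T15.Ht

open Polynomial Matrix
open scoped NNReal
open Crest.Agent.R013.PicD_398 Crest.Agent.R013.Frob1_914 Crest.Agent.R013.RR14_948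
open Crest.Agent.R013.RR7_948 Crest.Agent.R013.RR11_948
open Crest.Agent.T15.C (Om Gam)
open Crest.Agent.T15.Top (Plc IsFr)
open Crest.Agent.T15.Mo (Par)
open Crest.Agent.T15.Hon

/-- the logarithmic derivative on the base change -/
def LamS90 : Prop :=
  ∀ (P : Par Om) (M : Mdl P) (N : Matrix (Fin 3) (Fin 3) Om), IsOm M N →
    ∀ (Ω : Type) [Field Ω] [IsAlgClosed Ω] [Algebra Om Ω] (d : Derivation Om Ω Ω),
    ∃ Λ : Pic Ω (M.bc Ω).Y →+ (Fin 3 → Ω),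
      (∀ D m, Λ (cls D) m = ∑ k, algebraMap Om Ω (N m k) *
        lam d ((M.bc Ω).z ^ (k : ℕ) / (M.bc Ω).w) (M.bc Ω).z D) ∧
      (∀ c m, Λ ((M.bc Ω).j c) m = ∑ m', J3 m m' • Λ c m') ∧
      ∀ (e : SI Om M.Y Om M.Y) (E : SI Ω (M.bc Ω).Y Ω (M.bc Ω).Y) (c : Ω), M.Fx e →
        (∀ f, E.f (M.iY Ω f) = M.iY Ω (e.f f)) → (∀ a, d (E.s a) = c * E.s (d a)) →
        ∀ x m, Λ (E.pic x) m = c * E.s (Λ x m)

/-- the place of a valuation -/
def PlS90 : Prop :=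
  ∀ (v : Valuation Om ℝ≥0) (p : ℕ) (s : Om ≃+* Om), p.Prime → v p < 1 →
    (∀ a, v a ≤ 1 → v (s a - a ^ p) < 1) →
    ∃ (Q : Plc) (σ : Gam), Q.rchar = p ∧ IsFr Q σ ∧ ∀ c, s c = σ c

section fx

variable {C : Type} [Field C] [IsAlgClosed C] {P : Par C} {M : Mdl P}

theorem Mdl.Fx.trans90 {e e' : SI C M.Y C M.Y} (h : M.Fx e) (h' : M.Fx e') : M.Fx (e.trans e') := by
  obtain ⟨a, b, c, d, f, g⟩ := h
  obtain ⟨a', b', c', d', f', g'⟩ := h'
  refine ⟨?_, ?_, ?_, ?_, ?_, ?_⟩ <;> simp [*]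

theorem Mdl.Fx.symm90 {e : SI C M.Y C M.Y} (h : M.Fx e) : M.Fx e.symm := by
  obtain ⟨a, b, c, d, f, g⟩ := h
  refine ⟨?_, ?_, ?_, ?_, ?_, ?_⟩ <;> simp [RingEquiv.symm_apply_eq, *]

theorem Mdl.Fx.zw90 [CharZero C] {e : SI C M.Y C M.Y} (h : M.Fx e) (h1 : e.s P.al = P.al)
    (h2 : e.s P.be = P.be) : e.f M.z = M.z ∧ e.f M.w = M.w := by
  obtain ⟨a, b, c, d, f, g⟩ := h
  exact M.isY31.act_pp (M.isY31.act_SI e ⟨d, f, by rw [P.p3_eq, map_sub, map_neg, d, f], g⟩ a b c)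
    h1 h2

end fx

theorem frmStmt_of (hL : LamS90) (hQ : PlS90) : FrmStmt := by
  classical
  intro p1 p2 p3 t P M N hI hO
  refine ⟨Ng.S0 P, Ng.zero_notMem_S0 P, fun K0 v0 p hp σ U _ hS X F0 N0 hF hN => ?_⟩
  obtain ⟨Q, φ, hQ1, hQ2, hQ3⟩ := hQ (X.v.comap (algebraMap Om X.Ω)) p X.s U.prime (by
      have := X.v_K0 (p : K0)
      rw [show (((p : K0) : Om)) = p by simp] at this
      exact this.trans_lt U.lt) fun a ha => by
    have := X.S_res _ ha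
    rwa [X.S_C, ← map_pow, ← map_sub] at this
  obtain ⟨e, he, hes⟩ := (galStmt Om P M).1 X.s (by rw [hI.h1, map_intCast])
    (by rw [hI.h2, map_intCast]) (by rw [hI.ht, map_intCast])
  have hg : ∀ c, X.S (algebraMap Om X.Ω c) = algebraMap Om X.Ω (e.s c) := fun c => by
    rw [X.S_C, hes]
  obtain ⟨Λ, hΛ1, hΛ2, hΛ3⟩ := hL P M N hO X.Ω X.d
  obtain ⟨Fb, _, W, res, sp, hng, hdeg, hiso⟩ := Ng.frame_ng X hS hF (M.bc X.Ω).isY31
  obtain ⟨G1, G2, G3⟩ := galStmt X.Ω _ (M.bc X.Ω)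
  obtain ⟨hal, -⟩ := hS P.al (by simp [Ng.mem_S0])
  obtain ⟨hbe, -⟩ := hS P.be (by simp [Ng.mem_S0])
  have hE := Mdl.Fx.ext hg he
  let Y : Fm X 3 F0 N0 J3 :=
    { L := (M.bc X.Ω).Y
      κ := Hy.Hf Fb
      z := (M.bc X.Ω).z
      w := (M.bc X.Ω).w
      Fb := Fb
      xb := Hy.Hf.x Fb
      wb := Hy.Hf.w Fb
      W := W
      res := res
      sp := sp
      ng := hng
      deg := Ng.deg_F0 hF
      degb := hdeg
      Fx := (M.bc X.Ω).Fx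
      Fx_trans := fun _ _ => Mdl.Fx.trans90
      Fx_symm := fun _ => Mdl.Fx.symm90
      Fx_ex := fun s => G1 s (by rw [Par.map_p1, hI.h1, map_intCast, map_intCast])
        (by rw [Par.map_p2, hI.h2, map_intCast, map_intCast])
        (by rw [Par.map_t, hI.ht, map_intCast, map_intCast])
      Fx_ext := G2
      T := {⟨P.al, hal⟩, ⟨P.be, hbe⟩}
      Fx_zw := fun g hg h => hg.zw90 (h ⟨P.al, hal⟩ (by simp)) (h ⟨P.be, hbe⟩ (by simp))
      e := M.ext e X.S hg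
      e_Fx := hE
      e_s := Mdl.ext_s hg
      e_iso := hiso _ (fun c => by rw [Mdl.ext_s, X.S_iso]) hE.2.2.2.1 hE.2.2.2.2.1 hE.2.2.2.2.2
        hE.1 hE.2.1 hE.2.2.1
      j := (M.bc X.Ω).j
      j_comm := G3
      Λ := Λ
      Λ_cls := fun D m => by simp only [hN]; exact hΛ1 D m
      Λ_j := hΛ2
      Λ_e := fun c m => by
        have := hΛ3 e _ p he (Mdl.ext_iY hg) (fun a => by rw [Mdl.ext_s, X.d_S]) c m
        rwa [Mdl.ext_s] at this }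
  refine ⟨Q, e, hQ1, ⟨he, φ, hQ2, fun c => by rw [hes, hQ3]⟩, Y, fun a b hab => ?_⟩
  refine (Y.tri_U U hab).mono (fun Ψ m h => ?_) fun _ h => h
  refine Kill.of_map11 (M.bp X.Ω) (fun c => (M.bc_j X.Ω c).symm)
    (fun c => (Mdl.ext_pic hg c).symm) (fun y hy => ?_) h
  obtain ⟨c, h1, h2⟩ := M.exists_bp X.Ω (pow_ne_zero m three_ne_zero) hy
  exact ⟨c, h1, h2.symm⟩

end Crest.Agent.T15.Ht
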