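import Mathlib
import Crest.Agent.T15.Frm_90

/-!
# Row 15, block Ht (helper90): the place of a valuation of `Om`
-/

set_option autoImplicit false
set_option linter.all false

noncomputable section

namespace Crest.Agent.T15.Ht

open NumberField
open scoped NNReal
open Crest.Agent.T15.C (Om Gam)
open Crest.Agent.R018.Placesx484

theorem plS90 : PlS90 := by
  intro v p s hp h1 h2
  have hint : ∀ x : 𝓞 Om, v (x : Om) ≤ 1 := fun x =>
    (Valuation.integer.integers v).mem_of_integral (x.isIntegral_coe.tower_top)
  let I : Ideal (𝓞 Om) :=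
    { carrier := {x | v (x : Om) < 1}
      add_mem' := fun {a b} ha hb => by simpa using v.map_add_lt ha hb
      zero_mem' := by simp
      smul_mem' := fun c x hx => by
        show v ((c * x : 𝓞 Om) : Om) < 1
        push_cast
        rw [map_mul]
        exact mul_lt_one_of_nonneg_of_lt_one_right (hint c) zero_le hx }
  have hI : ∀ x : 𝓞 Om, x ∈ I ↔ v (x : Om) < 1 := fun _ => Iff.rfl
  have hpI : (p : 𝓞 Om) ∈ I := by rw [hI]; simpa using h1
  let Q : Place Om := ⟨I, ⟨by rw [Ideal.ne_top_iff_one, hI]; simp, fun {a b} hab => by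
      rw [hI] at hab
      push_cast at hab
      rw [map_mul] at hab
      by_contra hcon
      rw [not_or, hI, hI, not_lt, not_lt] at hcon
      exact absurd (one_le_mul hcon.1 hcon.2) hab.not_ge⟩, fun h => by
    rw [h, Ideal.mem_bot] at hpI
    exact hp.ne_zero (by exact_mod_cast hpI)⟩
  have hQ : Q.rchar = p := Q.rchar_eq_of_mem hp hpI
  refine ⟨Q, AlgEquiv.ofRingEquiv (f := s) (fun c => by simp), hQ, fun x => ?_, fun _ => rfl⟩
  rw [hQ]
  exact h2 x (hint x)

end Crest.Agent.T15.Ht
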