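import Mathlib

/-!
# Row 15, block Ht (helper58): Green's formula for `conj G · dG` between two graphs
-/

set_option autoImplicit false
set_option linter.unusedSectionVars false

noncomputable section

namespace Crest.Agent.T15.Hab

open Complex MeasureTheory Set ComplexConjugate

/-- `G` is holomorphic on the upper half plane with derivative `g` -/
def Prim (G g : ℂ → ℂ) : Prop := ∀ z : ℂ, 0 < z.im → HasDerivAt G (g z) z

/-- the open upper half plane -/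
def UU : Set ℂ := {z | 0 < z.im}

lemma isOpen_UU : IsOpen UU := isOpen_lt continuous_const Complex.continuous_im

variable {G g : ℂ → ℂ}

lemma Prim.diffOn (h : Prim G g) : DifferentiableOn ℂ G UU :=
  fun z hz => (h z hz).differentiableAt.differentiableWithinAt

lemma Prim.eq_deriv (h : Prim G g) : EqOn g (deriv G) UU := fun z hz => (h z hz).deriv.symm

lemma Prim.diffOn' (h : Prim G g) : DifferentiableOn ℂ g UU :=
  (h.diffOn.deriv isOpen_UU).congr h.eq_deriv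

lemma Prim.deriv2 (h : Prim G g) : Prim g (deriv g) := fun z hz =>
  ((h.diffOn' z hz).differentiableAt (isOpen_UU.mem_nhds hz)).hasDerivAt

lemma Prim.cG (h : Prim G g) : ContinuousOn G UU := h.diffOn.continuousOn
lemma Prim.cg (h : Prim G g) : ContinuousOn g UU := h.diffOn'.continuousOn
lemma Prim.cg' (h : Prim G g) : ContinuousOn (deriv g) UU := h.deriv2.cg

/-- the point `x + i (a x + s b x)` -/
def pt (a b : ℝ → ℝ) (x s : ℝ) : ℂ := (x : ℂ) + I * ((a x + s * b x : ℝ) : ℂ)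

lemma pt_im (a b : ℝ → ℝ) (x s : ℝ) : (pt a b x s).im = a x + s * b x := by simp [pt]

/-- the interval `[-1/2, 1/2]` -/
def JJ : Set ℝ := Icc (-1 / 2) (1 / 2)

/-- admissible family of graphs -/
structure Fam (a b a' b' : ℝ → ℝ) (R : ℝ) : Prop where
  da : ∀ x ∈ JJ, HasDerivAt a (a' x) x
  db : ∀ x ∈ JJ, HasDerivAt b (b' x) x
  ca : ContinuousOn a' JJ
  cb : ContinuousOn b' JJ
  hR : 0 ≤ R
  pos : ∀ x ∈ JJ, ∀ s ∈ Icc 0 R, 0 < a x + s * b x

/-- integrand along the graph -/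
def Pf (G g : ℂ → ℂ) (a b a' b' : ℝ → ℝ) (x s : ℝ) : ℂ :=
  conj (G (pt a b x s)) * g (pt a b x s) * (1 + I * ((a' x + s * b' x : ℝ) : ℂ))

/-- integrand along the vertical sides -/
def Qf (G g : ℂ → ℂ) (a b : ℝ → ℝ) (x s : ℝ) : ℂ :=
  conj (G (pt a b x s)) * g (pt a b x s) * (I * (b x : ℂ))

/-- `∂ₓ Qf` -/
def Df (G g : ℂ → ℂ) (a b a' b' : ℝ → ℝ) (x s : ℝ) : ℂ :=
  conj (g (pt a b x s) * (1 + I * ((a' x + s * b' x : ℝ) : ℂ))) * g (pt a b x s) * (I * (b x : ℂ))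
  + conj (G (pt a b x s)) * (deriv g (pt a b x s) * (1 + I * ((a' x + s * b' x : ℝ) : ℂ)))
      * (I * (b x : ℂ))
  + conj (G (pt a b x s)) * g (pt a b x s) * (I * (b' x : ℂ))

/-- the area density -/
def Af (g : ℂ → ℂ) (a b : ℝ → ℝ) (x s : ℝ) : ℝ := b x * ‖g (pt a b x s)‖ ^ 2

variable {a b a' b' : ℝ → ℝ} {R : ℝ}

lemma Fam.dx (F : Fam a b a' b' R) {x : ℝ} (hx : x ∈ JJ) (s : ℝ) :
    HasDerivAt (fun x => pt a b x s) (1 + I * ((a' x + s * b' x : ℝ) : ℂ)) x := by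
  have h1 : HasDerivAt (fun x : ℝ => (x : ℂ)) 1 x := (hasDerivAt_id x).ofReal_comp
  have h2 : HasDerivAt (fun x : ℝ => ((a x + s * b x : ℝ) : ℂ)) ((a' x + s * b' x : ℝ) : ℂ) x :=
    ((F.da x hx).add ((F.db x hx).const_mul s)).ofReal_comp
  exact h1.add (h2.const_mul I)

lemma ds_pt (a b : ℝ → ℝ) (x s : ℝ) :
    HasDerivAt (fun s => pt a b x s) (I * (b x : ℂ)) s := by
  have h2 : HasDerivAt (fun s : ℝ => ((a x + s * b x : ℝ) : ℂ)) ((b x : ℝ) : ℂ) s := by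
    have : HasDerivAt (fun s : ℝ => a x + s * b x) (b x) s := by
      simpa using ((hasDerivAt_id s).mul_const (b x)).const_add (a x)
    exact this.ofReal_comp
  exact (h2.const_mul I).const_add _

lemma comp_real {F : ℂ → ℂ} {F' : ℂ} {γ : ℝ → ℂ} {γ' : ℂ} {x : ℝ} (h : HasDerivAt F F' (γ x))
    (hγ : HasDerivAt γ γ' x) : HasDerivAt (fun x => F (γ x)) (F' * γ') x := by
  have := (h.hasFDerivAt.restrictScalars ℝ).comp_hasDerivAt x hγ
  simpa [mul_comm, Function.comp_def] using this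

lemma conj_real {u : ℝ → ℂ} {u' : ℂ} {x : ℝ} (h : HasDerivAt u u' x) :
    HasDerivAt (fun x => conj (u x)) (conj u') x := by
  have := (Complex.conjCLE.toContinuousLinearMap.hasFDerivAt (x := u x)).comp_hasDerivAt x h
  simpa [Function.comp_def] using this

lemma Fam.dQ (F : Fam a b a' b' R) (h : Prim G g) {x s : ℝ} (hx : x ∈ JJ) (hs : s ∈ Icc 0 R) :
    HasDerivAt (fun x => Qf G g a b x s) (Df G g a b a' b' x s) x := by
  have hp : 0 < (pt a b x s).im := by rw [pt_im]; exact F.pos x hx s hs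
  have h1 := conj_real (comp_real (γ := fun x => pt a b x s) (h _ hp) (F.dx hx s))
  have h2 := comp_real (γ := fun x => pt a b x s) (h.deriv2 _ hp) (F.dx hx s)
  have h3 : HasDerivAt (fun x : ℝ => I * (b x : ℂ)) (I * (b' x : ℂ)) x :=
    (F.db x hx).ofReal_comp.const_mul I
  refine ((h1.mul h2).mul h3).congr_deriv ?_
  simp only [Df, Pi.mul_apply]; ring

lemma Fam.dP (F : Fam a b a' b' R) (h : Prim G g) {x s : ℝ} (hx : x ∈ JJ) (hs : s ∈ Icc 0 R) :
    HasDerivAt (fun s => Pf G g a b a' b' x s)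
      (Df G g a b a' b' x s - 2 * I * (Af g a b x s : ℂ)) s := by
  have hp : 0 < (pt a b x s).im := by rw [pt_im]; exact F.pos x hx s hs
  have h1 := conj_real (comp_real (h _ hp) (ds_pt a b x s))
  have h2 := comp_real (h.deriv2 _ hp) (ds_pt a b x s)
  have h3 : HasDerivAt (fun s : ℝ => 1 + I * ((a' x + s * b' x : ℝ) : ℂ)) (I * (b' x : ℂ)) s := by
    have : HasDerivAt (fun s : ℝ => a' x + s * b' x) (b' x) s := by
      simpa using ((hasDerivAt_id s).mul_const (b' x)).const_add (a' x)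
    exact (this.ofReal_comp.const_mul I).const_add 1
  refine ((h1.mul h2).mul h3).congr_deriv ?_
  have e : ((‖g (pt a b x s)‖ : ℂ)) ^ 2 = conj (g (pt a b x s)) * g (pt a b x s) := by
    rw [mul_comm, Complex.mul_conj, Complex.normSq_eq_norm_sq]; push_cast; ring
  simp only [Df, Af, Pi.mul_apply, map_mul, map_add, map_one, conj_I, conj_ofReal]
  push_cast
  rw [e]
  ring

lemma Fam.ca0 (F : Fam a b a' b' R) : ContinuousOn a JJ :=
  fun x hx => (F.da x hx).continuousAt.continuousWithinAt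
lemma Fam.cb0 (F : Fam a b a' b' R) : ContinuousOn b JJ :=
  fun x hx => (F.db x hx).continuousAt.continuousWithinAt

lemma fst_on {u : ℝ → ℝ} (h : ContinuousOn u JJ) (R : ℝ) :
    ContinuousOn (fun p : ℝ × ℝ => u p.1) (JJ ×ˢ Icc 0 R) :=
  h.comp continuousOn_fst (fun _ hp => hp.1)

lemma Fam.cpt (F : Fam a b a' b' R) :
    ContinuousOn (fun p : ℝ × ℝ => pt a b p.1 p.2) (JJ ×ˢ Icc 0 R) := by
  unfold pt
  have h1 := fst_on F.ca0 R
  have h2 := fst_on F.cb0 R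
  refine (Complex.continuous_ofReal.comp_continuousOn continuousOn_fst).add
    (continuousOn_const.mul (Complex.continuous_ofReal.comp_continuousOn
      (h1.add (continuousOn_snd.mul h2))))

lemma Fam.ccomp (F : Fam a b a' b' R) {u : ℂ → ℂ} (hu : ContinuousOn u UU) :
    ContinuousOn (fun p : ℝ × ℝ => u (pt a b p.1 p.2)) (JJ ×ˢ Icc 0 R) :=
  hu.comp F.cpt (fun p hp => by
    show 0 < (pt a b p.1 p.2).im
    rw [pt_im]; exact F.pos _ hp.1 _ hp.2)

lemma Fam.ctan (F : Fam a b a' b' R) :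
    ContinuousOn (fun p : ℝ × ℝ => 1 + I * ((a' p.1 + p.2 * b' p.1 : ℝ) : ℂ)) (JJ ×ˢ Icc 0 R) :=
  continuousOn_const.add (continuousOn_const.mul (Complex.continuous_ofReal.comp_continuousOn
      ((fst_on F.ca R).add (continuousOn_snd.mul (fst_on F.cb R)))))

lemma cI {u : ℝ → ℝ} (h : ContinuousOn u JJ) (R : ℝ) :
    ContinuousOn (fun p : ℝ × ℝ => I * ((u p.1 : ℝ) : ℂ)) (JJ ×ˢ Icc 0 R) :=
  continuousOn_const.mul (Complex.continuous_ofReal.comp_continuousOn (fst_on h R))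

lemma cconj {K : Set (ℝ × ℝ)} {u : ℝ × ℝ → ℂ} (h : ContinuousOn u K) :
    ContinuousOn (fun p => conj (u p)) K := Complex.continuous_conj.comp_continuousOn h

lemma Fam.cD (F : Fam a b a' b' R) (h : Prim G g) :
    ContinuousOn (fun p : ℝ × ℝ => Df G g a b a' b' p.1 p.2) (JJ ×ˢ Icc 0 R) := by
  unfold Df
  exact ((((cconj ((F.ccomp h.cg).mul F.ctan)).mul (F.ccomp h.cg)).mul (cI F.cb0 R)).add
    (((cconj (F.ccomp h.cG)).mul ((F.ccomp h.cg').mul F.ctan)).mul (cI F.cb0 R))).add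
    (((cconj (F.ccomp h.cG)).mul (F.ccomp h.cg)).mul (cI F.cb R))

lemma Fam.cA (F : Fam a b a' b' R) (h : Prim G g) :
    ContinuousOn (fun p : ℝ × ℝ => Af g a b p.1 p.2) (JJ ×ˢ Icc 0 R) := by
  unfold Af
  exact (fst_on F.cb0 R).mul ((F.ccomp h.cg).norm.pow 2)

lemma Fam.cP (F : Fam a b a' b' R) (h : Prim G g) :
    ContinuousOn (fun p : ℝ × ℝ => Pf G g a b a' b' p.1 p.2) (JJ ×ˢ Icc 0 R) := by
  unfold Pf
  exact ((cconj (F.ccomp h.cG)).mul (F.ccomp h.cg)).mul F.ctan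

lemma uIcc_JJ : uIcc (-1 / 2 : ℝ) (1 / 2) = JJ := by
  rw [uIcc_of_le (by norm_num)]; rfl

variable {E : Type*} [NormedAddCommGroup E] [NormedSpace ℝ E]

lemma ii_x {u : ℝ → ℝ → E} (h : ContinuousOn (fun p : ℝ × ℝ => u p.1 p.2) (JJ ×ˢ Icc 0 R))
    {s : ℝ} (hs : s ∈ Icc 0 R) : IntervalIntegrable (fun x => u x s) volume (-1 / 2) (1 / 2) := by
  apply ContinuousOn.intervalIntegrable
  rw [uIcc_JJ]
  exact h.comp (f := fun x : ℝ => (x, s)) (by fun_prop) (fun x hx => ⟨hx, hs⟩)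

lemma ii_s {u : ℝ → ℝ → E} (h : ContinuousOn (fun p : ℝ × ℝ => u p.1 p.2) (JJ ×ˢ Icc 0 R))
    (hR : 0 ≤ R) {x : ℝ} (hx : x ∈ JJ) : IntervalIntegrable (fun s => u x s) volume 0 R := by
  apply ContinuousOn.intervalIntegrable
  rw [uIcc_of_le hR]
  exact h.comp (f := fun s : ℝ => (x, s)) (by fun_prop) (fun s hs => ⟨hx, hs⟩)

lemma io {u : ℝ → ℝ → E} (h : ContinuousOn (fun p : ℝ × ℝ => u p.1 p.2) (JJ ×ˢ Icc 0 R))
    (hR : 0 ≤ R) : IntegrableOn (Function.uncurry u) (uIoc (-1 / 2 : ℝ) (1 / 2) ×ˢ uIoc 0 R) := by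
  have hK : IsCompact (JJ ×ˢ Icc (0 : ℝ) R) := isCompact_Icc.prod isCompact_Icc
  refine (h.integrableOn_compact hK).mono_set ?_
  rw [uIoc_of_le (by norm_num), uIoc_of_le hR]
  exact Set.prod_mono Ioc_subset_Icc_self Ioc_subset_Icc_self

lemma swap [CompleteSpace E] {u : ℝ → ℝ → E}
    (h : ContinuousOn (fun p : ℝ × ℝ => u p.1 p.2) (JJ ×ˢ Icc 0 R)) (hR : 0 ≤ R) :
    ∫ x in (-1 / 2 : ℝ)..(1 / 2), ∫ s in (0 : ℝ)..R, u x s
      = ∫ s in (0 : ℝ)..R, ∫ x in (-1 / 2 : ℝ)..(1 / 2), u x s :=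
  intervalIntegral_intervalIntegral_swap (io h hR)

/-- the line integral `∫ conj G dG` along the graph `s` -/
def II (G g : ℂ → ℂ) (a b a' b' : ℝ → ℝ) (s : ℝ) : ℂ :=
  ∫ x in (-1 / 2 : ℝ)..(1 / 2), Pf G g a b a' b' x s

/-- the area integral -/
def AA (g : ℂ → ℂ) (a b : ℝ → ℝ) (R : ℝ) : ℝ :=
  ∫ s in (0 : ℝ)..R, ∫ x in (-1 / 2 : ℝ)..(1 / 2), Af g a b x s

theorem Fam.green (F : Fam a b a' b' R) (h : Prim G g) :
    II G g a b a' b' R - II G g a b a' b' 0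
      = (∫ s in (0 : ℝ)..R, (Qf G g a b (1 / 2) s - Qf G g a b (-1 / 2) s))
        - 2 * I * (AA g a b R : ℂ) := by
  have h0 : (0 : ℝ) ∈ Icc 0 R := ⟨le_rfl, F.hR⟩
  have hRR : R ∈ Icc 0 R := ⟨F.hR, le_rfl⟩
  have cA' : ContinuousOn (fun p : ℝ × ℝ => 2 * I * ((Af g a b p.1 p.2 : ℝ) : ℂ))
      (JJ ×ˢ Icc 0 R) :=
    continuousOn_const.mul (Complex.continuous_ofReal.comp_continuousOn (F.cA h))
  have cE : ContinuousOn (fun p : ℝ × ℝ => Df G g a b a' b' p.1 p.2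
      - 2 * I * ((Af g a b p.1 p.2 : ℝ) : ℂ)) (JJ ×ˢ Icc 0 R) := (F.cD h).sub cA'
  have e1 : II G g a b a' b' R - II G g a b a' b' 0
      = ∫ x in (-1 / 2 : ℝ)..(1 / 2), ∫ s in (0 : ℝ)..R,
        (Df G g a b a' b' x s - 2 * I * (Af g a b x s : ℂ)) := by
    unfold II
    rw [← intervalIntegral.integral_sub (ii_x (F.cP h) hRR) (ii_x (F.cP h) h0)]
    refine intervalIntegral.integral_congr (fun x hx => ?_)
    rw [uIcc_JJ] at hx
    symm
    refine intervalIntegral.integral_eq_sub_of_hasDerivAt (f := fun s => Pf G g a b a' b' x s)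
      (fun s hs => ?_) (ii_s (u := fun x s => Df G g a b a' b' x s
        - 2 * I * (Af g a b x s : ℂ)) cE F.hR hx)
    rw [uIcc_of_le F.hR] at hs
    exact F.dP h hx hs
  rw [e1, swap (u := fun x s => Df G g a b a' b' x s - 2 * I * (Af g a b x s : ℂ)) cE F.hR]
  have e2 : ∀ s ∈ uIcc (0 : ℝ) R, (∫ x in (-1 / 2 : ℝ)..(1 / 2),
      (Df G g a b a' b' x s - 2 * I * (Af g a b x s : ℂ)))
      = (Qf G g a b (1 / 2) s - Qf G g a b (-1 / 2) s)
        - 2 * I * ((∫ x in (-1 / 2 : ℝ)..(1 / 2), Af g a b x s : ℝ) : ℂ) := by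
    intro s hs
    rw [uIcc_of_le F.hR] at hs
    rw [intervalIntegral.integral_sub (ii_x (F.cD h) hs)
      (ii_x (u := fun x s => 2 * I * (Af g a b x s : ℂ)) cA' hs),
      intervalIntegral.integral_const_mul, intervalIntegral.integral_ofReal]
    congr 1
    refine intervalIntegral.integral_eq_sub_of_hasDerivAt (f := fun x => Qf G g a b x s)
      (fun x hx => ?_) (ii_x (F.cD h) hs)
    rw [uIcc_JJ] at hx
    exact F.dQ h hx hs
  have hJ1 : (1 / 2 : ℝ) ∈ JJ := ⟨by norm_num, le_rfl⟩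
  have hJ2 : (-1 / 2 : ℝ) ∈ JJ := ⟨le_rfl, by norm_num⟩
  have cQ : ContinuousOn (fun p : ℝ × ℝ => Qf G g a b p.1 p.2) (JJ ×ˢ Icc 0 R) := by
    unfold Qf
    exact ((cconj (F.ccomp h.cG)).mul (F.ccomp h.cg)).mul (cI F.cb0 R)
  have iQ : IntervalIntegrable (fun s => Qf G g a b (1 / 2) s - Qf G g a b (-1 / 2) s)
      volume 0 R := (ii_s cQ F.hR hJ1).sub (ii_s cQ F.hR hJ2)
  have iA : IntervalIntegrable (fun s => ∫ x in (-1 / 2 : ℝ)..(1 / 2), Af g a b x s)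
      volume 0 R := by
    have := (io (F.cA h) F.hR)
    rw [IntegrableOn, Measure.volume_eq_prod, ← Measure.prod_restrict] at this
    have h2 := this.integral_prod_right
    rw [intervalIntegrable_iff]
    refine h2.congr (Filter.Eventually.of_forall fun s => ?_)
    simp only [Function.uncurry]
    rw [intervalIntegral.integral_of_le (by norm_num), uIoc_of_le (by norm_num)]
  have iA' : IntervalIntegrable (fun s => ((∫ x in (-1 / 2 : ℝ)..(1 / 2), Af g a b x s : ℝ) : ℂ))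
      volume 0 R := ⟨iA.1.ofReal, iA.2.ofReal⟩
  rw [intervalIntegral.integral_congr e2, intervalIntegral.integral_sub iQ
    (iA'.const_mul _), intervalIntegral.integral_const_mul,
    intervalIntegral.integral_ofReal]
  rfl

end Crest.Agent.T15.Hab
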