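import Crest.Agent.T15.HabA_58

/-!
# Row 15, block Ht (helper58): Haberland's inequality for Manin symbols
-/

set_option autoImplicit false
set_option linter.unusedSectionVars false

noncomputable section

namespace Crest.Agent.T15.Hab

open Complex MeasureTheory Set ComplexConjugate

/-- A system of primitives indexed by the cosets `A ∈ Γ\SL₂(ℤ)`; `r` = Manin symbols. -/
structure Sys {P : Type*} (S T : Equiv.Perm P) (G g : P → ℂ → ℂ) (r : P → ℂ) : Prop where
  prim : ∀ A, Prim (G A) (g A)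
  hT : ∀ A z, 0 < z.im → G A (z + 1) = G (T A) z
  hS : ∀ A z, 0 < z.im → G A (-1 / z) = G (S A) z + r A
  SS : ∀ A, S (S A) = A
  V3 : ∀ A, T (S (T (S (T (S A))))) = A
  dec : ∀ A (ε : ℝ), 0 < ε → ∃ Y : ℝ, ∀ z : ℂ, Y ≤ z.im → ‖G A z‖ ≤ ε ∧ ‖g A z‖ ≤ ε

variable {P : Type*} [Fintype P] {S T : Equiv.Perm P} {G g : P → ℂ → ℂ} {r : P → ℂ}
variable {a b a' b' : ℝ → ℝ} {R : ℝ}

lemma Sys.gT (h : Sys S T G g r) (A : P) (z : ℂ) (hz : 0 < z.im) : g A (z + 1) = g (T A) z := by
  have h1 : HasDerivAt (fun w => G A (w + 1)) (g A (z + 1)) z :=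
    (h.prim A (z + 1) (by simpa using hz)).comp_add_const z 1
  have h2 : HasDerivAt (fun w => G A (w + 1)) (g (T A) z) z := by
    refine (h.prim (T A) z hz).congr_of_eventuallyEq ?_
    filter_upwards [isOpen_UU.mem_nhds (show z ∈ UU from hz)] with w hw
    exact h.hT A w hw
  exact h1.unique h2

lemma im_neg_inv {z : ℂ} (hz : 0 < z.im) : 0 < (-1 / z).im := by
  have h0 : z ≠ 0 := by rintro rfl; simp at hz
  have : (-1 / z).im = z.im / normSq z := by
    rw [div_im]; simp
    ring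
  rw [this]; exact div_pos hz (normSq_pos.mpr h0)

lemma Sys.rS (h : Sys S T G g r) (A : P) : r (S A) = - r A := by
  have hI : 0 < (I : ℂ).im := by simp
  have e : -1 / I = I := by field_simp; simp
  have h1 := h.hS A I hI
  have h2 := h.hS (S A) I hI
  rw [e] at h1 h2
  rw [h.SS] at h2
  linear_combination -h1 - h2

lemma Fam.cQ {G g : ℂ → ℂ} (F : Fam a b a' b' R) (h : Prim G g) :
    ContinuousOn (fun p : ℝ × ℝ => Qf G g a b p.1 p.2) (JJ ×ˢ Icc 0 R) := by
  unfold Qf
  exact ((cconj (F.ccomp h.cG)).mul (F.ccomp h.cg)).mul (cI F.cb0 R)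

lemma hJ1 : (1 / 2 : ℝ) ∈ JJ := ⟨by norm_num, le_rfl⟩
lemma hJ2 : (-1 / 2 : ℝ) ∈ JJ := ⟨le_rfl, by norm_num⟩

lemma Sys.sum_green (h : Sys S T G g r) (F : Fam a b a' b' R) (ha : a (1 / 2) = a (-1 / 2))
    (hb : b (1 / 2) = b (-1 / 2)) :
    ∑ A, (II (G A) (g A) a b a' b' 0).im
      = ∑ A, (II (G A) (g A) a b a' b' R).im + 2 * ∑ A, AA (g A) a b R := by
  set QQ : P → ℂ := fun A => ∫ s in (0 : ℝ)..R, Qf (G A) (g A) a b (-1 / 2) s with hQQ
  have e : ∀ A, (∫ s in (0 : ℝ)..R, (Qf (G A) (g A) a b (1 / 2) s - Qf (G A) (g A) a b (-1 / 2) s))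
      = QQ (T A) - QQ A := by
    intro A
    rw [intervalIntegral.integral_sub (ii_s (F.cQ (h.prim A)) F.hR hJ1)
      (ii_s (F.cQ (h.prim A)) F.hR hJ2)]
    congr 1
    refine intervalIntegral.integral_congr (fun s hs => ?_)
    rw [uIcc_of_le F.hR] at hs
    have hp : pt a b (1 / 2) s = pt a b (-1 / 2) s + 1 := by
      simp only [pt, ha, hb]; push_cast; ring
    have hi : 0 < (pt a b (-1 / 2) s).im := by rw [pt_im]; exact F.pos _ hJ2 s hs
    simp only [Qf, hp, h.hT A _ hi, h.gT A _ hi, hb]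
  have e2 : ∑ A, (II (G A) (g A) a b a' b' R - II (G A) (g A) a b a' b' 0)
      = - (2 * I * ((∑ A, AA (g A) a b R : ℝ) : ℂ)) := by
    simp_rw [fun A => F.green (h.prim A), e]
    rw [Finset.sum_sub_distrib, Finset.sum_sub_distrib, Equiv.sum_comp T QQ, ← Finset.mul_sum]
    push_cast; ring
  have e3 := congrArg Complex.im e2
  rw [Finset.sum_sub_distrib, sub_im, im_sum, im_sum] at e3
  simp only [neg_im, mul_im, mul_re, re_ofNat, I_re, im_ofNat, I_im, ofReal_re, ofReal_im] at e3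
  linarith

lemma AA_nonneg {g : ℂ → ℂ} (hR : 0 ≤ R) (hb : ∀ x ∈ JJ, 0 ≤ b x) : 0 ≤ AA g a b R := by
  refine intervalIntegral.integral_nonneg hR (fun s _ => ?_)
  refine intervalIntegral.integral_nonneg (by norm_num) (fun x hx => ?_)
  exact mul_nonneg (hb x hx) (by positivity)

/-! ### horizontal lines -/

lemma famH {c : ℝ} (hc : 0 < c) (hR : 0 ≤ R) :
    Fam (fun _ => c) (fun _ => 1) (fun _ => 0) (fun _ => 0) R where
  da := fun x _ => hasDerivAt_const x c
  db := fun x _ => hasDerivAt_const x 1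
  ca := continuousOn_const
  cb := continuousOn_const
  hR := hR
  pos := fun _ _ s hs => by have := hs.1; linarith

/-- the line integral along `im z = c` -/
def LL (G g : ℂ → ℂ) (c : ℝ) : ℂ :=
  ∫ x in (-1 / 2 : ℝ)..(1 / 2), conj (G (x + I * c)) * g (x + I * c)

lemma II_H (G g : ℂ → ℂ) (c s : ℝ) :
    II G g (fun _ => c) (fun _ => 1) (fun _ => 0) (fun _ => 0) s = LL G g (c + s) := by
  simp [II, LL, Pf, pt]

lemma Sys.LL_step (h : Sys S T G g r) {c : ℝ} (hc : 0 < c) (hR : 0 ≤ R) :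
    ∑ A, (LL (G A) (g A) c).im = ∑ A, (LL (G A) (g A) (c + R)).im
      + 2 * ∑ A, AA (g A) (fun _ => c) (fun _ => 1) R := by
  have := h.sum_green (famH hc hR) rfl rfl
  simpa only [II_H, add_zero] using this

lemma Sys.LL_nonneg (h : Sys S T G g r) {c : ℝ} (hc : 0 < c) :
    0 ≤ ∑ A, (LL (G A) (g A) c).im := by
  refine le_of_forall_pos_le_add (fun ε hε => ?_)
  set n : ℝ := Fintype.card P + 1 with hn
  have hn0 : 0 < n := by positivity
  set δ := min 1 (ε / n) with hδ
  have hδ0 : 0 < δ := lt_min one_pos (div_pos hε hn0)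
  choose Y hY using fun A => h.dec A δ hδ0
  set R : ℝ := ∑ A, |Y A| with hR
  have hR0 : 0 ≤ R := Finset.sum_nonneg fun A _ => abs_nonneg _
  have hb : ∀ A, -(ε / n) ≤ (LL (G A) (g A) (c + R)).im := by
    intro A
    have hle : Y A ≤ c + R := by
      have := Finset.single_le_sum (f := fun A => |Y A|) (fun A _ => abs_nonneg _)
        (Finset.mem_univ A)
      have := le_abs_self (Y A)
      linarith
    have hn : ‖LL (G A) (g A) (c + R)‖ ≤ (ε / n) * |(1 / 2 : ℝ) - (-1 / 2)| := by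
      refine intervalIntegral.norm_integral_le_of_norm_le_const (fun x _ => ?_)
      obtain ⟨h1, h2⟩ := hY A (x + I * ((c + R : ℝ) : ℂ)) (by simpa using hle)
      rw [norm_mul, Complex.norm_conj]
      calc _ ≤ δ * δ := mul_le_mul h1 h2 (norm_nonneg _) hδ0.le
        _ ≤ 1 * (ε / n) := mul_le_mul (min_le_left _ _) (min_le_right _ _) hδ0.le zero_le_one
        _ = _ := one_mul _
    have := Complex.abs_im_le_norm (LL (G A) (g A) (c + R))
    have h3 := neg_abs_le (LL (G A) (g A) (c + R)).im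
    norm_num at hn
    linarith
  have h1 := h.LL_step hc hR0
  have h2 : 0 ≤ ∑ A, AA (g A) (fun _ => c) (fun _ => 1) R :=
    Finset.sum_nonneg fun A _ => AA_nonneg hR0 (fun _ _ => zero_le_one)
  have h3 : ∑ _A : P, -(ε / n) ≤ ∑ A, (LL (G A) (g A) (c + R)).im :=
    Finset.sum_le_sum fun A _ => hb A
  rw [Finset.sum_const, Finset.card_univ, nsmul_eq_mul] at h3
  have h4 : (Fintype.card P : ℝ) * (ε / n) ≤ ε := by
    rw [← mul_div_assoc, div_le_iff₀ hn0, hn]; nlinarith
  linarith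

/-! ### the arc -/

/-- height of the unit circle -/
def ar (x : ℝ) : ℝ := Real.sqrt (1 - x ^ 2)
/-- its derivative -/
def ar' (x : ℝ) : ℝ := -x / ar x

lemma sq_lt {x : ℝ} (hx : x ∈ JJ) : 0 < 1 - x ^ 2 := by
  obtain ⟨h1, h2⟩ := hx; nlinarith

lemma ar_pos {x : ℝ} (hx : x ∈ JJ) : 0 < ar x := Real.sqrt_pos.mpr (sq_lt hx)
lemma ar_sq {x : ℝ} (hx : x ∈ JJ) : ar x ^ 2 = 1 - x ^ 2 := Real.sq_sqrt (sq_lt hx).le
lemma ar_le {x : ℝ} : ar x ≤ 1 := Real.sqrt_le_one.mpr (by nlinarith [sq_nonneg x])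
lemma ar_neg (x : ℝ) : ar (-x) = ar x := by simp [ar]

lemma ar_deriv {x : ℝ} (hx : x ∈ JJ) : HasDerivAt ar (ar' x) x := by
  have h1 : HasDerivAt (fun x : ℝ => 1 - x ^ 2) (-(2 * x)) x := by
    simpa using (hasDerivAt_pow 2 x).const_sub 1
  refine (h1.sqrt (sq_lt hx).ne').congr_deriv ?_
  have := (ar_pos hx).ne'
  simp only [ar', ar] at this ⊢
  field_simp

lemma ar'_cont : ContinuousOn ar' JJ := by
  unfold ar'
  refine ContinuousOn.div (by fun_prop) ?_ (fun x hx => (ar_pos hx).ne')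
  unfold ar; fun_prop

lemma famA : Fam ar (fun x => 1 - ar x) ar' (fun x => - ar' x) 1 where
  da := fun x hx => ar_deriv hx
  db := fun x hx => (ar_deriv hx).const_sub 1
  ca := ar'_cont
  cb := ar'_cont.neg
  hR := zero_le_one
  pos := fun x hx s hs => by
    have h1 := ar_pos hx
    have h2 : 0 ≤ s * (1 - ar x) := mul_nonneg hs.1 (by linarith [ar_le (x := x)])
    linarith

/-- the arc -/
def gm (x : ℝ) : ℂ := x + I * (ar x : ℂ)

lemma gm_im (x : ℝ) : (gm x).im = ar x := by simp [gm]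

lemma gm_neg {x : ℝ} (hx : x ∈ JJ) : gm (-x) = -1 / gm x := by
  have h0 : gm x ≠ 0 := by
    intro h; have := ar_pos hx; rw [← gm_im, h] at this; simp at this
  have h1 : ((ar x : ℂ)) ^ 2 = 1 - (x : ℂ) ^ 2 := by exact_mod_cast ar_sq hx
  rw [eq_div_iff h0, gm, gm, ar_neg]
  push_cast
  linear_combination ((ar x : ℂ)) ^ 2 * I_sq - h1

lemma neg_mem_JJ {x : ℝ} (hx : x ∈ JJ) : -x ∈ JJ := by
  obtain ⟨h1, h2⟩ := hx; constructor <;> linarith

lemma gm_deriv {x : ℝ} (hx : x ∈ JJ) : HasDerivAt gm (1 + I * (ar' x : ℂ)) x :=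
  (hasDerivAt_id x).ofReal_comp.add ((ar_deriv hx).ofReal_comp.const_mul I)

/-- derivative of `G` along the arc -/
def du (g : ℂ → ℂ) (x : ℝ) : ℂ := g (gm x) * (1 + I * (ar' x : ℂ))

lemma Prim.arc {G g : ℂ → ℂ} (h : Prim G g) {x : ℝ} (hx : x ∈ JJ) :
    HasDerivAt (fun x => G (gm x)) (du g x) x :=
  comp_real (γ := gm) (h _ (by rw [gm_im]; exact ar_pos hx)) (gm_deriv hx)

lemma II_A0 (G g : ℂ → ℂ) : II G g ar (fun x => 1 - ar x) ar' (fun x => - ar' x) 0
    = ∫ x in (-1 / 2 : ℝ)..(1 / 2), conj (G (gm x)) * du g x := by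
  simp [II, Pf, pt, du, gm, mul_assoc]

lemma II_A1 (G g : ℂ → ℂ) : II G g ar (fun x => 1 - ar x) ar' (fun x => - ar' x) 1
    = LL G g 1 := by
  simp [II, Pf, pt, LL]

lemma cont_gm : ContinuousOn gm JJ := fun _ hx => (gm_deriv hx).continuousAt.continuousWithinAt

lemma Prim.c_arc {u : ℂ → ℂ} (h : ContinuousOn u UU) : ContinuousOn (fun x => u (gm x)) JJ :=
  h.comp cont_gm (fun x hx => by show 0 < (gm x).im; rw [gm_im]; exact ar_pos hx)

lemma Prim.c_du {G g : ℂ → ℂ} (h : Prim G g) : ContinuousOn (du g) JJ :=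
  (Prim.c_arc h.cg).mul (continuousOn_const.add (continuousOn_const.mul
    (Complex.continuous_ofReal.comp_continuousOn ar'_cont)))

lemma Sys.uS (h : Sys S T G g r) (A : P) {x : ℝ} (hx : x ∈ JJ) :
    G A (gm (-x)) = G (S A) (gm x) + r A := by
  rw [gm_neg hx]; exact h.hS A _ (by rw [gm_im]; exact ar_pos hx)

lemma Sys.duS (h : Sys S T G g r) (A : P) {x : ℝ} (hx : x ∈ Ioo (-1 / 2 : ℝ) (1 / 2)) :
    du (g A) (-x) = - du (g (S A)) x := by
  have hx' : x ∈ JJ := Ioo_subset_Icc_self hx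
  have h1 : HasDerivAt (fun x => G A (gm (-x))) (- du (g A) (-x)) x := by
    have := ((h.prim A).arc (neg_mem_JJ hx')).scomp x (hasDerivAt_neg x)
    simpa [Function.comp_def] using this
  have h2 : HasDerivAt (fun x => G A (gm (-x))) (du (g (S A)) x) x := by
    refine (((h.prim (S A)).arc hx').add_const (r A)).congr_of_eventuallyEq ?_
    filter_upwards [Ioo_mem_nhds hx.1 hx.2] with w hw
    exact h.uS A (Ioo_subset_Icc_self hw)
  have := h1.unique h2
  linear_combination -this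

lemma Sys.arcS (h : Sys S T G g r) (A : P) :
    (∫ x in (-1 / 2 : ℝ)..(1 / 2), conj (G A (gm x)) * du (g A) x)
      = - (∫ x in (-1 / 2 : ℝ)..(1 / 2), conj (G (S A) (gm x)) * du (g (S A)) x)
        - conj (r A) * (G (S A) (gm (1 / 2)) - G (S A) (gm (-1 / 2))) := by
  have p := h.prim (S A)
  have i1 : IntervalIntegrable (fun x => conj (G (S A) (gm x)) * du (g (S A)) x) volume
      (-1 / 2) (1 / 2) := by
    apply ContinuousOn.intervalIntegrable; rw [uIcc_JJ]
    exact (Complex.continuous_conj.comp_continuousOn (Prim.c_arc p.cG)).mul p.c_du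
  have i2 : IntervalIntegrable (du (g (S A))) volume (-1 / 2) (1 / 2) := by
    apply ContinuousOn.intervalIntegrable; rw [uIcc_JJ]; exact p.c_du
  have e1 : (∫ x in (-1 / 2 : ℝ)..(1 / 2), conj (G A (gm x)) * du (g A) x)
      = ∫ x in (-1 / 2 : ℝ)..(1 / 2), conj (G A (gm (-x))) * du (g A) (-x) := by
    rw [intervalIntegral.integral_comp_neg (fun x => conj (G A (gm x)) * du (g A) x)]
    norm_num
  have e2 : (∫ x in (-1 / 2 : ℝ)..(1 / 2), conj (G A (gm (-x))) * du (g A) (-x))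
      = ∫ x in (-1 / 2 : ℝ)..(1 / 2), (-(conj (G (S A) (gm x)) * du (g (S A)) x)
          - conj (r A) * du (g (S A)) x) := by
    refine intervalIntegral.integral_congr_ae ?_
    have hne : ∀ᵐ x : ℝ, x ≠ 1 / 2 := by simp [ae_iff]
    filter_upwards [hne] with x hx hx'
    rw [uIoc_of_le (by norm_num)] at hx'
    have hI : x ∈ Ioo (-1 / 2 : ℝ) (1 / 2) := ⟨hx'.1, lt_of_le_of_ne hx'.2 hx⟩
    rw [h.uS A (Ioo_subset_Icc_self hI), h.duS A hI, map_add]; ring
  have e3 : (∫ x in (-1 / 2 : ℝ)..(1 / 2), du (g (S A)) x)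
      = G (S A) (gm (1 / 2)) - G (S A) (gm (-1 / 2)) :=
    intervalIntegral.integral_eq_sub_of_hasDerivAt (f := fun x => G (S A) (gm x))
      (fun x hx => p.arc (by rwa [uIcc_JJ] at hx)) i2
  have i3 : IntervalIntegrable (fun x => -(conj (G (S A) (gm x)) * du (g (S A)) x)) volume
      (-1 / 2) (1 / 2) := i1.neg
  rw [e1, e2, intervalIntegral.integral_sub i3 (i2.const_mul _),
    intervalIntegral.integral_neg, intervalIntegral.integral_const_mul, e3]

lemma gm_half : gm (1 / 2) = gm (-1 / 2) + 1 := by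
  have : ar (1 / 2) = ar (-1 / 2) := by rw [← ar_neg]; norm_num
  simp only [gm, this]; push_cast; ring

/-- the value of the arc integral -/
theorem Sys.arc_sum (h : Sys S T G g r) :
    ∑ A, (∫ x in (-1 / 2 : ℝ)..(1 / 2), conj (G A (gm x)) * du (g A) x).im
      = -(1 / 3) * ∑ A, (conj (r A) * r (T (S A))).im := by
  set J : P → ℂ := fun A => ∫ x in (-1 / 2 : ℝ)..(1 / 2), conj (G A (gm x)) * du (g A) x with hJ
  set x : P → ℂ := fun A => G A (gm (-1 / 2)) with hx
  set V : Equiv.Perm P := S.trans T with hV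
  have hVa : ∀ A, V A = T (S A) := fun A => rfl
  have hp : 0 < (gm (-1 / 2)).im := by rw [gm_im]; exact ar_pos hJ2
  have x1 : ∀ A, G A (gm (1 / 2)) = x (T A) := fun A => by rw [gm_half, h.hT A _ hp]
  have x2 : ∀ A, r A = x A - x (V A) := fun A => by
    have := h.uS A hJ1
    rw [x1, show -(1 / 2 : ℝ) = -1 / 2 by norm_num] at this
    simp only [hx, hVa] at this ⊢
    linear_combination -this
  have j1 : ∀ A, J A = - J (S A) - conj (r A) * (x (V A) - x (S A)) := fun A => by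
    have := h.arcS A
    rw [x1] at this
    exact this
  have s1 : ∑ A, J (S A) = ∑ A, J A := Equiv.sum_comp S J
  have s2 : ∑ A, conj (r A) * x (S A) = - ∑ A, conj (r A) * x A := by
    rw [← Equiv.sum_comp S (fun A => conj (r A) * x (S A)), ← Finset.sum_neg_distrib]
    refine Finset.sum_congr rfl fun A _ => ?_
    rw [h.rS, h.SS, map_neg]; ring
  have s3 : 2 * ∑ A, J A = - ∑ A, conj (r A) * (x A + x (V A)) := by
    have : ∑ A, J A = ∑ A, (- J (S A) - conj (r A) * (x (V A) - x (S A))) :=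
      Finset.sum_congr rfl fun A _ => j1 A
    simp only [mul_sub, mul_add, Finset.sum_sub_distrib, Finset.sum_add_distrib,
      Finset.sum_neg_distrib] at this ⊢
    rw [s1, s2] at this
    linear_combination this
  set W : ℝ := ∑ A, (conj (x A) * x (V A)).im with hW
  have s4 : ∑ A, (J A).im = - W := by
    have := congrArg Complex.im s3
    rw [neg_im, im_sum] at this
    simp only [mul_im, re_ofNat, im_ofNat, zero_mul, add_zero, im_sum] at this
    have e : ∑ A, ((conj (r A)).re * (x A + x (V A)).im + (conj (r A)).im * (x A + x (V A)).re)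
        = 2 * W := by
      rw [hW, Finset.mul_sum]
      refine Finset.sum_congr rfl fun A _ => ?_
      rw [x2 A]; simp; ring
    linarith
  have s5 : ∑ A, (conj (x (V A)) * x (V (V A))).im = W :=
    Equiv.sum_comp V (fun A => (conj (x A) * x (V A)).im)
  have s6 : ∑ A, (conj (x A) * x (V (V A))).im = - W := by
    rw [← Equiv.sum_comp V (fun A => (conj (x A) * x (V (V A))).im), hW, ← Finset.sum_neg_distrib]
    refine Finset.sum_congr rfl fun A _ => ?_
    have : V (V (V A)) = A := h.V3 A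
    rw [this]; simp; ring
  have s7 : ∑ A, (conj (r A) * r (T (S A))).im = 3 * W := by
    have : ∑ A, (conj (r A) * r (T (S A))).im = ∑ A, ((conj (x A) * x (V A)).im
        - (conj (x A) * x (V (V A))).im + (conj (x (V A)) * x (V (V A))).im) := by
      refine Finset.sum_congr rfl fun A _ => ?_
      rw [← hVa, x2 A, x2 (V A)]; simp; ring
    rw [this, Finset.sum_add_distrib, Finset.sum_sub_distrib, s5, s6]; ring
  rw [s7]
  change ∑ A, (J A).im = _
  rw [s4]; ring

/-- **Haberland's inequality.** -/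
theorem Sys.haberland (h : Sys S T G g r) (A0 : P) :
    6 * AA (g A0) (fun _ => 1) (fun _ => 1) 1 ≤ - ∑ A, (conj (r A) * r (T (S A))).im := by
  have h1 := h.sum_green famA (by rw [← ar_neg]; norm_num) (by rw [← ar_neg]; norm_num)
  simp only [II_A0, II_A1] at h1
  rw [h.arc_sum] at h1
  have h2 : 0 ≤ ∑ A, AA (g A) ar (fun x => 1 - ar x) 1 :=
    Finset.sum_nonneg fun A _ => AA_nonneg zero_le_one (fun x _ => by linarith [ar_le (x := x)])
  have h3 := h.LL_step one_pos zero_le_one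
  have h4 := h.LL_nonneg (c := 1 + 1) (by norm_num)
  have h5 : AA (g A0) (fun _ => 1) (fun _ => 1) 1 ≤ ∑ A, AA (g A) (fun _ => 1) (fun _ => 1) 1 :=
    Finset.single_le_sum (f := fun A => AA (g A) (fun _ => 1) (fun _ => 1) 1)
      (fun A _ => AA_nonneg zero_le_one (fun _ _ => zero_le_one)) (Finset.mem_univ A0)
  linarith

/-- lower bound of the strip integral by one Fourier coefficient -/
theorem coef_le {G g : ℂ → ℂ} (h : Prim G g) {c : ℝ} (hc : 0 ≤ c)
    (hb : ∀ y ∈ Icc (1 : ℝ) 2, c ≤ ∫ x in (-1 / 2 : ℝ)..(1 / 2), ‖g (x + I * y)‖) :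
    c ^ 2 ≤ AA g (fun _ => 1) (fun _ => 1) 1 := by
  have F := famH (R := 1) one_pos zero_le_one
  have key : ∀ s ∈ Icc (0 : ℝ) 1,
      c ^ 2 ≤ ∫ x in (-1 / 2 : ℝ)..(1 / 2), Af g (fun _ => 1) (fun _ => 1) x s := by
    intro s hs
    have h1 := hb (1 + s) ⟨by linarith [hs.1], by linarith [hs.2]⟩
    have i1 := ii_x (u := fun x s => ‖g (pt (fun _ => 1) (fun _ => 1) x s)‖)
      (F.ccomp h.cg).norm hs
    have i2 := ii_x (F.cA h) hs
    have e : ∀ x : ℝ, pt (fun _ => 1) (fun _ => 1) x s = x + I * ((1 + s : ℝ) : ℂ) := by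
      intro x; simp [pt]
    have h2 : (∫ x in (-1 / 2 : ℝ)..(1 / 2),
        (2 * c * ‖g (pt (fun _ => 1) (fun _ => 1) x s)‖ - c ^ 2))
        ≤ ∫ x in (-1 / 2 : ℝ)..(1 / 2), Af g (fun _ => 1) (fun _ => 1) x s := by
      refine intervalIntegral.integral_mono_on (by norm_num)
        ((i1.const_mul _).sub intervalIntegrable_const) i2 (fun x _ => ?_)
      simp only [Af]
      nlinarith [sq_nonneg (‖g (pt (fun _ => 1) (fun _ => 1) x s)‖ - c)]
    rw [intervalIntegral.integral_sub (i1.const_mul _) intervalIntegrable_const,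
      intervalIntegral.integral_const_mul] at h2
    simp only [e] at h2
    norm_num at h2 h1 ⊢
    nlinarith
  have iA : IntervalIntegrable
      (fun s => ∫ x in (-1 / 2 : ℝ)..(1 / 2), Af g (fun _ => 1) (fun _ => 1) x s) volume 0 1 := by
    have := (io (F.cA h) F.hR)
    rw [IntegrableOn, Measure.volume_eq_prod, ← Measure.prod_restrict] at this
    have h2 := this.integral_prod_right
    rw [intervalIntegrable_iff]
    refine h2.congr (Filter.Eventually.of_forall fun s => ?_)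
    simp only [Function.uncurry]
    rw [intervalIntegral.integral_of_le (by norm_num), uIoc_of_le (by norm_num)]
  have := intervalIntegral.integral_mono_on zero_le_one intervalIntegrable_const iA key
  simpa [AA] using this

end Crest.Agent.T15.Hab
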