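import Mathlib
import Crest.Agent.T15.HkLev_62

/-!
# Row 15, block T (helper62): level lowering on simultaneous generalised eigenspaces

`GE t a` = the vectors on which all `t k - a k` are locally nilpotent.  `Lev.Cp u u'` = a pair of
operators compatible with the degeneracy map.  `Lev.tr_comm`, `Lev.old`, `Lev.bijOn`.
-/

set_option autoImplicit false

noncomputable section

namespace Crest.Agent.T15.Hk

open Finset Polynomial

variable {O : Type*} [CommRing O] {M M' : Type*} [AddCommGroup M] [Module O M] [AddCommGroup M']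
  [Module O M']

/-- simultaneous generalised eigenspace -/
def GE {κ : Type*} (t : κ → Module.End O M) (a : κ → O) : Submodule O M :=
  ⨅ k, (t k).maxGenEigenspace (a k)

lemma mem_GE {κ : Type*} {t : κ → Module.End O M} {a : κ → O} {x : M} :
    x ∈ GE t a ↔ ∀ k, LN (t k - a k • 1) x := by
  simp only [GE, Submodule.mem_iInf, LN.iff_mem]

lemma GE_map {κ : Type*} {t : κ → Module.End O M} {t' : κ → Module.End O M'} {a : κ → O}
    (φ : M →ₗ[O] M') (h : ∀ k x, φ (t k x) = t' k (φ x)) {x : M} (hx : x ∈ GE t a) :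
    φ x ∈ GE t' a := mem_GE.2 fun k => (mem_GE.1 hx k).map φ fun y => by simp [h]

lemma commute_aeval {T u : Module.End O M} (h : Commute u T) (f : O[X]) :
    Commute u (aeval T f) := by
  induction f using Polynomial.induction_on' with
  | add f g hf hg => rw [map_add]; exact hf.add_right hg
  | monomial k r =>
    rw [aeval_monomial]
    exact (Algebra.commute_algebraMap_right r _).mul_right (h.pow_right k)

lemma commute_sub {T u : Module.End O M} (h : Commute u T) (s : O) : Commute u (T - s • 1) :=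
  h.sub_right ((Commute.one_right _).smul_right _)

namespace Lev
variable {q s α : O} {i : M →ₗ[O] M'} {tr : M' →ₗ[O] M} {W U : Module.End O M'}
  {T : Module.End O M}

/-- the unit conditions at a Taylor–Wiles prime -/
structure Un (q s α : O) : Prop where
  h0 : IsNilpotent (α ^ 2 - s * α + q)
  hα : IsUnit α
  hq : IsUnit q
  h1 : IsUnit (s - 2 * α)
  h2 : IsUnit (s - (q + 1) * α)
  h3 : IsUnit (α ^ 2 - 1)

/-- compatible pair of operators -/
structure Cp (i : M →ₗ[O] M') (U : Module.End O M') (T u : Module.End O M)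
    (u' : Module.End O M') : Prop where
  hi : ∀ x, i (u x) = u' (i x)
  hU : Commute u' U
  hT : Commute u T

lemma Cp.sub {u : Module.End O M} {u' : Module.End O M'} (c : Cp i U T u u') (a : O) :
    Cp i U T (u - a • 1) (u' - a • 1) :=
  ⟨fun x => by simp [c.hi], (commute_sub c.hU.symm a).symm, (commute_sub c.hT.symm a).symm⟩

variable (h : Lev q i tr W U T)
include h

lemma W_i (x : M) : W (i x) = i (T x) - U (i x) := by
  rw [← h.tr_W, ← h.UW]; abel

lemma W_i_comm {u : Module.End O M} {u' : Module.End O M'} (c : Cp i U T u u') (x : M) :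
    W (i (u x)) = u' (W (i x)) := by
  rw [h.W_i, h.W_i, map_sub, ← c.hi, c.hi x, ← Module.End.mul_apply U, ← c.hU.eq,
    ← Module.End.mul_apply T, ← c.hT.eq]
  rfl

/-- the trace commutes with compatible operators on the `U ≡ α` part -/
theorem tr_comm (hu : Un q s α) {u : Module.End O M} {u' : Module.End O M'} (c : Cp i U T u u')
    {v : M'} (hv : LN (U - α • 1) v) : tr (u' v) = u (tr v) := by
  obtain ⟨f, g, h1, h2⟩ := h.surj hu.h0 hu.h1 hu.h2 (h.maps hu.h0 hu.hα hv)
  have h3 : v = W (i (aeval T f (tr v))) - i (aeval T g (tr v)) := sub_eq_zero.1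
    (h.inj hu.h0 hu.hα hu.hq hu.h1 hu.h2 hu.h3 (hv.sub_vec h1) (by rw [map_sub, h2, sub_self]))
  have h4 : ∀ x y, tr (u' (W (i x) - i y)) = u (tr (W (i x) - i y)) := fun x y => by
    rw [map_sub, ← h.W_i_comm c, ← c.hi, map_sub, map_sub, h.tr_W, h.tr_W, h.tr_i, h.tr_i, map_sub,
      map_smul, ← Module.End.mul_apply T, ← c.hT.eq, Module.End.mul_apply]
  rw [h3, h4]

theorem ln_tr (hu : Un q s α) {u : Module.End O M} {u' : Module.End O M'} (c : Cp i U T u u')
    {v : M'} (hv : LN (U - α • 1) v) (hv' : LN u' v) : LN u (tr v) := by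
  obtain ⟨k, hk⟩ := hv'
  have : ∀ k : ℕ, LN (U - α • 1) ((u' ^ k) v) ∧ tr ((u' ^ k) v) = (u ^ k) (tr v) := fun k => by
    induction k with
    | zero => exact ⟨hv, rfl⟩
    | succ k ih =>
      rw [pow_succ', pow_succ', Module.End.mul_apply, Module.End.mul_apply]
      exact ⟨ih.1.comm (commute_sub c.hU α), by rw [h.tr_comm hu c ih.1, ih.2]⟩
  exact ⟨k, by rw [← (this k).2, hk, map_zero]⟩

variable {κ : Type*} {t : κ → Module.End O M} {t' : κ → Module.End O M'} {a a' : κ → O} {k₀ : κ}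

/-- every vector of the small eigenspace has an old preimage -/
theorem exists_old (hu : Un q (a k₀) (a' k₀)) (hT : t k₀ = T) (hU : t' k₀ = U)
    (hc : ∀ k, k ≠ k₀ → Cp i U T (t k) (t' k) ∧ a k = a' k) {x : M} (hx : x ∈ GE t a) :
    ∃ y ∈ GE t a, ∃ z ∈ GE t a, W (i y) - i z ∈ GE t' a' ∧ tr (W (i y) - i z) = x := by
  obtain ⟨f, g, h1, h2⟩ := h.surj hu.h0 hu.h1 hu.h2 (hT ▸ mem_GE.1 hx k₀)
  have h3 : ∀ f : O[X], aeval T f x ∈ GE t a := fun f => GE_map _ (fun k y => by
    by_cases hk : k = k₀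
    · rw [hk, hT]; exact LinearMap.congr_fun (commute_aeval (Commute.refl T) f).symm.eq y
    · exact LinearMap.congr_fun (commute_aeval (hc k hk).1.hT f).symm.eq y) hx
  refine ⟨_, h3 f, _, h3 g, mem_GE.2 fun k => ?_, h2⟩
  by_cases hk : k = k₀
  · rwa [hk, hU]
  · rw [← (hc k hk).2]
    have c := (hc k hk).1.sub (a k)
    exact ((mem_GE.1 (h3 f) k).map (W ∘ₗ i) (h.W_i_comm c)).sub_vec ((mem_GE.1 (h3 g) k).map i c.hi)

/-- **level lowering**: the trace is a bijection of simultaneous generalised eigenspaces -/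
theorem bijOn (hu : Un q (a k₀) (a' k₀)) (hT : t k₀ = T) (hU : t' k₀ = U)
    (hc : ∀ k, k ≠ k₀ → Cp i U T (t k) (t' k) ∧ a k = a' k) :
    Set.BijOn tr (GE t' a') (GE t a) := by
  have h0 : ∀ v ∈ GE t' a', LN (U - a' k₀ • 1) v := fun v hv => hU ▸ mem_GE.1 hv k₀
  refine ⟨fun v hv => mem_GE.2 fun k => ?_, fun v hv w hw hvw => sub_eq_zero.1 ?_, fun x hx => ?_⟩
  · by_cases hk : k = k₀
    · rw [hk, hT]; exact h.maps hu.h0 hu.hα (h0 v hv)
    · exact h.ln_tr hu ((hc k hk).1.sub _) (h0 v hv) ((hc k hk).2 ▸ mem_GE.1 hv k)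
  · exact h.inj hu.h0 hu.hα hu.hq hu.h1 hu.h2 hu.h3 ((h0 v hv).sub_vec (h0 w hw))
      (by rw [map_sub, hvw, sub_self])
  · obtain ⟨y, -, z, -, h1, h2⟩ := h.exists_old hu hT hU hc hx
    exact ⟨_, h1, h2⟩

/-- the big eigenspace is old -/
theorem old (hu : Un q (a k₀) (a' k₀)) (hT : t k₀ = T) (hU : t' k₀ = U)
    (hc : ∀ k, k ≠ k₀ → Cp i U T (t k) (t' k) ∧ a k = a' k) {v : M'} (hv : v ∈ GE t' a') :
    ∃ y ∈ GE t a, ∃ z ∈ GE t a, v = W (i y) - i z := by
  have hb := h.bijOn hu hT hU hc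
  obtain ⟨y, hy, z, hz, h1, h2⟩ := h.exists_old hu hT hU hc (hb.mapsTo hv)
  exact ⟨y, hy, z, hz, hb.injOn hv h1 h2.symm⟩

end Lev

end Crest.Agent.T15.Hk

end
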