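import Crest.Agent.T15.HkFree_62
import Crest.Agent.T15.HkLevB_62

/-!
# Row 15, block T (helper62): the relations `Lev` from an Atkin–Lehner element

`AL Γ Γ' w u` : `w` normalises `Γ' = Γ ∩ w⁻¹ Γ w`, `w²` is central modulo `Γ'`, `w⁻¹ u_i ∈ Γ`,
`U = ∑ u_i` and `T = U + w` are correspondences.  Then `Lev (card ι) res tr W U T`.
-/

set_option autoImplicit false
set_option linter.unusedSectionVars false

noncomputable section

namespace Crest.Agent.T15.Hk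

open Finset

variable {G : Type*} [Group G] {O : Type*} [CommRing O]
variable {A : Type*} [AddCommGroup A] [Module O A] {Γ Γ' : Subgroup G}

lemma lin_congr_span {z : MonoidAlgebra O G} (hz : z ∈ Submodule.span O (e O '' Γ))
    {F F' : G → A} (h : ∀ γ ∈ Γ, F γ = F' γ) : lin O F z = lin O F' z :=
  LinearMap.eqOn_span' (by rintro _ ⟨γ, hγ, rfl⟩; simp [h γ hγ]) hz

lemma span_mul_e {z : MonoidAlgebra O G} (hz : z ∈ Submodule.span O (e O '' Γ)) {γ : G}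
    (hγ : γ ∈ Γ) : z * e O γ ∈ Submodule.span O (e O '' Γ) := by
  have : Submodule.span O (e O '' Γ) ≤
      (Submodule.span O (e O '' Γ)).comap (LinearMap.mulRight O (e O γ)) :=
    Submodule.span_le.2 (by
      rintro _ ⟨δ, hδ, rfl⟩
      exact Submodule.subset_span ⟨δ * γ, Γ.mul_mem hδ hγ, e_mul _ _⟩)
  exact this hz

/-- `Γ' \ Γ → Γ \ G`, `γ ↦ w γ` is injective -/
lemma null_of_conj {w : G} (hw : ∀ γ ∈ Γ, w * γ * w⁻¹ ∈ Γ → γ ∈ Γ') {z : MonoidAlgebra O G}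
    (hz : z ∈ Submodule.span O (e O '' Γ)) (h : e O w * z ∈ Null O Γ) : z ∈ Null O Γ' :=
  mem_null fun F hF => by
    classical
    let F' : G → (RC Γ' →₀ O) := fun g =>
      if h : ∃ γ ∈ Γ, cs Γ (w * γ) = cs Γ g then F h.choose else 0
    have h1 := null_lin h (F := F') fun γ hγ g => by simp only [F', cs_mul hγ]
    rw [lin_e_mul] at h1
    rw [← h1]
    refine lin_congr_span hz fun γ hγ => ?_
    have h2 : ∃ δ ∈ Γ, cs Γ (w * δ) = cs Γ (w * γ) := ⟨γ, hγ, rfl⟩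
    simp only [F', dif_pos h2]
    obtain ⟨h3, h4⟩ := h2.choose_spec
    rw [← hF _ (hw _ (Γ.mul_mem hγ (Γ.inv_mem h3)) (by simpa [mul_assoc] using cs_eq.1 h4))
      h2.choose, inv_mul_cancel_right]

lemma val_conj (φ : HH Γ A) {δ γ : G} (hδ : δ ∈ Γ) (hγ : γ ∈ Γ) :
    val φ (δ * γ * δ⁻¹) = val φ γ := by
  rw [val_mul φ (Γ.mul_mem hδ hγ) (Γ.inv_mem hδ), val_mul φ hδ hγ, val_inv φ hδ]; abel

/-- Atkin–Lehner data -/
structure AL (O : Type*) [CommRing O] (Γ Γ' : Subgroup G) (w : G) {ι : Type*} [Fintype ι]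
    (u : ι → G) : Prop where
  le : Γ' ≤ Γ
  norm : ∀ γ ∈ Γ', w * γ * w⁻¹ ∈ Γ'
  inter : ∀ γ ∈ Γ, w * γ * w⁻¹ ∈ Γ → γ ∈ Γ'
  sq : ∃ z ∈ Subgroup.center G, ∃ γ ∈ Γ', w * w = z * γ
  hu : ∀ i, w⁻¹ * u i ∈ Γ
  hU : ∑ i, e O (u i) ∈ Corr O Γ' Γ'
  hT : ∑ i, e O (u i) + e O w ∈ Corr O Γ Γ

namespace AL
variable {w : G} {ι : Type*} [Fintype ι] {u : ι → G} (h : AL O Γ Γ' w u)
include h

omit h in
lemma tr_eq : e O w⁻¹ * (∑ i, e O (u i) + e O w) = ∑ i, e O (w⁻¹ * u i) + 1 := by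
  simp only [mul_add, mul_sum, ← e_mul, inv_mul_cancel, e_one]

omit h in
lemma w_tr (z : MonoidAlgebra O G) : e O w * (e O w⁻¹ * z) = z := by
  rw [← mul_assoc, ← e_mul, mul_inv_cancel, e_one, one_mul]

lemma tr_corr : e O w⁻¹ * (∑ i, e O (u i) + e O w) ∈ Corr O Γ' Γ := fun γ hγ => by
  have h1 : e O w⁻¹ * (∑ i, e O (u i) + e O w) ∈ Submodule.span O (e O '' Γ) := by
    rw [tr_eq]
    exact add_mem (Submodule.sum_mem _ fun i _ => Submodule.subset_span ⟨_, h.hu i, rfl⟩)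
      (Submodule.subset_span ⟨1, Γ.one_mem, rfl⟩)
  refine null_of_conj h.inter (sub_mem (span_mul_e h1 hγ) h1) ?_
  rw [mul_sub, ← mul_assoc, w_tr]
  exact h.hT γ hγ

variable (A)

/-- the trace -/
def tr : HH Γ' A →ₗ[O] HH Γ A := T A ⟨_, h.tr_corr⟩

/-- the involution -/
def W : Module.End O (HH Γ' A) := T A ⟨e O w, e_mem_corr h.norm⟩

lemma val_W (φ : HH Γ' A) {γ : G} (hγ : γ ∈ Γ') : val (h.W A φ) γ = val φ (w * γ * w⁻¹) :=
  val_T_e _ φ hγ (h.norm γ hγ)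

lemma val_W_res (φ : HH Γ A) {γ : G} (hγ : γ ∈ Γ') :
    val (h.W A (res O A h.le φ)) γ = val φ (w * γ * w⁻¹) := by
  rw [val_W _ _ _ hγ, val_res _ _ (h.norm γ hγ)]

theorem lev : Lev (Fintype.card ι : O) (res O A h.le) (h.tr A) (h.W A) (T A ⟨_, h.hU⟩)
    (T A ⟨_, h.hT⟩) where
  tr_i x := by
    rw [tr, res, T_mul]
    have := T_smul (A := A) ((Fintype.card ι : O) + 1) ⟨1, one_mem_corr (O := O) (le_refl Γ)⟩
    rw [T_one] at this
    refine Eq.trans ?_ (LinearMap.congr_fun this x)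
    refine LinearMap.congr_fun (T_congr ?_) x
    have h2 : ∑ i, (e O (w⁻¹ * u i) - 1) ∈ Null O Γ :=
      Submodule.sum_mem _ fun i _ => e_mul_sub_one (h.hu i)
    convert h2 using 1
    rw [Submodule.coe_smul]
    simp only [one_mul, tr_eq, sum_sub_distrib, sum_const, card_univ, add_smul,
      one_smul, Nat.cast_smul_eq_nsmul]
    abel
  tr_W x := by
    rw [tr, W, res, T_mul, T_mul]
    refine LinearMap.congr_fun (T_congr ?_) x
    simp only [one_mul, w_tr, sub_self, zero_mem]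
  UW v := by
    rw [tr, W, res, T_mul, T_mul, ← LinearMap.add_apply, ← T_add]
    refine LinearMap.congr_fun (T_congr ?_) v
    simp only [mul_one, w_tr, Submodule.coe_add, sub_self, zero_mem]
  WW v := HH.ext fun γ hγ => by
    obtain ⟨z, hz, δ, hδ, hw⟩ := h.sq
    rw [val_W _ _ _ hγ, val_W _ _ _ (h.norm γ hγ), ← val_conj v hδ hγ]
    congr 1
    calc w * (w * γ * w⁻¹) * w⁻¹ = (w * w) * γ * (w * w)⁻¹ := by group
      _ = z * (δ * γ * δ⁻¹) * z⁻¹ := by rw [hw]; group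
      _ = _ := by rw [← Subgroup.mem_center_iff.1 hz, mul_inv_cancel_right]

end AL

end Crest.Agent.T15.Hk

end
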