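import Crest.Agent.T15.Lv_10
import Crest.Agent.T15.HkW_62

/-!
# Row 15, block T (helper62): the Atkin–Lehner element `W_q = σ_q diag(q,1)`

`Stp q H H'` : the level `(L', H')` is `Γ_H(L) ∩ Γ₀(q)`.  `Stp.al`, `Stp.lev`.
-/

set_option autoImplicit false
set_option linter.unusedSectionVars false

noncomputable section

namespace Crest.Agent.T15.Hk

open Finset
open scoped MatrixGroups
open Crest.Agent.T15.Mf Crest.Agent.T15.Lv

variable {L L' q : ℕ} {H : Subgroup (ZMod L)ˣ} {H' : Subgroup (ZMod L')ˣ} {O : Type*} [CommRing O]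

/-- `Γ_{H'}(L') = Γ_H(L) ∩ Γ₀(q)`, and `±q ∈ H` -/
structure Stp (q : ℕ) {L L' : ℕ} (H : Subgroup (ZMod L)ˣ) (H' : Subgroup (ZMod L')ˣ) : Prop where
  prime : q.Prime
  ndvd : ¬ q ∣ L
  eq : L' = L * q
  mem : ∀ (hd : L ∣ L') u, u ∈ H' ↔ ZMod.unitsMap hd u ∈ H
  pm : ∃ u ∈ H, (u : ZMod L) = q ∨ (u : ZMod L) = -q

/-- the Atkin–Lehner element -/
def wq (L q : ℕ) : GQ := sg L q * dg q

lemma gm_center {c : ℤ} (hc : c ≠ 0) : gm c 0 0 c ∈ Subgroup.center GQ :=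
  Subgroup.mem_center_iff.2 fun g => GQ_ext (by
    rw [Subgroup.coe_mul, Subgroup.coe_mul, Units.val_mul, Units.val_mul,
      gm_val (by simpa using mul_self_pos.2 hc)]
    ext i j
    fin_cases i <;> fin_cases j <;> simp [Matrix.mul_apply, Fin.sum_univ_two, mul_comm])

namespace Stp
variable (h : Stp q H H')
include h

lemma dvd : L ∣ L' := h.eq ▸ dvd_mul_right L q

lemma dvd' : q ∣ L' := h.eq ▸ dvd_mul_left q L

lemma cop : IsCoprime (q : ℤ) L :=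
  Nat.isCoprime_iff_coprime.2 ((Nat.Prime.coprime_iff_not_dvd h.prime).2 h.ndvd)

lemma pos : (0 : ℤ) < q := by exact_mod_cast h.prime.pos

lemma le : Gq L' H' ≤ Gq L H := Gq_le h.dvd fun u => (h.mem h.dvd u).1

lemma mem_GH {γ : SL(2, ℤ)} : γ ∈ GH L' H' ↔ γ ∈ GH L H ∧ (q : ℤ) ∣ γ 1 0 := by
  refine ⟨fun hγ => ⟨GH_le h.dvd (fun u => (h.mem h.dvd u).1) hγ, ?_⟩, fun ⟨hγ, hq⟩ => ?_⟩
  · exact (Int.natCast_dvd_natCast.2 h.dvd').trans ((ZMod.intCast_zmod_eq_zero_iff_dvd _ _).1 hγ.1)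
  · have h1 : ((γ 1 0 : ℤ) : ZMod L') = 0 := (ZMod.intCast_zmod_eq_zero_iff_dvd _ _).2 (by
      rw [h.eq, Nat.cast_mul]
      exact h.cop.symm.mul_dvd ((ZMod.intCast_zmod_eq_zero_iff_dvd _ _).1 hγ.1) hq)
    obtain ⟨-, v, -, hv⟩ := mem_GH_top.2 h1
    obtain ⟨-, u, hu, hu'⟩ := hγ
    refine ⟨h1, v, (h.mem h.dvd v).2 ?_, hv⟩
    rwa [show ZMod.unitsMap h.dvd v = u from Units.ext (by
      rw [ZMod.unitsMap_val, hv, ZMod.cast_intCast h.dvd, hu'])]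

lemma exists_ab : ∃ a b : ℤ, a * q - b * L = 1 ∧ sg L q = gm a b L q ∧
    wq L q = gm (a * q) b (L * q) q := by
  have h1 := det_eq (sgZ L q)
  have h2 := sq_eq_gm (sgZ L q)
  rw [sgZ_d h.cop, sgZ_c h.cop] at h1 h2
  refine ⟨_, _, h1, h2, ?_⟩
  rw [wq, sg, h2, dg, gm_mul (by omega) (by simpa using h.pos)]
  simp

lemma dg_conj {x y z t : ℤ} (hd : x * t - y * (z * q) = 1) :
    dg q * gm x y (z * q) t * (dg q)⁻¹ = gm x (q * y) z t := by
  have := h.pos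
  rw [mul_inv_eq_iff_eq_mul, dg, gm_mul (by simpa) (by omega), gm_mul (by nlinarith) (by simpa)]
  congr 1 <;> ring

lemma norm {γ : GQ} (hγ : γ ∈ Gq L' H') : wq L q * γ * (wq L q)⁻¹ ∈ Gq L' H' := by
  obtain ⟨γ, hγ, rfl⟩ := hγ
  obtain ⟨⟨h1, u, hu, hu'⟩, z, hz⟩ := h.mem_GH.1 hγ
  rw [mul_comm] at hz
  have hd := det_eq γ
  rw [hz] at hd
  let δ : SL(2, ℤ) := ⟨!![γ 0 0, q * γ 0 1; z, γ 1 1], by rw [Matrix.det_fin_two_of]; linarith⟩
  have hδ : δ ∈ GH L H := ⟨(ZMod.intCast_zmod_eq_zero_iff_dvd _ _).2 (h.cop.symm.dvd_of_dvd_mul_right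
    (hz ▸ (ZMod.intCast_zmod_eq_zero_iff_dvd _ _).1 h1)), u, hu, hu'⟩
  have e : wq L q * Mf.sq γ * (wq L q)⁻¹ = Mf.sq (sgZ L q * δ * (sgZ L q)⁻¹) := by
    rw [map_mul, map_mul, map_inv, sq_eq_gm δ, sq_eq_gm γ, hz]
    change _ = sg L q * gm (γ 0 0) (q * γ 0 1) z (γ 1 1) * (sg L q)⁻¹
    rw [← h.dg_conj hd, wq]; group
  rw [e, sq_mem, h.mem_GH]
  refine ⟨sq_mem.1 ?_, ?_⟩
  · rw [map_mul, map_mul, map_inv]; exact conj_mem (sg_mem L q) (sq_mem.2 hδ)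
  · rw [Lv.mul_apply, Lv.mul_apply, Lv.mul_apply, (Lv.inv_apply _).1, (Lv.inv_apply _).2.2.1,
      sgZ_d h.cop, sgZ_c h.cop]
    refine ⟨L * γ 0 0 + q * z - L * (L * γ 0 1 + γ 1 1), ?_⟩
    simp [δ]; ring

lemma inter {γ : GQ} (hγ : γ ∈ Gq L H) (h' : wq L q * γ * (wq L q)⁻¹ ∈ Gq L H) : γ ∈ Gq L' H' := by
  obtain ⟨γ, hγ, rfl⟩ := hγ
  obtain ⟨δ, -, hδ⟩ := conj_mem (inv_mem (sg_mem L q)) h'
  have := h.pos
  have e : Mf.sq δ * dg q = dg q * Mf.sq γ := by rw [hδ, wq]; group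
  rw [sq_eq_gm, sq_eq_gm, dg, gm_mul (by rw [det_eq]; exact one_pos) (by simpa),
    gm_mul (by simpa) (by rw [det_eq]; exact one_pos)] at e
  have := (gm_inj (by nlinarith [det_eq δ]) (by nlinarith [det_eq γ]) e).2.2.1
  exact sq_mem.2 (h.mem_GH.2 ⟨hγ, δ 1 0, by linarith⟩)

lemma gm_mem' {a b c d : ℤ} (hd : a * d - b * (L * q * c) = 1) {u : (ZMod L)ˣ} (hu : u ∈ H)
    (hu' : (u : ZMod L) = d) : gm a b (L * q * c) d ∈ Gq L' H' :=
  ⟨⟨!![a, b; L * q * c, d], by rw [Matrix.det_fin_two_of]; exact hd⟩,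
    h.mem_GH.2 ⟨⟨by simp, u, hu, hu'⟩, L * c, by simp; ring⟩, sq_eq_gm _⟩

lemma sq' : ∃ z ∈ Subgroup.center GQ, ∃ γ ∈ Gq L' H', wq L q * wq L q = z * γ := by
  obtain ⟨a, b, hab, -, hw⟩ := h.exists_ab
  obtain ⟨u, hu, hu'⟩ := h.pm
  have hq := h.pos
  have h1 : (a * a * q + b * L) * (b * L + q) - b * (a + 1) * (L * q * (a + 1)) = 1 := by
    have : b * L = a * q - 1 := by linarith
    calc _ = (a * a * q + b * L) * (b * L + q) - (b * L) * (a + 1) * (q * (a + 1)) := by ring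
      _ = 1 := by rw [this]; ring
  have h2 : 0 < a * q * q - b * (L * q) := by nlinarith
  rw [hw, gm_mul h2 h2]
  rcases hu' with hu' | hu'
  · refine ⟨_, gm_center hq.ne', _, h.gm_mem' h1 hu (by simp [hu']), ?_⟩
    rw [gm_mul (by simpa using mul_pos hq hq) (by omega)]
    congr 1 <;> ring
  · refine ⟨_, gm_center (neg_ne_zero.2 hq.ne'), _, h.gm_mem' (a := -(a * a * q + b * L))
      (b := -(b * (a + 1))) (c := -(a + 1)) (d := -(b * L + q)) (by linarith) hu (by simp [hu']), ?_⟩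
    rw [gm_mul (by simpa using mul_pos hq hq) (by linarith)]
    congr 1 <;> ring

lemma inv_mul_up (i : ℕ) : (wq L q)⁻¹ * up q i ∈ Gq L H := by
  obtain ⟨a, b, hab, -, hw⟩ := h.exists_ab
  have hq := h.pos
  have h1 : 1 * (a * q - L * i) - (i - b) * -L = 1 := by linarith
  have e : up q i = wq L q * gm 1 (i - b) (-L) (a * q - L * i) := by
    rw [hw, gm_mul (by nlinarith) (by omega), up]
    congr 1
    · linarith
    · linear_combination (-i) * hab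
    · ring
    · linear_combination (-q) * hab
  rw [e, inv_mul_cancel_left]
  refine gm_mem h1 (by simp) H.one_mem ?_
  rw [show a * q - L * i = 1 + (b - i) * L by linarith]; simp

omit h in
lemma U_eq : ∑ i : Fin q, e O (up q i) = U O q := (sum_range fun i => e O (up q i)).symm

lemma T_eq : ∑ i : Fin q, e O (up q i) + e O (wq L q) = Tp O L q := by
  rw [U_eq, Tp, if_neg h.ndvd, wq]

theorem al (hU : Tp O L' q ∈ Corr O (Gq L' H') (Gq L' H'))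
    (hT : Tp O L q ∈ Corr O (Gq L H) (Gq L H)) :
    AL O (Gq L H) (Gq L' H') (wq L q) fun i : Fin q => up q i where
  le := h.le
  norm _ := h.norm
  inter _ := h.inter
  sq := h.sq'
  hu i := h.inv_mul_up i
  hU := by rwa [U_eq, ← Tp_of_dvd h.dvd']
  hT := by rwa [h.T_eq]

variable (O) (A : Type*) [AddCommGroup A] [Module O A]

/-- the involution `W_q` -/
def W : Module.End O (HH (Gq L' H') A) := T A ⟨e O (wq L q), e_mem_corr fun _ => h.norm⟩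

variable {O}

/-- **the four relations** -/
theorem lev (hU : Tp O L' q ∈ Corr O (Gq L' H') (Gq L' H'))
    (hT : Tp O L q ∈ Corr O (Gq L H) (Gq L H)) :
    Lev (q : O) (res O A h.le) ((h.al hU hT).tr A) (h.W O A) (T A ⟨_, hU⟩) (T A ⟨_, hT⟩) := by
  have := (h.al hU hT).lev A
  rw [Fintype.card_fin] at this
  convert this using 3
  · rfl
  · rw [U_eq, Tp_of_dvd h.dvd']
  · exact h.T_eq.symm

end Stp

end Crest.Agent.T15.Hk

end
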