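import Crest.Agent.T15.LvT_10
import Crest.Agent.T15.HkQ_62

/-!
# Row 15, block T (helper62): level lowering along a set of auxiliary primes

`Tw S H H'` : the level `(L', H')` is `Γ_H(L) ∩ Γ₀(∏ S)`.  `Tw.chain`: a Hecke-equivariant bijection
of the generalised eigenspaces, where `U_q ≡ α q` for `q ∈ S`.
-/

set_option autoImplicit false
set_option linter.unusedSectionVars false

noncomputable section

namespace Crest.Agent.T15.Hk

open Finset
open scoped MatrixGroups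
open Crest.Agent.T15.Mf Crest.Agent.T15.Lv

variable {L L' q : ℕ} {H : Subgroup (ZMod L)ˣ} {H' : Subgroup (ZMod L')ˣ} {O : Type*} [CommRing O]

lemma Tp_corr (O : Type*) [CommRing O] (L : ℕ) (H : Subgroup (ZMod L)ˣ) (p : Nat.Primes) :
    Tp O L p ∈ Corr O (Gq L H) (Gq L H) := cen_corr₁ (cen_of le_rfl (Tp_cen p.2))

variable (O) (A : Type*) [AddCommGroup A] [Module O A]

/-- the Hecke operator -/
def tp (L : ℕ) (H : Subgroup (ZMod L)ˣ) (p : Nat.Primes) : Module.End O (HH (Gq L H) A) :=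
  T A ⟨Tp O L p, Tp_corr O L H p⟩

lemma tp_comm (p l : Nat.Primes) : Commute (tp O A L H p) (tp O A L H l) :=
  LinearMap.ext fun φ => by
    rw [Module.End.mul_apply, Module.End.mul_apply, tp, tp, T_mul, T_mul]
    refine LinearMap.congr_fun (T_congr ?_) φ
    exact Tp_comm l.2 p.2

lemma res_tp (hd : L ∣ L') (h : Gq L' H' ≤ Gq L H) {p : Nat.Primes} (hp : ¬ p.1 ∣ L' ∨ p.1 ∣ L)
    (φ : HH (Gq L H) A) : res O A h (tp O A L H p φ) = tp O A L' H' p (res O A h φ) := by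
  rw [res, tp, tp, T_mul, T_mul]
  refine LinearMap.congr_fun (T_congr ?_) φ
  simpa using (Null O _).neg_mem (Tp_level (O := O) (H := H) hd p.2 hp)

namespace Stp
variable (h : Stp q H H')
include h

/-- the trace -/
def tr : HH (Gq L' H') A →ₗ[O] HH (Gq L H) A :=
  (h.al (Tp_corr O L' H' ⟨q, h.prime⟩) (Tp_corr O L H ⟨q, h.prime⟩)).tr A

theorem lev' : Lev (q : O) (res O A h.le) (h.tr O A) (h.W O A) (tp O A L' H' ⟨q, h.prime⟩)
    (tp O A L H ⟨q, h.prime⟩) := h.lev A _ _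

lemma cp {p : Nat.Primes} (hp : p.1 ≠ q) : Lev.Cp (res O A h.le) (tp O A L' H' ⟨q, h.prime⟩)
    (tp O A L H ⟨q, h.prime⟩) (tp O A L H p) (tp O A L' H' p) :=
  ⟨res_tp O A h.dvd h.le (by
    rw [h.eq, p.2.dvd_mul, Nat.prime_dvd_prime_iff_eq p.2 h.prime]; tauto),
    tp_comm O A _ _, tp_comm O A _ _⟩

lemma dg_mem {γ : GQ} (hγ : γ ∈ Gq L' H') : dg q * γ * (dg q)⁻¹ ∈ Gq L H := by
  have := conj_mem (inv_mem (sg_mem L q)) (h.le (h.norm hγ))
  convert this using 1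
  rw [wq]; group

/-- the second degeneracy map -/
def dgn : HH (Gq L H) A →ₗ[O] HH (Gq L' H') A := T A ⟨e O (dg q), e_mem_corr fun _ => h.dg_mem⟩

lemma val_dgn (φ : HH (Gq L H) A) {γ : GQ} (hγ : γ ∈ Gq L' H') :
    val (h.dgn O A φ) γ = val φ (dg q * γ * (dg q)⁻¹) := val_T_e _ φ hγ (h.dg_mem hγ)

lemma val_sg (φ : HH (Gq L H) A) {γ : GQ} (hγ : γ ∈ Gq L H) :
    val φ (sg L q * γ * (sg L q)⁻¹) = val φ γ := by
  obtain ⟨u, hu, hu' | hu'⟩ := h.pm
  · exact val_conj φ (mem_Gq_iff.2 ⟨sg_mem L q, by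
      rwa [show dU L (sg L q) = u from Units.ext (by rw [dU_sg h.cop, hu']; simp)]⟩) hγ
  · have h1 := gm_mem_top (L := L) (a := -1) (b := 0) (c := 0) (d := -1) (by simp) (by simp)
    rw [← val_conj φ (δ := sg L q * gm (-1) 0 0 (-1)) (mem_Gq_iff.2 ⟨mul_mem (sg_mem L q) h1.1, by
      rwa [show dU L (sg L q * gm (-1) 0 0 (-1)) = u from Units.ext (by
        rw [dU_mul (sg_mem L q) h1.1, Units.val_mul, dU_sg h.cop, hu', h1.2]; simp)]⟩) hγ,
      mul_assoc (sg L q) (gm _ _ _ _),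
      ← Subgroup.mem_center_iff.1 (gm_center (c := -1) (by simp)) γ]
    congr 1; group

lemma W_res (φ : HH (Gq L H) A) : h.W O A (res O A h.le φ) = h.dgn O A φ := HH.ext fun γ hγ => by
  rw [val_dgn _ _ _ _ hγ, ← h.val_sg A φ (h.dg_mem hγ), W, val_T_e _ _ hγ (h.norm hγ),
    val_res _ _ (h.norm hγ), wq]
  congr 1; group

variable {O} {κ : Type*} {pr : κ → Nat.Primes} {a a' : κ → O} {k₀ : κ}

theorem bijOn (hk : ∀ k, (pr k).1 = q ↔ k = k₀) (hu : Lev.Un (q : O) (a k₀) (a' k₀))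
    (ha : ∀ k, k ≠ k₀ → a k = a' k) :
    Set.BijOn (h.tr O A) (GE (fun k => tp O A L' H' (pr k)) a') (GE (fun k => tp O A L H (pr k)) a) :=
  have e : pr k₀ = ⟨q, h.prime⟩ := Subtype.ext ((hk k₀).2 rfl)
  (h.lev' O A).bijOn hu (by rw [e]) (by rw [e]) fun k hk' => ⟨h.cp O A (mt (hk k).1 hk'), ha k hk'⟩

/-- the `U_q ≡ α` part is old -/
theorem old (hk : ∀ k, (pr k).1 = q ↔ k = k₀) (hu : Lev.Un (q : O) (a k₀) (a' k₀))
    (ha : ∀ k, k ≠ k₀ → a k = a' k) {v : HH (Gq L' H') A}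
    (hv : v ∈ GE (fun k => tp O A L' H' (pr k)) a') :
    ∃ y ∈ GE (fun k => tp O A L H (pr k)) a, ∃ z ∈ GE (fun k => tp O A L H (pr k)) a,
      v = res O A h.le y + h.dgn O A z := by
  have e : pr k₀ = ⟨q, h.prime⟩ := Subtype.ext ((hk k₀).2 rfl)
  obtain ⟨y, hy, z, hz, rfl⟩ := (h.lev' O A).old (t := fun k => tp O A L H (pr k)) hu (by rw [e])
    (by rw [e]) (fun k hk' => ⟨h.cp O A (mt (hk k).1 hk'), ha k hk'⟩) hv
  exact ⟨-z, neg_mem hz, y, hy, by rw [W_res, map_neg]; abel⟩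

end Stp

/-- `Γ_{H'}(L') = Γ_H(L) ∩ Γ₀(∏ S)` -/
structure Tw (S : Finset ℕ) {L L' : ℕ} (H : Subgroup (ZMod L)ˣ) (H' : Subgroup (ZMod L')ˣ) :
    Prop where
  prime : ∀ q ∈ S, q.Prime
  ndvd : ∀ q ∈ S, ¬ q ∣ L
  eq : L' = L * ∏ q ∈ S, q
  mem : ∀ (hd : L ∣ L') u, u ∈ H' ↔ ZMod.unitsMap hd u ∈ H
  pm : ∀ q ∈ S, ∃ u ∈ H, (u : ZMod L) = q ∨ (u : ZMod L) = -q

namespace Tw
variable {S : Finset ℕ}

lemma sub (h : Tw S H H') {S' : Finset ℕ} (hS : S' ⊆ S) :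
    Tw S' H (H.comap (ZMod.unitsMap (dvd_mul_right L (∏ q ∈ S', q)))) :=
  ⟨fun q hq => h.prime q (hS hq), fun q hq => h.ndvd q (hS hq), rfl, fun _ _ => Iff.rfl,
    fun q hq => h.pm q (hS hq)⟩

lemma stp {L₁ : ℕ} {H₁ : Subgroup (ZMod L₁)ˣ} (h : Tw S H H') (hq : q ∈ S)
    (h₁ : Tw (S.erase q) H H₁) : Stp q H₁ H' := by
  have hd : L ∣ L₁ := h₁.eq ▸ dvd_mul_right _ _
  have hp := h.prime q hq
  have hn : ¬ q ∣ L₁ := by
    rw [h₁.eq, hp.dvd_mul, Prime.dvd_finsetProd_iff hp.prime]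
    rintro (h' | ⟨l, hl, h'⟩)
    · exact h.ndvd q hq h'
    · exact (mem_erase.1 hl).1 ((Nat.prime_dvd_prime_iff_eq hp (h₁.prime l hl)).1 h').symm
  refine ⟨hp, hn, by rw [h.eq, h₁.eq, mul_assoc, prod_erase_mul _ _ hq], fun hd' u => ?_, ?_⟩
  · rw [h.mem (hd.trans hd'), h₁.mem hd, ← ZMod.unitsMap_comp hd hd']; rfl
  · let v := ZMod.unitOfCoprime q ((Nat.Prime.coprime_iff_not_dvd hp).2 hn)
    have hv : ((ZMod.unitsMap hd v : (ZMod L)ˣ) : ZMod L) = q := by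
      rw [ZMod.unitsMap_val, ZMod.coe_unitOfCoprime, ZMod.cast_natCast hd]
    obtain ⟨u, hu, hu' | hu'⟩ := h.pm q hq
    · exact ⟨v, (h₁.mem hd v).2 (by rwa [show ZMod.unitsMap hd v = u from
        Units.ext (hv.trans hu'.symm)]), .inl rfl⟩
    · refine ⟨-v, (h₁.mem hd _).2 ?_, .inr rfl⟩
      rwa [show ZMod.unitsMap hd (-v) = u from Units.ext (by
        rw [hu', ← hv, ZMod.unitsMap_val, ZMod.unitsMap_val, Units.val_neg,
          ← ZMod.castHom_apply (h := hd), map_neg, ZMod.castHom_apply])]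

variable {O} {κ : Type*} {pr : κ → Nat.Primes} {a α : κ → O}

/-- **level lowering along `S`** -/
theorem chain (hpr : Function.Injective pr) (h : Tw S H H') (hS : ∀ q ∈ S, ∃ k, (pr k).1 = q)
    (hu : ∀ k, (pr k).1 ∈ S → Lev.Un ((pr k).1 : O) (a k) (α k)) :
    ∃ tr : HH (Gq L' H') A →ₗ[O] HH (Gq L H) A,
      Set.BijOn tr (GE (fun k => tp O A L' H' (pr k)) fun k => if (pr k).1 ∈ S then α k else a k)
        (GE (fun k => tp O A L H (pr k)) a) ∧
      ∀ p : Nat.Primes, p.1 ∉ S →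
        ∀ v ∈ GE (fun k => tp O A L' H' (pr k)) fun k => if (pr k).1 ∈ S then α k else a k,
          tr (tp O A L' H' p v) = tp O A L H p (tr v) := by
  induction S using Finset.induction_on generalizing L' with
  | empty =>
    obtain rfl : L' = L := by simpa using h.eq
    obtain rfl : H' = H := Subgroup.ext fun u => by rw [h.mem dvd_rfl, ZMod.unitsMap_self]; rfl
    exact ⟨LinearMap.id, by simpa using Set.bijOn_id _, fun _ _ _ _ => rfl⟩
  | insert q S hq ih =>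
    have h₁ := h.sub (subset_insert q S)
    have hs := h.stp (mem_insert_self q S) (by rwa [erase_insert hq])
    obtain ⟨tr, h1, h2⟩ := ih h₁ (fun l hl => hS l (mem_insert_of_mem hl))
      fun k hk => hu k (mem_insert_of_mem hk)
    obtain ⟨k₀, hk₀⟩ := hS q (mem_insert_self q S)
    have hk : ∀ k, (pr k).1 = q ↔ k = k₀ := fun k =>
      ⟨fun e => hpr (Subtype.ext (e.trans hk₀.symm)), fun e => e ▸ hk₀⟩
    have hu' : Lev.Un (q : O) (if (pr k₀).1 ∈ S then α k₀ else a k₀)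
        (if (pr k₀).1 ∈ insert q S then α k₀ else a k₀) := by
      rw [hk₀, if_neg hq, if_pos (mem_insert_self q S), ← hk₀]
      exact hu k₀ (hk₀ ▸ mem_insert_self q S)
    have h3 := hs.bijOn A (a := fun k => if (pr k).1 ∈ S then α k else a k)
      (a' := fun k => if (pr k).1 ∈ insert q S then α k else a k) hk hu'
      fun k hk' => by simp [mt (hk k).1 hk']
    refine ⟨tr ∘ₗ hs.tr O A, h1.comp h3, fun p hp v hv => ?_⟩
    rw [mem_insert, not_or] at hp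
    have h4 := mem_GE.1 hv k₀
    rw [show pr k₀ = ⟨q, hs.prime⟩ from Subtype.ext hk₀] at h4 hu'
    rw [LinearMap.comp_apply, (hs.lev' O A).tr_comm hu' (hs.cp O A hp.1) h4, h2 p hp.2 _
      (h3.mapsTo hv), LinearMap.comp_apply]

end Tw

end Crest.Agent.T15.Hk

end
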