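import Crest.Agent.T15.HkTw_62
import Crest.Agent.T15.RG_20
import Crest.Agent.T15.Par_12

/-!
# Row 15, block T (helper62): the Hecke half of the contract `TOut`

`lv` : the system of levels;  `HQ` : the Taylor–Wiles module;  `THk`, `thk` : the Hecke half of
`R.TLev`.
-/

set_option autoImplicit false
set_option linter.unusedSectionVars false

noncomputable section

namespace Crest.Agent.T15.Hk

open Finset Function IsLocalRing
open scoped MatrixGroups
open Crest.Agent.T15.Mf Crest.Agent.T15.Lv Crest.Agent.T15.R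
open Crest.Agent.T15.C (Gam In)
open Crest.Agent.T15.Top (Lc Plc IsFr Coef Cn)

/-- the levels `Γ₀(L) ∩ Γ₁(4)` and their Hecke correspondences -/
abbrev lv : R.Lv GQ where
  Γ L := Gq L (H0 L)
  c L p := ⟨(Tc ℤ (le_refl (H0 L)) p).1, (Tc ℤ (le_refl (H0 L)) p).2.1⟩

lemma T_lv (O : Type*) [CommRing O] {A : Type*} [AddCommGroup A] [Module O A] (L p : ℕ)
    (φ : HH (Gq L (H0 L)) A) : T A (lv.c L p) φ = TT O A L (H0 L) p φ := by
  refine (T_bc (O' := O) (lv.c L p) φ).symm.trans (LinearMap.congr_fun (congrArg (T A)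
    (Subtype.ext ?_)) φ)
  change bc O (Tc ℤ (le_refl (H0 L)) p).1 = (Tc O (le_refl (H0 L)) p).1
  by_cases hp : p.Prime
  · rw [Tc_val _ hp, Tc_val _ hp, bc_Tp]
  · rw [Tc_val' _ hp, Tc_val' _ hp, map_zero]

theorem tGrp {L : ℕ} (h0 : 0 < L) (h4 : 4 ∣ L) : TGrp lv L :=
  have : NeZero L := ⟨h0.ne'⟩
  ⟨fg_H h4 le_rfl, free_H h4 le_rfl, fun p p' _ _ => TT_comm (O := ℤ) (A := ℚ) (H := H0 L) p p'⟩

section
variable {C : Type*} [CommRing C] {A : Type*} [AddCommGroup A] [Module C A]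
  {r L m : ℕ} {q : Fin r → ℕ} {P : ℕ → Prop} {a α : ℕ → C}

lemma LN.of_eig {f : Module.End C A} {x : A} {b c : C} (h : f x = b • x)
    (hn : IsNilpotent (b - c)) : LN (f - c • 1) x :=
  (LN.of_nilp (hn.map (algebraMap C (Module.End C A))) x).of_eq (Algebra.commutes _ _)
    (by rw [Module.algebraMap_end_apply, sub_smul]; simp [h])

/-- the Hecke operators on the localisation -/
def TE (p : ℕ) : Module.End C (EQ A L q m P a α) :=
  (TT C A (LQ L q) (H1 L q m) p).restrict fun _ hx => EL_TT hx p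

@[simp] lemma coe_TE (p : ℕ) (x : EQ A L q m P a α) :
    (TE p x).1 = TT C A (LQ L q) (H1 L q m) p x.1 := rfl

/-- the diamond operators on the localisation -/
def Aux.DE [NeZero m] (h : Aux L q m) : Dl m r →* Module.End C (EQ A L q m P a α) where
  toFun δ := (h.dia C A δ).restrict fun _ hx => h.dia_mem A δ hx
  map_one' := LinearMap.ext fun x => Subtype.ext (by simp)
  map_mul' δ δ' := LinearMap.ext fun x => Subtype.ext (by simp)

@[simp] lemma Aux.coe_DE [NeZero m] (h : Aux L q m) (δ : Dl m r) (x : EQ A L q m P a α) :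
    (h.DE δ x).1 = h.dia C A δ x.1 := rfl

/-- the localisation at a non-Eisenstein system is parabolic -/
theorem EL_par {H : Subgroup (ZMod L)ˣ} {p : ℕ} (hP : P p) (hp : p.Prime) (hL : p ≡ 1 [MOD L])
    (hu : IsUnit (a p - (p + 1))) {x : HH (Gq L H) A} (hx : x ∈ EL A P a L H) {γ : SL(2, ℤ)}
    (hγ : γ ∈ GH L H) (htr : γ 0 0 + γ 1 1 = 2 ∨ γ 0 0 + γ 1 1 = -2) : val x (Mf.sq γ) = 0 := by
  obtain ⟨k, hk⟩ := mem_EL.1 hx p hP
  rw [TT_eq hp, ← Algebra.algebraMap_eq_smul_one] at hk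
  exact Par.parabolic_of_nil hp (by exact_mod_cast hL.symm.dvd) _ hu hk hγ htr

end

variable {O : Type} [CommRing O] [IsDomain O] [IsDiscreteValuationRing O] [Coef O]

/-- the reduction `O → O / 3 ^ n` -/
abbrev rd (n : ℕ) (a : ℕ → O) (p : ℕ) : Cn O n := algebraMap O (Cn O n) (a p)

instance (n : ℕ) : Finite (Cn O n) := finite_Cn n

instance (n : ℕ) : Nontrivial (Cn O (n + 1)) :=
  Ideal.Quotient.nontrivial_iff.2 (ne_top_of_le_ne_top (maximalIdeal.isMaximal O).ne_top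
    ((span_le (n + 1)).trans (Ideal.pow_le_self n.succ_ne_zero)))

instance (n : ℕ) : IsLocalRing (Cn O (n + 1)) :=
  .of_surjective' (Ideal.Quotient.mk _) Ideal.Quotient.mk_surjective

lemma three_pow_Cn (n : ℕ) : ((3 : ℕ) : Cn O n) ^ n = 0 := by
  have : Ideal.Quotient.mk (Ideal.span {(3 : O) ^ n}) ((3 : O) ^ n) = 0 :=
    Ideal.Quotient.eq_zero_iff_mem.2 (Ideal.subset_span rfl)
  rw [map_pow, map_ofNat] at this
  exact_mod_cast this

lemma nil_Cn (n : ℕ) {x : O} (hx : x ∈ maximalIdeal O) :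
    IsNilpotent (algebraMap O (Cn O (n + 1)) x) := by
  have : IsArtinianRing (Cn O (n + 1)) := isArtinian_of_finite
  obtain ⟨k, hk⟩ := IsArtinianRing.isNilpotent_jacobson_bot (R := Cn O (n + 1))
  rw [jacobson_eq_maximalIdeal _ bot_ne_top] at hk
  have hl := IsLocalHom.of_surjective (algebraMap O (Cn O (n + 1))) Ideal.Quotient.mk_surjective
  exact ⟨k, by simpa [hk] using Ideal.pow_mem_pow (map_nonunit (algebraMap O (Cn O (n + 1))) x hx) k⟩

lemma un_of {n q : ℕ} {s α : O} (hq : 3 ∣ q - 1) (hq0 : 0 < q) (hd : IsUnit (s ^ 2 - 4 * q))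
    (hα : α ^ 2 - s * α + q ∈ maximalIdeal O) : Lev.Un (q : Cn O (n + 1))
      (algebraMap O _ s) (algebraMap O _ α) := by
  have hc := charP_res (O := O)
  have u : ∀ x : O, residue O x ≠ 0 → IsUnit (algebraMap O (Cn O (n + 1)) x) := fun x hx =>
    ((residue_ne_zero_iff_isUnit x).1 hx).map _
  have e1 : (q : ResidueField O) = 1 := by
    have := (CharP.cast_eq_zero_iff (ResidueField O) 3 _).2 hq
    rwa [Nat.cast_pred hq0, sub_eq_zero] at this
  have e2 := (residue_eq_zero_iff _).2 hα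
  have e3 := (residue_ne_zero_iff_isUnit _).2 hd
  simp only [map_add, map_sub, map_mul, map_pow, map_natCast, map_ofNat, e1] at e2 e3
  have e4 : residue O α ≠ 0 := fun h => by simp [h] at e2
  have e5 : residue O s - 2 * residue O α ≠ 0 := fun h =>
    e3 (by linear_combination (residue O s - 2 * residue O α) * h - 4 * e2)
  have u0 := nil_Cn n hα
  have u1 := u q (by simp [e1])
  have u2 := u (s - 2 * α) (by simpa [map_ofNat] using e5)
  have u3 := u (s - (q + 1) * α) (by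
    simp only [map_sub, map_mul, map_add, map_natCast, e1, map_one, one_add_one_eq_two]; exact e5)
  have u4 := u (α ^ 2 - 1) (by
    simp only [map_sub, map_pow, map_one]
    exact fun h => mul_ne_zero e4 e5 (by linear_combination -h - e2))
  simp only [map_add, map_sub, map_mul, map_pow, map_natCast, map_ofNat, map_one] at u0 u1 u2 u3 u4
  exact ⟨u0, u _ e4, u1, u2, u3, u4⟩

variable {r L n : ℕ} {q : Fin r → ℕ} {a α : ℕ → O}

lemma aux_of (h0 : 0 < L) (h4 : 4 ∣ L) (hi : Injective q) (hq : ∀ i, TWa L a n (q i)) :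
    Aux L q (3 ^ (n + 1)) :=
  ⟨h0, h4, hi, fun i => (hq i).1.1, fun i h => (hq i).1.2 (h.mul_left 3), fun i => (hq i).2.1⟩

lemma exists_neis (ha : NEis a) {M : ℕ} (hM : M ≠ 0) (hL : L ∣ M) (n : ℕ) :
    ∃ p, Gd L p ∧ p ≡ 1 [MOD M] ∧ ¬ p ∣ M ∧ IsUnit (rd n a p - (p + 1)) := by
  obtain ⟨p, h1, h2, h3, h4⟩ := ha M (3 * M) hM
  have h5 : ¬ p ∣ 3 * M := fun h => absurd (Nat.le_of_dvd (by omega) h) (by omega)
  exact ⟨p, ⟨h1, fun h => h5 (h.trans (mul_dvd_mul_left 3 hL))⟩, h3, fun h => h5 (h.mul_left 3),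
    by simpa [sub_sub, rd] using h4.map (algebraMap O (Cn O n))⟩

lemma exists_sy (h : Aux L q (3 ^ (n + 1))) (ha : NEis a) (hq : ∀ i, TWa L a n (q i)) :
    ∃ α : ℕ → O, (∀ i, α (q i) ^ 2 - a (q i) * α (q i) + q i ∈ maximalIdeal O) ∧
      Sy L q (Gd L) (rd (n + 1) a) (rd (n + 1) α) := by
  choose β hβ using fun i => (hq i).2.2.2
  obtain ⟨p, h1, -, h2, h3⟩ := exists_neis ha h.neZero.ne (dvd_LQ L q) (n + 1)
  refine ⟨extend q β 0, fun i => by rw [h.inj.extend_apply]; exact hβ i,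
    fun _ hp => hp.1, fun i => (hq i).1, fun i => ?_, p, h1, h2, h3⟩
  rw [rd, rd, h.inj.extend_apply]
  exact un_of ((dvd_pow_self 3 n.succ_ne_zero).trans (hq i).2.1) (h.prime i).pos (hq i).2.2.1 (hβ i)

/-- the Taylor–Wiles module -/
abbrev HQ (L : ℕ) (q : Fin r → ℕ) (n : ℕ) (a α : ℕ → O) :
    Submodule (Cn O (n + 1)) (HH (Gq (LQ L q) (H1 L q (3 ^ (n + 1)))) (Cn O (n + 1))) :=
  EQ (Cn O (n + 1)) L q (3 ^ (n + 1)) (Gd L) (rd (n + 1) a) (rd (n + 1) α)

/-- restriction of scalars -/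
def rs (O : Type*) [CommRing O] {C H : Type*} [CommRing C] [Algebra O C] [AddCommGroup H]
    [Module C H] [Module O H] [IsScalarTower O C H] : Module.End C H →+* Module.End O H where
  toFun f := f.restrictScalars O
  map_one' := rfl
  map_mul' _ _ := rfl
  map_zero' := rfl
  map_add' _ _ := rfl

lemma twg_del (n r : ℕ) : Pat.TWg 3 n (del (3 ^ (n + 1)) (r := r)) :=
  Pat.twg_pi (G := fun _ => Multiplicative (ZMod (3 ^ (n + 1)))) (fun _ => Multiplicative.ofAdd 1)
    (fun _ x => ⟨x.toAdd.val, by beta_reduce; rw [← ofAdd_nsmul]; simp⟩) (fun _ => n + 1)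
    (fun _ => n.le_succ) fun _ => by simp

/-- the Hecke half of `TLev` -/
structure THk {Γ : Subgroup GQ} (c : ℕ → Corr ℤ Γ Γ) (L : ℕ) (a : ℕ → O) (n : ℕ)
    {r : ℕ} (q : Fin r → ℕ) {Δ : Type} [CommGroup Δ] [Fintype Δ]
    {H : Type} [AddCommGroup H] [Module O H] [Module (Cn O (n + 1)) H]
    (Tp : ℕ → Module.End O H) (dia : Δ →* Module.End O H) (kap : H →+ HH Γ (Cn O (n + 1)))
    (lam : HH Γ (Cn O (n + 1)) →ₗ[Cn O (n + 1)] H) : Prop where
  free : ∃ (d : Type) (_ : Finite d) (m : d → H),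
    LinearIndependent (Cn O (n + 1)) (fun x : Δ × d => dia x.1 (m x.2)) ∧
    Submodule.span (Cn O (n + 1)) (Set.range fun x : Δ × d => dia x.1 (m x.2)) = ⊤
  res : ∀ p, Gd L p → (∀ i, p ≠ q i) → IsNilpotent (Tp p - algebraMap O _ (a p))
  kap0 : ∀ x, kap x = 0 → ∑ y, dia y x = 0
  kapT : ∀ p, Gd L p → (∀ i, p ≠ q i) → ∀ x, kap (Tp p x) = T (Cn O (n + 1)) (c p) (kap x)
  lamD : ∀ x φ, dia x (lam φ) = lam φ
  lamT : ∀ p, Gd L p → (∀ i, p ≠ q i) → ∀ φ, Tp p (lam φ) = lam (T (Cn O (n + 1)) (c p) φ)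
  lam0 : ∀ (φ : HH Γ (Cn O (n + 1))) (b : ℕ → O),
    (∀ p, Gd L p → b p - a p ∈ maximalIdeal O ∧
      T (Cn O (n + 1)) (c p) φ = algebraMap O (Cn O (n + 1)) (b p) • φ) → lam φ = 0 → φ = 0

/-- the Hecke operators, `O`-linearly -/
def TO (L : ℕ) (q : Fin r → ℕ) (n : ℕ) (a α : ℕ → O) (p : ℕ) : Module.End O (HQ L q n a α) :=
  rs O (TE p)

/-- the diamond operators, `O`-linearly -/
def Aux.DO (h : Aux L q (3 ^ (n + 1))) (a α : ℕ → O) :
    Dl (3 ^ (n + 1)) r →* Module.End O (HQ L q n a α) := (rs O).toMonoidHom.comp h.DE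

theorem thk (h : Aux L q (3 ^ (n + 1))) (s : Sy L q (Gd L) (rd (n + 1) a) (rd (n + 1) α)) :
    ∃ kap lam, THk (lv.c L) L a n q (TO L q n a α) (h.DO a α) kap lam := by
  obtain ⟨kap, lam, k0, kT, l0, lD, lT, li⟩ := h.kap_lam (Cn O (n + 1)) s
  obtain ⟨d, b, b1, b2⟩ := h.free (Cn O (n + 1)) s Nat.prime_three ⟨_, three_pow_Cn _⟩
    (isPGroup_Dl 3 _ r)
  have hb : ∀ j, b j ∈ HQ L q n a α := fun j => by
    rw [HQ, ← b2]; exact Submodule.subset_span ⟨(1, j), by simp⟩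
  have := h.fin₁ (Cn O (n + 1))
  refine ⟨(kap ∘ₗ (HQ L q n a α).subtype).toAddMonoidHom, lam.codRestrict _ l0,
    { free := ⟨Fin d, inferInstance, fun j => ⟨b j, hb j⟩,
        LinearIndependent.of_comp (HQ L q n a α).subtype b1, ?_⟩
      res := fun p h1 h2 => ?_
      kap0 := fun x hx => Subtype.ext (by simpa [rs, Aux.DO] using k0 x.1 x.2 hx)
      kapT := fun p h1 h2 x => (kT p h1.1 h2 x.1 x.2).trans (T_lv _ L p _).symm
      lamD := fun y φ => Subtype.ext (lD y φ)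
      lamT := fun p h1 h2 φ => Subtype.ext ((lT p h1.1 h2 φ).trans (congrArg lam (T_lv _ L p _).symm))
      lam0 := fun φ b hb h0 => li φ (mem_EL.2 fun p hp => ?_) (congrArg Subtype.val h0) }⟩
  · refine Submodule.map_injective_of_injective (HQ L q n a α).injective_subtype ?_
    rw [Submodule.map_span, ← Set.range_comp, Submodule.map_subtype_top]
    exact b2
  · have h3 : aS (univ.image q) (rd (n + 1) a) (rd (n + 1) α) p = rd (n + 1) a p :=
      if_neg (by simpa using fun i => (h2 i).symm)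
    choose k hk using fun x : HQ L q n a α => mem_EL.1 x.2 p h1
    obtain ⟨K, hK⟩ := (Set.finite_range k).bddAbove
    refine ⟨K, LinearMap.ext fun x => Subtype.ext ?_⟩
    have h4 : ∀ (j : ℕ) (x : HQ L q n a α), (((TO L q n a α p - algebraMap O _ (a p)) ^ j) x).1 =
        ((TT (Cn O (n + 1)) (Cn O (n + 1)) (LQ L q) (H1 L q (3 ^ (n + 1))) p - rd (n + 1) a p • 1 :
          Module.End (Cn O (n + 1)) _) ^ j) x.1 := fun j => by
      induction j with
      | zero => exact fun _ => rfl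
      | succ j ih =>
        intro x
        rw [pow_succ _ j, pow_succ _ j, Module.End.mul_apply, ih, Module.End.mul_apply]
        rfl
    rw [h4, ← h3]
    exact LN.pow_le (hk x) (hK ⟨x, rfl⟩)
  · exact LN.of_eig ((T_lv _ L p φ).symm.trans (hb p hp).2) (by
      have := nil_Cn n (hb p hp).1
      rwa [map_sub] at this)

end Crest.Agent.T15.Hk

end
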