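import Crest.Agent.T15.RDef_20
import Crest.Agent.T15.TopB_88
import Crest.Agent.T15.HkTw_62
import Crest.Agent.T15.CgI_84
import Crest.Agent.T15.BetCus_91

/-!
# Row 15, block T (helper10): the Galois half of the Taylor–Wiles modules, contracts

`GalStmt X` is the Galois half of `R.TLev`; its leaves are `AzStmt` (`⇒ ActStmt`), `InjStmt`,
`FlatStmt`, `CyStmt`, `TwStmt`.
-/

set_option autoImplicit false

noncomputable section

namespace Crest.Agent.T15.TD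

open Function CongruenceSubgroup WithZero
open scoped NNReal MatrixGroups UpperHalfPlane
open Crest.Agent.T15.Mf Crest.Agent.T15.Lv Crest.Agent.T15.Bet Crest.Agent.T15.Hk
open Crest.Agent.T15.Cg (ActK Inj vC resA)
open Crest.Agent.T15.C (Gam Om In)
open Crest.Agent.T15.Top (Lc Plc IsFr)
open Crest.Agent.T15.R (Gd)

/-- the Galois fields of `R.TLev` -/
structure GalH (X : Lc) {O : Type} [CommRing O] (L : ℕ) {r : ℕ} (q : Fin r → ℕ) {Δ : Type}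
    [CommGroup Δ] (del : Fin r → Δ) (δ : Gam →* Δ) {H : Type} [AddCommGroup H] [Module O H]
    (ρH : Gam →* Module.End O H) (Tp : ℕ → Module.End O H) (dia : Δ →* Module.End O H) : Prop where
  cgT : ∀ g p, Gd L p → (∀ i, p ≠ q i) → Commute (ρH g) (Tp p)
  cgD : ∀ g x, Commute (ρH g) (dia x)
  opnH : IsOpen (ρH.ker : Set Gam)
  opnδ : IsOpen (δ.ker : Set Gam)
  unrH : ∀ P : Plc, Gd L P.rchar → (∀ i, P.rchar ≠ q i) → In P ≤ ρH.ker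
  unrδ : ∀ P : Plc, (∀ i, P.rchar ≠ q i) → In P ≤ δ.ker
  es : ∀ (P : Plc) (s : Gam), Gd L P.rchar → (∀ i, P.rchar ≠ q i) → IsFr P s →
    ρH s + (P.rchar : O) • (dia (δ s) * ρH s⁻¹) = Tp P.rchar
  tw : ∀ i, ∃ P : Plc, P.rchar = q i ∧ ∃ τ ∈ In P, δ τ = del i ∧
    (ρH τ - 1) * (ρH τ - dia (del i)) = 0
  flat : X.Fl fun g (v : H) => ρH g v

/-- `H` is a copy of the localisation `EQ` with coefficients `C`, `m = 3 ^ (n + 1)` -/
structure Dat {O C : Type} [CommRing O] [CommRing C] [Algebra O C] {n r L : ℕ} {q : Fin r → ℕ}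
    (h : Aux L q (3 ^ (n + 1))) (a α : ℕ → C) {H : Type} [AddCommGroup H] [Module O H]
    (j : H →ₗ[O] HH (Gq (LQ L q) (H1 L q (3 ^ (n + 1)))) C) (Tp : ℕ → Module.End O H)
    (dia : Dl (3 ^ (n + 1)) r →* Module.End O H) : Prop where
  sy : Sy L q (Gd L) a α
  three : ¬ 3 ∣ L
  hm : ∀ c : C, 3 ^ (n + 1) • c = 0
  par : ∃ p, Gd L p ∧ ((LQ L q : ℕ) : ℤ) ∣ (p : ℤ) - 1 ∧ IsUnit (a p - (p + 1))
  inj : Injective j
  rng : ∀ x, x ∈ EQ C L q (3 ^ (n + 1)) (Gd L) a α ↔ ∃ y, j y = x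
  hT : ∀ p, p.Prime → ∀ x, j (Tp p x) = TT C C _ _ p (j x)
  hD : ∀ y x, j (dia y x) = h.dia C C y (j x)

/-- **the Galois half of the contract T** -/
def GalStmt (X : Lc) : Prop :=
  ∀ (O C : Type) [CommRing O] [CommRing C] [Algebra O C] [IsLocalRing C] [Finite C] (n r L : ℕ)
    (q : Fin r → ℕ) (h : Aux L q (3 ^ (n + 1))) (a α : ℕ → C) (H : Type) [AddCommGroup H]
    [Module O H] (j : H →ₗ[O] HH (Gq (LQ L q) (H1 L q (3 ^ (n + 1)))) C)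
    (Tp : ℕ → Module.End O H) (dia : Dl (3 ^ (n + 1)) r →* Module.End O H),
    Dat h a α j Tp dia → ∃ δ ρH, GalH X L q (del (3 ^ (n + 1))) δ ρH Tp dia

/-- leaf AZ: `Aut ℂ` keeps the divisibility of the orders in the upper half plane -/
def AzStmt : Prop :=
  ∀ (M n : ℕ), M ≠ 0 → 4 ∣ M → ∀ (σ : ℂ ≃+* ℂ) (x : FF), (∀ γ ∈ Gamma M, γ • x = x) →
    (∀ z : ℍ, (n : ℤ) ∣ log (vM z (x : Mer))) → ∀ z : ℍ, (n : ℤ) ∣ log (vM z ((σ • x : FF) : Mer))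

/-- the Galois action on `Hom(Γ, A)` -/
def ActStmt : Prop :=
  ∀ (ι : Om →+* ℂ) (M : ℕ) (H : Subgroup (ZMod M)ˣ), M ≠ 0 → 4 ∣ M → H ≤ H0 M →
    ∀ (n : ℕ) [NeZero n] (O A : Type) [CommRing O] [AddCommGroup A] [Module O A] [Finite A],
    (∀ c : A, n • c = 0) → ∃ ρ : Gam →* Module.End O (HH (Gq M H) A),
      (∀ σ, ActK n (AddMonoidHom.id _) σ (ρ (resA ι σ))) ∧ IsOpen (ρ.ker : Set Gam)

/-- leaf INJ: reduction is injective on parabolic classes -/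
def InjStmt : Prop :=
  ∀ (ι : Om →+* ℂ) (M : ℕ) (H : Subgroup (ZMod M)ˣ), M ≠ 0 → 4 ∣ M → H ≤ H0 M →
    ∀ (n : ℕ) [NeZero n] (P : Plc), ¬ P.rchar ∣ n * M →
      Inj (vC ι P) n (Gq M H) {φ | ParS (GH M H) φ}

/-- leaf FLAT -/
def FlatStmt : Prop :=
  ∀ (ι : Om →+* ℂ) (P : Plc) (h3 : P.rchar = 3) (Λ : Fl.Loc3 ι P) (M : ℕ) (H : Subgroup (ZMod M)ˣ),
    M ≠ 0 → 4 ∣ M → H ≤ H0 M → ¬ 3 ∣ M →
    ∀ (n : ℕ) [NeZero n] (A V : Type) [AddCommGroup A] [Finite A] [AddCommGroup V]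
      (j : V →+ HH (Gq M H) A) (u : Gam → V → V), (∀ c : A, n • c = 0) → Injective j →
      (∀ x, ParS (GH M H) (j x)) → (∀ σ, ActK n j σ (u (resA ι σ))) → (Lc.of h3 Λ).Fl u

/-- `δ` is `chi` composed with the cyclotomic character -/
def IsDel (L : ℕ) {r : ℕ} (q : Fin r → ℕ) (m : ℕ) (δ : Gam →* Dl m r) : Prop :=
  ∀ (g : Gam) (u : (ZMod (LQ L q))ˣ) (ζ : Om), IsPrimitiveRoot ζ (LQ L q) →
    g ζ = ζ ^ (u : ZMod (LQ L q)).val → δ g = chi L q m u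

/-- leaf CY: the character `δ` -/
def CyStmt : Prop :=
  ∀ (L r m : ℕ) (q : Fin r → ℕ), Aux L q m → ∃ δ : Gam →* Dl m r, IsDel L q m δ ∧
    IsOpen (δ.ker : Set Gam) ∧ (∀ P : Plc, (∀ i, P.rchar ≠ q i) → In P ≤ δ.ker) ∧
    ∀ (P : Plc) (s : Gam) (u : (ZMod (LQ L q))ˣ), IsFr P s → (u : ZMod (LQ L q)) = P.rchar →
      δ s = chi L q m u

/-- leaf TW: inertia at the auxiliary primes -/
def TwStmt : Prop :=
  ∀ (ι : Om →+* ℂ) (O C : Type) [CommRing O] [CommRing C] [Algebra O C] [IsLocalRing C] [Finite C]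
    (n r L : ℕ) (q : Fin r → ℕ) (h : Aux L q (3 ^ (n + 1))) (a α : ℕ → C) (H : Type)
    [AddCommGroup H] [Module O H] (j : H →ₗ[O] HH (Gq (LQ L q) (H1 L q (3 ^ (n + 1)))) C)
    (Tp : ℕ → Module.End O H) (dia : Dl (3 ^ (n + 1)) r →* Module.End O H),
    Dat h a α j Tp dia → ∀ (δ : Gam →* Dl (3 ^ (n + 1)) r) (ρ : Gam →* Module.End O H),
    IsDel L q _ δ → (∀ σ, ActK (3 ^ (n + 1)) j.toAddMonoidHom σ (ρ (resA ι σ))) →
    ∀ i, ∃ P : Plc, P.rchar = q i ∧ ∃ τ ∈ In P, δ τ = del _ i ∧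
      (ρ τ - 1) * (ρ τ - dia (del _ i)) = 0

end Crest.Agent.T15.TD

end
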