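import Crest.Agent.T15.HkTL_62
import Crest.Agent.T15.TDef_10

/-!
# Row 15, block T (helper62): the contract `TOut` from its Galois half
-/

set_option autoImplicit false

noncomputable section

namespace Crest.Agent.T15.Hk

open Crest.Agent.T15.R
open Crest.Agent.T15.Top (Lc Cn)

/-- **the contract T from its Galois half** -/
theorem tOut_of {X : Lc} (hG : TD.GalStmt X) : TOut X lv :=
  fun L h0 h4 h3 => ⟨tGrp h0 h4, fun O _ _ _ _ a ha n r q hi hq => by
    have h := aux_of h0 h4 hi hq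
    obtain ⟨α, -, s⟩ := exists_sy h ha hq
    obtain ⟨p, p1, p2, -, p3⟩ := exists_neis ha h.neZero.ne (dvd_LQ L q) (n + 1)
    obtain ⟨δ, ρ, g⟩ := hG O (Cn O (n + 1)) n r L q h (rd (n + 1) a) (rd (n + 1) α) (HQ L q n a α)
      ((HQ L q n a α).subtype.restrictScalars O) (TO L q n a α) (h.DO a α)
      ⟨s, h3, fun c => by rw [nsmul_eq_mul, Nat.cast_pow, three_pow_Cn, zero_mul],
        ⟨p, p1, by exact_mod_cast p2.symm.dvd, p3⟩, Subtype.val_injective,
        fun x => ⟨fun hx => ⟨⟨x, hx⟩, rfl⟩, fun ⟨y, hy⟩ => hy ▸ y.2⟩, fun _ _ _ => rfl, fun _ _ => rfl⟩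
    obtain ⟨kap, lam, t⟩ := thk h s
    exact ⟨_, _, _, _, δ, _, _, _, _, inferInstance, ρ, _, _, kap, lam,
      ⟨twg_del n r, t.free, g.cgT, g.cgD, g.opnH, g.opnδ, g.unrH, g.unrδ, g.es, t.res, g.tw, g.flat,
        t.kap0, t.kapT, t.lamD, t.lamT, t.lam0⟩⟩⟩

end Crest.Agent.T15.Hk

end
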