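import Crest.Agent.T15.HonDef_54

/-!
# Row 15, block Ht (helper13): integrality of the formal solution at the bad places (`BadStmt`)
-/

set_option autoImplicit false

noncomputable section

namespace Crest.Agent.T15.Hon

open scoped NNReal PowerSeries
open PowerSeries

namespace B13

variable {K : Type*} [Field K] {v : Valuation K ℝ≥0}

lemma v_nat (v : Valuation K ℝ≥0) (n : ℕ) : v n ≤ 1 := natCast_mem v.integer n

lemma v_int (v : Valuation K ℝ≥0) (n : ℤ) : v n ≤ 1 := intCast_mem v.integer n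

lemma v_pow_le {N : ℕ} (hN : v N < 1) (n : ℕ) : 0 < n → v N ^ (n - 1) ≤ v n := by
  induction n using Nat.strong_induction_on with
  | _ n ih =>
  intro hn
  by_cases hd : Nat.gcd n N = 1
  · refine (pow_le_one₀ zero_le hN.le).trans ?_
    by_contra h
    have e := congrArg (Int.cast : ℤ → K) (Nat.gcd_eq_gcd_ab n N)
    rw [hd] at e
    push_cast at e
    have : v ((n : K) * Nat.gcdA n N + N * Nat.gcdB n N) < 1 := by
      refine v.map_add_lt ?_ ?_ <;> rw [map_mul]
      · exact mul_lt_one_of_nonneg_of_lt_one_left zero_le (not_le.1 h) (v_int v _)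
      · exact mul_lt_one_of_nonneg_of_lt_one_left zero_le hN (v_int v _)
    rw [← e, map_one] at this
    exact lt_irrefl _ this
  · obtain ⟨n', e⟩ := Nat.gcd_dvd_left n N
    obtain ⟨N', e'⟩ := Nat.gcd_dvd_right n N
    have d0 : 0 < Nat.gcd n N := Nat.gcd_pos_of_pos_left _ hn
    generalize Nat.gcd n N = d at *
    have h0 : 0 < n' := Nat.pos_of_ne_zero (by rintro rfl; omega)
    have h1 : n' < n := by nlinarith [show 2 ≤ d by omega]
    have h2 : v N ≤ v d := by
      rw [e', Nat.cast_mul, map_mul]; exact mul_le_of_le_one_right zero_le (v_nat v _)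
    calc v N ^ (n - 1) ≤ v N ^ (n' - 1 + 1) := pow_le_pow_right_of_le_one' hN.le (by omega)
      _ ≤ v n' * v d := by rw [pow_succ]; exact mul_le_mul' (ih n' h1 h0) h2
      _ = v n := by rw [e, Nat.cast_mul, map_mul, mul_comm]

lemma pi_mul {α β : ℝ≥0} {f g : K⟦X⟧} (hf : PI v α f) (hg : PI v β g) : PI v (α * β) (f * g) :=
  fun n => by
    rw [coeff_mul]
    exact v.map_sum_le fun p _ => by rw [map_mul]; exact mul_le_mul' (hf _) (hg _)

lemma pi_one : PI v 1 (1 : K⟦X⟧) := fun n => by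
  rw [coeff_one]; split_ifs <;> simp

lemma pi_pow {f : K⟦X⟧} (hf : PI v 1 f) (m : ℕ) : PI v 1 (f ^ m) := by
  induction m with
  | zero => simpa using pi_one
  | succ m ih => simpa [pow_succ] using pi_mul ih hf

lemma exists_sqrt {Y : K⟦X⟧} (hY : PI v 1 Y) (h0 : constantCoeff Y = 0) :
    ∃ U R : K⟦X⟧, PI v 1 U ∧ PI v 1 R ∧ U ^ 2 = 1 + 4 * Y ∧ U * R = 1 ∧ constantCoeff U = 1 := by
  let Y0 : v.integer⟦X⟧ := PowerSeries.mk fun n => ⟨coeff n Y, hY n⟩
  have eY : PowerSeries.map v.integer.subtype Y0 = Y := by ext n; simp [Y0]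
  have y0 : constantCoeff Y0 = 0 := by
    ext; rw [← coeff_zero_eq_constantCoeff_apply] at h0 ⊢; simpa [Y0] using h0
  obtain ⟨z, hz, hz'⟩ := HenselianRing.is_henselian (I := Ideal.span {(X : v.integer⟦X⟧)})
    (Polynomial.X ^ 2 + Polynomial.X - Polynomial.C Y0) (by monicity!) 0
    (by simpa [Ideal.mem_span_singleton, X_dvd_iff] using y0) (by simp)
  rw [sub_zero, Ideal.mem_span_singleton, X_dvd_iff] at hz'
  simp only [Polynomial.IsRoot.def, Polynomial.eval_sub, Polynomial.eval_add, Polynomial.eval_pow,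
    Polynomial.eval_X, Polynomial.eval_C] at hz
  have u1 : constantCoeff (1 + 2 * z) = 1 := by simp [hz']
  obtain ⟨r, hr⟩ := (isUnit_iff_constantCoeff.2 (u1 ▸ isUnit_one)).exists_right_inv
  have pi : ∀ f : v.integer⟦X⟧, PI v 1 (PowerSeries.map v.integer.subtype f) := fun f n => by
    rw [coeff_map]; exact (coeff n f).2
  refine ⟨_, _, pi (1 + 2 * z), pi r, ?_, by rw [← map_mul, hr, map_one], ?_⟩
  · rw [← map_pow, ← eY, show (1 + 2 * z) ^ 2 = 1 + 4 * Y0 by linear_combination 4 * hz]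
    simp [map_ofNat]
  · rw [← coeff_zero_eq_constantCoeff_apply, coeff_map, coeff_zero_eq_constantCoeff_apply, u1,
      map_one]

section subst

variable {S : K⟦X⟧} {σ : ℝ≥0} {n : ℕ}

lemma pow_lt (h : ∀ j < n, v (coeff j S) ≤ σ) (k : ℕ) : ∀ j < n, v (coeff j (S ^ k)) ≤ σ ^ k := by
  induction k with
  | zero => intro j _; simpa using pi_one (v := v) j
  | succ k ih =>
    intro j hj
    rw [pow_succ, pow_succ, coeff_mul]
    refine v.map_sum_le fun p hp => ?_
    have := Finset.HasAntidiagonal.mem_antidiagonal.1 hp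
    rw [map_mul]
    exact mul_le_mul' (ih _ (by omega)) (h _ (by omega))

lemma pow_eq (h0 : constantCoeff S = 0) (h : ∀ j < n, v (coeff j S) ≤ σ) (k : ℕ) :
    v (coeff n (S ^ (k + 2))) ≤ σ ^ (k + 2) := by
  rw [pow_succ, pow_succ σ, coeff_mul]
  refine v.map_sum_le fun p hp => ?_
  have := Finset.HasAntidiagonal.mem_antidiagonal.1 hp
  rcases Nat.eq_zero_or_pos p.1 with e | e
  · simp [e, h0]
  rcases Nat.eq_zero_or_pos p.2 with e' | e'
  · simp [e', h0]
  rw [map_mul]
  exact mul_le_mul' (pow_lt h _ _ (by omega)) (h _ (by omega))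

lemma subst_le (h0 : constantCoeff S = 0) {L : K⟦X⟧} {β : ℝ≥0}
    (hL : ∀ k, v (coeff k L * coeff n (S ^ k)) ≤ β) : v (coeff n (L.subst S)) ≤ β := by
  rw [coeff_subst' (HasSubst.of_constantCoeff_zero' h0)]
  exact finsum_induction (fun y => v y ≤ β) (by simp) (fun _ _ => v.map_add_le) hL

lemma subst_pos (h0 : constantCoeff S = 0) (h : PI v σ S) (hσ : σ ≤ 1) {U : K⟦X⟧} (hU : PI v 1 U)
    (hn : 0 < n) : v (coeff n (U.subst S)) ≤ σ := by
  refine subst_le h0 fun k => ?_
  rcases k with _ | k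
  · simp [coeff_one, hn.ne']
  · rw [map_mul]
    refine (mul_le_mul' (hU _) (pow_lt (n := n + 1) (fun j _ => h j) _ _ n.lt_succ_self)).trans ?_
    rw [one_mul, pow_succ]
    exact mul_le_of_le_one_left zero_le (pow_le_one₀ zero_le hσ)

end subst

variable [CharZero K]

/-- one arc in the rescaled parameter -/
lemma arc {F : Polynomial K} {a b c : K} (hb : b ≠ 0) (hc1 : v c ≤ 1)
    (hF : ∀ k, v (c * ((Polynomial.taylor a F).coeff k / (4 * b ^ 2))) ≤ 1)
    {S w η : K⟦X⟧} (h0 : constantCoeff S = 0) (sq : w ^ 2 = Polynomial.aeval (C a + C c * S) F)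
    (w0 : constantCoeff w = b) (dx : d⁄dX K (C a + C c * S) = η * w) :
    ∃ U R : K⟦X⟧, PI v 1 U ∧ PI v 1 R ∧ constantCoeff R = 1 ∧ w = C b * U.subst S ∧
      η = C (c / b) * (R.subst S * d⁄dX K S) := by
  have hs := HasSubst.of_constantCoeff_zero' h0
  have e0 : F.eval a = b ^ 2 := by
    have := congrArg constantCoeff sq
    rw [map_pow, w0, Polynomial.aeval_def, Polynomial.hom_eval₂] at this
    simp only [map_add, map_mul, constantCoeff_C, h0, mul_zero, add_zero] at this
    rw [this, Polynomial.eval]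
    congr 1
  set P : Polynomial K := Polynomial.C (b ^ 2)⁻¹ *
    (Polynomial.taylor a F).comp (Polynomial.C c * Polynomial.X) with hP
  have cP : ∀ k, P.coeff k = (b ^ 2)⁻¹ * ((Polynomial.taylor a F).coeff k * c ^ k) := fun k => by
    rw [hP, Polynomial.coeff_C_mul, Polynomial.comp_C_mul_X_coeff]
  have y0 : constantCoeff (C (4 : K)⁻¹ * ((P : K⟦X⟧) - 1)) = 0 := by
    rw [map_mul, map_sub, map_one, Polynomial.constantCoeff_coe, cP, Polynomial.taylor_coeff_zero, e0]
    field_simp
    simp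
  obtain ⟨U, R, hU, hR, h1, h2, h3⟩ := exists_sqrt (v := v) (Y := C (4 : K)⁻¹ * ((P : K⟦X⟧) - 1))
    (fun k => by
      rcases k with _ | k
      · rw [coeff_zero_eq_constantCoeff_apply, y0]; simp
      · rw [coeff_C_mul, map_sub, Polynomial.coeff_coe, coeff_one, if_neg k.succ_ne_zero, cP,
          show (4 : K)⁻¹ * ((b ^ 2)⁻¹ * ((Polynomial.taylor a F).coeff (k + 1) * c ^ (k + 1)) - 0) =
            c ^ k * (c * ((Polynomial.taylor a F).coeff (k + 1) / (4 * b ^ 2))) by field_simp; ring,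
          map_mul, map_pow]
        exact mul_le_one' (pow_le_one₀ zero_le hc1) (hF _)) y0
  have h4 : U ^ 2 = P := by
    rw [h1, ← mul_assoc, show (4 : K⟦X⟧) = C 4 from (map_ofNat C 4).symm, ← map_mul,
      mul_inv_cancel₀ (by norm_num), map_one]
    ring
  have h5 : (C b * U.subst S) ^ 2 = w ^ 2 := by
    rw [mul_pow, ← subst_pow hs, h4, subst_coe hs, sq, hP, map_mul, Polynomial.aeval_comp,
      Polynomial.taylor_apply, Polynomial.aeval_comp]
    simp only [Polynomial.aeval_C, map_add, map_mul, Polynomial.aeval_X, ← C_eq_algebraMap]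
    rw [← mul_assoc, ← map_pow, ← map_mul, mul_inv_cancel₀ (pow_ne_zero 2 hb), map_one, one_mul,
      add_comm]
  have u0 : constantCoeff (U.subst S : K⟦X⟧) = 1 := by
    have := constantCoeff_subst_eq_zero (a := S) h0 (U - C 1) (by simp [h3])
    rw [subst_sub hs, subst_C, map_sub, sub_eq_zero] at this
    exact this.trans (by simp)
  have h6 : w = C b * U.subst S := by
    rcases sq_eq_sq_iff_eq_or_eq_neg.1 h5 with e | e
    · exact e.symm
    · have := congrArg constantCoeff e
      rw [map_mul, u0, map_neg, w0, constantCoeff_C, mul_one] at this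
      exact absurd (by linear_combination this / 2) hb
  have h7 : (U.subst S : K⟦X⟧) * R.subst S = 1 := by
    rw [← subst_mul hs, h2, ← coe_substAlgHom hs, map_one]
  refine ⟨U, R, hU, hR, by simpa [h3] using congrArg constantCoeff h2, h6, ?_⟩
  have h8 : d⁄dX K (C a + C c * S) = C c * d⁄dX K S := by simp [Derivation.leibniz]
  have h9 : (C (c / b) : K⟦X⟧) * C b = C c := by rw [← map_mul, div_mul_cancel₀ _ hb]
  have hb' : (C b : K⟦X⟧) ≠ 0 := fun e => hb (by simpa using congrArg constantCoeff e)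
  rw [h8, h6] at dx
  apply mul_right_cancel₀ hb'
  linear_combination -(R.subst S : K⟦X⟧) * dx - (η * C b) * h7 -
    ((R.subst S : K⟦X⟧) * d⁄dX K S) * h9

/-- the non-linear part of the Abelian integral -/
lemma nonlin {H S : K⟦X⟧} (h0 : constantCoeff S = 0) :
    ∃ L : K⟦X⟧, d⁄dX K (C (constantCoeff H) * S + L.subst S) = H.subst S * d⁄dX K S ∧
      coeff 0 L = 0 ∧ coeff 1 L = 0 ∧ ∀ k, coeff (k + 2) L * ((k + 2 : ℕ) : K) = coeff (k + 1) H := by
  have hs := HasSubst.of_constantCoeff_zero' h0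
  refine ⟨PowerSeries.mk fun k => coeff (k - 1) (H - C (constantCoeff H)) / k, ?_, by simp, by simp,
    fun k => ?_⟩
  · have : d⁄dX K (PowerSeries.mk fun k => coeff (k - 1) (H - C (constantCoeff H)) / k) =
        H - C (constantCoeff H) := by
      ext n
      rw [coeff_derivative, coeff_mk, Nat.add_sub_cancel, Nat.cast_succ,
        div_mul_cancel₀ _ (Nat.cast_add_one_ne_zero n)]
    rw [map_add, derivative_subst hs, this, subst_sub hs, subst_C]
    have e : (MvPowerSeries.C (constantCoeff H) : K⟦X⟧) = C (constantCoeff H) := rfl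
    rw [e]
    simp [Derivation.leibniz]
    ring
  · rw [coeff_mk, div_mul_cancel₀ _ (Nat.cast_ne_zero.2 (by omega))]
    simp

lemma exists_den [Algebra.IsAlgebraic ℚ K] {s : Set K} (hs : s.Finite) :
    ∃ c : ℕ, c ≠ 0 ∧ ∀ v : Valuation K ℝ≥0, ∀ y ∈ s, v (c * y) ≤ 1 := by
  have : Algebra.IsAlgebraic ℤ K := (IsFractionRing.comap_isAlgebraic_iff (A := ℤ) (K := ℚ)).2 ‹_›
  obtain ⟨c, hc, h⟩ := Algebra.IsAlgebraic.exists_integral_multiples ℤ hs.toFinset
  refine ⟨c.natAbs, Int.natAbs_ne_zero.2 hc, fun v y hy => ?_⟩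
  have h1 : v (c • y) ≤ 1 := (Valuation.integer.integers v).mem_of_integral
    (h y (hs.mem_toFinset.2 hy)).tower_top
  rw [zsmul_eq_mul] at h1
  rw [Nat.cast_natAbs]
  rcases abs_choice c with e | e <;> rw [e]
  · exact h1
  · rwa [Int.cast_neg, neg_mul, v.map_neg]

end B13

open B13

theorem badStmt_13 : BadStmt := by
  intro K _ _ _ g F a b ha hb N hN
  classical
  let A : Matrix (Fin g) (Fin g) K := (Matrix.vandermonde a).transpose * Matrix.diagonal fun i => (b i)⁻¹
  have hA : ∀ m i, A m i = a i ^ (m : ℕ) / b i := fun m i => by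
    simp [A, div_eq_mul_inv]
  have hQ : A⁻¹ * A = 1 := Matrix.nonsing_inv_mul _ (by
    rw [Matrix.det_mul, Matrix.det_transpose, Matrix.det_diagonal, isUnit_iff_ne_zero]
    exact mul_ne_zero (Matrix.det_vandermonde_ne_zero_iff.2 ha)
      (Finset.prod_ne_zero_iff.2 fun i _ => inv_ne_zero (hb i)))
  obtain ⟨c, hc, hv⟩ := exists_den (K := K) (s := (Set.range a ∪ Set.range b ∪
      Set.range (fun i => (b i)⁻¹) ∪ Set.range fun p : Fin g × Fin g => A⁻¹ p.1 p.2) ∪
      ⋃ i, (fun y => y / (4 * b i ^ 2)) '' Set.range (Polynomial.taylor (a i) F).coeff)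
    (((((Set.finite_range _).union (Set.finite_range _)).union (Set.finite_range _)).union
      (Set.finite_range _)).union (Set.finite_iUnion fun i => (Polynomial.finite_range_coeff _).image _))
  refine ⟨c ^ (g + 4) * N, mul_ne_zero (pow_ne_zero _ hc) hN, fun v hvN Φ x w η hΦ sol => ?_⟩
  have va : ∀ i, v (c * a i) ≤ 1 := fun i => hv v _ (by simp)
  have vb : ∀ i, v (c * b i) ≤ 1 := fun i => hv v _ (by simp)
  have vb' : ∀ i, v (c / b i) ≤ 1 := fun i => by rw [div_eq_mul_inv]; exact hv v _ (by simp)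
  have vQ : ∀ i j, v (c * A⁻¹ i j) ≤ 1 := fun i j => hv v _ (Or.inl (Or.inr ⟨(i, j), rfl⟩))
  have vF : ∀ i k, v (c * ((Polynomial.taylor (a i) F).coeff k / (4 * b i ^ 2))) ≤ 1 := fun i k =>
    hv v _ (Or.inr (Set.mem_iUnion.2 ⟨i, _, ⟨k, rfl⟩, rfl⟩))
  have hc' : (c : K) ≠ 0 := Nat.cast_ne_zero.2 hc
  have c1 : v c ≤ 1 := v_nat v c
  have c0 : 0 < v c := (v.pos_iff).2 hc'
  set σ : ℝ≥0 := v c ^ (g + 2) * v N with hσ
  have hσc : σ ≤ v c := by
    rw [hσ, pow_succ', mul_assoc]
    exact mul_le_of_le_one_right zero_le (mul_le_one' (pow_le_one₀ zero_le c1) hvN.le)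
  have hM : v ((c ^ (g + 4) * N : ℕ) : K) = v c ^ 2 * σ := by
    rw [Nat.cast_mul, Nat.cast_pow, map_mul, map_pow, hσ]; ring
  let S : Fin g → K⟦X⟧ := fun i => C (c : K)⁻¹ * (x i - C (a i))
  have hx : ∀ i, x i = C (a i) + C (c : K) * S i := fun i => by
    rw [← mul_assoc, ← map_mul, mul_inv_cancel₀ hc', map_one]; ring
  have h0 : ∀ i, constantCoeff (S i) = 0 := fun i => by simp [S, sol.x0]
  have hs := fun i => HasSubst.of_constantCoeff_zero' (h0 i)
  choose U R hU hR R0 hw hη using fun i => arc (v := v) (hb i) c1 (vF i) (h0 i)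
    (hx i ▸ sol.sq i) (sol.w0 i) (hx i ▸ sol.dx i)
  let H : Fin g → Fin g → K⟦X⟧ := fun m i => (C (a i) + C (c : K) * X) ^ (m : ℕ) * R i
  have H0 : ∀ m i, constantCoeff (H m i) = a i ^ (m : ℕ) := fun m i => by simp [H, R0]
  have HS : ∀ m i, ((H m i).subst (S i) : K⟦X⟧) = x i ^ (m : ℕ) * (R i).subst (S i) := fun m i => by
    rw [subst_mul (hs i), subst_pow (hs i), subst_add (hs i), subst_mul (hs i), subst_C, subst_C,
      subst_X (hs i), hx i]
    rfl
  have vH : ∀ m i k, v c ^ g * v (coeff k (H m i)) ≤ 1 := fun m i k => by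
    have p1 : PI v 1 (C (c : K) * (C (a i) + C (c : K) * X)) := fun n => by
      rw [mul_add, ← map_mul, ← mul_assoc, ← map_mul, map_add, coeff_C, coeff_C_mul, coeff_X]
      refine v.map_add_le ?_ ?_ <;> split_ifs
      · exact va i
      · simp
      · rw [mul_one, map_mul]; exact mul_le_one' c1 c1
      · simp
    have p2 := pi_mul (pi_pow p1 m) (hR i) k
    rw [mul_pow, mul_assoc, ← map_pow, coeff_C_mul, map_mul, map_pow, mul_one] at p2
    exact (mul_le_mul_left (pow_le_pow_right_of_le_one' c1 m.2.le) _).trans p2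
  choose L hL L0 L1 L2 using fun m i => nonlin (H := H m i) (h0 i)
  have key : ∀ (m : Fin g) (n : ℕ), ∑ i, (c / b i : K) * (a i ^ (m : ℕ) * coeff (n + 1) (S i) +
      coeff (n + 1) ((L m i).subst (S i) : K⟦X⟧)) = coeff (n + 1) (Φ m) := fun m n => by
    have e : d⁄dX K (∑ i, C (c / b i : K) * (C (constantCoeff (H m i)) * S i +
        (L m i).subst (S i))) = d⁄dX K (Φ m) := by
      rw [← sol.sum m, map_sum]
      refine Finset.sum_congr rfl fun i _ => ?_
      rw [← smul_eq_C_mul, Derivation.map_smul, hL, HS, hη i, smul_eq_C_mul]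
      ring
    have e' := congrArg (coeff n) e
    rw [coeff_derivative, coeff_derivative, mul_left_inj' (Nat.cast_add_one_ne_zero n), map_sum] at e'
    simpa only [coeff_C_mul, map_add, H0] using e'
  have main : ∀ n i, v (coeff n (S i)) ≤ σ := fun n => by
    induction n using Nat.strong_induction_on with
    | _ n ih =>
    intro i
    rcases n with _ | n
    · simp [h0]
    have b1 : ∀ m j, v (coeff (n + 1) ((L m j).subst (S j) : K⟦X⟧)) ≤ v c ^ 2 * σ := fun m j => by
      refine subst_le (h0 j) fun k => ?_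
      rcases k with _ | _ | k
      · simp [L0]
      · simp [L1]
      rw [map_mul]
      have t1 : σ ^ (k + 1) ≤ v c ^ (g + 2) * v ((k + 2 : ℕ) : K) := by
        rw [hσ, mul_pow]
        exact mul_le_mul' (pow_le_of_le_one zero_le (pow_le_one₀ zero_le c1) k.succ_ne_zero)
          (v_pow_le hvN (k + 2) (by omega))
      calc v (coeff (k + 2) (L m j)) * v (coeff (n + 1) (S j ^ (k + 2)))
          ≤ v (coeff (k + 2) (L m j)) * (σ ^ (k + 1) * σ) :=
            mul_le_mul_right (pow_eq (h0 j) (fun l hl => ih l hl j) k) _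
        _ ≤ v (coeff (k + 2) (L m j)) * (v c ^ (g + 2) * v ((k + 2 : ℕ) : K) * σ) := by gcongr
        _ = v c ^ 2 * σ * (v c ^ g * v (coeff (k + 1) (H m j))) := by
            rw [← L2, map_mul]; ring
        _ ≤ v c ^ 2 * σ := mul_le_of_le_one_right zero_le (vH m j _)
    have b2 : ∀ m, v (c * ∑ j, A m j * coeff (n + 1) (S j)) ≤ v c ^ 2 * σ := fun m => by
      have e : c * ∑ j, A m j * coeff (n + 1) (S j) = coeff (n + 1) (Φ m) -
          ∑ j, (c / b j : K) * coeff (n + 1) ((L m j).subst (S j) : K⟦X⟧) := by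
        rw [← key, ← Finset.sum_sub_distrib, Finset.mul_sum]
        refine Finset.sum_congr rfl fun j _ => ?_
        rw [hA]; ring
      rw [e]
      refine v.map_sub_le (hM ▸ hΦ m _) (v.map_sum_le fun j _ => ?_)
      rw [map_mul]
      exact mul_le_of_le_one_of_le (vb' j) (b1 m j)
    have e : (c : K) ^ 2 * coeff (n + 1) (S i) =
        ∑ m, c * A⁻¹ i m * (c * ∑ j, A m j * coeff (n + 1) (S j)) := by
      have := congrFun (congrArg (Matrix.mulVec · fun j => coeff (n + 1) (S j)) hQ) i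
      simp only [← Matrix.mulVec_mulVec, Matrix.one_mulVec] at this
      rw [← this, Matrix.mulVec, dotProduct, Finset.mul_sum]
      refine Finset.sum_congr rfl fun m _ => ?_
      rw [Matrix.mulVec, dotProduct]; ring
    have b3 : v ((c : K) ^ 2 * coeff (n + 1) (S i)) ≤ v c ^ 2 * σ := by
      rw [e]
      refine v.map_sum_le fun m _ => ?_
      rw [map_mul]
      exact mul_le_of_le_one_of_le (vQ i m) (b2 m)
    rw [map_mul, map_pow] at b3
    exact le_of_mul_le_mul_left b3 (pow_pos c0 2)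
  intro i n hn
  constructor
  · rw [hx i, map_add, coeff_C, if_neg hn.ne', zero_add, coeff_C_mul, map_mul]
    exact mul_le_one' c1 ((main n i).trans (hσc.trans c1))
  · rw [hw i, coeff_C_mul, map_mul]
    refine (mul_le_mul_right ((subst_pos (h0 i) (fun n => main n i) (hσc.trans c1) (hU i) hn).trans
      hσc) _).trans ?_
    rw [mul_comm, ← map_mul]
    exact vb i

end Crest.Agent.T15.Hon
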