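import Crest.Agent.T15.HonGl_74
import Crest.Agent.T15.HonH_54

/-!
# Row 15, block Ht (helper74): the statement `TriStmt` (input of `HondaStmt` and `RatStmt`)
-/

set_option autoImplicit false
set_option linter.all false

noncomputable section

namespace Crest.Agent.T15.Hon

open scoped NNReal PowerSeries
open Matrix Crest.Agent.R018.Placesx484
open Crest.Agent.T15.C (Om Gam In IsFr)
open Crest.Agent.T15.Mo (Par)
open Crest.Agent.R013.PicD_398 Crest.Agent.R013.Frob1_914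

/-- pairing, torsion and congruence at the place `Q0` -/
def TriAt {P : Par Om} (M : Ht.Mdl P) (N : Matrix (Fin 3) (Fin 3) Om) (Q0 : Place Om) : Prop :=
  ∀ (φ : Gam) (hφ : IsFr Q0 Q0.rchar φ) (F0 : Polynomial (KI Q0)) (N0 : Fin 3 → Fin 3 → KI Q0),
    F0.map (KI Q0).subtype = P.F → (∀ m k, (N0 m k : Om) = N m k) →
    ∃ (Q : Place Om) (e : SI Om M.Y Om M.Y), Q.rchar = Q0.rchar ∧ Ht.Fr M Q e ∧
      ∀ a b : KI Q0, GdP (vI Q0) F0 a b →
        Rat.Tri 3 Q0.rchar (Kill M.j e.pic.toAddMonoidHom)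
          (Cong (vI Q0) Q0.rchar Q0.rchar_prime.ne_zero (sg hφ) F0 N0 Ht.J3 a b)

/-- TRI -/
def TriStmt : Prop :=
  ∀ (p1 p2 p3 t : ℤ) (P : Par Om) (M : Ht.Mdl P) (N : Matrix (Fin 3) (Fin 3) Om),
    Ht.Is P p1 p2 p3 t → Ht.IsOm M N → Ae (TriAt M N)

/-- descent of a polynomial and a matrix -/
theorem ae_desc {g : ℕ} (F : Polynomial Om) (N : Matrix (Fin g) (Fin g) Om) :
    Ae fun Q => ∃ (F0 : Polynomial (KI Q)) (N0 : Fin g → Fin g → KI Q),
      F0.map (KI Q).subtype = F ∧ (∀ m k, (N0 m k : Om) = N m k) ∧ ∀ m k, vI Q (N0 m k) ≤ 1 := by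
  refine ((ae_coeff (Q := fun x P => x ∈ KI P) (fun P => zero_mem _) ae_mem F).and
    (Ae.all fun m => Ae.all fun k => (ae_mem (N m k)).and (ae_le (N m k)))).mono ?_
  rintro Q ⟨h1, h2⟩
  obtain ⟨F0, hF0⟩ := exists_pmap (KI Q) h1
  exact ⟨F0, fun m k => ⟨N m k, (h2 m k).1⟩, hF0, fun _ _ => rfl, fun m k => (h2 m k).2⟩

/-- descent of a point -/
theorem ae_pt {F : Polynomial Om} {a b : Om} (hb : b ≠ 0) (h : b ^ 2 = F.eval a) :
    Ae fun Q => ∃ a0 b0 : KI Q, (a0 : Om) = a ∧ (b0 : Om) = b ∧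
      ∀ F0 : Polynomial (KI Q), F0.map (KI Q).subtype = F → GdP (vI Q) F0 a0 b0 := by
  refine (((ae_coeff (Q := fun x P => vO P x ≤ 1) (fun P => by simp) ae_le F).and
    (ae_unit two_ne_zero)).and (((ae_mem a).and (ae_le a)).and
      ((ae_mem b).and (ae_unit hb)))).mono ?_
  rintro Q ⟨⟨h1, h2⟩, ⟨h3, h4⟩, h5, h6⟩
  refine ⟨⟨a, h3⟩, ⟨b, h5⟩, rfl, rfl, fun F0 hF0 => ⟨h2, fun n => ?_, h4, h6, ?_⟩⟩
  · have := h1 n
    rwa [← hF0, Polynomial.coeff_map] at this
  · apply (KI Q).subtype.injective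
    rw [← Polynomial.eval₂_at_apply, Polynomial.eval₂_eq_eval_map, hF0, map_pow]
    exact h

/-- the logarithm of a primitive differential is not small -/
theorem nz {K0 : Type*} [Field K0] [CharZero K0] {v0 : Valuation K0 ℝ≥0} {g : ℕ}
    {F : Polynomial K0} {a b : K0} (h : GdP v0 F a b) (N : Fin g → Fin g → K0) (m : Fin g)
    {c : ℝ≥0} (hc : ∀ n, 0 < n → n ≤ g → v0 (PowerSeries.coeff n (lgN N F a b m)) ≤ c)
    (k : Fin g) : v0 (N m k) ≤ c := by
  set S : Polynomial K0 :=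
    ∑ k, Polynomial.C (N m k) * (Polynomial.X + Polynomial.C a) ^ (k : ℕ) with hS
  have e : PowerSeries.derivative K0 (lgN N F a b m) * wt F a b = (S : K0⟦X⟧) := by
    rw [derivative_lgN, mul_assoc, PowerSeries.inv_mul_cancel, mul_one, hS,
      ← Polynomial.coeToPowerSeries.ringHom_apply, map_sum]
    · simp [add_comm]
    · rw [(wt_spec h.two_ne h.b_ne h.on).2]; exact h.b_ne
  have h1 : ∀ n, v0 (S.coeff n) ≤ c := fun n => by
    by_cases hn : n < g
    · rw [← Polynomial.coeff_coe, ← e, PowerSeries.coeff_mul]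
      refine v0.map_sum_le fun ij hij => ?_
      have hi : ij.1 + 1 ≤ g := by have := Finset.HasAntidiagonal.mem_antidiagonal.1 hij; omega
      rw [map_mul, PowerSeries.coeff_derivative, map_mul]
      have := v_natCast_le v0 (ij.1 + 1)
      push_cast at this
      simpa using mul_le_mul' (mul_le_mul' (hc _ (Nat.succ_pos _) hi) this) (h.ai_wt.1 ij.2)
    · rw [hS, Polynomial.finset_sum_coeff, Finset.sum_eq_zero, map_zero]
      · exact zero_le
      · intro j _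
        rw [Polynomial.coeff_C_mul, Polynomial.coeff_eq_zero_of_natDegree_lt, mul_zero]
        rw [Polynomial.natDegree_pow, Polynomial.natDegree_X_add_C]
        have := j.2; omega
  have h2 : PI v0 c (Polynomial.aeval (PowerSeries.X - PowerSeries.C a : K0⟦X⟧) S) := by
    rw [Polynomial.aeval_eq_sum_range]
    refine PI.sum _ fun i _ => ?_
    rw [PowerSeries.smul_eq_C_mul]
    exact (PI.const_le (h1 i)).mul_right ((PI.X'.sub (PI.const_le h.va)).pow i)
  have h3 := h2 k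
  simp only [hS, map_sum, map_mul, map_pow, map_add, Polynomial.aeval_C, Polynomial.aeval_X,
    ← PowerSeries.C_eq_algebraMap, sub_add_cancel, PowerSeries.coeff_C_mul,
    PowerSeries.coeff_X_pow] at h3
  rw [Finset.sum_eq_single k] at h3
  · simpa using h3
  · intro j _ hj
    rw [if_neg (fun e => hj (Fin.ext e).symm), mul_zero]
  · simp

theorem exists_base {F : Polynomial Om} (hF : F ≠ 0) (g : ℕ) : ∃ a b : Fin g → Om,
    Function.Injective a ∧ (∀ i, b i ≠ 0) ∧ ∀ i, b i ^ 2 = F.eval (a i) := by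
  classical
  have h := (F.roots.toFinset.finite_toSet).infinite_compl
  let a : Fin g → Om := fun i => h.natEmbedding _ i
  choose b hb using fun i => IsAlgClosed.exists_pow_nat_eq (F.eval (a i)) two_pos
  refine ⟨a, b, fun i j e => Fin.ext ((h.natEmbedding _).injective (Subtype.ext e)),
    fun i e => ?_, hb⟩
  have h1 := (h.natEmbedding _ i).2
  have h2 := hb i
  rw [e] at h2
  exact h1 (by simpa [hF, a] using h2.symm)

theorem F_ne (P : Par Om) : P.F ≠ 0 := by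
  have h : ∀ a : Om, (Polynomial.X ^ 2 - Polynomial.C a : Polynomial Om) ≠ 0 := fun a =>
    (Polynomial.monic_X_pow_sub_C a two_ne_zero).ne_zero
  simp [Par.F, Mo.Fm, h, P.c_ne]

theorem ae_sep {g : ℕ} {a : Fin g → Om} (ha : Function.Injective a) :
    Ae fun P => ∀ i j, i ≠ j → vO P (a i - a j) = 1 := Ae.all fun i => Ae.all fun j => by
  by_cases hij : i = j
  · exact Ae.of_forall fun P h => absurd hij h
  · exact (ae_unit (sub_ne_zero.2 (ha.ne hij))).mono fun P h _ => h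

theorem ae_ne {l : ℕ} (hl : l.Prime) : Ae fun P => P.rchar ≠ l :=
  (Ae.not_dvd hl.ne_zero).mono fun P h e => h (e ▸ dvd_rfl)

theorem tri_of (hV : VsStmt) (hF : Ht.FrmStmt) (hC : CongStmt) : TriStmt := by
  intro p1 p2 p3 t P M N hI hN
  obtain ⟨S, hS0, hS⟩ := hF p1 p2 p3 t P M N hI hN
  obtain ⟨a, b, ha, hb, hab⟩ := exists_base (F_ne P) 3
  have h1 : Ae fun Q => ∀ s : S, s.1 ∈ KI Q ∧ vO Q s = 1 := Ae.all fun s =>
    (ae_mem s.1).and (ae_unit fun e => hS0 (e ▸ s.2))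
  refine (((h1.and (ae_ne Nat.prime_three)).and (Ae.all fun i => ae_pt (hb i) (hab i))).and
    ((ae_sep ha).and (Ae.all fun m => Ae.all fun k => ae_le (N m k)))).mono ?_
  rintro Q0 ⟨⟨⟨h1, h3⟩, h2⟩, h4, h5⟩ φ hφ F0 N0 eF eN
  choose a0 b0 ea eb hG using h2
  obtain ⟨X⟩ := hV Om (KI Q0) (vI Q0) _ Q0.rchar_prime.ne_zero _ (un hφ)
  obtain ⟨Q, e, hQ, he, Y, hY⟩ := hS (KI Q0) (vI Q0) _ _ _ (un hφ) h3
    (fun s hs => ⟨(h1 ⟨s, hs⟩).1, (h1 ⟨s, hs⟩).2⟩) X F0 N0 eF eN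
  refine ⟨Q, e, hQ, he, fun a' b' hG' => (hY a' b' hG').mono (fun _ _ h => h) fun Ψ h => ?_⟩
  refine hC Om _ _ _ _ _ (un hφ) X 3 F0 N0 _ Y (fun m k => ?_) a0 b0 (fun i => hG i F0 eF)
    (fun i j hij => ?_) a' b' hG' Ψ h
  · rw [vI_apply, eN]; exact h5 m k
  · have := h4 i j hij
    rwa [← ea, ← ea] at this

end Crest.Agent.T15.Hon
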