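import Crest.Agent.T15.ModB_53
import Crest.Agent.T15.AlgMA_4
import Crest.Agent.T15.EscA_99

/-!
# T15 / ModC (helper53): Taylor series at the cusp

* `tq M S = hq M (tay S)`, the ring homomorphism `tqH M` on functions analytic at `0`, `th_tq`;
* `exists_FF`, `tq_mem_K0`: the expansion of an invariant meromorphic function;
* `exists_Psi`, `tq_Psi`: primitives of cusp forms at the cusps;
* `qf_eq_one`, `coeff_qf_one`, `qf_mem_Bz`: forms of period one;
* `exists_val`: a valuation of `ℂ` above every prime.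
-/

set_option autoImplicit false
set_option linter.all false

noncomputable section

namespace Crest.Agent.T15.Mod

open UpperHalfPlane ModularForm CongruenceSubgroup Matrix.SpecialLinearGroup Filter Topology Set
open scoped MatrixGroups Manifold NNReal Real
open Crest.Agent.R007 Crest.Agent.R007.Rat Crest.Agent.T15.Hs Crest.Agent.T15.Mf
open Crest.Agent.T15.AlgM Crest.Agent.T15.Esc

attribute [-instance] HahnSeries.powerSeriesAlgebra

variable {M : ℕ} {S T : ℂ → ℂ} {s F G f : ℍ → ℂ} {k : ℤ}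

theorem tay_deriv (S : ℂ → ℂ) : tay (deriv S) = PowerSeries.derivative ℂ (tay S) := by
  ext n
  rw [PowerSeries.coeff_derivative, coeff_tay, coeff_tay, iteratedDeriv_succ', Nat.factorial_succ]
  have h1 : (n.factorial : ℂ) ≠ 0 := by exact_mod_cast n.factorial_ne_zero
  have h2 : ((n : ℂ) + 1) ≠ 0 := by exact_mod_cast n.succ_ne_zero
  push_cast
  field_simp

theorem th_hq (hM : M ≠ 0) (p : PowerSeries ℂ) :
    (M : ℂ) • th (hq M p) = hq M (PowerSeries.X * PowerSeries.derivative ℂ p) := by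
  refine Lev.ext (M := M) (fun r hr => lev_hq hM p r fun h => hr ?_) (lev_hq hM _) fun n => ?_
  · rw [HahnSeries.coeff_smul, coeff_th, h, mul_zero, smul_zero]
  · have h1 : (M : ℂ) ≠ 0 := by exact_mod_cast hM
    rw [HahnSeries.coeff_smul, coeff_th, coeff_hq hM, coeff_hq hM, smul_eq_mul]
    cases n with
    | zero => simp
    | succ n =>
      rw [PowerSeries.coeff_succ_X_mul, PowerSeries.coeff_derivative]
      push_cast
      field_simp

/-- the Taylor series in `q^(1/M)` -/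
def tq (M : ℕ) (S : ℂ → ℂ) : HS ℂ := hq M (tay S)

theorem tq_congr (h : S =ᶠ[𝓝 0] T) : tq M S = tq M T := by rw [tq, tq, tay_congr h]

theorem tq_mul (hS : AnalyticAt ℂ S 0) (hT : AnalyticAt ℂ T 0) : tq M (S * T) = tq M S * tq M T := by
  rw [tq, tay_mul hS hT, map_mul]; rfl

theorem tq_add (hS : AnalyticAt ℂ S 0) (hT : AnalyticAt ℂ T 0) : tq M (S + T) = tq M S + tq M T := by
  rw [tq, tay_add hS hT, map_add]; rfl

theorem tq_const (hM : M ≠ 0) (c : ℂ) : tq M (fun _ => c) = HahnSeries.C c := by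
  rw [tq, tay_const, hq_C hM]

theorem coeff_tq (hM : M ≠ 0) (S : ℂ → ℂ) (n : ℕ) :
    (tq M S).coeff ((n : ℚ) / M) = PowerSeries.coeff n (tay S) := coeff_hq hM _ n

theorem coeff_tq_zero (hM : M ≠ 0) (S : ℂ → ℂ) : (tq M S).coeff 0 = S 0 := by
  have := coeff_tq hM S 0
  rwa [Nat.cast_zero, zero_div, PowerSeries.coeff_zero_eq_constantCoeff_apply,
    constantCoeff_tay] at this

theorem th_tq (hM : M ≠ 0) (hS : AnalyticAt ℂ S 0) :
    (M : ℂ) • th (tq M S) = tq M (id * deriv S) := by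
  rw [tq, th_hq hM, tq, tay_mul analyticAt_id hS.deriv, tay_id, tay_deriv]

/-- functions analytic at `0` -/
def An0 : Subalgebra ℂ (ℂ → ℂ) where
  carrier := {U | AnalyticAt ℂ U 0}
  mul_mem' ha hb := ha.mul hb
  add_mem' ha hb := ha.add hb
  algebraMap_mem' c := analyticAt_const

/-- the Taylor series as a ring homomorphism -/
def tqH (M : ℕ) : An0 →+* HS ℂ where
  toFun U := tq M U.1
  map_one' := by show hq M (tay 1) = 1; rw [tay_one, map_one]
  map_mul' a b := tq_mul a.2 b.2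
  map_zero' := by show hq M (tay 0) = 0; rw [tay_zero, map_zero]
  map_add' a b := tq_add a.2 b.2

/-- evaluation -/
def ev0 (t : ℂ) : An0 →+* ℂ := (Pi.evalRingHom (fun _ : ℂ => ℂ) t).comp An0.val.toRingHom

theorem tq_coeff_prod {ι : Type*} [Fintype ι] {x : ι → ℂ → ℂ} (hx : ∀ j, AnalyticAt ℂ (x j) 0)
    (n : ℕ) : AnalyticAt ℂ (fun t => (∏ j, (Polynomial.X - Polynomial.C (x j t))).coeff n) 0 ∧
      tq M (fun t => (∏ j, (Polynomial.X - Polynomial.C (x j t))).coeff n) =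
        (∏ j, (Polynomial.X - Polynomial.C (tq M (x j)))).coeff n := by
  set P : Polynomial An0 := ∏ j, (Polynomial.X - Polynomial.C (⟨x j, hx j⟩ : An0)) with hP
  have h1 : (fun t => (∏ j, (Polynomial.X - Polynomial.C (x j t))).coeff n) = (P.coeff n).1 := by
    funext t
    show _ = ev0 t (P.coeff n)
    rw [← Polynomial.coeff_map, hP, Polynomial.map_prod]
    simp only [Polynomial.map_sub, Polynomial.map_X, Polynomial.map_C]
    rfl
  rw [h1]
  refine ⟨(P.coeff n).2, ?_⟩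
  show tqH M (P.coeff n) = _
  rw [← Polynomial.coeff_map, hP, Polynomial.map_prod]
  simp only [Polynomial.map_sub, Polynomial.map_X, Polynomial.map_C]
  rfl

theorem tq_eval (hM : M ≠ 0) (hS : AnalyticAt ℂ S 0) (P : Polynomial ℂ) :
    tq M (fun t => P.eval (S t)) = Polynomial.aeval (tq M S) P := by
  have an : ∀ P : Polynomial ℂ, AnalyticAt ℂ (fun t => P.eval (S t)) 0 := fun P =>
    ((Polynomial.differentiable P).analyticAt (S 0)).comp hS
  induction P using Polynomial.induction_on with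
  | C c => simpa [algebraMap_HS] using tq_const hM c
  | add p q hp hq' =>
    rw [map_add, ← hp, ← hq', ← tq_add (an p) (an q)]
    exact congrArg _ (funext fun t => by simp)
  | monomial n c h =>
    rw [pow_succ, ← mul_assoc, map_mul, ← h, Polynomial.aeval_X, ← tq_mul (an _) hS]
    exact congrArg _ (funext fun t => by simp)

theorem tq_inv (hS : AnalyticAt ℂ S 0) (h0 : S 0 ≠ 0) : tq M S ≠ 0 ∧ tq M S⁻¹ = (tq M S)⁻¹ := by
  have h1 : tq M S * tq M S⁻¹ = 1 := by
    rw [← tq_mul hS (hS.inv h0), ← map_one (tqH M)]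
    exact tq_congr ((hS.continuousAt.eventually_ne h0).mono fun t ht => mul_inv_cancel₀ ht)
  exact ⟨left_ne_zero_of_mul_eq_one h1, eq_inv_of_mul_eq_one_right h1⟩

theorem qf_eq_tq (hM : M ≠ 0) (hF : IsF M k F) : qf F = tq M (cuspFunction M F) := by
  rw [qf_eq hM hF, tq]
  rfl

theorem freq_infty {Z : Set ℍ} (hZ : Z.Countable) : ∃ᶠ τ in atImInfty, τ ∉ Z := by
  intro h
  obtain ⟨A, hA⟩ := (atImInfty_mem _).1 h
  have ho : IsOpen {τ : ℍ | A < τ.im} := isOpen_lt continuous_const UpperHalfPlane.continuous_im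
  obtain ⟨τ, h1, h2⟩ := (dense_compl hZ).inter_open_nonempty _ ho
    ⟨⟨(|A| + 1 : ℝ) * Complex.I, by simp; positivity⟩, by
      show A < (((|A| + 1 : ℝ) : ℂ) * Complex.I).im
      simp; linarith [le_abs_self A]⟩
  exact hA τ (le_of_lt h1) h2

/-- germs at `0` are determined by their values at the `q`-parameters -/
theorem ev_eq_of_q (hM : M ≠ 0) (hS : AnalyticAt ℂ S 0) (hT : AnalyticAt ℂ T 0) {Z : Set ℍ}
    (hZ : Z.Countable) (h : ∀ᶠ τ in atImInfty, τ ∉ Z →
      S (Function.Periodic.qParam M τ) = T (Function.Periodic.qParam M τ)) : S =ᶠ[𝓝 0] T :=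
  (hS.frequently_eq_iff_eventually_eq hT).1 ((tend_q hM).frequently
    (((freq_infty hZ).and_eventually h).mono fun τ hτ => hτ.2 hτ.1))

theorem qf_eq_mul (hM : M ≠ 0) {l : ℤ} (hF : IsF M k F) (hG : IsF M l G) (he : AE (G * s) F)
    (hS : AnalyticAt ℂ S 0) {Z : Set ℍ} (hZ : Z.Countable)
    (h : ∀ᶠ τ in atImInfty, τ ∉ Z → s τ = S (Function.Periodic.qParam M τ)) :
    qf F = qf G * tq M S := by
  haveI : NeZero M := ⟨hM⟩
  have hM' : (M : ℝ) ≠ 0 := by exact_mod_cast hM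
  rw [qf_eq_tq hM hF, qf_eq_tq hM hG, ← tq_mul hG.analytic hS]
  refine tq_congr (ev_eq_of_q hM hF.analytic (hG.analytic.mul hS) (hZ.union he)
    (h.mono fun τ hτ hn => ?_))
  simp only [mem_union, mem_setOf_eq, not_or, not_not] at hn
  rw [Pi.mul_apply, eq_cuspFunction τ hM' hF.periodic, eq_cuspFunction τ hM' hG.periodic,
    ← hτ hn.1, ← hn.2, Pi.mul_apply]

/-- **(M2)** the expansion of an invariant meromorphic function is that of a modular function -/
theorem exists_FF (hM : M ≠ 0) (hs : Mero s) (hinv : ∀ γ ∈ Gamma M, AE (fun τ => s (γ • τ)) s)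
    (hc : ∀ g : SL(2, ℤ), Cusp M fun τ => s (g • τ)) :
    ∃ x : FF, (∀ γ ∈ Gamma M, γ • x = x) ∧
      (∀ γ : SL(2, ℤ), AE (fun τ => s (γ • τ)) s → γ • x = x) ∧
      ∀ (S : ℂ → ℂ) (Z : Set ℍ), AnalyticAt ℂ S 0 → Z.Countable →
        (∀ᶠ τ in atImInfty, τ ∉ Z → s τ = S (Function.Periodic.qParam M τ)) → qx x = tq M S := by
  obtain ⟨k, F, G, hF, hG, hG0, he⟩ := exists_quo hM hs hinv hc
  have hG' := hG.mono (one_dvd M)
  have key : ∀ γ : SL(2, ℤ), AE (fun τ => s (γ • τ)) s → γ • quo F G = quo F G := fun γ hγ => by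
    have h1 : G ∣[k] γ = G := hG.slash γ (by rw [Gamma_one_top]; trivial)
    have h2 : F ∣[k] γ = F := by
      refine AE.eq ?_ (hF.slash_SL γ).holo.continuous hF.holo.continuous
      refine (he.symm.slash k γ).trans (AE.trans ?_ he)
      rw [mul_slash', h1]
      exact (AE.refl G).mul hγ
    rw [smul_eq_iff_eq_inv_smul, inv_sl_smul_quo hM hF hG', h1, h2]
  refine ⟨quo F G, fun γ hγ => key γ (hinv γ hγ), key, fun S Z hS hZ h => ?_⟩
  rw [qx_quo hM hF hG', qf_eq_mul hM hF hG' he hS hZ h,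
    mul_div_cancel_left₀ _ (qf_ne_zero hM hG' hG0)]

theorem tq_mem_K0 (hM : 3 ≤ M) (hs : Mero s) (hinv : ∀ γ ∈ Gamma M, AE (fun τ => s (γ • τ)) s)
    (hc : ∀ g : SL(2, ℤ), Cusp M fun τ => s (g • τ)) (hS : AnalyticAt ℂ S 0) {Z : Set ℍ}
    (hZ : Z.Countable) (h : ∀ᶠ τ in atImInfty, τ ∉ Z → s τ = S (Function.Periodic.qParam M τ)) :
    tq M S ∈ K0 M := by
  obtain ⟨x, h1, -, h2⟩ := exists_FF (by omega) hs hinv hc
  rw [← h2 S Z hS hZ h]
  exact qx_mem_K0 hM h1

/-! ### primitives of cusp forms -/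

theorem isF_of_MS (hf : f ∈ MS (Gamma M) k) : IsF M k f := ⟨hf.2.1, hf.1, hf.2.2⟩

theorem isF_of_CS (hf : f ∈ CS (Gamma M) k) : IsF M k f := isF_of_MS (CS_le_MS hf)

/-- a primitive of a cusp form at the cusp `g ∞` -/
theorem exists_Psi (hM : M ≠ 0) (hf : f ∈ CS (Gamma M) 2) (hF : IsPrim F f) (g : SL(2, ℤ)) :
    ∃ Ψ : ℂ → ℂ, AnalyticAt ℂ Ψ 0 ∧ ∀ τ : ℍ, F (g • τ) = Ψ (Function.Periodic.qParam M τ) := by
  haveI : NeZero M := ⟨hM⟩
  have h1 := (isF_of_CS hf).slash_SL g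
  obtain ⟨Ψ, h2, h3⟩ := (hF.comp_SL g).cusp Mpos h1.periodic h1.bdd_infty
  refine ⟨Ψ, h2.analyticAt (Metric.ball_mem_nhds 0 one_pos), fun τ => ?_⟩
  rw [h3, (hf.2.2 g).valueAtInfty_eq_zero, zero_mul, zero_add]

theorem th_tq_Psi (hM : M ≠ 0) (hf : IsF M k f) (hF : IsPrim F ((2 * π * Complex.I : ℂ) • f))
    {Ψ : ℂ → ℂ} (hΨ : AnalyticAt ℂ Ψ 0) (h : ∀ τ : ℍ, F τ = Ψ (Function.Periodic.qParam M τ)) :
    tq M (id * deriv Ψ) = HahnSeries.C (M : ℂ) * qf f := by
  haveI : NeZero M := ⟨hM⟩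
  have hM' : (M : ℝ) ≠ 0 := by exact_mod_cast hM
  have hM'' : (M : ℂ) ≠ 0 := by exact_mod_cast hM
  rw [qf_eq_tq hM hf, ← tq_const hM, ← tq_mul analyticAt_const hf.analytic]
  refine tq_congr (ev_eq_of_q hM (analyticAt_id.mul hΨ.deriv) (analyticAt_const.mul hf.analytic)
    countable_empty ?_)
  filter_upwards [((tend_q hM).mono_right nhdsWithin_le_nhds).eventually hΨ.eventually_analyticAt]
    with τ hτ _
  have h2 : HasDerivAt (Function.Periodic.qParam M)
      (Function.Periodic.qParam M τ * (2 * π * Complex.I / M)) τ := by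
    have := (((hasDerivAt_id (τ : ℂ)).const_mul (2 * π * Complex.I)).div_const
      ((M : ℝ) : ℂ)).cexp
    exact this.congr_deriv (by simp [Function.Periodic.qParam])
  have h3 := hτ.differentiableAt.hasDerivAt.comp (τ : ℂ) h2
  have h4 : HasDerivAt (F ∘ ofComplex) _ τ := h3.congr_of_eventuallyEq (by
    filter_upwards [isOpen_upperHalfPlaneSet.mem_nhds τ.im_pos] with w hw
    simp [h, ofComplex_apply_of_im_pos hw])
  have h5 := (hF τ).unique h4
  have hπ : (π : ℂ) ≠ 0 := Complex.ofReal_ne_zero.2 Real.pi_ne_zero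
  simp only [Pi.mul_apply, id, eq_cuspFunction τ hM' hf.periodic, Pi.smul_apply, smul_eq_mul] at h5 ⊢
  field_simp at h5
  linear_combination -h5

/-! ### forms of period one -/

theorem qf_eq_one (hM : M ≠ 0) (hf : IsF M k f) (hp : Function.Periodic (f ∘ ofComplex) (1 : ℝ)) :
    qf f = hq 1 (qExpansion 1 f) := by
  refine qf_unique hM hf one_ne_zero (lev_hq one_ne_zero _) fun τ => ?_
  rw [hasSum_iff_lev one_ne_zero (lev_hq one_ne_zero _)]
  have h1 := hasSum_qExpansion (h := (1 : ℝ)) one_pos hp hf.holo hf.bdd_infty τ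
  convert h1 using 2 with n
  rw [coeff_hq one_ne_zero, Nat.cast_one]
  rfl

theorem coeff_qf_one (hM : M ≠ 0) (hf : IsF M k f) (hp : Function.Periodic (f ∘ ofComplex) (1 : ℝ))
    (n : ℕ) : (qf f).coeff n = PowerSeries.coeff n (qExpansion 1 f) := by
  rw [qf_eq_one hM hf hp, ← coeff_hq one_ne_zero, Nat.cast_one, div_one]

theorem qf_mem_Bz (hM : M ≠ 0) (hf : IsF M k f) (hp : Function.Periodic (f ∘ ofComplex) (1 : ℝ))
    {N : Submodule ℤ ℂ} (hN : N.FG) (h : ∀ n, PowerSeries.coeff n (qExpansion 1 f) ∈ N) :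
    qf f ∈ Bz := by
  rw [qf_eq_one hM hf hp]
  exact (hq_mem one_ne_zero hN h).1

/-! ### valuations of `ℂ` -/

open Cardinal in
theorem exists_val {l : ℕ} (hl : l.Prime) : ∃ v : Valuation ℂ ℝ≥0, v (l : ℂ) < 1 := by
  haveI : Fact l.Prime := ⟨hl⟩
  have h0 : #ℚ_[l] ≤ 𝔠 := by
    have h : Function.Surjective fun u : ℕ → ℚ =>
        Filter.limUnder Filter.atTop fun n => ((u n : ℚ) : ℚ_[l]) := by
      intro x
      obtain ⟨u, hu, hx⟩ := mem_closure_iff_seq_limit.1 (Padic.denseRange_ratCast l x)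
      choose a ha using hu
      refine ⟨a, ?_⟩
      simp only [ha]
      exact hx.limUnder_eq
    refine (mk_le_of_surjective h).trans ?_
    rw [← power_def, mk_nat, ← aleph0_power_aleph0]
    exact power_le_power_right mk_le_aleph0
  have h1 : #(PadicAlgCl l) = 𝔠 :=
    le_antisymm ((Algebra.IsAlgebraic.cardinalMk_le_max ℚ_[l] (PadicAlgCl l)).trans
      (max_le h0 aleph0_le_continuum)) ((continuum_le_cardinal_of_nontriviallyNormedField _).trans
        (mk_le_of_injective (algebraMap ℚ_[l] (PadicAlgCl l)).injective))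
  obtain ⟨e⟩ := IsAlgClosed.ringEquiv_of_equiv_of_charZero (K := ℂ) (L := PadicAlgCl l)
    (by rw [mk_complex]; exact aleph0_lt_continuum) (Cardinal.eq.1 (by rw [h1, mk_complex]))
  refine ⟨(PadicAlgCl.valued l).v.comap e.toRingHom, ?_⟩
  rw [Valuation.comap_apply, map_natCast, PadicAlgCl.valuation_p, one_div]
  exact inv_lt_one_of_one_lt₀ (by exact_mod_cast hl.one_lt)

end Crest.Agent.T15.Mod
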