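import Crest.Agent.T15.StabA_17
import Crest.Agent.T15.ModC_53
import Crest.Agent.T15.CgG_84
import Crest.Agent.T15.UndA_98

/-!
# Row 15, block Ht, STAB part B (helper17)

`aut_inv` : the conjugate of a `Γ₀(L)`-invariant function is invariant; `core`, `stab` : the
finite group of the period classes is stable under `Aut ℂ`.
-/

set_option autoImplicit false
set_option linter.all false

noncomputable section

namespace Crest.Agent.T15.Stab

open UpperHalfPlane ModularForm CongruenceSubgroup Filter Topology Set Polynomial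
open scoped MatrixGroups Manifold Real
open Crest.Agent.R007 Crest.Agent.R007.Rat Crest.Agent.T15.Hs Crest.Agent.T15.Mf
open Crest.Agent.T15.AlgM Crest.Agent.T15.Mod Crest.Agent.T15.Mum Crest.Agent.T15.Ax

attribute [-instance] HahnSeries.powerSeriesAlgebra

lemma G_le (L : ℕ) : Gamma L ≤ Gamma0 L := Lv.GH_top (L := L) ▸ Lv.Gamma_le_GH

/-- identity theorem at the cusp -/
lemma ae_of_infty {a b : ℍ → ℂ} (ha : Mero a) (hb : Mero b) (h : ∀ᶠ τ in atImInfty, a τ = b τ) :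
    AE a b := by
  obtain ⟨A, hA⟩ := (atImInfty_mem _).1 h
  have h0 : (0 : ℝ) < (((|A| + 1 : ℝ) : ℂ) * Complex.I).im := by simp; positivity
  have h1 : A < (((|A| + 1 : ℝ) : ℂ) * Complex.I).im := by simp; linarith [le_abs_self A]
  have h2 := Br.zero_ae (S := {z : ℂ | 0 < z.im}) (convex_halfSpace_im_gt 0).isPreconnected
    (U := (a - b) ∘ ofComplex) (fun z hz => (ha.sub hb) ⟨z, hz⟩) h0 (by
      filter_upwards [mem_nhdsWithin_of_mem_nhds
          ((isOpen_lt continuous_const Complex.continuous_im).mem_nhds h0),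
        mem_nhdsWithin_of_mem_nhds
          ((isOpen_lt continuous_const Complex.continuous_im).mem_nhds h1)] with z a1 a2
      simp only [Function.comp_apply, ofComplex_apply_of_im_pos a1, Pi.sub_apply]
      exact sub_eq_zero.2 (hA ⟨z, a1⟩ (le_of_lt a2)))
  refine Br.ev_co.1 ((Br.ev_co_inj (f := fun τ : ℍ => (τ : ℂ))
    (fun _ _ e => UpperHalfPlane.ext e) h2).mono fun τ hτ => ?_)
  simpa [sub_eq_zero] using hτ τ.im_pos

/-- **the conjugate of an invariant function is invariant** -/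
theorem aut_inv {L : ℕ} (hL : L ≠ 0) (σ : ℂ ≃+* ℂ) {u u' : ℍ → ℂ} {S S' : ℂ → ℂ} (hu : Mero u)
    (hu' : Mero u') (hinv : ∀ γ ∈ Gamma0 L, AE (fun τ => u (γ • τ)) u)
    (hc : ∀ g : SL(2, ℤ), Cusp L fun τ => u (g • τ)) (hS : Cj (σ : ℂ →+* ℂ) S S')
    (e : ∀ τ : ℍ, u τ = S (Function.Periodic.qParam L τ))
    (e' : ∀ τ : ℍ, u' τ = S' (Function.Periodic.qParam L τ)) :
    ∀ γ ∈ Gamma0 L, AE (fun τ => u' (γ • τ)) u' := by
  haveI : NeZero L := ⟨hL⟩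
  have hL' : (L : ℝ) ≠ 0 := by exact_mod_cast hL
  obtain ⟨x, -, h1, h2⟩ := exists_FF hL hu (fun γ hγ => hinv γ (G_le L hγ)) hc
  have h3 := h2 S ∅ hS.an countable_empty (Eventually.of_forall fun τ _ => e τ)
  have h4 := Cg.aut_fixed (H := ⊤) hL σ (x := x) (by
    rintro _ ⟨γ, hγ, rfl⟩
    exact h1 γ (hinv γ (Lv.GH_top (L := L) ▸ hγ)))
  obtain ⟨N, k, F, G, hN, hF, hG, hG0, hx⟩ := exists_quo_one (σ • x)
  have h5 : ∀ γ ∈ Gamma0 L, F ∣[k] γ = F := fun γ hγ => slash_eq_of_smul hN hF hG hG0 (by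
    rw [← hx]
    exact h4 _ ⟨γ, (Lv.GH_top (L := L)).symm ▸ hγ, rfl⟩)
  have hF' : IsF L k F := ⟨fun γ hγ => h5 γ (G_le L hγ), hF.holo, hF.bdd⟩
  have hG' : IsF L k G := hG.mono (one_dvd L)
  have h6 : qf F / qf G = tq L S' := by
    rw [← qx_quo hL hF' hG', ← hx, qx_aut, h3, tq, hm_hq hL, tq, hS.eq]
  rw [div_eq_iff (qf_ne_zero hL hG' hG0), qf_eq_tq hL hF', qf_eq_tq hL hG',
    ← tq_mul hS.an' hG'.analytic] at h6
  have h7 := Br.tay_inj hF'.analytic (hS.an'.mul hG'.analytic) (hq_injective hL h6)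
  have h8 : AE (G * u') F := by
    refine ae_of_infty ((mero_of_mdiff hG.holo).mul hu') (mero_of_mdiff hF.holo) ?_
    filter_upwards [((tend_q hL).mono_right nhdsWithin_le_nhds).eventually h7] with τ hτ
    rw [Pi.mul_apply, eq_cuspFunction τ hL' hF'.periodic, eq_cuspFunction τ hL' hG'.periodic] at hτ
    rw [hτ, Pi.mul_apply, e', mul_comm]
  intro γ hγ
  have h9 := h8.slash k γ
  rw [mul_slash', hG.slash_one_level, h5 γ hγ] at h9
  refine AE.of_sub ((h9.trans h8.symm).union (countable_zero hG.holo hG0)) fun τ hτ => ?_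
  simp only [mem_union, mem_setOf_eq, not_or, not_not, Pi.mul_apply] at hτ
  exact mul_left_cancel₀ hτ.2 hτ.1

/-! ### linear forms in the Mumford coordinates -/

lemma pick {ι : Type*} (I : Finset ι) (N : ℕ) (w : ℕ → ℂ) (v : ι → ℕ → ℂ)
    (h : ∀ m : ℕ, ∃ t ∈ I, ∑ n ∈ Finset.range N, w n * (m : ℂ) ^ n =
      ∑ n ∈ Finset.range N, v t n * (m : ℂ) ^ n) : ∃ t ∈ I, ∀ n < N, w n = v t n := by
  have h1 : ∏ t ∈ I, (∑ n ∈ Finset.range N, monomial n (w n - v t n) : ℂ[X]) = 0 := by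
    refine eq_zero_of_infinite_isRoot _ ((infinite_range_of_injective
      (Nat.cast_injective (R := ℂ))).mono ?_)
    rintro _ ⟨m, rfl⟩
    obtain ⟨t, ht, e⟩ := h m
    simp only [mem_setOf_eq, IsRoot.def, eval_prod]
    refine Finset.prod_eq_zero ht ?_
    simp only [eval_finsetSum, eval_monomial, sub_mul, Finset.sum_sub_distrib, e, sub_self]
  obtain ⟨t, ht, e⟩ := Finset.prod_eq_zero_iff.1 h1
  refine ⟨t, ht, fun n hn => ?_⟩
  have := congrArg (fun p : ℂ[X] => p.coeff n) e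
  simpa [finsetSum_coeff, coeff_monomial, hn, sub_eq_zero] using this

lemma pick' {ι : Type*} (I : Finset ι) (a b : ι → ℂ)
    (h : ∀ y : ℕ, ∏ t ∈ I, ((y : ℂ) - a t) = ∏ t ∈ I, ((y : ℂ) - b t)) {i : ι} (hi : i ∈ I) :
    ∃ t ∈ I, a i = b t := by
  have h1 : ∏ t ∈ I, (X - C (a t)) = ∏ t ∈ I, (X - C (b t)) := by
    refine eq_of_infinite_eval_eq _ _ ((infinite_range_of_injective
      (Nat.cast_injective (R := ℂ))).mono ?_)
    rintro _ ⟨y, rfl⟩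
    simpa [eval_prod] using h y
  have h2 := congrArg (eval (a i)) h1
  simp only [eval_prod, eval_sub, eval_X, eval_C] at h2
  rw [Finset.prod_eq_zero hi (sub_self _)] at h2
  obtain ⟨t, ht, e⟩ := Finset.prod_eq_zero_iff.1 h2.symm
  exact ⟨t, ht, sub_eq_zero.1 e⟩

section core

variable {A : Type*} [AddCommGroup A] {F : ℂ[X]} {g : ℕ} {cl : ℂ × ℂ → A}
  {ex : (Fin g → ℂ) →+ A}

/-- the Mumford coordinates -/
def co (F : ℂ[X]) (g : ℕ) (cl : ℂ × ℂ → A) (a : A) (n : ℕ) : ℂ :=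
  if n % 2 = 0 then (mum F g cl a).1.coeff (n / 2) else (mum F g cl a).2.coeff (n / 2)

/-- a linear form in the coordinates -/
def lm (F : ℂ[X]) (g : ℕ) (cl : ℂ × ℂ → A) (m : ℕ) (a : A) : ℂ :=
  ∑ n ∈ Finset.range (2 * g + 2), co F g cl a n * (m : ℂ) ^ n

lemma co_inj (hc : Cls F g cl) {a b : A} (ha : IsSum F cl a) (hb : IsSum F cl b)
    (h : ∀ n < 2 * g + 2, co F g cl a n = co F g cl b n) : a = b := by
  have ra := (hc.mum_spec ha).1
  have rb := (hc.mum_spec hb).1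
  have d2 : ∀ {u v : ℂ[X]}, Red F g u v → v.natDegree ≤ g := fun r =>
    (natDegree_le_natDegree r.lt.le).trans r.deg
  refine hc.mum_inj ha hb (Prod.ext ?_ ?_)
  · ext n
    by_cases hn : n ≤ g
    · have := h (2 * n) (by omega)
      simpa [co] using this
    · rw [coeff_eq_zero_of_natDegree_lt (ra.deg.trans_lt (not_le.1 hn)),
        coeff_eq_zero_of_natDegree_lt (rb.deg.trans_lt (not_le.1 hn))]
  · ext n
    by_cases hn : n ≤ g
    · have := h (2 * n + 1) (by omega)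
      have e1 : (2 * n + 1) % 2 ≠ 0 := by omega
      have e2 : (2 * n + 1) / 2 = n := by omega
      simpa only [co, if_neg e1, e2] using this
    · rw [coeff_eq_zero_of_natDegree_lt ((d2 ra).trans_lt (not_le.1 hn)),
        coeff_eq_zero_of_natDegree_lt ((d2 rb).trans_lt (not_le.1 hn))]

lemma lm_mero (hc : Cls F g cl) (hE : IsExp F g cl ex) {c : A} (hs : IsSum F cl c)
    {Φ : ℂ → Fin g → ℂ} {t₀ : ℂ} (hΦ : AnalyticAt ℂ Φ t₀) (m : ℕ) :
    MeromorphicAt (fun t => lm F g cl m (c + ex (Φ t))) t₀ := by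
  obtain ⟨P, hP⟩ := exists_gp F g
  obtain ⟨x, w, L, -⟩ := exists_locInv hc hE hP
  refine MeromorphicAt.fun_sum fun n _ => MeromorphicAt.fun_mul ?_ (MeromorphicAt.const _ _)
  simp only [co]
  split_ifs
  exacts [(L.fam hc hs hΦ _).1, (L.fam hc hs hΦ _).2]

lemma lm_cj (hc : Cls F g cl) (hE : IsExp F g cl ex) {s : ℂ →+* ℂ} (hF : F.map s = F)
    {T : A →+ A} (hT : ∀ a b, b ^ 2 = F.eval a → T (cl (a, b)) = cl (s a, s b)) {c : A}
    (hg : Good F g cl c) {Ψ : ℂ → Fin g → ℂ} (hΨ : AnalyticAt ℂ Ψ 0) (Ψ0 : Ψ 0 = 0)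
    (hs : ∀ k, PowerSeries.map s (tay fun q => Ψ q k) = tay fun q => Ψ q k) (m : ℕ) :
    Cj s (fun q => lm F g cl m (c + ex (Ψ q))) fun q => lm F g cl m (T c + ex (Ψ q)) := by
  obtain ⟨P, hP, rfl⟩ := hg
  have e : T (∑ j, cl (P j)) = ∑ j, cl (s (P j).1, s (P j).2) := by
    rw [map_sum]
    exact Finset.sum_congr rfl fun j _ => hT _ _ (hP.on j)
  rw [e]
  obtain ⟨h1, h2⟩ := form hc hE hF hP hΨ Ψ0 hs
  refine Cj.sum _ fun n _ => Cj.mul ?_ (Cj.const' (by simp))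
  simp only [co]
  split_ifs
  exacts [h1 _, h2 _]

lemma isSum_map {s : ℂ →+* ℂ} (hF : F.map s = F) {T : A →+ A}
    (hT : ∀ a b, b ^ 2 = F.eval a → T (cl (a, b)) = cl (s a, s b)) {c : A} (hg : Good F g cl c) :
    IsSum F cl (T c) := by
  obtain ⟨P, hP, rfl⟩ := hg
  have e : T (∑ j, cl (P j)) = ∑ j, cl (s (P j).1, s (P j).2) := by
    rw [map_sum]
    exact Finset.sum_congr rfl fun j _ => hT _ _ (hP.on j)
  rw [e]
  exact IsSum.sum (hP.map hF).on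

lemma fg_G0 (L : ℕ) [NeZero L] : Group.FG (Gamma0 L) := by
  haveI : Group.FG SL(2, ℤ) := Group.fg_iff.2
    ⟨{ModularGroup.S, ModularGroup.T}, SpecialLinearGroup.SL2Z_generators, toFinite _⟩
  infer_instance

/-- the period classes form a finite group -/
lemma exists_fin {L : ℕ} (hL : L ≠ 0) {w : SL(2, ℤ) → A}
    (hw : ∀ γ ∈ Gamma0 L, ∀ δ ∈ Gamma0 L, w (γ * δ) = w γ + w δ)
    (ht : ∀ γ ∈ Gamma0 L, ∃ m : ℕ, 0 < m ∧ m • w γ = 0) :
    ∃ I : Finset A, (∀ a, a ∈ I ↔ ∃ γ ∈ Gamma0 L, w γ = a) ∧ 0 ∈ I ∧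
      ∀ b ∈ I, ∀ a, a ∈ I ↔ a + b ∈ I := by
  haveI : NeZero L := ⟨hL⟩
  haveI := fg_G0 L
  let φ : Gamma0 L →* Multiplicative A :=
    MonoidHom.mk' (fun γ => Multiplicative.ofAdd (w γ)) fun γ δ => hw _ γ.2 _ δ.2
  haveI : Finite φ.range := CommGroup.finite_of_fg_isMulTorsion _ (by
    rintro ⟨_, γ, rfl⟩
    obtain ⟨m, hm, e⟩ := ht γ γ.2
    exact isOfFinOrder_iff_pow_eq_one.2 ⟨m, hm, Subtype.ext e⟩)
  have hf : {a : A | Multiplicative.ofAdd a ∈ φ.range}.Finite :=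
    (toFinite (φ.range : Set (Multiplicative A))).preimage Multiplicative.ofAdd.injective.injOn
  refine ⟨hf.toFinset, fun a => ?_, hf.mem_toFinset.2 φ.range.one_mem, fun b hb a => ?_⟩
  · rw [hf.mem_toFinset]
    exact ⟨fun ⟨γ, h⟩ => ⟨γ, γ.2, h⟩, fun ⟨γ, h1, h⟩ => ⟨⟨γ, h1⟩, h⟩⟩
  · rw [hf.mem_toFinset] at hb ⊢
    rw [hf.mem_toFinset]
    exact (Subgroup.mul_mem_cancel_right φ.range hb).symm

/-- **STAB**, for a map `Φ : ℍ → ℂ^g` -/
theorem core (hc : Cls F g cl) (hE : IsExp F g cl ex) (σ : ℂ ≃+* ℂ)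
    (hF : F.map (σ : ℂ →+* ℂ) = F) {T : A →+ A}
    (hT : ∀ a b, b ^ 2 = F.eval a → T (cl (a, b)) = cl (σ a, σ b)) {L : ℕ} (hL : L ≠ 0)
    {Φ : ℍ → Fin g → ℂ} (hΦ : ∀ τ : ℍ, AnalyticAt ℂ (Φ ∘ ofComplex) τ)
    {ω : SL(2, ℤ) → Fin g → ℂ} (hω : ∀ γ ∈ Gamma0 L, ∀ τ, Φ (γ • τ) = ω γ + Φ τ)
    (hcu : ∀ γ : SL(2, ℤ), ∃ Ψ : ℂ → Fin g → ℂ, AnalyticAt ℂ Ψ 0 ∧
      ∀ τ : ℍ, Φ (γ • τ) = Ψ (Function.Periodic.qParam L τ))
    {Ψ : ℂ → Fin g → ℂ} (hΨ : AnalyticAt ℂ Ψ 0) (Ψ0 : Ψ 0 = 0)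
    (e : ∀ τ : ℍ, Φ τ = Ψ (Function.Periodic.qParam L τ))
    (hs : ∀ k, PowerSeries.map (σ : ℂ →+* ℂ) (tay fun q => Ψ q k) = tay fun q => Ψ q k)
    (ht : ∀ γ ∈ Gamma0 L, ∃ m : ℕ, 0 < m ∧ m • ex (ω γ) = 0) :
    ∀ γ ∈ Gamma0 L, ∃ γ' ∈ Gamma0 L, T (ex (ω γ)) = ex (ω γ') := by
  classical
  obtain ⟨I, hI, I0, Ia⟩ := exists_fin hL (w := fun γ => ex (ω γ)) (fun γ hγ δ hδ => by
    have h1 := hω _ (mul_mem hγ hδ) UpperHalfPlane.I
    rw [mul_smul, hω γ hγ, hω δ hδ, ← add_assoc] at h1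
    rw [← add_right_cancel h1, map_add]) ht
  choose! r hr1 hr2 using fun a => (hI a).1
  obtain ⟨c, hcs, hcg⟩ := exists_good hc hE (I.image fun a => ω (r a))
  have hg : ∀ t ∈ I, Good F g cl (c + t) := fun t h =>
    hr2 t h ▸ hcg _ (Finset.mem_image_of_mem _ h)
  have hs' : ∀ t ∈ I, IsSum F cl (T (c + t)) := fun t h => isSum_map hF hT (hg t h)
  obtain ⟨P, hP⟩ := exists_gp F g
  obtain ⟨x, w, Lo, -⟩ := exists_locInv hc hE hP
  have mero : ∀ (b : A → A), (∀ t ∈ I, IsSum F cl (b t)) → ∀ (y m : ℕ) {Θ : ℂ → Fin g → ℂ}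
      {t₀ : ℂ}, AnalyticAt ℂ Θ t₀ →
      MeromorphicAt (fun q => ∏ t ∈ I, ((y : ℂ) - lm F g cl m (b t + ex (Θ q)))) t₀ :=
    fun b hb y m Θ t₀ hΘ => MeromorphicAt.fun_prod fun t h =>
      (MeromorphicAt.const _ _).fun_sub (lm_mero hc hE (hb t h) hΘ m)
  have key : ∀ (y m : ℕ), ∀ γ ∈ Gamma0 L,
      AE (fun τ => ∏ t ∈ I, ((y : ℂ) - lm F g cl m (T (c + t) + ex (Φ (γ • τ)))))
        fun τ => ∏ t ∈ I, ((y : ℂ) - lm F g cl m (T (c + t) + ex (Φ τ))) := fun y m =>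
    aut_inv hL σ (u := fun τ => ∏ t ∈ I, ((y : ℂ) - lm F g cl m (c + t + ex (Φ τ))))
      (u' := fun τ => ∏ t ∈ I, ((y : ℂ) - lm F g cl m (T (c + t) + ex (Φ τ))))
      (S := fun q => ∏ t ∈ I, ((y : ℂ) - lm F g cl m (c + t + ex (Ψ q))))
      (S' := fun q => ∏ t ∈ I, ((y : ℂ) - lm F g cl m (T (c + t) + ex (Ψ q))))
      (fun τ => mero (fun t => c + t) (fun t h => (hg t h).isSum) y m (hΦ τ))
      (fun τ => mero (fun t => T (c + t)) hs' y m (hΦ τ))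
      (fun γ hγ => AE.of_eq (funext fun τ => by
        refine Finset.prod_equiv (Equiv.addRight (ex (ω γ))) (Ia _ ((hI _).2 ⟨γ, hγ, rfl⟩))
          fun t _ => ?_
        rw [hω γ hγ, map_add, Equiv.coe_addRight]
        simp only [add_assoc]))
      (fun γ => by
        obtain ⟨Θ, h1, h2⟩ := hcu γ
        exact ⟨_, ∅, mero (fun t => c + t) (fun t h => (hg t h).isSum) y m h1, countable_empty,
          Eventually.of_forall fun τ _ => by simp only [h2]⟩)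
      (Cj.prod _ fun t h => (Cj.const' (map_natCast _ y)).sub
        (lm_cj hc hE hF hT (hg t h) hΨ Ψ0 hs m))
      (fun τ => by simp only [e]) fun τ => by simp only [e]
  have sub : I ⊆ I.image T := fun a ha => by
    obtain ⟨γ, hγ, rfl⟩ := (hI a).1 ha
    obtain ⟨τ, hτ⟩ := Br.ev_co_exists (Br.ev_co_all fun y => Br.ev_co_all fun m =>
      Br.ev_co.2 (key y m γ hγ))
    obtain ⟨t, h1, h2⟩ := pick I (2 * g + 2) (co F g cl (T (c + 0) + ex (Φ (γ • τ))))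
      (fun t => co F g cl (T (c + t) + ex (Φ τ))) fun m =>
        pick' I (fun t => lm F g cl m (T (c + t) + ex (Φ (γ • τ))))
          (fun t => lm F g cl m (T (c + t) + ex (Φ τ))) (fun y => hτ y m) I0
    have h3 := co_inj hc ((hs' 0 I0).add (Lo.isSum hc _)) ((hs' t h1).add (Lo.isSum hc _)) h2
    rw [hω γ hγ, map_add ex, add_zero, map_add, ← add_assoc] at h3
    exact Finset.mem_image.2 ⟨t, h1, (add_left_cancel (add_right_cancel h3)).symm⟩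
  have h4 := Finset.eq_of_subset_of_card_le sub Finset.card_image_le
  intro γ hγ
  obtain ⟨γ', h5, h6⟩ := (hI _).1 (h4 ▸ Finset.mem_image_of_mem T ((hI _).2 ⟨γ, hγ, rfl⟩) :
    T (ex (ω γ)) ∈ I)
  exact ⟨γ', h5, h6.symm⟩

lemma qf_QS {L : ℕ} (hL : L ≠ 0) {k : ℤ} {f : ℍ → ℂ} (hf : IsF L k f) {c : ℕ → ℂ}
    (h : Und.QS c f) : qf f = hq 1 (PowerSeries.mk c) := by
  refine qf_unique hL hf one_ne_zero (lev_hq one_ne_zero _) fun τ => ?_
  rw [hasSum_iff_lev one_ne_zero (lev_hq one_ne_zero _)]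
  convert h τ using 2 with n
  rw [coeff_hq one_ne_zero, PowerSeries.coeff_mk, ← ex_div, Mf.ex]
  simp

lemma tay_fixed {L : ℕ} (hL : L ≠ 0) {s : ℂ →+* ℂ} {Ψ : ℂ → ℂ} (hΨ : AnalyticAt ℂ Ψ 0)
    (Ψ0 : Ψ 0 = 0) (h : hm s (tq L (id * deriv Ψ)) = tq L (id * deriv Ψ)) :
    PowerSeries.map s (tay Ψ) = tay Ψ := by
  rw [tq, hm_hq hL, tay_mul analyticAt_id hΨ.deriv, tay_id, tay_deriv] at h
  have h1 := hq_injective hL h
  rw [map_mul, PowerSeries.map_X, map_derivative] at h1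
  refine PowerSeries.derivative.ext (mul_left_cancel₀ PowerSeries.X_ne_zero h1) ?_
  rw [← PowerSeries.coeff_zero_eq_constantCoeff_apply, PowerSeries.coeff_map,
    PowerSeries.coeff_zero_eq_constantCoeff_apply, constantCoeff_tay, Ψ0, map_zero]

/-- **STAB** -/
theorem stab (hc : Cls F g cl) (hE : IsExp F g cl ex) (σ : ℂ ≃+* ℂ)
    (hF : F.map (σ : ℂ →+* ℂ) = F) {T : A →+ A}
    (hT : ∀ a b, b ^ 2 = F.eval a → T (cl (a, b)) = cl (σ a, σ b)) {L : ℕ} (hL : L ≠ 0)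
    {c : ℕ → Fin g → ℂ} {h : Fin g → ℍ → ℂ}
    (hh : ∀ k, h k ∈ Esc.CS (Gamma0 L) 2 ∧ Und.QS (fun n => c n k) (h k))
    (hs : ∀ n k, σ (c n k) = c n k)
    (ht : ∀ γ ∈ Gamma0 L, ∃ m : ℕ, 0 < m ∧
      m • ex (fun k => 2 * π * Complex.I * Esc.per (h k) γ) = 0) :
    ∀ γ ∈ Gamma0 L, ∃ γ' ∈ Gamma0 L, T (ex fun k => 2 * π * Complex.I * Esc.per (h k) γ) =
      ex fun k => 2 * π * Complex.I * Esc.per (h k) γ' := by
  have h1 : ∀ k, h k ∈ Esc.CS (Gamma L) 2 := fun k => Esc.CS_anti (G_le L) (hh k).1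
  have hp : ∀ k, Esc.IsPrim ((2 * π * Complex.I : ℂ) • Esc.prim (h k))
      ((2 * π * Complex.I : ℂ) • h k) := fun k => (Esc.isPrim_prim (h1 k).1).smul _
  choose Ψ hΨ e using fun γ k => exists_Psi hL (Submodule.smul_mem _ _ (h1 k)) (hp k) γ
  have e1 : ∀ k (τ : ℍ), ((2 * π * Complex.I : ℂ) • Esc.prim (h k)) τ =
      Ψ 1 k (Function.Periodic.qParam L τ) := fun k τ => by simpa only [one_smul] using e 1 k τ
  refine core hc hE σ hF hT hL
    (Φ := fun τ k => ((2 * π * Complex.I : ℂ) • Esc.prim (h k)) τ - Ψ 1 k 0)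
    (ω := fun γ k => 2 * π * Complex.I * Esc.per (h k) γ) (Ψ := fun q k => Ψ 1 k q - Ψ 1 k 0)
    (fun τ => analyticAt_pi_iff.2 fun k => (an_of_mdiff (hp k).mdiff τ).sub analyticAt_const)
    (fun γ hγ τ => funext fun k => ?_)
    (fun γ => ⟨fun q k => Ψ γ k q - Ψ 1 k 0,
      analyticAt_pi_iff.2 fun k => (hΨ γ k).sub analyticAt_const, fun τ => by simp only [e]⟩)
    (analyticAt_pi_iff.2 fun k => (hΨ 1 k).sub analyticAt_const) (funext fun k => sub_self _)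
    (fun τ => by simp only [e1]) (fun k => ?_) ht
  · simp only [Pi.smul_apply, smul_eq_mul, Pi.add_apply,
      Esc.per_SL (Esc.isPrim_prim (h1 k).1) ((hh k).1.2.1 γ hγ)]
    ring
  · refine tay_fixed hL ((hΨ 1 k).sub analyticAt_const) (sub_self _) ?_
    rw [deriv_sub_const_fun, th_tq_Psi hL (isF_of_CS (h1 k)) (hp k) (hΨ 1 k) (e1 k), map_mul,
      qf_QS hL (isF_of_CS (h1 k)) (hh k).2, hm_hq one_ne_zero, ← hq_C one_ne_zero,
      hm_hq one_ne_zero, PowerSeries.map_C, map_natCast]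
    congr 2
    ext n
    simp [hs]

end core

end Crest.Agent.T15.Stab
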