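import Crest.Agent.T15.ModD_53
import Crest.Agent.T15.StabB_17
import Crest.Agent.T15.HtDef_95

/-!
# Row 15, block Ht: the leaves SCAL and VAL (helper4; wrappers of `ModD_53`)
-/

set_option autoImplicit false
set_option linter.all false

namespace Crest.Agent.T15.Ht

open CongruenceSubgroup Crest.Agent.T15.Hs Crest.Agent.T15.Mf Crest.Agent.T15.Mod

/-- **leaf VAL** -/
theorem valStmt_4 : ValStmt := fun _ hl => exists_val hl

/-- **leaf SCAL** -/
theorem scalStmt_4 : ScalStmt := by
  intro c0 a1 a2 a3 A _ cl ex L c h lt hL hh ⟨S, hS, hc⟩ hper v n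
  have hL0 : L ≠ 0 := by omega
  have hcs : ∀ k, h k ∈ Esc.CS (Gamma L) 2 := fun k => Esc.CS_anti (Stab.G_le L) (hh k).1
  have e := Stab.qf_QS hL0 (isF_of_CS (hcs 1)) (hh 1).2
  have e1 : (qf (h 1)).coeff (n : ℚ) = c n 1 := by
    have := coeff_hq one_ne_zero (PowerSeries.mk fun n => c n 1) n
    rw [Nat.cast_one, div_one, PowerSeries.coeff_mk] at this
    rw [e, this]
  have := scal_mod lt.cls lt.exp rfl hL hcs (fun γ hγ => hper γ (Stab.G_le L hγ))
    (by rw [e]; exact (hq_mem one_ne_zero hS fun n => by simpa using hc n).1) v n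
  rwa [e1] at this

end Crest.Agent.T15.Ht
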