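import Crest.Agent.T15.HtG_4
import Crest.Agent.T15.Scal_4
import Crest.Agent.T15.JcG_28
import Crest.Agent.T15.SmB_98
import Crest.Agent.T15.Dep_98
import Crest.Agent.T15.Per_98
import Crest.Agent.T15.End_55
import Crest.Agent.T15.Gal_31
import Crest.Agent.T15.StabC_17
import Crest.Agent.T15.KfX_23

/-!
# Row 15, block Ht (helper4): the block from the leaves which are still open
-/

set_option autoImplicit false

namespace Crest.Agent.T15.Ht

theorem htStmt_of (del : ℚ) (hMat : MatStmt) (hIrr : IrrStmt) (hBr : BrStmt) (hCov : CovStmt del)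
    (hArch : ArchStmt) (hRat : RatStmt) (hHon : HondaStmt) : Top.HtStmt (Lk del) :=
  htGlue del galStmt SmB.intStmt_98 hRat SmB.smStmt_98 hHon
    (jcGlue KfJ.exStmt galStmt moStmt hMat endStmt hIrr) depStmt hBr perStmt Stab.stabStmt
    scalStmt_4 valStmt_4 hCov hArch

end Crest.Agent.T15.Ht
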