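import Crest.Agent.T15.LatA_58

/-!
# Row 15, block Ht (helper58): lattice comparison (the "cyclic part")
-/

set_option autoImplicit false
set_option linter.unusedSectionVars false

noncomputable section

namespace Crest.Agent.T15.Lat

open Matrix

section mod
variable {V Jac Γ : Type*} [AddCommGroup V] [Module ℚ V] [Module (ℤ√3) V] [SMulCommClass ℚ (ℤ√3) V]
  [AddCommGroup Jac] [Group Γ] [DistribMulAction Γ Jac]

lemma int_smul (n : ℤ) (v : V) : (n : ℤ√3) • v = (n : ℚ) • v := by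
  rw [Int.cast_smul_eq_zsmul, Int.cast_smul_eq_zsmul]

lemma nat_smul (n : ℕ) (v : V) : (n : ℤ√3) • v = (n : ℚ) • v := by
  rw [Nat.cast_smul_eq_nsmul, Nat.cast_smul_eq_nsmul]

lemma norm_smul' (z : ℤ√3) (v : V) : star z • z • v = (z.norm : ℚ) • v := by
  rw [smul_smul, mul_comm, ← Zsqrtd.norm_eq_mul_conj, int_smul]

lemma tf {z : ℤ√3} {v : V} (hz : z ≠ 0) (h : z • v = 0) : v = 0 := by
  have := norm_smul' z v
  rw [h, smul_zero] at this
  have hN : (z.norm : ℚ) ≠ 0 := by exact_mod_cast norm_ne hz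
  exact (smul_eq_zero.mp this.symm).resolve_left hN

lemma smul_decomp (z : ℤ√3) (v : V) : z • v = z.re • v + z.im • (Zsqrtd.sqrtd : ℤ√3) • v := by
  have e : z = (z.re : ℤ√3) + (z.im : ℤ√3) * Zsqrtd.sqrtd := by ext <;> simp
  conv_lhs => rw [e]
  rw [add_smul, mul_smul, Int.cast_smul_eq_zsmul, Int.cast_smul_eq_zsmul]

lemma crt (Λ I : Submodule (ℤ√3) V) (y : V) (hy : y ∈ Λ)
    (h : ∀ l e : ℕ, l.Prime → ∃ i ∈ I, ∃ x ∈ Λ, y = i + ((l ^ e : ℕ) : ℤ√3) • x) :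
    ∀ n : ℕ, 0 < n → ∃ i ∈ I, ∃ x ∈ Λ, y = i + (n : ℤ√3) • x := by
  intro n
  induction n using Nat.recOnPosPrimePosCoprime with
  | zero => intro h; omega
  | one => intro _; exact ⟨0, I.zero_mem, y, hy, by simp⟩
  | prime_pow p n hp _ => intro _; exact h p n hp
  | coprime a b ha hb hab iha ihb =>
    intro _
    obtain ⟨i1, hi1, x1, hx1, e1⟩ := iha (by omega)
    obtain ⟨i2, hi2, x2, hx2, e2⟩ := ihb (by omega)
    obtain ⟨u, v, huv⟩ : IsCoprime (a : ℤ√3) (b : ℤ√3) := Nat.Coprime.cast hab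
    refine ⟨(u * a) • i2 + (v * b) • i1, I.add_mem (I.smul_mem _ hi2) (I.smul_mem _ hi1),
      u • x2 + v • x1, Λ.add_mem (Λ.smul_mem _ hx2) (Λ.smul_mem _ hx1), ?_⟩
    have : y = (u * a) • y + (v * b) • y := by rw [← add_smul, huv, one_smul]
    conv_lhs => rw [this]
    nth_rewrite 1 [e2]
    nth_rewrite 1 [e1]
    push_cast
    module

/-- the comparison theorem for `ℤ[√3]`-modules -/
theorem lat_mod (ex : V →+ Jac) (Λ I1 : Submodule (ℤ√3) V) (b : Module.Basis (Fin 2) (ℤ√3) Λ)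
    (hker : ∀ v, ex v = 0 ↔ v ∈ Λ) (jj : Jac →+ Jac)
    (hjj : ∀ v, jj (ex v) = ex ((Zsqrtd.sqrtd : ℤ√3) • v))
    (hcomm : ∀ (g : Γ) x, g • jj x = jj (g • x)) {k : ℕ} (hk : 0 < k)
    (hk1 : ∀ v ∈ I1, (k : ℤ√3) • v ∈ Λ) (hk2 : ∀ x ∈ Λ, (k : ℤ√3) • x ∈ I1)
    (stab : ∀ (c : ℚ) (z : ℤ√3) (g : Γ), ∀ v ∈ I1, ∃ v' ∈ I1, g • ex (c • z • v) = ex (c • z • v'))
    (irr : ∀ l e : ℕ, l.Prime → ∃ σ τ : Γ, ∀ x ∈ Λ,
      σ • σ • ex (((l : ℚ) ^ e)⁻¹ • x) = - ex (((l : ℚ) ^ e)⁻¹ • x) ∧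
      τ • σ • ex (((l : ℚ) ^ e)⁻¹ • x) = - (σ • τ • ex (((l : ℚ) ^ e)⁻¹ • x))) :
    ∃ (c : ℚ) (z : ℤ√3), (∀ v ∈ I1, c • z • v ∈ Λ) ∧
      ∀ x ∈ Λ, ∃ v ∈ I1, (64 : ℚ) • x = c • z • v := by
  have hkQ : (k : ℚ) ≠ 0 := by positivity
  have hkO : (k : ℤ√3) ≠ 0 := by exact_mod_cast hk.ne'
  -- coordinates
  let emb : (Fin 2 → ℤ√3) →ₗ[ℤ√3] V := Λ.subtype ∘ₗ b.equivFun.symm.toLinearMap
  have emb_mem : ∀ u, emb u ∈ Λ := fun u => (b.equivFun.symm u).2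
  have emb_sur : ∀ x ∈ Λ, ∃ u, emb u = x := fun x hx => ⟨b.equivFun ⟨x, hx⟩, by simp [emb]⟩
  have emb_inj : Function.Injective emb := Λ.injective_subtype.comp b.equivFun.symm.injective
  -- the content ideal
  obtain ⟨a, ha⟩ := (IsPrincipalIdealRing.principal
    (Ideal.span {a | ∃ u, (∃ v ∈ I1, emb u = (k : ℤ√3) • v) ∧ ∃ i, u i = a})).principal
  have hdiv : ∀ u, (∃ v ∈ I1, emb u = (k : ℤ√3) • v) → ∃ u', u = a • u' := by
    intro u hu
    have : ∀ i, ∃ c, u i = a * c := fun i => by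
      have : u i ∈ Ideal.span {a | ∃ u, (∃ v ∈ I1, emb u = (k : ℤ√3) • v) ∧ ∃ i, u i = a} :=
        Ideal.subset_span ⟨u, hu, i, rfl⟩
      rw [ha] at this
      exact Ideal.mem_span_singleton.mp this
    choose c hc using this
    exact ⟨c, funext hc⟩
  have ha0 : a ≠ 0 := by
    rintro rfl
    obtain ⟨u', hu'⟩ := hdiv ((k : ℤ√3) • (k : ℤ√3) • fun _ => 1)
      ⟨_, hk2 _ (emb_mem fun _ => 1), by simp⟩
    have := congrFun hu' 0
    simp [hkO] at this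
  have hN : (a.norm : ℚ) ≠ 0 := by exact_mod_cast norm_ne ha0
  set c : ℚ := k / a.norm with hc
  -- the scaling map
  let β : V →ₗ[ℤ√3] V :=
    { toFun := fun v => c • star a • v
      map_add' := fun v w => by rw [smul_add, smul_add]
      map_smul' := fun r v => by
        rw [RingHom.id_apply, smul_comm (star a) r v, smul_comm c r] }
  have hβ : ∀ v, β v = c • star a • v := fun v => rfl
  have hβ1 : ∀ v u', emb (a • u') = (k : ℤ√3) • v → β v = emb u' := by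
    intro v u' h
    rw [map_smul, nat_smul] at h
    have e : v = (k : ℚ)⁻¹ • a • emb u' := by rw [h, smul_smul, inv_mul_cancel₀ hkQ, one_smul]
    rw [hβ, e, ← smul_comm (k : ℚ)⁻¹ (star a), norm_smul', smul_smul, smul_smul, hc]
    field_simp
    simp
  have hβΛ : ∀ v ∈ I1, β v ∈ Λ := by
    intro v hv
    obtain ⟨u, hu⟩ := emb_sur _ (hk1 v hv)
    obtain ⟨u', rfl⟩ := hdiv u ⟨v, hv, hu⟩
    rw [hβ1 v u' hu]; exact emb_mem _
  let I : Submodule (ℤ√3) V := I1.map β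
  have hβk : ∀ x ∈ Λ, ((k * k : ℕ) : ℤ√3) • x ∈ I := by
    intro x hx
    refine ⟨(k : ℤ√3) • a • x, hk2 _ (Λ.smul_mem _ hx), ?_⟩
    rw [map_smul, hβ, norm_smul', smul_smul c, hc, div_mul_cancel₀ _ hN, ← nat_smul, smul_smul]
    push_cast; rfl
  have hprim : (1 : ℤ√3) ∈ Ideal.span {a | ∃ u, emb u ∈ I ∧ ∃ i, u i = a} := by
    have h1 : Ideal.span {a | ∃ u, (∃ v ∈ I1, emb u = (k : ℤ√3) • v) ∧ ∃ i, u i = a}
        ≤ Ideal.span {a} * Ideal.span {a | ∃ u, emb u ∈ I ∧ ∃ i, u i = a} := by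
      rw [Ideal.span_le]
      rintro _ ⟨u, ⟨v, hv, hu⟩, i, rfl⟩
      obtain ⟨u', rfl⟩ := hdiv u ⟨v, hv, hu⟩
      refine Ideal.mul_mem_mul (Ideal.mem_span_singleton_self a)
        (Ideal.subset_span ⟨u', ⟨v, hv, hβ1 v u' hu⟩, i, rfl⟩)
    have h2 : a ∈ Ideal.span {a} * Ideal.span {a | ∃ u, emb u ∈ I ∧ ∃ i, u i = a} :=
      h1 (by rw [ha]; exact Ideal.mem_span_singleton_self a)
    obtain ⟨s, hs, hs'⟩ := Ideal.mem_span_singleton_mul.mp h2
    have : s = 1 := mul_left_cancel₀ ha0 (by rw [hs', mul_one])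
    rwa [this] at hs
  -- one prime power
  have hpp : ∀ x ∈ Λ, ∀ l e : ℕ, l.Prime →
      ∃ i ∈ I, ∃ x' ∈ Λ, (64 : ℤ√3) • x = i + ((l ^ e : ℕ) : ℤ√3) • x' := by
    intro x hx l e hl
    obtain ⟨σ, τ, hστ⟩ := irr l e hl
    set m : ℕ := l ^ e with hm
    have hmq : ((l : ℚ) ^ e) = m := by rw [hm]; push_cast; rfl
    rw [hmq] at hστ
    have hm0 : (m : ℚ) ≠ 0 := by have := hl.pos; positivity
    let E : (Fin 2 → ℤ√3) →+ Jac :=
      { toFun := fun u => ex ((m : ℚ)⁻¹ • emb u)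
        map_zero' := by simp
        map_add' := fun u w => by rw [map_add, smul_add, map_add] }
    have hE : ∀ u, E u = ex ((m : ℚ)⁻¹ • emb u) := fun u => rfl
    have hE0 : ∀ u, E u = 0 ↔ ∃ u', u = (m : ℤ√3) • u' := by
      intro u
      rw [hE, hker]
      constructor
      · intro h
        obtain ⟨u', hu'⟩ := emb_sur _ h
        refine ⟨u', emb_inj ?_⟩
        rw [map_smul, hu', nat_smul, smul_smul, mul_inv_cancel₀ hm0, one_smul]
      · rintro ⟨u', rfl⟩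
        rw [map_smul, nat_smul, smul_smul, inv_mul_cancel₀ hm0, one_smul]
        exact emb_mem _
    have hEs : ∀ (z : ℤ√3) u, E (z • u) = z.re • E u + z.im • jj (E u) := by
      intro z u
      rw [hE, hE, emb.map_smul, smul_comm (m : ℚ)⁻¹ z, smul_decomp, map_add, map_zsmul, map_zsmul,
        hjj]
    have hlift : ∀ (g : Γ) u, ∃ u', g • E u = E u' := by
      intro g u
      obtain ⟨v', _, h⟩ := stab ((m : ℚ)⁻¹ * (k : ℚ)⁻¹) 1 g _ (hk2 _ (emb_mem u))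
      have e1 : ((m : ℚ)⁻¹ * (k : ℚ)⁻¹) • (1 : ℤ√3) • (k : ℤ√3) • emb u = (m : ℚ)⁻¹ • emb u := by
        rw [one_smul, nat_smul, smul_smul, mul_assoc, inv_mul_cancel₀ hkQ, mul_one]
      rw [e1, ← hE, one_smul] at h
      have e2 : ex ((k : ℚ)⁻¹ • v') = 0 := by
        have e3 : (k : ℚ)⁻¹ • v' = m • (((m : ℚ)⁻¹ * (k : ℚ)⁻¹) • v') := by
          rw [← Nat.cast_smul_eq_nsmul ℚ, smul_smul, ← mul_assoc, mul_inv_cancel₀ hm0, one_mul]
        rw [e3, map_nsmul, ← h, ← smul_comm, ← map_nsmul, (hE0 _).mpr ⟨u, ?_⟩, smul_zero]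
        rw [Nat.cast_smul_eq_nsmul]
      obtain ⟨u', hu'⟩ := emb_sur _ ((hker _).mp e2)
      exact ⟨u', by rw [h, hE, hu', smul_smul]⟩
    have hmat : ∀ g : Γ, ∃ M : Matrix (Fin 2) (Fin 2) (ℤ√3), ∀ u, g • E u = E (M *ᵥ u) := by
      intro g
      choose y hy using fun j : Fin 2 => hlift g (Pi.single j 1)
      refine ⟨Matrix.of fun i j => y j i, fun u => ?_⟩
      have e1 : u = u 0 • Pi.single 0 1 + u 1 • Pi.single 1 1 := by
        ext i : 1; fin_cases i <;> simp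
      have e2 : (Matrix.of fun i j => y j i) *ᵥ u = u 0 • y 0 + u 1 • y 1 := by
        ext i : 1; simp [mulVec, dotProduct, Fin.sum_univ_two, mul_comm]
      rw [e2, map_add, hEs, hEs, ← hy, ← hy]
      conv_lhs => rw [e1]
      rw [map_add, hEs, hEs]
      simp only [smul_add, smul_comm g (_ : ℤ), hcomm]
    have hdvd : ∀ M : Matrix (Fin 2) (Fin 2) (ℤ√3), (∀ u, E (M *ᵥ u) = 0) →
        ∀ i j, (m : ℤ√3) ∣ M i j := by
      intro M h i j
      obtain ⟨u', hu'⟩ := (hE0 _).mp (h (Pi.single j 1))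
      have := congrFun hu' i
      simp only [mulVec_single, MulOpposite.op_one, one_smul, Pi.smul_apply, smul_eq_mul] at this
      exact ⟨u' i, this⟩
    obtain ⟨X, hX⟩ := hmat σ
    obtain ⟨Y, hY⟩ := hmat τ
    obtain ⟨Z, hZ⟩ := hmat τ⁻¹
    let N : Submodule (ℤ√3) (Fin 2 → ℤ√3) := (I ⊔ Λ.map (LinearMap.lsmul _ V (m : ℤ√3))).comap emb
    have hN' : ∀ u, u ∈ N ↔ ∃ i ∈ I, ∃ x' ∈ Λ, emb u = i + (m : ℤ√3) • x' := by
      intro u
      simp only [N, Submodule.mem_comap, Submodule.mem_sup, Submodule.mem_map,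
        LinearMap.lsmul_apply]
      constructor
      · rintro ⟨i, hi, _, ⟨x', hx', rfl⟩, h⟩; exact ⟨i, hi, x', hx', h.symm⟩
      · rintro ⟨i, hi, x', hx', h⟩; exact ⟨i, hi, _, ⟨x', hx', rfl⟩, h.symm⟩
    have hst : ∀ (g : Γ) (M : Matrix (Fin 2) (Fin 2) (ℤ√3)), (∀ u, g • E u = E (M *ᵥ u)) →
        ∀ u ∈ N, M *ᵥ u ∈ N := by
      intro g M hM u hu
      obtain ⟨_, ⟨v, hv, rfl⟩, x', hx', h⟩ := (hN' u).mp hu
      obtain ⟨v', hv', h'⟩ := stab ((m : ℚ)⁻¹ * c) (star a) g v hv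
      obtain ⟨w, hw⟩ := emb_sur _ (hβΛ v' hv')
      have e1 : E u = ex (((m : ℚ)⁻¹ * c) • star a • v) := by
        rw [hE, h, smul_add, map_add, nat_smul, smul_smul (m : ℚ)⁻¹ (m : ℚ), inv_mul_cancel₀ hm0,
          one_smul, (hker _).mpr hx', add_zero, hβ, smul_smul]
      have e2 : E w = ex (((m : ℚ)⁻¹ * c) • star a • v') := by rw [hE, hw, hβ, smul_smul]
      have e3 : E (M *ᵥ u - w) = 0 := by rw [map_sub, ← hM, e1, h', e2, sub_self]
      obtain ⟨u', hu'⟩ := (hE0 _).mp e3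
      refine (hN' _).mpr ⟨β v', ⟨v', hv', rfl⟩, emb u', emb_mem _, ?_⟩
      rw [← hw, ← map_smul, ← hu', map_sub]; abel
    obtain ⟨u, rfl⟩ := emb_sur x hx
    have := core_prim (m : ℤ√3) X Y Z
      (hdvd _ fun u => by
        rw [add_mulVec, one_mulVec, map_add, ← mulVec_mulVec, ← hX, ← hX, hE,
          (hστ _ (emb_mem u)).1, neg_add_cancel])
      (hdvd _ fun u => by
        rw [add_mulVec, map_add, ← mulVec_mulVec, ← mulVec_mulVec, ← hY, ← hX, ← hX, ← hY, hE,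
          (hστ _ (emb_mem u)).2, neg_add_cancel])
      (hdvd _ fun u => by
        rw [sub_mulVec, one_mulVec, map_sub, ← mulVec_mulVec, ← hZ, ← hY, inv_smul_smul,
          sub_self])
      N (fun v => (hN' _).mpr ⟨0, I.zero_mem, emb v, emb_mem _, by simp⟩)
      (hst σ X hX) (hst τ Y hY)
      (Ideal.span_mono (by
        rintro _ ⟨u, hu, i, rfl⟩
        exact ⟨u, (hN' _).mpr ⟨_, hu, 0, Λ.zero_mem, by simp⟩, i, rfl⟩) hprim) u
    rw [hN', map_smul] at this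
    exact this
  refine ⟨c, star a, hβΛ, fun x hx => ?_⟩
  obtain ⟨i, hi, x', hx', h⟩ := crt Λ I _ (Λ.smul_mem 64 hx) (hpp x hx) (k * k) (by positivity)
  obtain ⟨v, hv, hv'⟩ : (64 : ℤ√3) • x ∈ I := by rw [h]; exact I.add_mem hi (hβk x' hx')
  refine ⟨v, hv, ?_⟩
  rw [← hβ, hv']
  exact (nat_smul 64 x).symm

end mod

section main
variable {V Jac Γ : Type*} [AddCommGroup V] [Module ℚ V]
  [AddCommGroup Jac] [Group Γ] [DistribMulAction Γ Jac]

/-- the action of `ℤ[√3]` given by an operator with `J² = 3` -/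
def act (J : V →ₗ[ℚ] V) (hJ : ∀ v, J (J v) = (3 : ℚ) • v) : ℤ√3 →+* Module.End ℚ V where
  toFun z := (z.re : ℚ) • 1 + (z.im : ℚ) • J
  map_one' := by simp
  map_zero' := by simp
  map_add' z w := by simp only [Zsqrtd.re_add, Zsqrtd.im_add, Int.cast_add]; module
  map_mul' z w := by
    ext v
    simp only [Zsqrtd.re_mul, Zsqrtd.im_mul, LinearMap.add_apply, LinearMap.smul_apply,
      Module.End.one_apply, Module.End.mul_apply, map_add, map_smul, hJ]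
    push_cast
    module

/-- **Lattice comparison.** -/
theorem lat (ex : V →+ Jac) (Λ I0 : Submodule ℤ V) [Module.Finite ℤ Λ]
    (hrk : Module.finrank ℤ Λ = 4) (hker : ∀ v, ex v = 0 ↔ v ∈ Λ)
    (J : V →ₗ[ℚ] V) (hJ : ∀ v, J (J v) = (3 : ℚ) • v) (jj : Jac →+ Jac)
    (hjj : ∀ v, jj (ex v) = ex (J v)) (hcomm : ∀ (g : Γ) x, g • jj x = jj (g • x))
    {k : ℕ} (hk : 0 < k) (hk1 : ∀ v ∈ I0, (k : ℚ) • v ∈ Λ)
    (hk2 : ∀ x ∈ Λ, ∃ v ∈ I0, ∃ w ∈ I0, (k : ℚ) • x = v + J w)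
    (stab : ∀ (a b : ℚ) (g : Γ), ∀ v ∈ I0, ∃ v' ∈ I0,
      g • ex (a • v + b • J v) = ex (a • v' + b • J v'))
    (irr : ∀ l e : ℕ, l.Prime → ∃ σ τ : Γ, ∀ x ∈ Λ,
      σ • σ • ex (((l : ℚ) ^ e)⁻¹ • x) = - ex (((l : ℚ) ^ e)⁻¹ • x) ∧
      τ • σ • ex (((l : ℚ) ^ e)⁻¹ • x) = - (σ • τ • ex (((l : ℚ) ^ e)⁻¹ • x))) :
    ∃ a b : ℚ, (∀ v ∈ I0, a • v + b • J v ∈ Λ) ∧
      ∀ x ∈ Λ, ∃ v ∈ I0, ∃ w ∈ I0,
        (64 : ℚ) • x = a • (v + J w) + b • J (v + J w) := by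
  let _ : Module (ℤ√3) V := Module.compHom V (act J hJ)
  have hs : ∀ (z : ℤ√3) (v : V), z • v = (z.re : ℚ) • v + (z.im : ℚ) • J v := fun z v => rfl
  have : SMulCommClass ℚ (ℤ√3) V := ⟨fun c z v => by
    rw [hs, hs, map_smul]; module⟩
  have hJΛ : ∀ x ∈ Λ, J x ∈ Λ := fun x hx => by
    rw [← hker, ← hjj, (hker x).mpr hx, map_zero]
  have zs : ∀ (S : Submodule ℤ V) (n : ℤ) v, v ∈ S → (n : ℚ) • v ∈ S := fun S n v hv => by
    rw [Int.cast_smul_eq_zsmul]; exact S.smul_mem n hv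
  let ΛO : Submodule (ℤ√3) V :=
    { carrier := Λ
      zero_mem' := Λ.zero_mem
      add_mem' := Λ.add_mem
      smul_mem' := fun z v hv => by
        rw [hs]; exact Λ.add_mem (zs _ _ _ hv) (zs _ _ _ (hJΛ v hv)) }
  let I1 : Submodule (ℤ√3) V :=
    { carrier := {y | ∃ v ∈ I0, ∃ w ∈ I0, y = v + J w}
      zero_mem' := ⟨0, I0.zero_mem, 0, I0.zero_mem, by simp⟩
      add_mem' := by
        rintro _ _ ⟨v, hv, w, hw, rfl⟩ ⟨v', hv', w', hw', rfl⟩
        exact ⟨v + v', I0.add_mem hv hv', w + w', I0.add_mem hw hw', by rw [map_add]; abel⟩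
      smul_mem' := by
        rintro z _ ⟨v, hv, w, hw, rfl⟩
        refine ⟨(z.re : ℚ) • v + ((3 * z.im : ℤ) : ℚ) • w, I0.add_mem (zs _ _ _ hv) (zs _ _ _ hw),
          (z.re : ℚ) • w + (z.im : ℚ) • v, I0.add_mem (zs _ _ _ hw) (zs _ _ _ hv), ?_⟩
        rw [hs]
        simp only [map_add, map_smul, hJ]
        push_cast
        module }
  let eq : ΛO ≃ₗ[ℤ] Λ :=
    { toFun := fun x => ⟨x.1, x.2⟩
      invFun := fun x => ⟨x.1, x.2⟩
      map_add' := fun _ _ => rfl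
      map_smul' := fun _ _ => rfl
      left_inv := fun _ => rfl
      right_inv := fun _ => rfl }
  have : Module.Finite ℤ ΛO := Module.Finite.equiv eq.symm
  have : Module.Finite (ℤ√3) ΛO := Module.Finite.of_restrictScalars_finite ℤ _ _
  have : Module.IsTorsionFree (ℤ√3) ΛO := by
    refine Module.IsTorsionFree.of_smul_eq_zero (fun z x h => ?_)
    by_cases hz : z = 0
    · exact Or.inl hz
    · exact Or.inr (Subtype.ext (tf hz (congrArg Subtype.val h)))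
  have hr : Module.finrank (ℤ√3) ΛO = 2 := by
    have h1 := Module.finrank_mul_finrank ℤ (ℤ√3) ΛO
    rw [finrank_O, eq.finrank_eq, hrk] at h1
    omega
  let b : Module.Basis (Fin 2) (ℤ√3) ΛO := Module.finBasisOfFinrankEq _ _ hr
  have hsq : ∀ v : V, (Zsqrtd.sqrtd : ℤ√3) • v = J v := fun v => by rw [hs]; simp
  obtain ⟨c, z, h1, h2⟩ := lat_mod (Γ := Γ) ex ΛO I1 b hker jj (fun v => by rw [hsq, hjj]) hcomm hk
    (by
      rintro _ ⟨v, hv, w, hw, rfl⟩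
      rw [nat_smul, smul_add, ← map_smul]
      exact Λ.add_mem (hk1 v hv) (hJΛ _ (hk1 w hw)))
    (fun x hx => by rw [nat_smul]; exact hk2 x hx)
    (by
      rintro c z g _ ⟨v, hv, w, hw, rfl⟩
      obtain ⟨v', hv', e1⟩ := stab (c * z.re) (c * z.im) g v hv
      obtain ⟨w', hw', e2⟩ := stab (c * z.re) (c * z.im) g w hw
      have e : ∀ v w : V, c • z • (v + J w) = ((c * z.re) • v + (c * z.im) • J v)
          + J ((c * z.re) • w + (c * z.im) • J w) := by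
        intro v w
        rw [hs]; simp only [map_add, map_smul]; module
      refine ⟨v' + J w', ⟨v', hv', w', hw', rfl⟩, ?_⟩
      rw [e, e, ex.map_add _ (J _), ex.map_add _ (J _), ← hjj, ← hjj, smul_add, hcomm, e1, e2])
    irr
  refine ⟨c * z.re, c * z.im, fun v hv => ?_, fun x hx => ?_⟩
  · have := h1 v ⟨v, hv, 0, I0.zero_mem, by simp⟩
    rw [hs, smul_add, smul_smul, smul_smul] at this
    exact this
  · obtain ⟨_, ⟨v, hv, w, hw, rfl⟩, h⟩ := h2 x hx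
    exact ⟨v, hv, w, hw, by rw [h, hs, smul_add, smul_smul, smul_smul]⟩

end main

end Crest.Agent.T15.Lat
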