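import Crest.Agent.T15.HtDef_95
import Crest.Agent.T15.LatB_58

/-!
# Row 15, block Ht (helper4): lemmas for the final assembly `HtGlue`
-/

set_option autoImplicit false
set_option linter.all false

noncomputable section

namespace Crest.Agent.T15.HtG

open Polynomial Matrix CongruenceSubgroup
open scoped NNReal MatrixGroups UpperHalfPlane
open Crest.Agent.T15.Ht
open Crest.Agent.T15.C (Om Gam)
open Crest.Agent.T15.Top (Plc IsFr Mod)
open Crest.Agent.T15.Mo (Par)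
open Crest.Agent.T15.Esc (CS per)
open Crest.Agent.T15.Und (QS)
open Crest.Agent.T15.Ar (Cert)

/-! ### algebra of the plane -/

section alg

variable {R S : Type*} [Field R] [Field S]

theorem emb_apply (P : Par R) (x : Fin 2 → R) : emb P x = x 0 • v1 P + x 1 • v3 P := rfl

theorem map_Mx (P : Par R) (f : R →+* S) (i j : Fin 3) : Mx (P.map f) i j = f (Mx P i j) := by
  fin_cases i <;> fin_cases j <;> simp [Mx, map_ofNat]

theorem map_v1 (P : Par R) (f : R →+* S) (i : Fin 3) : v1 (P.map f) i = f (v1 P i) := by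
  fin_cases i <;> simp [v1, Sc3.kap, map_ofNat]

theorem map_v3 (P : Par R) (f : R →+* S) (i : Fin 3) : v3 (P.map f) i = f (v3 P i) := by
  simp [v3, mulVec, dotProduct, Fin.sum_univ_three, map_Mx, map_v1]

theorem v3_one (P : Par R) : v3 P 1 = 0 := by
  simp [v3, mulVec, dotProduct, Fin.sum_univ_three, Mx, v1]

theorem v1_one (P : Par R) : v1 P 1 = (Sc3.kap P.p2 P.p3 P.al P.be)⁻¹ := rfl

theorem three_eq [CharZero R] (P : Par R) :
    P.al ^ 2 / (P.p1 * P.p2 ^ 3) + P.be ^ 2 / (P.p1 * P.p3 ^ 3) = 3 := by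
  have h1 := P.h1; have h2 := P.h2; have h3 := P.h3
  rw [P.hal, P.hbe]
  field_simp
  have := P.p3_eq
  rw [this]
  ring

theorem Mx_v3 [CharZero R] (P : Par R) : Mx P *ᵥ v3 P = (3 : R) • v1 P := by
  have h1 := P.h1; have h2 := P.h2; have h3 := P.h3
  have h := three_eq P
  ext i
  fin_cases i
  · simp [v3, mulVec, dotProduct, Fin.sum_univ_three, Mx, v1]
  · simp only [v3, mulVec, dotProduct, Fin.sum_univ_three, Mx, v1]
    simp
    rw [← h]
    generalize (Sc3.kap P.p2 P.p3 P.al P.be)⁻¹ = κ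
    field_simp
    ring
  · simp [v3, mulVec, dotProduct, Fin.sum_univ_three, Mx, v1]

theorem emb_J2 (P : Par ℂ) (x : Fin 2 → ℂ) : emb P (J2 x) = Mx P *ᵥ emb P x := by
  rw [emb_apply, emb_apply, mulVec_add, mulVec_smul, mulVec_smul, Mx_v3, ← v3]
  simp only [J2, LinearMap.coe_mk, AddHom.coe_mk, cons_val_zero, cons_val_one, smul_smul]
  rw [add_comm, mul_comm]

theorem J2_J2 (x : Fin 2 → ℂ) : J2 (J2 x) = (3 : ℚ) • x := by
  ext i
  fin_cases i <;> simp [J2, Rat.smul_def]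

theorem map_eq_self (P : Par R) (f : R →+* R) (h1 : f P.p1 = P.p1) (h2 : f P.p2 = P.p2)
    (ht : f P.t = P.t) (ha : f P.al = P.al) (hb : f P.be = P.be) : P.map f = P := by
  have h3 : f P.p3 = P.p3 := by rw [P.p3_eq, map_sub, map_neg, h1, h2]
  cases P
  simp only [Par.map] at *
  congr

theorem Is.map {P : Par R} {p1 p2 p3 t : ℤ} (h : Is P p1 p2 p3 t) (f : R →+* S) :
    Is (P.map f) p1 p2 p3 t :=
  ⟨by simp [h.h1], by simp [h.h2], by simp [h.h3], by simp [h.ht]⟩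

theorem F_ne [CharZero R] (P : Par R) : P.F ≠ 0 := by
  have hc := P.c_ne
  unfold Par.F Mo.Fm
  refine mul_ne_zero (mul_ne_zero (mul_ne_zero (mul_ne_zero (by simpa using hc) X_ne_zero) ?_) ?_) ?_
    <;> exact X_pow_sub_C_ne_zero two_pos _

theorem exists_base {k : Type*} [Field k] [IsAlgClosed k] {F : k[X]} (hF : F ≠ 0) :
    ∃ a b : Fin 3 → k, Base F a b := by
  have hinf : {x : k | F.eval x ≠ 0}.Infinite := by
    have h1 : {x : k | F.IsRoot x}.Finite := F.finite_setOf_isRoot hF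
    exact h1.infinite_compl
  let e := hinf.natEmbedding
  let a : Fin 3 → k := fun i => e i
  have hb : ∀ i, ∃ b, b ^ 2 = F.eval (a i) := fun i => IsAlgClosed.exists_pow_nat_eq _ two_pos
  choose b hb using hb
  refine ⟨a, b, fun i j h => ?_, fun i h => ?_, hb⟩
  · exact Fin.ext (e.injective (Subtype.ext h))
  · have := hb i
    rw [h] at this
    exact (e i).2 (by rw [← this]; simp)

end alg

/-! ### linear combinations of the pair of forms -/

/-- the vector of forms `x f₀ + y f₁` -/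
def lin (x y : Fin 3 → ℂ) (f : Fin 2 → ℍ → ℂ) : Fin 3 → ℍ → ℂ := fun k => x k • f 0 + y k • f 1

theorem cf_lin {L : ℕ} {g : ℕ → ℤ} {f : Fin 2 → ℍ → ℂ} (h : Pair L g f) (x y : Fin 3 → ℂ) :
    Cf L (fun n k => x k * pc 1 g n + y k * pc 3 g n) (lin x y f) := fun k =>
  ⟨Submodule.add_mem _ (Submodule.smul_mem _ _ (h.cs 0)) (Submodule.smul_mem _ _ (h.cs 1)),
    fun z => by
      have := ((h.q1 z).mul_left (x k)).add ((h.q3 z).mul_left (y k))
      simpa only [add_mul, mul_assoc] using! this⟩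

theorem pv_lin {L : ℕ} {g : ℕ → ℤ} {f : Fin 2 → ℍ → ℂ} (h : Pair L g f) (x y : Fin 3 → ℂ)
    (γ : SL(2, ℤ)) : pv (lin x y f) γ = pv f γ 0 • x + pv f γ 1 • y := by
  ext k
  have h0 := (h.cs 0).1
  have h1 := (h.cs 1).1
  simp only [pv, lin, Pi.add_apply, Pi.smul_apply, smul_eq_mul]
  rw [Esc.per_add (h0.const_smul _) (h1.const_smul _), Esc.per_smul _ h0, Esc.per_smul _ h1]
  ring

/-- first column of `emb ∘ (a + b J)` -/
def c0 (P : Par ℂ) (a b : ℚ) : Fin 3 → ℂ := (a : ℂ) • v1 P + (b : ℂ) • v3 P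

/-- second column of `emb ∘ (a + b J)` -/
def c1 (P : Par ℂ) (a b : ℚ) : Fin 3 → ℂ := (3 * b : ℂ) • v1 P + (a : ℂ) • v3 P

theorem emb_ab (P : Par ℂ) (a b : ℚ) (v : Fin 2 → ℂ) :
    emb P (a • v + b • J2 v) = v 0 • c0 P a b + v 1 • c1 P a b := by
  rw [emb_apply]
  simp only [J2, LinearMap.coe_mk, AddHom.coe_mk, Pi.add_apply, Pi.smul_apply, cons_val_zero,
    cons_val_one, c0, c1, Rat.smul_def]
  module

theorem pv_ab {L : ℕ} {g : ℕ → ℤ} {f : Fin 2 → ℍ → ℂ} (h : Pair L g f) (P : Par ℂ) (a b : ℚ)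
    (γ : SL(2, ℤ)) :
    pv (lin (c0 P a b) (c1 P a b) f) γ = emb P (a • pv f γ + b • J2 (pv f γ)) := by
  rw [pv_lin h, emb_ab]

theorem mem_Lam {P : Par ℂ} (J : Jc P) (x : Fin 2 → ℂ) : x ∈ J.Lam ↔ J.ex (emb P x) = 0 := Iff.rfl

theorem J2_Lam {P : Par ℂ} (J : Jc P) {x : Fin 2 → ℂ} (h : x ∈ J.Lam) : J2 x ∈ J.Lam := by
  rw [mem_Lam] at *
  rw [emb_J2, ← J.j_ex, h, map_zero]

theorem pv_mem {L : ℕ} (f : Fin 2 → ℍ → ℂ) {γ : SL(2, ℤ)} (h : γ ∈ Gamma0 L) :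
    pv f γ ∈ I0 L f := Submodule.subset_span ⟨γ, h, rfl⟩

/-! ### the last inequality -/

theorem last_ineq {p1 p2 p3 D N L C C0 r : ℝ} {k : ℕ} (h2 : 1 ≤ p2) (h1 : p2 ≤ |p1|) (h3 : p2 ≤ |p3|)
    (hD : D ≠ 0) (hL : 1 ≤ L)
    (hfin : |64 * D * (p1 * p2 * p3) ^ 2| ≤ 1944 ^ 4 * (3 * L ^ 2 * N) ^ 2)
    (harch : N ^ 2 ≤ Real.exp (C * L ^ k) * |r|) (hcov : |r| ≤ C0 * |D| * p2 ^ 4) :
    Real.log p2 ≤ (1944 ^ 4 * |C0| + 4 + |C|) * L ^ (k + 1) := by
  have hD' : 0 < |D| := abs_pos.2 hD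
  have e1 : 64 * |D| * p2 ^ 6 ≤ |64 * D * (p1 * p2 * p3) ^ 2| := by
    rw [abs_mul, abs_mul, abs_pow, abs_mul, abs_mul, abs_of_pos (by linarith : 0 < p2),
      abs_of_pos (by norm_num : (0 : ℝ) < 64)]
    have : p2 ^ 6 = (p2 * p2 * p2) ^ 2 := by ring
    rw [this]
    gcongr
  have e2 : N ^ 2 ≤ Real.exp (|C| * L ^ k) * (|C0| * |D| * p2 ^ 4) := by
    refine harch.trans ?_
    gcongr
    · exact le_abs_self _
    · refine hcov.trans ?_
      gcongr
      exact le_abs_self _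
  have e3 : (|D| * p2 ^ 4) * (64 * p2 ^ 2) ≤
      (|D| * p2 ^ 4) * (9 * (1944 ^ 4 * |C0| * L ^ 4 * Real.exp (|C| * L ^ k))) := by
    calc (|D| * p2 ^ 4) * (64 * p2 ^ 2) = 64 * |D| * p2 ^ 6 := by ring
      _ ≤ 1944 ^ 4 * (3 * L ^ 2 * N) ^ 2 := e1.trans hfin
      _ = 1944 ^ 4 * 9 * L ^ 4 * N ^ 2 := by ring
      _ ≤ 1944 ^ 4 * 9 * L ^ 4 * (Real.exp (|C| * L ^ k) * (|C0| * |D| * p2 ^ 4)) := by gcongr
      _ = _ := by ring
  have e4 := le_of_mul_le_mul_left e3 (by positivity)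
  set K : ℝ := 1944 ^ 4 * |C0| with hK
  have hK0 : 0 ≤ K := by positivity
  have e5 : p2 ≤ K * L ^ 4 * Real.exp (|C| * L ^ k) := by nlinarith
  have e6 : K ≤ Real.exp K := by linarith [Real.add_one_le_exp K]
  have e7 : L ^ 4 ≤ Real.exp (4 * L) := by
    have : L ≤ Real.exp L := by linarith [Real.add_one_le_exp L]
    calc L ^ 4 ≤ Real.exp L ^ 4 := by gcongr
      _ = _ := by rw [← Real.exp_nat_mul]; norm_num
  have e8 : p2 ≤ Real.exp (K + 4 * L + |C| * L ^ k) := by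
    rw [Real.exp_add, Real.exp_add]
    refine e5.trans ?_
    gcongr
  have e9 : Real.log p2 ≤ K + 4 * L + |C| * L ^ k := by
    rw [Real.log_le_iff_le_exp (by linarith)]
    exact e8
  have a1 : 1 ≤ L ^ (k + 1) := one_le_pow₀ hL
  have a2 : L ≤ L ^ (k + 1) := le_self_pow₀ hL (by omega)
  have a3 : L ^ k ≤ L ^ (k + 1) := pow_le_pow_right₀ hL (by omega)
  have a4 := abs_nonneg C
  nlinarith

end Crest.Agent.T15.HtG
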