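import Crest.Agent.T15.FrmZ_90
import Crest.Agent.T15.RatZ_42
import Crest.Agent.T15.HonZ_74
import Crest.Agent.T15.HonC_54
import Crest.Agent.T15.VsC_48
import Crest.Agent.T15.Mat_16
import Crest.Agent.T15.EbC_64
import Crest.Agent.T15.Bad_93

/-!
# Row 15, block Ht (helper90): `FrmStmt`, `RatStmt`, `HondaStmt` without hypotheses
-/

set_option autoImplicit false

namespace Crest.Agent.T15.Ht

theorem frmStmt90 : FrmStmt := frmStmt_mat matStmt

theorem ratStmt90 : RatStmt := RatZ.ratStmt_of Vs.vsStmt omStmt frmStmt90 Hon.congStmt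

theorem hondaStmt90 : HondaStmt :=
  Hon.hondaStmt_of Hon.badStmt omStmt (Hon.tri_of Vs.vsStmt frmStmt90 Hon.congStmt)
    (Eb.ebIs galStmt moStmt FA.wqStmt)

end Crest.Agent.T15.Ht
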