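import Mathlib
import Crest.Agent.T15.NfB_2
import Crest.Agent.T15.CtE_92
import Crest.Agent.T15.AjB_55
import Crest.Agent.T15.MoA_29

/-!
# Row 15, block Ht (helper66): IRR, part A

`exists_SI` : semilinear isomorphisms of hyperelliptic function fields; `iota_pic` : the involution
is `-1` on the torsion; `chain` : three discs centred at `0`; `k4`, `irr_abs`.
-/

set_option autoImplicit false
set_option linter.all false

namespace Crest.Agent.T15.Irr

open Polynomial Module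
open scoped NNReal
open Crest.Agent.R013.RR7_948 Crest.Agent.R013.RR8_948 Crest.Agent.R013.RR9_948
open Crest.Agent.R013.RR11_948 Crest.Agent.R013.RR12_948 Crest.Agent.R013.PicD_398
open Crest.Agent.R013.RR20_948 Crest.Agent.R013.GR2_921 Crest.Agent.R013.GR3_921
open Crest.Agent.R013.GR4_921 Crest.Agent.R013.Frob1_914
open Crest.Agent.T15.Hy Crest.Agent.T15.Nf

section si

variable {k K k' K' : Type*} [Field k] [Field K] [Algebra k K] [Field k'] [Field K'] [Algebra k' K']
  {F : k[X]} {x w : K} {F' : k'[X]} {x' w' : K'}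

/-- the image of `f` under the semilinear map `x ↦ x'`, `w ↦ w'` -/
noncomputable def im (h : Hyp F x w) (s : k →+* k') (x' w' : K') (f : K) : K' :=
  el x' w' ((h.gen f).choose.map s) ((h.gen f).choose_spec.choose.map s) /
    aeval x' ((h.gen f).choose_spec.choose_spec.choose.map s)

theorem im_spec (h : Hyp F x w) (h' : Hyp F' x' w') (s : k →+* k') {f : K} {A B c : k[X]}
    (hf : f * aeval x c = el x w A B) :
    im h s x' w' f * aeval x' (c.map s) = el x' w' (A.map s) (B.map s) := by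
  obtain ⟨hc, hs⟩ := (h.gen f).choose_spec.choose_spec.choose_spec
  unfold im
  set A' := (h.gen f).choose
  set B' := (h.gen f).choose_spec.choose
  set c' := (h.gen f).choose_spec.choose_spec.choose
  have h1 : el x w (A * c') (B * c') = el x w (A' * c) (B' * c) := by
    rw [← el_mul_aeval, ← el_mul_aeval, ← hf, ← hs]; ring
  obtain ⟨h2, h3⟩ := h.el_inj h1
  have hc' : c'.map s ≠ 0 := by rwa [ne_eq, Polynomial.map_eq_zero]
  rw [div_mul_eq_mul_div, div_eq_iff (h'.aeval_ne hc'), el_mul_aeval, el_mul_aeval,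
    ← Polynomial.map_mul, ← Polynomial.map_mul, ← Polynomial.map_mul, ← Polynomial.map_mul, h2, h3]

theorem im_el (h : Hyp F x w) (h' : Hyp F' x' w') (s : k →+* k') (A B : k[X]) :
    im h s x' w' (el x w A B) = el x' w' (A.map s) (B.map s) := by
  have := im_spec h h' s (f := el x w A B) (c := 1) (A := A) (B := B) (by simp)
  simpa using this

/-- the semilinear homomorphism `x ↦ x'`, `w ↦ w'` -/
noncomputable def hom (h : Hyp F x w) (h' : Hyp F' x' w') (s : k →+* k') (hs : F.map s = F') :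
    K →+* K' where
  toFun := im h s x' w'
  map_one' := by simpa [el] using im_el h h' s 1 0
  map_zero' := by simpa [el] using im_el h h' s 0 0
  map_add' f g := by
    obtain ⟨A, B, c, hc, hf⟩ := h.gen f
    obtain ⟨A', B', c', hc', hg⟩ := h.gen g
    have h1 : (f + g) * aeval x (c * c') = el x w (A * c' + A' * c) (B * c' + B' * c) := by
      rw [← el_add, ← el_mul_aeval, ← el_mul_aeval, ← hf, ← hg, map_mul]; ring
    have h0 : (c * c').map s ≠ 0 := by
      rw [ne_eq, Polynomial.map_eq_zero]; exact mul_ne_zero hc hc'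
    apply mul_right_cancel₀ (h'.aeval_ne h0)
    rw [im_spec h h' s h1]
    simp only [Polynomial.map_add, Polynomial.map_mul]
    rw [← el_add, ← el_mul_aeval, ← el_mul_aeval, ← im_spec h h' s hf, ← im_spec h h' s hg, map_mul]
    ring
  map_mul' f g := by
    obtain ⟨A, B, c, hc, hf⟩ := h.gen f
    obtain ⟨A', B', c', hc', hg⟩ := h.gen g
    have h1 : (f * g) * aeval x (c * c') = el x w (A * A' + B * B' * F) (A * B' + B * A') := by
      rw [← el_mul h.sq, ← hf, ← hg, map_mul]; ring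
    have h0 : (c * c').map s ≠ 0 := by
      rw [ne_eq, Polynomial.map_eq_zero]; exact mul_ne_zero hc hc'
    apply mul_right_cancel₀ (h'.aeval_ne h0)
    rw [im_spec h h' s h1]
    simp only [Polynomial.map_add, Polynomial.map_mul, hs]
    rw [← el_mul h'.sq, ← im_spec h h' s hf, ← im_spec h h' s hg, map_mul]
    ring

theorem hom_el (h : Hyp F x w) (h' : Hyp F' x' w') (s : k →+* k') (hs : F.map s = F')
    (A B : k[X]) : hom h h' s hs (el x w A B) = el x' w' (A.map s) (B.map s) := im_el h h' s A B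

/-- **existence of semilinear isomorphisms** -/
theorem exists_SI (h : Hyp F x w) (h' : Hyp F' x' w') (s : k ≃+* k')
    (hs : F.map (s : k →+* k') = F') :
    ∃ e : SI k K k' K', e.s = s ∧ e.f x = x' ∧ e.f w = w' := by
  have hm : ∀ A : k'[X], (A.map (s.symm : k' →+* k)).map (s : k →+* k') = A := fun A => by
    rw [Polynomial.map_map]; simp
  have hsur : Function.Surjective (hom h h' (s : k →+* k') hs) := fun g => by
    obtain ⟨A, B, c, hc, hg⟩ := h'.gen g
    refine ⟨el x w (A.map (s.symm : k' →+* k)) (B.map (s.symm : k' →+* k)) /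
      el x w (c.map (s.symm : k' →+* k)) 0, ?_⟩
    rw [map_div₀, hom_el, hom_el, hm, hm, hm, Polynomial.map_zero, el_zero,
      div_eq_iff (h'.aeval_ne hc), hg]
  refine ⟨⟨s, RingEquiv.ofBijective _ ⟨(hom h h' (s : k →+* k') hs).injective, hsur⟩,
    fun c => ?_⟩, rfl, ?_, ?_⟩
  · show hom h h' (s : k →+* k') hs _ = _
    simpa [el] using hom_el h h' (s : k →+* k') hs (C c) 0
  · show hom h h' (s : k →+* k') hs _ = _
    simpa [el] using hom_el h h' (s : k →+* k') hs X 0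
  · show hom h h' (s : k →+* k') hs _ = _
    simpa [el] using hom_el h h' (s : k →+* k') hs 0 1

end si

section iota

variable {k K : Type*} [Field k] [IsAlgClosed k] [Field K] [Algebra k K]
  [Algebra (RatFunc k) K] [IsScalarTower k (RatFunc k) K] [FiniteDimensional (RatFunc k) K]
  [Algebra.IsSeparable (RatFunc k) K] {F : k[X]} {x w : K}

theorem iota_add (h : Hyp F x w) (ho : Odd F.natDegree) (y : Pic k K) :
    h.siota.pic y + y = degPic y • cls (Dinf k x) := by
  obtain ⟨D, rfl⟩ := cls_surjective y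
  induction D using Finsupp.induction_linear with
  | zero => simp
  | add D E h1 h2 =>
    rw [map_add, map_add, map_add, add_zsmul, ← h1, ← h2]; abel
  | single P n =>
    have h1 : h.siota.pic (cls (Finsupp.single P 1)) + cls (Finsupp.single P 1) =
        cls (Dinf k x) := by
      rw [SI.pic_cls, SI.D_single]
      rcases le_or_gt (P.v x) 1 with hP | hP
      · have hA := h.at_ev hP
        rw [← h.pt_eq (hA.iota h), add_comm]
        nth_rewrite 1 [← h.pt_eq hA]
        exact h.cls_pt_add (hA.sq h.sq)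
      · have h2 : 1 < (h.siota.pl P).v x := by rwa [h.siota_v, h.iota_x]
        rw [Aj.eq_inf h ho h2, Aj.eq_inf h ho hP, Aj.Dinf_eq h ho, ← map_add, ← Finsupp.single_add]
        rfl
    have h2 : Finsupp.single P n = n • Finsupp.single P (1 : ℤ) := by simp
    rw [degPic_cls, degD_single, degP_eq_one, h2, map_zsmul, map_zsmul, ← zsmul_add, h1]
    simp

/-- the hyperelliptic involution is `-1` on the torsion -/
theorem iota_pic (h : Hyp F x w) (ho : Odd F.natDegree) {n : ℕ} (hn : n ≠ 0) {y : Pic k K}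
    (hy : n • y = 0) : h.siota.pic y = -y := by
  have h1 : degPic y = 0 := by
    have := congrArg degPic hy
    rw [map_nsmul, map_zero, nsmul_eq_mul] at this
    exact (mul_eq_zero.1 this).resolve_left (by exact_mod_cast hn)
  have := iota_add h ho y
  rwa [h1, zero_zsmul, add_eq_zero_iff_eq_neg] at this

end iota

theorem nos : NOS := fun C K k _ _ _ _ _ _ _ _ _ _ _ vC ρC p hp hpv ι _ W hW κ _ _ ρ h g hg hs e
    he n hn y hy => by
  haveI : Fact p.Prime := ⟨hp⟩
  exact Ct.nos h hW hg p hpv hs e (fun i f hf => he i f hf.le) hn hy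

theorem isAlgClosed_res {C : Type*} [Field C] [IsAlgClosed C] (O : ValuationSubring C) :
    IsAlgClosed (IsLocalRing.ResidueField O) := by
  apply IsAlgClosed.of_exists_root
  intro p hp hirr
  have hl : p ∈ Polynomial.lifts (IsLocalRing.residue O) := by
    rw [Polynomial.lifts_iff_coeff_lifts]
    intro n
    exact IsLocalRing.residue_surjective _
  obtain ⟨q, hq, -, hqm⟩ := Polynomial.lifts_and_degree_eq_and_monic hl hp
  have hdeg : (q.map (algebraMap O C)).degree ≠ 0 := by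
    rw [hqm.degree_map]
    have h1 : p.degree = q.degree := by rw [← hq, hqm.degree_map]
    rw [← h1]
    exact (degree_pos_of_irreducible hirr).ne'
  obtain ⟨z, hz⟩ := IsAlgClosed.exists_root _ hdeg
  rw [IsRoot, eval_map] at hz
  have hzi : IsIntegral O z := ⟨q, hqm, hz⟩
  obtain ⟨z', rfl⟩ := IsIntegrallyClosed.isIntegral_iff.1 hzi
  refine ⟨IsLocalRing.residue O z', ?_⟩
  have h2 : algebraMap O C (q.eval z') = 0 := by
    rw [← hz, eval₂_at_apply]
  have h3 : q.eval z' = 0 := by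
    rwa [map_eq_zero_iff _ (IsFractionRing.injective O C)] at h2
  rw [← hq, eval_map, eval₂_at_apply, h3, map_zero]

section unit

variable {C : Type*} [Field C] {vC : Valuation C ℝ≥0} {s : C ≃+* C}

/-- `s u / u` modulo the maximal ideal depends only on the norm of `u` -/
theorem unit_congr (hs : ∀ c, vC c ≤ 1 → vC (s c - c) < 1) {u lam ε : C} (hl : lam ≠ 0)
    (hε : ε ^ 2 = 1) (hlam : s lam = ε * lam) {m : ℤ} (hu : vC u = vC lam ^ m) :
    vC (ε ^ m * u / s u - 1) < 1 := by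
  have hvl : vC lam ≠ 0 := by simpa using hl
  have hε0 : ε ≠ 0 := by rintro rfl; simp at hε
  have hu0 : u ≠ 0 := by
    rintro rfl
    rw [map_zero] at hu
    exact zpow_ne_zero m hvl hu.symm
  set a := u / lam ^ m with ha
  have h1 : vC a = 1 := by rw [ha, map_div₀, map_zpow₀, hu, div_self (zpow_ne_zero m hvl)]
  have h2 := hs a h1.le
  have h3 : vC (s a) = 1 := by
    have : s a = a + (s a - a) := by ring
    rw [this, Valuation.map_add_eq_of_lt_left _ (by rwa [h1]), h1]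
  have hsa : s a ≠ 0 := by rintro h0; rw [h0] at h3; simp at h3
  have h4 : s u = s a * (ε ^ m * lam ^ m) := by
    rw [← mul_zpow, ← hlam, ← map_zpow₀, ← map_mul, ha, div_mul_cancel₀ _ (zpow_ne_zero m hl)]
  have h5 : ε ^ m * u / s u - 1 = -(s a - a) / s a := by
    have := zpow_ne_zero m hl
    have := zpow_ne_zero m hε0
    have h6 : u = a * lam ^ m := by rw [ha, div_mul_cancel₀ _ (zpow_ne_zero m hl)]
    rw [h4]
    nth_rewrite 1 [h6]
    generalize lam ^ m = L at *
    generalize ε ^ m = E at *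
    field_simp
    ring
  rw [h5, map_div₀, Valuation.map_neg, h3, div_one]
  exact h2

theorem zpow_odd {ε : C} (hε : ε ^ 2 = 1) {m : ℤ} (hm : Odd m) : ε ^ m = ε := by
  have hε0 : ε ≠ 0 := by rintro rfl; simp at hε
  obtain ⟨j, rfl⟩ := hm
  rw [zpow_add₀ hε0, zpow_mul, zpow_one, zpow_ofNat, hε, one_zpow, one_mul]

theorem zpow_even {ε : C} (hε : ε ^ 2 = 1) (m : ℤ) : ε ^ (2 * m) = 1 := by
  rw [zpow_mul, zpow_ofNat, hε, one_zpow]

theorem v_sqrt {u b lam : C} (h : u ^ 2 = b) {m : ℤ} (hb : vC b = vC lam ^ (2 * m)) :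
    vC u = vC lam ^ m := by
  have : vC u ^ 2 = (vC lam ^ m) ^ 2 := by
    rw [← map_pow, h, hb, mul_comm, zpow_mul, zpow_ofNat]
  exact (pow_left_inj₀ zero_le zero_le two_ne_zero).1 this

end unit

section chain

variable {C k K : Type} [Field C] [Field k] [Field K] [Algebra C K]
  {vC : Valuation C ℝ≥0} {ρC : C → k}

theorem sepH (h2 : (2 : k) ≠ 0) : (X * (X ^ 2 - 1) : k[X]).Separable := by
  refine Separable.mul separable_X ?_ ?_
  · simpa using separable_X_pow_sub_C (1 : k) (n := 2) (by exact_mod_cast h2) one_ne_zero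
  · exact ⟨X, -1, by ring⟩

theorem degH : (X * (X ^ 2 - 1) : k[X]).natDegree = 3 := by
  have : (X * (X ^ 2 - 1) : k[X]) = X ^ 3 - X := by ring
  rw [this]
  compute_degree!

theorem rdQ (hr : IsRes vC ρC) : Rd vC ρC (X ^ 2 - 1) (X ^ 2 - 1) :=
  ((Rd.X hr).pow hr 2).sub hr (Rd.one hr)

theorem rdS (hr : IsRes vC ρC) {a : C} (ha : vC a < 1) :
    Rd vC ρC (X ^ 2 - Polynomial.C a) (X ^ 2) :=
  (((Rd.X hr).pow hr 2).sub hr (Rd.cst_lt hr ha)).congr rfl (sub_zero _)

theorem rdB (hr : IsRes vC ρC) {a : C} (ha : vC a < 1) :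
    Rd vC ρC (1 - Polynomial.C a * X ^ 2) 1 :=
  ((Rd.one hr).sub hr ((Rd.cst_lt hr ha).mul hr ((Rd.X hr).pow hr 2))).congr rfl (by simp)

theorem comp_Fm (c b1 b2 b3 π : C) :
    (Mo.Fm c b1 b2 b3).comp (Polynomial.C 0 + Polynomial.C π * X) =
      Polynomial.C c * (Polynomial.C π * X) * (Polynomial.C (π ^ 2) * X ^ 2 - Polynomial.C b1) *
        (Polynomial.C (π ^ 2) * X ^ 2 - Polynomial.C b2) *
        (Polynomial.C (π ^ 2) * X ^ 2 - Polynomial.C b3) := by
  simp only [Mo.Fm, mul_comp, sub_comp, pow_comp, X_comp, C_comp, map_zero, zero_add, map_pow,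
    mul_pow]

theorem facS {b a : C} (hb : b ≠ 0) : (Polynomial.C b * X ^ 2 - Polynomial.C a : C[X]) =
    Polynomial.C b * (X ^ 2 - Polynomial.C (a / b)) := by
  rw [mul_sub, ← map_mul, mul_div_cancel₀ _ hb]

theorem facB {b a : C} (ha : a ≠ 0) : (Polynomial.C b * X ^ 2 - Polynomial.C a : C[X]) =
    -Polynomial.C a * (1 - Polynomial.C (b / a) * X ^ 2) := by
  have : (Polynomial.C b : C[X]) = Polynomial.C a * Polynomial.C (b / a) := by
    rw [← map_mul, mul_div_cancel₀ _ ha]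
  rw [this]; ring

theorem facQ (b : C) : (Polynomial.C b * X ^ 2 - Polynomial.C b : C[X]) =
    Polynomial.C b * (X ^ 2 - 1) := by ring

theorem v_div_lt {a b : C} (h : vC a < vC b) : vC (a / b) < 1 := by
  rw [map_div₀]; exact (div_lt_one (zero_le.trans_lt h)).2 h

variable {c b1 b2 b3 : C}

theorem ch1 (hr : IsRes vC ρC) (h2 : (2 : k) ≠ 0) (hc : c ≠ 0) (h1 : b1 ≠ 0)
    (h12 : vC b1 < vC b2) (h23 : vC b2 < vC b3) {π γ : C} (hπ : π ^ 2 = b1)
    (hγ : γ ^ 2 = c * π * b1 * b2 * b3) :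
    Ch vC ρC (Mo.Fm c b1 b2 b3) 0 π γ 1 (X * (X ^ 2 - 1)) := by
  have n2 : b2 ≠ 0 := by rintro rfl; simp at h12
  have n3 : b3 ≠ 0 := by rintro rfl; simp at h23
  have p0 : π ≠ 0 := by rintro rfl; exact h1 (by rw [← hπ]; ring)
  have g0 : γ ≠ 0 := by
    rintro rfl
    exact mul_ne_zero (mul_ne_zero (mul_ne_zero (mul_ne_zero hc p0) h1) n2) n3 (by rw [← hγ]; ring)
  refine Ch.mk' (F1 := X * (X ^ 2 - 1) * (1 - Polynomial.C (b1 / b2) * X ^ 2) *
    (1 - Polynomial.C (b1 / b3) * X ^ 2)) p0 g0 ?_ ?_ one_ne_zero (sepH h2) (by rw [degH]; norm_num)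
  · rw [comp_Fm, hπ, hγ, facQ, facB n2, facB n3]
    simp only [map_mul]; ring
  · exact ((((Rd.X hr).mul hr (rdQ hr)).mul hr (rdB hr (v_div_lt h12))).mul hr
      (rdB hr (v_div_lt (h12.trans h23)))).congr rfl (by ring)

theorem ch2 (hr : IsRes vC ρC) (h2 : (2 : k) ≠ 0) (hc : c ≠ 0)
    (h12 : vC b1 < vC b2) (h23 : vC b2 < vC b3) {π γ : C} (hπ : π ^ 2 = b2)
    (hγ : γ ^ 2 = -(c * π * b2 * b2 * b3)) :
    Ch vC ρC (Mo.Fm c b1 b2 b3) 0 π γ X (X * (X ^ 2 - 1)) := by
  have n2 : b2 ≠ 0 := by rintro rfl; simp at h12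
  have n3 : b3 ≠ 0 := by rintro rfl; simp at h23
  have p0 : π ≠ 0 := by rintro rfl; exact n2 (by rw [← hπ]; ring)
  have g0 : γ ≠ 0 := by
    rintro rfl
    exact neg_ne_zero.2 (mul_ne_zero (mul_ne_zero (mul_ne_zero (mul_ne_zero hc p0) n2) n2) n3)
      (by rw [← hγ]; ring)
  refine Ch.mk' (F1 := X * (X ^ 2 - Polynomial.C (b1 / b2)) * (X ^ 2 - 1) *
    (1 - Polynomial.C (b2 / b3) * X ^ 2)) p0 g0 ?_ ?_ X_ne_zero (sepH h2) (by rw [degH]; norm_num)
  · rw [comp_Fm, hπ, hγ, facQ, facS n2, facB n3]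
    simp only [map_mul, map_neg]; ring
  · exact ((((Rd.X hr).mul hr (rdS hr (v_div_lt h12))).mul hr (rdQ hr)).mul hr
      (rdB hr (v_div_lt h23))).congr rfl (by ring)

theorem ch3 (hr : IsRes vC ρC) (h2 : (2 : k) ≠ 0) (hc : c ≠ 0)
    (h12 : vC b1 < vC b2) (h23 : vC b2 < vC b3) {π γ : C} (hπ : π ^ 2 = b3)
    (hγ : γ ^ 2 = c * π * b3 * b3 * b3) :
    Ch vC ρC (Mo.Fm c b1 b2 b3) 0 π γ (X ^ 2) (X * (X ^ 2 - 1)) := by
  have n3 : b3 ≠ 0 := by rintro rfl; simp at h23
  have p0 : π ≠ 0 := by rintro rfl; exact n3 (by rw [← hπ]; ring)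
  have g0 : γ ≠ 0 := by
    rintro rfl
    exact mul_ne_zero (mul_ne_zero (mul_ne_zero (mul_ne_zero hc p0) n3) n3) n3 (by rw [← hγ]; ring)
  refine Ch.mk' (F1 := X * (X ^ 2 - Polynomial.C (b1 / b3)) * (X ^ 2 - Polynomial.C (b2 / b3)) *
    (X ^ 2 - 1)) p0 g0 ?_ ?_ (pow_ne_zero 2 X_ne_zero) (sepH h2) (by rw [degH]; norm_num)
  · rw [comp_Fm, hπ, hγ, facQ, facS n3, facS n3]
    simp only [map_mul]; ring
  · exact ((((Rd.X hr).mul hr (rdS hr (v_div_lt (h12.trans h23)))).mul hr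
      (rdS hr (v_div_lt h23))).mul hr (rdQ hr)).congr rfl (by ring)

variable [IsAlgClosed C] [CharZero C] [Algebra (RatFunc C) K] [IsScalarTower C (RatFunc C) K]
  [FiniteDimensional (RatFunc C) K] [Algebra.IsSeparable (RatFunc C) K]

/-- **three discs centred at `0`** : `m i` are the exponents of the radii in terms of `lam`, `g i`
those of `γ` -/
theorem chain [IsAlgClosed k] (hr : IsRes vC ρC) (h2 : (2 : k) ≠ 0) {p : ℕ} (hp : p.Prime)
    (hpv : vC p < 1) {x w : K} (hy : Hyp (Mo.Fm c b1 b2 b3) x w)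
    (hd : (Mo.Fm c b1 b2 b3).natDegree = 7) (h12 : vC b1 < vC b2) (h23 : vC b2 < vC b3)
    {lam ε : C} (hl : lam ≠ 0) (hε : ε ^ 2 = 1) {n0 n1 n2 n3 : ℤ}
    (v0 : vC c = vC lam ^ (4 * n0)) (v1 : vC b1 = vC lam ^ (4 * n1))
    (v2 : vC b2 = vC lam ^ (4 * n2)) (v3 : vC b3 = vC lam ^ (4 * n3))
    (o1 : Odd n1) (o2 : Odd n2) (o3 : Odd n3)
    (e : SI C K C K) (hs : ∀ c, vC c ≤ 1 → vC (e.s c - c) < 1) (hlam : e.s lam = ε * lam)
    (hx : e.f x = x) (hw : e.f w = algebraMap C K ε * w) {n : ℕ} (hn : vC n = 1) {y : Pic C K}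
    (hy0 : n • y = 0) : e.pic y = y := by
  have hvl : vC lam ≠ 0 := by simpa using hl
  have hc : c ≠ 0 := by
    rintro rfl; rw [map_zero] at v0; exact zpow_ne_zero _ hvl v0.symm
  have h1 : b1 ≠ 0 := by
    rintro rfl; rw [map_zero] at v1; exact zpow_ne_zero _ hvl v1.symm
  have sq : ∀ a : C, ∃ z, z ^ 2 = a := fun a => IsAlgClosed.exists_pow_nat_eq a two_pos
  obtain ⟨π1, p1⟩ := sq b1
  obtain ⟨π2, p2⟩ := sq b2
  obtain ⟨π3, p3⟩ := sq b3
  obtain ⟨γ1, g1⟩ := sq (c * π1 * b1 * b2 * b3)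
  obtain ⟨γ2, g2⟩ := sq (-(c * π2 * b2 * b2 * b3))
  obtain ⟨γ3, g3⟩ := sq (c * π3 * b3 * b3 * b3)
  have w1 : vC π1 = vC lam ^ (2 * n1) := v_sqrt p1 (by rw [v1]; congr 1; ring)
  have w2 : vC π2 = vC lam ^ (2 * n2) := v_sqrt p2 (by rw [v2]; congr 1; ring)
  have w3 : vC π3 = vC lam ^ (2 * n3) := v_sqrt p3 (by rw [v3]; congr 1; ring)
  have u1 : vC γ1 = vC lam ^ (2 * (n0 + n1 + n2 + n3) + n1) := v_sqrt g1 (by
    simp only [map_mul, v0, v1, v2, v3, w1, ← zpow_add₀ hvl]; congr 1; ring)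
  have u2 : vC γ2 = vC lam ^ (2 * (n0 + n2 + n2 + n3) + n2) := v_sqrt g2 (by
    simp only [Valuation.map_neg, map_mul, v0, v2, v3, w2, ← zpow_add₀ hvl]; congr 1; ring)
  have u3 : vC γ3 = vC lam ^ (2 * (n0 + n3 + n3 + n3) + n3) := v_sqrt g3 (by
    simp only [map_mul, v0, v3, w3, ← zpow_add₀ hvl]; congr 1; ring)
  have lt : ∀ {a b a' b' : C}, a ^ 2 = a' → b ^ 2 = b' → vC a' < vC b' → vC a < vC b := by
    intro a b a' b' ha hb h
    rw [← ha, ← hb, map_pow, map_pow] at h
    exact lt_of_pow_lt_pow_left₀ 2 zero_le h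
  have l12 := lt p1 p2 h12
  have l23 := lt p2 p3 h23
  have l13 := l12.trans l23
  have kπ : ∀ {π : C} {m : ℤ}, vC π = vC lam ^ (2 * m) → vC (1 * π / e.s π - 1) < 1 := by
    intro π m h
    have := unit_congr hs hl hε hlam h
    rwa [zpow_even hε] at this
  have kγ : ∀ {γ : C} {m j : ℤ}, Odd j → vC γ = vC lam ^ (2 * m + j) →
      vC (ε * γ / e.s γ - 1) < 1 := by
    intro γ m j hj h
    have := unit_congr hs hl hε hlam h
    rwa [zpow_odd hε ((even_two_mul m).add_odd hj)] at this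
  refine nos_of_charts nos hr h2 hp hpv hy (ι := Fin 3) (a := fun _ => 0) (π := ![π1, π2, π3])
    (γ := ![γ1, γ2, γ3]) (G := ![1, X, X ^ 2]) (H := fun _ => X * (X ^ 2 - 1)) ?_ ?_ ?_ e hs
    (α := 1) (β := 0) (ε := ε) (by simpa using hx) hw ?_ ?_ ?_ hn hy0
  · intro i
    fin_cases i
    · exact ch1 hr h2 hc h1 h12 h23 p1 g1
    · exact ch2 hr h2 hc h12 h23 p2 g2
    · exact ch3 hr h2 hc h12 h23 p3 g3
  · intro i j hij
    left
    fin_cases i <;> fin_cases j <;> first
      | exact absurd rfl hij | exact l12.ne | exact l12.ne' | exact l23.ne | exact l23.ne'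
      | exact l13.ne | exact l13.ne'
  · simp [hd, degH]
  · intro i
    fin_cases i
    · exact kπ w1
    · exact kπ w2
    · exact kπ w3
  · intro i; simp
  · intro i
    fin_cases i
    · exact kγ o1 u1
    · exact kγ o2 u2
    · exact kγ o3 u3

end chain

section abs

variable {C K : Type*} [Field C] [IsAlgClosed C] [Field K] [Algebra C K]
  [Algebra (RatFunc C) K] [IsScalarTower C (RatFunc C) K] [FiniteDimensional (RatFunc C) K]
  [Algebra.IsSeparable (RatFunc C) K]

/-- inertia acts on the `n`-torsion through `s lam / lam = ± 1` -/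
def K4 (vC : Valuation C ℝ≥0) (x w : K) (lam : C) (n : ℕ) : Prop :=
  ∀ (e : SI C K C K) (ε : C), ε ^ 2 = 1 → (∀ c, vC c ≤ 1 → vC (e.s c - c) < 1) →
    e.s lam = ε * lam → e.f x = x → e.f w = algebraMap C K ε * w →
    ∀ y : Pic C K, n • y = 0 → e.pic y = y

variable {vC : Valuation C ℝ≥0} {F : C[X]} {x w : K} {lam : C} {n : ℕ}

theorem K4.one (h : K4 vC x w lam n) (e : SI C K C K)
    (hs : ∀ c, vC c ≤ 1 → vC (e.s c - c) < 1) (hl : e.s lam = lam) (hx : e.f x = x)
    (hw : e.f w = w) {y : Pic C K} (hy : n • y = 0) : e.pic y = y :=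
  h e 1 (one_pow 2) hs (by rw [hl, one_mul]) hx (by rw [hw, map_one, one_mul]) y hy

theorem K4.neg (h : K4 vC x w lam n) (hF : Hyp F x w) (ho : Odd F.natDegree) (hn : n ≠ 0)
    (e : SI C K C K) (hs : ∀ c, vC c ≤ 1 → vC (e.s c - c) < 1) (hl : e.s lam = -lam)
    (hx : e.f x = x) (hw : e.f w = w) {y : Pic C K} (hy : n • y = 0) : e.pic y = -y := by
  have h1 := h (hF.siota.trans e) (-1) (by ring) hs (by rw [neg_one_mul]; exact hl)
    (by show e.f (hF.iota x) = x; rw [hF.iota_x, hx])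
    (by show e.f (hF.iota w) = _; rw [hF.iota_w, map_neg, hw]; simp) y hy
  rw [SI.pic_trans, iota_pic hF ho hn hy, map_neg] at h1
  exact neg_eq_iff_eq_neg.1 h1

/-- **the quaternion relations** -/
theorem irr_abs (h : K4 vC x w lam n) (hF : Hyp F x w) (ho : Odd F.natDegree) (hn : n ≠ 0)
    (h2 : vC 2 = 1) (hl : lam ≠ 0) (e e' : SI C K C K)
    (hs : ∀ c, vC c ≤ 1 → vC (e.s c - c) < 1) (hi : ∀ c, vC (e'.s c) = vC c) {i : C}
    (hii : i ^ 2 = -1) (h1 : e.s lam = i * lam) (h3 : e'.s i = -i) (h4 : e'.s (lam ^ 4) = lam ^ 4)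
    (hx : e.f x = x) (hw : e.f w = w) (hx' : e'.f x = x) (hw' : e'.f w = w) {y : Pic C K}
    (hy : n • y = 0) : e.pic (e.pic y) = -y ∧ e'.pic (e.pic y) = -e.pic (e'.pic y) := by
  have vi : vC i = 1 := by
    have : vC i ^ 2 = 1 ^ 2 := by rw [← map_pow, hii, Valuation.map_neg, map_one, one_pow]
    exact (pow_left_inj₀ zero_le zero_le two_ne_zero).1 this
  have si : e.s i = i := by
    have h5 : (e.s i - i) * (e.s i + i) = 0 := by
      have : e.s i ^ 2 = -1 := by rw [← map_pow, hii, map_neg, map_one]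
      linear_combination this - hii
    rcases mul_eq_zero.1 h5 with h6 | h6
    · exact sub_eq_zero.1 h6
    · have h7 := hs i vi.le
      rw [eq_neg_of_add_eq_zero_left h6, show -i - i = -(2 * i) by ring, Valuation.map_neg, map_mul,
        h2, vi, one_mul] at h7
      exact absurd h7 (lt_irrefl _)
  have le1 : ∀ c, vC c ≤ 1 → vC (e.s c) ≤ 1 := fun c hc => by
    have : e.s c = c + (e.s c - c) := by ring
    rw [this]; exact (vC.map_add _ _).trans (max_le hc (hs c hc).le)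
  have add : ∀ {a b : C}, vC a < 1 → vC b < 1 → vC (a + b) < 1 := fun ha hb =>
    (vC.map_add _ _).trans_lt (max_lt ha hb)
  have hi' : ∀ c, vC (e'.s.symm c) = vC c := fun c => by rw [← hi, RingEquiv.apply_symm_apply]
  have A : ∀ {y : Pic C K}, n • y = 0 → e.pic (e.pic y) = -y := fun {y} hy => by
    rw [← SI.pic_trans]
    refine h.neg hF ho hn _ (fun c hc => ?_) ?_ ?_ ?_ hy
    · show vC (e.s (e.s c) - c) < 1
      have := add (hs _ (le1 c hc)) (hs c hc)
      rwa [sub_add_sub_cancel] at this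
    · show e.s (e.s lam) = -lam
      rw [h1, map_mul, si, h1, ← mul_assoc, ← sq, hii, neg_one_mul]
    · show e.f (e.f x) = x
      rw [hx, hx]
    · show e.f (e.f w) = w
      rw [hw, hw]
  -- `e'⁻¹ lam = ζ lam` with `ζ` fixed by `e`
  obtain ⟨ζ, hζ, sζ⟩ : ∃ ζ, e'.s.symm lam = ζ * lam ∧ e.s ζ = ζ := by
    have h5 : e'.s.symm lam ^ 4 = lam ^ 4 := by rw [← map_pow, RingEquiv.symm_apply_eq, h4]
    have h6 : (e'.s.symm lam - lam) * (e'.s.symm lam + lam) * (e'.s.symm lam - i * lam) *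
        (e'.s.symm lam + i * lam) = 0 := by
      linear_combination h5 - (e'.s.symm lam ^ 2 - lam ^ 2) * lam ^ 2 * hii
    rcases mul_eq_zero.1 h6 with h6 | h6
    · rcases mul_eq_zero.1 h6 with h6 | h6
      · rcases mul_eq_zero.1 h6 with h6 | h6
        · exact ⟨1, by linear_combination h6, map_one _⟩
        · exact ⟨-1, by linear_combination h6, by rw [map_neg, map_one]⟩
      · exact ⟨i, by linear_combination h6, si⟩
    · exact ⟨-i, by linear_combination h6, by rw [map_neg, si]⟩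
  have h3' : e'.s.symm i = -i := by rw [RingEquiv.symm_apply_eq, map_neg, h3, neg_neg]
  have B : ∀ {y : Pic C K}, n • y = 0 → e'.pic (e.pic (e'.symm.pic (e.pic y))) = y := fun {y} hy => by
    rw [← SI.pic_trans, ← SI.pic_trans, ← SI.pic_trans]
    refine h.one _ (fun c hc => ?_) ?_ ?_ ?_ hy
    · show vC (e'.s (e.s (e'.s.symm (e.s c))) - c) < 1
      have h5 := hs (e'.s.symm (e.s c)) (by rw [hi']; exact le1 c hc)
      rw [← hi, map_sub, RingEquiv.apply_symm_apply] at h5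
      have := add h5 (hs c hc)
      rwa [sub_add_sub_cancel] at this
    · show e'.s (e.s (e'.s.symm (e.s lam))) = lam
      rw [h1, map_mul e'.s.symm, h3', hζ, map_mul e.s, map_mul e.s, map_neg e.s, si, sζ, h1,
        show -i * (ζ * (i * lam)) = -(i ^ 2) * (ζ * lam) by ring, hii, neg_neg, one_mul, ← hζ,
        RingEquiv.apply_symm_apply]
    · show e'.f (e.f (e'.f.symm (e.f x))) = x
      rw [hx, (e'.f.symm_apply_eq.2 hx'.symm : e'.f.symm x = x), hx, hx']
    · show e'.f (e.f (e'.f.symm (e.f w))) = w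
      rw [hw, (e'.f.symm_apply_eq.2 hw'.symm : e'.f.symm w = w), hw, hw']
  refine ⟨A hy, ?_⟩
  have t1 : n • e'.pic y = 0 := by rw [← map_nsmul, hy, map_zero]
  have t2 : n • -e.pic (e'.pic y) = 0 := by rw [neg_nsmul, ← map_nsmul, t1, map_zero, neg_zero]
  have h5 := B t2
  have h6 : e'.symm.pic (e'.pic y) = y := e'.pic.symm_apply_apply y
  rwa [map_neg e.pic, A t1, neg_neg, h6] at h5

end abs

end Crest.Agent.T15.Irr
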