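import Crest.Agent.T15.IrrA_66
import Crest.Agent.T15.MoB_29
import Crest.Agent.T15.CgB_84
import Crest.Agent.T15.RbA_67
import Crest.Agent.T15.TwAsm_16
import Crest.Agent.T15.Ar_22

/-!
# Row 15, block Ht (helper66): IRR, part B

`k4` : the row `p₁` of the reduction table (odd valuation); `irr` : inertia and Frobenius at a prime
`l ≡ 3 mod 4` which divides `p₁` exactly.
-/

set_option autoImplicit false
set_option linter.all false

namespace Crest.Agent.T15.Irr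

open Polynomial Module NumberField
open scoped NNReal
open Crest.Agent.R013.PicD_398 Crest.Agent.R013.GR4_921 Crest.Agent.R013.Frob1_914
open Crest.Agent.T15.Hy Crest.Agent.T15.Mo Crest.Agent.R018.Placesx484
open Crest.Agent.T15.C (Om Gam)

section val

variable {C : Type*} [Field C] {vC : Valuation C ℝ≥0}

theorem v_add_small {a b : C} (ha : vC a = 1) (hb : vC b < 1) : vC (a + b) = 1 := by
  rw [Valuation.map_add_eq_of_lt_left _ (by rwa [ha]), ha]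

theorem v_mul_small {a b : C} (ha : vC a < 1) (hb : vC b ≤ 1) : vC (a * b) < 1 := by
  rw [map_mul]; exact mul_lt_one_of_lt_of_le ha hb

theorem v_add_le {a b : C} (ha : vC a ≤ 1) (hb : vC b ≤ 1) : vC (a + b) ≤ 1 :=
  (vC.map_add _ _).trans (max_le ha hb)

theorem v_mul_le {a b : C} (ha : vC a ≤ 1) (hb : vC b ≤ 1) : vC (a * b) ≤ 1 := by
  rw [map_mul]; exact mul_le_one' ha hb

theorem v_one_of_sq {a : C} (h : vC (a ^ 2) = 1) : vC a = 1 := by
  rw [map_pow, ← one_pow 2] at h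
  exact (pow_left_inj₀ zero_le zero_le two_ne_zero).1 h

/-- an isometry fixes a unit whose square is fixed and congruent to the square of a fixed element -/
theorem fix_sqrt {s : C ≃+* C} (hi : ∀ c, vC (s c) = vC c) (h2 : vC 2 = 1) {a r : C}
    (ha : vC a = 1) (hs : s (a ^ 2) = a ^ 2) (hr : s r = r) (h : vC (a ^ 2 - r ^ 2) < 1) :
    s a = a := by
  have key : ∀ r, s r = r → vC (a - r) < 1 → s a = -a → False := fun r hr h h' => by
    have h1 : vC (-a - r) < 1 := by rw [← h', ← hr, ← map_sub, hi]; exact h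
    have h3 := (vC.map_sub _ _).trans_lt (max_lt h h1)
    rw [show a - r - (-a - r) = 2 * a by ring, map_mul, h2, ha, one_mul] at h3
    exact lt_irrefl _ h3
  have h1 : (s a - a) * (s a + a) = 0 := by rw [map_pow] at hs; linear_combination hs
  rcases mul_eq_zero.1 h1 with h3 | h3
  · exact sub_eq_zero.1 h3
  · exfalso
    have h4 := eq_neg_of_add_eq_zero_left h3
    by_cases h5 : vC (a - r) < 1
    · exact key r hr h5 h4
    · refine key (-r) (by rw [map_neg, hr]) ?_ h4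
      by_contra h6
      rw [show a ^ 2 - r ^ 2 = (a - r) * (a - -r) by ring, map_mul] at h
      exact absurd h (not_lt.2 (one_le_mul (not_lt.1 h5) (not_lt.1 h6)))

/-- `p₁` is small, `2` and `p₂` are units -/
structure Sm (vC : Valuation C ℝ≥0) (P : Par C) : Prop where
  two : vC 2 = 1
  p1 : vC P.p1 < 1
  p2 : vC P.p2 = 1

namespace Sm

variable {P : Par C} (h : Sm vC P)
include h

theorem three : vC 3 ≤ 1 := by
  rw [show (3 : C) = 2 + 1 by norm_num]; exact v_add_le h.two.le (by simp)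

theorem p3 : vC P.p3 = 1 := by
  rw [P.p3_eq, show -P.p1 - P.p2 = -(P.p2 + P.p1) by ring, Valuation.map_neg]
  exact v_add_small h.p2 h.p1

theorem d1 : vC P.d1 = 1 := by
  rw [Par.d1, P.p3_eq, show P.p2 - (-P.p1 - P.p2) = 2 * P.p2 + P.p1 by ring]
  exact v_add_small (by rw [map_mul, h.two, h.p2, one_mul]) h.p1

theorem d2 : vC P.d2 = 1 := by
  rw [Par.d2, P.p3_eq, show -P.p1 - P.p2 - P.p1 = -(P.p2 + P.p1 * 2) by ring, Valuation.map_neg]
  exact v_add_small h.p2 (v_mul_small h.p1 h.two.le)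

theorem d3 : vC P.d3 = 1 := by
  rw [Par.d3, show P.p1 - P.p2 = -(P.p2 + -P.p1) by ring, Valuation.map_neg]
  exact v_add_small h.p2 (by rw [Valuation.map_neg]; exact h.p1)

theorem al : vC P.al = 1 := v_one_of_sq (by
  rw [P.al_sq, map_mul, Valuation.map_neg, map_pow, h.p2, h.d2]; simp)

theorem be : vC P.be = 1 := v_one_of_sq (by rw [P.be_sq, map_mul, map_pow, h.p3, h.d3]; simp)

theorem fix_al {s : C ≃+* C} (hi : ∀ c, vC (s c) = vC c) (h1 : s P.p1 = P.p1)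
    (h2 : s P.p2 = P.p2) : s P.al = P.al := by
  refine fix_sqrt hi h.two h.al ?_ (r := P.p2 ^ 2) (by rw [map_pow, h2]) ?_
  · rw [P.al_sq, Par.d2, P.p3_eq]; simp [h1, h2]
  · rw [P.al_sq, Par.d2, P.p3_eq, show -P.p2 ^ 3 * (-P.p1 - P.p2 - P.p1) - (P.p2 ^ 2) ^ 2 =
      P.p1 * (2 * P.p2 ^ 3) by ring]
    exact v_mul_small h.p1 (by rw [map_mul, map_pow, h.two, h.p2]; simp)

theorem fix_be {s : C ≃+* C} (hi : ∀ c, vC (s c) = vC c) (h1 : s P.p1 = P.p1)
    (h2 : s P.p2 = P.p2) : s P.be = P.be := by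
  refine fix_sqrt hi h.two h.be ?_ (r := P.p2 ^ 2) (by rw [map_pow, h2]) ?_
  · rw [P.be_sq, Par.d3, P.p3_eq]; simp [h1, h2]
  · rw [P.be_sq, Par.d3, P.p3_eq, show (-P.p1 - P.p2) ^ 3 * (P.p1 - P.p2) - (P.p2 ^ 2) ^ 2 =
      P.p1 * (2 * P.p2 ^ 3 + P.p1 * P.p1 * -(P.p1 + 2 * P.p2)) by ring]
    refine v_mul_small h.p1 (v_add_le (by rw [map_mul, map_pow, h.two, h.p2]; simp)
      (v_mul_le (v_mul_le h.p1.le h.p1.le) ?_))
    rw [Valuation.map_neg]
    exact v_add_le h.p1.le (v_mul_le h.two.le h.p2.le)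

theorem a1 : vC P.a1 = vC P.p1 := by
  rw [Par.a1, map_div₀, Valuation.map_neg, h.d1, div_one]

theorem a2 : vC P.a2 = (vC P.p1)⁻¹ := by
  rw [Par.a2, map_div₀, Valuation.map_neg, h.d1, one_div]

theorem prod : vC (P.al + P.be) * vC (P.al - P.be) = vC P.p1 ^ 3 := by
  rw [← map_mul, P.sq_sub, map_mul, map_pow, h.d1, mul_one]

theorem aux (ε : C) (hε : vC ε ≤ 1) :
    vC (P.p1 * (P.be * P.p2 + ε * P.al * (P.p1 * 2 + 3 * P.p2))) < 1 :=
  v_mul_small h.p1 (v_add_le (v_mul_le h.be.le h.p2.le) (v_mul_le (v_mul_le hε h.al.le)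
    (v_add_le (v_mul_le h.p1.le h.two.le) (v_mul_le h.three h.p2.le))))

theorem c_eq : vC P.c = vC P.t * vC P.p1 * vC (P.be * P.d3 * P.p2 + P.al * P.d2 * P.p3) := by
  rw [P.c_eq, map_div₀, map_mul, map_mul, map_mul, map_mul, h.two, h.al, h.be]; simp

/-- the two cases -/
theorem cases : (vC P.a3 = vC P.p1 ^ 3 ∧ vC P.c = vC P.t * vC P.p1) ∨
    (vC P.a3 = (vC P.p1 ^ 3)⁻¹ ∧ vC P.c = vC P.t * vC P.p1 ^ 2) := by
  have h2 : vC (2 * P.al) = 1 := by rw [map_mul, h.two, h.al, one_mul]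
  have hp : vC (P.p2 ^ 2) = 1 := by rw [map_pow, h.p2, one_pow]
  by_cases h1 : vC (P.al + P.be) < 1
  · have h3 : vC (P.al - P.be) = 1 := by
      rw [show P.al - P.be = 2 * P.al + -(P.al + P.be) by ring]
      exact v_add_small h2 (by rwa [Valuation.map_neg])
    have h4 := h.prod
    rw [h3, mul_one] at h4
    refine Or.inl ⟨by rw [P.a3_eq, map_div₀, h3, h4, div_one], ?_⟩
    rw [h.c_eq, show P.be * P.d3 * P.p2 + P.al * P.d2 * P.p3 = P.p2 ^ 2 * (P.al - P.be) +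
      P.p1 * (P.be * P.p2 + 1 * P.al * (P.p1 * 2 + 3 * P.p2)) by
        rw [Par.d3, Par.d2, P.p3_eq]; ring,
      v_add_small (by rw [map_mul, hp, h3, one_mul]) (h.aux 1 (by simp)), mul_one]
  · have h3 : vC (P.al + P.be) = 1 := le_antisymm (v_add_le h.al.le h.be.le) (not_lt.1 h1)
    have h4 := h.prod
    rw [h3, one_mul] at h4
    refine Or.inr ⟨by rw [P.a3_eq, map_div₀, h3, h4, one_div], ?_⟩
    have h5 : vC (P.be * P.d3 * P.p2 - P.al * P.d2 * P.p3) = 1 := by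
      rw [show P.be * P.d3 * P.p2 - P.al * P.d2 * P.p3 = -(P.p2 ^ 2 * (P.al + P.be)) +
        P.p1 * (P.be * P.p2 + (-1) * P.al * (P.p1 * 2 + 3 * P.p2)) by
          rw [Par.d3, Par.d2, P.p3_eq]; ring]
      exact v_add_small (by rw [Valuation.map_neg, map_mul, hp, h3, one_mul])
        (h.aux (-1) (by simp))
    have h6 := congrArg vC P.sq_sub3
    rw [map_mul, h5, Valuation.map_neg] at h6
    simp only [map_mul, map_pow, h.p2, h.p3, h.d1, one_pow, mul_one, one_mul] at h6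
    rw [h.c_eq, h6]; ring

end Sm

end val

theorem Fm_perm {C : Type*} [Field C] (c a1 a2 a3 : C) : Fm c a1 a2 a3 = Fm c a3 a1 a2 := by
  unfold Fm; ring

theorem map_F_of {C : Type*} [Field C] (P : Par C) (s : C ≃+* C) (h1 : s P.p1 = P.p1)
    (h2 : s P.p2 = P.p2) (ht : s P.t = P.t) (ha : s P.al = P.al) (hb : s P.be = P.be) :
    P.F.map (s : C →+* C) = P.F := by
  have h3 : s P.p3 = P.p3 := by rw [P.p3_eq]; simp [h1, h2]
  rw [← P.map_F]
  simp only [Par.F, Par.c, Par.a1, Par.a2, Par.a3, Par.d1, Par.d2, Par.d3, Par.map_p1, Par.map_p2,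
    Par.map_p3, Par.map_t, Par.map_al, Par.map_be, RingHom.coe_coe, h1, h2, h3, ht, ha, hb]

section k4

variable {C K : Type} [Field C] [IsAlgClosed C] [CharZero C] [Field K] [Algebra C K]
  [Algebra (RatFunc C) K] [IsScalarTower C (RatFunc C) K] [FiniteDimensional (RatFunc C) K]
  [Algebra.IsSeparable (RatFunc C) K] {vC : Valuation C ℝ≥0}

/-- **the row `p₁`, odd valuation** -/
theorem k4 {P : Par C} (h : Sm vC P) {p : ℕ} (hp : p.Prime) (hpv : vC p < 1) {x w : K}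
    (hy : Hyp P.F x w) {lam : C} (hl : lam ≠ 0) {m j : ℤ} (hm : Odd m)
    (h1 : vC P.p1 = vC lam ^ (4 * m)) (ht : vC P.t = vC lam ^ (4 * j)) {n : ℕ} (hn : vC n = 1) :
    K4 vC x w lam n := by
  intro e ε hε hs hlam hx hw y hy0
  haveI := isAlgClosed_res vC.valuationSubring
  obtain ⟨ρ, hr, -⟩ := exists_isRes vC
  have h2 : (2 : IsLocalRing.ResidueField vC.valuationSubring) ≠ 0 := by
    have := (hr.ne_zero_iff h.two.le).2 h.two
    rwa [← one_add_one_eq_two, hr.add _ _ (by simp) (by simp), hr.one, one_add_one_eq_two] at this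
  have hvl : vC lam ≠ 0 := by simpa using hl
  have h0 : 0 < vC P.p1 := by simpa [pos_iff_ne_zero] using P.h1
  have hd := P.natDegree_F two_ne_zero
  have v1 : vC P.a1 = vC lam ^ (4 * m) := by rw [h.a1, h1]
  have v2 : vC P.a2 = vC lam ^ (4 * -m) := by rw [h.a2, h1, ← zpow_neg]; congr 1; ring
  have l12 : vC P.a1 < vC P.a2 := by
    rw [h.a1, h.a2]; exact h.p1.trans ((one_lt_inv₀ h0).2 h.p1)
  have l3 : vC P.p1 ^ 3 < vC P.p1 := pow_lt_self_of_lt_one₀ h0 h.p1 (by norm_num)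
  have v3 : vC P.p1 ^ 3 = vC lam ^ (4 * (3 * m)) := by
    rw [h1, ← zpow_natCast, ← zpow_mul]; congr 1; push_cast; ring
  have o3 : Odd (3 * m) := Odd.mul (by decide) hm
  rcases h.cases with ⟨a, b⟩ | ⟨a, b⟩
  · rw [Par.F, Fm_perm] at hy hd
    exact chain hr h2 hp hpv hy hd (by rw [a, h.a1]; exact l3) l12 hl hε (n0 := j + m)
      (by rw [b, ht, h1, ← zpow_add₀ hvl]; congr 1; ring) (by rw [a, v3]) v1 v2 o3 hm hm.neg
      e hs hlam hx hw hn hy0
  · exact chain hr h2 hp hpv hy hd l12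
      (by rw [a, h.a2]; exact (inv_lt_inv₀ h0 (pow_pos h0 3)).2 l3) hl hε (n0 := j + 2 * m)
      (by rw [b, ht, h1, ← zpow_natCast, ← zpow_mul, ← zpow_add₀ hvl]; congr 1; push_cast; ring)
      v1 v2 (by rw [a, v3, ← zpow_neg]; congr 1; ring) hm hm.neg o3.neg
      e hs hlam hx hw hn hy0

end k4

section cx

variable {Y : Type} [Field Y] [Algebra ℂ Y] [Algebra (RatFunc ℂ) Y]
  [IsScalarTower ℂ (RatFunc ℂ) Y] [FiniteDimensional (RatFunc ℂ) Y]
  [Algebra.IsSeparable (RatFunc ℂ) Y]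

theorem vC_int (ι : Om →+* ℂ) (Q : Place Om) {a : ℤ} (ha : ¬ (Q.rchar : ℤ) ∣ a) :
    Cg.vC ι Q (a : ℂ) = 1 := by
  have := Cg.vC_natCast_eq_one ι Q (n := a.natAbs) (by rwa [← Int.natCast_dvd])
  rcases Int.natAbs_eq a with h | h
  · rw [h]; simpa using this
  · rw [h]; simpa using this

/-- **IRR at one prime** -/
theorem irr (P : Par ℂ) {z w : Y} (hy : Hyp P.F z w) {l : ℕ} (hl : l.Prime) (h4 : l % 4 = 3)
    {a p2 t : ℤ} (e1 : P.p1 = (l * a : ℤ)) (e2 : P.p2 = p2) (et : P.t = t) (ha : ¬ (l : ℤ) ∣ a)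
    (h2 : ¬ (l : ℤ) ∣ p2) (ht : ¬ (l : ℤ) ∣ t) {n : ℕ} (hn : ¬ l ∣ n) :
    ∃ e e' : SI ℂ Y ℂ Y,
      (e.s P.p1 = P.p1 ∧ e.s P.p2 = P.p2 ∧ e.s P.t = P.t ∧ e.s P.al = P.al ∧ e.s P.be = P.be) ∧
      (e'.s P.p1 = P.p1 ∧ e'.s P.p2 = P.p2 ∧ e'.s P.t = P.t ∧ e'.s P.al = P.al ∧
        e'.s P.be = P.be) ∧
      e.f z = z ∧ e.f w = w ∧ e'.f z = z ∧ e'.f w = w ∧ ∀ x : Pic ℂ Y, n • x = 0 →
        e.pic (e.pic x) = -x ∧ e'.pic (e.pic x) = -e.pic (e'.pic x) := by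
  obtain ⟨Q, rfl⟩ := TwAsm.exists_place_rchar hl
  let ι : Om →+* ℂ := (IsAlgClosed.lift : Om →ₐ[ℚ] ℂ)
  set v := Cg.vC ι Q with hv
  have hl0 : (Q.rchar : Om) ≠ 0 := by exact_mod_cast hl.ne_zero
  have v2 : v 2 = 1 := by
    simpa using Cg.vC_natCast_eq_one ι Q (n := 2) fun h => by
      have := Nat.le_of_dvd two_pos h
      omega
  have vl : v Q.rchar < 1 := Cg.vC_rchar_lt_one ι Q
  have v1 : v P.p1 = v Q.rchar := by
    rw [e1]; push_cast; rw [map_mul, vC_int ι Q ha, mul_one]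
  have hS : Sm v P := ⟨v2, by rwa [v1], by rw [e2]; exact vC_int ι Q h2⟩
  obtain ⟨lam, hlam⟩ := IsAlgClosed.exists_pow_nat_eq (Q.rchar : Om) (n := 4) (by norm_num)
  have lam0 : lam ≠ 0 := by rintro rfl; exact hl0 (by rw [← hlam]; ring)
  obtain ⟨σ, hσ, hm⟩ := Rb.exists_move Q (x := lam ^ 2) (j := -1) (by decide) (by
    rw [← pow_mul, hlam, zpow_neg_one, mul_inv_cancel₀ hl0, map_one])
  obtain ⟨τ, hτ1, hτ⟩ := Place.exists_frob (F := ℚ) Q
  rw [R018.FDEx389.qv_rat] at hτ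
  have hσ1 : σ ∈ MulAction.stabilizer Gam Q :=
    Cg.frob_mem Q one_ne_zero fun x => by rw [pow_one]; exact hσ x
  set s := Cg.lft ι Q ⟨σ, hσ1⟩
  set s' := Cg.lft ι Q ⟨τ, hτ1⟩
  have fx : ∀ u : ℂ ≃+* ℂ, (∀ c, v (u c) = v c) → u P.p1 = P.p1 ∧ u P.p2 = P.p2 ∧ u P.t = P.t ∧
      u P.al = P.al ∧ u P.be = P.be := fun u hu => by
    have f1 : u P.p1 = P.p1 := by rw [e1, map_intCast]
    have f2 : u P.p2 = P.p2 := by rw [e2, map_intCast]
    exact ⟨f1, f2, by rw [et, map_intCast], hS.fix_al hu f1 f2, hS.fix_be hu f1 f2⟩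
  have f := fx s (Cg.vC_lft ι Q _)
  have f' := fx s' (Cg.vC_lft ι Q _)
  obtain ⟨e, es, ez, ew⟩ := exists_SI hy hy s (map_F_of P s f.1 f.2.1 f.2.2.1 f.2.2.2.1 f.2.2.2.2)
  obtain ⟨e', es', ez', ew'⟩ :=
    exists_SI hy hy s' (map_F_of P s' f'.1 f'.2.1 f'.2.2.1 f'.2.2.2.1 f'.2.2.2.2)
  have L0 : ι lam ≠ 0 := by simpa using lam0
  have L4 : ι lam ^ 4 = Q.rchar := by rw [← map_pow, hlam, map_natCast]
  have hK : K4 v z w (ι lam) n := k4 hS hl vl hy L0 (m := 1) (j := 0) odd_one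
    (by rw [v1, ← L4, map_pow]; norm_cast) (by rw [et, vC_int ι Q ht]; simp)
    (Cg.vC_natCast_eq_one ι Q hn)
  have hi0 : (σ lam / lam) ^ 2 = -1 := by
    have h5 : (σ lam ^ 2 - lam ^ 2) * (σ lam ^ 2 + lam ^ 2) = 0 := by
      have : σ lam ^ 4 = lam ^ 4 := by rw [← map_pow, hlam, map_natCast]
      linear_combination this
    have h6 := (mul_eq_zero.1 h5).resolve_left fun h => hm (by rw [map_pow]; exact sub_eq_zero.1 h)
    rw [div_pow, div_eq_iff (pow_ne_zero 2 lam0)]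
    linear_combination h6
  set i := ι (σ lam / lam) with hi
  have hii : i ^ 2 = -1 := by rw [hi, ← map_pow, hi0, map_neg, map_one]
  have vi : v i = 1 := v_one_of_sq (by rw [hii, Valuation.map_neg, map_one])
  have h3 : s' i = -i := by
    have h5 : (s' i - i) * (s' i + i) = 0 := by
      have : s' i ^ 2 = -1 := by rw [← map_pow, hii, map_neg, map_one]
      linear_combination this - hii
    rcases mul_eq_zero.1 h5 with h6 | h6
    · exfalso
      have h7 := Cg.vC_lft_sub_pow ι Q ⟨τ, hτ1⟩ Q.rchar hτ vi.le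
      have h8 : i ^ Q.rchar = -i := by
        rw [← Nat.div_add_mod Q.rchar 4, h4, pow_add, pow_mul,
          show i ^ 4 = (i ^ 2) ^ 2 by ring, show i ^ 3 = i ^ 2 * i by ring, hii]
        simp
      change v (s' i - _) < 1 at h7
      rw [sub_eq_zero.1 h6, h8, show i - -i = 2 * i by ring, map_mul, v2, vi, one_mul] at h7
      exact lt_irrefl _ h7
    · exact eq_neg_of_add_eq_zero_left h6
  refine ⟨e, e', es ▸ f, es' ▸ f', ez, ew, ez', ew', fun x hx => ?_⟩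
  refine irr_abs hK hy (by rw [P.natDegree_F two_ne_zero]; decide) (by rintro rfl; simp at hn) v2 L0
    e e' (fun c hc => ?_) (fun c => ?_) hii ?_ (es' ▸ h3) (by rw [L4, map_natCast]) ez ew ez' ew' hx
  · rw [es]; exact Cg.vC_lft_sub ι Q _ hσ hc
  · rw [es']; exact Cg.vC_lft ι Q _ c
  · rw [es, hi, ← map_mul, div_mul_cancel₀ _ lam0]
    exact Cg.lft_iota ι Q _ lam

/-- **IRR from the certificate** -/
theorem irr_cert {del : ℚ} {m p1 p2 p3 t D : ℤ} (hC : Ar.Cert del m p1 p2 p3 t D) (P : Par ℂ)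
    (e1 : P.p1 = p1) (e2 : P.p2 = p2) (et : P.t = t) {z w : Y} (hy : Hyp P.F z w) {l : ℕ}
    (hl : l.Prime) (n : ℕ) : ∃ e e' : SI ℂ Y ℂ Y,
      (e.s P.p1 = P.p1 ∧ e.s P.p2 = P.p2 ∧ e.s P.t = P.t ∧ e.s P.al = P.al ∧ e.s P.be = P.be) ∧
      (e'.s P.p1 = P.p1 ∧ e'.s P.p2 = P.p2 ∧ e'.s P.t = P.t ∧ e'.s P.al = P.al ∧
        e'.s P.be = P.be) ∧
      e.f z = z ∧ e.f w = w ∧ e'.f z = z ∧ e'.f w = w ∧ ∀ x : Pic ℂ Y, l ^ n • x = 0 →
        e.pic (e.pic x) = -x ∧ e'.pic (e.pic x) = -e.pic (e'.pic x) := by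
  obtain ⟨q, hq, h4, hv, hne⟩ : ∃ q : ℕ, q.Prime ∧ q % 4 = 3 ∧ padicValInt q p1 = 1 ∧ q ≠ l := by
    by_cases h : l = 7
    · exact ⟨19, by norm_num, rfl, hC.v19, by omega⟩
    · exact ⟨7, by norm_num, rfl, hC.v7, fun h' => h h'.symm⟩
  haveI : Fact q.Prime := ⟨hq⟩
  have hd : (q : ℤ) ∣ p1 := (Ar.dvd_iff_val hC.p1_ne).2 (by omega)
  obtain ⟨b2, b3, c1, c2, c3⟩ := hC.only_p1 hq (by omega) hd
  have hs := hC.val_sum q
  rw [hv, Ar.val_zero b2, Ar.val_zero b3, Ar.val_zero c1, Ar.val_zero c2, Ar.val_zero c3] at hs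
  obtain ⟨a, rfl⟩ := hd
  refine irr P hy hq h4 e1 e2 et (fun h => ?_) b2 (fun h => ?_) fun h => ?_
  · have h1 : (q : ℤ) ^ 2 ∣ q * a := by rw [sq]; exact mul_dvd_mul_left _ h
    rw [padicValInt_dvd_iff] at h1
    rcases h1 with h1 | h1
    · exact hC.p1_ne h1
    · omega
  · have := (Ar.dvd_iff_val hC.t_ne).1 h
    omega
  · exact hne ((Nat.prime_dvd_prime_iff_eq hq hl).1 (hq.dvd_of_dvd_pow h))

end cx

end Crest.Agent.T15.Irr
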