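import Crest.Agent.T15.Rk1_31
import Crest.Agent.T15.RhoD_86

/-!
# Row 15, block F (helper16): the correspondence `j = push ∘ r ∘ con` on `Pic` and on the Tate module

`Y ⊆ K` is a quadratic Galois extension of function fields with group `{1, g}`, `r` an automorphism
of `K` with `g r g = r⁻¹` whose sixth power induces `-1` on `Pic⁰ Y`.
-/

set_option autoImplicit false
set_option linter.all false

noncomputable section

namespace Crest.Agent.T15.Jy

open Module
open Crest.Agent.R013.PicD_398 Crest.Agent.R013.Frob1_914 Crest.Agent.R013.TP_928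
open Crest.Agent.T15.Wp Crest.Agent.T15.Rk

variable {k : Type*} [Field k] [IsAlgClosed k] {Y : Type*} [Field Y] [Algebra k Y]
  [Algebra (RatFunc k) Y] [IsScalarTower k (RatFunc k) Y] [FiniteDimensional (RatFunc k) Y]
  [Algebra.IsSeparable (RatFunc k) Y]
  {K : Type*} [Field K] [Algebra k K] [Algebra Y K] [IsScalarTower k Y K]
  [FiniteDimensional Y K] [Algebra.IsSeparable Y K]
  [Algebra (RatFunc k) K] [IsScalarTower k (RatFunc k) K] [FiniteDimensional (RatFunc k) K]
  [Algebra.IsSeparable (RatFunc k) K]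

variable (Y) in
/-- the correspondence attached to an automorphism of `K` -/
def J (r : SI k K k K) : Pic k Y →+ Pic k Y :=
  (pushP Y).comp (r.pic.toAddMonoidHom.comp (conP K))

theorem J_apply (r : SI k K k K) (a : Pic k Y) : J Y r a = pushP Y (r.pic (conP K a)) := rfl

theorem deg_con {a : Pic k Y} (h : degPic a = 0) : degPic (conP K a) = 0 := by
  rw [degPic_conP, h, mul_zero]

theorem deg_J (r : SI k K k K) {a : Pic k Y} (h : degPic a = 0) : degPic (J Y r a) = 0 := by
  rw [J_apply, degPic_pushP, SI.degPic_pic, deg_con h]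

/-- an isomorphism that extends to `K` and commutes with `r` commutes with `J` -/
theorem comm_J (r : SI k K k K) {e : SI k Y k Y} {e' : SI k K k K}
    (h : ∀ f, e'.f (algebraMap Y K f) = algebraMap Y K (e.f f))
    (hr : ∀ f, e'.f (r.f f) = r.f (e'.f f)) (a : Pic k Y) : e.pic (J Y r a) = J Y r (e.pic a) := by
  rw [J_apply, J_apply, ← pushP_SI h, conP_SI h, ← pic_comp (e := r.trans e') (fun _ => rfl),
    ← pic_comp (e := r.trans e') (fun f => hr f)]

theorem pic_symm (r : SI k K k K) (y : Pic k K) : r.symm.pic (r.pic y) = y :=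
  (pic_comp (e := SI.refl k K) (e₁ := r.symm) (e₂ := r)
    (fun f => (r.f.symm_apply_apply f).symm) y).symm.trans (pic_refl y)

theorem pic_symm' (r : SI k K k K) (y : Pic k K) : r.pic (r.symm.pic y) = y := pic_symm r.symm y

variable (Y) in
/-- the data: `Gal(K/Y) = {1, g}`, `g r g = r⁻¹` -/
structure Dat (r : SI k K k K) (g : K ≃ₐ[Y] K) : Prop where
  gal : IsGalois Y K
  two : finrank Y K = 2
  g1 : g ≠ 1
  grg : ∀ f, r.f (g (r.f (g f))) = f

namespace Dat

variable {r : SI k K k K} {g : K ≃ₐ[Y] K} (H : Dat Y r g)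
include H

theorem gg (f : K) : g (g f) = f := by
  haveI := H.gal
  have h : g ^ 2 = 1 := by
    rw [← H.two, ← IsGalois.card_aut_eq_finrank]; exact pow_card_eq_one'
  exact congrArg (fun s : K ≃ₐ[Y] K => s f) ((sq g).symm.trans h)

theorem g_r (y : Pic k K) : (siOf k g).pic (r.pic y) = r.symm.pic ((siOf k g).pic y) := by
  rw [← pic_comp (e := r.trans (siOf k g)) (fun _ => rfl)]
  refine pic_comp (fun f => ?_) y
  show g (r.f f) = r.f.symm (g f)
  rw [RingEquiv.eq_symm_apply]
  have := H.grg (g f)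
  rwa [H.gg] at this

theorem con_J (a : Pic k Y) :
    conP K (J Y r a) = r.pic (conP K a) + r.symm.pic (conP K a) := by
  haveI := H.gal
  rw [J_apply, conP_pushP_two H.two H.g1, H.g_r, siOf_conP]

theorem push_r (y : Pic k K) (hy : (siOf k g).pic y = y) :
    pushP Y (r.symm.pic y) = pushP Y (r.pic y) := by
  rw [← pushP_siOf g (r.pic y), H.g_r, hy]

theorem J_symm (a : Pic k Y) : J Y r.symm a = J Y r a := H.push_r _ (siOf_conP g a)

theorem push_con (a : Pic k Y) : pushP Y (conP K a) = 2 • a := by rw [pushP_conP, H.two]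

/-- `J a = 0` forces `r² = -1` on the conorm -/
theorem rr_of_J {a : Pic k Y} (h : J Y r a = 0) :
    r.pic (r.pic (conP K a)) = -conP K a := by
  have h1 := congrArg r.pic (H.con_J a)
  rw [h, map_zero, map_zero, map_add, pic_symm'] at h1
  exact eq_neg_of_add_eq_zero_left h1.symm

end Dat

/-- `r⁶ = -1` on the conorm of `Pic⁰ Y` -/
def Six (Y : Type*) [Field Y] [Algebra k Y] [Algebra (RatFunc k) Y] [IsScalarTower k (RatFunc k) Y]
    [FiniteDimensional (RatFunc k) Y] [Algebra.IsSeparable (RatFunc k) Y] [Algebra Y K]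
    [IsScalarTower k Y K] [FiniteDimensional Y K] [Algebra.IsSeparable Y K] (r : SI k K k K) : Prop :=
  ∀ a : Pic k Y, degPic a = 0 →
    r.pic (r.pic (r.pic (r.pic (r.pic (r.pic (conP K a)))))) = -conP K a

theorem six_of {r : SI k K k K} {ι : SI k Y k Y}
    (h : ∀ f, r.f (r.f (r.f (r.f (r.f (r.f (algebraMap Y K f)))))) = algebraMap Y K (ι.f f))
    (hι : ∀ a : Pic k Y, degPic a = 0 → ι.pic a = -a) : Six Y r := fun a ha => by
  have h1 := conP_SI (e := ι) (e' := r.trans (r.trans (r.trans (r.trans (r.trans r))))) h a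
  rw [hι a ha, map_neg] at h1
  simp only [SI.pic_trans] at h1
  exact h1.symm

namespace Dat

variable {r : SI k K k K} {g : K ≃ₐ[Y] K} (H : Dat Y r g) (h6 : Six Y r)
include H h6

theorem two_JJJ {a : Pic k Y} (ha : degPic a = 0) :
    2 • (J Y r (J Y r (J Y r a)) - 3 • J Y r a) = 0 := by
  set c := conP K a with hc
  have e1 : J Y r (J Y r (J Y r a)) = pushP Y (r.pic (r.pic (r.pic c))) + 3 • J Y r a := by
    rw [J_apply r (J Y r (J Y r a)), H.con_J, H.con_J]
    simp only [map_add, pic_symm, pic_symm']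
    rw [← hc, H.push_r c (siOf_conP g a), J_apply, ← hc]
    abel
  have e2 : (siOf k g).pic (r.pic (r.pic (r.pic c))) = -r.pic (r.pic (r.pic c)) := by
    rw [H.g_r, H.g_r, H.g_r, siOf_conP, ← hc]
    have := congrArg (fun y => r.symm.pic (r.symm.pic (r.symm.pic y))) (h6 a ha)
    simp only [pic_symm, map_neg] at this
    rw [← hc] at this
    rw [this, neg_neg]
  have e3 := pushP_siOf g (r.pic (r.pic (r.pic c)))
  rw [e2, map_neg] at e3
  rw [e1, add_sub_cancel_right, two_nsmul]
  exact add_eq_zero_iff_eq_neg.2 e3.symm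

/-- **`J³ = 3 J` on `Pic⁰`** -/
theorem JJJ [CharZero k] {a : Pic k Y} (ha : degPic a = 0) :
    J Y r (J Y r (J Y r a)) = 3 • J Y r a := by
  obtain ⟨b, hb⟩ := (divH k two_ne_zero).pic0 (K := Y) two_ne_zero ⟨a, ha⟩
  have hb' : 2 • (b : Pic k Y) = a := congrArg Subtype.val hb
  have h := H.two_JJJ h6 (a := b) b.2
  rw [← hb', map_nsmul, map_nsmul, map_nsmul, smul_comm, ← sub_eq_zero, ← nsmul_sub]
  exact h

/-- **`y J = - J y` on `Pic⁰`** -/
theorem anti_J {y : SI k Y k Y} {y' : SI k K k K}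
    (h : ∀ f, y'.f (algebraMap Y K f) = algebraMap Y K (y.f f))
    (hr : ∀ f, y'.f (r.f f) = r.f (r.f (r.f (r.f (r.f (y'.f f)))))) {a : Pic k Y}
    (ha : degPic a = 0) : J Y r (y.pic a) = -y.pic (J Y r a) := by
  have hy : degPic (y.pic a) = 0 := by rw [SI.degPic_pic, ha]
  have e1 : y'.pic (r.pic (conP K a)) = -r.symm.pic (conP K (y.pic a)) := by
    rw [← pic_comp (e := r.trans y') (fun _ => rfl),
      pic_ext (e' := y'.trans (r.trans (r.trans (r.trans (r.trans r))))) hr]
    simp only [SI.pic_trans]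
    rw [← conP_SI h, ← map_neg, ← h6 _ hy, pic_symm]
  rw [J_apply r a, ← pushP_SI h, e1, map_neg, neg_neg, ← J_apply, H.J_symm]

end Dat

/-! ## Tate modules -/

section tate

variable {p : ℕ} [hp : Fact p.Prime]

variable (p) in
/-- action of a semilinear automorphism on the Tate module -/
abbrev tm (e : SI k Y k Y) : Module.End ℤ_[p] (Tate p (Pic k Y)) :=
  Tate.map (e.pic : Pic k Y →+ Pic k Y)

theorem deg_tate (u : Tate p (Pic k Y)) (n : ℕ) : degPic (u n) = 0 :=
  degPic_eq_zero (ppow_ne n) (u.pow_smul_apply n)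

variable [NeZero (p : k)]

theorem tf_tm (e : SI k Y k Y) (he : e.s = RingEquiv.refl k) (u v : Tate p (Pic k Y)) :
    tf p (tm p e u) (tm p e v) = tf p u v := by
  rw [tf_SI, he, cyc_refl, one_mul]

/-- **`J` is self-adjoint** -/
theorem Dat.tf_J {r : SI k K k K} {g : K ≃ₐ[Y] K} (H : Dat Y r g) (hs : r.s = RingEquiv.refl k)
    (u v : Tate p (Pic k Y)) :
    tf p (Tate.map (J Y r) u) v = tf p u (Tate.map (J Y r) v) := by
  have e1 : Tate.map (J Y r) u = Tate.map (pushP Y) (tm p r (Tate.map (conP K) u)) := rfl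
  have e2 : Tate.map (J Y r) v = Tate.map (pushP Y) (tm p r.symm (Tate.map (conP K) v)) :=
    Tate.ext fun n => (H.J_symm (v n)).symm
  have e3 : Tate.map (conP K) v = tm p r (tm p r.symm (Tate.map (conP K) v)) :=
    Tate.ext fun n => (pic_symm' r _).symm
  rw [e1, e2, ← tf_con_right, ← tf_con_left]
  conv_lhs => rw [e3]
  exact tf_tm r hs _ _

end tate

/-! ## `J ≠ 0` -/

section ne

variable {E : Type*} [Field E] [Algebra k E] [Algebra (RatFunc k) E] [IsScalarTower k (RatFunc k) E]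
  [FiniteDimensional (RatFunc k) E] [Algebra.IsSeparable (RatFunc k) E]
  [Algebra E Y] [IsScalarTower k E Y] [FiniteDimensional E Y] [Algebra.IsSeparable E Y]

/-- on `ker J` the norm to the subfield `E` fixed by `g` and `r⁴` is injective up to `12` -/
theorem Dat.twelve {r : SI k K k K} {g : K ≃ₐ[Y] K} (H : Dat Y r g) (h3 : finrank E Y ≤ 3)
    (hE : ∀ f : E, r.f (r.f (r.f (r.f (algebraMap Y K (algebraMap E Y f))))) =
      algebraMap Y K (algebraMap E Y f))
    (h4 : ∃ f, r.f (r.f (r.f (r.f f))) ≠ f)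
    (h12 : ∀ f, r.f (r.f (r.f (r.f (r.f (r.f (r.f (r.f (r.f (r.f (r.f (r.f f))))))))))) = f)
    {a : Pic k Y} (ha : J Y r a = 0) (hp : pushP E a = 0) : 12 • a = 0 := by
  classical
  letI : Algebra E K := ((algebraMap Y K).comp (algebraMap E Y)).toAlgebra
  haveI : IsScalarTower E Y K := IsScalarTower.of_algebraMap_eq fun _ => rfl
  haveI : IsScalarTower k E K := IsScalarTower.of_algebraMap_eq fun c => by
    rw [IsScalarTower.algebraMap_apply k Y K, IsScalarTower.algebraMap_apply k E Y]; rfl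
  haveI : FiniteDimensional E K := Module.Finite.trans Y K
  haveI : Algebra.IsSeparable E K := Algebra.IsSeparable.trans E Y K
  let x : K ≃ₐ[E] K := AlgEquiv.ofRingEquiv (f := r.f.trans (r.f.trans (r.f.trans r.f))) hE
  let g' : K ≃ₐ[E] K := g.restrictScalars E
  have hx3 : orderOf x = 3 := by
    haveI : Fact (Nat.Prime 3) := ⟨Nat.prime_three⟩
    refine orderOf_eq_prime (AlgEquiv.ext fun f => h12 f) fun h => ?_
    obtain ⟨f, hf⟩ := h4
    exact hf (congrArg (fun s : K ≃ₐ[E] K => s f) h)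
  have hg2 : orderOf g' = 2 :=
    orderOf_eq_prime (AlgEquiv.ext fun f => H.gg f) fun h =>
      H.g1 (AlgEquiv.ext fun f => congrArg (fun s : K ≃ₐ[E] K => s f) h)
  have hle : finrank E K ≤ 6 := by
    rw [← finrank_mul_finrank E Y K, H.two]; omega
  let S : Subgroup (K ≃ₐ[E] K) :=
    { carrier := {s | (siOf k s).pic (conP K a) = conP K a}
      one_mem' := siOf_one _
      mul_mem' := fun {s t} hs ht => by
        show (siOf k (s * t)).pic _ = _
        rw [siOf_mul, ht, hs]
      inv_mem' := fun {s} hs => by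
        show (siOf k s⁻¹).pic _ = _
        conv_lhs => rw [← show (siOf k s).pic (conP K a) = conP K a from hs]
        rw [← siOf_mul, inv_mul_cancel, siOf_one] }
  have hxS : x ∈ S := by
    show (siOf k x).pic _ = _
    rw [pic_ext (e := siOf k x) (e' := r.trans (r.trans (r.trans r))) (fun _ => rfl)]
    simp only [SI.pic_trans]
    rw [H.rr_of_J ha, map_neg, map_neg, H.rr_of_J ha, neg_neg]
  have hgS : g' ∈ S := by
    show (siOf k g').pic _ = _
    rw [pic_ext (e := siOf k g') (e' := siOf k g) (fun _ => rfl), siOf_conP]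
  have h6 : 6 ∣ Nat.card S :=
    Nat.Coprime.mul_dvd_of_dvd_of_dvd (m := 2) (n := 3) (by norm_num)
      (hg2 ▸ S.orderOf_dvd_natCard hgS) (hx3 ▸ S.orderOf_dvd_natCard hxS)
  have c1 : Nat.card S ≤ Nat.card (K ≃ₐ[E] K) := S.card_le_card_group
  have c2 : Nat.card (K ≃ₐ[E] K) ≤ finrank E K := by
    rw [Nat.card_eq_fintype_card]; exact AlgEquiv.card_le
  have c3 : 6 ≤ Nat.card S := Nat.le_of_dvd Nat.card_pos h6
  haveI : IsGalois E K := IsGalois.of_card_aut_eq_finrank E K (by omega)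
  have hS : S = ⊤ := S.eq_top_of_le_card (by omega)
  have h7 := conP_pushP_of_inv (K := E) (y := conP K a) fun s => (hS ▸ Subgroup.mem_top s : s ∈ S)
  rw [← pushP_pushP (L := Y), H.push_con, map_nsmul, hp, nsmul_zero, map_zero,
    show finrank E K = 6 by omega] at h7
  have h8 := congrArg (pushP Y) h7
  rw [map_zero, map_nsmul, H.push_con, ← mul_nsmul'] at h8
  exact h8.symm

variable {p : ℕ} [hp : Fact p.Prime]

/-- the rank of `ker J` is at most the rank of the Tate module of `E` -/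
theorem Dat.finrank_ker_le {r : SI k K k K} {g : K ≃ₐ[Y] K} (H : Dat Y r g) (h3 : finrank E Y ≤ 3)
    (hE : ∀ f : E, r.f (r.f (r.f (r.f (algebraMap Y K (algebraMap E Y f))))) =
      algebraMap Y K (algebraMap E Y f))
    (h4 : ∃ f, r.f (r.f (r.f (r.f f))) ≠ f)
    (h12 : ∀ f, r.f (r.f (r.f (r.f (r.f (r.f (r.f (r.f (r.f (r.f (r.f (r.f f))))))))))) = f)
    [Module.Finite ℤ_[p] (Tate p (Pic k E))] :
    finrank ℤ_[p] (LinearMap.ker (Tate.map (p := p) (J Y r))) ≤ finrank ℤ_[p] (Tate p (Pic k E)) := by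
  refine LinearMap.finrank_le_finrank_of_injective
    (f := (Tate.map (pushP E)).comp (Submodule.subtype _)) ?_
  rw [injective_iff_map_eq_zero]
  intro u hu
  have h : (12 : ℕ) • (u : Tate p (Pic k Y)) = 0 := Tate.ext fun n => by
    rw [Tate.nsmul_apply]
    exact H.twelve h3 hE h4 h12 (congrArg (fun v : Tate p (Pic k Y) => v n) u.2)
      (congrArg (fun v : Tate p (Pic k E) => v n) hu)
  rw [← Nat.cast_smul_eq_nsmul ℤ_[p], smul_eq_zero] at h
  exact Subtype.ext (h.resolve_left (by norm_num))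

/-- **`J ≠ 0` on the Tate module** -/
theorem Dat.J_ne {r : SI k K k K} {g : K ≃ₐ[Y] K} (H : Dat Y r g) (h3 : finrank E Y ≤ 3)
    (hE : ∀ f : E, r.f (r.f (r.f (r.f (algebraMap Y K (algebraMap E Y f))))) =
      algebraMap Y K (algebraMap E Y f))
    (h4 : ∃ f, r.f (r.f (r.f (r.f f))) ≠ f)
    (h12 : ∀ f, r.f (r.f (r.f (r.f (r.f (r.f (r.f (r.f (r.f (r.f (r.f (r.f f))))))))))) = f)
    [Module.Finite ℤ_[p] (Tate p (Pic k E))]
    (hlt : finrank ℤ_[p] (Tate p (Pic k E)) < finrank ℤ_[p] (Tate p (Pic k Y))) :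
    Tate.map (p := p) (J Y r) ≠ 0 := fun h => by
  have := H.finrank_ker_le (p := p) h3 hE h4 h12
  rw [h, LinearMap.ker_zero, finrank_top] at this
  omega

end ne

/-! ## the package `WQ` -/

section wq

variable [CharZero k]

instance : Fact (Nat.Prime 3) := ⟨Nat.prime_three⟩

/-- the hypotheses of `Rho.WQ` for the Tate module of `Y` -/
def wq {G : Type*} [Group G] (s : G →* (k ≃+* k)) (e : G → SI k Y k Y) (hs : ∀ σ, (e σ).s = s σ)
    (e1 : ∀ f, (e 1).f f = f) (em : ∀ σ τ f, (e (σ * τ)).f f = (e σ).f ((e τ).f f))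
    (j : Pic k Y →+ Pic k Y) (y : SI k Y k Y) (ys : y.s = RingEquiv.refl k) (χ : G →* ℤˣ)
    (yy : ∀ a, degPic a = 0 → y.pic (y.pic a) = -a)
    (jjj : ∀ a, degPic a = 0 → j (j (j a)) = 3 • j a)
    (jy : ∀ a, degPic a = 0 → j (y.pic a) = -y.pic (j a))
    (j0 : Tate.map (p := 3) j ≠ 0)
    (ay : ∀ σ a, degPic a = 0 → (e σ).pic (y.pic a) = χ σ • y.pic ((e σ).pic a))
    (aj : ∀ σ a, (e σ).pic (j a) = j ((e σ).pic a))
    (ej : ∀ u v : Tate 3 (Pic k Y), tf 3 (Tate.map j u) v = tf 3 u (Tate.map j v)) :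
    Rho.WQ G (Tate 3 (Pic k Y)) where
  act :=
    { toFun σ := tm 3 (e σ)
      map_one' := LinearMap.ext fun u => Tate.ext fun n => pic_of_id e1 (u n)
      map_mul' σ τ := LinearMap.ext fun u => Tate.ext fun n => pic_comp (em σ τ) (u n) }
  y := tm 3 y
  j := Tate.map j
  yy u := Tate.ext fun n => yy _ (deg_tate u n)
  jjj u := Tate.ext fun n => by
    rw [show (3 : ℤ_[3]) = ((3 : ℕ) : ℤ_[3]) by norm_num, Tate.natCast_smul_apply]
    exact jjj _ (deg_tate u n)
  jy u := Tate.ext fun n => jy _ (deg_tate u n)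
  j0 := j0
  χ := χ
  ay σ u := Tate.ext fun n => by
    have := ay σ _ (deg_tate u n)
    rcases Int.units_eq_one_or (χ σ) with h | h <;> rw [h] at this ⊢
    · rw [one_smul] at this ⊢; exact this
    · rw [Units.neg_smul, one_smul] at this ⊢; exact this
  aj σ u := Tate.ext fun n => aj σ (u n)
  cyc := (cyclotomicCharacter k 3).comp s
  e := tf 3
  alt := tf_self
  nd u h := eq_zero_of_tf h
  he σ u v := by
    have := tf_SI (p := 3) (e σ) u v
    rw [hs] at this
    exact this
  ey := tf_tm y ys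
  ej := ej

end wq

end Crest.Agent.T15.Jy
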