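import Crest.Agent.T15.K4Def_26

/-!
# K4: bilinear bound from a Fourier bound, counting lemma for the complete graph on 4 points
-/

set_option autoImplicit false

namespace Crest.Agent.T15.K4

open Finset

lemma ee_add (x y : ℝ) : ee (x + y) = ee x * ee y := by
  unfold ee; rw [← Complex.exp_add]; congr 1; push_cast; ring

lemma norm_ee (x : ℝ) : ‖ee x‖ = 1 := by
  unfold ee
  have : 2 * Real.pi * Complex.I * x = ((2 * Real.pi * x : ℝ) : ℂ) * Complex.I := by
    push_cast; ring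
  rw [this, Complex.norm_exp_ofReal_mul_I]

lemma ee_zero : ee 0 = 1 := by simp [ee]

lemma ee_neg (x : ℝ) : ee (-x) = (starRingEnd ℂ) (ee x) := by
  unfold ee
  rw [← Complex.exp_conj]
  congr 1
  simp [Complex.conj_ofReal, map_ofNat]

lemma ee_nat_mul (t : ℕ) (x : ℝ) : ee (t * x) = ee x ^ t := by
  unfold ee; rw [← Complex.exp_nat_mul]; congr 1; push_cast; ring

lemma ee_int (k : ℤ) : ee k = 1 := by
  unfold ee
  have : 2 * Real.pi * Complex.I * ((k : ℝ) : ℂ) = k * (2 * Real.pi * Complex.I) := by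
    push_cast; ring
  rw [this, Complex.exp_int_mul_two_pi_mul_I]

lemma ee_ne_one {x : ℝ} (h0 : x ≠ 0) (h1 : |x| < 1) : ee x ≠ 1 := by
  unfold ee
  intro h
  obtain ⟨k, hk⟩ := Complex.exp_eq_one_iff.1 h
  have h2 : (x : ℂ) = k := by
    have h3 : (2 * Real.pi * Complex.I : ℂ) ≠ 0 := Complex.two_pi_I_ne_zero
    apply mul_left_cancel₀ h3
    rw [hk]; ring
  have h4 : x = k := by exact_mod_cast h2
  rw [h4] at h0 h1
  have h5 : |k| < 1 := by exact_mod_cast h1
  have h6 : k ≠ 0 := by intro h; apply h0; rw [h]; simp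
  have := abs_pos.2 h6
  omega

/-- orthogonality -/
lemma orth (P : ℕ) (k : ℤ) (hk : |k| < P) :
    ∑ t ∈ range P, ee (k * (t / P)) = if k = 0 then (P : ℂ) else 0 := by
  have hP : (0 : ℝ) < P := by
    have : (0 : ℤ) < P := lt_of_le_of_lt (abs_nonneg k) hk
    exact_mod_cast this
  split_ifs with h
  · subst h; simp [ee_zero]
  · have h1 : ∀ t : ℕ, ee (k * (t / P)) = ee (k / P) ^ t := by
      intro t; rw [← ee_nat_mul]; congr 1; ring
    simp_rw [h1]
    have h2 : ee (k / P) ≠ 1 := by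
      apply ee_ne_one
      · have : (k : ℝ) ≠ 0 := by exact_mod_cast h
        positivity
      · rw [abs_div, abs_of_pos hP, div_lt_one hP]
        exact_mod_cast hk
    rw [geom_sum_eq h2, ← ee_nat_mul]
    have h3 : (P : ℝ) * (k / P) = k := by field_simp
    rw [h3, ee_int]; simp

/-- Parseval -/
lemma parseval (n P : ℕ) (hP : n ≤ P) (u : ℕ → ℝ) :
    ∑ t ∈ range P, ‖∑ x ∈ range n, (u x : ℂ) * ee (x * (t / P))‖ ^ 2 =
      P * ∑ x ∈ range n, u x ^ 2 := by
  have h1 : ∀ t : ℕ, ((‖∑ x ∈ range n, (u x : ℂ) * ee (x * (t / P))‖ ^ 2 : ℝ) : ℂ) =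
      ∑ x ∈ range n, ∑ y ∈ range n, (u x : ℂ) * u y * ee ((((x : ℤ) - y : ℤ) : ℝ) * (t / P)) := by
    intro t
    rw [← Complex.normSq_eq_norm_sq, ← Complex.mul_conj, map_sum, Finset.sum_mul_sum]
    refine sum_congr rfl fun x _ => sum_congr rfl fun y _ => ?_
    rw [map_mul, Complex.conj_ofReal, ← ee_neg]
    have : ((((x : ℤ) - y : ℤ) : ℝ)) * (t / P) = x * (t / P) + -(y * (t / P)) := by
      push_cast; ring
    rw [this, ee_add]; ring
  apply Complex.ofReal_injective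
  push_cast
  have h2 : ∀ t ∈ range P, (((‖∑ x ∈ range n, (u x : ℂ) * ee (x * (t / P))‖ : ℝ) : ℂ)) ^ 2 =
      ∑ x ∈ range n, ∑ y ∈ range n, (u x : ℂ) * u y * ee ((((x : ℤ) - y : ℤ) : ℝ) * (t / P)) := by
    intro t _
    rw [← h1 t]; push_cast; rfl
  rw [sum_congr rfl h2, sum_comm, mul_sum]
  refine sum_congr rfl fun x hx => ?_
  rw [sum_comm]
  have h3 : ∀ y ∈ range n, ∑ t ∈ range P, (u x : ℂ) * u y * ee ((((x : ℤ) - y : ℤ) : ℝ) * (t / P)) =
      if y = x then (P : ℂ) * (u x : ℂ) ^ 2 else 0 := by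
    intro y hy
    rw [← mul_sum, orth P _ (by
      have := mem_range.1 hx; have := mem_range.1 hy
      rw [abs_lt]; constructor <;> omega)]
    by_cases h : y = x
    · subst h; simp; ring
    · have : (x : ℤ) - y ≠ 0 := by omega
      simp [h, this]
  rw [sum_congr rfl h3, sum_ite_eq' (range n) x, if_pos hx]

/-- difference kernel -/
def ker (h : ℕ → ℝ) (x y : ℕ) : ℝ := if x ≤ y then h (y - x) else 0

/-- the bilinear form of a difference kernel is bounded by the Fourier supremum -/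
theorem bilin (n : ℕ) (h u v : ℕ → ℝ) (η K : ℝ)
    (hη : ∀ α : ℝ, ‖∑ m ∈ range n, (h m : ℂ) * ee (m * α)‖ ≤ η)
    (hu : ∀ x, |u x| ≤ K) (hv : ∀ x, |v x| ≤ K) :
    |∑ x ∈ range n, ∑ y ∈ range n, u x * ker h x y * v y| ≤ η * n * K ^ 2 := by
  rcases Nat.eq_zero_or_pos n with rfl | hn
  · simp
  have hη0 : 0 ≤ η := (norm_nonneg _).trans (hη 0)
  set P := 2 * n with hPdef
  have hP : (0 : ℝ) < P := by rw [hPdef]; positivity
  set U : ℕ → ℂ := fun t => ∑ x ∈ range n, (u x : ℂ) * ee (x * (t / P)) with hU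
  set W : ℕ → ℂ := fun t => ∑ x ∈ range n, (v x : ℂ) * ee (x * (t / P)) with hW
  set H : ℕ → ℂ := fun t => ∑ x ∈ range n, (h x : ℂ) * ee (x * (t / P)) with hH
  have key : ∑ t ∈ range P, U t * H t * (starRingEnd ℂ) (W t) =
      (P : ℂ) * ((∑ x ∈ range n, ∑ y ∈ range n, u x * ker h x y * v y : ℝ) : ℂ) := by
    have h1 : ∀ t ∈ range P, U t * H t * (starRingEnd ℂ) (W t) =
        ∑ x ∈ range n, ∑ y ∈ range n, ∑ m ∈ range n,
          (u x : ℂ) * h m * v y * ee ((((x : ℤ) + m - y : ℤ) : ℝ) * (t / P)) := by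
      intro t _
      simp only [hU, hH, hW]
      rw [map_sum, mul_right_comm, sum_mul_sum, sum_mul]
      refine sum_congr rfl fun x _ => ?_
      rw [sum_mul_sum]
      refine sum_congr rfl fun y _ => sum_congr rfl fun m _ => ?_
      rw [map_mul, Complex.conj_ofReal, ← ee_neg]
      have : ((((x : ℤ) + m - y : ℤ) : ℝ)) * (t / P) =
          x * (t / P) + m * (t / P) + -(y * (t / P)) := by
        push_cast; ring
      rw [this, ee_add, ee_add]; ring
    rw [sum_congr rfl h1, sum_comm]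
    push_cast
    rw [mul_sum]
    refine sum_congr rfl fun x hx => ?_
    rw [sum_comm, mul_sum]
    refine sum_congr rfl fun y hy => ?_
    rw [sum_comm]
    have hx' := mem_range.1 hx
    have hy' := mem_range.1 hy
    have h3 : ∀ m ∈ range n, ∑ t ∈ range P,
        (u x : ℂ) * h m * v y * ee ((((x : ℤ) + m - y : ℤ) : ℝ) * (t / P)) =
        if m = y - x then (if x ≤ y then (P : ℂ) * (u x * h (y - x) * v y) else 0) else 0 := by
      intro m hm
      have hm' := mem_range.1 hm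
      rw [← mul_sum, orth P _ (by rw [abs_lt]; constructor <;> omega)]
      by_cases h4 : (x : ℤ) + m - y = 0
      · have h5 : m = y - x := by omega
        have h6 : x ≤ y := by omega
        rw [if_pos h4, if_pos h5, if_pos h6, h5]; ring
      · rw [if_neg h4]
        by_cases h5 : m = y - x
        · have h6 : ¬ x ≤ y := by omega
          rw [if_pos h5, if_neg h6]; simp
        · rw [if_neg h5]; simp
    have h7 := sum_congr rfl h3
    push_cast at h7
    rw [h7, sum_ite_eq' (range n) (y - x), if_pos (mem_range.2 (by omega))]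
    unfold ker
    split_ifs <;> simp
  have hsq : ∀ w : ℕ → ℝ, (∀ x, |w x| ≤ K) → ∑ x ∈ range n, w x ^ 2 ≤ n * K ^ 2 := by
    intro w hw
    calc ∑ x ∈ range n, w x ^ 2 ≤ ∑ _x ∈ range n, K ^ 2 :=
          sum_le_sum fun x _ => by
            rw [← sq_abs]; exact pow_le_pow_left₀ (abs_nonneg _) (hw x) 2
      _ = n * K ^ 2 := by simp
  have pU := parseval n P (by omega) u
  have pW := parseval n P (by omega) v
  have bound : ‖∑ t ∈ range P, U t * H t * (starRingEnd ℂ) (W t)‖ ≤ P * (η * n * K ^ 2) := by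
    calc _ ≤ ∑ t ∈ range P, ‖U t * H t * (starRingEnd ℂ) (W t)‖ := norm_sum_le _ _
      _ ≤ ∑ t ∈ range P, η / 2 * (‖U t‖ ^ 2 + ‖W t‖ ^ 2) := by
          refine sum_le_sum fun t _ => ?_
          rw [norm_mul, norm_mul, Complex.norm_conj]
          have h1 : ‖H t‖ ≤ η := hη _
          have h2 := norm_nonneg (U t)
          have h3 := norm_nonneg (W t)
          have h4 : ‖U t‖ * ‖H t‖ * ‖W t‖ ≤ η * (‖U t‖ * ‖W t‖) := by
            have := mul_le_mul_of_nonneg_right h1 (mul_nonneg h2 h3)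
            nlinarith
          have h5 : 2 * (‖U t‖ * ‖W t‖) ≤ ‖U t‖ ^ 2 + ‖W t‖ ^ 2 := by
            nlinarith [sq_nonneg (‖U t‖ - ‖W t‖)]
          nlinarith [mul_le_mul_of_nonneg_left h5 hη0]
      _ = η / 2 * (P * ∑ x ∈ range n, u x ^ 2 + P * ∑ x ∈ range n, v x ^ 2) := by
          rw [← mul_sum, sum_add_distrib, pU, pW]
      _ ≤ η / 2 * (P * (n * K ^ 2) + P * (n * K ^ 2)) := by
          have := hsq u hu
          have := hsq v hv
          gcongr
      _ = P * (η * n * K ^ 2) := by ring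
  rw [key, norm_mul, Complex.norm_natCast, Complex.norm_real, Real.norm_eq_abs] at bound
  exact le_of_mul_le_mul_left bound hP

/-- fourfold sum -/
def S4 (s : Finset ℕ) (F : ℕ → ℕ → ℕ → ℕ → ℝ) : ℝ :=
  ∑ a ∈ s, ∑ b ∈ s, ∑ c ∈ s, ∑ d ∈ s, F a b c d

lemma S4_12 (s : Finset ℕ) (F : ℕ → ℕ → ℕ → ℕ → ℝ) : S4 s F = S4 s fun a b c d => F b a c d :=
  sum_comm

lemma S4_23 (s : Finset ℕ) (F : ℕ → ℕ → ℕ → ℕ → ℝ) : S4 s F = S4 s fun a b c d => F a c b d :=
  sum_congr rfl fun _ _ => sum_comm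

lemma S4_34 (s : Finset ℕ) (F : ℕ → ℕ → ℕ → ℕ → ℝ) : S4 s F = S4 s fun a b c d => F a b d c :=
  sum_congr rfl fun _ _ => sum_congr rfl fun _ _ => sum_comm

lemma S4_congr (s : Finset ℕ) {F G : ℕ → ℕ → ℕ → ℕ → ℝ} (h : ∀ a b c d, F a b c d = G a b c d) :
    S4 s F = S4 s G := by
  have : F = G := by funext a b c d; exact h a b c d
  rw [this]

lemma S4_add (s : Finset ℕ) (F G : ℕ → ℕ → ℕ → ℕ → ℝ) :
    S4 s (fun a b c d => F a b c d + G a b c d) = S4 s F + S4 s G := by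
  simp only [S4, sum_add_distrib]

/-- cut bound -/
def Cut (s : Finset ℕ) (H : ℕ → ℕ → ℝ) (K β : ℝ) : Prop :=
  ∀ u v : ℕ → ℝ, (∀ x, |u x| ≤ K) → (∀ x, |v x| ≤ K) →
    |∑ x ∈ s, ∑ y ∈ s, u x * H x y * v y| ≤ β

/-- bounded kernel -/
def Bd (W : ℕ → ℕ → ℝ) (L : ℝ) : Prop := ∀ x y, |W x y| ≤ L

lemma Bd.tr {W : ℕ → ℕ → ℝ} {L : ℝ} (h : Bd W L) : Bd (fun x y => W y x) L := fun x y => h y x

lemma one_edge (s : Finset ℕ) {H A B C D E : ℕ → ℕ → ℝ} {L β : ℝ} (hH : Cut s H (L ^ 2) β)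
    (hA : Bd A L) (hB : Bd B L) (hC : Bd C L) (hD : Bd D L) (hE : Bd E L) :
    |S4 s fun a b c d => E a b * A a c * B b c * C a d * D b d * H c d| ≤
      (s.card : ℝ) ^ 2 * (L * β) := by
  have hL : 0 ≤ L := (abs_nonneg _).trans (hA 0 0)
  have h1 : ∀ a b, |∑ c ∈ s, ∑ d ∈ s, E a b * A a c * B b c * C a d * D b d * H c d| ≤ L * β := by
    intro a b
    have h2 : ∑ c ∈ s, ∑ d ∈ s, E a b * A a c * B b c * C a d * D b d * H c d =
        E a b * ∑ c ∈ s, ∑ d ∈ s, (A a c * B b c) * H c d * (C a d * D b d) := by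
      rw [mul_sum]
      refine sum_congr rfl fun c _ => ?_
      rw [mul_sum]
      exact sum_congr rfl fun d _ => by ring
    have h3 := hH (fun c => A a c * B b c) (fun d => C a d * D b d)
      (fun c => by
        rw [abs_mul, sq]; exact mul_le_mul (hA a c) (hB b c) (abs_nonneg _) hL)
      (fun d => by
        rw [abs_mul, sq]; exact mul_le_mul (hC a d) (hD b d) (abs_nonneg _) hL)
    rw [h2, abs_mul]
    exact mul_le_mul (hE a b) h3 (abs_nonneg _) hL
  unfold S4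
  calc _ ≤ ∑ a ∈ s, |∑ b ∈ s, ∑ c ∈ s, ∑ d ∈ s, E a b * A a c * B b c * C a d * D b d * H c d| :=
        abs_sum_le_sum_abs _ _
    _ ≤ ∑ _a ∈ s, ∑ _b ∈ s, L * β := sum_le_sum fun a _ =>
        (abs_sum_le_sum_abs _ _).trans (sum_le_sum fun b _ => h1 a b)
    _ = (s.card : ℝ) ^ 2 * (L * β) := by simp; ring

/-- weighted count of complete graphs on four points -/
def T4 (s : Finset ℕ) (W01 W02 W12 W03 W13 W23 : ℕ → ℕ → ℝ) : ℝ :=
  S4 s fun a b c d => W01 a b * W02 a c * W12 b c * W03 a d * W13 b d * W23 c d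

/-- **counting lemma** -/
theorem counting (s : Finset ℕ) {F1 F2 F3 F4 F5 F6 G1 G2 G3 G4 G5 G6 : ℕ → ℕ → ℝ} {L β : ℝ}
    (f2 : Bd F2 L) (f3 : Bd F3 L) (f4 : Bd F4 L) (f5 : Bd F5 L) (f6 : Bd F6 L)
    (g1 : Bd G1 L) (g2 : Bd G2 L) (g3 : Bd G3 L) (g4 : Bd G4 L) (g5 : Bd G5 L)
    (c1 : Cut s (fun x y => F1 x y - G1 x y) (L ^ 2) β)
    (c2 : Cut s (fun x y => F2 x y - G2 x y) (L ^ 2) β)
    (c3 : Cut s (fun x y => F3 x y - G3 x y) (L ^ 2) β)
    (c4 : Cut s (fun x y => F4 x y - G4 x y) (L ^ 2) β)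
    (c5 : Cut s (fun x y => F5 x y - G5 x y) (L ^ 2) β)
    (c6 : Cut s (fun x y => F6 x y - G6 x y) (L ^ 2) β) :
    T4 s G1 G2 G3 G4 G5 G6 - 6 * ((s.card : ℝ) ^ 2 * (L * β)) ≤ T4 s F1 F2 F3 F4 F5 F6 := by
  have e : T4 s F1 F2 F3 F4 F5 F6 = T4 s G1 G2 G3 G4 G5 G6 +
      T4 s (fun x y => F1 x y - G1 x y) F2 F3 F4 F5 F6 +
      T4 s G1 (fun x y => F2 x y - G2 x y) F3 F4 F5 F6 +
      T4 s G1 G2 (fun x y => F3 x y - G3 x y) F4 F5 F6 +
      T4 s G1 G2 G3 (fun x y => F4 x y - G4 x y) F5 F6 +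
      T4 s G1 G2 G3 G4 (fun x y => F5 x y - G5 x y) F6 +
      T4 s G1 G2 G3 G4 G5 (fun x y => F6 x y - G6 x y) := by
    unfold T4
    simp only [← S4_add]
    exact S4_congr s fun a b c d => by ring
  have b6 : |T4 s G1 G2 G3 G4 G5 (fun x y => F6 x y - G6 x y)| ≤ _ := one_edge s c6 g2 g3 g4 g5 g1
  have b5 : |T4 s G1 G2 G3 G4 (fun x y => F5 x y - G5 x y) F6| ≤ (s.card : ℝ) ^ 2 * (L * β) := by
    have := one_edge s c5 g1 g3.tr g4 f6 g2
    unfold T4
    rw [S4_23]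
    exact (congrArg abs (S4_congr s fun a b c d => by ring)).trans_le this
  have b4 : |T4 s G1 G2 G3 (fun x y => F4 x y - G4 x y) F5 F6| ≤ (s.card : ℝ) ^ 2 * (L * β) := by
    have := one_edge s c4 g1.tr g2.tr f5 f6 g3
    unfold T4
    rw [S4_12, S4_23]
    exact (congrArg abs (S4_congr s fun a b c d => by ring)).trans_le this
  have b3 : |T4 s G1 G2 (fun x y => F3 x y - G3 x y) F4 F5 F6| ≤ (s.card : ℝ) ^ 2 * (L * β) := by
    have := one_edge s c3 g1 f5.tr g2 f6.tr f4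
    unfold T4
    rw [S4_34, S4_23]
    exact (congrArg abs (S4_congr s fun a b c d => by ring)).trans_le this
  have b2 : |T4 s G1 (fun x y => F2 x y - G2 x y) F3 F4 F5 F6| ≤ (s.card : ℝ) ^ 2 * (L * β) := by
    have := one_edge s c2 g1.tr f4.tr f3 f6.tr f5
    unfold T4
    rw [S4_12, S4_34, S4_23]
    exact (congrArg abs (S4_congr s fun a b c d => by ring)).trans_le this
  have b1 : |T4 s (fun x y => F1 x y - G1 x y) F2 F3 F4 F5 F6| ≤ (s.card : ℝ) ^ 2 * (L * β) := by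
    have := one_edge s c1 f2.tr f4.tr f3.tr f5.tr f6
    unfold T4
    rw [S4_23, S4_12, S4_34, S4_23]
    exact (congrArg abs (S4_congr s fun a b c d => by ring)).trans_le this
  rw [e]
  have := abs_le.1 b1
  have := abs_le.1 b2
  have := abs_le.1 b3
  have := abs_le.1 b4
  have := abs_le.1 b5
  have := abs_le.1 b6
  linarith

end Crest.Agent.T15.K4
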