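import Crest.Agent.R001.FLCor

/-!
# K4: lower bound sieve for three linear forms in one variable
-/

set_option autoImplicit false

namespace Crest.Agent.T15.K4

open Finset Crest.Agent.R001

/-- counting with several classes per prime -/
lemma crt_count (x : ℤ) (H : ℕ) (Om : ℕ → Finset ℤ) (D : Finset ℕ) :
    (∀ p ∈ D, p.Prime) → (∀ p ∈ D, ∀ a ∈ Om p, 0 ≤ a ∧ a < p) →
    ∀ d : ℕ, 0 < d → (∀ p ∈ D, ¬ p ∣ d) → ∀ v : ℤ,
    |(((Ioc x (x + H)).filter (fun t => t ≡ v [ZMOD d] ∧ ∀ p ∈ D, t % p ∈ Om p)).card : ℝ) -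
      (H : ℝ) / d * ∏ p ∈ D, ((Om p).card : ℝ) / p| ≤ ∏ p ∈ D, ((Om p).card : ℝ) := by
  classical
  induction D using Finset.induction_on with
  | empty =>
    intro _ _ d hd _ v
    simpa using FL.card_class_Ioc x H d hd v
  | insert q D hq ih =>
    intro hP hO d hd hpd v
    have hqP : q.Prime := hP q (mem_insert_self _ _)
    have hq0 : (0 : ℝ) < q := by exact_mod_cast hqP.pos
    have hcop : Nat.Coprime d q := ((Nat.Prime.coprime_iff_not_dvd hqP).2
      (hpd q (mem_insert_self _ _))).symm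
    have ih' := ih (fun p hp => hP p (mem_insert_of_mem hp))
      (fun p hp => hO p (mem_insert_of_mem hp)) (d * q) (Nat.mul_pos hd hqP.pos) (fun p hp h => by
        have hpP := hP p (mem_insert_of_mem hp)
        rcases (Nat.Prime.dvd_mul hpP).1 h with h | h
        · exact hpd p (mem_insert_of_mem hp) h
        · rw [(Nat.prime_dvd_prime_iff_eq hpP hqP).1 h] at hp; exact hq hp)
    have hcz : IsCoprime (d : ℤ) (q : ℤ) := Nat.isCoprime_iff_coprime.2 hcop
    obtain ⟨u, w, huw⟩ := hcz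
    have hcz : IsCoprime (d : ℤ) (q : ℤ) := ⟨u, w, huw⟩
    -- fibrewise decomposition
    have hfib := Finset.card_eq_sum_card_fiberwise (f := fun t : ℤ => t % q)
      (s := (Ioc x (x + H)).filter (fun t => t ≡ v [ZMOD d] ∧ ∀ p ∈ insert q D, t % p ∈ Om p))
      (t := Om q) (fun t ht => (mem_filter.1 ht).2.2 q (mem_insert_self _ _))
    have hone : ∀ a ∈ Om q,
        ((Ioc x (x + H)).filter (fun t => t ≡ v [ZMOD d] ∧ ∀ p ∈ insert q D, t % p ∈ Om p)).filter
          (fun t => t % q = a) =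
        (Ioc x (x + H)).filter (fun t => t ≡ (a * (u * d) + v * (w * q)) [ZMOD (d * q : ℕ)] ∧
          ∀ p ∈ D, t % p ∈ Om p) := by
      intro a ha
      obtain ⟨ha0, ha1⟩ := hO q (mem_insert_self _ _) a ha
      have haq : a % q = a := Int.emod_eq_of_lt ha0 ha1
      have e1 : a * (u * d) + v * (w * q) ≡ v [ZMOD d] := by
        apply Int.ModEq.symm
        rw [Int.modEq_iff_dvd]
        exact ⟨(a - v) * u, by linear_combination v * huw⟩
      have e2 : a * (u * d) + v * (w * q) ≡ a [ZMOD q] := by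
        apply Int.ModEq.symm
        rw [Int.modEq_iff_dvd]
        exact ⟨(v - a) * w, by linear_combination a * huw⟩
      rw [filter_filter]
      apply filter_congr
      intro t _
      push_cast
      rw [← Int.modEq_and_modEq_iff_modEq_mul (by simpa using hcop)]
      constructor
      · rintro ⟨⟨h1, h2⟩, h3⟩
        refine ⟨⟨h1.trans e1.symm, ?_⟩, fun p hp => h2 p (mem_insert_of_mem hp)⟩
        refine Int.ModEq.trans ?_ e2.symm
        unfold Int.ModEq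
        rw [h3, haq]
      · rintro ⟨⟨h1, h2⟩, h3⟩
        have h4 : t % q = a := by
          have := h2.trans e2
          unfold Int.ModEq at this
          rw [this, haq]
        refine ⟨⟨h1.trans e1, fun p hp => ?_⟩, h4⟩
        rcases mem_insert.1 hp with rfl | hp
        · rw [h4]; exact ha
        · exact h3 p hp
    rw [hfib, prod_insert hq, prod_insert hq]
    push_cast
    have e : (H : ℝ) / d * ((Om q).card / q * ∏ p ∈ D, ((Om p).card : ℝ) / p) =
        ∑ _a ∈ Om q, (H : ℝ) / ((d * q : ℕ) : ℝ) * ∏ p ∈ D, ((Om p).card : ℝ) / p := by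
      have hd0 : (0 : ℝ) < d := by exact_mod_cast hd
      rw [sum_const, nsmul_eq_mul]; push_cast; field_simp
    rw [e, ← sum_sub_distrib]
    refine (abs_sum_le_sum_abs _ _).trans ?_
    calc _ ≤ ∑ _a ∈ Om q, ∏ p ∈ D, ((Om p).card : ℝ) := sum_le_sum fun a ha => by
          rw [hone a ha]; exact ih' _
      _ = _ := by rw [sum_const, nsmul_eq_mul]

lemma card_root_le (p : ℕ) (hp : p.Prime) (α β : ℤ) (hα : ¬ (p : ℤ) ∣ α) :
    ((Ico (0 : ℤ) p).filter (fun a => (p : ℤ) ∣ α * a + β)).card ≤ 1 := by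
  rw [card_le_one]
  intro a ha b hb
  obtain ⟨ha1, ha2⟩ := mem_filter.1 ha
  obtain ⟨hb1, hb2⟩ := mem_filter.1 hb
  have h1 : (p : ℤ) ∣ α * (a - b) := by
    have := dvd_sub ha2 hb2
    rwa [show α * a + β - (α * b + β) = α * (a - b) by ring] at this
  have h2 : (p : ℤ) ∣ a - b :=
    ((Nat.prime_iff_prime_int.1 hp).dvd_or_dvd h1).resolve_left hα
  have h3 := mem_Ico.1 ha1
  have h4 := mem_Ico.1 hb1
  have h5 := Int.eq_zero_of_abs_lt_dvd h2 (by rw [abs_lt]; constructor <;> omega)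
  omega

/-- **three linear forms**: many values without prime factor in `P` -/
theorem sieve3 : ∃ (s : ℕ) (c : ℝ), 0 < c ∧ ∀ z : ℝ, 2 ≤ z → ∀ P : Finset ℕ,
    (∀ p ∈ P, p.Prime ∧ 5 ≤ p ∧ (p : ℝ) ≤ z) → ∀ α₁ β₁ α₂ β₂ α₃ β₃ : ℤ,
    (∀ p ∈ P, ¬ (p : ℤ) ∣ α₁ ∧ ¬ (p : ℤ) ∣ α₂ ∧ ¬ (p : ℤ) ∣ α₃) → ∀ x H : ℕ, z ^ s ≤ H →
    ∃ S : Finset ℕ, c * H / Real.log z ^ 3 ≤ S.card ∧ ∀ t ∈ S, x < t ∧ t ≤ x + H ∧ ∀ p ∈ P,
      ¬ (p : ℤ) ∣ α₁ * t + β₁ ∧ ¬ (p : ℤ) ∣ α₂ * t + β₂ ∧ ¬ (p : ℤ) ∣ α₃ * t + β₃ := by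
  classical
  obtain ⟨K, hK, hdim⟩ := FL.dim_of 3 0 (2 / 5) (by norm_num) le_rfl (by norm_num)
  obtain ⟨s, hs, H0⟩ := FL.sieve_weighted 3 K (1 / 2) (by norm_num) hK (by norm_num)
  have hl2 : 0 < Real.log 2 := Real.log_pos (by norm_num)
  obtain ⟨e, he⟩ := pow_unbounded_of_one_lt (4 * K / Real.log 2 ^ 3) (by norm_num : (1 : ℝ) < 2)
  refine ⟨2 * s + 3 + e, Real.log 2 ^ 3 / (4 * K), by positivity,
    fun z hz P hP α₁ β₁ α₂ β₂ α₃ β₃ hα x H hH => ?_⟩
  set Om : ℕ → Finset ℤ := fun p => (Ico (0 : ℤ) p).filter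
    (fun a => (p : ℤ) ∣ α₁ * a + β₁ ∨ (p : ℤ) ∣ α₂ * a + β₂ ∨ (p : ℤ) ∣ α₃ * a + β₃) with hOm
  have hO3 : ∀ p ∈ P, ((Om p).card : ℝ) ≤ 3 := by
    intro p hp
    have h1 := card_root_le p (hP p hp).1 α₁ β₁ (hα p hp).1
    have h2 := card_root_le p (hP p hp).1 α₂ β₂ (hα p hp).2.1
    have h3 := card_root_le p (hP p hp).1 α₃ β₃ (hα p hp).2.2
    have h4 : (Om p).card ≤ 3 := by
      simp only [hOm]
      rw [filter_or, filter_or]
      refine (card_union_le _ _).trans ?_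
      have := card_union_le ((Ico (0 : ℤ) p).filter (fun a => (p : ℤ) ∣ α₂ * a + β₂))
        ((Ico (0 : ℤ) p).filter (fun a => (p : ℤ) ∣ α₃ * a + β₃))
      omega
    exact_mod_cast h4
  have h5 : ∀ p ∈ P, (5 : ℝ) ≤ p := fun p hp => by exact_mod_cast (hP p hp).2.1
  set g : ℕ → ℝ := fun p => ((Om p).card : ℝ) / p with hg
  have hg0 : ∀ p ∈ P, 0 ≤ g p := fun p _ => by simp only [hg]; positivity
  have hg3 : ∀ p ∈ P, g p ≤ 3 / p := fun p hp => by
    simp only [hg]; have := h5 p hp; have := hO3 p hp; gcongr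
  have hgh : ∀ p ∈ P, g p ≤ 1 - 2 / 5 := fun p hp => by
    have h1 := h5 p hp
    have : (3 : ℝ) / p ≤ 3 / 5 := by gcongr
    linarith [hg3 p hp]
  have hg1 : ∀ p ∈ P, g p < 1 := fun p hp => by linarith [hgh p hp]
  have hd := hdim P g (fun p hp => (hP p hp).1) hg0 hgh (fun p hp => by simpa using hg3 p hp)
  have hPz : ∀ p ∈ P, 2 ≤ p ∧ (p : ℝ) ≤ z := fun p hp => ⟨(hP p hp).1.two_le, (hP p hp).2.2⟩
  have h2 := (H0 z hz P g hPz hg0 hg1 hd (Ioc (x : ℤ) (x + H)) (fun _ => 1)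
    (fun t : ℤ => P.filter (fun p : ℕ => t % (p : ℤ) ∈ Om p)) (H : ℝ) (fun _ => z ^ s)
    (fun _ _ => zero_le_one) (fun _ _ => filter_subset _ _) (Nat.cast_nonneg H) ?_).1
  · set S0 := (Ioc (x : ℤ) (x + H)).filter
      (fun t : ℤ => P.filter (fun p : ℕ => t % (p : ℤ) ∈ Om p) = ∅) with hS0
    have hlz : Real.log 2 ≤ Real.log z := Real.log_le_log (by norm_num) hz
    have hlz0 : 0 < Real.log z := by linarith
    have hV : Real.log 2 ^ 3 / (K * Real.log z ^ 3) ≤ ∏ p ∈ P, (1 - g p) := by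
      have h3 := hd 2 z le_rfl hz
      rw [filter_true_of_mem (fun p hp => ⟨by linarith [h5 p hp], (hP p hp).2.2⟩),
        prod_inv_distrib] at h3
      have h4 : 0 < ∏ p ∈ P, (1 - g p) := prod_pos fun p hp => by linarith [hg1 p hp]
      have h6 : (Real.log z / Real.log 2) ^ (3 : ℝ) = (Real.log z / Real.log 2) ^ (3 : ℕ) := by
        rw [← Real.rpow_natCast]; norm_num
      rw [h6, inv_le_comm₀ h4 (by positivity)] at h3
      refine le_trans (le_of_eq ?_) h3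
      field_simp
    have hlev := FL.card_level P (fun p hp => (hP p hp).1) (z ^ s) (by positivity)
    rw [sum_const, sum_const, nsmul_eq_mul, nsmul_eq_mul, mul_one] at h2
    have hz0 : 0 < z := by linarith
    have hlog : Real.log z ≤ z := (Real.log_le_sub_one_of_pos hz0).trans (by linarith)
    have hbig : z ^ s * z ^ s ≤ Real.log 2 ^ 3 / (4 * K) * H / Real.log z ^ 3 := by
      have h3 : z ^ (2 * s + 3 + e) = z ^ s * z ^ s * (z ^ 3 * z ^ e) := by ring
      have h4 : (2 : ℝ) ^ e ≤ z ^ e := pow_le_pow_left₀ (by norm_num) hz e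
      have h6 : Real.log z ^ 3 ≤ z ^ 3 := pow_le_pow_left₀ hlz0.le hlog 3
      rw [le_div_iff₀ (by positivity)]
      calc z ^ s * z ^ s * Real.log z ^ 3
          = Real.log 2 ^ 3 / (4 * K) *
            (z ^ s * z ^ s * (Real.log z ^ 3 * (4 * K / Real.log 2 ^ 3))) := by field_simp
        _ ≤ Real.log 2 ^ 3 / (4 * K) * (z ^ s * z ^ s * (z ^ 3 * z ^ e)) := by
            gcongr; exact he.le.trans h4
        _ ≤ Real.log 2 ^ 3 / (4 * K) * H := by rw [← h3]; gcongr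
    have hmain : 2 * (Real.log 2 ^ 3 / (4 * K) * H / Real.log z ^ 3) ≤
        (1 - 1 / 2) * (∏ p ∈ P, (1 - g p)) * H := by
      calc _ = (1 - 1 / 2) * (Real.log 2 ^ 3 / (K * Real.log z ^ 3)) * H := by field_simp; ring
        _ ≤ _ := by gcongr
    have hR := mul_le_mul_of_nonneg_right hlev (by positivity : 0 ≤ z ^ s)
    have hmem : ∀ t ∈ S0, (x : ℤ) < t ∧ t ≤ x + H ∧ ∀ p ∈ P, t % (p : ℤ) ∉ Om p := by
      intro t ht
      obtain ⟨h3, h4⟩ := mem_filter.1 ht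
      exact ⟨(mem_Ioc.1 h3).1, (mem_Ioc.1 h3).2, fun p hp => filter_eq_empty_iff.1 h4 hp⟩
    refine ⟨S0.image Int.toNat, ?_, ?_⟩
    · rw [card_image_of_injOn (fun a ha b hb h => by
        have := (hmem a ha).1; have := (hmem b hb).1; omega)]
      linarith
    · intro t ht
      obtain ⟨u, hu, rfl⟩ := mem_image.1 ht
      obtain ⟨h3, h4, h6⟩ := hmem u hu
      have hu0 : ((u.toNat : ℕ) : ℤ) = u := Int.toNat_of_nonneg (by omega)
      refine ⟨by omega, by omega, fun p hp => ?_⟩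
      rw [hu0]
      have hp0 : (0 : ℤ) < p := by exact_mod_cast (hP p hp).1.pos
      have h7 := h6 p hp
      simp only [hOm, mem_filter, mem_Ico, not_and, not_or] at h7
      have h8 := h7 ⟨Int.emod_nonneg _ hp0.ne', Int.emod_lt_of_pos _ hp0⟩
      have key : ∀ α β : ℤ, (p : ℤ) ∣ α * u + β → (p : ℤ) ∣ α * (u % p) + β := by
        intro α β h
        have e : α * (u % p) + β = α * u + β - p * (α * (u / p)) := by
          rw [Int.emod_def]; ring
        rw [e]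
        exact dvd_sub h (dvd_mul_right _ _)
      exact ⟨fun h => h8.1 (key _ _ h), fun h => h8.2.1 (key _ _ h), fun h => h8.2.2 (key _ _ h)⟩
  · intro D hD hDz
    have h3 := crt_count x H Om D (fun p hp => (hP p (hD hp)).1) (fun p _ a ha =>
      mem_Ico.1 (mem_filter.1 ha).1) 1 one_pos
      (fun p hp h => (hP p (hD hp)).1.one_lt.ne' (Nat.dvd_one.1 h)) 0
    have h4 : (Ioc (x : ℤ) (x + H)).filter
        (fun t : ℤ => D ⊆ P.filter (fun p : ℕ => t % (p : ℤ) ∈ Om p)) = (Ioc (x : ℤ) (x + H)).filter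
        (fun t : ℤ => t ≡ 0 [ZMOD (1 : ℕ)] ∧ ∀ p ∈ D, t % (p : ℤ) ∈ Om p) := by
      apply filter_congr
      intro t _
      constructor
      · intro h
        exact ⟨by simp [Int.modEq_one], fun p hp => (mem_filter.1 (h hp)).2⟩
      · intro h p hp
        exact mem_filter.2 ⟨hD hp, h.2 p hp⟩
    rw [sum_const, nsmul_eq_mul, mul_one, h4]
    have h6 : ∏ p ∈ D, ((Om p).card : ℝ) ≤ z ^ s :=
      (prod_le_prod (fun p _ => Nat.cast_nonneg _) fun p hp => by
        linarith [hO3 p (hD hp), h5 p (hD hp)]).trans hDz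
    simp only [Nat.cast_one, div_one] at h3
    rw [mul_comm]
    exact h3.trans h6

end Crest.Agent.T15.K4
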