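import Crest.Agent.T15.K4A_26
import Crest.Agent.T15.K4B_26

/-!
# K4: main term for the model
-/

set_option autoImplicit false

namespace Crest.Agent.T15.K4

open Finset Crest.Agent.R001

/-- dilated and truncated edge function -/
def edge (q g c N : ℕ) (φ : ℕ → ℝ) (m : ℕ) : ℝ :=
  if q ∣ m ∧ m / q ∈ (Icc 1 N).filter (fun n => n ≡ c [MOD g]) then φ (m / q) else 0

lemma edge_mul {q g c N k : ℕ} (φ : ℕ → ℝ) (hq : 0 < q) (h1 : 1 ≤ k) (h2 : k ≤ N)
    (h3 : k ≡ c [MOD g]) : edge q g c N φ (q * k) = φ k := by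
  unfold edge
  rw [Nat.mul_div_cancel_left k hq, if_pos ⟨dvd_mul_right _ _, mem_filter.2 ⟨mem_Icc.2 ⟨h1, h2⟩, h3⟩⟩]

lemma edge_one {N k : ℕ} (φ : ℕ → ℝ) (h1 : 1 ≤ k) (h2 : k ≤ N) : edge 1 1 0 N φ k = φ k := by
  have := edge_mul (q := 1) (g := 1) (c := 0) φ one_pos h1 h2 Nat.modEq_one
  rwa [one_mul] at this

lemma ker_add (h : ℕ → ℝ) (a m : ℕ) : ker h a (a + m) = h m := by
  unfold ker; rw [if_pos (Nat.le_add_right _ _), Nat.add_sub_cancel_left]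

lemma ker_of_eq (h : ℕ → ℝ) {a b m : ℕ} (e : b = a + m) : ker h a b = h m := by
  rw [e, ker_add]

lemma ker_edge_nonneg (q g c N : ℕ) {φ : ℕ → ℝ} (h : ∀ k, 0 ≤ φ k) (x y : ℕ) :
    0 ≤ ker (edge q g c N φ) x y := by
  unfold ker edge
  split_ifs
  exacts [h _, le_rfl, le_rfl]

lemma ker_edge_bd (q g c N : ℕ) {φ : ℕ → ℝ} {L : ℝ} (hL : 0 ≤ L)
    (h : ∀ k, 1 ≤ k → k ≤ N → |φ k| ≤ L) : Bd (ker (edge q g c N φ)) L := by
  intro x y
  unfold ker edge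
  split_ifs with h1 h2
  · have := mem_Icc.1 (mem_filter.1 h2.2).1
    exact h _ this.1 this.2
  · simpa using hL
  · simpa using hL

lemma ker_edge_ne {q g c N x y : ℕ} (h : ker (edge q g c N lp) x y ≠ 0) :
    ∃ k, y = x + q * k ∧ k.Prime ∧ k ≡ c [MOD g] := by
  unfold ker edge at h
  split_ifs at h with h1 h2
  · refine ⟨(y - x) / q, ?_, ?_, (mem_filter.1 h2.2).2⟩
    · rw [Nat.mul_div_cancel' h2.1]; omega
    · by_contra h3
      exact h (by simp [lp, h3])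
  · exact absurd rfl h
  · exact absurd rfl h

lemma cut_edge {q g c N n : ℕ} (φ ψ : ℕ → ℝ) (hq : 0 < q) (hn : q * N < n) (η K : ℝ)
    (hη : ∀ α : ℝ, ‖∑ k ∈ (Icc 1 N).filter (fun n => n ≡ c [MOD g]),
      ((φ k - ψ k : ℝ) : ℂ) * ee (k * α)‖ ≤ η) :
    Cut (range n) (fun x y => ker (edge q g c N φ) x y - ker (edge q g c N ψ) x y) K
      (η * n * K ^ 2) := by
  intro u v hu hv
  have e : ∀ x y, ker (edge q g c N φ) x y - ker (edge q g c N ψ) x y =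
      ker (edge q g c N fun k => φ k - ψ k) x y := by
    intro x y
    unfold ker edge
    split_ifs <;> simp
  simp only [e]
  refine bilin n _ u v η K (fun α => ?_) hu hv
  refine le_of_eq_of_le (congrArg norm ?_) (hη (q * α))
  have e2 : ∀ m : ℕ, ((edge q g c N (fun k => φ k - ψ k) m : ℝ) : ℂ) * ee (m * α) =
      if q ∣ m ∧ m / q ∈ (Icc 1 N).filter (fun n => n ≡ c [MOD g]) then
        ((φ (m / q) - ψ (m / q) : ℝ) : ℂ) * ee (m * α) else 0 := by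
    intro m
    unfold edge
    split_ifs <;> simp
  simp only [e2]
  rw [← sum_filter]
  symm
  refine sum_nbij' (fun k => q * k) (fun m => m / q) ?_ ?_ ?_ ?_ ?_
  · intro k hk
    have h1 := mem_Icc.1 (mem_filter.1 hk).1
    refine mem_filter.2 ⟨mem_range.2 (lt_of_le_of_lt (Nat.mul_le_mul_left q h1.2) hn),
      dvd_mul_right _ _, ?_⟩
    rwa [Nat.mul_div_cancel_left k hq]
  · intro m hm
    exact (mem_filter.1 hm).2.2
  · intro k _
    exact Nat.mul_div_cancel_left k hq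
  · intro m hm
    exact Nat.mul_div_cancel' (mem_filter.1 hm).2.1
  · intro k _
    rw [Nat.mul_div_cancel_left k hq]
    congr 2
    push_cast; ring

lemma sum_ge_inj (s S : Finset ℕ) (Φ : ℕ → ℝ) (ι : ℕ → ℕ) (w μ : ℝ) (hΦ : ∀ x, 0 ≤ Φ x)
    (inj : Set.InjOn ι S) (maps : ∀ t ∈ S, ι t ∈ s) (hw : ∀ t ∈ S, w ≤ Φ (ι t))
    (hμ : μ ≤ S.card) (hw0 : 0 ≤ w) : μ * w ≤ ∑ x ∈ s, Φ x := by
  calc μ * w ≤ S.card * w := by gcongr
    _ = ∑ _t ∈ S, w := by rw [sum_const, nsmul_eq_mul]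
    _ ≤ ∑ t ∈ S, Φ (ι t) := sum_le_sum hw
    _ = ∑ x ∈ S.image ι, Φ x := (sum_image inj).symm
    _ ≤ ∑ x ∈ s, Φ x := sum_le_sum_of_subset_of_nonneg
        (fun x hx => by obtain ⟨t, ht, rfl⟩ := mem_image.1 hx; exact maps t ht) fun x _ _ => hΦ x

lemma V_fac {z p : ℕ} (hp : p ∈ Nat.primesLE z) : 0 < 1 - 1 / (p : ℝ) ∧ 1 - 1 / (p : ℝ) ≤ 1 := by
  have h2 : (2 : ℝ) ≤ p := by exact_mod_cast (Nat.mem_primesLE.1 hp).2.two_le
  have h3 : 1 / (p : ℝ) ≤ 1 / 2 := by gcongr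
  have h4 : 0 ≤ 1 / (p : ℝ) := by positivity
  constructor <;> linarith

lemma V_pos (z : ℕ) : 0 < V z := prod_pos fun _ hp => (V_fac hp).1

lemma one_le_V_inv (z : ℕ) : 1 ≤ (V z)⁻¹ :=
  (one_le_inv₀ (V_pos z)).2 (prod_le_one (fun _ hp => (V_fac hp).1.le) fun _ hp => (V_fac hp).2)

lemma nu_nonneg (z n : ℕ) : 0 ≤ nu z n := by
  unfold nu; split_ifs
  exacts [(inv_pos.2 (V_pos z)).le, le_rfl]

lemma one_le_nu {z n : ℕ} (h : Rough z n) : 1 ≤ nu z n := by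
  unfold nu; rw [if_pos h]; exact one_le_V_inv z

lemma V_inv_le : ∃ K : ℝ, 1 ≤ K ∧ ∀ z : ℕ, 2 ≤ z → (V z)⁻¹ ≤ K * Real.log z := by
  obtain ⟨K, hK, hdim⟩ := FL.dim_of 1 0 (1 / 2) (by norm_num) le_rfl (by norm_num)
  have hl2 : 0 < Real.log 2 := Real.log_pos (by norm_num)
  have hl3 : Real.log 2 ≤ 1 := (Real.log_le_sub_one_of_pos (by norm_num)).trans (by norm_num)
  refine ⟨K / Real.log 2, by rw [le_div_iff₀ hl2]; linarith, fun z hz => ?_⟩
  have h2 : ∀ p ∈ Nat.primesLE z, (2 : ℝ) ≤ p := fun p hp => by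
    exact_mod_cast (Nat.mem_primesLE.1 hp).2.two_le
  have hd := hdim (Nat.primesLE z) (fun p => 1 / (p : ℝ)) (fun p hp => (Nat.mem_primesLE.1 hp).2)
    (fun p _ => by positivity) (fun p hp => by
      have := h2 p hp
      have h3 : 1 / (p : ℝ) ≤ 1 / 2 := by gcongr
      linarith) (fun p _ => by simp) 2 z le_rfl (by exact_mod_cast hz)
  rw [filter_true_of_mem (fun p hp => ⟨h2 p hp, by exact_mod_cast (Nat.mem_primesLE.1 hp).1⟩),
    prod_inv_distrib, Real.rpow_one] at hd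
  refine hd.trans (le_of_eq ?_)
  ring

lemma rough_of {z g n : ℕ} (hg : ∀ p : ℕ, p.Prime → p ∣ g → ¬ p ∣ n) {x : ℤ} (e : x = n)
    (hP : ∀ p ∈ (Nat.primesLE z).filter (fun p => ¬ p ∣ g), ¬ (p : ℤ) ∣ x) : Rough z n := by
  intro p hp hz h
  by_cases h1 : p ∣ g
  · exact hg p hp h1 h
  · refine hP p (mem_filter.2 ⟨Nat.mem_primesLE.2 ⟨hz, hp⟩, h1⟩) ?_
    rw [e]; exact_mod_cast h

/-- **main term** -/
theorem main_term : ∃ (s : ℕ) (κ : ℝ), 0 < κ ∧ ∀ g D c : ℕ, 0 < g → 6 ∣ g → 0 < D → D.Coprime g →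
    c.Coprime g → c < g → ∀ z m N n : ℕ, 2 ≤ z → 1 ≤ m → (z : ℝ) ^ s ≤ m →
    N = D * g * (4 * g + 2) * m → 2 * N ≤ n →
    N * (κ * m / Real.log z ^ 3) ^ 3 ≤
      T4 (range n) (ker (edge g g c N (nu z))) (ker (edge 1 1 0 N (nu z)))
        (ker (edge 1 1 0 N (nu z))) (ker (edge D g c N (nu z))) (ker (edge 1 1 0 N (nu z)))
        (ker (edge g g c N (nu z))) := by
  obtain ⟨s, κ, hκ, hS⟩ := sieve3
  refine ⟨s, κ, hκ, fun g D c hg h6 hD hDg hcg hc z m N n hz hm hzm hN hn => ?_⟩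
  have hz' : (2 : ℝ) ≤ z := by exact_mod_cast hz
  set P := (Nat.primesLE z).filter (fun p => ¬ p ∣ g) with hP
  have hP1 : ∀ p ∈ P, p.Prime ∧ 5 ≤ p ∧ (p : ℝ) ≤ z := by
    intro p hp
    obtain ⟨h1, h2⟩ := mem_filter.1 hp
    obtain ⟨h3, h4⟩ := Nat.mem_primesLE.1 h1
    refine ⟨h4, ?_, by exact_mod_cast h3⟩
    by_contra h5
    have := h4.two_le
    have h7 : p = 2 ∨ p = 3 ∨ p = 4 := by omega
    rcases h7 with rfl | rfl | rfl
    · exact h2 (Dvd.dvd.trans (by norm_num) h6)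
    · exact h2 (Dvd.dvd.trans (by norm_num) h6)
    · exact absurd h4 (by norm_num)
  have hP2 : ∀ p ∈ P, ¬ (p : ℤ) ∣ (g : ℤ) := fun p hp h =>
    (mem_filter.1 hp).2 (by exact_mod_cast h)
  have hP3 : ∀ p ∈ P, ¬ (p : ℤ) ∣ -((g : ℤ) * g) := fun p hp h => by
    rw [dvd_neg] at h
    rcases (Nat.prime_iff_prime_int.1 (hP1 p hp).1).dvd_or_dvd h with h | h <;> exact hP2 p hp h
  have hlz : 0 < Real.log z := Real.log_pos (by linarith)
  set μ := κ * m / Real.log z ^ 3 with hμ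
  have hμ0 : 0 ≤ μ := by positivity
  have hcl : ∀ t, ∀ p : ℕ, p.Prime → p ∣ g → ¬ p ∣ c + g * t := fun t p hp h1 h2 => by
    have h3 : p ∣ c := (Nat.dvd_add_left (h1.mul_right t)).1 h2
    exact hp.one_lt.ne' (Nat.eq_one_of_dvd_coprimes hcg h3 h1)
  have hmod : ∀ t, c + g * t ≡ c [MOD g] := fun t => by
    simp [Nat.ModEq]
  have nn := fun q g c => ker_edge_nonneg q g c N (nu_nonneg z)
  have tn : ∀ a b c' d, 0 ≤ ker (edge g g c N (nu z)) a b * ker (edge 1 1 0 N (nu z)) a c' *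
      ker (edge 1 1 0 N (nu z)) b c' * ker (edge D g c N (nu z)) a d *
      ker (edge 1 1 0 N (nu z)) b d * ker (edge g g c N (nu z)) c' d := fun a b c' d =>
    mul_nonneg (mul_nonneg (mul_nonneg (mul_nonneg (mul_nonneg (nn _ _ _ _ _) (nn _ _ _ _ _))
      (nn _ _ _ _ _)) (nn _ _ _ _ _)) (nn _ _ _ _ _)) (nn _ _ _ _ _)
  have small : ∀ t, 0 < t → t ≤ 0 + m → 1 ≤ c + g * t ∧ g * (c + g * t) ≤ 2 * (g * g * m) := by
    intro t h1 h2
    have h3 : g * t ≤ g * m := Nat.mul_le_mul_left g (by omega)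
    have h4 : g ≤ g * m := Nat.le_mul_of_pos_right g hm
    have h5 : 0 < g * t := Nat.mul_pos hg h1
    refine ⟨by omega, ?_⟩
    calc g * (c + g * t) ≤ g * (2 * (g * m)) := Nat.mul_le_mul_left g (by omega)
      _ = _ := by ring
  unfold T4
  rw [S4_34, S4_23]
  unfold S4
  rw [show μ ^ 3 = μ * (μ * (μ * 1)) by ring]
  refine sum_ge_inj _ (range N) _ id _ _ (fun a => sum_nonneg fun _ _ => sum_nonneg fun _ _ =>
    sum_nonneg fun _ _ => tn _ _ _ _) (Set.injOn_id _)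
    (fun a ha => mem_range.2 (by have := mem_range.1 ha; simp only [id]; omega)) (fun a ha => ?_)
    (by simp) (by positivity)
  have ha' := mem_range.1 ha
  simp only [id]
  obtain ⟨S1, hS1, hS1'⟩ := hS z hz' P hP1 g c g c g c
    (fun p hp => ⟨hP2 p hp, hP2 p hp, hP2 p hp⟩) (4 * g * m) m hzm
  have big : ∀ t ∈ S1, 4 * (g * g * m) < D * (c + g * t) ∧ D * (c + g * t) ≤ N := by
    intro t ht
    obtain ⟨h1, h2, -⟩ := hS1' t ht
    have h3 : g * (4 * g * m + 1) ≤ g * t := Nat.mul_le_mul_left g h1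
    have h4 : g * t ≤ g * (4 * g * m + m) := Nat.mul_le_mul_left g h2
    have h5 : g ≤ g * m := Nat.le_mul_of_pos_right g hm
    have h7 : c + g * t ≤ D * (c + g * t) := Nat.le_mul_of_pos_left _ hD
    constructor
    · nlinarith
    · rw [hN]
      calc D * (c + g * t) ≤ D * (g * m + g * (4 * g * m + m)) :=
            Nat.mul_le_mul_left D (by omega)
        _ = _ := by ring
  refine sum_ge_inj _ S1 _ (fun t => a + D * (c + g * t)) _ _
    (fun _ => sum_nonneg fun _ _ => sum_nonneg fun _ _ => tn _ _ _ _)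
    (fun t _ t' _ h => by
      have h1 := Nat.eq_of_mul_eq_mul_left hD (Nat.add_left_cancel h)
      exact Nat.eq_of_mul_eq_mul_left hg (Nat.add_left_cancel h1))
    (fun t ht => mem_range.2 (by have := (big t ht).2; omega)) (fun t ht => ?_) hS1 (by positivity)
  obtain ⟨hb1, hb2⟩ := big t ht
  obtain ⟨Z, hZ⟩ : ∃ Z, Z = c + g * t := ⟨_, rfl⟩
  have rZ : Rough z Z := rough_of (hZ ▸ hcl t) (x := g * t + c) (by rw [hZ]; push_cast; ring)
    fun p hp => ((hS1' t ht).2.2 p hp).1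
  have mZ : Z ≡ c [MOD g] := hZ ▸ hmod t
  have cZ : ∀ p : ℕ, p.Prime → p ∣ g → ¬ p ∣ D * Z := fun p hp h1 h2 => by
    rcases (Nat.Prime.dvd_mul hp).1 h2 with h3 | h3
    · exact hp.one_lt.ne' (Nat.eq_one_of_dvd_coprimes hDg h3 h1)
    · exact hcl t p hp h1 (hZ ▸ h3)
  rw [← hZ] at hb1 hb2 ⊢
  have hZ1 : 1 ≤ Z := Nat.pos_of_ne_zero (by rintro rfl; simp at hb1)
  have hZN : Z ≤ N := (Nat.le_mul_of_pos_left _ hD).trans hb2
  obtain ⟨S2, hS2, hS2'⟩ := hS z hz' P hP1 g c (-(g * g)) (D * Z - g * c) g c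
    (fun p hp => ⟨hP2 p hp, hP3 p hp, hP2 p hp⟩) 0 m hzm
  refine sum_ge_inj _ S2 _ (fun t => a + g * (c + g * t)) _ _
    (fun _ => sum_nonneg fun _ _ => tn _ _ _ _)
    (fun t _ t' _ h => by
      have h1 := Nat.eq_of_mul_eq_mul_left hg (Nat.add_left_cancel h)
      exact Nat.eq_of_mul_eq_mul_left hg (Nat.add_left_cancel h1))
    (fun t ht => mem_range.2 (by
      have := (small t (hS2' t ht).1 (hS2' t ht).2.1).2; omega)) (fun t2 ht2 => ?_) hS2
    (by positivity)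
  obtain ⟨hx1, hx2⟩ := small t2 (hS2' t2 ht2).1 (hS2' t2 ht2).2.1
  obtain ⟨X, hX⟩ : ∃ X, X = c + g * t2 := ⟨_, rfl⟩
  have rX : Rough z X := rough_of (hX ▸ hcl t2) (x := g * t2 + c) (by rw [hX]; push_cast; ring)
    fun p hp => ((hS2' t2 ht2).2.2 p hp).1
  have mX : X ≡ c [MOD g] := hX ▸ hmod t2
  rw [← hX] at hx1 hx2 ⊢
  have hXN : X ≤ N := (Nat.le_mul_of_pos_left _ hg).trans (by omega)
  obtain ⟨S3, hS3, hS3'⟩ := hS z hz' P hP1 g c (-(g * g)) (D * Z - g * c) (-(g * g))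
    (D * Z - g * X - g * c) (fun p hp => ⟨hP2 p hp, hP3 p hp, hP3 p hp⟩) 0 m hzm
  refine sum_ge_inj _ S3 _ (fun t => a + D * Z - g * (c + g * t)) _ _ (fun _ => tn _ _ _ _)
    (fun t ht t' ht' h => by
      have h2 := (small t (hS3' t ht).1 (hS3' t ht).2.1).2
      have h3 := (small t' (hS3' t' ht').1 (hS3' t' ht').2.1).2
      have h4 : g * (c + g * t) = g * (c + g * t') := by simp only at h; omega
      have h1 := Nat.eq_of_mul_eq_mul_left hg h4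
      exact Nat.eq_of_mul_eq_mul_left hg (Nat.add_left_cancel h1))
    (fun t _ => mem_range.2 (by omega)) (fun t3 ht3 => ?_) hS3 zero_le_one
  obtain ⟨hy1, hy2⟩ := small t3 (hS3' t3 ht3).1 (hS3' t3 ht3).2.1
  obtain ⟨Y, hY⟩ : ∃ Y, Y = c + g * t3 := ⟨_, rfl⟩
  have rY : Rough z Y := rough_of (hY ▸ hcl t3) (x := g * t3 + c) (by rw [hY]; push_cast; ring)
    fun p hp => ((hS3' t3 ht3).2.2 p hp).1
  have mY : Y ≡ c [MOD g] := hY ▸ hmod t3
  rw [← hY] at hy1 hy2 ⊢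
  have hYN : Y ≤ N := (Nat.le_mul_of_pos_left _ hg).trans (by omega)
  obtain ⟨A, hA⟩ : ∃ A, D * Z = A + g * X + g * Y := ⟨D * Z - g * X - g * Y, by omega⟩
  have hAz : (D : ℤ) * Z = A + g * X + g * Y := by exact_mod_cast hA
  have hXz : (X : ℤ) = c + g * t2 := by exact_mod_cast hX
  have hYz : (Y : ℤ) = c + g * t3 := by exact_mod_cast hY
  have rA : Rough z A := rough_of (fun p hp h1 h2 => cZ p hp h1
      (hA ▸ dvd_add (dvd_add h2 (h1.mul_right _)) (h1.mul_right _)))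
    (x := -(g * g) * t3 + (D * Z - g * X - g * c)) (by rw [hAz, hYz]; ring)
    fun p hp => ((hS3' t3 ht3).2.2 p hp).2.2
  have rV : Rough z (A + g * X) := rough_of (fun p hp h1 h2 => cZ p hp h1
      (hA ▸ dvd_add h2 (h1.mul_right _)))
    (x := -(g * g) * t3 + (D * Z - g * c)) (by rw [hAz, hYz]; push_cast; ring)
    fun p hp => ((hS3' t3 ht3).2.2 p hp).2.1
  have rU : Rough z (A + g * Y) := rough_of (fun p hp h1 h2 => cZ p hp h1
      (by rw [hA, add_right_comm]; exact dvd_add h2 (h1.mul_right _)))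
    (x := -(g * g) * t2 + (D * Z - g * c)) (by rw [hAz, hXz]; push_cast; ring)
    fun p hp => ((hS2' t2 ht2).2.2 p hp).2.1
  rw [ker_add, ker_add, ker_of_eq _ (m := A + g * X) (by omega), ker_of_eq _ (m := A) (by omega),
    ker_of_eq _ (m := A + g * Y) (by omega), ker_of_eq _ (m := g * Y) (by omega),
    edge_mul _ hg hx1 hXN mX, edge_mul _ hg hy1 hYN mY, edge_mul _ hD hZ1 hZN mZ,
    edge_one _ (by omega) (by omega), edge_one _ (by omega) (by omega),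
    edge_one _ (by omega) (by omega)]
  exact one_le_mul_of_one_le_of_one_le (one_le_mul_of_one_le_of_one_le
    (one_le_mul_of_one_le_of_one_le (one_le_mul_of_one_le_of_one_le
    (one_le_mul_of_one_le_of_one_le (one_le_nu rX) (one_le_nu rV)) (one_le_nu rA))
    (one_le_nu rZ)) (one_le_nu rU)) (one_le_nu rY)

end Crest.Agent.T15.K4
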