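import Mathlib
import Crest.Agent.T15.KfA_83

/-!
# Row 15, block F (helper83): the fields `Y ⊆ K`, part B: the tower and its universal property

`F1 P ⊆ F2 P ⊆ YY P ⊆ KK P` over `RatFunc C` (`X = u`); `homY`, `homK`.
-/

set_option autoImplicit false
set_option linter.all false

namespace Crest.Agent.T15.Kf

open Polynomial

/-! ### quadratic extensions -/

/-- `F(√a)` -/
def QA (F : Type*) [Field F] (a : F) : Type _ := QuadraticAlgebra F a 0

namespace QA

variable {F : Type*} [Field F] (a : F) [h : Fact (¬ IsSquare a)]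

noncomputable instance : Field (QA F a) :=
  haveI := fact_of_nsq h.out
  inferInstanceAs (Field (QuadraticAlgebra F a 0))

noncomputable instance alg {S : Type*} [CommSemiring S] [Algebra S F] : Algebra S (QA F a) :=
  inferInstanceAs (Algebra S (QuadraticAlgebra F a 0))

instance tower {S T : Type*} [CommSemiring S] [CommSemiring T] [Algebra S F] [Algebra T F]
    [Algebra S T] [IsScalarTower S T F] : IsScalarTower S T (QA F a) :=
  inferInstanceAs (IsScalarTower S T (QuadraticAlgebra F a 0))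

instance : FiniteDimensional F (QA F a) :=
  inferInstanceAs (Module.Finite F (QuadraticAlgebra F a 0))

theorem finrank_eq : Module.finrank F (QA F a) = 2 :=
  QuadraticAlgebra.finrank_eq_two (R := F) (a := a) (b := 0)

/-- the square root -/
noncomputable def om : QA F a := (QuadraticAlgebra.omega : QuadraticAlgebra F a 0)

theorem om_sq : om a ^ 2 = algebraMap F (QA F a) a := Kf.om_sq a

variable {a}

theorem exists_eq (z : QA F a) :
    ∃ b c : F, z = algebraMap F (QA F a) b + algebraMap F (QA F a) c * om a :=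
  ⟨_, _, qa_eq (a := a) z⟩

theorem nsq (two : (2 : F) ≠ 0) {c : F} (h1 : ¬ IsSquare c) (h2 : ¬ IsSquare (c * a)) :
    ¬ IsSquare (algebraMap F (QA F a) c) := nsq_QA two h1 h2

theorem nsq_norm {b c : F} (h1 : ¬ IsSquare (b ^ 2 - a * c ^ 2)) :
    ¬ IsSquare (algebraMap F (QA F a) b + algebraMap F (QA F a) c * om a) := by
  have := Kf.nsq_norm (a := a) (z := ⟨b, c⟩) h1
  rw [qa_eq (⟨b, c⟩ : QuadraticAlgebra F a 0)] at this
  exact this

theorem exists_lift {K : Type*} [Field K] (φ : F →+* K) (w : K) (hw : w ^ 2 = φ a) :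
    ∃ ψ : QA F a →+* K, (∀ c, ψ (algebraMap F _ c) = φ c) ∧ ψ (om a) = w :=
  ⟨qlift φ w hw, qlift_alg φ w hw, qlift_om φ w hw⟩

theorem mem {K : Type*} [Field K] (φ : QA F a →+* K) (S : Subfield K)
    (h1 : ∀ c, φ (algebraMap F _ c) ∈ S) (h2 : φ (om a) ∈ S) (z : QA F a) : φ z ∈ S := by
  obtain ⟨b, c, rfl⟩ := exists_eq z
  rw [map_add, map_mul]
  exact S.add_mem (h1 _) (S.mul_mem (h1 _) h2)

theorem om_notMem : om a ∉ Set.range (algebraMap F (QA F a)) := by
  rintro ⟨c, hc⟩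
  apply h.out
  refine ⟨c, (algebraMap F (QA F a)).injective ?_⟩
  rw [← om_sq, ← hc, map_mul, sq]

end QA

variable {C : Type*} [Field C] (P : Par C)

/-- the parameters in `C(u)` -/
noncomputable abbrev P0 : Par (RatFunc C) := P.map (algebraMap C (RatFunc C))

noncomputable def a1 : RatFunc C :=
  (RatFunc.X - 2 * (P0 P).p3 ^ 2) / ((P0 P).m1 * (P0 P).m2 * RatFunc.X)
noncomputable def a2 : RatFunc C :=
  (2 * (P0 P).p2 ^ 2 - RatFunc.X) / ((P0 P).m1 * (P0 P).m3 * RatFunc.X)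
noncomputable def a3 : RatFunc C :=
  (2 * (P0 P).p1 ^ 2 - RatFunc.X) / ((P0 P).m2 * (P0 P).m3 * RatFunc.X)

theorem algP (c : C) : algebraMap C[X] (RatFunc C) (Polynomial.C c) = algebraMap C (RatFunc C) c := by
  rw [RatFunc.algebraMap_C]; rfl

theorem a1_mul : a1 P * algebraMap C[X] (RatFunc C) (Polynomial.C (P.m1 * P.m2) * X) =
    algebraMap C[X] (RatFunc C) (X - Polynomial.C (2 * P.p3 ^ 2)) := by
  have h1 := (P0 P).m1_ne; have h2 := (P0 P).m2_ne
  have h3 : (RatFunc.X : RatFunc C) ≠ 0 := RatFunc.X_ne_zero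
  rw [map_mul, map_sub, algP, algP, RatFunc.algebraMap_X]
  simp only [map_mul, map_pow, map_ofNat, a1, Par.map_p3, Par.map_m1, Par.map_m2] at h1 h2 ⊢
  field_simp

theorem a2_mul : a2 P * algebraMap C[X] (RatFunc C) (Polynomial.C (-(P.m1 * P.m3)) * X) =
    algebraMap C[X] (RatFunc C) (X - Polynomial.C (2 * P.p2 ^ 2)) := by
  have h1 := (P0 P).m1_ne; have h2 := (P0 P).m3_ne
  have h3 : (RatFunc.X : RatFunc C) ≠ 0 := RatFunc.X_ne_zero
  rw [map_mul, map_sub, algP, algP, RatFunc.algebraMap_X]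
  simp only [map_mul, map_neg, map_pow, map_ofNat, a2, Par.map_p2, Par.map_m1, Par.map_m3] at h1 h2 ⊢
  field_simp
  ring

theorem a3_mul : a3 P * algebraMap C[X] (RatFunc C) (Polynomial.C (-(P.m2 * P.m3)) * X) =
    algebraMap C[X] (RatFunc C) (X - Polynomial.C (2 * P.p1 ^ 2)) := by
  have h1 := (P0 P).m2_ne; have h2 := (P0 P).m3_ne
  have h3 : (RatFunc.X : RatFunc C) ≠ 0 := RatFunc.X_ne_zero
  rw [map_mul, map_sub, algP, algP, RatFunc.algebraMap_X]
  simp only [map_mul, map_neg, map_pow, map_ofNat, a3, Par.map_p1, Par.map_m2, Par.map_m3] at h1 h2 ⊢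
  field_simp
  ring

theorem s12 : 2 * P.p1 ^ 2 - 2 * P.p2 ^ 2 ≠ 0 := by
  have : 2 * P.p1 ^ 2 - 2 * P.p2 ^ 2 = -(2 * (P.p3 * (P.p1 - P.p2))) := by rw [P.p3_eq]; ring
  rw [this]; exact neg_ne_zero.mpr (mul_ne_zero P.two (mul_ne_zero P.h3 P.e3))
theorem s13 : 2 * P.p1 ^ 2 - 2 * P.p3 ^ 2 ≠ 0 := by
  have : 2 * P.p1 ^ 2 - 2 * P.p3 ^ 2 = 2 * (P.p2 * (P.p3 - P.p1)) := by rw [P.p3_eq]; ring
  rw [this]; exact mul_ne_zero P.two (mul_ne_zero P.h2 P.e2)
theorem s23 : 2 * P.p2 ^ 2 - 2 * P.p3 ^ 2 ≠ 0 := by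
  have : 2 * P.p2 ^ 2 - 2 * P.p3 ^ 2 = -(2 * (P.p1 * (P.p2 - P.p3))) := by rw [P.p3_eq]; ring
  rw [this]; exact neg_ne_zero.mpr (mul_ne_zero P.two (mul_ne_zero P.h1 P.e1))

theorem nsq_a1 : ¬ IsSquare (a1 P) := by
  refine nsq_rat (e := 2 * P.p3 ^ 2) (g := 1) (h := Polynomial.C (P.m1 * P.m2) * X) ?_ ?_ ?_
  · simp
  · simp [P.m1_ne, P.m2_ne, P.two, P.h3]
  · rw [mul_one, a1_mul]

theorem nsq_a2 : ¬ IsSquare (a2 P) := by
  refine nsq_rat (e := 2 * P.p2 ^ 2) (g := 1) (h := Polynomial.C (-(P.m1 * P.m3)) * X) ?_ ?_ ?_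
  · simp
  · simp [P.m1_ne, P.m3_ne, P.two, P.h2]
  · rw [mul_one, a2_mul]

theorem nsq_a3 : ¬ IsSquare (a3 P) := by
  refine nsq_rat (e := 2 * P.p1 ^ 2) (g := 1) (h := Polynomial.C (-(P.m2 * P.m3)) * X) ?_ ?_ ?_
  · simp
  · simp [P.m2_ne, P.m3_ne, P.two, P.h1]
  · rw [mul_one, a3_mul]

theorem nsq_a21 : ¬ IsSquare (a2 P * a1 P) := by
  refine nsq_rat (e := 2 * P.p2 ^ 2) (g := X - Polynomial.C (2 * P.p3 ^ 2))
    (h := (Polynomial.C (-(P.m1 * P.m3)) * X) * (Polynomial.C (P.m1 * P.m2) * X)) ?_ ?_ ?_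
  · simpa using s23 P
  · simp [P.m1_ne, P.m2_ne, P.m3_ne, P.two, P.h2]
  · rw [map_mul _ (_ * _), map_mul _ (_ - _), ← a1_mul, ← a2_mul]; ring

theorem nsq_a31 : ¬ IsSquare (a3 P * a1 P) := by
  refine nsq_rat (e := 2 * P.p1 ^ 2) (g := X - Polynomial.C (2 * P.p3 ^ 2))
    (h := (Polynomial.C (-(P.m2 * P.m3)) * X) * (Polynomial.C (P.m1 * P.m2) * X)) ?_ ?_ ?_
  · simpa using s13 P
  · simp [P.m1_ne, P.m2_ne, P.m3_ne, P.two, P.h1]
  · rw [map_mul _ (_ * _), map_mul _ (_ - _), ← a1_mul, ← a3_mul]; ring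

theorem nsq_a32 : ¬ IsSquare (a3 P * a2 P) := by
  refine nsq_rat (e := 2 * P.p1 ^ 2) (g := X - Polynomial.C (2 * P.p2 ^ 2))
    (h := (Polynomial.C (-(P.m2 * P.m3)) * X) * (Polynomial.C (-(P.m1 * P.m3)) * X)) ?_ ?_ ?_
  · simpa using s12 P
  · simp [P.m1_ne, P.m2_ne, P.m3_ne, P.two, P.h1]
  · rw [map_mul _ (_ * _), map_mul _ (_ - _), ← a2_mul, ← a3_mul]; ring

theorem nsq_a321 : ¬ IsSquare (a3 P * a2 P * a1 P) := by
  refine nsq_rat (e := 2 * P.p1 ^ 2)
    (g := (X - Polynomial.C (2 * P.p2 ^ 2)) * (X - Polynomial.C (2 * P.p3 ^ 2)))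
    (h := (Polynomial.C (-(P.m2 * P.m3)) * X) * ((Polynomial.C (-(P.m1 * P.m3)) * X) *
      (Polynomial.C (P.m1 * P.m2) * X))) ?_ ?_ ?_
  · rw [eval_mul]
    exact mul_ne_zero (by simpa using s12 P) (by simpa using s13 P)
  · simp [P.m1_ne, P.m2_ne, P.m3_ne, P.two, P.h1]
  · rw [map_mul _ (_ * _), map_mul _ (_ * _) (_ * _), map_mul _ (_ - _), map_mul _ (_ - _),
      ← a1_mul, ← a2_mul, ← a3_mul]; ring

instance fact1 : Fact (¬ IsSquare (a1 P)) := ⟨nsq_a1 P⟩

/-- `C(u, V')` -/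
abbrev F1 := QA (RatFunc C) (a1 P)

theorem two0 (P : Par C) : (2 : RatFunc C) ≠ 0 := (P0 P).two

theorem nsq1_a2 : ¬ IsSquare (algebraMap (RatFunc C) (F1 P) (a2 P)) :=
  QA.nsq (two0 P) (nsq_a2 P) (nsq_a21 P)

theorem nsq1_a3 : ¬ IsSquare (algebraMap (RatFunc C) (F1 P) (a3 P)) :=
  QA.nsq (two0 P) (nsq_a3 P) (nsq_a31 P)

theorem nsq1_a32 : ¬ IsSquare (algebraMap (RatFunc C) (F1 P) (a3 P) *
    algebraMap (RatFunc C) (F1 P) (a2 P)) := by
  rw [← map_mul]
  exact QA.nsq (two0 P) (nsq_a32 P) (nsq_a321 P)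

/-- `R' ^ 2` -/
noncomputable def b2 : F1 P := algebraMap (RatFunc C) (F1 P) (a2 P)

instance fact2 : Fact (¬ IsSquare (b2 P)) := ⟨nsq1_a2 P⟩

/-- `C(u, V', R')` -/
abbrev F2 := QA (F1 P) (b2 P)

theorem two1 : (2 : F1 P) ≠ 0 := ((P0 P).map (algebraMap (RatFunc C) (F1 P))).two

theorem nsq2_a3 : ¬ IsSquare (algebraMap (F1 P) (F2 P) (algebraMap (RatFunc C) (F1 P) (a3 P))) :=
  QA.nsq (two1 P) (nsq1_a3 P) (nsq1_a32 P)

noncomputable def cV : RatFunc C := (P0 P).t * (P0 P).d3 * (RatFunc.X + (P0 P).p1 * (P0 P).p2)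
noncomputable def cR : RatFunc C := (P0 P).t * (P0 P).d2 * (RatFunc.X + (P0 P).p1 * (P0 P).p3)
noncomputable def cS : RatFunc C := (P0 P).t * (P0 P).d1 * (RatFunc.X + (P0 P).p2 * (P0 P).p3)

theorem X_add_ne (c : C) : (RatFunc.X : RatFunc C) + algebraMap C (RatFunc C) c ≠ 0 := by
  rw [← algP, ← RatFunc.algebraMap_X, ← map_add]
  exact RatFunc.algebraMap_ne_zero (X_add_C_ne_zero c)

theorem cS_ne : cS P ≠ 0 := by
  refine mul_ne_zero (mul_ne_zero (P0 P).ht (P0 P).d1_ne) ?_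
  have := X_add_ne (P.p2 * P.p3)
  rwa [map_mul] at this

theorem norm_id : cV P ^ 2 * a1 P - cR P ^ 2 * a2 P = cS P ^ 2 * a3 P := by
  have h1 := (P0 P).m1_ne; have h2 := (P0 P).m2_ne; have h4 := (P0 P).m3_ne
  have h3 : (RatFunc.X : RatFunc C) ≠ 0 := RatFunc.X_ne_zero
  have := (P0 P).idS RatFunc.X
  unfold cV cR cS a1 a2 a3
  field_simp
  linear_combination (P0 P).t ^ 2 * this

/-- `A ^ 2` -/
noncomputable def al : F2 P :=
  algebraMap (F1 P) (F2 P) (algebraMap (RatFunc C) (F1 P) (cV P) * QA.om (a1 P)) +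
    algebraMap (F1 P) (F2 P) (algebraMap (RatFunc C) (F1 P) (cR P)) * QA.om (b2 P)
/-- `B ^ 2` -/
noncomputable def be : F2 P :=
  algebraMap (F1 P) (F2 P) (algebraMap (RatFunc C) (F1 P) (cV P) * QA.om (a1 P)) +
    algebraMap (F1 P) (F2 P) (-algebraMap (RatFunc C) (F1 P) (cR P)) * QA.om (b2 P)

theorem norm_al : (algebraMap (RatFunc C) (F1 P) (cV P) * QA.om (a1 P)) ^ 2 -
    b2 P * algebraMap (RatFunc C) (F1 P) (cR P) ^ 2 =
    algebraMap (RatFunc C) (F1 P) (cS P) ^ 2 * algebraMap (RatFunc C) (F1 P) (a3 P) := by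
  have := congrArg (algebraMap (RatFunc C) (F1 P)) (norm_id P)
  rw [map_sub, map_mul, map_mul, map_mul, map_pow, map_pow, map_pow] at this
  rw [mul_pow, QA.om_sq, b2, ← this]
  ring

theorem cS1_ne : algebraMap (RatFunc C) (F1 P) (cS P) ≠ 0 :=
  (_root_.map_ne_zero _).mpr (cS_ne P)

theorem nsq_al : ¬ IsSquare (al P) :=
  QA.nsq_norm (by rw [norm_al]; exact nsq_mul_sq (cS1_ne P) (nsq1_a3 P))

theorem nsq_be : ¬ IsSquare (be P) :=
  QA.nsq_norm (by rw [neg_sq, norm_al]; exact nsq_mul_sq (cS1_ne P) (nsq1_a3 P))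

theorem be_al : be P * al P =
    algebraMap (F1 P) (F2 P) (algebraMap (RatFunc C) (F1 P) (cS P)) ^ 2 *
      algebraMap (F1 P) (F2 P) (algebraMap (RatFunc C) (F1 P) (a3 P)) := by
  rw [← map_pow, ← map_mul, ← norm_al, map_sub, map_mul, map_pow, map_pow, ← QA.om_sq, al, be,
    map_neg]
  ring

theorem nsq_beal : ¬ IsSquare (be P * al P) := by
  rw [be_al]
  exact nsq_mul_sq ((_root_.map_ne_zero _).mpr (cS1_ne P)) (nsq2_a3 P)

instance fact3 : Fact (¬ IsSquare (al P)) := ⟨nsq_al P⟩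

/-- the field `Y = C(u, V', R', A)` -/
abbrev YY := QA (F2 P) (al P)

theorem two2 : (2 : F2 P) ≠ 0 :=
  (((P0 P).map (algebraMap (RatFunc C) (F1 P))).map (algebraMap (F1 P) (F2 P))).two

/-- `B ^ 2` in `YY` -/
noncomputable def yB2 : YY P := algebraMap (F2 P) (YY P) (be P)
noncomputable def yA : YY P := QA.om (al P)
noncomputable def yu : YY P := algebraMap (RatFunc C) (YY P) RatFunc.X
noncomputable def yV : YY P := algebraMap (F2 P) (YY P) (algebraMap (F1 P) (F2 P) (QA.om (a1 P)))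
noncomputable def yR : YY P := algebraMap (F2 P) (YY P) (QA.om (b2 P))

theorem nsq_yB2 : ¬ IsSquare (yB2 P) := QA.nsq (two2 P) (nsq_be P) (nsq_beal P)

theorem alg_tower (f : RatFunc C) : algebraMap (RatFunc C) (YY P) f = algebraMap (F2 P) (YY P)
    (algebraMap (F1 P) (F2 P) (algebraMap (RatFunc C) (F1 P) f)) := by
  rw [IsScalarTower.algebraMap_apply (RatFunc C) (F2 P) (YY P),
    IsScalarTower.algebraMap_apply (RatFunc C) (F1 P) (F2 P)]

theorem yA_sq : yA P ^ 2 = algebraMap (RatFunc C) (YY P) (cV P) * yV P +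
    algebraMap (RatFunc C) (YY P) (cR P) * yR P := by
  rw [alg_tower, alg_tower, yV, yR, ← map_mul, ← map_mul, ← map_mul, ← map_add]
  exact QA.om_sq _

theorem yB2_eq : yB2 P = algebraMap (RatFunc C) (YY P) (cV P) * yV P -
    algebraMap (RatFunc C) (YY P) (cR P) * yR P := by
  rw [alg_tower, alg_tower, yV, yR, ← map_mul, ← map_mul, ← map_mul, ← map_sub, yB2, be, map_neg,
    neg_mul, sub_eq_add_neg]

theorem yV_sq : yV P ^ 2 = algebraMap (RatFunc C) (YY P) (a1 P) := by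
  rw [yV, ← map_pow, ← map_pow, QA.om_sq, alg_tower]

theorem yR_sq : yR P ^ 2 = algebraMap (RatFunc C) (YY P) (a2 P) := by
  rw [yR, ← map_pow, QA.om_sq, alg_tower]; rfl

/-! ### images of the constants under a ring homomorphism -/

section img

variable {K : Type*} [Field K] (φ : RatFunc C →+* K)

theorem img_a1 : φ (a1 P) = (φ RatFunc.X - 2 * ((P0 P).map φ).p3 ^ 2) /
    (((P0 P).map φ).m1 * ((P0 P).map φ).m2 * φ RatFunc.X) := by
  simp [a1, map_ofNat]
theorem img_a2 : φ (a2 P) = (2 * ((P0 P).map φ).p2 ^ 2 - φ RatFunc.X) /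
    (((P0 P).map φ).m1 * ((P0 P).map φ).m3 * φ RatFunc.X) := by
  simp [a2, map_ofNat]
theorem img_cV : φ (cV P) = ((P0 P).map φ).t * ((P0 P).map φ).d3 *
    (φ RatFunc.X + ((P0 P).map φ).p1 * ((P0 P).map φ).p2) := by
  simp [cV]
theorem img_cR : φ (cR P) = ((P0 P).map φ).t * ((P0 P).map φ).d2 *
    (φ RatFunc.X + ((P0 P).map φ).p1 * ((P0 P).map φ).p3) := by
  simp [cR]

end img

theorem P0_map_YY : (P0 P).map (algebraMap (RatFunc C) (YY P)) = P.map (algebraMap C (YY P)) := by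
  rw [Par.map_map, ← IsScalarTower.algebraMap_eq]

theorem yu_tr : Transcendental C (yu P) := by
  unfold yu
  rw [transcendental_algebraMap_iff (algebraMap (RatFunc C) (YY P)).injective]
  exact RatFunc.transcendental_X

theorem add_ne_of_tr {K : Type*} [Field K] [Algebra C K] {u : K} (h : Transcendental C u) (c : C) :
    u + algebraMap C K c ≠ 0 := by
  intro h0
  apply h
  rw [eq_neg_of_add_eq_zero_left h0, ← map_neg]
  exact isAlgebraic_algebraMap _

theorem yV_eq : (P.map (algebraMap C (YY P))).V (yA P) (yB2 P) =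
    (yu P + (P.map (algebraMap C (YY P))).p1 * (P.map (algebraMap C (YY P))).p2) * yV P ∧
    (P.map (algebraMap C (YY P))).R (yA P) (yB2 P) =
    (yu P + (P.map (algebraMap C (YY P))).p1 * (P.map (algebraMap C (YY P))).p3) * yR P := by
  have h1 := yA_sq P
  have h2 := yB2_eq P
  rw [img_cV, img_cR, P0_map_YY] at h1 h2
  constructor
  · apply Par.V_of _ (r := (yu P + (P.map (algebraMap C (YY P))).p1 *
      (P.map (algebraMap C (YY P))).p3) * yR P)
    · rw [h1, yu]; ring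
    · rw [h2, yu]; ring
  · apply Par.R_of _ (v := (yu P + (P.map (algebraMap C (YY P))).p1 *
      (P.map (algebraMap C (YY P))).p2) * yV P)
    · rw [h1, yu]; ring
    · rw [h2, yu]; ring

theorem yu_ne : yu P ≠ 0 := by simpa using add_ne_of_tr (yu_tr P) 0

theorem y_eq2 : (P.map (algebraMap C (YY P))).E2 (yA P) (yB2 P) (yu P) := by
  rw [Par.E2_iff, (yV_eq P).1, mul_pow, yV_sq, img_a1, P0_map_YY]
  have h1 := (P.map (algebraMap C (YY P))).m1_ne
  have h2 := (P.map (algebraMap C (YY P))).m2_ne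
  have h3 := yu_ne P
  unfold yu at h3 ⊢
  field_simp

theorem y_eq1 : (P.map (algebraMap C (YY P))).E1 (yA P) (yB2 P) := by
  rw [Par.E1_iff, (yV_eq P).1, (yV_eq P).2, mul_pow, mul_pow, yV_sq, yR_sq,
    img_a1 P (algebraMap (RatFunc C) (YY P)), img_a2 P (algebraMap (RatFunc C) (YY P)),
    P0_map_YY]
  have h1 := (P.map (algebraMap C (YY P))).m1_ne
  have h2 := (P.map (algebraMap C (YY P))).m2_ne
  have h4 := (P.map (algebraMap C (YY P))).m3_ne
  have h3 := yu_ne P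
  have h5 := (P.map (algebraMap C (YY P))).idR (yu P)
  unfold yu at h3 h5 ⊢
  field_simp
  linear_combination h5

theorem mem_rat {K : Type*} [Field K] (φ : RatFunc C →+* K) (S : Subfield K)
    (h1 : ∀ c, φ (algebraMap C _ c) ∈ S) (h2 : φ RatFunc.X ∈ S) (z : RatFunc C) : φ z ∈ S := by
  have hp : ∀ p : C[X], φ (algebraMap C[X] _ p) ∈ S := by
    intro p
    induction p using Polynomial.induction_on' with
    | add p q hp hq => rw [map_add, map_add]; exact S.add_mem hp hq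
    | monomial n c =>
      rw [← C_mul_X_pow_eq_monomial, map_mul, map_mul, map_pow, map_pow, algP,
        RatFunc.algebraMap_X]
      exact S.mul_mem (h1 c) (S.pow_mem h2 n)
  rw [← z.num_div_denom, map_div₀]
  exact S.div_mem (hp _) (hp _)

section mem

variable {K : Type*} [Field K] [Algebra C K] (S : IntermediateField C K) {A B B2 u : K}

theorem two_mem : (2 : K) ∈ S := by simpa using S.natCast_mem 2

theorem V_mem (hA : A ∈ S) (hB : B2 ∈ S) : (P.map (algebraMap C K)).V A B2 ∈ S :=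
  S.div_mem (S.add_mem (pow_mem hA 2) hB)
    (S.mul_mem (S.mul_mem (two_mem S) (S.algebraMap_mem _)) (by
      rw [Par.map_d3]; exact S.algebraMap_mem _))

theorem R_mem (hA : A ∈ S) (hB : B2 ∈ S) : (P.map (algebraMap C K)).R A B2 ∈ S :=
  S.div_mem (S.sub_mem (pow_mem hA 2) hB)
    (S.mul_mem (S.mul_mem (two_mem S) (S.algebraMap_mem _)) (by
      rw [Par.map_d2]; exact S.algebraMap_mem _))

theorem S_mem (hA : A ∈ S) (hB : B ∈ S) : (P.map (algebraMap C K)).S A B ∈ S :=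
  S.div_mem (S.mul_mem hA hB)
    (S.mul_mem (S.algebraMap_mem _) (by rw [Par.map_d1]; exact S.algebraMap_mem _))

theorem mem_of_mul (h : Transcendental C u) (hu : u ∈ S) (a b : C) {a' b' v w : K}
    (ha : a' = algebraMap C K a) (hb : b' = algebraMap C K b) (e : w = (u + a' * b') * v)
    (hv : w ∈ S) : v ∈ S := by
  subst ha hb e
  have h0 := add_ne_of_tr h (a * b)
  rw [map_mul] at h0
  have : v = (u + algebraMap C K a * algebraMap C K b) * v /
      (u + algebraMap C K a * algebraMap C K b) := by field_simp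
  rw [this]
  exact S.div_mem hv (S.add_mem hu (S.mul_mem (S.algebraMap_mem _) (S.algebraMap_mem _)))

end mem

theorem y_mem (S : IntermediateField C (YY P)) (hA : yA P ∈ S) (hB : yB2 P ∈ S) (hu : yu P ∈ S)
    (z : YY P) : z ∈ S := by
  have hV : yV P ∈ S := mem_of_mul S (yu_tr P) hu P.p1 P.p2 (Par.map_p1 P _) (Par.map_p2 P _)
    (yV_eq P).1 (V_mem P S hA hB)
  have hR : yR P ∈ S := mem_of_mul S (yu_tr P) hu P.p1 P.p3 (Par.map_p1 P _) (Par.map_p3 P _)
    (yV_eq P).2 (R_mem P S hA hB)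
  have h0 : ∀ c, algebraMap (RatFunc C) (YY P) c ∈ S.toSubfield :=
    mem_rat (algebraMap (RatFunc C) (YY P)) S.toSubfield (fun c => by
      rw [← IsScalarTower.algebraMap_apply]; exact S.algebraMap_mem c) hu
  have h1 : ∀ c, ((algebraMap (F2 P) (YY P)).comp (algebraMap (F1 P) (F2 P))) c ∈ S.toSubfield :=
    QA.mem ((algebraMap (F2 P) (YY P)).comp (algebraMap (F1 P) (F2 P))) S.toSubfield
      (fun c => by have := h0 c; rwa [alg_tower] at this) hV
  have h2 : ∀ c, algebraMap (F2 P) (YY P) c ∈ S.toSubfield :=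
    QA.mem (algebraMap (F2 P) (YY P)) S.toSubfield h1 hR
  exact QA.mem (RingHom.id (YY P)) S.toSubfield h2 hA z

theorem y_gen : IntermediateField.adjoin C {yA P, yB2 P, yu P} = ⊤ := by
  rw [eq_top_iff]
  intro z _
  exact y_mem P _ (IntermediateField.subset_adjoin _ _ (Set.mem_insert _ _))
    (IntermediateField.subset_adjoin _ _ (Set.mem_insert_of_mem _ (Set.mem_insert _ _)))
    (IntermediateField.subset_adjoin _ _
      (Set.mem_insert_of_mem _ (Set.mem_insert_of_mem _ (Set.mem_singleton _)))) z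

theorem isY_YY : IsY P (yA P) (yB2 P) (yu P) := ⟨y_eq1 P, y_eq2 P, yu_tr P, y_gen P⟩

/-! ### the universal property -/

section hom

variable {K : Type*} [Field K] (s : C →+* K) {A B2 u : K}

/-- transcendence along `s` -/
def Tr (s : C →+* K) (u : K) : Prop := ∀ p : C[X], p.eval₂ s u = 0 → p = 0

theorem Tr.of_tr [Algebra C K] {u : K} (h : Transcendental C u) : Tr (algebraMap C K) u :=
  fun p hp => (transcendental_iff.mp h) p hp

theorem Tr.add_ne {s : C →+* K} (h : Tr s u) (c : C) : u + s c ≠ 0 := by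
  intro h0
  have := h (X + Polynomial.C c) (by simpa using h0)
  exact X_add_C_ne_zero c this

/-- the map on `C(u)` -/
noncomputable def hom0 (h : Tr s u) : RatFunc C →+* K :=
  RatFunc.liftRingHom (eval₂RingHom s u) (by
    intro p hp
    rw [Submonoid.mem_comap, mem_nonZeroDivisors_iff_ne_zero]
    intro h0
    exact nonZeroDivisors.ne_zero hp (h p h0))

theorem hom0_poly (h : Tr s u) (p : C[X]) : hom0 s h (algebraMap C[X] _ p) = p.eval₂ s u := by
  have := RatFunc.liftRingHom_apply_div (eval₂RingHom s u) (by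
    intro p hp
    rw [Submonoid.mem_comap, mem_nonZeroDivisors_iff_ne_zero]
    intro h0
    exact nonZeroDivisors.ne_zero hp (h p h0)) p 1
  simpa [hom0] using this

theorem hom0_X (h : Tr s u) : hom0 s h RatFunc.X = u := by
  rw [← RatFunc.algebraMap_X, hom0_poly, eval₂_X]

theorem hom0_C (h : Tr s u) (c : C) : hom0 s h (algebraMap C _ c) = s c := by
  rw [← algP, hom0_poly, eval₂_C]

theorem P0_hom0 (h : Tr s u) : (P0 P).map (hom0 s h) = P.map s := by
  rw [Par.map_map]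
  congr 1
  ext c
  exact hom0_C s h c

theorem exists_homY (h : Tr s u) (h1 : (P.map s).E1 A B2) (h2 : (P.map s).E2 A B2 u) :
    ∃ φ : YY P →+* K, (∀ c, φ (algebraMap C _ c) = s c) ∧ φ (yA P) = A ∧ φ (yB2 P) = B2 ∧
      φ (yu P) = u := by
  have hu := Par.u_ne h2
  have ha : u + (P.map s).p1 * (P.map s).p2 ≠ 0 := by
    have := h.add_ne (P.p1 * P.p2); rwa [map_mul] at this
  have hb : u + (P.map s).p1 * (P.map s).p3 ≠ 0 := by
    have := h.add_ne (P.p1 * P.p3); rwa [map_mul] at this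
  have m1 := (P.map s).m1_ne
  have m2 := (P.map s).m2_ne
  have m3 := (P.map s).m3_ne
  have eV : ((P.map s).V A B2 / (u + (P.map s).p1 * (P.map s).p2)) ^ 2 = hom0 s h (a1 P) := by
    rw [img_a1, P0_hom0, hom0_X]
    have := Par.V_sq h2
    field_simp
    linear_combination this
  obtain ⟨φ1, c1, o1⟩ := QA.exists_lift (hom0 s h) _ eV
  have eR : ((P.map s).R A B2 / (u + (P.map s).p1 * (P.map s).p3)) ^ 2 = φ1 (b2 P) := by
    rw [b2, c1, img_a2, P0_hom0, hom0_X]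
    have := Par.R_sq h1 h2
    field_simp
    linear_combination this
  obtain ⟨φ2, c2, o2⟩ := QA.exists_lift φ1 _ eR
  have eA : A ^ 2 = φ2 (al P) := by
    rw [al, map_add, map_mul φ2, c2, c2, o2, map_mul, c1, c1, o1, img_cV, img_cR, P0_hom0, hom0_X,
      (P.map s).A_sq A B2]
    field_simp
  have eB : B2 = φ2 (be P) := by
    rw [be, map_add, map_mul φ2, c2, c2, o2, map_mul, map_neg, c1, c1, o1, img_cV, img_cR,
      P0_hom0, hom0_X]
    conv_lhs => rw [(P.map s).B_sq A B2]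
    field_simp
    ring
  obtain ⟨φ3, c3, o3⟩ := QA.exists_lift φ2 A eA
  refine ⟨φ3, fun c => ?_, o3, ?_, ?_⟩
  · rw [IsScalarTower.algebraMap_apply C (RatFunc C) (YY P), alg_tower, c3, c2, c1, hom0_C]
  · rw [yB2, c3, ← eB]
  · rw [yu, alg_tower, c3, c2, c1, hom0_X]

end hom

end Crest.Agent.T15.Kf
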