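import Mathlib
import Crest.Agent.T15.KfB_83
import Crest.Agent.R013.Frob1_914

/-!
# Row 15, block F (helper83): the fields `Y ⊆ K`, part C: rigidity and automorphisms

* `IsY.exists_hom`, `IsK.exists_hom`, `IsY.si`, `IsK.si`, `IsY.aut`, `IsK.aut`;
* the automorphisms `x`, `k`, `g`, `y`, `io`, `r` of `K` and their relations; `sg`.
-/

set_option autoImplicit false
set_option linter.all false

namespace Crest.Agent.T15.Kf

open Polynomial IntermediateField
open Crest.Agent.R013.Frob1_914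

/-! ### the cubic -/

namespace Par

variable {K : Type*} [Field K] (Q : Par K)

theorem V_swap (A B : K) : Q.V (-B) (A ^ 2) = Q.V A (B ^ 2) := by unfold V; ring
theorem R_swap (A B : K) : Q.R (-B) (A ^ 2) = -Q.R A (B ^ 2) := by unfold R; ring
theorem V_neg (A B2 : K) : Q.V (-A) B2 = Q.V A B2 := by unfold V; ring
theorem R_neg (A B2 : K) : Q.R (-A) B2 = Q.R A B2 := by unfold R; ring
theorem V_i {i : K} (hi : i ^ 2 = -1) (A B2 : K) : Q.V (i * A) (-B2) = -Q.V A B2 := by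
  unfold V; rw [mul_pow, hi]; ring
theorem R_i {i : K} (hi : i ^ 2 = -1) (A B2 : K) : Q.R (i * A) (-B2) = -Q.R A B2 := by
  unfold R; rw [mul_pow, hi]; ring
theorem i_sq {i : K} (hi : i ^ 2 = -1) (B : K) : (i * B) ^ 2 = -B ^ 2 := by
  rw [mul_pow, hi]; ring

theorem nx_swap (A B u : K) : Q.nx (-B) A u = Q.nx A B u := by
  unfold nx; rw [V_swap, R_swap]; unfold S; ring
theorem nx_neg_neg (A B u : K) : Q.nx (-A) (-B) u = Q.nx A B u := by
  unfold nx; rw [V_neg, R_neg, neg_sq]; unfold S; ring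
theorem nx_neg_left (A B u : K) : Q.nx (-A) B u = Q.nx A (-B) u := by
  rw [← nx_neg_neg, neg_neg]
theorem nx_i {i : K} (hi : i ^ 2 = -1) (A B u : K) : Q.nx (i * A) (i * B) u = Q.nx A (-B) u := by
  unfold nx
  rw [i_sq hi, V_i _ hi, R_i _ hi, neg_sq]
  have : Q.S (i * A) (i * B) = Q.S A (-B) := by
    unfold S; congr 1; linear_combination A * B * hi
  rw [this]; ring

variable {Q}

theorem E1.swap {A B : K} (h : Q.E1 A (B ^ 2)) : Q.E1 (-B) (A ^ 2) := by
  unfold E1 at *; linear_combination h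
theorem E2.swap {A B u : K} (h : Q.E2 A (B ^ 2) u) : Q.E2 (-B) (A ^ 2) u := by
  unfold E2 X at *; rwa [V_swap]
theorem E1.neg {A B2 : K} (h : Q.E1 A B2) : Q.E1 (-A) B2 := by
  unfold E1 at *; linear_combination h
theorem E2.neg {A B2 u : K} (h : Q.E2 A B2 u) : Q.E2 (-A) B2 u := by
  unfold E2 X at *; rwa [V_neg]
theorem E1.mul_i {i A B2 : K} (hi : i ^ 2 = -1) (h : Q.E1 A B2) : Q.E1 (i * A) (-B2) := by
  unfold E1 at *; rw [mul_assoc (4 * Q.n3), i_sq hi]; linear_combination h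
theorem E2.mul_i {i A B2 u : K} (hi : i ^ 2 = -1) (h : Q.E2 A B2 u) : Q.E2 (i * A) (-B2) u := by
  unfold E2 X at *; rwa [V_i _ hi, neg_sq]

theorem nx_add (A B u : K) : Q.nx A B u + Q.nx A (-B) u = -2 * Q.q - u := by
  have := Q.two
  unfold nx; rw [neg_sq]; unfold S; field_simp; ring

theorem nx_sub (A B u : K) : Q.nx A B u - Q.nx A (-B) u =
    Q.m1 * Q.m2 * Q.m3 * u * (Q.V A (B ^ 2) / (u + Q.p1 * Q.p2)) *
      (Q.R A (B ^ 2) / (u + Q.p1 * Q.p3)) * (Q.S A B / (u + Q.p2 * Q.p3)) := by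
  have := Q.two
  unfold nx; rw [neg_sq]
  have : Q.S A (-B) = -Q.S A B := by unfold S; ring
  rw [this]; field_simp; ring

theorem abc (u : K) : (u + Q.p1 * Q.p2) * (u + Q.p1 * Q.p3) * (u + Q.p2 * Q.p3) =
    u ^ 3 + Q.q * u ^ 2 + Q.pi := by
  simp only [q, pi, Q.p3_eq]; ring

variable {A B u : K} (h1 : Q.E1 A (B ^ 2)) (h2 : Q.E2 A (B ^ 2) u)
  (ha : u + Q.p1 * Q.p2 ≠ 0) (hb : u + Q.p1 * Q.p3 ≠ 0) (hc : u + Q.p2 * Q.p3 ≠ 0)

include h1 h2 ha hb hc

theorem nx_mul : u * (Q.nx A B u * Q.nx A (-B) u) = 2 * Q.pi := by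
  have hu := u_ne h2
  have a := V_sq h2
  have b := R_sq h1 h2
  have c := S_sq h1 h2
  have e1 := nx_add (Q := Q) A B u
  have e2 := nx_sub (Q := Q) A B u
  have a' : Q.m1 * Q.m2 * (Q.V A (B ^ 2) / (u + Q.p1 * Q.p2)) ^ 2 * u = u - 2 * Q.p3 ^ 2 := by
    field_simp; linear_combination a
  have b' : Q.m1 * Q.m3 * (Q.R A (B ^ 2) / (u + Q.p1 * Q.p3)) ^ 2 * u = 2 * Q.p2 ^ 2 - u := by
    field_simp; linear_combination b
  have c' : Q.m2 * Q.m3 * (Q.S A B / (u + Q.p2 * Q.p3)) ^ 2 * u = 2 * Q.p1 ^ 2 - u := by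
    field_simp; linear_combination c
  have e3 : u * (Q.nx A B u - Q.nx A (-B) u) ^ 2 =
      (u - 2 * Q.p3 ^ 2) * (2 * Q.p2 ^ 2 - u) * (2 * Q.p1 ^ 2 - u) := by
    rw [e2, ← a', ← b', ← c']; ring
  have e4 : (u - 2 * Q.p3 ^ 2) * (2 * Q.p2 ^ 2 - u) * (2 * Q.p1 ^ 2 - u) =
      u * (-2 * Q.q - u) ^ 2 - 8 * Q.pi := by
    simp only [q, pi, Q.p3_eq]; ring
  apply mul_left_cancel₀ (mul_ne_zero Q.two Q.two)
  rw [e4, ← e1] at e3
  linear_combination -e3

theorem E2_nx : Q.E2 A (B ^ 2) (Q.nx A B u) := by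
  have hu := u_ne h2
  have e1 := nx_add (Q := Q) A B u
  have e2 := nx_mul h1 h2 ha hb hc
  unfold E2 at *
  apply mul_left_cancel₀ hu
  set u' := Q.nx A B u
  have e3 : Q.nx A (-B) u = -2 * Q.q - u - u' := by linear_combination e1
  rw [e3] at e2
  linear_combination u' * h2 + (u - u') * e2

theorem nx_prod : u * ((u - Q.nx A B u) * (u - Q.nx A (-B) u)) =
    2 * ((u + Q.p1 * Q.p2) * (u + Q.p1 * Q.p3) * (u + Q.p2 * Q.p3)) := by
  have e1 := nx_add (Q := Q) A B u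
  have e2 := nx_mul h1 h2 ha hb hc
  rw [abc]
  linear_combination e2 - u ^ 2 * e1

theorem nx_ne : Q.nx A B u ≠ u := by
  intro h
  have := nx_prod h1 h2 ha hb hc
  rw [h, sub_self, zero_mul, mul_zero] at this
  exact mul_ne_zero Q.two (mul_ne_zero (mul_ne_zero ha hb) hc) this.symm

theorem nx_nx_aux (ha' : Q.nx A B u + Q.p1 * Q.p2 ≠ 0) (hb' : Q.nx A B u + Q.p1 * Q.p3 ≠ 0)
    (hc' : Q.nx A B u + Q.p2 * Q.p3 ≠ 0) :
    Q.nx A B (Q.nx A B u) - Q.nx A (-B) (Q.nx A B u) = Q.nx A (-B) u - u := by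
  have hu := u_ne h2
  have e1 := nx_add (Q := Q) A B u
  have e2 := nx_mul h1 h2 ha hb hc
  have e3 := nx_prod h1 h2 ha hb hc
  have e4 := nx_sub (Q := Q) A B u
  have e5 := abc (Q := Q) (Q.nx A B u)
  rw [nx_sub]
  set u' := Q.nx A B u
  set u'' := Q.nx A (-B) u
  have e6 : (u' - u'') * ((u + Q.p1 * Q.p2) * (u + Q.p1 * Q.p3) * (u + Q.p2 * Q.p3)) =
      Q.m1 * Q.m2 * Q.m3 * u * Q.V A (B ^ 2) * Q.R A (B ^ 2) * Q.S A B := by
    rw [e4]; field_simp
  have e7 : 2 * ((u' + Q.p1 * Q.p2) * (u' + Q.p1 * Q.p3) * (u' + Q.p2 * Q.p3)) =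
      u' * ((u' - u) * (u' - u'')) := by
    rw [e5]; linear_combination u' ^ 2 * e1 - e2
  have e8 : Q.m1 * Q.m2 * Q.m3 * u' * Q.V A (B ^ 2) * Q.R A (B ^ 2) * Q.S A B =
      (u'' - u) * ((u' + Q.p1 * Q.p2) * (u' + Q.p1 * Q.p3) * (u' + Q.p2 * Q.p3)) := by
    apply mul_left_cancel₀ (mul_ne_zero Q.two hu)
    linear_combination (-2 * u') * e6 - u' * (u' - u'') * e3 - u * (u'' - u) * e7
  field_simp
  linear_combination e8

theorem nx_nx (ha' : Q.nx A B u + Q.p1 * Q.p2 ≠ 0) (hb' : Q.nx A B u + Q.p1 * Q.p3 ≠ 0)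
    (hc' : Q.nx A B u + Q.p2 * Q.p3 ≠ 0) : Q.nx A B (Q.nx A B u) = Q.nx A (-B) u := by
  have e1 := nx_nx_aux h1 h2 ha hb hc ha' hb' hc'
  have e2 := nx_add (Q := Q) A B (Q.nx A B u)
  have e3 := nx_add (Q := Q) A B u
  apply mul_left_cancel₀ Q.two
  linear_combination e1 + e2 - e3

theorem ny_nx (ha' : Q.nx A B u + Q.p1 * Q.p2 ≠ 0) (hb' : Q.nx A B u + Q.p1 * Q.p3 ≠ 0)
    (hc' : Q.nx A B u + Q.p2 * Q.p3 ≠ 0) : Q.nx A (-B) (Q.nx A B u) = u := by
  have e1 := nx_nx_aux h1 h2 ha hb hc ha' hb' hc'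
  have e2 := nx_add (Q := Q) A B (Q.nx A B u)
  have e3 := nx_add (Q := Q) A B u
  apply mul_left_cancel₀ Q.two
  linear_combination -e1 + e2 - e3

end Par

/-! ### rigidity -/

section rigid

variable {C : Type*} [Field C] {P : Par C} {C' : Type*} [Field C'] {P' : Par C'}
  {K : Type*} [Field K] [Algebra C K] {K' : Type*} [Field K']

theorem hom_ext {S : Set K} (hS : adjoin C S = ⊤) {φ ψ : K →+* K'}
    (hc : ∀ c, φ (algebraMap C K c) = ψ (algebraMap C K c)) (hs : ∀ a ∈ S, φ a = ψ a) : φ = ψ := by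
  ext z
  have hz : z ∈ adjoin C S := by rw [hS]; exact mem_top
  induction hz using adjoin_induction with
  | mem a ha => exact hs a ha
  | algebraMap c => exact hc c
  | add a b _ _ ha hb => rw [map_add, map_add, ha, hb]
  | inv a _ ha => rw [map_inv₀, map_inv₀, ha]
  | mul a b _ _ ha hb => rw [map_mul, map_mul, ha, hb]

theorem hom_ext3 {a b c : K} (hS : adjoin C {a, b, c} = ⊤) {φ ψ : K →+* K'}
    (hc : ∀ c, φ (algebraMap C K c) = ψ (algebraMap C K c)) (h1 : φ a = ψ a) (h2 : φ b = ψ b)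
    (h3 : φ c = ψ c) : φ = ψ :=
  hom_ext hS hc (by
    intro z hz
    rcases hz with rfl | rfl | rfl <;> assumption)

theorem mem3 (a b c : K) : a ∈ adjoin C {a, b, c} ∧ b ∈ adjoin C {a, b, c} ∧
    c ∈ adjoin C {a, b, c} :=
  ⟨subset_adjoin _ _ (by simp), subset_adjoin _ _ (by simp), subset_adjoin _ _ (by simp)⟩

theorem eq_top3 {a b c : K} (hS : adjoin C {a, b, c} = ⊤) {T : IntermediateField C K}
    (h1 : a ∈ T) (h2 : b ∈ T) (h3 : c ∈ T) : T = ⊤ := by
  rw [eq_top_iff, ← hS, adjoin_le_iff]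
  intro z hz
  rcases hz with rfl | rfl | rfl <;> assumption

theorem surj3 {L : Type*} [Field L] [Algebra C L] {a b c : K} (hS : adjoin C {a, b, c} = ⊤)
    (φ : L →ₐ[C] K) (h1 : a ∈ φ.fieldRange) (h2 : b ∈ φ.fieldRange) (h3 : c ∈ φ.fieldRange) :
    Function.Surjective φ := fun z => by
  have : z ∈ φ.fieldRange := by rw [eq_top3 hS h1 h2 h3]; exact mem_top
  exact this

theorem Tr.comp [Algebra C' K'] {u : K'} (h : Transcendental C' u) (s : C →+* C') :
    Tr ((algebraMap C' K').comp s) u := fun p hp => by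
  rw [← eval₂_map] at hp
  exact (Polynomial.map_eq_zero s).mp (Tr.of_tr h _ hp)

theorem IsY.exists_equiv {A B2 u : K} (h : IsY P A B2 u) :
    ∃ e : YY P ≃ₐ[C] K, e (yA P) = A ∧ e (yB2 P) = B2 ∧ e (yu P) = u := by
  obtain ⟨φ, hc, h1, h2, h3⟩ := exists_homY P (algebraMap C K) (Tr.of_tr h.tr) h.eq1 h.eq2
  let φ' : YY P →ₐ[C] K := ⟨φ, hc⟩
  exact ⟨AlgEquiv.ofBijective φ' ⟨φ.injective, surj3 h.gen φ' ⟨_, h1⟩ ⟨_, h2⟩ ⟨_, h3⟩⟩, h1, h2, h3⟩

theorem IsY.exists_hom {A B2 u : K} (h : IsY P A B2 u) (s : C →+* K') {A' B2' u' : K'}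
    (ht : Tr s u') (h1 : (P.map s).E1 A' B2') (h2 : (P.map s).E2 A' B2' u') :
    ∃ φ : K →+* K', (∀ c, φ (algebraMap C _ c) = s c) ∧ φ A = A' ∧ φ B2 = B2' ∧ φ u = u' := by
  obtain ⟨e, e1, e2, e3⟩ := h.exists_equiv
  obtain ⟨φ, hc, f1, f2, f3⟩ := exists_homY P s ht h1 h2
  refine ⟨φ.comp (e.symm : K →+* YY P), fun c => ?_, ?_, ?_, ?_⟩
  · show φ (e.symm _) = _
    rw [e.symm.commutes, hc]
  · show φ (e.symm _) = _
    rw [← e1, e.symm_apply_apply, f1]
  · show φ (e.symm _) = _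
    rw [← e2, e.symm_apply_apply, f2]
  · show φ (e.symm _) = _
    rw [← e3, e.symm_apply_apply, f3]

theorem IsY.nsq {A B2 u : K} (h : IsY P A B2 u) : ¬ IsSquare B2 := by
  obtain ⟨e, e1, e2, e3⟩ := h.exists_equiv
  rintro ⟨b, hb⟩
  refine nsq_yB2 P ⟨e.symm b, e.injective ?_⟩
  rw [e2, map_mul, e.apply_symm_apply, hb]

variable (P) in
instance fact4 : Fact (¬ IsSquare (yB2 P)) := ⟨nsq_yB2 P⟩

variable (P) in
/-- the field `K = Y(B)` -/
abbrev KK := QA (YY P) (yB2 P)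

/-- `K = Y(B)` is a model -/
theorem IsY.isK {Y : Type*} [Field Y] [Algebra C Y] [Algebra Y K] [IsScalarTower C Y K]
    {A B2 u : Y} (h : IsY P A B2 u) {B : K} (hB : B ^ 2 = algebraMap Y K B2)
    (hg : adjoin Y {B} = ⊤) : IsK P (algebraMap Y K A) B (algebraMap Y K u) := by
  have hP : (P.map (algebraMap C Y)).map (algebraMap Y K) = P.map (algebraMap C K) := by
    rw [Par.map_map, ← IsScalarTower.algebraMap_eq]
  refine ⟨?_, ?_, ?_, ?_⟩
  · rw [hB, ← hP, Par.map_E1]; exact h.eq1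
  · rw [hB, ← hP, Par.map_E2]; exact h.eq2
  · rw [transcendental_algebraMap_iff (algebraMap Y K).injective]; exact h.tr
  · obtain ⟨m1, m2, m3⟩ := mem3 (C := C) (algebraMap Y K A) B (algebraMap Y K u)
    set T := adjoin C {algebraMap Y K A, B, algebraMap Y K u}
    have hY : ∀ y : Y, algebraMap Y K y ∈ T := by
      intro y
      have : T.comap (IsScalarTower.toAlgHom C Y K) = ⊤ :=
        eq_top3 h.gen m1 (by
          show algebraMap Y K B2 ∈ T
          rw [← hB]; exact pow_mem m2 2) m3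
      have h2 : y ∈ T.comap (IsScalarTower.toAlgHom C Y K) := by rw [this]; exact mem_top
      exact h2
    rw [eq_top_iff]
    intro z _
    have hz : z ∈ adjoin Y {B} := by rw [hg]; exact mem_top
    induction hz using adjoin_induction with
    | mem a ha => rw [ha]; exact m2
    | algebraMap c => exact hY c
    | add a b _ _ ha hb => exact T.add_mem (ha mem_top) (hb mem_top)
    | inv a _ ha => exact T.inv_mem (ha mem_top)
    | mul a b _ _ ha hb => exact T.mul_mem (ha mem_top) (hb mem_top)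

theorem QA.adjoin_om {F : Type*} [Field F] (a : F) [Fact (¬ IsSquare a)] :
    adjoin F {QA.om a} = ⊤ := by
  rw [eq_top_iff]
  intro z _
  obtain ⟨b, c, rfl⟩ := QA.exists_eq z
  exact add_mem (IntermediateField.algebraMap_mem _ _)
    (mul_mem (IntermediateField.algebraMap_mem _ _) (mem_adjoin_simple_self _ _))

variable (P) in
theorem isK_KK : IsK P (algebraMap (YY P) (KK P) (yA P)) (QA.om (yB2 P))
    (algebraMap (YY P) (KK P) (yu P)) :=
  (isY_YY P).isK (QA.om_sq _) (QA.adjoin_om _)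

variable (P) in
theorem exists_homK (s : C →+* K') {A B u : K'} (ht : Tr s u) (h1 : (P.map s).E1 A (B ^ 2))
    (h2 : (P.map s).E2 A (B ^ 2) u) :
    ∃ φ : KK P →+* K', (∀ c, φ (algebraMap C _ c) = s c) ∧
      φ (algebraMap (YY P) (KK P) (yA P)) = A ∧ φ (QA.om (yB2 P)) = B ∧
      φ (algebraMap (YY P) (KK P) (yu P)) = u := by
  obtain ⟨φ, hc, f1, f2, f3⟩ := exists_homY P s ht h1 h2
  obtain ⟨ψ, c1, o1⟩ := QA.exists_lift φ B f2.symm
  refine ⟨ψ, fun c => ?_, by rw [c1, f1], o1, by rw [c1, f3]⟩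
  rw [IsScalarTower.algebraMap_apply C (YY P) (KK P), c1, hc]

theorem IsK.exists_equiv {A B u : K} (h : IsK P A B u) :
    ∃ e : KK P ≃ₐ[C] K, e (algebraMap (YY P) (KK P) (yA P)) = A ∧ e (QA.om (yB2 P)) = B ∧
      e (algebraMap (YY P) (KK P) (yu P)) = u := by
  obtain ⟨φ, hc, h1, h2, h3⟩ := exists_homK P (algebraMap C K) (Tr.of_tr h.tr) h.eq1 h.eq2
  let φ' : KK P →ₐ[C] K := ⟨φ, hc⟩
  exact ⟨AlgEquiv.ofBijective φ' ⟨φ.injective, surj3 h.gen φ' ⟨_, h1⟩ ⟨_, h2⟩ ⟨_, h3⟩⟩, h1, h2, h3⟩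

theorem IsK.exists_hom {A B u : K} (h : IsK P A B u) (s : C →+* K') {A' B' u' : K'}
    (ht : Tr s u') (h1 : (P.map s).E1 A' (B' ^ 2)) (h2 : (P.map s).E2 A' (B' ^ 2) u') :
    ∃ φ : K →+* K', (∀ c, φ (algebraMap C _ c) = s c) ∧ φ A = A' ∧ φ B = B' ∧ φ u = u' := by
  obtain ⟨e, e1, e2, e3⟩ := h.exists_equiv
  obtain ⟨φ, hc, f1, f2, f3⟩ := exists_homK P s ht h1 h2
  refine ⟨φ.comp (e.symm : K →+* KK P), fun c => ?_, ?_, ?_, ?_⟩
  · show φ (e.symm _) = _
    rw [e.symm.commutes, hc]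
  · show φ (e.symm _) = _
    rw [← e1, e.symm_apply_apply, f1]
  · show φ (e.symm _) = _
    rw [← e2, e.symm_apply_apply, f2]
  · show φ (e.symm _) = _
    rw [← e3, e.symm_apply_apply, f3]

variable [Algebra C' K']

theorem si_of {a b c : K} {a' b' c' : K'} (hS : adjoin C' {a', b', c'} = ⊤) (s : C ≃+* C')
    (φ : K →+* K') (hc : ∀ c, φ (algebraMap C _ c) = algebraMap C' K' (s c)) (h1 : φ a = a')
    (h2 : φ b = b') (h3 : φ c = c') :
    ∃ e : SI C K C' K', e.s = s ∧ e.f a = a' ∧ e.f b = b' ∧ e.f c = c' := by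
  have hsurj : Function.Surjective φ := by
    let T : IntermediateField C' K' := φ.fieldRange.toIntermediateField fun c =>
      ⟨algebraMap C K (s.symm c), by rw [hc, s.apply_symm_apply]⟩
    intro z
    have : z ∈ T := by
      rw [eq_top3 hS (T := T) ⟨_, h1⟩ ⟨_, h2⟩ ⟨_, h3⟩]; exact mem_top
    exact this
  exact ⟨⟨s, RingEquiv.ofBijective φ ⟨φ.injective, hsurj⟩, hc⟩, rfl, h1, h2, h3⟩

theorem IsY.exists_si {A B2 u : K} (h : IsY P A B2 u) {A' B2' u' : K'} (h' : IsY P' A' B2' u')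
    (s : C ≃+* C') (hs : P.map (s : C →+* C') = P') :
    ∃ e : SI C K C' K', e.s = s ∧ e.f A = A' ∧ e.f B2 = B2' ∧ e.f u = u' := by
  subst hs
  obtain ⟨φ, hc, h1, h2, h3⟩ := h.exists_hom ((algebraMap C' K').comp (s : C →+* C'))
    (Tr.comp h'.tr _) h'.eq1 h'.eq2
  exact si_of h'.gen s φ hc h1 h2 h3

theorem IsK.exists_si {A B u : K} (h : IsK P A B u) {A' B' u' : K'} (h' : IsK P' A' B' u')
    (s : C ≃+* C') (hs : P.map (s : C →+* C') = P') :
    ∃ e : SI C K C' K', e.s = s ∧ e.f A = A' ∧ e.f B = B' ∧ e.f u = u' := by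
  subst hs
  obtain ⟨φ, hc, h1, h2, h3⟩ := h.exists_hom ((algebraMap C' K').comp (s : C →+* C'))
    (Tr.comp h'.tr _) h'.eq1 h'.eq2
  exact si_of h'.gen s φ hc h1 h2 h3

theorem si_ext {a b c : K} (hS : adjoin C {a, b, c} = ⊤) {e e' : SI C K C' K'} (hs : e.s = e'.s)
    (h1 : e.f a = e'.f a) (h2 : e.f b = e'.f b) (h3 : e.f c = e'.f c) : e = e' := by
  have : (e.f : K →+* K') = (e'.f : K →+* K') :=
    hom_ext3 hS (fun c => by
      show e.f _ = e'.f _
      rw [e.comm, e'.comm, hs]) h1 h2 h3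
  obtain ⟨s, f, _⟩ := e
  obtain ⟨s', f', _⟩ := e'
  simp only at hs this
  have hf : f = f' := RingEquiv.ext fun z => DFunLike.congr_fun this z
  subst hs hf
  rfl

theorem alg_ext {L : Type*} [Field L] [Algebra C L] {a b c : K} (hS : adjoin C {a, b, c} = ⊤)
    {f f' : K ≃ₐ[C] L} (h1 : f a = f' a) (h2 : f b = f' b) (h3 : f c = f' c) : f = f' := by
  have : (f : K →+* L) = (f' : K →+* L) :=
    hom_ext3 hS (fun c => by
      show f _ = f' _
      rw [f.commutes, f'.commutes]) h1 h2 h3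
  exact AlgEquiv.ext fun z => DFunLike.congr_fun this z

theorem IsY.exists_aut {L : Type*} [Field L] [Algebra C L] {A B2 u : K} (h : IsY P A B2 u)
    {A' B2' u' : L} (h' : IsY P A' B2' u') :
    ∃ f : K ≃ₐ[C] L, f A = A' ∧ f B2 = B2' ∧ f u = u' := by
  obtain ⟨e, hs, h1, h2, h3⟩ := h.exists_si h' (RingEquiv.refl C) rfl
  exact ⟨AlgEquiv.ofRingEquiv (f := e.f) fun c => by rw [e.comm, hs]; rfl, h1, h2, h3⟩

theorem IsK.exists_aut {L : Type*} [Field L] [Algebra C L] {A B u : K} (h : IsK P A B u)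
    {A' B' u' : L} (h' : IsK P A' B' u') :
    ∃ f : K ≃ₐ[C] L, f A = A' ∧ f B = B' ∧ f u = u' := by
  obtain ⟨e, hs, h1, h2, h3⟩ := h.exists_si h' (RingEquiv.refl C) rfl
  exact ⟨AlgEquiv.ofRingEquiv (f := e.f) fun c => by rw [e.comm, hs]; rfl, h1, h2, h3⟩

end rigid

/-! ### the automorphisms -/

section aut

variable {C : Type*} [Field C] {P : Par C} {K : Type*} [Field K] [Algebra C K] {A B u : K}

theorem ne_of_tr (h : Transcendental C u) (a b : C) :
    u + algebraMap C K a * algebraMap C K b ≠ 0 := by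
  rw [← map_mul]; exact add_ne_of_tr h _

theorem nx_mem (S : IntermediateField C K) (hA : A ∈ S) (hB : B ∈ S) (hu : u ∈ S) :
    xu P A B u ∈ S := by
  have hc : ∀ c, algebraMap C K c ∈ S := S.algebraMap_mem
  have h2 := two_mem S
  have hV := V_mem P S hA (pow_mem hB 2)
  have hR := R_mem P S hA (pow_mem hB 2)
  have hS := S_mem P S hA hB
  unfold xu Par.nx
  simp only [Par.map_q, Par.map_m1, Par.map_m2, Par.map_m3, Par.map_p1, Par.map_p2, Par.map_p3]
  exact S.div_mem (S.add_mem (S.sub_mem (S.mul_mem (S.neg_mem h2) (hc _)) hu)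
    (S.mul_mem (S.mul_mem (S.mul_mem (S.mul_mem (S.mul_mem (S.mul_mem (hc _) (hc _)) (hc _)) hu)
      (S.div_mem hV (S.add_mem hu (S.mul_mem (hc _) (hc _)))))
      (S.div_mem hR (S.add_mem hu (S.mul_mem (hc _) (hc _)))))
      (S.div_mem hS (S.add_mem hu (S.mul_mem (hc _) (hc _)))))) h2

namespace IsK

variable (h : IsK P A B u)
include h

theorem ha : u + (P.map (algebraMap C K)).p1 * (P.map (algebraMap C K)).p2 ≠ 0 := ne_of_tr h.tr _ _
theorem hb : u + (P.map (algebraMap C K)).p1 * (P.map (algebraMap C K)).p3 ≠ 0 := ne_of_tr h.tr _ _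
theorem hc : u + (P.map (algebraMap C K)).p2 * (P.map (algebraMap C K)).p3 ≠ 0 := ne_of_tr h.tr _ _

theorem xu_ne : xu P A B u ≠ u := Par.nx_ne h.eq1 h.eq2 h.ha h.hb h.hc

theorem tr_xu : Transcendental C (xu P A B u) := by
  intro halg
  apply h.tr
  have e1 := Par.nx_add (Q := P.map (algebraMap C K)) A B u
  have e2 := Par.nx_mul h.eq1 h.eq2 h.ha h.hb h.hc
  have h0 : xu P A B u ≠ 0 := Par.u_ne (Par.E2_nx h.eq1 h.eq2 h.ha h.hb h.hc)
  let E := algebraicClosure C K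
  let v : E := ⟨xu P A B u, (mem_algebraicClosure_iff).mpr halg⟩
  have hv : v ≠ 0 := fun hv => h0 (congrArg Subtype.val hv)
  have hE : IsAlgebraic E u := by
    refine ⟨Polynomial.C v * X ^ 2 + Polynomial.C (v ^ 2 + 2 * algebraMap C E P.q * v) * X +
      Polynomial.C (2 * algebraMap C E P.pi), ?_, ?_⟩
    · intro h1
      have := congrArg (fun p => p.coeff 2) h1
      simp only [coeff_add, coeff_C_mul, coeff_X_pow, coeff_X, coeff_C, coeff_zero] at this
      exact hv (by simpa using this)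
    · simp only [map_add, map_mul, map_pow, aeval_C, aeval_X, map_ofNat,
        ← IsScalarTower.algebraMap_apply]
      have e3 : (P.map (algebraMap C K)).nx A (-B) u = -2 * (P.map (algebraMap C K)).q - u -
          (P.map (algebraMap C K)).nx A B u := by linear_combination e1
      rw [e3, Par.map_q, Par.map_pi] at e2
      show xu P A B u * u ^ 2 + (xu P A B u ^ 2 + 2 * _ * xu P A B u) * u + _ = 0
      linear_combination -e2
  exact hE.restrictScalars C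

theorem xu_xu : xu P A B (xu P A B u) = xu P A (-B) u :=
  Par.nx_nx h.eq1 h.eq2 h.ha h.hb h.hc (ne_of_tr h.tr_xu _ _) (ne_of_tr h.tr_xu _ _)
    (ne_of_tr h.tr_xu _ _)

theorem yu_xu : xu P A (-B) (xu P A B u) = u :=
  Par.ny_nx h.eq1 h.eq2 h.ha h.hb h.hc (ne_of_tr h.tr_xu _ _) (ne_of_tr h.tr_xu _ _)
    (ne_of_tr h.tr_xu _ _)

theorem isK_x : IsK P A B (xu P A B u) := by
  refine ⟨h.eq1, Par.E2_nx h.eq1 h.eq2 h.ha h.hb h.hc, h.tr_xu, ?_⟩
  obtain ⟨m1, m2, m3⟩ := mem3 (C := C) A B (xu P A B u)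
  refine eq_top3 h.gen m1 m2 ?_
  have := nx_mem (P := P) _ m1 (neg_mem m2) m3
  rwa [h.yu_xu] at this

theorem isK_k : IsK P (-B) A u := by
  refine ⟨h.eq1.swap, h.eq2.swap, h.tr, ?_⟩
  obtain ⟨m1, m2, m3⟩ := mem3 (C := C) (-B) A u
  exact eq_top3 h.gen m2 (by simpa using neg_mem m1) m3

theorem isK_g : IsK P A (-B) u := by
  refine ⟨by rw [neg_sq]; exact h.eq1, by rw [neg_sq]; exact h.eq2, h.tr, ?_⟩
  obtain ⟨m1, m2, m3⟩ := mem3 (C := C) A (-B) u
  exact eq_top3 h.gen m1 (by simpa using neg_mem m2) m3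

theorem isK_y {i : C} (hi : i ^ 2 = -1) : IsK P (algebraMap C K i * A) (algebraMap C K i * B) u := by
  have hi' : algebraMap C K i ^ 2 = -1 := by rw [← map_pow, hi, map_neg, map_one]
  refine ⟨by rw [Par.i_sq hi']; exact h.eq1.mul_i hi', by rw [Par.i_sq hi']; exact h.eq2.mul_i hi',
    h.tr, ?_⟩
  obtain ⟨m1, m2, m3⟩ := mem3 (C := C) (algebraMap C K i * A) (algebraMap C K i * B) u
  refine eq_top3 h.gen ?_ ?_ m3
  · have : A = -algebraMap C K i * (algebraMap C K i * A) := by linear_combination A * hi'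
    have h2 := mul_mem (neg_mem (IntermediateField.algebraMap_mem _ i)) m1
    rwa [← this] at h2
  · have : B = -algebraMap C K i * (algebraMap C K i * B) := by linear_combination B * hi'
    have h2 := mul_mem (neg_mem (IntermediateField.algebraMap_mem _ i)) m2
    rwa [← this] at h2

theorem exists_x : ∃ f : K ≃ₐ[C] K, f A = A ∧ f B = B ∧ f u = xu P A B u := h.exists_aut h.isK_x
theorem exists_k : ∃ f : K ≃ₐ[C] K, f A = -B ∧ f B = A ∧ f u = u := h.exists_aut h.isK_k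
theorem exists_g : ∃ f : K ≃ₐ[C] K, f A = A ∧ f B = -B ∧ f u = u := h.exists_aut h.isK_g
theorem exists_y {i : C} (hi : i ^ 2 = -1) : ∃ f : K ≃ₐ[C] K,
    f A = algebraMap C K i * A ∧ f B = algebraMap C K i * B ∧ f u = u := h.exists_aut (h.isK_y hi)
theorem exists_r : ∃ f : K ≃ₐ[C] K, f A = -B ∧ f B = A ∧ f u = xu P A B u :=
  h.exists_aut h.isK_x.isK_k

end IsK

theorem QA.isSeparable {F : Type*} [Field F] (a : F) [h : Fact (¬ IsSquare a)] (two : (2 : F) ≠ 0) :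
    Algebra.IsSeparable F (QA F a) := by
  have h0 : a ≠ 0 := fun h0 => h.out (h0 ▸ IsSquare.zero)
  have h1 : IsSeparable F (QA.om a) := by
    have hs : (X ^ 2 - Polynomial.C a : F[X]).Separable :=
      separable_X_pow_sub_C a (by simpa using two) h0
    refine hs.of_dvd (minpoly.dvd F _ ?_)
    simp [QA.om_sq]
  refine ⟨fun z => ?_⟩
  obtain ⟨b, c, rfl⟩ := QA.exists_eq z
  exact Field.isSeparable_add (isSeparable_algebraMap _)
    (Field.isSeparable_mul (isSeparable_algebraMap _) h1)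

variable (P)

instance : FiniteDimensional (RatFunc C) (F2 P) := Module.Finite.trans (F1 P) _
instance : FiniteDimensional (RatFunc C) (YY P) := Module.Finite.trans (F2 P) _
instance : FiniteDimensional (RatFunc C) (KK P) := Module.Finite.trans (YY P) _
instance : Algebra.IsSeparable (RatFunc C) (F1 P) := QA.isSeparable _ (two0 P)
instance : Algebra.IsSeparable (F1 P) (F2 P) := QA.isSeparable _ (two1 P)
instance : Algebra.IsSeparable (F2 P) (YY P) := QA.isSeparable _ (two2 P)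
instance : Algebra.IsSeparable (YY P) (KK P) :=
  QA.isSeparable _ (P.map (algebraMap C (YY P))).two
instance : Algebra.IsSeparable (RatFunc C) (F2 P) := Algebra.IsSeparable.trans _ (F1 P) _
instance : Algebra.IsSeparable (RatFunc C) (YY P) := Algebra.IsSeparable.trans _ (F2 P) _
instance : Algebra.IsSeparable (RatFunc C) (KK P) := Algebra.IsSeparable.trans _ (YY P) _

end aut

end Crest.Agent.T15.Kf
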