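import Mathlib
import Crest.Agent.T15.KfJ_23
import Crest.Agent.T15.Jc_16
import Crest.Agent.T15.FaS_49

/-!
# Row 15, block F (helper23): existence of the model, in the words of `Kf`

* `hom_Y` : universal property of `Y`; `not_sq` : `B2` is not a square in `Y`;
* `exists_Y`, `exists_K`, `exists_r`.
-/

set_option autoImplicit false
set_option linter.all false

namespace Crest.Agent.T15.KfJ

open Polynomial Module IntermediateField
open Crest.Agent.T15.Hy Crest.Agent.T15.Kf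

theorem eqs_unique {L : Type*} [Field L] {Q : Mo.Par L} {A B2 u A' B2' u' : L}
    (h : Mo.Eqs Q A B2 u) (h' : Mo.Eqs Q A' B2' u') (hz : Q.z A B2 u = Q.z A' B2' u')
    (hw : Q.w A B2 u = Q.w A' B2' u') (hb : Q.z A' B2' u' ^ 2 - Q.b ≠ 0) :
    A = A' ∧ B2 = B2' ∧ u = u' := by
  have hu : u = u' := by rw [h.u_eq, hz, ← h'.u_eq]
  have hV : Q.V A B2 = Q.V A' B2' := by rw [h.V_eq, h'.V_eq, h.V'_eq, h'.V'_eq, hz, hu]
  have hR : Q.R A B2 = Q.R A' B2' := by rw [h.R_eq, h'.R_eq, h.R'_eq, h'.R'_eq, hz, hu]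
  refine ⟨?_, ?_, hu⟩
  · rw [h.A_eq (hz ▸ hb), hz, hw, ← h'.A_eq hb]
  · rw [h.B_eq, hV, hR, ← h'.B_eq]

variable {C Y : Type*} [Field C] [Field Y] [Algebra C Y] {P : Par C} {A B2 u : Y}

theorem eqs_of {L : Type*} [Field L] [Algebra C L] {al be : C} (hr : Mo.Rt P al be) {A B2 u : L}
    (h1 : (P.map (algebraMap C L)).E1 A B2) (h2 : (P.map (algebraMap C L)).E2 A B2 u)
    (ht : Transcendental C u) : Mo.Eqs (hr.par.up L) A B2 u where
  two := (P.map (algebraMap C L)).two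
  k0 := h1
  cub := h2
  n3 := by simpa using Mo.add_const_ne ht (P.p1 * P.p2)
  n2 := by simpa using Mo.add_const_ne ht (P.p1 * P.p3)

/-- universal property of `Y` -/
theorem hom_Y [IsAlgClosed C] (h : IsY P A B2 u) {L : Type*} [Field L] [Algebra C L] {A' B2' u' : L}
    (h1 : (P.map (algebraMap C L)).E1 A' B2') (h2 : (P.map (algebraMap C L)).E2 A' B2' u')
    (ht : Transcendental C u') : ∃ φ : Y →+* L,
      (∀ c, φ (algebraMap C Y c) = algebraMap C L c) ∧ φ A = A' ∧ φ B2 = B2' ∧ φ u = u' := by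
  obtain ⟨al, be, hr⟩ := Mo.exists_rt P
  have e' := eqs_of hr h1 h2 ht
  have tz : Transcendental C (hr.par.zY A' B2' u') := fun ha =>
    ht (mem_algebraicClosure_iff.mp
      (Mo.IsY.mem_of e' (mem_algebraicClosure_iff.mpr ha)).1)
  have hb : (hr.par.up L).z A' B2' u' ^ 2 - (hr.par.up L).b ≠ 0 := fun h0 =>
    tz ⟨X ^ 2 - Polynomial.C hr.par.b, X_pow_sub_C_ne_zero two_pos _, by
      simpa [Mo.Par.zY] using h0⟩
  obtain ⟨φ, c, hz, hw⟩ := Fa.exists_hom (hr.hyp h) (RingHom.id C)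
    (x' := hr.par.zY A' B2' u') (w' := hr.par.wY A' B2' u')
    (fun p hp => by
      by_contra h0
      exact tz ⟨p, h0, by simpa using hp⟩)
    (by
      have := e'.w_sq hb
      rw [Polynomial.map_id, Mo.Par.F, Mo.aeval_Fm]
      simpa [Mo.Par.zY, Mo.Par.wY] using this)
  have hc : φ.comp (algebraMap C Y) = algebraMap C L := RingHom.ext c
  have m1 : (P.map (algebraMap C Y)).map φ = P.map (algebraMap C L) := by rw [Par.map_map, hc]
  have m2 : (hr.par.up Y).map φ = hr.par.up L := by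
    show hr.par.map (φ.comp (algebraMap C Y)) = _
    rw [hc]
  have t2 : Transcendental C (φ u) := fun ha => h.tr
    ((isAlgebraic_algHom_iff ({ φ with commutes' := c } : Y →ₐ[C] L) φ.injective).mp ha)
  have e := eqs_of hr (A := φ A) (B2 := φ B2) (u := φ u)
    (by rw [← m1, Par.map_E1]; exact h.eq1) (by rw [← m1, Par.map_E2]; exact h.eq2) t2
  refine ⟨φ, c, eqs_unique e e' ?_ ?_ hb⟩
  · rw [← m2, ← Mo.map_z, m2]; exact hz
  · rw [← m2, ← Mo.map_w, m2]; exact hw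

/-- `B2` is not a square in `Y` -/
theorem not_sq (h : IsY P A B2 u) (β : Y) : β ^ 2 ≠ B2 := by
  intro hβ
  have hm : (X ^ 2 - Polynomial.C (⟨B2, B_mem A B2⟩ : Ei C A B2)).Monic :=
    monic_X_pow_sub_C _ two_ne_zero
  have h0 : aeval β (X ^ 2 - Polynomial.C (⟨B2, B_mem A B2⟩ : Ei C A B2)) = 0 := by
    simp only [map_sub, map_pow, aeval_X, aeval_C]
    exact sub_eq_zero.mpr hβ
  have hi : IsIntegral (Ei C A B2) β := ⟨_, hm, h0⟩
  have h4 := natDegree_le_natDegree (minpoly.min _ β hm h0)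
  rw [natDegree_X_pow_sub_C] at h4
  have h5 := minpoly.degree_dvd hi
  rw [finrank_Ei h] at h5
  have h6 : (minpoly (Ei C A B2) β).natDegree = 1 := by
    rcases (Nat.dvd_prime Nat.prime_three).mp h5 with h7 | h7 <;> omega
  obtain ⟨b, rfl⟩ := minpoly.natDegree_eq_one_iff.mp h6
  have hy := hypE h
  obtain ⟨A0, B0, c, hc, he⟩ := hy.gen b
  have n1 := P.n1_ne
  have e1 : b * b = el (AE A B2) (WE P A B2) (Polynomial.C (-(P.n1 + 2 * P.n3) / P.n1) * X ^ 2)
      (Polynomial.C P.n1⁻¹) := by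
    apply (algebraMap (Ei C A B2) Y).injective
    rw [map_mul, ← sq, hβ]
    simp only [el, map_add, map_mul, map_pow, aeval_C, aeval_X, ← IsScalarTower.algebraMap_apply]
    have : algebraMap C Y P.n1 ≠ 0 := (_root_.map_ne_zero _).mpr n1
    show B2 = _ * A ^ 2 + _ * W P A B2
    simp only [W, map_div₀, map_neg, map_inv₀]
    field_simp
    ring
  have e2 : b * b * aeval (AE A B2) (c * c) = el (AE A B2) (WE P A B2) A0 B0 *
      el (AE A B2) (WE P A B2) A0 B0 := by rw [← he, map_mul]; ring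
  rw [e1, el_mul_aeval, el_mul hy.sq] at e2
  obtain ⟨e3, e4⟩ := hy.el_inj e2
  obtain ⟨e, hee⟩ : ∃ e, e = 4 * (P.t * P.d1 * P.d2 * P.d3) ^ 2 / P.n1 := ⟨_, rfl⟩
  have e0 : e ≠ 0 := hee ▸ div_ne_zero (mul_ne_zero (four_ne P) (pow_ne_zero _ (mul_ne_zero
    (mul_ne_zero (mul_ne_zero P.ht P.d1_ne) P.d2_ne) P.d3_ne))) n1
  have e5 : (Polynomial.C (-(P.n1 + 2 * P.n3) / P.n1) * X ^ 2) ^ 2 -
      Polynomial.C P.n1⁻¹ ^ 2 * G P = X ^ 4 - Polynomial.C e := by
    have a1 : (-(P.n1 + 2 * P.n3) / P.n1) ^ 2 - P.n1⁻¹ ^ 2 * -(4 * P.n2 * P.n3) = 1 := by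
      field_simp
      linear_combination 4 * P.n3 * P.n_sum
    have a2 : P.n1⁻¹ ^ 2 * -(4 * P.n2 * P.n3) *
        (P.n1 * (P.t * P.d1 * P.d2 * P.d3) ^ 2 / (P.n2 * P.n3)) = -e := by
      have := P.n2_ne; have := P.n3_ne
      rw [hee]; field_simp
    have b1 := congrArg Polynomial.C a1
    have b2 := congrArg Polynomial.C a2
    rw [C_sub, C_mul, C_pow, C_pow, C_1] at b1
    rw [C_mul, C_mul, C_pow, C_neg (a := e)] at b2
    unfold G
    linear_combination X ^ 4 * b1 + b2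
  have e6 : (A0 ^ 2 - B0 ^ 2 * G P) ^ 2 = (c ^ 2) ^ 2 * (X ^ 4 - Polynomial.C e) := by
    rw [← e5]
    generalize Polynomial.C (-(P.n1 + 2 * P.n3) / P.n1) * X ^ 2 = a at *
    generalize Polynomial.C P.n1⁻¹ = d at *
    linear_combination (-(a * (c * c)) - (A0 * A0 + B0 * B0 * G P)) * e3 +
      G P * (d * (c * c) + (A0 * B0 + B0 * A0)) * e4
  obtain ⟨D, hD⟩ := (IsIntegrallyClosed.pow_dvd_pow_iff two_ne_zero).mp ⟨_, e6⟩
  have e7 : X ^ 4 - Polynomial.C e = D * D := by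
    apply mul_left_cancel₀ (pow_ne_zero 2 (pow_ne_zero 2 hc))
    rw [← e6, hD]; ring
  have e8 : IsUnit D := (separable_X_pow_sub_C e (by exact_mod_cast four_ne P) e0).squarefree D
    (by rw [e7])
  have e9 := natDegree_eq_zero_of_isUnit (e8.mul e8)
  rw [← e7, natDegree_X_pow_sub_C] at e9
  omega

theorem isY_adjoin {L : Type*} [Field L] [Algebra C L] {A B2 u : L}
    (h1 : (P.map (algebraMap C L)).E1 A B2) (h2 : (P.map (algebraMap C L)).E2 A B2 u)
    (ht : Transcendental C u) : ∃ a b v : adjoin C {A, B2, u}, IsY P a b v := by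
  obtain ⟨S, hS⟩ : ∃ S, S = adjoin C {A, B2, u} := ⟨_, rfl⟩
  have m1 : A ∈ S := hS ▸ subset_adjoin _ _ (by simp)
  have m2 : B2 ∈ S := hS ▸ subset_adjoin _ _ (by simp)
  have m3 : u ∈ S := hS ▸ subset_adjoin _ _ (by simp)
  rw [← hS]
  have m : (P.map (algebraMap C S)).map (algebraMap S L) = P.map (algebraMap C L) := by
    rw [Par.map_map, ← IsScalarTower.algebraMap_eq]
  refine ⟨⟨A, m1⟩, ⟨B2, m2⟩, ⟨u, m3⟩, ?_, ?_, fun ha => ht (ha.algebraMap (A := L)), ?_⟩
  · rw [← Par.map_E1 _ (algebraMap S L), m]; exact h1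
  · rw [← Par.map_E2 _ (algebraMap S L), m]; exact h2
  · apply IntermediateField.map_injective S.val
    rw [adjoin_map, Set.image_insert_eq, Set.image_pair, ← AlgHom.fieldRange_eq_map,
      fieldRange_val]
    exact hS.symm

theorem exists_sol (P : Par C) {L : Type*} [Field L] [IsAlgClosed L] [Algebra C L] {u : L}
    (hu : u ≠ 0) : ∃ A B2 : L, (P.map (algebraMap C L)).E1 A B2 ∧
      (P.map (algebraMap C L)).E2 A B2 u := by
  obtain ⟨Q, hQ⟩ : ∃ Q, Q = P.map (algebraMap C L) := ⟨_, rfl⟩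
  rw [← hQ]
  have := Q.m1_ne; have := Q.m2_ne; have := Q.m3_ne
  obtain ⟨v, hv⟩ := IsAlgClosed.exists_pow_nat_eq
    ((u - 2 * Q.p3 ^ 2) * (u + Q.p1 * Q.p2) ^ 2 / (Q.m1 * Q.m2 * u)) two_pos
  obtain ⟨r, hr⟩ := IsAlgClosed.exists_pow_nat_eq (-(Q.m2 * v ^ 2 + Q.d1 ^ 2) / Q.m3) two_pos
  obtain ⟨A, hA⟩ := IsAlgClosed.exists_pow_nat_eq (Q.t * (Q.d3 * v + Q.d2 * r)) two_pos
  refine ⟨A, Q.t * (Q.d3 * v - Q.d2 * r), ?_, ?_⟩
  · rw [Q.E1_iff, Q.V_of hA rfl, Q.R_of hA rfl, hr]; field_simp; ring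
  · rw [Q.E2_iff, Q.V_of hA rfl, hv]; field_simp

theorem exists_Y {C : Type} [Field C] (P : Par C) :
    ∃ (Y : Type) (_ : Field Y) (_ : Algebra C Y) (A B2 u : Y), IsY P A B2 u := by
  have ht : Transcendental C
      (algebraMap (RatFunc C) (AlgebraicClosure (RatFunc C)) RatFunc.X) := fun ha =>
    RatFunc.transcendental_X ((isAlgebraic_algebraMap_iff
      (algebraMap (RatFunc C) (AlgebraicClosure (RatFunc C))).injective).mp ha)
  obtain ⟨A, B2, h1, h2⟩ := exists_sol P (L := AlgebraicClosure (RatFunc C))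
    ((_root_.map_ne_zero (algebraMap (RatFunc C) _)).mpr RatFunc.X_ne_zero)
  exact ⟨_, inferInstance, inferInstance, isY_adjoin h1 h2 ht⟩

theorem exists_K {C Y : Type} [Field C] [Field Y] [Algebra C Y] (B2 : Y) :
    ∃ (K : Type) (_ : Field K) (_ : Algebra C K) (_ : Algebra Y K) (_ : IsScalarTower C Y K)
      (B : K), B ^ 2 = algebraMap Y K B2 ∧ adjoin Y {B} = ⊤ := by
  obtain ⟨b, hb⟩ := IsAlgClosed.exists_pow_nat_eq (algebraMap Y (AlgebraicClosure Y) B2) two_pos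
  refine ⟨adjoin Y {b}, inferInstance, inferInstance, inferInstance, inferInstance,
    ⟨b, mem_adjoin_simple_self Y b⟩, Subtype.ext hb, ?_⟩
  apply IntermediateField.map_injective (adjoin Y {b}).val
  rw [adjoin_map, Set.image_singleton, ← AlgHom.fieldRange_eq_map, fieldRange_val]
  rfl

theorem nx_root {L : Type*} [Field L] {Q : Par L} {a B u : L} (h1 : Q.E1 a (B ^ 2))
    (h2 : Q.E2 a (B ^ 2) u) (hd : Jm.dn Q u ≠ 0) : Q.E2 a (B ^ 2) (Q.nx a B u) := by
  have s := Jm.nx_sum Q a B u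
  have p := Jm.nx_prod h1 h2 hd
  have hu := Par.u_ne h2
  unfold Par.E2 at h2 ⊢
  generalize Q.nx a B u = v at *
  generalize Q.nx a (-B) u = v' at *
  have hX : Q.X a (B ^ 2) = -(u * v + u * v' + v * v') := by
    apply mul_left_cancel₀ hu
    linear_combination -h2 + u ^ 2 * s + p
  rw [hX]
  linear_combination v ^ 2 * s + p

theorem tr_root {L : Type*} [Field L] [Algebra C L] {a b u v : L}
    (h2 : (P.map (algebraMap C L)).E2 a b u) (h3 : (P.map (algebraMap C L)).E2 a b v)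
    (ht : Transcendental C u) : Transcendental C v := by
  intro ha
  have hv : v ∈ algebraicClosure C L := mem_algebraicClosure_iff.mpr ha
  have hX := tr_of_cubic ht (cubic_eq h2)
  have e : (P.map (algebraMap C L)).X a b =
      (v ^ 3 + algebraMap C L (2 * P.q) * v ^ 2 - algebraMap C L (2 * P.pi)) / v := by
    rw [eq_div_iff (Par.u_ne h3)]
    linear_combination -cubic_eq h3
  apply hX
  rw [← mem_algebraicClosure_iff, e]
  exact div_mem (sub_mem (add_mem (pow_mem hv 3) (mul_mem (_root_.algebraMap_mem _ _)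
    (pow_mem hv 2))) (_root_.algebraMap_mem _ _)) hv

/-- the automorphism `r` -/
theorem exists_r [IsAlgClosed C] (h : IsY P A B2 u) {K : Type*} [Field K] [Algebra C K]
    [Algebra Y K] [IsScalarTower C Y K] {B : K} (hB : B ^ 2 = algebraMap Y K B2)
    (gK : adjoin Y {B} = ⊤) : ∃ r : K ≃ₐ[C] K, Jm.Md P A B2 u B r := by
  have nB : B ∉ Set.range (algebraMap Y K) := by
    rintro ⟨β, rfl⟩
    exact not_sq h β ((algebraMap Y K).injective (by rw [map_pow, hB]))
  have mK : (P.map (algebraMap C Y)).map (algebraMap Y K) = P.map (algebraMap C K) := by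
    rw [Par.map_map, ← IsScalarTower.algebraMap_eq]
  obtain ⟨a, ha⟩ : ∃ a, a = algebraMap Y K A := ⟨_, rfl⟩
  obtain ⟨v, hv⟩ : ∃ v, v = algebraMap Y K u := ⟨_, rfl⟩
  have e1 : (P.map (algebraMap C K)).E1 a (B ^ 2) := by
    rw [hB, ← mK, ha, Par.map_E1]; exact h.eq1
  have e2 : (P.map (algebraMap C K)).E2 a (B ^ 2) v := by
    rw [hB, ← mK, ha, hv, Par.map_E2]; exact h.eq2
  have tv : Transcendental C v := fun hh => h.tr
    ((isAlgebraic_algebraMap_iff (algebraMap Y K).injective).mp (hv ▸ hh))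
  have dn : ∀ {y : K}, Transcendental C y → Jm.dn (P.map (algebraMap C K)) y ≠ 0 := fun hy => by
    simp only [Jm.dn, Par.map_p1, Par.map_p2, Par.map_p3, ← map_mul]
    exact mul_ne_zero (mul_ne_zero (Mo.add_const_ne hy _) (Mo.add_const_ne hy _))
      (Mo.add_const_ne hy _)
  have e3 := nx_root e1 e2 (dn tv)
  have tx := tr_root e2 e3 tv
  obtain ⟨φ, c, f1, f2, f3⟩ := hom_Y h (A' := -B) (B2' := a ^ 2) (u' := xu P a B v)
    (by unfold Par.E1 at e1 ⊢; linear_combination e1)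
    (by
      have : (P.map (algebraMap C K)).X (-B) (a ^ 2) = (P.map (algebraMap C K)).X a (B ^ 2) := by
        simp only [Par.X, Par.V]; ring
      unfold Par.E2 at e3 ⊢
      rw [this]; exact e3) tx
  obtain ⟨ψ, g1, g2⟩ := Jm.exists_ext hB gK nB φ (b := a) f2.symm
  have gc : ∀ c, ψ (algebraMap C K c) = algebraMap C K c := fun x => by
    rw [IsScalarTower.algebraMap_apply C Y K, g1, c, ← IsScalarTower.algebraMap_apply]
  have ga : ψ a = -B := by rw [ha, g1, f1]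
  have gv : ψ v = xu P a B v := by rw [hv, g1, f3, hv]
  let ψ' : K →ₐ[C] K := { ψ with commutes' := gc }
  have r1 : a ∈ ψ'.fieldRange := ⟨B, g2⟩
  have r2 : B ∈ ψ'.fieldRange := ⟨-a, by show ψ (-a) = B; rw [map_neg, ga, neg_neg]⟩
  have r3 : v ∈ ψ'.fieldRange := by
    have s := Jm.nx_sum (P.map (algebraMap C K)) a B v
    have n := Jm.nx_nx e1 e2 (dn tv) (dn tx)
    have m := Jm.Md.map_xu (P := P) ψ (gc _) (gc _) (gc _) B (-a) v
    rw [g2, map_neg, ga, neg_neg, gv] at m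
    refine ⟨algebraMap C K (-2 * P.q) - v - xu P B (-a) v, ?_⟩
    show ψ _ = v
    rw [map_sub, map_sub, gc, m, gv]
    simp only [xu, map_mul, map_neg, map_ofNat] at *
    rw [n, ← Par.map_q]
    linear_combination -s
  have r4 : ∀ f : Y, algebraMap Y K f ∈ ψ'.fieldRange := fun f => by
    have : adjoin C {A, B2, u} ≤ ψ'.fieldRange.comap (IsScalarTower.toAlgHom C Y K) := by
      rw [adjoin_le_iff]
      rintro z (rfl | rfl | rfl)
      · exact (ha ▸ r1 : algebraMap Y K z ∈ ψ'.fieldRange)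
      · exact (hB ▸ pow_mem r2 2 : algebraMap Y K z ∈ ψ'.fieldRange)
      · exact (hv ▸ r3 : algebraMap Y K z ∈ ψ'.fieldRange)
    exact this (h.gen ▸ mem_top)
  have sj : Function.Surjective ψ' := fun y => by
    have hy : y ∈ adjoin Y {B} := gK ▸ mem_top
    show y ∈ ψ'.fieldRange
    induction hy using adjoin_induction with
    | mem z hz => exact hz ▸ r2
    | algebraMap f => exact r4 f
    | add x y _ _ h1 h2 => exact add_mem h1 h2
    | inv x _ h1 => exact inv_mem h1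
    | mul x y _ _ h1 h2 => exact mul_mem h1 h2
  refine ⟨AlgEquiv.ofBijective ψ' ⟨ψ.injective, sj⟩, h, hB, gK, nB, ?_, ?_, ?_⟩
  · rw [← ha]; exact ga
  · rw [← ha]; exact g2
  · rw [← ha, ← hv]; exact gv

end Crest.Agent.T15.KfJ
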