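import Mathlib

/-!
# Row 15, LOC3, part A (helper27): valued field with an "inertia group", value groups, approximation.
-/

set_option autoImplicit false

open scoped NNReal
open Finset

namespace Crest.Agent.T15.L3

variable {Ω : Type*} [Field Ω] {I : Type*} [Group I] [MulSemiringAction I Ω]

/-- `x` is fixed by the subgroup `H`. -/
def Fx (H : Subgroup I) (x : Ω) : Prop := ∀ σ ∈ H, σ • x = x

namespace Fx
variable {H H' : Subgroup I} {x y : Ω}
theorem mono (h : Fx H x) (hle : H' ≤ H) : Fx H' x := fun σ hσ => h σ (hle hσ)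
theorem of_top (h : Fx (⊤ : Subgroup I) x) : Fx H x := h.mono le_top
theorem zero : Fx H (0 : Ω) := fun _ _ => smul_zero _
theorem one : Fx H (1 : Ω) := fun _ _ => smul_one _
theorem add (hx : Fx H x) (hy : Fx H y) : Fx H (x + y) := fun σ hσ => by
  rw [smul_add, hx σ hσ, hy σ hσ]
theorem neg (hx : Fx H x) : Fx H (-x) := fun σ hσ => by rw [smul_neg, hx σ hσ]
theorem sub (hx : Fx H x) (hy : Fx H y) : Fx H (x - y) := fun σ hσ => by
  rw [smul_sub, hx σ hσ, hy σ hσ]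
theorem mul (hx : Fx H x) (hy : Fx H y) : Fx H (x * y) := fun σ hσ => by
  rw [smul_mul', hx σ hσ, hy σ hσ]
theorem inv (hx : Fx H x) : Fx H x⁻¹ := fun σ hσ => by rw [smul_inv'', hx σ hσ]
theorem div (hx : Fx H x) (hy : Fx H y) : Fx H (x / y) := by
  rw [div_eq_mul_inv]; exact hx.mul hy.inv
theorem pow (hx : Fx H x) (n : ℕ) : Fx H (x ^ n) := fun σ hσ => by rw [smul_pow', hx σ hσ]
theorem zpow (hx : Fx H x) (n : ℤ) : Fx H (x ^ n) := by
  rcases n with n | n
  · simpa using hx.pow n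
  · simpa using (hx.pow (n + 1)).inv
theorem nat (n : ℕ) : Fx H (n : Ω) := fun σ _ => map_natCast (MulSemiringAction.toRingHom I Ω σ) n
theorem three : Fx H (3 : Ω) := by simpa using (nat 3 : Fx H ((3 : ℕ) : Ω))
theorem sum {ι : Type*} {s : Finset ι} {f : ι → Ω} (h : ∀ i ∈ s, Fx H (f i)) :
    Fx H (∑ i ∈ s, f i) := fun σ hσ => by
  rw [Finset.smul_sum]; exact Finset.sum_congr rfl fun i hi => h i hi σ hσ
theorem out_smul (hx : Fx H x) (a : I) : ((a : I ⧸ H).out) • x = a • x := by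
  obtain ⟨h, hh⟩ := QuotientGroup.mk_out_eq_mul H a
  rw [hh, mul_smul, hx h h.2]
end Fx

variable (I) in
/-- `I` acts like the inertia group at a place above `3`; `ϖ ^ 8 = -3`. -/
structure Ctx (v : Valuation Ω ℝ≥0) (ϖ : Ω) : Prop where
  inv : ∀ (σ : I) (x : Ω), v (σ • x) = v x
  h8 : ϖ ^ 8 = -3
  ne : (3 : Ω) ≠ 0
  lt : v 3 < 1
  unr : ∀ x : Ω, x ≠ 0 → Fx (⊤ : Subgroup I) x → ∃ m : ℤ, v x = v 3 ^ m
  res : ∀ x : Ω, v x ≤ 1 → ∃ w, Fx (⊤ : Subgroup I) w ∧ v (x - w) < 1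

variable {v : Valuation Ω ℝ≥0} {ϖ : Ω}

theorem v_pow_sub_one {a : Ω} (ha : v a ≤ 1) (k : ℕ) : v (a ^ k - 1) ≤ v (a - 1) := by
  induction k with
  | zero => simp
  | succ k ih =>
    have : a ^ (k + 1) - 1 = a * (a ^ k - 1) + (a - 1) := by ring
    rw [this]
    refine v.map_add_le ?_ le_rfl
    rw [map_mul]
    exact (mul_le_of_le_one_left' ha).trans ih

theorem v_eq_one_of {a : Ω} (ha : v (a - 1) < 1) : v a = 1 := by
  have : a = 1 + (a - 1) := by ring
  rw [this]; exact v.map_one_add_of_lt ha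

theorem term_le {ι : Type*} (s : Finset ι) (t : ι → Ω)
    (h : ∀ i ∈ s, ∀ j ∈ s, t i ≠ 0 → v (t i) = v (t j) → i = j) {i : ι} (hi : i ∈ s) :
    v (t i) ≤ v (∑ j ∈ s, t j) := by
  classical
  obtain ⟨m, hm, hmax⟩ := s.exists_max_image (fun j => v (t j)) ⟨i, hi⟩
  by_cases h0 : t m = 0
  · have := hmax i hi
    simp only [h0, map_zero] at this
    exact this.trans zero_le
  · have : v (∑ j ∈ s, t j) = v (t m) := by
      refine v.map_sum_eq_of_lt hm fun j hj => ?_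
      rw [Finset.mem_sdiff, Finset.mem_singleton] at hj
      refine lt_of_le_of_ne (hmax j hj.1) fun he => hj.2 (h m hm j hj.1 h0 he.symm).symm
    rw [this]; exact hmax i hi

theorem relIndex_le (H : Subgroup I) (β : Ω) (f : Polynomial Ω) (hf : f ≠ 0)
    (hr : ∀ σ ∈ H, f.IsRoot (σ • β)) :
    (MulAction.stabilizer I β).relIndex H ≠ 0 ∧
      (MulAction.stabilizer I β).relIndex H ≤ f.natDegree := by
  classical
  have h1 : (MulAction.stabilizer I β).relIndex H = (MulAction.orbit H β).ncard := by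
    rw [← MulAction.index_stabilizer]; rfl
  have hsub : MulAction.orbit H β ⊆ (f.roots.toFinset : Set Ω) := by
    rintro _ ⟨σ, rfl⟩
    simp only [Finset.mem_coe, Multiset.mem_toFinset, Polynomial.mem_roots hf]
    exact hr σ σ.2
  have hfin : (MulAction.orbit H β).Finite := (Finset.finite_toSet _).subset hsub
  rw [h1]
  refine ⟨((Set.ncard_pos hfin).2 ⟨β, MulAction.mem_orbit_self β⟩).ne', ?_⟩
  calc (MulAction.orbit H β).ncard ≤ (f.roots.toFinset : Set Ω).ncard :=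
        Set.ncard_le_ncard hsub (Finset.finite_toSet _)
    _ = f.roots.toFinset.card := Set.ncard_coe_finset _
    _ ≤ f.natDegree := (Multiset.toFinset_card_le _).trans (Polynomial.card_roots' f)

namespace Ctx

theorem w_ne (c : Ctx I v ϖ) : ϖ ≠ 0 := by
  intro h
  have := c.h8
  rw [h] at this
  exact c.ne (by simpa using this.symm)

theorem q_pos (c : Ctx I v ϖ) : 0 < v ϖ := (v.pos_iff).2 c.w_ne

theorem q8 (c : Ctx I v ϖ) : v ϖ ^ 8 = v 3 := by rw [← map_pow, c.h8, Valuation.map_neg]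

theorem q_lt (c : Ctx I v ϖ) : v ϖ < 1 := by
  by_contra h
  have := one_le_pow₀ (n := 8) (not_lt.1 h)
  rw [c.q8] at this
  exact absurd c.lt (not_lt.2 this)

theorem index_le (c : Ctx I v ϖ) :
    (MulAction.stabilizer I ϖ).index ≠ 0 ∧ (MulAction.stabilizer I ϖ).index ≤ 8 := by
  have hf : (Polynomial.X ^ 8 - Polynomial.C (-3 : Ω)) ≠ 0 :=
    Polynomial.X_pow_sub_C_ne_zero (by norm_num) _
  have := relIndex_le (⊤ : Subgroup I) ϖ _ hf fun σ _ => by
    simp only [Polynomial.IsRoot, Polynomial.eval_sub, Polynomial.eval_pow, Polynomial.eval_X,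
      Polynomial.eval_C]
    rw [← smul_pow', c.h8, smul_neg, Fx.three σ (Subgroup.mem_top σ), sub_self]
  rwa [Subgroup.relIndex_top_right, Polynomial.natDegree_X_pow_sub_C] at this

theorem norm_val (c : Ctx I v ϖ) {N : Subgroup I} [N.FiniteIndex] {x : Ω} (h0 : x ≠ 0)
    (hx : Fx N x) : ∃ m : ℤ, v x ^ N.index = v ϖ ^ (8 * m) := by
  classical
  have : Fintype (I ⧸ N) := Fintype.ofFinite _
  have hfx : Fx (⊤ : Subgroup I) (∏ q : I ⧸ N, q.out • x) := by
    intro σ _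
    rw [Finset.smul_prod']
    refine Fintype.prod_equiv (MulAction.toPerm σ) _ _ fun q => ?_
    have : (MulAction.toPerm σ q : I ⧸ N) = ((σ * q.out : I) : I ⧸ N) := by
      conv_lhs => rw [← QuotientGroup.out_eq' q]
      rfl
    rw [this, hx.out_smul, mul_smul]
  have hne : (∏ q : I ⧸ N, q.out • x) ≠ 0 :=
    Finset.prod_ne_zero_iff.2 fun q _ h => h0 (by simpa using congrArg (fun y => q.out⁻¹ • y) h)
  obtain ⟨m, hm⟩ := c.unr _ hne hfx
  refine ⟨m, ?_⟩
  rw [map_prod] at hm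
  simp only [c.inv, Finset.prod_const, Finset.card_univ] at hm
  rw [Subgroup.index_eq_card, Nat.card_eq_fintype_card, hm, ← c.q8, zpow_mul]
  rfl

/-- the value group of the fixed field of `N` -/
theorem vg (c : Ctx I v ϖ) (N : Subgroup I) [N.FiniteIndex] (hw : Fx N ϖ) :
    ∃ (π : Ω) (e : ℕ), 0 < e ∧ 8 * e ≤ N.index ∧ Fx N π ∧ π ≠ 0 ∧ v π ^ e = v ϖ ∧
      ∀ x : Ω, x ≠ 0 → Fx N x → ∃ n : ℤ, v x = v π ^ n := by
  have hq := c.q_pos
  have hg : N.index ≠ 0 := Subgroup.FiniteIndex.index_ne_zero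
  have hinj : ∀ a b : ℤ, v ϖ ^ a = v ϖ ^ b → a = b := fun a b h =>
    zpow_right_injective₀ hq c.q_lt.ne h
  let S : AddSubgroup ℤ :=
    { carrier := {n | ∃ x : Ω, x ≠ 0 ∧ Fx N x ∧ v x ^ N.index = v ϖ ^ n}
      zero_mem' := ⟨1, one_ne_zero, Fx.one, by simp⟩
      add_mem' := by
        rintro a b ⟨x, h1, h2, h3⟩ ⟨y, h4, h5, h6⟩
        exact ⟨x * y, mul_ne_zero h1 h4, h2.mul h5, by rw [map_mul, mul_pow, h3, h6, zpow_add₀ hq.ne']⟩
      neg_mem' := by
        rintro a ⟨x, h1, h2, h3⟩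
        exact ⟨x⁻¹, inv_ne_zero h1, h2.inv, by rw [map_inv₀, inv_pow, h3, zpow_neg]⟩ }
  obtain ⟨a, ha⟩ := Int.subgroup_cyclic S
  have hdvd : ∀ n ∈ S, |a| ∣ n := fun n hn => by
    rw [ha, AddSubgroup.mem_closure_singleton] at hn
    obtain ⟨k, rfl⟩ := hn
    exact (abs_dvd _ _).2 (Dvd.intro_left k (by simp))
  have haS : |a| ∈ S := by
    have : a ∈ S := by rw [ha]; exact AddSubgroup.mem_closure_singleton_self a
    rcases abs_cases a with h | h
    · rwa [h.1]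
    · rw [h.1]; exact S.neg_mem this
  obtain ⟨π, hπ0, hπ, hπv⟩ := haS
  have hval : ∀ (x : Ω) (n : ℤ), v x ^ N.index = v ϖ ^ (|a| * n) → v x = v π ^ n := by
    intro x n h
    refine (pow_left_inj₀ zero_le zero_le hg).1 ?_
    rw [h, zpow_mul, ← hπv, ← zpow_natCast, ← zpow_natCast, ← zpow_mul, ← zpow_mul, mul_comm]
  obtain ⟨e, he⟩ := hdvd (N.index : ℤ) ⟨ϖ, c.w_ne, hw, by rw [zpow_natCast]⟩
  obtain ⟨m, hm⟩ := c.norm_val hπ0 hπ
  have ham : |a| = 8 * m := hinj _ _ (hπv.symm.trans hm)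
  have hgpos : (0 : ℤ) < N.index := by exact_mod_cast Nat.pos_of_ne_zero hg
  have hm0 : 0 ≤ m := by have := abs_nonneg a; omega
  have hepos : 0 < e := by
    by_contra h
    have : |a| * e ≤ 0 := mul_nonpos_of_nonneg_of_nonpos (abs_nonneg a) (not_lt.1 h)
    omega
  have hm1 : 1 ≤ m := by
    by_contra h
    have : m = 0 := by omega
    rw [ham, this] at he
    omega
  lift e to ℕ using hepos.le
  refine ⟨π, e, by exact_mod_cast hepos, ?_, hπ, hπ0, ?_, fun x hx0 hx => ?_⟩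
  · have : (8 * e : ℤ) ≤ N.index := by rw [he, ham]; nlinarith
    exact_mod_cast this
  · have := hval ϖ e (by rw [← he, zpow_natCast])
    rw [this, zpow_natCast]
  · obtain ⟨m', hm'⟩ := c.norm_val hx0 hx
    obtain ⟨n, hn⟩ := hdvd (8 * m') ⟨x, hx0, hx, hm'⟩
    exact ⟨n, hval x n (by rw [← hn, hm'])⟩

/-- the value group of `K₁ = Ω ^ (stabilizer ϖ)` is generated by `v ϖ` -/
theorem vg1 (c : Ctx I v ϖ) : 8 ≤ (MulAction.stabilizer I ϖ).index ∧
    ∀ x : Ω, x ≠ 0 → Fx (MulAction.stabilizer I ϖ) x → ∃ n : ℤ, v x = v ϖ ^ n := by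
  have : (MulAction.stabilizer I ϖ).FiniteIndex := ⟨c.index_le.1⟩
  obtain ⟨π, e, he, h8, -, -, hv, h⟩ := c.vg (MulAction.stabilizer I ϖ) fun σ hσ => hσ
  have := c.index_le.2
  have he1 : e = 1 := by omega
  subst he1
  rw [pow_one] at hv
  exact ⟨by omega, fun x h0 hx => hv ▸ h x h0 hx⟩

theorem inert (c : Ctx I v ϖ) (σ : I) {x : Ω} (hx : v x ≤ 1) : v (σ • x - x) < 1 := by
  obtain ⟨w, hw, h⟩ := c.res x hx
  have : σ • x - x = σ • (x - w) - (x - w) := by
    rw [smul_sub, hw σ (Subgroup.mem_top σ)]; ring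
  rw [this]
  exact v.map_sub_lt (by rwa [c.inv]) h

end Ctx

/-- discreteness -/
theorem le_succ_of_lt {r : ℝ≥0} (h0 : 0 < r) (h1 : r < 1) {z : Ω}
    (hz : z ≠ 0 → ∃ n : ℤ, v z = r ^ n) {M : ℕ} (h : v z < r ^ M) : v z ≤ r ^ (M + 1) := by
  by_cases hz0 : z = 0
  · simp [hz0]
  obtain ⟨n, hn⟩ := hz hz0
  rw [hn, ← zpow_natCast] at h ⊢
  rw [zpow_lt_zpow_iff_right_of_lt_one₀ h0 h1] at h
  exact (zpow_le_zpow_iff_right_of_lt_one₀ h0 h1).2 (by push_cast; omega)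

theorem le_one_of_res {x w : Ω} (hx : v x ≤ 1) (h : v (x - w) < 1) : v w ≤ 1 := by
  have : w = x - (x - w) := by ring
  rw [this]; exact v.map_sub_le hx h.le

end Crest.Agent.T15.L3
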