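import Crest.Agent.T15.L3A_27

/-!
# Row 15, LOC3, part C (helper27): Kummer generators, levels, normalisation.
-/

set_option autoImplicit false

open scoped NNReal
open Finset

namespace Crest.Agent.T15.L3

variable {Ω : Type*} [Field Ω] {D : Type*} [Group D] [MulSemiringAction D Ω]

/-- `I ⊓ Stab ϖ` -/
def SS (I : Subgroup D) (ϖ : Ω) : Subgroup D := I ⊓ MulAction.stabilizer D ϖ

/-- decomposition group `D`, inertia group `I` -/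
structure DC (v : Valuation Ω ℝ≥0) (ϖ : Ω) (I : Subgroup D) : Prop where
  inv : ∀ (g : D) (x : Ω), v (g • x) = v x
  normal : I.Normal
  h8 : ϖ ^ 8 = -3
  ne : (3 : Ω) ≠ 0
  lt : v 3 < 1
  unr : ∀ x : Ω, x ≠ 0 → Fx I x → ∃ m : ℤ, v x = v 3 ^ m
  res : ∀ x : Ω, v x ≤ 1 → ∃ w, Fx I w ∧ v (x - w) < 1

/-- `x` is a Kummer generator of the character `ψ` of `S` -/
def Kum (S : Subgroup D) (ψ : D → Ω) (x : Ω) : Prop := x ≠ 0 ∧ ∀ σ ∈ S, σ • x = ψ σ * x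

/-- `b = 1 + r ϖ ^ i +` higher terms -/
def Lv (v : Valuation Ω ℝ≥0) (ϖ : Ω) (i : ℕ) (b r : Ω) : Prop :=
  v r ≤ 1 ∧ v (b - 1 - r * ϖ ^ i) < v ϖ ^ i

variable {v : Valuation Ω ℝ≥0} {ϖ : Ω} {I : Subgroup D}

theorem Kum.mul {S : Subgroup D} {ψ ψ' : D → Ω} {x x' : Ω} (h : Kum S ψ x) (h' : Kum S ψ' x') :
    Kum S (fun σ => ψ σ * ψ' σ) (x * x') :=
  ⟨mul_ne_zero h.1 h'.1, fun σ hσ => by rw [smul_mul', h.2 σ hσ, h'.2 σ hσ]; ring⟩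

theorem Kum.div {S : Subgroup D} {ψ : D → Ω} {x z : Ω} (h : Kum S ψ x) (hz : Fx S z) (h0 : z ≠ 0) :
    Kum S ψ (x / z) :=
  ⟨div_ne_zero h.1 h0, fun σ hσ => by
    rw [div_eq_mul_inv, smul_mul', h.2 σ hσ, hz.inv σ hσ]; ring⟩

theorem Kum.congr {S : Subgroup D} {ψ ψ' : D → Ω} {x : Ω} (h : Kum S ψ x)
    (he : ∀ σ ∈ S, ψ σ = ψ' σ) : Kum S ψ' x := ⟨h.1, fun σ hσ => he σ hσ ▸ h.2 σ hσ⟩

theorem Kum.cube {S : Subgroup D} {ψ : D → Ω} {x : Ω} (h : Kum S ψ x) (h3 : ∀ σ ∈ S, ψ σ ^ 3 = 1) :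
    Fx S (x ^ 3) := fun σ hσ => by rw [smul_pow', h.2 σ hσ, mul_pow, h3 σ hσ, one_mul]

theorem Kum.fx {S : Subgroup D} {ψ : D → Ω} {x : Ω} (h : Kum S ψ x) (h1 : ∀ σ ∈ S, ψ σ = 1) :
    Fx S x := fun σ hσ => by rw [h.2 σ hσ, h1 σ hσ, one_mul]

theorem Kum.smul {S : Subgroup D} (hS : S.Normal) {ψ : D → Ω} {x : Ω} (h : Kum S ψ x) (g : D) :
    Kum S (fun σ => g • ψ (g⁻¹ * σ * g)) (g • x) := by
  refine ⟨fun h0 => h.1 (by simpa using congrArg (fun y => g⁻¹ • y) h0), fun σ hσ => ?_⟩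
  have := h.2 _ (hS.conj_mem' σ hσ g)
  rw [← smul_mul', ← this, ← mul_smul, ← mul_smul]
  congr 1; group

namespace DC

theorem ctx (c : DC v ϖ I) : Ctx I v ϖ where
  inv σ x := c.inv σ x
  h8 := c.h8
  ne := c.ne
  lt := c.lt
  unr x h0 hx := c.unr x h0 fun σ hσ => hx ⟨σ, hσ⟩ (Subgroup.mem_top _)
  res x hx := by
    obtain ⟨w, hw, h⟩ := c.res x hx
    exact ⟨w, fun σ _ => hw σ σ.2, h⟩

theorem fw (_ : DC v ϖ I) : Fx (SS I ϖ) ϖ := fun _ hσ => hσ.2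

theorem val (c : DC v ϖ I) {x : Ω} (h0 : x ≠ 0) (hx : Fx (SS I ϖ) x) : ∃ n : ℤ, v x = v ϖ ^ n :=
  c.ctx.vg1.2 x h0 fun σ hσ => hx σ ⟨σ.2, hσ⟩

theorem inert (c : DC v ϖ I) {σ : D} (hσ : σ ∈ I) {x : Ω} (hx : v x ≤ 1) : v (σ • x - x) < 1 :=
  c.ctx.inert ⟨σ, hσ⟩ hx

theorem disc (c : DC v ϖ I) {z : Ω} (hz : Fx (SS I ϖ) z) {M : ℕ} (h : v z < v ϖ ^ M) :
    v z ≤ v ϖ ^ (M + 1) := le_succ_of_lt c.ctx.q_pos c.ctx.q_lt (fun h0 => c.val h0 hz) h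

theorem v2 (c : DC v ϖ I) : v 2 = 1 := by
  have : (2 : Ω) = -(1 - 3) := by norm_num
  rw [this, Valuation.map_neg, v.map_one_sub_of_lt c.lt]

theorem two_ne (c : DC v ϖ I) : (2 : Ω) ≠ 0 := by
  intro h; have := c.v2; rw [h, map_zero] at this; exact zero_ne_one this

theorem pow_lt (c : DC v ϖ I) {m n : ℕ} (h : m < n) : v ϖ ^ n < v ϖ ^ m :=
  pow_lt_pow_right_of_lt_one₀ c.ctx.q_pos c.ctx.q_lt h

theorem pow_le (c : DC v ϖ I) {m n : ℕ} (h : m ≤ n) : v ϖ ^ n ≤ v ϖ ^ m :=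
  pow_le_pow_of_le_one zero_le c.ctx.q_lt.le h

theorem exists_tau (c : DC v ϖ I) : ∃ τ ∈ I, (τ • ϖ) ^ 4 = -ϖ ^ 4 := by
  by_contra hne
  push Not at hne
  have hf : (Polynomial.X ^ 4 - Polynomial.C (ϖ ^ 4)) ≠ 0 :=
    Polynomial.X_pow_sub_C_ne_zero (by norm_num) _
  have := relIndex_le (⊤ : Subgroup I) ϖ _ hf fun σ _ => by
    simp only [Polynomial.IsRoot, Polynomial.eval_sub, Polynomial.eval_pow, Polynomial.eval_X,
      Polynomial.eval_C]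
    have h1 : (σ • ϖ) ^ 8 = ϖ ^ 8 := by
      rw [← smul_pow', c.h8, smul_neg, Fx.three σ (Subgroup.mem_top σ)]
    have h2 : ((σ • ϖ) ^ 4 - ϖ ^ 4) * ((σ • ϖ) ^ 4 + ϖ ^ 4) = 0 := by linear_combination h1
    exact (mul_eq_zero.1 h2).resolve_right fun h => hne σ σ.2 (eq_neg_of_add_eq_zero_left h)
  rw [Subgroup.relIndex_top_right, Polynomial.natDegree_X_pow_sub_C] at this
  have := c.ctx.vg1.1
  omega

theorem theta (c : DC v ϖ I) (g : D) : ∃ θ : Ω, θ ^ 8 = 1 ∧ g • ϖ = θ * ϖ := by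
  refine ⟨g • ϖ / ϖ, ?_, (div_mul_cancel₀ _ c.ctx.w_ne).symm⟩
  rw [div_pow, ← smul_pow', c.h8, smul_neg, Fx.three g (Subgroup.mem_top g), div_self]
  exact neg_ne_zero.2 c.ne

theorem v_root {θ : Ω} {n : ℕ} (hn : n ≠ 0) (h : θ ^ n = 1) : v θ = 1 := by
  have : v θ ^ n = 1 := by rw [← map_pow, h, map_one]
  exact (pow_eq_one_iff_of_nonneg zero_le hn).1 this

theorem root8 (c : DC v ϖ I) {t : Ω} (h : t ^ 8 = 1) (h1 : v (t - 1) < 1) : t = 1 := by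
  have ht : v t = 1 := v_eq_one_of h1
  have key : ∀ s : Ω, v (s - 1) < 1 → s ^ 2 = 1 → s = 1 := fun s hs h2 => by
    have h3 : (s - 1) * (s + 1) = 0 := by linear_combination h2
    refine sub_eq_zero.1 ((mul_eq_zero.1 h3).resolve_right fun h4 => ?_)
    have : s - 1 = -2 := by linear_combination h4
    rw [this, Valuation.map_neg, c.v2] at hs
    exact lt_irrefl _ hs
  have h4 : t ^ 4 = 1 := key _ ((v_pow_sub_one ht.le 4).trans_lt h1) (by rw [← pow_mul, h])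
  have h2 : t ^ 2 = 1 := key _ ((v_pow_sub_one ht.le 2).trans_lt h1) (by rw [← pow_mul, h4])
  exact key t h1 h2

theorem fx_root8 (c : DC v ϖ I) {θ : Ω} (h : θ ^ 8 = 1) : Fx I θ := by
  intro σ hσ
  have hv : v θ = 1 := v_root (by norm_num) h
  have h0 : θ ≠ 0 := by rintro rfl; simp at h
  have := c.root8 (t := σ • θ / θ) (by rw [div_pow, ← smul_pow', h, smul_one, div_one]) (by
    rw [div_sub_one h0, map_div₀, hv, div_one]; exact c.inert hσ hv.le)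
  exact (div_eq_one_iff_eq h0).1 this

theorem SS_normal (c : DC v ϖ I) : (SS I ϖ).Normal := by
  refine ⟨fun σ hσ g => ⟨c.normal.conj_mem σ hσ.1 g, ?_⟩⟩
  obtain ⟨θ, h8, hθ⟩ := c.theta g⁻¹
  have h2 : σ • ϖ = ϖ := hσ.2
  show (g * σ * g⁻¹) • ϖ = ϖ
  rw [mul_smul, mul_smul, hθ, smul_mul', c.fx_root8 h8 σ hσ.1, h2, ← hθ, smul_inv_smul]

theorem root3 (c : DC v ϖ I) {t : Ω} (h : t ^ 3 = 1) (h1 : v (t - 1) < v ϖ ^ 4) : t = 1 := by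
  by_contra hne
  have h3 : (t - 1) * (t ^ 2 + t + 1) = 0 := by linear_combination h
  have h4 := (mul_eq_zero.1 h3).resolve_left (sub_ne_zero.2 hne)
  have h5 : (t - 1) ^ 2 = -(3 * t) := by linear_combination h4
  have h6 : v (t - 1) ^ 2 = (v ϖ ^ 4) ^ 2 := by
    rw [← map_pow, h5, Valuation.map_neg, map_mul, v_root (by norm_num) h, mul_one, ← c.ctx.q8,
      ← pow_mul]
  exact h1.ne ((pow_left_inj₀ zero_le zero_le two_ne_zero).1 h6)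

theorem cube_big (c : DC v ϖ I) {x : Ω} (hx : v x ≤ 1) (h : v ϖ ^ 4 < v (x - 1)) :
    v (x ^ 3 - 1) = v (x - 1) ^ 3 := by
  have e : x ^ 3 - 1 = (x - 1) ^ 3 + 3 * x * (x - 1) := by ring
  have h0 : 0 < v (x - 1) := lt_of_le_of_lt zero_le h
  rw [e, v.map_add_eq_of_lt_left, map_pow]
  rw [map_pow, map_mul, map_mul, pow_succ, ← c.ctx.q8]
  refine mul_lt_mul_of_pos_right ((mul_le_of_le_one_right' hx).trans_lt ?_) h0
  rw [show 8 = 4 * 2 from rfl, pow_mul]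
  exact pow_lt_pow_left₀ h zero_le two_ne_zero

theorem le_one_of_cube {x : Ω} (h : v (x ^ 3 - 1) ≤ 1) : v x ≤ 1 := by
  have e : x ^ 3 = (x ^ 3 - 1) + 1 := by ring
  have : v (x ^ 3) ≤ 1 := by rw [e]; exact v.map_add_le h (by simp)
  rw [map_pow] at this
  exact (pow_le_one_iff_of_nonneg zero_le three_ne_zero).1 this

theorem cube_le (c : DC v ϖ I) {x : Ω} {m : ℕ} (hm : m ≤ 4) (h : v (x ^ 3 - 1) ≤ v ϖ ^ (3 * m)) :
    v (x - 1) ≤ v ϖ ^ m := by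
  by_contra hn
  push Not at hn
  have hx := le_one_of_cube (h.trans (pow_le_one' c.ctx.q_lt.le _))
  rw [c.cube_big hx ((c.pow_le hm).trans_lt hn), mul_comm, pow_mul] at h
  exact absurd (pow_lt_pow_left₀ hn zero_le three_ne_zero) (not_lt.2 h)

theorem cube_lt (c : DC v ϖ I) {x : Ω} {m : ℕ} (hm : m ≤ 4) (h : v (x - 1) < v ϖ ^ m) :
    v (x ^ 3 - 1) < v ϖ ^ (3 * m) := by
  have hx : v x = 1 := v_eq_one_of (h.trans_le (pow_le_one' c.ctx.q_lt.le _))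
  have e : x ^ 3 - 1 = (x - 1) ^ 3 + 3 * x * (x - 1) := by ring
  rw [e]
  refine v.map_add_lt ?_ ?_
  · rw [map_pow, mul_comm, pow_mul]; exact pow_lt_pow_left₀ h zero_le three_ne_zero
  · rw [map_mul, map_mul, hx, mul_one, ← c.ctx.q8]
    refine (mul_lt_mul_of_pos_left h (pow_pos c.ctx.q_pos 8)).trans_le ?_
    rw [← pow_add]; exact c.pow_le (by omega)

/-- a cube does not have a level `i < 12` prime to `3` -/
theorem nc (c : DC v ϖ I) {z : Ω} (hz : Fx (SS I ϖ) z) {i : ℕ} (hi : i < 12) (h3 : ¬ 3 ∣ i)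
    (h : v (z ^ 3 - 1) = v ϖ ^ i) : False := by
  have hx := le_one_of_cube (h.le.trans (pow_le_one' c.ctx.q_lt.le _))
  by_cases hb : v ϖ ^ 4 < v (z - 1)
  · have h0 : z - 1 ≠ 0 := (v.pos_iff).1 (lt_of_le_of_lt zero_le hb)
    obtain ⟨n, hn⟩ := c.val h0 (hz.sub Fx.one)
    rw [c.cube_big hx hb, hn, ← zpow_natCast, ← zpow_natCast, ← zpow_mul] at h
    have := zpow_right_injective₀ c.ctx.q_pos c.ctx.q_lt.ne h
    exact h3 (Int.natCast_dvd_natCast.1 ⟨n, by rw [← this]; push_cast; ring⟩)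
  · push Not at hb
    have e : z ^ 3 - 1 = (z - 1) ^ 3 + 3 * z * (z - 1) := by ring
    have : v (z ^ 3 - 1) ≤ v ϖ ^ 12 := by
      rw [e]
      refine v.map_add_le ?_ ?_
      · rw [map_pow, show 12 = 4 * 3 from rfl, pow_mul]; exact pow_le_pow_left₀ zero_le hb 3
      · rw [map_mul, map_mul, ← c.ctx.q8, show 12 = 8 + 4 from rfl, pow_add]
        exact mul_le_mul' (mul_le_of_le_one_right' hx) hb
    exact absurd (c.pow_lt hi) (not_lt.2 (h ▸ this))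

theorem triv (c : DC v ϖ I) {ψ : D → Ω} {x : Ω} (h : Kum (SS I ϖ) ψ x)
    (h3 : ∀ σ ∈ SS I ϖ, ψ σ ^ 3 = 1) (hv : v (x ^ 3 - 1) ≤ v ϖ ^ 12) : ∀ σ ∈ SS I ϖ, ψ σ = 1 := by
  intro σ hσ
  have h1 := c.cube_le (m := 4) le_rfl hv
  have hq : 0 < v ϖ ^ 4 := pow_pos c.ctx.q_pos 4
  have hw : ϖ ^ 4 ≠ 0 := pow_ne_zero _ c.ctx.w_ne
  have hx : v x = 1 := v_eq_one_of (h1.trans_lt (by simpa using c.pow_lt (show 0 < 4 by norm_num)))
  have h2 := c.inert hσ.1 (x := (x - 1) / ϖ ^ 4) (by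
    rw [map_div₀, map_pow]; exact div_le_one_of_le₀ h1 zero_le)
  refine c.root3 (h3 σ hσ) ?_
  have e : σ • ((x - 1) / ϖ ^ 4) - (x - 1) / ϖ ^ 4 = (ψ σ - 1) * x / ϖ ^ 4 := by
    rw [div_eq_mul_inv, smul_mul', (c.fw.pow 4).inv σ hσ, smul_sub, smul_one, h.2 σ hσ]
    field_simp
    ring
  rwa [e, map_div₀, map_mul, hx, mul_one, map_pow, div_lt_one hq] at h2

/-! ### levels -/

theorem Lv_le (_ : DC v ϖ I) {i : ℕ} {b r : Ω} (h : Lv v ϖ i b r) : v (b - 1) ≤ v ϖ ^ i := by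
  have e : b - 1 = (b - 1 - r * ϖ ^ i) + r * ϖ ^ i := by ring
  rw [e]
  refine v.map_add_le h.2.le ?_
  rw [map_mul, map_pow]; exact mul_le_of_le_one_left' h.1

theorem Lv_of_le (c : DC v ϖ I) {i : ℕ} {b : Ω} (h : v (b - 1) ≤ v ϖ ^ i) :
    Lv v ϖ i b ((b - 1) / ϖ ^ i) := by
  refine ⟨by rw [map_div₀, map_pow]; exact div_le_one_of_le₀ h zero_le, ?_⟩
  rw [div_mul_cancel₀ _ (pow_ne_zero _ c.ctx.w_ne), sub_self, map_zero]
  exact pow_pos c.ctx.q_pos i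

theorem Lv_eq (_ : DC v ϖ I) {i : ℕ} {b r : Ω} (h : Lv v ϖ i b r) (hr : v r = 1) :
    v (b - 1) = v ϖ ^ i := by
  have e : b - 1 = (b - 1 - r * ϖ ^ i) + r * ϖ ^ i := by ring
  have h1 : v (r * ϖ ^ i) = v ϖ ^ i := by rw [map_mul, hr, one_mul, map_pow]
  rw [e, v.map_add_eq_of_lt_right (h1 ▸ h.2), h1]

theorem Lv_lt (c : DC v ϖ I) {i : ℕ} {b r : Ω} (h : Lv v ϖ i b r) (hr : v r < 1) :
    v (b - 1) < v ϖ ^ i := by
  have e : b - 1 = (b - 1 - r * ϖ ^ i) + r * ϖ ^ i := by ring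
  rw [e]
  refine v.map_add_lt h.2 ?_
  rw [map_mul, map_pow]; exact mul_lt_of_lt_one_left (pow_pos c.ctx.q_pos i) hr

theorem Lv_congr (c : DC v ϖ I) {i : ℕ} {b r r' : Ω} (h : Lv v ϖ i b r) (hr : v (r - r') < 1) :
    Lv v ϖ i b r' := by
  refine ⟨le_one_of_res h.1 hr, ?_⟩
  have e : b - 1 - r' * ϖ ^ i = (b - 1 - r * ϖ ^ i) + (r - r') * ϖ ^ i := by ring
  rw [e]
  refine v.map_add_lt h.2 ?_
  rw [map_mul, map_pow]; exact mul_lt_of_lt_one_left (pow_pos c.ctx.q_pos i) hr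

theorem Lv_uniq (c : DC v ϖ I) {i : ℕ} {b r r' : Ω} (h : Lv v ϖ i b r) (h' : Lv v ϖ i b r') :
    v (r - r') < 1 := by
  have e : (r - r') * ϖ ^ i = (b - 1 - r' * ϖ ^ i) - (b - 1 - r * ϖ ^ i) := by ring
  have := v.map_sub_lt h'.2 h.2
  rw [← e, map_mul, map_pow] at this
  exact (mul_lt_iff_lt_one_left (pow_pos c.ctx.q_pos i)).1 this

theorem Lv_mul (c : DC v ϖ I) {i : ℕ} (hi : 0 < i) {b r b' r' : Ω} (h : Lv v ϖ i b r)
    (h' : Lv v ϖ i b' r') : Lv v ϖ i (b * b') (r + r') := by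
  refine ⟨v.map_add_le h.1 h'.1, ?_⟩
  have e : b * b' - 1 - (r + r') * ϖ ^ i =
      (b - 1 - r * ϖ ^ i) + (b' - 1 - r' * ϖ ^ i) + (b - 1) * (b' - 1) := by ring
  rw [e]
  refine v.map_add_lt (v.map_add_lt h.2 h'.2) ?_
  rw [map_mul]
  refine (mul_le_mul' (c.Lv_le h) (c.Lv_le h')).trans_lt ?_
  rw [← pow_add]; exact c.pow_lt (by omega)

theorem Lv_smul (c : DC v ϖ I) {i : ℕ} {b r θ : Ω} (h : Lv v ϖ i b r) {g : D} (hθ : g • ϖ = θ * ϖ) :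
    Lv v ϖ i (g • b) (g • r * θ ^ i) := by
  have hv : v θ = 1 := by
    have := c.inv g ϖ
    rw [hθ, map_mul] at this
    exact mul_right_cancel₀ c.ctx.q_pos.ne' (this.trans (one_mul _).symm)
  refine ⟨by rw [map_mul, map_pow, hv, one_pow, mul_one, c.inv]; exact h.1, ?_⟩
  have e : g • b - 1 - g • r * θ ^ i * ϖ ^ i = g • (b - 1 - r * ϖ ^ i) := by
    rw [smul_sub, smul_sub, smul_one, smul_mul', smul_pow', hθ]; ring
  rw [e, c.inv]; exact h.2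

theorem Lv_tau (c : DC v ϖ I) {i : ℕ} {b r θ : Ω} (h : Lv v ϖ i b r) {τ : D} (hτ : τ ∈ I)
    (hθ : τ • ϖ = θ * ϖ) (h8 : θ ^ 8 = 1) : Lv v ϖ i (τ • b) (r * θ ^ i) := by
  refine c.Lv_congr (c.Lv_smul h hθ) ?_
  rw [← sub_mul, map_mul, map_pow, v_root (by norm_num) h8, one_pow, mul_one]
  exact c.inert hτ h.1

/-- the eigenvalue of `τ` excludes the levels `1, 5, 7, 8, 11` -/
theorem ne_level (c : DC v ϖ I) {τ : D} (hτ : τ ∈ I) (h4 : (τ • ϖ) ^ 4 = -ϖ ^ 4) {x : Ω}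
    (hy : Fx (SS I ϖ) (x * τ • x * τ • τ • x * τ • τ • τ • x)) {i : ℕ} (hi : i < 12)
    (h3 : ¬ 3 ∣ i) (ho : Odd i ∨ i = 8) : v (x ^ 3 - 1) ≠ v ϖ ^ i := by
  intro h
  obtain ⟨θ, h8, hθ⟩ := c.theta τ
  have hθ4 : θ ^ 4 = -1 := by
    rw [hθ, mul_pow] at h4
    exact mul_right_cancel₀ (pow_ne_zero 4 c.ctx.w_ne) (by rw [h4]; ring)
  have hi0 : 0 < i := Nat.pos_of_ne_zero fun h0 => h3 (by simp [h0])
  have l0 := c.Lv_of_le h.le
  set r := (x ^ 3 - 1) / ϖ ^ i with hr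
  have hvr : v r = 1 := by rw [hr, map_div₀, map_pow, h, div_self (pow_pos c.ctx.q_pos i).ne']
  have l1 := c.Lv_tau l0 hτ hθ h8
  have l2 := c.Lv_tau l1 hτ hθ h8
  have l3 := c.Lv_tau l2 hτ hθ h8
  have l := c.Lv_mul hi0 (c.Lv_mul hi0 (c.Lv_mul hi0 l0 l1) l2) l3
  simp only [smul_pow'] at l
  rw [← mul_pow, ← mul_pow, ← mul_pow] at l
  refine c.nc hy hi h3 (c.Lv_eq l ?_)
  have e : r + r * θ ^ i + r * θ ^ i * θ ^ i + r * θ ^ i * θ ^ i * θ ^ i =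
      r * (1 + θ ^ i + (θ ^ i) ^ 2 + (θ ^ i) ^ 3) := by ring
  rw [e, map_mul, hvr, one_mul]
  rcases ho with ho | rfl
  · have ht : v (θ ^ i) = 1 := by rw [map_pow, v_root (by norm_num) h8, one_pow]
    have h5 : (θ ^ i) ^ 4 = -1 := by rw [← pow_mul, mul_comm, pow_mul, hθ4, ho.neg_one_pow]
    generalize θ ^ i = t at ht h5
    have h6 : (1 - t) * (1 + t + t ^ 2 + t ^ 3) = 2 := by linear_combination -h5
    have h7 := congrArg v h6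
    rw [map_mul, c.v2] at h7
    have a1 : v (1 - t) ≤ 1 := v.map_sub_le (by simp) ht.le
    have a2 : v (1 + t + t ^ 2 + t ^ 3) ≤ 1 :=
      v.map_add_le (v.map_add_le (v.map_add_le (by simp) ht.le) (by simp [ht])) (by simp [ht])
    exact le_antisymm a2 (h7 ▸ mul_le_of_le_one_left' a1)
  · rw [h8, show (1 + 1 + 1 ^ 2 + 1 ^ 3 : Ω) = 2 * 2 by norm_num, map_mul, c.v2, one_mul]

/-- normalisation of a Kummer generator -/
theorem norm10 (c : DC v ϖ I) {τ : D} (hτ : τ ∈ I) (h4 : (τ • ϖ) ^ 4 = -ϖ ^ 4) {ψ : D → Ω}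
    (h3 : ∀ σ ∈ SS I ϖ, ψ σ ^ 3 = 1)
    (hQ : ∀ x, Kum (SS I ϖ) ψ x → Fx (SS I ϖ) (x * τ • x * τ • τ • x * τ • τ • τ • x))
    (hL : ∀ x, Kum (SS I ϖ) ψ x → v (x ^ 3 - 1) ≠ v ϖ ^ 2 ∧ v (x ^ 3 - 1) ≠ v ϖ ^ 4)
    {x₀ : Ω} (h₀ : Kum (SS I ϖ) ψ x₀) : ∃ x, Kum (SS I ϖ) ψ x ∧ v (x ^ 3 - 1) ≤ v ϖ ^ 10 := by
  have hq := c.ctx.q_pos
  have up : ∀ (m : ℕ) (x : Ω), m ≤ 4 → Kum (SS I ϖ) ψ x → v x = 1 → v (x - 1) ≤ v ϖ ^ m →
      ∃ x', Kum (SS I ϖ) ψ x' ∧ v (x' ^ 3 - 1) ≤ v ϖ ^ (3 * m + 1) := by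
    intro m x hm hx hx1 h
    have hw : ϖ ^ m ≠ 0 := pow_ne_zero _ c.ctx.w_ne
    obtain ⟨w, hw1, hw2⟩ := c.res ((x - 1) / ϖ ^ m) (by
      rw [map_div₀, map_pow]; exact div_le_one_of_le₀ h zero_le)
    have h1 : v (x - (1 + w * ϖ ^ m)) < v ϖ ^ m := by
      have e : x - (1 + w * ϖ ^ m) = ((x - 1) / ϖ ^ m - w) * ϖ ^ m := by field_simp; ring
      rw [e, map_mul, map_pow]; exact mul_lt_of_lt_one_left (pow_pos hq m) hw2
    have h2 : v (1 + w * ϖ ^ m) = 1 := by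
      have e : 1 + w * ϖ ^ m = x - (x - (1 + w * ϖ ^ m)) := by ring
      rw [e, v.map_sub_eq_of_lt_left (hx1 ▸ h1.trans_le (pow_le_one' c.ctx.q_lt.le _)), hx1]
    have h0 : 1 + w * ϖ ^ m ≠ 0 := by intro h; rw [h, map_zero] at h2; exact zero_ne_one h2
    have hk := hx.div (Fx.one.add ((hw1.mono inf_le_left).mul (c.fw.pow m))) h0
    refine ⟨_, hk, c.disc ((hk.cube h3).sub Fx.one) (c.cube_lt hm ?_)⟩
    rwa [div_sub_one h0, map_div₀, h2, div_one]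
  have start : ∃ x, Kum (SS I ϖ) ψ x ∧ v (x ^ 3 - 1) ≤ v ϖ ^ 1 := by
    have hv0 : v x₀ ≠ 0 := ((v.pos_iff).2 h₀.1).ne'
    obtain ⟨n, hn⟩ := c.val (pow_ne_zero 3 h₀.1) (h₀.cube h3)
    have hy0 : v (x₀ * τ • x₀ * τ • τ • x₀ * τ • τ • τ • x₀) = v x₀ ^ 3 * v x₀ := by
      simp only [map_mul, c.inv]; ring
    obtain ⟨m, hm⟩ := c.val ((v.pos_iff).1 (by rw [hy0]; positivity)) (hQ x₀ h₀)
    rw [hy0, ← map_pow, hn] at hm
    have hz : ϖ ^ (m - n) ≠ 0 := zpow_ne_zero _ c.ctx.w_ne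
    have hk := h₀.div (c.fw.zpow (m - n)) hz
    have h1 : v (x₀ / ϖ ^ (m - n)) = 1 := by
      rw [map_div₀, map_zpow₀, zpow_sub₀ hq.ne', ← hm, mul_div_cancel_left₀ _ (zpow_pos hq n).ne',
        div_self hv0]
    exact up 0 _ (by norm_num) hk h1 (by simpa using v.map_sub_le h1.le (by simp))
  have step : ∀ i : ℕ, 0 < i → i < 10 → (∃ x, Kum (SS I ϖ) ψ x ∧ v (x ^ 3 - 1) ≤ v ϖ ^ i) →
      ∃ x, Kum (SS I ϖ) ψ x ∧ v (x ^ 3 - 1) ≤ v ϖ ^ (i + 1) := by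
    rintro i hi0 hi ⟨x, hx, h⟩
    by_cases hd : 3 ∣ i
    · obtain ⟨m, rfl⟩ := hd
      have h1 := c.cube_le (by omega) h
      exact up m x (by omega) hx (v_eq_one_of (h1.trans_lt (by
        simpa using c.pow_lt (show 0 < m by omega)))) h1
    · refine ⟨x, hx, c.disc ((hx.cube h3).sub Fx.one) (lt_of_le_of_ne h ?_)⟩
      by_cases h2 : i = 2
      · exact h2 ▸ (hL x hx).1
      by_cases h4' : i = 4
      · exact h4' ▸ (hL x hx).2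
      refine c.ne_level hτ h4 (hQ x hx) (by omega) hd ?_
      rw [Nat.odd_iff]; omega
  have : ∀ i : ℕ, i ≤ 9 → ∃ x, Kum (SS I ϖ) ψ x ∧ v (x ^ 3 - 1) ≤ v ϖ ^ (i + 1) := by
    intro i
    induction i with
    | zero => exact fun _ => start
    | succ i ih => exact fun h => step (i + 1) (by omega) (by omega) (ih (by omega))
  exact this 9 le_rfl

theorem triv10 (c : DC v ϖ I) {τ : D} (hτ : τ ∈ I) (h4 : (τ • ϖ) ^ 4 = -ϖ ^ 4) {ψ : D → Ω}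
    (h3 : ∀ σ ∈ SS I ϖ, ψ σ ^ 3 = 1) {x : Ω} (hx : Kum (SS I ϖ) ψ x)
    (hQ : Fx (SS I ϖ) (x * τ • x * τ • τ • x * τ • τ • τ • x))
    (h : v (x ^ 3 - 1) < v ϖ ^ 10) : ∀ σ ∈ SS I ϖ, ψ σ = 1 := by
  have hf := (hx.cube h3).sub Fx.one
  refine c.triv hx h3 (c.disc hf (lt_of_le_of_ne (c.disc hf h) ?_))
  exact c.ne_level hτ h4 hQ (by norm_num) (by norm_num) (Or.inl (by decide))

end DC

/-- existence of Kummer generators (Lagrange resolvent) -/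
theorem exists_kum {S N : Subgroup D} (hN : N ≤ S) (hfin : N.relIndex S ≠ 0)
    (hcl : ∀ σ ∈ S, (∀ x : Ω, Fx N x → σ • x = x) → σ ∈ N) {ψ : D → Ω}
    (hmul : ∀ σ ∈ S, ∀ σ' ∈ S, ψ (σ * σ') = ψ σ * ψ σ') (h1 : ∀ σ ∈ N, ψ σ = 1)
    (hfx : ∀ σ ∈ S, Fx S (ψ σ)) : ∃ x, Kum S ψ x := by
  classical
  have hne : ∀ σ ∈ S, ψ σ ≠ 0 := fun σ hσ h0 => by
    have := hmul σ hσ σ⁻¹ (S.inv_mem hσ)
    rw [mul_inv_cancel, h1 1 N.one_mem, h0, zero_mul] at this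
    exact one_ne_zero this
  have : (N.subgroupOf S).FiniteIndex := ⟨hfin⟩
  have : Fintype (S ⧸ N.subgroupOf S) := Fintype.ofFinite _
  let L : Submonoid Ω :=
    { carrier := {x | Fx N x}, one_mem' := Fx.one, mul_mem' := fun ha hb => Fx.mul ha hb }
  let f : (S ⧸ N.subgroupOf S) → (L →* Ω) := fun q =>
    { toFun := fun y => (q.out : D) • (y : Ω), map_one' := smul_one _,
      map_mul' := fun a b => smul_mul' _ _ _ }
  have hinj : Function.Injective f := by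
    intro q q' h
    rw [← QuotientGroup.out_eq' q, ← QuotientGroup.out_eq' q', QuotientGroup.eq,
      Subgroup.mem_subgroupOf]
    refine hcl _ (Subtype.prop _) fun x hx => ?_
    have := DFunLike.congr_fun h ⟨x, hx⟩
    change (q.out : D) • x = (q'.out : D) • x at this
    rw [Subgroup.coe_mul, mul_smul, ← this, Subgroup.coe_inv, inv_smul_smul]
  have hli := (linearIndependent_monoidHom L Ω).comp f hinj
  rw [Fintype.linearIndependent_iff] at hli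
  have hex : ∃ y : L, ∑ q : S ⧸ N.subgroupOf S, (ψ q.out)⁻¹ * (q.out : D) • (y : Ω) ≠ 0 := by
    by_contra hall
    push Not at hall
    have := hli (fun q => (ψ q.out)⁻¹) (by
      ext y; simpa [Finset.sum_apply, f] using hall y) (1 : S)
    exact hne _ (Subtype.prop _) (inv_eq_zero.1 this)
  obtain ⟨y, hy⟩ := hex
  refine ⟨_, hy, fun σ hσ => ?_⟩
  rw [Finset.smul_sum, Finset.mul_sum]
  refine Fintype.sum_equiv (MulAction.toPerm (⟨σ, hσ⟩ : S)) _ _ fun q => ?_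
  have e : (MulAction.toPerm (⟨σ, hσ⟩ : S) q : S ⧸ N.subgroupOf S) =
      ((⟨σ, hσ⟩ * q.out : S) : S ⧸ N.subgroupOf S) := by
    conv_lhs => rw [← QuotientGroup.out_eq' q]
    rfl
  obtain ⟨n, hn⟩ := QuotientGroup.mk_out_eq_mul (N.subgroupOf S) (⟨σ, hσ⟩ * q.out)
  have hnN : ((n : S) : D) ∈ N := n.2
  rw [e, hn, Subgroup.coe_mul, Subgroup.coe_mul, hmul _ (S.mul_mem hσ (Subtype.prop _)) _ (hN hnN),
    h1 _ hnN, hmul _ hσ _ (Subtype.prop _), mul_smul, y.2 _ hnN, mul_smul, smul_mul',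
    (hfx _ (Subtype.prop _)).inv σ hσ]
  have := hne σ hσ
  field_simp

end Crest.Agent.T15.L3
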