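import Mathlib

/-!
# Row 15, LOC3, part M (helper27): linear algebra in characteristic three.
-/

set_option autoImplicit false

namespace Crest.Agent.T15.L3

open Matrix

variable {k : Type*} [Field k]

theorem two_ne3 [CharP k 3] : (2 : k) ≠ 0 := by
  intro h
  have h3 : (3 : k) = 0 := by simpa using CharP.cast_eq_zero k 3
  have : (1 : k) = 0 := by linear_combination h3 - h
  exact one_ne_zero this

theorem half_zero {M : Type*} [AddCommGroup M] [Module k M] (h2 : (2 : k) ≠ 0) {x : M}
    (h : x = -x) : x = 0 := by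
  have : (2 : k) • x = 0 := by rw [two_smul]; exact eq_neg_iff_add_eq_zero.1 h
  exact (smul_eq_zero.1 this).resolve_left h2

/-- `1, B, F, B F` is a basis: a matrix orthogonal to it for the trace form vanishes -/
theorem quat_zero (h2 : (2 : k) ≠ 0) {B F F' z : Matrix (Fin 2) (Fin 2) k} (hB : B * B = -1)
    (hF : F * F' = 1) (hBF : B * F = -(F * B)) (h1 : z.trace = 0) (h2' : (B * z).trace = 0)
    (h3 : (F * z).trace = 0) (h4 : (B * F * z).trace = 0) : z = 0 := by
  have hB0 : B ≠ 0 := by
    rintro rfl
    have := congrFun (congrFun hB 0) 0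
    simp at this
  have key : ∀ a b : k, a • (1 : Matrix (Fin 2) (Fin 2) k) + b • B = 0 → a = 0 ∧ b = 0 := by
    intro a b h
    have e1 : (a • (1 : Matrix (Fin 2) (Fin 2) k) + b • B) * F * F' = 0 := by rw [h]; simp
    have e2 : F * (a • (1 : Matrix (Fin 2) (Fin 2) k) + b • B) * F' = 0 := by rw [h]; simp
    have e3 : (a + a) • (1 : Matrix (Fin 2) (Fin 2) k) = 0 := by
      have := congrArg₂ (· + ·) e1 e2
      simp only [add_mul, mul_add, smul_mul_assoc, mul_smul_comm, one_mul, mul_one, hBF, hF,
        neg_mul, smul_neg, add_zero] at this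
      rw [add_smul, ← this]; abel
    have ha : a = 0 := by
      have := (smul_eq_zero.1 e3).resolve_right one_ne_zero
      exact half_zero h2 (eq_neg_iff_add_eq_zero.2 this)
    refine ⟨ha, ?_⟩
    rw [ha, zero_smul, zero_add] at h
    exact (smul_eq_zero.1 h).resolve_right hB0
  have li : LinearIndependent k ![(1 : Matrix (Fin 2) (Fin 2) k), B, F, B * F] := by
    rw [Fintype.linearIndependent_iff]
    intro g hg
    simp only [Fin.sum_univ_four, cons_val_zero, cons_val_one, cons_val] at hg
    set P := g 0 • (1 : Matrix (Fin 2) (Fin 2) k) + g 1 • B with hP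
    set Q := g 2 • (1 : Matrix (Fin 2) (Fin 2) k) + g 3 • B with hQ
    have e0 : P + Q * F = 0 := by
      rw [← hg, hP, hQ, add_mul, smul_mul_assoc, smul_mul_assoc, one_mul]; abel
    have cP : B * P = P * B := by simp [hP, mul_add, add_mul]
    have cQ : B * Q = Q * B := by simp [hQ, mul_add, add_mul]
    have e1 : P * B - Q * F * B = 0 := by
      have : B * (P + Q * F) = 0 := by rw [e0, mul_zero]
      rw [mul_add, cP, ← mul_assoc, cQ, mul_assoc, hBF, mul_neg, ← mul_assoc] at this
      rw [sub_eq_add_neg, this]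
    have e2 : P * B + Q * F * B = 0 := by rw [← add_mul, e0, zero_mul]
    have e3 : P * B = 0 := half_zero h2 (eq_neg_iff_add_eq_zero.2 (by
      rw [← zero_add (0 : Matrix (Fin 2) (Fin 2) k)]
      nth_rewrite 1 [← e1]
      nth_rewrite 1 [← e2]
      abel))
    have e4 : P = 0 := by
      have : P * B * B = 0 := by rw [e3, zero_mul]
      rwa [mul_assoc, hB, mul_neg, mul_one, neg_eq_zero] at this
    have e5 : Q = 0 := by
      rw [e4, zero_add] at e0
      have : Q * F * F' = 0 := by rw [e0, zero_mul]
      rwa [mul_assoc, hF, mul_one] at this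
    obtain ⟨a0, a1⟩ := key _ _ e4
    obtain ⟨a2, a3⟩ := key _ _ e5
    intro i
    fin_cases i <;> assumption
  have sp := li.span_eq_top_of_card_eq_finrank' (by simp [Module.finrank_matrix])
  have all : ∀ y : Matrix (Fin 2) (Fin 2) k, (y * z).trace = 0 := by
    intro y
    have hy : y ∈ Submodule.span k (Set.range ![(1 : Matrix (Fin 2) (Fin 2) k), B, F, B * F]) := by
      rw [sp]; trivial
    induction hy using Submodule.span_induction with
    | mem x hx =>
      obtain ⟨i, rfl⟩ := hx
      fin_cases i
      · simpa using h1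
      · simpa using h2'
      · simpa using h3
      · simpa using h4
    | zero => simp
    | add x y _ _ hx hy => rw [add_mul, trace_add, hx, hy, add_zero]
    | smul a x _ hx => rw [smul_mul_assoc, trace_smul, hx, smul_zero]
  ext i j
  have := all (single j i 1)
  simpa [trace_single_mul] using this

/-- a traceless matrix commuting with `B` and `F` vanishes -/
theorem quat_comm (h2 : (2 : k) ≠ 0) {B F F' z : Matrix (Fin 2) (Fin 2) k} (hB : B * B = -1)
    (hF : F * F' = 1) (hBF : B * F = -(F * B)) (h1 : z.trace = 0) (cB : B * z = z * B)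
    (cF : F * z = z * F) : z = 0 := by
  have hF' : F' * F = 1 := mul_eq_one_comm.1 hF
  refine quat_zero h2 hB hF hBF h1 (half_zero h2 ?_) (half_zero h2 ?_) (half_zero h2 ?_)
  · calc (B * z).trace = (B * F * z * F').trace := by
          rw [mul_assoc B F z, cF, mul_assoc, mul_assoc, hF, mul_one]
      _ = -(F * (B * z * F')).trace := by
          rw [hBF, neg_mul, neg_mul, trace_neg, ← mul_assoc, ← mul_assoc]
      _ = -(B * z).trace := by rw [trace_mul_comm F, mul_assoc, hF', mul_one]
  · have e : B * (F * z * B) = F * z := by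
      rw [mul_assoc F z B, ← cB, ← mul_assoc, hBF, neg_mul, mul_assoc, ← mul_assoc B B, hB]
      simp
    calc (F * z).trace = (B * (F * z * B)).trace := by rw [e]
      _ = -(F * z).trace := by
          rw [trace_mul_comm B, mul_assoc, hB, mul_neg, mul_one, trace_neg]
  · calc (B * F * z).trace = (F * z * B).trace := by rw [mul_assoc, trace_mul_comm]
      _ = -(B * F * z).trace := by
          rw [mul_assoc F z B, ← cB, ← mul_assoc, hBF, neg_mul, trace_neg, neg_neg]

/-- the trace form: additive functionals come from linear ones -/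
theorem exists_tr (k : Type*) [Field k] [Finite k] [CharP k 3] :
    ∃ t : k →+ ZMod 3, (∀ s, (∀ c, t (c * s) = 0) → s = 0) ∧
      ∀ f : k →+ ZMod 3, ∃ s, ∀ c, t (c * s) = f c := by
  have : Fact (Nat.Prime 3) := ⟨Nat.prime_three⟩
  let _ := ZMod.algebra k 3
  have hnd := traceForm_nondegenerate (ZMod 3) k
  refine ⟨(Algebra.trace (ZMod 3) k).toAddMonoidHom, fun s hs => ?_, fun f => ?_⟩
  · refine hnd.1 s fun c => ?_
    rw [Algebra.traceForm_apply, mul_comm]; exact hs c
  · refine ⟨((Algebra.traceForm (ZMod 3) k).toDual hnd).symm (f.toZModLinearMap 3), fun c => ?_⟩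
    have := LinearMap.BilinForm.apply_toDual_symm_apply (hB := hnd) (f.toZModLinearMap 3) c
    rw [Algebra.traceForm_apply, mul_comm] at this
    exact this

theorem exists_fun [Finite k] [CharP k 3] {V : Type*} [AddCommGroup V] [Module k V]
    (m : V →+ ZMod 3) : ∃ l : V →ₗ[k] k, ∀ u, l u = 0 → ∀ c : k, m (c • u) = 0 := by
  obtain ⟨t, h1, h2⟩ := exists_tr k
  choose s hs using fun u : V => h2 (m.comp ((smulAddHom k V).flip u))
  have hs' : ∀ u c, t (c * s u) = m (c • u) := fun u c => hs u c
  refine ⟨⟨⟨s, fun u u' => ?_⟩, fun a u => ?_⟩, fun u hu c => ?_⟩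
  · refine sub_eq_zero.1 (h1 _ fun c => ?_)
    rw [mul_sub, mul_add, map_sub, map_add, hs', hs', hs', smul_add, map_add, sub_self]
  · refine sub_eq_zero.1 (h1 _ fun c => ?_)
    simp only [RingHom.id_apply, smul_eq_mul]
    rw [mul_sub, map_sub, ← mul_assoc, hs', hs', mul_smul, sub_self]
  · have : s u = 0 := hu
    rw [← hs', this, mul_zero, map_zero]

end Crest.Agent.T15.L3
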