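import Crest.Agent.T15.L3C_27
import Crest.Agent.T15.L3M_27

/-!
# Row 15, LOC3, part D (helper27): leading coefficients, Frobenius, the dimension bound `loc3`.
-/

set_option autoImplicit false

open scoped NNReal
open Matrix

namespace Crest.Agent.T15.L3

variable {Ω : Type*} [Field Ω] {D : Type*} [Group D] [MulSemiringAction D Ω]
variable {v : Valuation Ω ℝ≥0} {ϖ : Ω} {I : Subgroup D}

/-- `r` is the leading coefficient (level ten) of a Kummer generator of `ψ` -/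
def Rl (v : Valuation Ω ℝ≥0) (ϖ : Ω) (I : Subgroup D) (ψ : D → Ω) (r : Ω) : Prop :=
  ∃ x, Kum (SS I ϖ) ψ x ∧ Lv v ϖ 10 (x ^ 3) r

namespace DC

theorem Rl_mul (c : DC v ϖ I) {ψ ψ' : D → Ω} {r r' : Ω} (h : Rl v ϖ I ψ r) (h' : Rl v ϖ I ψ' r') :
    Rl v ϖ I (fun σ => ψ σ * ψ' σ) (r + r') := by
  obtain ⟨x, a, b⟩ := h
  obtain ⟨x', a', b'⟩ := h'
  exact ⟨x * x', a.mul a', by rw [mul_pow]; exact c.Lv_mul (by norm_num) b b'⟩

theorem Rl_congr (_ : DC v ϖ I) {ψ ψ' : D → Ω} {r : Ω} (h : Rl v ϖ I ψ r)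
    (he : ∀ σ ∈ SS I ϖ, ψ σ = ψ' σ) : Rl v ϖ I ψ' r := by
  obtain ⟨x, a, b⟩ := h
  exact ⟨x, a.congr he, b⟩

theorem Rl_res (c : DC v ϖ I) {ψ : D → Ω} {r r' : Ω} (h : Rl v ϖ I ψ r) (hr : v (r - r') < 1) :
    Rl v ϖ I ψ r' := by
  obtain ⟨x, a, b⟩ := h
  exact ⟨x, a, c.Lv_congr b hr⟩

theorem Rl_uniq (c : DC v ϖ I) {ψ : D → Ω} (h3 : ∀ σ ∈ SS I ϖ, ψ σ ^ 3 = 1) {r r' : Ω}
    (h : Rl v ϖ I ψ r) (h' : Rl v ϖ I ψ r') : v (r - r') < 1 := by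
  obtain ⟨x, a, b⟩ := h
  obtain ⟨x', a', b'⟩ := h'
  have hz : Fx (SS I ϖ) (x / x') := fun σ hσ => by
    have h0 : ψ σ ≠ 0 := fun h0 => by simpa [h0] using h3 σ hσ
    rw [div_eq_mul_inv, smul_mul', smul_inv'', a.2 σ hσ, a'.2 σ hσ]
    have := a'.1
    field_simp
  have h1 : v ϖ ^ 10 < 1 := by simpa using c.pow_lt (show 0 < 10 by norm_num)
  have hv : v (x' ^ 3) = 1 := v_eq_one_of ((c.Lv_le b').trans_lt h1)
  have hle : v ((x / x') ^ 3 - 1) ≤ v ϖ ^ 10 := by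
    have e : (x / x') ^ 3 - 1 = ((x ^ 3 - 1) - (x' ^ 3 - 1)) / x' ^ 3 := by
      have := a'.1
      field_simp
      ring
    rw [e, map_div₀, hv, div_one]
    exact v.map_sub_le (c.Lv_le b) (c.Lv_le b')
  have hlt := lt_of_le_of_ne hle fun h => c.nc hz (by norm_num) (by norm_num) h
  have l0 : Lv v ϖ 10 ((x / x') ^ 3) 0 := ⟨by simp, by simpa using hlt⟩
  have l1 := c.Lv_mul (by norm_num) l0 b'
  rw [← mul_pow, div_mul_cancel₀ _ a'.1, zero_add] at l1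
  exact c.Lv_uniq b l1

theorem Rl_smul (c : DC v ϖ I) {ψ : D → Ω} {r θ : Ω} (h : Rl v ϖ I ψ r) {g : D}
    (hθ : g • ϖ = θ * ϖ) : Rl v ϖ I (fun σ => g • ψ (g⁻¹ * σ * g)) (g • r * θ ^ 10) := by
  obtain ⟨x, a, b⟩ := h
  exact ⟨g • x, a.smul c.SS_normal g, by rw [← smul_pow']; exact c.Lv_smul b hθ⟩

theorem Rl_one (c : DC v ϖ I) : Rl v ϖ I (fun _ => 1) 0 :=
  ⟨1, ⟨one_ne_zero, fun _ _ => by simp⟩, by simp, by simpa using pow_pos c.ctx.q_pos 10⟩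

theorem v_int (c : DC v ϖ I) {n : ℤ} : v (n : Ω) < 1 ↔ ((n : ℤ) : ZMod 3) = 0 := by
  rw [ZMod.intCast_zmod_eq_zero_iff_dvd]
  have hle : ∀ m : ℤ, v (m : Ω) ≤ 1 := fun m => by
    have hn : ∀ a : ℕ, v (a : Ω) ≤ 1 := fun a => by
      induction a with
      | zero => simp
      | succ a ih => push_cast; exact v.map_add_le ih (by simp)
    obtain ⟨a, rfl | rfl⟩ := m.eq_nat_or_neg
    · simpa using hn a
    · simpa using hn a
  have h3 : ∀ m : ℤ, v ((3 : Ω) * m) < 1 := fun m => by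
    rw [map_mul]; exact (mul_le_of_le_one_right' (hle m)).trans_lt c.lt
  constructor
  · intro h
    by_contra hn
    have : n = 3 * (n / 3) + 1 ∨ n = 3 * (n / 3 + 1) - 1 := by omega
    rcases this with e | e
    · have : (1 : Ω) = n - 3 * ((n / 3 : ℤ) : Ω) := by
        nth_rewrite 1 [e]; push_cast; ring
      have h1 := v.map_sub_lt h (h3 (n / 3))
      rw [← this, map_one] at h1
      exact lt_irrefl _ h1
    · have : (1 : Ω) = 3 * ((n / 3 + 1 : ℤ) : Ω) - n := by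
        nth_rewrite 2 [e]; push_cast; ring
      have h1 := v.map_sub_lt (h3 (n / 3 + 1)) h
      rw [← this, map_one] at h1
      exact lt_irrefl _ h1
  · rintro ⟨m, rfl⟩
    push_cast
    exact h3 m

theorem exists_int (_ : DC v ϖ I) {r : Ω} (h : v (r ^ 3 - r) < 1) : ∃ n : ℤ, v (r - n) < 1 := by
  by_contra hn
  push Not at hn
  have e : r ^ 3 - r = (r - (0 : ℤ)) * (r - (1 : ℤ)) * (r - (-1 : ℤ)) := by push_cast; ring
  rw [e, map_mul, map_mul] at h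
  exact absurd h (not_lt.2 (one_le_mul (one_le_mul (hn _) (hn _)) (hn _)))

theorem pow_smul (c : DC v ϖ I) {τ : D} (hτ : τ ∈ I) {θ : Ω} (h8 : θ ^ 8 = 1) (hθ : τ • ϖ = θ * ϖ)
    (m : ℕ) : (τ ^ m) • ϖ = θ ^ m * ϖ := by
  induction m with
  | zero => simp
  | succ m ih =>
    rw [pow_succ', mul_smul, ih, smul_mul', smul_pow', c.fx_root8 h8 τ hτ, hθ]; ring

theorem theta4 (c : DC v ϖ I) {τ : D} (h4 : (τ • ϖ) ^ 4 = -ϖ ^ 4) {θ : Ω} (hθ : τ • ϖ = θ * ϖ) :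
    θ ^ 4 = -1 := by
  rw [hθ, mul_pow] at h4
  exact mul_right_cancel₀ (pow_ne_zero 4 c.ctx.w_ne) (by rw [h4]; ring)

/-- every conjugate of `ϖ` is a `τ ^ m • ϖ` -/
theorem exists_pow (c : DC v ϖ I) {τ : D} (hτ : τ ∈ I) (h4 : (τ • ϖ) ^ 4 = -ϖ ^ 4) (g : D) :
    ∃ m < 8, g • ϖ = (τ ^ m) • ϖ := by
  obtain ⟨θ, h8, hθ⟩ := c.theta τ
  obtain ⟨η, h8', hη⟩ := c.theta g
  have hθ4 := c.theta4 h4 hθ
  have ho : orderOf θ = 2 ^ (2 + 1) := orderOf_eq_prime_pow (p := 2) (by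
    intro h
    rw [show 2 ^ 2 = 4 from rfl, hθ4] at h
    exact c.two_ne (by linear_combination -h)) (by simpa using h8)
  have hp := IsPrimitiveRoot.orderOf θ
  rw [ho] at hp
  obtain ⟨m, hm, e⟩ := hp.eq_pow_of_pow_eq_one (ξ := η) (by simpa using h8')
  exact ⟨m, by simpa using hm, by rw [c.pow_smul hτ h8 hθ, e, hη]⟩

theorem mem_SS (_ : DC v ϖ I) {a b : D} (ha : a ∈ I) (hb : b ∈ I) (h : a • ϖ = b • ϖ) :
    a⁻¹ * b ∈ SS I ϖ :=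
  ⟨I.mul_mem (I.inv_mem ha) hb, by
    show (a⁻¹ * b) • ϖ = ϖ
    rw [mul_smul, ← h, inv_smul_smul]⟩

/-- a Frobenius element fixing `ϖ` -/
theorem exists_fr (c : DC v ϖ I) {τ : D} (hτ : τ ∈ I) (h4 : (τ • ϖ) ^ 4 = -ϖ ^ 4) (F0 : D)
    (hF0 : ∀ x, v x ≤ 1 → v (F0 • x - x ^ 3) < 1) (hcomm : ∀ g, F0 * g * F0⁻¹ * g⁻¹ ∈ I) :
    ∃ Fr : D, Fr • ϖ = ϖ ∧ (∀ x, v x ≤ 1 → v (Fr • x - x ^ 3) < 1) ∧
      (∀ g, Fr * g * Fr⁻¹ * g⁻¹ ∈ I) ∧ (τ ^ 3)⁻¹ * (Fr * τ * Fr⁻¹) ∈ SS I ϖ := by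
  obtain ⟨m, -, hm⟩ := c.exists_pow hτ h4 F0
  have hi : (τ ^ m)⁻¹ ∈ I := I.inv_mem (I.pow_mem hτ m)
  have h1 : ((τ ^ m)⁻¹ * F0) • ϖ = ϖ := by rw [mul_smul, hm, inv_smul_smul]
  have h2 : ∀ x, v x ≤ 1 → v (((τ ^ m)⁻¹ * F0) • x - x ^ 3) < 1 := fun x hx => by
    have e : ((τ ^ m)⁻¹ * F0) • x - x ^ 3 =
        ((τ ^ m)⁻¹ • F0 • x - F0 • x) + (F0 • x - x ^ 3) := by rw [mul_smul]; ring
    rw [e]
    exact v.map_add_lt (c.inert hi (by rwa [c.inv])) (hF0 x hx)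
  refine ⟨_, h1, h2, fun g => ?_, ?_⟩
  · have e : (τ ^ m)⁻¹ * F0 * g * ((τ ^ m)⁻¹ * F0)⁻¹ * g⁻¹ =
        (τ ^ m)⁻¹ * (F0 * g * F0⁻¹ * g⁻¹) * (g * τ ^ m * g⁻¹) := by group
    rw [e]
    exact I.mul_mem (I.mul_mem hi (hcomm g)) (c.normal.conj_mem _ (I.pow_mem hτ m) g)
  · set Fr := (τ ^ m)⁻¹ * F0
    obtain ⟨θ, h8, hθ⟩ := c.theta τ
    have hv : v θ = 1 := v_root (by norm_num) h8
    have h0 : θ ≠ 0 := by rintro rfl; simp at h8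
    have h3 : Fr • θ = θ ^ 3 := by
      have := c.root8 (t := Fr • θ / θ ^ 3) (by
        rw [div_pow, ← smul_pow', h8, smul_one, ← pow_mul, mul_comm, pow_mul, h8]; simp) (by
        rw [div_sub_one (pow_ne_zero _ h0), map_div₀, map_pow, hv, one_pow, div_one]
        exact h2 θ hv.le)
      exact (div_eq_one_iff_eq (pow_ne_zero _ h0)).1 this
    refine c.mem_SS (I.pow_mem hτ 3) (c.normal.conj_mem _ hτ _) ?_
    have h5 : Fr⁻¹ • ϖ = ϖ := by rw [inv_smul_eq_iff, h1]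
    rw [c.pow_smul hτ h8 hθ, mul_smul, mul_smul, h5, hθ, smul_mul', h3, h1]

/-- if `I` is the full inertia group, Frobenius is central modulo `I` -/
theorem comm_of_inertia (c : DC v ϖ I)
    (hI : ∀ g : D, (∀ x, v x ≤ 1 → v (g • x - x) < 1) → g ∈ I) (F0 : D)
    (hF0 : ∀ x, v x ≤ 1 → v (F0 • x - x ^ 3) < 1) (g : D) : F0 * g * F0⁻¹ * g⁻¹ ∈ I := by
  refine hI _ fun x hx => ?_
  set y := F0⁻¹ • g⁻¹ • x with hy
  have hv : v y ≤ 1 := by rwa [hy, c.inv, c.inv]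
  have e : (F0 * g * F0⁻¹ * g⁻¹) • x - x =
      (F0 • g • y - (g • y) ^ 3) - g • (F0 • y - y ^ 3) := by
    rw [smul_sub, smul_pow', hy, smul_inv_smul, smul_inv_smul, mul_smul, mul_smul, mul_smul]; ring
  rw [e]
  exact v.map_sub_lt (hF0 _ (by rwa [c.inv])) (by rw [c.inv]; exact hF0 y hv)

/-- the additive character with values in the cube roots of unity -/
theorem exists_e (c : DC v ϖ I) : ∃ e : ZMod 3 → Ω, (∀ a b, e (a + b) = e a * e b) ∧ e 0 = 1 ∧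
    (∀ a, e a ^ 3 = 1) ∧ (∀ a, e a = 1 → a = 0) ∧ (∀ g : D, g • ϖ = ϖ → ∀ a, g • e a = e a) ∧
    ∀ g : D, (g • ϖ) ^ 4 = -ϖ ^ 4 → ∀ a, g • e a = e (-a) := by
  have h2 := c.two_ne
  set ζ : Ω := (-1 + ϖ ^ 4) / 2 with hζ
  have h8 : (ϖ ^ 4) ^ 2 = -3 := by rw [← pow_mul]; exact c.h8
  have q : ζ ^ 2 + ζ + 1 = 0 := by
    rw [hζ]; field_simp; linear_combination h8
  have h3 : ζ ^ 3 = 1 := by linear_combination (ζ - 1) * q
  have h1 : ζ ≠ 1 := fun h => c.ne (by rw [h] at q; linear_combination q)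
  have hg : ∀ g : D, g • ζ = (-1 + (g • ϖ) ^ 4) / 2 := fun g => by
    have : g • (2 : Ω) = 2 := by simpa using (Fx.nat 2 : Fx ⊤ ((2 : ℕ) : Ω)) g (Subgroup.mem_top g)
    rw [hζ, div_eq_mul_inv, smul_mul', smul_inv'', this, smul_add, smul_neg, smul_one, smul_pow',
      div_eq_mul_inv]
  let e := AddChar.zmodChar 3 h3
  have he : ∀ a, e a = ζ ^ a.val := fun a => AddChar.zmodChar_apply h3 a
  refine ⟨e, fun a b => e.map_add_eq_mul a b, e.map_zero_eq_one, fun a => ?_, fun a ha => ?_,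
    fun g hg' a => ?_, fun g hg' a => ?_⟩
  · rw [he, ← pow_mul, mul_comm, pow_mul, h3, one_pow]
  · have hp : IsPrimitiveRoot ζ 3 := by
      have : Fact (Nat.Prime 3) := ⟨Nat.prime_three⟩
      have := IsPrimitiveRoot.orderOf ζ
      rwa [orderOf_eq_prime h3 h1] at this
    rw [he, hp.pow_eq_one_iff_dvd] at ha
    exact (ZMod.val_eq_zero a).1 (Nat.eq_zero_of_dvd_of_lt ha (ZMod.val_lt a))
  · rw [he, smul_pow', hg, hg']
  · have : g • ζ = ζ ^ 2 := by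
      rw [hg, hg']
      have : ζ ^ 2 = -1 - ζ := by linear_combination q
      rw [this, hζ]; field_simp; ring
    have e2 : -a = a + a := by revert a; decide
    rw [e2, e.map_add_eq_mul, he, smul_pow', this, ← pow_mul, two_mul, pow_add]

end DC

end Crest.Agent.T15.L3
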