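import Crest.Agent.T15.Top_88
import Crest.Agent.T15.Val_15

/-!
# Row 15, block L: words (helper15)

`LGlue ⇐ LkStmt` (curve + link) and `SzStmt` (size certificate, from Q, H and `S0068`).
-/

set_option autoImplicit false

namespace Crest.Agent.T15.LDef

open Val

/-- the visible primes -/
def Vis (p : ℕ) : Prop := p.Prime ∧ p ≡ 1 [MOD 24] ∧ p ≡ 3 [MOD 17]

/-- the index model: `rep a` = coordinates of `a • P`; `Read w (rep a) ρ` reads `a` modulo the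
primes where `w` has odd valuation. -/
structure Model (V : Type) [AddCommGroup V] [Module ℚ V] (n : ℕ) where
  rep : ℤ → V
  inj : Function.Injective rep
  dPt : Dio fun v => ∃ a, rep a = v
  Add : V → V → V → Prop
  dA : Dio fun q : V × V × V => Add q.1 q.2.1 q.2.2
  add_iff : ∀ a b v, Add (rep a) (rep b) v ↔ v = rep (a + b)
  co : Fin n → V → ℚ
  pco : ∀ i, PolM (co i)
  C : ℝ
  ht : ∀ a : ℤ, (a : ℝ) ^ 2 ≤ C * (1 + ∑ i, Height.logHeight₁ (co i (rep a)))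
  Read : ℚ → V → ℚ → Prop
  dR : Dio fun q : ℚ × V × ℚ => Read q.1 q.2.1 q.2.2
  B0 : ℕ
  sound : ∀ w a ρ, Read w (rep a) ρ → ∀ p : ℕ, p.Prime → B0 < p → Odd (padicValRat p w) →
    Pz p (ρ - a)
  complete : ∀ p : ℕ, Vis p → B0 < p → ∀ a : ℤ, Read p (rep a) a

/-- curve + link (52, 47) -/
def LkStmt : Prop :=
  Top.QStmt → ∃ (V : Type) (_ : AddCommGroup V) (_ : Module ℚ V) (_ : Module.Finite ℚ V) (n : ℕ),
    Nonempty (Model V n)

/-- the size certificate -/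
def SzStmt : Prop :=
  ∃ (m : ℕ) (Sz : ℚ → (Fin m → ℚ) → Prop) (C : ℝ) (k : ℕ),
    (Dio fun q : ℚ × (Fin m → ℚ) => Sz q.1 q.2) ∧
    (∀ r w, Sz r w → ∀ S : Finset ℕ, (∀ p ∈ S, p.Prime) →
      (∀ p : ℕ, p.Prime → ∀ j, Odd (padicValRat p (w j)) → p ∈ S) →
      Height.logHeight₁ r ≤ C * (∏ p ∈ S, (p : ℝ)) ^ k) ∧
    ∀ (r : ℚ) (B : ℕ), ∃ w : Fin m → ℕ, (∀ j, Vis (w j) ∧ B < w j) ∧ Sz r fun j => w j

end Crest.Agent.T15.LDef
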