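import Crest.Agent.T15.LkA_47

/-!
# Row 15, block L (helper52): full `2`-descent on `y² = x³ - c² x`
-/

set_option autoImplicit false
set_option linter.unusedSectionVars false

noncomputable section

namespace Crest.Agent.T15.Mw

open WeierstrassCurve WeierstrassCurve.Affine Crest.Agent.T15.Lk

variable {K : Type*} [Field K] [DecidableEq K]

theorem sq_cancel {a b : K} (ha : a ≠ 0) (h : IsSquare a) (h' : IsSquare (a * b)) : IsSquare b := by
  have := h'.mul h.inv
  rwa [mul_comm a, mul_inv_cancel_right₀ ha] at this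

/-- `x - e`, corrected at `x = e` -/
def dv (n e x : K) : K := if x = e then 3 * e ^ 2 - n else x - e

/-- the descent map attached to the root `e` of `x³ - n x` -/
def dl {ι n : K} (e : K) : (E ι n).Point → K
  | .zero => 1
  | .some x _ _ => dv n e x

variable {ι n e : K}

@[simp] theorem dl_zero : dl e (0 : (E ι n).Point) = 1 := rfl

@[simp] theorem dl_some {x y : K} (h : (E ι n).Nonsingular x y) :
    dl e (.some x y h) = dv n e x := rfl

theorem dl_neg (P : (E ι n).Point) : dl e (-P) = dl e P := by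
  cases P <;> rfl

theorem der_ne (h2 : (2 : K) ≠ 0) (hn : n ≠ 0) (he : e ^ 3 = n * e) : 3 * e ^ 2 - n ≠ 0 := by
  intro h
  by_cases h0 : e = 0
  · apply hn
    rw [h0] at h
    linear_combination -h
  · have : e ^ 2 = n := mul_right_cancel₀ h0 (by linear_combination he)
    exact mul_ne_zero h2 hn (by linear_combination h - 3 * this)

theorem dv_ne (h2 : (2 : K) ≠ 0) (hn : n ≠ 0) (he : e ^ 3 = n * e) (x : K) : dv n e x ≠ 0 := by
  unfold dv
  split_ifs with h
  exacts [der_ne h2 hn he, sub_ne_zero.2 h]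

theorem dl_ne (h2 : (2 : K) ≠ 0) (hn : n ≠ 0) (he : e ^ 3 = n * e) (P : (E ι n).Point) :
    dl e P ≠ 0 := by
  cases P
  exacts [one_ne_zero, dv_ne h2 hn he _]

theorem dv_line (h2 : (2 : K) ≠ 0) (hn : n ≠ 0) (he : e ^ 3 = n * e) {x1 x2 x3 l m : K}
    (s2 : (x1 - e) * (x2 - e) + (x1 - e) * (x3 - e) + (x2 - e) * (x3 - e) =
      3 * e ^ 2 - n - 2 * l * m)
    (s3 : (x1 - e) * (x2 - e) * (x3 - e) = m ^ 2) :
    IsSquare (dv n e x1 * dv n e x2 * dv n e x3) := by
  have hd := der_ne h2 hn he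
  have key : ∀ {a b : K}, a * b = 3 * e ^ 2 - n → a ≠ 0 ∧ b ≠ 0 := fun h =>
    mul_ne_zero_iff.1 (h ▸ hd)
  by_cases h1 : x1 = e
  · have hm : m = 0 := pow_eq_zero_iff two_ne_zero |>.1 (by rw [← s3, h1]; ring)
    have h : (x2 - e) * (x3 - e) = 3 * e ^ 2 - n := by rw [h1, hm] at s2; linear_combination s2
    rw [dv, dv, dv, if_pos h1, if_neg (sub_ne_zero.1 (key h).1), if_neg (sub_ne_zero.1 (key h).2),
      mul_assoc, h]
    exact ⟨_, rfl⟩
  by_cases h2 : x2 = e
  · have hm : m = 0 := pow_eq_zero_iff two_ne_zero |>.1 (by rw [← s3, h2]; ring)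
    have h : (x1 - e) * (x3 - e) = 3 * e ^ 2 - n := by rw [h2, hm] at s2; linear_combination s2
    rw [dv, dv, dv, if_pos h2, if_neg h1, if_neg (sub_ne_zero.1 (key h).2), mul_right_comm, h]
    exact ⟨_, rfl⟩
  by_cases h3 : x3 = e
  · have hm : m = 0 := pow_eq_zero_iff two_ne_zero |>.1 (by rw [← s3, h3]; ring)
    have h : (x1 - e) * (x2 - e) = 3 * e ^ 2 - n := by rw [h3, hm] at s2; linear_combination s2
    rw [dv, dv, dv, if_pos h3, if_neg h1, if_neg h2, h]
    exact ⟨_, rfl⟩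
  rw [dv, dv, dv, if_neg h1, if_neg h2, if_neg h3, s3]
  exact ⟨m, sq m⟩

/-- the descent map is a homomorphism modulo squares -/
theorem dl_add (h2 : (2 : K) ≠ 0) (hn : n ≠ 0) (he : e ^ 3 = n * e) (P Q : (E ι n).Point) :
    IsSquare (dl e P * dl e Q * dl e (P + Q)) := by
  rcases P with _ | ⟨x1, y1, h1⟩
  · exact ⟨dl e Q, by rw [← Point.zero_def, zero_add, dl_zero, one_mul]⟩
  rcases Q with _ | ⟨x2, y2, h2'⟩
  · exact ⟨_, by rw [← Point.zero_def, add_zero, dl_zero, mul_one]⟩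
  by_cases hxy : x1 = x2 ∧ y1 = (E ι n).negY x2 y2
  · rw [Point.add_of_Y_eq hxy.1 hxy.2, dl_zero, mul_one, dl_some, dl_some, hxy.1]
    exact ⟨_, rfl⟩
  rw [Point.add_some hxy, dl_some, dl_some, dl_some]
  have h := addPolynomial_slope h1.1 h2'.1 hxy
  rw [addPolynomial_eq, neg_inj, Cubic.prod_X_sub_C_eq, Cubic.toPoly_injective] at h
  set l := (E ι n).slope x1 x2 y1 y2
  set x3 := (E ι n).addX x1 x2 l
  simp only [E_a₁, E_a₂, E_a₃, E_a₄, E_a₆, Cubic.mk.injEq, true_and] at h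
  obtain ⟨a1, a2, a3⟩ := h
  exact dv_line h2 hn he (l := l) (m := l * (e - x1) + y1)
    (by linear_combination -a2 - 2 * e * a1) (by linear_combination a3 + e * a2 + e ^ 2 * a1 - he)

theorem dl_two (h2 : (2 : K) ≠ 0) (hn : n ≠ 0) (he : e ^ 3 = n * e) (P : (E ι n).Point) :
    IsSquare (dl e (2 • P)) := by
  rw [two_nsmul]
  exact sq_cancel (mul_ne_zero (dl_ne h2 hn he P) (dl_ne h2 hn he P)) ⟨_, rfl⟩ (dl_add h2 hn he P P)

theorem dl_sq_add (h2 : (2 : K) ≠ 0) (hn : n ≠ 0) (he : e ^ 3 = n * e) {P Q : (E ι n).Point}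
    (h : IsSquare (dl e P * dl e Q)) : IsSquare (dl e (P + Q)) :=
  sq_cancel (mul_ne_zero (dl_ne h2 hn he P) (dl_ne h2 hn he Q)) h (dl_add h2 hn he P Q)

/-- classes multiply -/
theorem dl_cls (h2 : (2 : K) ≠ 0) (hn : n ≠ 0) (he : e ^ 3 = n * e) {P Q : (E ι n).Point}
    {a b : K} (ha : IsSquare (dl e P * a)) (hb : IsSquare (dl e Q * b)) :
    IsSquare (dl e (P + Q) * (a * b)) := by
  have h0 := mul_ne_zero (dl_ne h2 hn he P) (dl_ne h2 hn he Q)
  refine sq_cancel (mul_ne_zero h0 h0) ⟨_, rfl⟩ ?_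
  obtain ⟨r, hr⟩ := (dl_add h2 hn he P Q).mul (ha.mul hb)
  exact ⟨r, by rw [← hr]; ring⟩

variable {c : K}

/-- halving -/
theorem halve (h2 : (2 : K) ≠ 0) (hc : c ≠ 0) (hn : n = c ^ 2) {x y : K}
    (h : (E ι n).Nonsingular x y) (s1 : IsSquare x) (s2 : IsSquare (x - c))
    (s3 : IsSquare (x + c)) : ∃ Q : (E ι n).Point, .some x y h = 2 • Q := by
  obtain ⟨r1, s1⟩ := s1
  obtain ⟨r2, s2⟩ := s2
  obtain ⟨r3, s3⟩ := s3
  have hn0 : n ≠ 0 := hn ▸ pow_ne_zero 2 hc
  have a12 : r1 + r2 ≠ 0 := fun e => hc (by linear_combination s1 - s2 + (r1 - r2) * e)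
  have a13 : r1 + r3 ≠ 0 := fun e => hc (by linear_combination s3 - s1 + (r3 - r1) * e)
  have a23 : r2 + r3 ≠ 0 := fun e =>
    mul_ne_zero h2 hc (by linear_combination s3 - s2 + (r3 - r2) * e)
  set X := x + (r1 * r2 + r1 * r3 + r2 * r3) with hX
  set Y := (r1 + r2) * (r1 + r3) * (r2 + r3) with hY
  have b1 : X = (r1 + r2) * (r1 + r3) := by linear_combination hX + s1
  have b2 : X - c = (r1 + r2) * (r2 + r3) := by linear_combination hX + s2
  have b3 : X + c = (r1 + r3) * (r2 + r3) := by linear_combination hX + s3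
  have hY0 : Y ≠ 0 := mul_ne_zero (mul_ne_zero a12 a13) a23
  have hQ : (E ι n).Nonsingular X Y := (E_nonsingular h2 hn0).2 (by
    rw [show X ^ 3 - n * X = X * (X - c) * (X + c) by rw [hn]; ring, b2, b3, b1, hY]; ring)
  have hne : Y ≠ (E ι n).negY X Y := by
    rw [E_negY]
    exact fun e => mul_ne_zero h2 hY0 (by linear_combination e)
  have hl : (E ι n).slope X X Y Y = r1 + r2 + r3 := by
    rw [slope_of_Y_ne rfl hne, E_negY, E_a₁, E_a₂, E_a₄, div_eq_iff (by
      rw [sub_neg_eq_add, ← two_mul]; exact mul_ne_zero h2 hY0)]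
    rw [show 3 * X ^ 2 + 2 * 0 * X + -n - 0 * Y = X * (X - c) + X * (X + c) + (X - c) * (X + c) by
      rw [hn]; ring, b2, b3, b1, hY]
    ring
  have hx : x = (E ι n).addX X X ((E ι n).slope X X Y Y) := by
    rw [hl, addX, E_a₁, E_a₂, hX]
    linear_combination s1 + s2 + s3
  have h2Q := Point.add_self_of_Y_ne (h₁ := hQ) hne
  rw [← two_nsmul] at h2Q
  rcases (Point.X_eq_iff (h₁ := h) (h₂ := nonsingular_add hQ hQ fun hxy => hne hxy.right)).1 hx
    with e | e
  · exact ⟨_, e.trans h2Q.symm⟩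
  · exact ⟨-_, by rw [e, ← h2Q, neg_nsmul]⟩

theorem exists_half (h2 : (2 : K) ≠ 0) (hc : c ≠ 0) (hn : n = c ^ 2) {P : (E ι n).Point}
    (s1 : IsSquare (dl 0 P)) (s2 : IsSquare (dl c P)) : ∃ Q, P = 2 • Q := by
  rcases P with _ | ⟨x, y, h⟩
  · exact ⟨0, by rw [nsmul_zero]; rfl⟩
  have hy := E_equation.1 h.1
  rw [dl_some, dv] at s1 s2
  by_cases h0 : x = 0
  · rw [if_pos h0] at s1
    rw [if_neg (h0 ▸ hc.symm)] at s2
    refine halve h2 hc hn h (h0 ▸ IsSquare.zero) s2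
      (sq_cancel (sub_ne_zero.2 (h0 ▸ hc.symm)) s2 ?_)
    convert s1 using 1
    rw [hn, h0]; ring
  rw [if_neg h0, sub_zero] at s1
  by_cases h1 : x = c
  · rw [if_pos h1] at s2
    refine halve h2 hc hn h s1 (by rw [h1, sub_self]; exact IsSquare.zero) (sq_cancel h0 s1 ?_)
    convert s2 using 1
    rw [hn, h1]; ring
  rw [if_neg h1] at s2
  refine halve h2 hc hn h s1 s2 (sq_cancel (mul_ne_zero h0 (sub_ne_zero.2 h1)) (s1.mul s2) ⟨y, ?_⟩)
  rw [hn] at hy
  linear_combination -hy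

/-- two points with the same descent classes differ by a double -/
theorem exists_eq_add (h2 : (2 : K) ≠ 0) (hc : c ≠ 0) (hn : n = c ^ 2) {P R : (E ι n).Point}
    (s1 : IsSquare (dl 0 P * dl 0 R)) (s2 : IsSquare (dl c P * dl c R)) :
    ∃ Q, P = R + 2 • Q := by
  have hn0 : n ≠ 0 := hn ▸ pow_ne_zero 2 hc
  obtain ⟨Q, hQ⟩ := exists_half h2 hc hn (P := P + -R)
    (dl_sq_add h2 hn0 (by simp) (by rwa [dl_neg]))
    (dl_sq_add h2 hn0 (by rw [hn]; ring) (by rwa [dl_neg]))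
  exact ⟨Q, by rw [← hQ]; abel⟩

/-- a criterion for infinite order -/
theorem not_isOfFinAddOrder (h2 : (2 : K) ≠ 0) (hc : c ≠ 0) (hn : n = c ^ 2)
    (m1 : ¬IsSquare (-1 : K)) (m2 : ¬IsSquare c) (m3 : ¬IsSquare (-c)) {P : (E ι n).Point}
    (s1 : IsSquare (dl 0 P)) (s2 : ¬IsSquare (dl c P)) : ¬IsOfFinAddOrder P := by
  have hn0 : n ≠ 0 := hn ▸ pow_ne_zero 2 hc
  have k1 : ∀ R : (E ι n).Point, 2 • R = 0 → IsSquare (dl 0 R) → R = 0 := by
    rintro (_ | ⟨x, y, h⟩) e s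
    · rfl
    exfalso
    have hy : y = 0 := by
      by_contra hy
      have hne : y ≠ (E ι n).negY x y := by
        rw [E_negY]
        exact fun e => mul_ne_zero h2 hy (by linear_combination e)
      rw [two_nsmul, Point.add_self_of_Y_ne hne] at e
      exact Point.some_ne_zero _ e
    have hx : x * (x - c) * (x + c) = 0 := by
      have := E_equation.1 h.1
      rw [hy, hn] at this
      linear_combination -this
    rw [dl_some, dv] at s
    split_ifs at s with h0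
    · refine m1 (sq_cancel (pow_ne_zero 2 hc) ⟨c, sq c⟩ ?_)
      convert s using 1
      rw [hn]; ring
    · rw [sub_zero] at s
      rcases mul_eq_zero.1 hx with e | e
      · exact m2 (sub_eq_zero.1 ((mul_eq_zero.1 e).resolve_left h0) ▸ s)
      · exact m3 (eq_neg_of_add_eq_zero_left e ▸ s)
  have k2 : ∀ m : ℕ, IsSquare (dl 0 (m • P)) := fun m => by
    induction m with
    | zero => simp
    | succ m ih => rw [succ_nsmul]; exact dl_sq_add h2 hn0 (by simp) (ih.mul s1)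
  rw [isOfFinAddOrder_iff_nsmul_eq_zero]
  rintro ⟨m, hm, e⟩
  induction m using Nat.strong_induction_on with
  | _ m ih =>
    obtain ⟨k, rfl | rfl⟩ := Nat.even_or_odd' m
    · exact ih k (by omega) (by omega) (k1 _ (by rw [smul_smul, e]) (k2 k))
    · rw [succ_nsmul, ← smul_smul] at e
      rw [eq_neg_of_add_eq_zero_right e, dl_neg] at s2
      exact s2 (dl_two h2 hn0 (by rw [hn]; ring) _)

end Crest.Agent.T15.Mw

end
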