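import Mathlib

/-!
# Row 15, block L (helper52): arithmetic of `ℤ[√-2]` for the descent on `y² = x³ - (3+2√-2)² x`
-/

set_option autoImplicit false

noncomputable section

namespace Crest.Agent.T15.Mw

/-! ### descent over a principal ideal domain -/

section pid
variable {R : Type*} [CommRing R] [IsDomain R] [IsPrincipalIdealRing R]

theorem exists_sqf {a : R} (ha : a ≠ 0) : ∃ r d, a = r ^ 2 * d ∧ Squarefree d := by
  induction a using (wellFounded_dvdNotUnit (α := R)).induction with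
  | _ a ih =>
    by_cases h : Squarefree a
    · exact ⟨1, a, by simp, h⟩
    · simp only [Squarefree, not_forall] at h
      obtain ⟨x, ⟨b, rfl⟩, hx⟩ := h
      have hb := right_ne_zero_of_mul ha
      obtain ⟨r, d, rfl, hd⟩ := ih b ⟨hb, x * x, fun h => hx (isUnit_of_mul_isUnit_left h),
        mul_comm _ _⟩ hb
      exact ⟨x * r, d, by ring, hd⟩

theorem exists_sqf_mul {a b s w : R} (ha : a ≠ 0) (hw : w ≠ 0) (h : a * b * w ^ 2 = s ^ 2) :
    ∃ r t d, Squarefree d ∧ a = d * r ^ 2 ∧ b = d * t ^ 2 := by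
  obtain ⟨r, d, rfl, hd⟩ := exists_sqf ha
  have hr : r ≠ 0 := fun e => ha (by simp [e])
  obtain ⟨u, rfl⟩ : r * w ∣ s :=
    (IsIntegrallyClosed.pow_dvd_pow_iff two_ne_zero).1 ⟨d * b, by linear_combination -h⟩
  have h1 : d * b = u ^ 2 :=
    mul_left_cancel₀ (pow_ne_zero 2 (mul_ne_zero hr hw)) (by linear_combination h)
  obtain ⟨t, rfl⟩ : d ∣ u := (hd.dvd_pow_iff_dvd two_ne_zero).1 ⟨b, h1.symm⟩
  exact ⟨r, t, d, hd, mul_comm _ _, mul_left_cancel₀ hd.ne_zero (by linear_combination h1)⟩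

variable {K : Type*} [Field K] [Algebra R K] [IsFractionRing R K]

theorem exists_frac (x : K) :
    ∃ p q : R, q ≠ 0 ∧ IsCoprime p q ∧ x * algebraMap R K q = algebraMap R K p := by
  obtain ⟨a, b, h, rfl⟩ := IsFractionRing.exists_reduced_fraction R x
  exact ⟨a, b, nonZeroDivisors.coe_ne_zero b, h.isCoprime, IsLocalization.mk'_spec K a b⟩

theorem exists_sqf_mul' {a b : R} {z : K} (ha : a ≠ 0) (h : algebraMap R K (a * b) = z ^ 2) :
    ∃ r t d, Squarefree d ∧ a = d * r ^ 2 ∧ b = d * t ^ 2 := by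
  obtain ⟨s, w, hw, -, e⟩ := exists_frac (R := R) z
  refine exists_sqf_mul (s := s) ha hw (IsFractionRing.injective R K ?_)
  rw [map_mul, h, map_pow, map_pow, ← e, mul_pow]

/-- first descent: the class of `x` is a divisor of `c` -/
theorem desc1 {c : R} {x y : K} (hx : x ≠ 0) (h : y ^ 2 = x ^ 3 - algebraMap R K c ^ 2 * x) :
    ∃ d, d ∣ c ∧ IsSquare (x * algebraMap R K d) := by
  obtain ⟨p, q, hq, hpq, e⟩ := exists_frac (R := R) x
  have hq' : algebraMap R K q ≠ 0 := (map_ne_zero_iff _ (IsFractionRing.injective R K)).2 hq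
  have hp : p ≠ 0 := fun h0 => mul_ne_zero hx hq' (by rw [e, h0, map_zero])
  obtain ⟨r, t, d, hd, h1, h2⟩ := exists_sqf_mul' (b := p ^ 2 - c ^ 2 * q ^ 2)
    (z := y * algebraMap R K q ^ 2) (mul_ne_zero hp hq) (by
      simp only [map_mul, map_sub, map_pow, ← e]
      linear_combination -algebraMap R K q ^ 4 * h)
  refine ⟨d, (hd.dvd_pow_iff_dvd two_ne_zero).1 ?_, algebraMap R K (d * r) / algebraMap R K q, ?_⟩
  · obtain ⟨α, β, h3⟩ := hpq.pow (m := 3) (n := 3)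
    exact ⟨c ^ 2 * α * (p * t ^ 2 + c ^ 2 * q * r ^ 2) + β * (p * r ^ 2 - q * t ^ 2), by
      linear_combination -c ^ 2 * h3 + c ^ 2 * α * (p * h2 + c ^ 2 * q * h1) + β * (p * h1 - q * h2)⟩
  · have := congrArg (algebraMap R K) h1
    simp only [map_mul, map_pow, ← e] at this
    rw [div_mul_div_comm, eq_div_iff (mul_ne_zero hq' hq'), map_mul]
    linear_combination algebraMap R K d * this

/-- second descent -/
theorem desc2 {c ρ : R} (hρ : ρ ^ 2 = -2) {x y : K} (hx : x ≠ 0) (hc : x ≠ algebraMap R K c)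
    (h : y ^ 2 = x ^ 3 - algebraMap R K c ^ 2 * x) (hs : IsSquare x) :
    ∃ a e r t d : R, d ∣ ρ * c ∧ IsCoprime a e ∧ a ^ 2 - c * e ^ 2 = d * r ^ 2 ∧
      a ^ 2 + c * e ^ 2 = d * t ^ 2 ∧ IsSquare ((x - algebraMap R K c) * algebraMap R K d) := by
  obtain ⟨u, rfl⟩ := hs
  have hu : u ≠ 0 := left_ne_zero_of_mul hx
  obtain ⟨p, q, hq, hpq, e⟩ := exists_frac (R := R) u
  have hq' : algebraMap R K q ≠ 0 := (map_ne_zero_iff _ (IsFractionRing.injective R K)).2 hq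
  have h0 : p ^ 2 - c * q ^ 2 ≠ 0 := fun h0 => by
    have := congrArg (algebraMap R K) h0
    simp only [map_mul, map_sub, map_pow, ← e, map_zero] at this
    exact mul_ne_zero (sub_ne_zero.2 hc) (pow_ne_zero 2 hq') (by linear_combination this)
  obtain ⟨r, t, d, hd, h1, h2⟩ := exists_sqf_mul' (b := p ^ 2 + c * q ^ 2)
    (z := y * algebraMap R K q ^ 2 / u) h0 (by
      simp only [map_mul, map_sub, map_add, map_pow, ← e]
      rw [div_pow, eq_div_iff (pow_ne_zero 2 hu)]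
      linear_combination -algebraMap R K q ^ 4 * h)
  refine ⟨p, q, r, t, d, (hd.dvd_pow_iff_dvd two_ne_zero).1 ?_, hpq, h1, h2,
    algebraMap R K (d * r) / algebraMap R K q, ?_⟩
  · obtain ⟨α, β, h3⟩ := hpq.pow (m := 2) (n := 2)
    exact ⟨-c * (α * c * (r ^ 2 + t ^ 2) + β * (t ^ 2 - r ^ 2)), by
      linear_combination c ^ 2 * hρ + 2 * c ^ 2 * h3 - c * (α * c * (h1 + h2) + β * (h2 - h1))⟩
  · have := congrArg (algebraMap R K) h1
    simp only [map_mul, map_sub, map_pow, ← e] at this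
    rw [div_mul_div_comm, eq_div_iff (mul_ne_zero hq' hq'), map_mul]
    linear_combination algebraMap R K d * this

end pid

/-! ### the ring `ℤ[√-2]` -/

/-- `ℤ[√-2]` -/
abbrev R2 : Type := ℤ√(-2)

instance : Nontrivial R2 := ⟨⟨0, 1, by decide⟩⟩

instance : NoZeroDivisors R2 := ⟨fun {a b} h => by
  have := congrArg Zsqrtd.norm h
  rwa [Zsqrtd.norm_mul, Zsqrtd.norm_zero, mul_eq_zero, Zsqrtd.norm_eq_zero_iff (by norm_num),
    Zsqrtd.norm_eq_zero_iff (by norm_num)] at this⟩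

instance : IsDomain R2 := NoZeroDivisors.to_isDomain _

theorem R2_norm_pos {a : R2} (ha : a ≠ 0) : 0 < a.norm :=
  (Zsqrtd.norm_nonneg (by norm_num) a).lt_of_ne fun e =>
    ha ((Zsqrtd.norm_eq_zero_iff (by norm_num) a).1 e.symm)

theorem exists_near (a N : ℤ) (hN : 0 < N) : ∃ q : ℤ, 4 * (a - N * q) ^ 2 ≤ N ^ 2 := by
  have h1 := Int.emod_nonneg (2 * a + N) (by omega : 2 * N ≠ 0)
  have h2 := Int.emod_lt_of_pos (2 * a + N) (by omega : 0 < 2 * N)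
  have h3 := Int.emod_add_mul_ediv (2 * a + N) (2 * N)
  refine ⟨(2 * a + N) / (2 * N), ?_⟩
  nlinarith

theorem R2_div (a : R2) {b : R2} (hb : b ≠ 0) : ∃ q, (a - b * q).norm < b.norm := by
  have hN := R2_norm_pos hb
  obtain ⟨q1, h1⟩ := exists_near (a * star b).re b.norm hN
  obtain ⟨q2, h2⟩ := exists_near (a * star b).im b.norm hN
  refine ⟨⟨q1, q2⟩, lt_of_mul_lt_mul_right (a := b.norm) ?_ hN.le⟩
  have : (a - b * ⟨q1, q2⟩).norm * b.norm =
      ((a * star b).re - b.norm * q1) ^ 2 + 2 * ((a * star b).im - b.norm * q2) ^ 2 := by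
    simp only [Zsqrtd.norm_def, Zsqrtd.re_sub, Zsqrtd.im_sub, Zsqrtd.re_mul, Zsqrtd.im_mul,
      Zsqrtd.re_star, Zsqrtd.im_star]
    ring
  rw [this]
  nlinarith

instance : IsPrincipalIdealRing R2 := ⟨fun I => by
  by_cases h : ∃ b ∈ I, b ≠ 0
  · obtain ⟨b, ⟨hb, hb0⟩, hmin⟩ := (measure fun z : R2 => z.norm.natAbs).wf.has_min
      {b | b ∈ I ∧ b ≠ 0} h
    refine ⟨b, le_antisymm (fun a ha => ?_) (by simpa using hb)⟩
    obtain ⟨q, hq⟩ := R2_div a hb0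
    refine Ideal.mem_span_singleton'.2 ⟨q, by_contra fun hne => ?_⟩
    have h0 : a - b * q ≠ 0 := fun e => hne (by linear_combination -e)
    refine hmin _ ⟨I.sub_mem ha (I.mul_mem_right _ hb), h0⟩ ?_
    have := R2_norm_pos h0
    show (a - b * q).norm.natAbs < b.norm.natAbs
    omega
  · exact ⟨0, le_antisymm (fun a ha => by_contra fun hne => h ⟨a, ha, fun e => hne (by simp [e])⟩)
      (by simp)⟩⟩

theorem R2_unit {u : R2} (h : IsUnit u) : u = 1 ∨ u = -1 := by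
  have := (Zsqrtd.norm_eq_one_iff' (by norm_num) u).2 h
  rw [Zsqrtd.norm_def] at this
  have h1 : u.im = 0 := by nlinarith [mul_self_nonneg u.re, mul_self_nonneg u.im]
  rw [h1] at this
  rcases Int.eq_one_or_neg_one_of_mul_eq_one (show u.re * u.re = 1 by linarith) with e | e
  · left; ext <;> simp [*]
  · right; ext <;> simp [*]

theorem R2_dvd {d π : R2} (hπ : Prime π.norm) (h : d ∣ π) : d = 1 ∨ d = -1 ∨ d = π ∨ d = -π := by
  obtain ⟨e, rfl⟩ := h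
  rw [Zsqrtd.norm_mul] at hπ
  rcases hπ.irreducible.isUnit_or_isUnit rfl with h | h
  · rcases R2_unit (Zsqrtd.isUnit_iff_norm_isUnit _ |>.2 h) with h | h <;> simp [h]
  · rcases R2_unit (Zsqrtd.isUnit_iff_norm_isUnit _ |>.2 h) with h | h <;> simp [h]

/-- `√-2` -/
def ρ2 : R2 := ⟨0, 1⟩

/-- `3 + 2 √-2` -/
def c2 : R2 := ⟨3, 2⟩

theorem ρ2_sq : ρ2 ^ 2 = -2 := by decide

theorem dvd_c2 {d : R2} (h : d ∣ c2) : d = 1 ∨ d = -1 ∨ d = c2 ∨ d = -c2 :=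
  R2_dvd (Int.prime_iff_natAbs_prime.2 (show Nat.Prime 17 by norm_num)) h

theorem dvd_ρ2 {d : R2} (h : d ∣ ρ2) : d = 1 ∨ d = -1 ∨ d = ρ2 ∨ d = -ρ2 :=
  R2_dvd (Int.prime_iff_natAbs_prime.2 Nat.prime_two) h

/-- `ℤ[√-2] / 8` -/
abbrev S8 : Type := QuadraticAlgebra (ZMod 8) (-2) 0

/-- the squares modulo `8` -/
def SQ : List S8 := [⟨0, 0⟩, ⟨1, 0⟩, ⟨1, 4⟩, ⟨2, 4⟩, ⟨4, 0⟩, ⟨6, 0⟩, ⟨7, 2⟩, ⟨7, 6⟩]

theorem mem_SQ (z : S8) : z ^ 2 ∈ SQ := by
  have : ∀ x y : ZMod 8, (⟨x, y⟩ : S8) * ⟨x, y⟩ ∈ SQ := by decide +kernel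
  rw [sq]
  exact this z.re z.im

theorem mod8 : ∀ d ∈ ([⟨7, 0⟩, ⟨5, 6⟩, ⟨0, 1⟩, ⟨0, 7⟩, ⟨4, 3⟩, ⟨4, 5⟩] : List S8), ∀ A ∈ SQ,
    ∀ E ∈ SQ, ((⟨0, 4⟩ : S8) * A = 0 ∧ (⟨0, 4⟩ : S8) * E = 0) ∨
      (∀ R ∈ SQ, A - ⟨3, 2⟩ * E ≠ d * R) ∨ ∀ T ∈ SQ, A + ⟨3, 2⟩ * E ≠ d * T := by
  decide +kernel

/-- reduction modulo `8` -/
def red8 : R2 →+* S8 := Zsqrtd.lift ⟨⟨0, 1⟩, by decide⟩

theorem local2 {a e r t d : R2} (hd : d ∣ ρ2 * c2) (hc : IsCoprime a e)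
    (h1 : a ^ 2 - c2 * e ^ 2 = d * r ^ 2) (h2 : a ^ 2 + c2 * e ^ 2 = d * t ^ 2) :
    d = 1 ∨ d = c2 := by
  by_contra hne
  have hm : red8 d ∈ ([⟨7, 0⟩, ⟨5, 6⟩, ⟨0, 1⟩, ⟨0, 7⟩, ⟨4, 3⟩, ⟨4, 5⟩] : List S8) := by
    obtain ⟨d1, d2, k1, k2, rfl⟩ := exists_dvd_and_dvd_of_dvd_mul hd
    rcases dvd_ρ2 k1 with rfl | rfl | rfl | rfl <;> rcases dvd_c2 k2 with rfl | rfl | rfl | rfl <;>
      first | exact absurd (by decide) hne | decide +kernel
  have hc2 : red8 c2 = ⟨3, 2⟩ := by decide +kernel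
  have e1 := congrArg red8 h1
  have e2 := congrArg red8 h2
  simp only [map_sub, map_add, map_mul, map_pow, hc2] at e1 e2
  rcases mod8 _ hm _ (mem_SQ (red8 a)) _ (mem_SQ (red8 e)) with h | h | h
  · obtain ⟨α, β, h3⟩ := (hc.map red8).pow (m := 2) (n := 2)
    have : (⟨0, 4⟩ : S8) = 0 := by linear_combination -(⟨0, 4⟩ : S8) * h3 + α * h.1 + β * h.2
    exact absurd this (by decide)
  · exact h _ (mem_SQ _) e1
  · exact h _ (mem_SQ _) e2

end Crest.Agent.T15.Mw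

end
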