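import Crest.Agent.T15.MwA_52
import Crest.Agent.T15.MwB_52
import Crest.Agent.T15.MwC_52

/-!
# Row 15, block L (helper52): `y² = x³ - (3+2√-2)² x` has rank one over `ℚ(√-2)`
-/

set_option autoImplicit false
set_option linter.unusedSectionVars false

noncomputable section

namespace Crest.Agent.T15.Mw

open Height WeierstrassCurve WeierstrassCurve.Affine Crest.Agent.T15.Lk Crest.Agent.R023.NT889

section desc
variable {K : Type} [Field K] [Algebra R2 K] [IsFractionRing R2 K]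

theorem sq_of_sq {a : R2} (h : IsSquare (algebraMap R2 K a)) : IsSquare a := by
  obtain ⟨z, hz⟩ := h
  obtain ⟨s, w, hw, -, e⟩ := exists_frac (R := R2) z
  have h1 : a * w ^ 2 = s ^ 2 := IsFractionRing.injective R2 K (by
    rw [map_mul, hz, map_pow, map_pow, ← e]; ring)
  obtain ⟨u, rfl⟩ : w ∣ s :=
    (IsIntegrallyClosed.pow_dvd_pow_iff two_ne_zero).1 ⟨a, by linear_combination -h1⟩
  exact ⟨u, mul_right_cancel₀ (pow_ne_zero 2 hw) (by linear_combination h1)⟩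

theorem nsq_of_norm {a : R2} (h : a.norm = 17) : ¬IsSquare (algebraMap R2 K a) := fun hs => by
  obtain ⟨u, rfl⟩ := sq_of_sq hs
  rw [Zsqrtd.norm_mul] at h
  have h0 := Zsqrtd.norm_nonneg (by norm_num) u
  have : u.norm ≤ 4 ∨ 5 ≤ u.norm := by omega
  rcases this with h1 | h1 <;> nlinarith

theorem nsq_neg_one : ¬IsSquare (-1 : K) := fun hs => by
  obtain ⟨u, hu⟩ := sq_of_sq (K := K) (a := -1) (by simpa using hs)
  rcases R2_unit (u := u) (isUnit_of_mul_isUnit_left (hu ▸ isUnit_one.neg)) with rfl | rfl <;>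
    exact absurd hu (by decide)

variable [DecidableEq K]

theorem descent (ι : K) {c : K} (hc : c = algebraMap R2 K c2) :
    ∃ (S : Set (E ι (c ^ 2)).Point) (P0 : (E ι (c ^ 2)).Point), S.Finite ∧
      (∀ T ∈ S, IsOfFinAddOrder T) ∧ ¬IsOfFinAddOrder P0 ∧
      ∀ P, ∃ T ∈ S, ∃ Q, P = T + 2 • Q ∨ P = T + P0 + 2 • Q := by
  have hi : ∀ a : R2, a ≠ 0 → algebraMap R2 K a ≠ 0 := fun a =>
    (map_ne_zero_iff _ (IsFractionRing.injective R2 K)).2
  have h2 : (2 : K) ≠ 0 := by rw [← map_ofNat (algebraMap R2 K)]; exact hi 2 (by decide)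
  have hc0 : c ≠ 0 := hc ▸ hi _ (by decide)
  have hn : c ^ 2 ≠ 0 := pow_ne_zero 2 hc0
  have m1 := nsq_neg_one (K := K)
  have m2 : ¬IsSquare c := hc ▸ nsq_of_norm (by decide)
  have m3 : ¬IsSquare (-c) := by rw [hc, ← map_neg]; exact nsq_of_norm (by decide)
  have e0 : (0 : K) ^ 3 = c ^ 2 * 0 := by simp
  have ec : c ^ 3 = c ^ 2 * c := by ring
  have t0 : (E ι (c ^ 2)).Nonsingular 0 0 := (E_nonsingular h2 hn).2 (by ring)
  have t1 : (E ι (c ^ 2)).Nonsingular c 0 := (E_nonsingular h2 hn).2 (by ring)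
  have t2 : (E ι (c ^ 2)).Nonsingular (-c) 0 := (E_nonsingular h2 hn).2 (by ring)
  set r := algebraMap R2 K ρ2 with hr
  have hr2 : r ^ 2 = -2 := by rw [hr, ← map_pow, ρ2_sq, map_neg, map_ofNat]
  have hcr : c = 3 + 2 * r := by
    rw [hc, show c2 = 3 + 2 * ρ2 by decide, map_add, map_mul, map_ofNat, map_ofNat]
  have hu : 1 + r ≠ 0 := by simpa using hi (1 + ρ2) (by decide)
  have x1 : (c / (1 + r)) ^ 2 - c = c * (2 / (1 + r)) ^ 2 := by
    field_simp
    linear_combination hcr - hr2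
  have x2 : (c / (1 + r)) ^ 2 + c = c * ((2 + r) / (1 + r)) ^ 2 := by
    field_simp
    linear_combination hcr
  have p0 : (E ι (c ^ 2)).Nonsingular ((c / (1 + r)) ^ 2)
      (c / (1 + r) * c * (2 / (1 + r)) * ((2 + r) / (1 + r))) := (E_nonsingular h2 hn).2 (by
    rw [show ∀ x : K, x ^ 3 - c ^ 2 * x = x * (x - c) * (x + c) from fun x => by ring, x1, x2]
    ring)
  have q0 : IsSquare (dl 0 (Point.some _ _ p0)) := by
    rw [dl_some, dv, if_neg (pow_ne_zero 2 (div_ne_zero hc0 hu)), sub_zero]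
    exact ⟨_, sq _⟩
  have q1 : IsSquare (dl c (Point.some _ _ p0) * c) := by
    rw [dl_some, dv, if_neg (sub_ne_zero.1 (x1 ▸ mul_ne_zero hc0
      (pow_ne_zero 2 (div_ne_zero h2 hu)))), x1]
    exact ⟨c * (2 / (1 + r)), by ring⟩
  refine ⟨{0, .some _ _ t0, .some _ _ t1, .some _ _ t2}, .some _ _ p0, Set.toFinite _, ?_,
    not_isOfFinAddOrder h2 hc0 rfl m1 m2 m3 q0
      fun h => m2 (sq_cancel (dl_ne h2 hn ec _) h q1), fun P => ?_⟩
  · have : ∀ x (h : (E ι (c ^ 2)).Nonsingular x 0), IsOfFinAddOrder (Point.some _ _ h) :=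
      fun x h => isOfFinAddOrder_iff_nsmul_eq_zero.2 ⟨2, two_pos, by
        rw [two_nsmul, Point.add_of_Y_eq rfl (by simp)]⟩
    rintro T (rfl | rfl | rfl | rfl)
    exacts [IsOfFinAddOrder.zero, this _ _, this _ _, this _ _]
  have A : ∃ T ∈ ({0, .some _ _ t0, .some _ _ t1, .some _ _ t2} : Set (E ι (c ^ 2)).Point),
      IsSquare (dl 0 P * dl 0 T) := by
    rcases P with _ | ⟨x, y, h⟩
    · exact ⟨0, by simp, _, rfl⟩
    by_cases hx : x = 0
    · exact ⟨.some _ _ t0, by simp, dv _ 0 0, by rw [dl_some, dl_some, hx]⟩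
    obtain ⟨d, hd, hs⟩ := desc1 (c := c2) hx (hc ▸ E_equation.1 h.1)
    rw [dl_some, dv, if_neg hx, sub_zero]
    rcases dvd_c2 hd with rfl | rfl | rfl | rfl
    · exact ⟨0, by simp, by simpa using hs⟩
    · refine ⟨.some _ _ t0, by simp, ?_⟩
      obtain ⟨s, hs⟩ := hs
      rw [map_neg, map_one] at hs
      exact ⟨s * c, by rw [dl_some, dv, if_pos rfl]; linear_combination c ^ 2 * hs⟩
    · exact ⟨.some _ _ t1, by simp, by rwa [dl_some, dv, if_neg hc0, sub_zero, hc]⟩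
    · exact ⟨.some _ _ t2, by simp, by
        rwa [dl_some, dv, if_neg (neg_ne_zero.2 hc0), sub_zero, hc, ← map_neg]⟩
  have B : ∀ P : (E ι (c ^ 2)).Point, IsSquare (dl 0 P) →
      IsSquare (dl c P) ∨ IsSquare (dl c P * c) := by
    rintro (_ | ⟨x, y, h⟩) hs
    · exact .inl ⟨1, (mul_one _).symm⟩
    rw [dl_some, dv] at hs
    have hx : x ≠ 0 := fun hx => by
      rw [if_pos hx] at hs
      exact m1 (sq_cancel hn ⟨c, sq c⟩ (by convert hs using 1; ring))
    rw [if_neg hx, sub_zero] at hs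
    have hx' : x ≠ c := fun e => m2 (e ▸ hs)
    obtain ⟨a, e, r, t, d, hd, hco, h1, h2, h3⟩ :=
      desc2 (c := c2) ρ2_sq hx (hc ▸ hx') (hc ▸ E_equation.1 h.1) hs
    rw [dl_some, dv, if_neg hx']
    rcases local2 hd hco h1 h2 with rfl | rfl
    · exact .inl (by simpa [hc] using h3)
    · exact .inr (hc ▸ h3)
  obtain ⟨T, hT, hs⟩ := A
  have s0 : IsSquare (dl 0 (P + -T)) := dl_sq_add h2 hn e0 (by rwa [dl_neg])
  refine ⟨T, hT, ?_⟩
  rcases B _ s0 with h | h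
  · obtain ⟨Q, hQ⟩ := exists_half h2 hc0 rfl s0 h
    exact ⟨Q, .inl (by rw [← hQ]; abel)⟩
  · obtain ⟨Q, hQ⟩ := exists_eq_add h2 hc0 rfl (s0.mul q0) (sq_cancel hn ⟨c, sq c⟩ (by
      obtain ⟨s, hs⟩ := h.mul q1
      exact ⟨s, by rw [← hs]; ring⟩))
    exact ⟨Q, .inr (by rw [add_assoc, ← hQ]; abel)⟩

/-- **rank one**: `N • E(K) = ℤ P` for a point `P` of infinite order -/
theorem exists_gen [NumberField K] (ι : K) {c : K} (hc : c = algebraMap R2 K c2) :
    ∃ (N : ℕ) (P : (E ι (c ^ 2)).Point), ¬IsOfFinAddOrder P ∧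
      ∀ A, (∃ a : ℤ, a • P = A) ↔ ∃ Q, N • Q = A := by
  have hc0 : c ≠ 0 := hc ▸ (map_ne_zero_iff _ (IsFractionRing.injective R2 K)).2 (by decide)
  have := E_isElliptic ι two_ne_zero (pow_ne_zero 2 hc0)
  obtain ⟨S, P0, h1, h2, h3, h4⟩ := descent ι hc
  obtain ⟨C, hp⟩ := hx_par (E ι (c ^ 2))
  obtain ⟨lam, P1, N, -, e1, hN, -, e2, -⟩ :=
    rank_one hp (fun _ => zero_le_logHeight₁ _) h1 h2 h3 h4
  refine ⟨N, N • P1, fun h => ?_, fun A => ⟨?_, ?_⟩⟩
  · have := lam.isOfFinAddOrder h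
    rw [map_nsmul, e1, isOfFinAddOrder_iff_eq_zero] at this
    simp [hN.ne'] at this
  · rintro ⟨a, rfl⟩
    exact ⟨a • P1, smul_comm _ _ _⟩
  · rintro ⟨Q, rfl⟩
    exact ⟨lam Q, by rw [e2 Q, mul_comm, mul_smul, natCast_zsmul]⟩

end desc

/-! ### heights in rational coordinates -/

section ht
variable {K : Type} [Field K] [NumberField K]

theorem logHeight₁_le_coord {κ : Type*} [Fintype κ] (b : Module.Basis κ ℚ K) :
    ∃ C : ℝ, 0 ≤ C ∧ ∀ x : K, logHeight₁ x ≤ C * (1 + ∑ i, logHeight₁ (b.repr x i)) := by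
  set D := totalWeight K * Real.log (Finset.univ : Finset κ).card + ∑ i, logHeight₁ (b i) with hD
  have hD0 : 0 ≤ D := add_nonneg (mul_nonneg (Nat.cast_nonneg _) (Real.log_natCast_nonneg _))
    (Finset.sum_nonneg fun i _ => zero_le_logHeight₁ _)
  have h6 : (0 : ℝ) ≤ Module.finrank ℚ K := Nat.cast_nonneg _
  refine ⟨D + 2 * Module.finrank ℚ K, by positivity, fun x => ?_⟩
  have h1 := logHeight₁_sum_le Finset.univ fun i => b.repr x i • b i
  rw [b.sum_repr] at h1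
  have h2 : ∑ i, logHeight₁ (b.repr x i • b i) ≤
      ∑ i, (2 * Module.finrank ℚ K * logHeight₁ (b.repr x i) + logHeight₁ (b i)) :=
    Finset.sum_le_sum fun i _ => by
      rw [Rat.smul_def]
      exact (logHeight₁_mul_le _ _).trans (add_le_add_left (logHeight₁_ratCast _) _)
  rw [Finset.sum_add_distrib, ← Finset.mul_sum] at h2
  have h3 : 0 ≤ ∑ i, logHeight₁ (b.repr x i) := Finset.sum_nonneg fun i _ => zero_le_logHeight₁ _
  nlinarith [mul_nonneg hD0 h3]

/-- **the index is bounded by the height of the rational coordinates** -/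
theorem sq_le_height [DecidableEq K] {ι n : K} (hn : n ≠ 0) {P : (E ι n).Point}
    (hP : ¬IsOfFinAddOrder P) {κ : Type*} [Fintype κ] (b : Module.Basis κ ℚ K) :
    ∃ C : ℕ, ∀ a : ℤ, (a : ℝ) ^ 2 ≤ C * (1 + ∑ i, logHeight₁ (b.repr (co (a • P)).1 i)) := by
  have := E_isElliptic ι two_ne_zero hn
  obtain ⟨C, hp⟩ := hx_par (E ι n)
  obtain ⟨C1, h1, h2⟩ := logHeight₁_le_coord b
  have h4 := hhat_pos hp (fun _ => zero_le_logHeight₁ _) hP
  have hD : 0 ≤ (C + |hx (0 : (E ι n).Point)|) / 3 := by have := hp.nonneg; positivity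
  obtain ⟨C', hC'⟩ := exists_nat_ge (((C + |hx (0 : (E ι n).Point)|) / 3 + C1) / hhat hx P)
  refine ⟨C', fun a => le_trans ?_ (mul_le_mul_of_nonneg_right hC' ?_)⟩
  · have h5 := (abs_le.1 (hp.abs_hhat_sub_le (a • P))).2
    rw [hp.isQuad.zsmul] at h5
    have h6 : hx (a • P) = logHeight₁ (co (a • P)).1 := by cases a • P <;> rfl
    have h7 := h2 (co (a • P)).1
    have h3 : 0 ≤ ∑ i, logHeight₁ (b.repr (co (a • P)).1 i) :=
      Finset.sum_nonneg fun i _ => zero_le_logHeight₁ _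
    rw [div_mul_eq_mul_div, le_div_iff₀ h4]
    nlinarith [mul_nonneg hD h3]
  · exact add_nonneg zero_le_one (Finset.sum_nonneg fun i _ => zero_le_logHeight₁ _)

end ht

end Crest.Agent.T15.Mw

end
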