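import Crest.Agent.T15.LkH_47
import Crest.Agent.T15.MwD_52
import Crest.Agent.T15.LDef_15

/-!
# Row 15, block L (helper47): `LkStmt`

The curve `y² = x³ - (3 + 2 √-2)² x` over `ℚ(√-2)`, read over `ℚ(√-2, i)`.
-/

set_option autoImplicit false
set_option linter.unusedSectionVars false

namespace Crest.Agent.T15.Lk

open WeierstrassCurve WeierstrassCurve.Affine Crest.Agent.T170.Ell Crest.Agent.T170.Ell.Place
  Crest.Agent.T15.Mw

theorem nsq_three : ¬ IsSquare (3 : ZMod 17) := by decide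

theorem lkStmt_of {K F : Type} [Field K] [NumberField K] [Algebra R2 K] [IsFractionRing R2 K]
    [Field F] [NumberField F] [IsGalois ℚ F] (j : K →+* F) {ι : F} (hι : ι ^ 2 = -1) (τ : F →+* F)
    (hτι : τ ι = ι) (hτρ : τ (j (algebraMap R2 K ρ2)) = -j (algebraMap R2 K ρ2))
    (hv : ∀ (p : ℕ) [Fact p.Prime], p % 8 = 1 → Nonempty (Place F (ZMod p))) : LDef.LkStmt := by
  classical
  rintro ⟨J, dJ, sJ, cJ⟩
  have := Fact.mk hι
  obtain ⟨c₀, hc₀⟩ : ∃ c₀, c₀ = algebraMap R2 K c2 := ⟨_, rfl⟩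
  obtain ⟨N₀, P₀, hP₀, hZ₀⟩ := exists_gen (0 : K) hc₀
  set ρ := j (algebraMap R2 K ρ2) with hρ
  have hρ2 : ρ ^ 2 = -2 := by rw [hρ, ← map_pow, ← map_pow, ρ2_sq]; simp [map_ofNat]
  have hc : j c₀ = 3 + 2 * ρ := by
    rw [hc₀, show c2 = 3 + 2 * ρ2 by decide]
    simp [hρ, map_ofNat]
  have h17 : (3 - 2 * ρ) * (3 + 2 * ρ) = 17 := by linear_combination -4 * hρ2
  have hc0 : 3 + 2 * ρ ≠ 0 := fun e => by simp [e] at h17
  have hn : (3 + 2 * ρ) ^ 2 ≠ 0 := pow_ne_zero 2 hc0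
  have hn₀ : c₀ ^ 2 ≠ 0 := fun e => hn (by rw [← hc, ← map_pow, e, map_zero])
  have tw : Tw (E 0 (c₀ ^ 2)) (E ι ((3 + 2 * ρ) ^ 2)) j 1 := tw_E one_ne_zero (by simp [hc])
  set P := tw.hom P₀ with hPdef
  have hP' : ¬ IsOfFinAddOrder P := by rwa [hPdef, tw.hom_injective.isOfFinAddOrder_iff]
  have hP : ∀ k : ℤ, k ≠ 0 → k • P ≠ 0 := fun k hk e =>
    hP' (isOfFinAddOrder_iff_zsmul_eq_zero.2 ⟨k, hk, e⟩)
  have hZ : Dio fun v : F × F => ∃ a : ℤ, co (a • P) = v := by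
    refine (Dio.ex (R := fun (v : F × F) (u : K × K) => co (tw.hom (N₀ • pt 0 (c₀ ^ 2) u)) = v)
      (Dio.eqF (((DPt.pt hn₀ (by fun_prop)).nsmul N₀).hom tw) (by fun_prop))).congr fun v => ?_
    constructor
    · rintro ⟨u, rfl⟩
      obtain ⟨a, ha⟩ := (hZ₀ _).2 ⟨pt 0 (c₀ ^ 2) u, rfl⟩
      exact ⟨a, by rw [← ha, map_zsmul]⟩
    · rintro ⟨a, rfl⟩
      obtain ⟨A, hA⟩ := (hZ₀ _).1 ⟨a, rfl⟩
      exact ⟨co A, by rw [pt_co, hA, map_zsmul]⟩
  obtain ⟨N, Read, hN, dR, sR, cR⟩ := exists_read (b := (3 - 2 * ρ) ^ 2 / 17) (τ := τ) hn hτι (by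
    rw [map_pow, map_add, map_mul, hτρ, map_ofNat, map_ofNat, ← h17]
    have : 3 - 2 * ρ ≠ 0 := fun e => by simp [e] at h17
    field_simp
    ring) hP hZ dJ
  let bas := Module.finBasis ℚ F
  obtain ⟨C, hC⟩ := sq_le_height hn hP' bas
  have nd : ∀ p, N + 17 < p → ¬ p ∣ N := fun p h e => by
    have := Nat.le_of_dvd (Nat.pos_of_ne_zero hN) e
    omega
  refine ⟨F × F, inferInstance, inferInstance, inferInstance, _, ⟨{
    rep := fun a => co (a • P)
    inj := fun a b e => ?_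
    dPt := hZ
    Add := fun u v w => w = co (pt ι _ u + pt ι ((3 + 2 * ρ) ^ 2) v)
    dA := Dio.eqF (by fun_prop) ((DPt.pt hn (by fun_prop)).add (DPt.pt hn (by fun_prop)))
    add_iff := fun a b v => by rw [pt_co, pt_co, add_smul]
    co := fun i v => bas.repr v.1 i
    pco := fun i => PolM.lin (bas.coord i) (f := fun v : F × F => v.1) (by fun_prop)
    C := C
    ht := hC
    Read := Read
    dR := dR
    B0 := N + 17
    sound := fun w a r h p hp hB ho => (Val.pz_iff_num hp).2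
      (sR w a r p hp (nd p hB) (fun y hy => (Val.pz_iff_num hp).1 (sJ w y hy p hp ho)) h)
    complete := fun p hp hB a => ?_ }⟩⟩
  · by_contra hne
    exact hP (a - b) (sub_ne_zero.2 hne) (by rw [sub_smul, co_injective e, sub_self])
  · obtain ⟨hp, h24, hp17⟩ := hp
    have := Fact.mk hp
    have h8 : p % 8 = 1 := by
      rw [Nat.ModEq] at h24
      omega
    obtain ⟨Q⟩ := hv p h8
    refine cR p p Q (nd p hB) (fun y hy => cJ p hp h8 y
      ((Top.inJ_prime hp y).2 ((Val.pz_iff_num hp).2 hy))) (fun hs => ?_) a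
    have hr : Q.Sp ρ (Q.val ρ) := sp_val (mem_of_sq (b := 0) (c := -2) (zero_mem _)
      (neg_mem (sp_ofNat (P := Q) 2).mem) (by rw [hρ2]; ring))
    have h0 : (17 : ZMod p) ≠ 0 := fun e => by
      have := Nat.le_of_dvd (by norm_num) ((ZMod.natCast_eq_zero_iff 17 p).1 (by exact_mod_cast e))
      omega
    have s₁ := (sp_ofNat (P := Q) 3).sub ((sp_ofNat 2).mul hr)
    have s₂ := (sp_ofNat (P := Q) 3).add ((sp_ofNat 2).mul hr)
    have s₃ := sp_val ((s₁.pow 2).div (sp_ofNat 17) h0).mem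
    have e := (s₃.mul (s₂.pow 2)).unique (show Q.Sp _ (17 : ZMod p) by
      rw [show (3 - 2 * ρ) ^ 2 / 17 * (3 + 2 * ρ) ^ 2 = 17 by
        linear_combination ((3 - 2 * ρ) * (3 + 2 * ρ) + 17) / 17 * h17]
      exact sp_ofNat 17)
    have : Fact (Nat.Prime 17) := ⟨by norm_num⟩
    have h3 := (ZMod.exists_sq_eq_prime_iff_of_mod_four_eq_one (p := 17) (q := p) (by norm_num)
      (by omega)).2 (by exact_mod_cast e ▸ hs.mul (IsSquare.sq _))
    rw [(ZMod.natCast_eq_natCast_iff p 3 17).2 hp17] at h3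
    exact nsq_three h3

instance factK : Fact (∀ r : ℚ, r ^ 2 ≠ -2 + 0 * r) := ⟨fun r h => by nlinarith [sq_nonneg r]⟩

/-- `ℚ(√-2)` -/
def K2 : Type := QuadraticAlgebra ℚ (-2) 0

noncomputable instance : Field K2 := inferInstanceAs (Field (QuadraticAlgebra ℚ (-2) 0))

instance : CharZero K2 := inferInstanceAs (CharZero (QuadraticAlgebra ℚ (-2) 0))

instance : NumberField K2 where
  to_charZero := inferInstance
  to_finiteDimensional := Module.Finite.of_surjective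
    (AddMonoidHom.mk' (fun u : ℚ × ℚ => (⟨u.1, u.2⟩ : K2)) fun _ _ => rfl).toRatLinearMap
    fun x => ⟨(x.re, x.im), rfl⟩

/-- the inclusion `ℤ[√-2] → ℚ(√-2)` -/
def inc : R2 →+* QuadraticAlgebra ℚ (-2) 0 where
  toFun z := ⟨z.re, z.im⟩
  map_one' := by ext <;> simp [QuadraticAlgebra.re_one, QuadraticAlgebra.im_one]
  map_zero' := by ext <;> simp
  map_add' _ _ := by ext <;> simp
  map_mul' _ _ := by ext <;> simp

noncomputable instance : Algebra R2 K2 := RingHom.toAlgebra (S := K2) inc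

instance : FaithfulSMul R2 K2 := (faithfulSMul_iff_algebraMap_injective _ _).2 fun _ _ e =>
  Zsqrtd.ext (Int.cast_injective (α := ℚ) (congrArg QuadraticAlgebra.re e))
    (Int.cast_injective (α := ℚ) (congrArg QuadraticAlgebra.im e))

instance : IsFractionRing R2 K2 := IsFractionRing.of_field _ _ fun z => by
  refine ⟨⟨z.re.num * z.im.den, z.im.num * z.re.den⟩, ⟨z.re.den * z.im.den, 0⟩, ?_⟩
  rw [eq_div_iff ((map_ne_zero_iff _ (FaithfulSMul.algebraMap_injective R2 K2)).2 fun e =>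
    mul_ne_zero (Int.natCast_ne_zero.2 z.re.den_nz) (Int.natCast_ne_zero.2 z.im.den_nz)
      (congrArg Zsqrtd.re e))]
  obtain ⟨x, y⟩ := z
  change (⟨x, y⟩ : QuadraticAlgebra ℚ (-2) 0) * inc _ = inc _
  ext <;> simp [inc, ← Rat.mul_den_eq_num] <;> ring

instance factF : Fact (∀ r : K2, r ^ 2 ≠ -1 + 0 * r) :=
  ⟨fun r h => nsq_neg_one (K := K2) ⟨r, by rw [← sq, h]; ring⟩⟩

/-- `ℚ(√-2, i)` -/
def F8 : Type := QuadraticAlgebra K2 (-1) 0

noncomputable instance : Field F8 := inferInstanceAs (Field (QuadraticAlgebra K2 (-1) 0))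

instance : CharZero F8 := inferInstanceAs (CharZero (QuadraticAlgebra K2 (-1) 0))

instance : NumberField F8 where
  to_charZero := inferInstance
  to_finiteDimensional := Module.Finite.of_surjective
    (AddMonoidHom.mk' (fun u : K2 × K2 => (⟨u.1, u.2⟩ : F8)) fun _ _ => rfl).toRatLinearMap
    fun x => ⟨(x.re, x.im), rfl⟩

/-- conjugation of `ℚ(√-2)` -/
noncomputable def cjK : K2 →+* K2 := starRingEnd (QuadraticAlgebra ℚ (-2) 0)

/-- conjugation of the coefficients -/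
noncomputable def tau : QuadraticAlgebra K2 (-1) 0 →+* QuadraticAlgebra K2 (-1) 0 where
  toFun z := ⟨cjK z.re, cjK z.im⟩
  map_one' := by ext <;> simp [QuadraticAlgebra.re_one, QuadraticAlgebra.im_one]
  map_zero' := by ext <;> simp
  map_add' _ _ := by ext <;> simp
  map_mul' _ _ := by ext <;> simp

instance : IsGalois ℚ F8 := IsGalois.of_fixedField_eq_bot ℚ F8 (by
  refine eq_bot_iff.2 fun x hx => ?_
  have H : ∀ σ : F8 →+* F8, σ x = x := fun σ =>
    hx ⟨AlgEquiv.ofBijective σ.toRatAlgHom (AlgHom.bijective _), trivial⟩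
  have h1 : -x.im = x.im := congrArg QuadraticAlgebra.im
    (H (starRingEnd (QuadraticAlgebra K2 (-1) 0)))
  have h2 : -x.re.im = x.re.im := congrArg (fun z : F8 => z.re.im) (H tau)
  refine IntermediateField.mem_bot.2 ⟨x.re.re, ?_⟩
  change (⟨⟨x.re.re, 0⟩, 0⟩ : QuadraticAlgebra K2 (-1) 0) = x
  refine QuadraticAlgebra.ext (QuadraticAlgebra.ext rfl ?_) ?_
  · exact (neg_eq_self.1 h2).symm
  · exact (neg_eq_self.1 h1).symm)

theorem place_F8 (p : ℕ) [hp : Fact p.Prime] (h : p % 8 = 1) : Nonempty (Place F8 (ZMod p)) := by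
  have h2 : (2 : ZMod p) ≠ 0 := fun e => by
    have := Nat.le_of_dvd (by norm_num) ((ZMod.natCast_eq_zero_iff 2 p).1 (by exact_mod_cast e))
    have := hp.out.two_le
    omega
  obtain ⟨Q₀⟩ := exists_place_rat p
  obtain ⟨r, hr⟩ := (ZMod.exists_sq_eq_neg_two_iff (p := p) (by omega)).2 (Or.inl h)
  obtain ⟨s, hs⟩ := (ZMod.exists_sq_eq_neg_one_iff (p := p)).2 (by omega)
  obtain ⟨Q₁, -⟩ := exists_place_quad (d := -2) Q₀ (δ := r)
    (by rw [sq, ← hr]; exact (sp_ofNat 2).neg) (fun e => h2 (by simpa [e] using hr)) h2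
  let Q₁' : Place K2 (ZMod p) := Q₁
  obtain ⟨Q₂, -⟩ := exists_place_quad (d := -1) Q₁' (δ := s)
    (by rw [sq, ← hs]; exact sp_one.neg) (fun e => by simp [e] at hs) h2
  exact ⟨Q₂⟩

/-- **curve + link** -/
theorem lkStmt : LDef.LkStmt :=
  lkStmt_of (K := K2) (F := F8) (algebraMap K2 (QuadraticAlgebra K2 (-1) 0))
    (ι := (QuadraticAlgebra.omega : QuadraticAlgebra K2 (-1) 0))
    ((sq _).trans (show (QuadraticAlgebra.omega : QuadraticAlgebra K2 (-1) 0) *
      (QuadraticAlgebra.omega : QuadraticAlgebra K2 (-1) 0) = -1 by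
      ext <;> simp [QuadraticAlgebra.re_one, QuadraticAlgebra.im_one])) tau
    (show tau QuadraticAlgebra.omega = QuadraticAlgebra.omega by ext <;> simp [tau])
    (show tau (algebraMap K2 _ (algebraMap R2 K2 ρ2)) = -algebraMap K2 _ (algebraMap R2 K2 ρ2) by
      have : cjK (algebraMap R2 K2 ρ2) = -algebraMap R2 K2 ρ2 :=
        show star (inc ρ2) = -inc ρ2 by ext <;> simp [inc, ρ2]
      ext <;> simp [tau, this]) place_F8

end Crest.Agent.T15.Lk
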