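import Crest.Agent.T15.PrAPf_15
import Crest.Agent.T15.Cert_15
import Crest.Agent.T15.LkZ_47

/-!
# Row 15, block L closed: `Top.LGlue` (helper15)
-/

namespace Crest.Agent.T15.LAll

theorem lGlue : Top.LGlue := Cert.lglue_of PrAP.apStmt Lk.lkStmt

end Crest.Agent.T15.LAll
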