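import Crest.Agent.T15.Top_88

/-!
# Row 15, block L: the leaves (helper67)

`Top.LGlue ⇐ LocStmt, CertStmt, LinkStmt, FinStmt`.  Text: `docs/T15_L.md`.
-/

set_option autoImplicit false

namespace Crest.Agent.T15.L

open Height

/-- `p` has odd valuation in `w` -/
def Od (p : ℕ) (w : ℚ) : Prop := Odd (padicValRat p w)

/-- visible primes -/
def Vis (q : ℕ) : Prop := q.Prime ∧ q % 24 = 1 ∧ q % 17 = 3

/-- size certificate: `Ce x W` bounds the height of `x` by the odd primes of the `W i` -/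
def Cert : Prop :=
  ∃ (m C : ℕ) (Ce : ℚ → (Fin m → ℚ) → Prop),
    (Dio fun z : ℚ × (Fin m → ℚ) => Ce z.1 z.2) ∧
    (∀ (x : ℚ) (W : Fin m → ℚ) (N : ℕ), 0 < N → Ce x W →
      (∀ i (p : ℕ), p.Prime → Od p (W i) → p ∣ N) → logHeight₁ x ≤ C * (N : ℝ) ^ C) ∧
    ∀ (x : ℚ) (M B : ℕ), 0 < M → ¬ 17 ∣ M → ∃ W : Fin m → ℕ,
      (∀ i, Vis (W i) ∧ B < W i ∧ W i ≡ 1 [MOD M]) ∧ Ce x fun i => (W i : ℚ)

/-- leaf L1 -/
def LocStmt : Prop := ∀ p : ℕ, p.Prime → Top.QFix p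

/-- leaf L3 -/
def CertStmt : Prop := LocStmt → Top.QStmt → Top.HStmt → Cert

/-- an additive Diophantine model of `ℤ` with a height bound for the index, in which squaring of
indices can be read modulo every prime of odd valuation in `w` -/
def Link : Prop :=
  ∃ (V : Type) (_ : AddCommGroup V) (_ : Module ℚ V) (_ : Module.Finite ℚ V) (d C bad B : ℕ)
    (co : V →ₗ[ℚ] (Fin d → ℚ)) (lam : V → ℤ) (rep : ℤ → V) (Add : V → V → V → Prop)
    (Lk : ℚ → V → V → Prop),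
    0 < bad ∧ (∀ n, lam (rep n) = n) ∧
    (Dio fun z : V × V × V => Add z.1 z.2.1 z.2.2) ∧
    (∀ x y z, Add x y z → lam z = lam x + lam y) ∧
    (∀ a b, Add (rep a) (rep b) (rep (a + b))) ∧
    (∀ v, ((lam v : ℝ)) ^ 2 ≤ C * (1 + ∑ i, logHeight₁ (co v i))) ∧
    (Dio fun z : ℚ × V × V => Lk z.1 z.2.1 z.2.2) ∧
    (∀ (w : ℚ) (x z : V) (p : ℕ), p.Prime → Od p w → ¬ p ∣ bad → Lk w x z →
      (p : ℤ) ∣ lam z - lam x ^ 2) ∧
    ∀ (q : ℕ) (a : ℤ), Vis q → B < q → Lk q (rep a) (rep (a ^ 2))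

/-- leaf L4 -/
def LinkStmt : Prop := Top.QStmt → Link

/-- leaf L5 -/
def FinStmt : Prop := Top.QStmt → Cert → Link → Top.Goal

theorem lGlue_of (h1 : LocStmt) (h3 : CertStmt) (h4 : LinkStmt) (h5 : FinStmt) : Top.LGlue :=
  fun q h => h5 q (h3 h1 q h) (h4 q)

end Crest.Agent.T15.L
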