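import Mathlib

/-!
# Row 15, block Ht (helper58): the quaternion span lemma and `ℤ[√3]`
-/

set_option autoImplicit false
set_option linter.unusedSectionVars false

noncomputable section

namespace Crest.Agent.T15.Lat

open Matrix

section core
variable {R : Type*} [CommRing R]

lemma sl2_id (a b c p q r w s t : R) (h : 2 * a * p + b * r + c * q = 0) :
    (-2 * (-a ^ 2 - b * c) * (-p ^ 2 - q * r)) • (!![w, s; t, -w] : Matrix (Fin 2) (Fin 2) R)
      = ((-p ^ 2 - q * r) * (2 * w * a + s * c + t * b)) • !![a, b; c, -a]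
        + ((-a ^ 2 - b * c) * (2 * w * p + s * r + t * q)) • !![p, q; r, -p]
        + (w * (b * r - c * q) + s * (c * p - a * r) + t * (a * q - b * p))
          • (!![a, b; c, -a] * !![p, q; r, -p]) := by
  ext i j
  fin_cases i <;> fin_cases j <;> simp
  · linear_combination (a * p * w + a * r * s + b * p * t - b * r * w) * h
  · linear_combination (-a * p * s + a * q * w + b * p * w + b * q * t) * h
  · linear_combination (-a * p * t + a * r * w + c * p * w + c * r * s) * h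
  · linear_combination (-a * p * w - a * q * t - c * p * s + c * q * w) * h

lemma two_sub_trace (X : Matrix (Fin 2) (Fin 2) R) :
    (!![X 0 0 - X 1 1, 2 * X 0 1; 2 * X 1 0, -(X 0 0 - X 1 1)] : Matrix (Fin 2) (Fin 2) R)
      = (2 : R) • X - X.trace • (1 : Matrix (Fin 2) (Fin 2) R) := by
  ext i j
  fin_cases i <;> fin_cases j <;> simp [Matrix.trace_fin_two] <;> ring

/-- `1, X, Y, XY` span `64 · M₂(R)` -/
lemma core (X Y Z : Matrix (Fin 2) (Fin 2) R) (hX : X * X = -1) (hXY : Y * X = -(X * Y))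
    (hZ : Z * Y = 1) (W : Matrix (Fin 2) (Fin 2) R) :
    ∃ c0 c1 c2 c3 : R, (64 : R) • W = c0 • (1 : Matrix (Fin 2) (Fin 2) R) + c1 • X + c2 • Y
      + c3 • (X * Y) := by
  have hZ' : Y * Z = 1 := mul_eq_one_comm.mp hZ
  have t1 : 2 * X.trace = 0 := by
    have e : X = -(Z * (X * Y)) := by
      rw [← mul_neg, ← hXY, ← mul_assoc, hZ, one_mul]
    have e2 : X.trace = - X.trace := by
      conv_lhs => rw [e]
      rw [trace_neg, trace_mul_comm, mul_assoc, hZ', mul_one]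
    linear_combination e2
  have t2 : 2 * Y.trace = 0 := by
    have e : Y = X * Y * X := by
      have : Y * X * X = -(X * Y) * X := by rw [hXY]
      rw [mul_assoc, hX, mul_neg, mul_one, neg_mul] at this
      exact neg_injective this
    have e2 : Y.trace = - Y.trace := by
      conv_lhs => rw [e]
      rw [trace_mul_comm, ← mul_assoc, hX, neg_mul, one_mul, trace_neg]
    linear_combination e2
  have t3 : 2 * (X * Y).trace = 0 := by
    have e2 : (X * Y).trace = - (X * Y).trace := by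
      conv_lhs => rw [trace_mul_comm, hXY]
      rw [trace_neg]
    linear_combination e2
  have hu : Z.det * Y.det = 1 := by rw [← det_mul, hZ, det_one]
  have x00 := congrFun (congrFun hX 0) 0
  have x11 := congrFun (congrFun hX 1) 1
  simp only [Matrix.mul_apply, Fin.sum_univ_two, Matrix.neg_apply, one_apply_eq,
    trace_fin_two] at x00 x11 t1 t2 t3
  have key := sl2_id (X 0 0 - X 1 1) (2 * X 0 1) (2 * X 1 0) (Y 0 0 - Y 1 1) (2 * Y 0 1)
    (2 * Y 1 0) (W 0 0 - W 1 1) (2 * W 0 1) (2 * W 1 0)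
    (by linear_combination 2 * t3 - (Y 0 0 + Y 1 1) * t1)
  have hc : -2 * (-(X 0 0 - X 1 1) ^ 2 - 2 * X 0 1 * (2 * X 1 0))
      * (-(Y 0 0 - Y 1 1) ^ 2 - 2 * Y 0 1 * (2 * Y 1 0)) = -32 * Y.det := by
    rw [det_fin_two]
    linear_combination (4 * (-(Y 0 0 - Y 1 1) ^ 2 - 2 * Y 0 1 * (2 * Y 1 0))) * (x00 + x11)
      - ((-(Y 0 0 - Y 1 1) ^ 2 - 2 * Y 0 1 * (2 * Y 1 0)) * (X 0 0 + X 1 1)) * t1
      + (4 * (Y 0 0 + Y 1 1)) * t2
  rw [hc, two_sub_trace, two_sub_trace, two_sub_trace] at key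
  obtain ⟨α, β, γ, key⟩ : ∃ α β γ : R, (-32 * Y.det) • ((2 : R) • W - W.trace • 1)
      = α • ((2 : R) • X - X.trace • 1) + β • ((2 : R) • Y - Y.trace • 1)
        + γ • (((2 : R) • X - X.trace • 1) * ((2 : R) • Y - Y.trace • 1)) := ⟨_, _, _, key⟩
  refine ⟨32 * W.trace - Z.det * (-α * X.trace - β * Y.trace + γ * X.trace * Y.trace),
    -Z.det * (2 * α - 2 * γ * Y.trace), -Z.det * (2 * β - 2 * γ * X.trace), -Z.det * (4 * γ), ?_⟩
  have e1 : (64 : R) • W = (32 * W.trace) • (1 : Matrix (Fin 2) (Fin 2) R)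
      - Z.det • ((-32 * Y.det) • ((2 : R) • W - W.trace • 1)) := by
    rw [smul_smul, show Z.det * (-32 * Y.det) = -32 by linear_combination -32 * hu]
    module
  rw [e1, key]
  simp only [sub_mul, mul_sub, smul_mul_assoc, mul_smul_comm, one_mul, mul_one]
  module

/-- the same modulo `m`, for a stable submodule -/
lemma core_mod (m : R) (X Y Z : Matrix (Fin 2) (Fin 2) R)
    (hX : ∀ i j, m ∣ (X * X + 1) i j) (hXY : ∀ i j, m ∣ (Y * X + X * Y) i j)
    (hZ : ∀ i j, m ∣ (Z * Y - 1) i j) (N : Submodule R (Fin 2 → R)) (hm : ∀ v, m • v ∈ N)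
    (hNX : ∀ v ∈ N, X *ᵥ v ∈ N) (hNY : ∀ v ∈ N, Y *ᵥ v ∈ N)
    (W : Matrix (Fin 2) (Fin 2) R) (v : Fin 2 → R) (hv : v ∈ N) : (64 : R) • (W *ᵥ v) ∈ N := by
  let φ : R →+* R ⧸ Ideal.span {m} := Ideal.Quotient.mk _
  have hφ : ∀ M : Matrix (Fin 2) (Fin 2) R, φ.mapMatrix M = 0 ↔ ∀ i j, m ∣ M i j := by
    intro M
    rw [← Matrix.ext_iff]
    simp only [RingHom.mapMatrix_apply, map_apply, Matrix.zero_apply, φ,
      Ideal.Quotient.eq_zero_iff_mem, Ideal.mem_span_singleton]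
  have h1 := (hφ _).mpr hX
  have h2 := (hφ _).mpr hXY
  have h3 := (hφ _).mpr hZ
  rw [map_add, map_mul, map_one] at h1
  rw [map_add, map_mul, map_mul] at h2
  rw [map_sub, map_mul, map_one] at h3
  obtain ⟨c0, c1, c2, c3, hc⟩ := core _ _ _ (eq_neg_of_add_eq_zero_left h1)
    (eq_neg_of_add_eq_zero_left h2) (sub_eq_zero.mp h3) (φ.mapMatrix W)
  obtain ⟨d0, rfl⟩ := Ideal.Quotient.mk_surjective c0
  obtain ⟨d1, rfl⟩ := Ideal.Quotient.mk_surjective c1
  obtain ⟨d2, rfl⟩ := Ideal.Quotient.mk_surjective c2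
  obtain ⟨d3, rfl⟩ := Ideal.Quotient.mk_surjective c3
  have hs : ∀ (d : R) (M : Matrix (Fin 2) (Fin 2) R),
      φ.mapMatrix (d • M) = φ d • φ.mapMatrix M := by
    intro d M; ext i j; simp
  have h4 : φ.mapMatrix ((64 : R) • W - (d0 • (1 : Matrix (Fin 2) (Fin 2) R) + d1 • X + d2 • Y
      + d3 • (X * Y))) = 0 := by
    rw [map_sub, map_add, map_add, map_add, hs, hs, hs, hs, hs, map_one, map_mul, map_ofNat, hc]
    exact sub_self _
  choose U hU using (hφ _).mp h4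
  have h5 : (64 : R) • W = (d0 • (1 : Matrix (Fin 2) (Fin 2) R) + d1 • X + d2 • Y
      + d3 • (X * Y)) + m • Matrix.of U := by
    rw [← sub_eq_iff_eq_add']
    ext i j; rw [hU i j]; simp
  rw [← smul_mulVec, h5]
  simp only [add_mulVec, smul_mulVec, one_mulVec, ← mulVec_mulVec]
  exact N.add_mem (N.add_mem (N.add_mem (N.add_mem (N.smul_mem _ hv) (N.smul_mem _ (hNX v hv)))
    (N.smul_mem _ (hNY v hv))) (N.smul_mem _ (hNX _ (hNY v hv)))) (hm _)

/-- a primitive stable submodule contains `64 · R²` -/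
lemma core_prim (m : R) (X Y Z : Matrix (Fin 2) (Fin 2) R)
    (hX : ∀ i j, m ∣ (X * X + 1) i j) (hXY : ∀ i j, m ∣ (Y * X + X * Y) i j)
    (hZ : ∀ i j, m ∣ (Z * Y - 1) i j) (N : Submodule R (Fin 2 → R)) (hm : ∀ v, m • v ∈ N)
    (hNX : ∀ v ∈ N, X *ᵥ v ∈ N) (hNY : ∀ v ∈ N, Y *ᵥ v ∈ N)
    (hp : (1 : R) ∈ Ideal.span {a | ∃ v ∈ N, ∃ i, v i = a}) (x : Fin 2 → R) :
    (64 : R) • x ∈ N := by
  have : ∀ a ∈ Ideal.span {a | ∃ v ∈ N, ∃ i, v i = a}, a • ((64 : R) • x) ∈ N := by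
    intro a ha
    induction ha using Submodule.span_induction with
    | mem a ha =>
      obtain ⟨v, hv, i, rfl⟩ := ha
      have := core_mod m X Y Z hX hXY hZ N hm hNX hNY
        (Matrix.of fun k l => if l = i then x k else 0) v hv
      have e : (Matrix.of fun k l => if l = i then x k else 0) *ᵥ v = v i • x := by
        ext k; simp [mulVec, dotProduct, mul_comm]
      rwa [e, smul_comm] at this
    | zero => simp
    | add a b _ _ ha hb => rw [add_smul]; exact N.add_mem ha hb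
    | smul a b _ hb => rw [smul_eq_mul, mul_smul]; exact N.smul_mem _ hb
  simpa using this 1 hp

end core

/-! ### `ℤ[√3]` is a principal ideal domain -/

lemma three_ne_sq : ∀ n : ℤ, (3 : ℤ) ≠ n * n := by
  intro n h
  have h1 : n.natAbs * n.natAbs = 3 := by rw [← Int.natAbs_mul, ← h]; rfl
  have h2 : n.natAbs ≤ 2 := by nlinarith
  interval_cases n.natAbs <;> omega

lemma norm_ne {y : ℤ√3} (hy : y ≠ 0) : y.norm ≠ 0 := fun h =>
  hy ((Zsqrtd.norm_eq_zero three_ne_sq y).mp h)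

instance : IsDomain (ℤ√3) := by
  have : NoZeroDivisors (ℤ√3) := ⟨fun {a b} h => by
    by_contra hn
    push Not at hn
    have := congrArg Zsqrtd.norm h
    rw [Zsqrtd.norm_mul, Zsqrtd.norm_zero] at this
    exact mul_ne_zero (norm_ne hn.1) (norm_ne hn.2) this⟩
  exact NoZeroDivisors.to_isDomain _

lemma exists_round (u N : ℤ) (hN : N ≠ 0) : ∃ q : ℤ, 4 * (u - q * N) ^ 2 ≤ N ^ 2 := by
  refine ⟨round ((u : ℚ) / N), ?_⟩
  have h1 := abs_sub_round ((u : ℚ) / N)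
  have hN' : (N : ℚ) ≠ 0 := by exact_mod_cast hN
  have h2 : ((u : ℚ) / N - round ((u : ℚ) / N)) ^ 2 ≤ (1 / 2) ^ 2 := by
    rw [← sq_abs]; exact pow_le_pow_left₀ (abs_nonneg _) h1 2
  have h3 : (u : ℚ) - round ((u : ℚ) / N) * N = ((u : ℚ) / N - round ((u : ℚ) / N)) * N := by
    field_simp
  have : (4 : ℚ) * ((u : ℚ) - round ((u : ℚ) / N) * N) ^ 2 ≤ (N : ℚ) ^ 2 := by
    rw [h3, mul_pow]; nlinarith [sq_nonneg (N : ℚ)]
  exact_mod_cast this

lemma exists_rem (x y : ℤ√3) (hy : y ≠ 0) :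
    ∃ q : ℤ√3, (x - q * y).norm.natAbs < y.norm.natAbs := by
  have hN := norm_ne hy
  obtain ⟨q1, h1⟩ := exists_round (x * star y).re y.norm hN
  obtain ⟨q2, h2⟩ := exists_round (x * star y).im y.norm hN
  refine ⟨⟨q1, q2⟩, ?_⟩
  have e : (x - ⟨q1, q2⟩ * y).norm * y.norm = ((x * star y).re - q1 * y.norm) ^ 2
      - 3 * ((x * star y).im - q2 * y.norm) ^ 2 := by
    simp [Zsqrtd.norm_def]; ring
  have hpos : 0 < y.norm ^ 2 := by positivity
  have h3 : |(x - ⟨q1, q2⟩ * y).norm * y.norm| < y.norm ^ 2 := by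
    rw [e, abs_lt]
    constructor <;> nlinarith [sq_nonneg ((x * star y).re - q1 * y.norm),
      sq_nonneg ((x * star y).im - q2 * y.norm)]
  rw [abs_mul, ← sq_abs y.norm, sq] at h3
  have h4 := lt_of_mul_lt_mul_right h3 (abs_nonneg _)
  zify
  exact h4

instance : IsPrincipalIdealRing (ℤ√3) := ⟨fun I => by
  by_cases hI : I = ⊥
  · rw [hI]; exact ⟨⟨0, by simp⟩⟩
  obtain ⟨y0, hy0, hy0'⟩ := Submodule.exists_mem_ne_zero_of_ne_bot hI
  have hex : ∃ n : ℕ, ∃ y ∈ I, y ≠ 0 ∧ y.norm.natAbs = n := ⟨_, y0, hy0, hy0', rfl⟩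
  classical
  obtain ⟨y, hy, hy', hn⟩ := Nat.find_spec hex
  refine ⟨⟨y, le_antisymm (fun x hx => ?_) ?_⟩⟩
  · obtain ⟨q, hq⟩ := exists_rem x y hy'
    have hm : x - q * y ∈ I := I.sub_mem hx (I.mul_mem_left _ hy)
    have h0 : x - q * y = 0 := by
      by_contra h
      have := Nat.find_min' hex ⟨_, hm, h, rfl⟩
      omega
    exact Ideal.mem_span_singleton'.mpr ⟨q, (sub_eq_zero.mp h0).symm⟩
  · exact (Ideal.span_singleton_le_iff_mem _).mpr hy⟩

/-- coordinates on `ℤ[√3]` -/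
def coordEquiv : ℤ√3 ≃ₗ[ℤ] ℤ × ℤ where
  toFun z := (z.re, z.im)
  invFun p := ⟨p.1, p.2⟩
  map_add' _ _ := rfl
  map_smul' c z := by ext <;> simp
  left_inv _ := rfl
  right_inv _ := rfl

instance : Module.Free ℤ (ℤ√3) := Module.Free.of_equiv coordEquiv.symm

lemma finrank_O : Module.finrank ℤ (ℤ√3) = 2 := by
  rw [coordEquiv.finrank_eq]; simp

end Crest.Agent.T15.Lat
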