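import Crest.Agent.T15.RtE_78
import Crest.Agent.T15.TopB_88

/-!
# Row 15, block R (helper3): the Hecke algebra at one Taylor-Wiles level

From Hecke operators `T l`, diamonds, the Eichler-Shimura relation at Frobenius elements and an
eigenvector to the data `RT.Lev`.
-/

set_option autoImplicit false
set_option linter.unusedSectionVars false

noncomputable section

namespace Crest.Agent.T15.RG

open Matrix IsLocalRing Function
open Crest.Agent.T15.Ps Crest.Agent.T15.Pat Crest.Agent.T15.Blr Crest.Agent.T15.Top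
open Crest.Agent.T15.C (Om Gam In)
open Crest.Agent.R018.Placesx484

/-- the determinant of a Frobenius element, modulo `3 ^ n` -/
theorem det_frob_mem {R : Type*} [CommRing R] {ρ : Gam →* M2 R} (h : DetCyc ρ) {P : Plc} {g : Gam}
    (h3 : P.rchar ≠ 3) (hg : IsFr P g) (n : ℕ) :
    (ρ g).det - P.rchar ∈ Ideal.span {(3 : R) ^ n} := by
  have : NeZero ((3 ^ n : ℕ) : Om) := ⟨Nat.cast_ne_zero.2 (by positivity)⟩
  obtain ⟨ζ, hζ⟩ := HasEnoughRootsOfUnity.exists_primitiveRoot Om (3 ^ n)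
  refine h g n _ ζ hζ (Place.frob_root P hg (n := 3 ^ n) (fun hd => h3 ?_) hζ.pow_eq_one)
  exact (Nat.prime_dvd_prime_iff_eq P.rchar_prime Nat.prime_three).1
    (P.rchar_prime.dvd_of_dvd_pow hd)

/-- the determinant of a Frobenius element -/
theorem det_frob {O : Type} [CommRing O] [IsDomain O] [IsDiscreteValuationRing O] [hO : Coef O]
    {ρ : Gam →* M2 O} (h : DetCyc ρ) {P : Plc} {g : Gam} (h3 : P.rchar ≠ 3) (hg : IsFr P g) :
    (ρ g).det = P.rchar := by
  refine sub_eq_zero.1 (hO.cpl.toIsHausdorff.haus' _ fun n => ?_)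
  rw [SModEq.zero, smul_eq_mul, Ideal.mul_top]
  refine (?_ : Ideal.span {(3 : O) ^ n} ≤ _) (det_frob_mem h h3 hg n)
  rw [Ideal.span_le, Set.singleton_subset_iff]
  exact Ideal.pow_mem_pow hO.h3 n

theorem Op.prod {M M' : Type*} [Monoid M] [Monoid M'] {f : Gam →* M} {f' : Gam →* M'} (h : Op f)
    (h' : Op f') : Op (f.prod f') := by
  have : {g : Gam | f.prod f' g = 1} = {g | f g = 1} ∩ {g | f' g = 1} := by
    ext g; simp [Prod.ext_iff]
  rw [Op, this]; exact h.inter h'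

/-- Chebotarev: every value is a value at a Frobenius element -/
theorem cheb {M : Type*} [Monoid M] {f : Gam →* M} (h : Op f) {B : ℕ} (hB : B ≠ 0) (g : Gam) :
    ∃ (P : Plc) (φ : Gam), ¬ P.rchar ∣ B ∧ IsFr P φ ∧ f φ = f g := by
  obtain ⟨P, φ, h1, -, h2, -, h3⟩ := Cheb.cheb_inf f.ker h g B
  refine ⟨P, φ, fun hd => (Nat.le_of_dvd (Nat.pos_of_ne_zero hB) hd).not_gt h1, h2, ?_⟩
  rw [← mul_inv_cancel_left g φ, map_mul, MonoidHom.mem_ker.1 h3, mul_one]

theorem opn {M : Type*} [Monoid M] {f : Gam →* M} (h : Op f) : RT.Opn f := by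
  obtain ⟨L, hL, h1⟩ := (krullTopology_mem_nhds_one_iff ℚ Om _).1 (h.mem_nhds (map_one f))
  exact ⟨L, hL, fun g hg => h1 ((IntermediateField.mem_fixingSubgroup_iff _ _).2 hg)⟩

/-- every element of a free algebra involves finitely many variables -/
theorem exists_supp {ι : Type*} (p : FreeAlgebra ℤ ι) :
    ∃ S : Finset ι, p ∈ Algebra.adjoin ℤ (FreeAlgebra.ι ℤ '' (S : Set ι)) := by
  classical
  have hm : ∀ {S S' : Finset ι} {q : FreeAlgebra ℤ ι}, S ⊆ S' →
      q ∈ Algebra.adjoin ℤ (FreeAlgebra.ι ℤ '' (S : Set ι)) →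
      q ∈ Algebra.adjoin ℤ (FreeAlgebra.ι ℤ '' (S' : Set ι)) := fun h hq =>
    Algebra.adjoin_mono (Set.image_mono (Finset.coe_subset.2 h)) hq
  induction p using FreeAlgebra.induction with
  | grade0 r => exact ⟨∅, Subalgebra.algebraMap_mem _ r⟩
  | grade1 i => exact ⟨{i}, Algebra.subset_adjoin ⟨i, by simp, rfl⟩⟩
  | mul p q hp hq =>
    obtain ⟨S, hS⟩ := hp
    obtain ⟨S', hS'⟩ := hq
    exact ⟨S ∪ S', mul_mem (hm Finset.subset_union_left hS) (hm Finset.subset_union_right hS')⟩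
  | add p q hp hq =>
    obtain ⟨S, hS⟩ := hp
    obtain ⟨S', hS'⟩ := hq
    exact ⟨S ∪ S', add_mem (hm Finset.subset_union_left hS) (hm Finset.subset_union_right hS')⟩

variable {O : Type} [CommRing O] [IsLocalRing O] {r : ℕ} {Λ : Type}

/-- Hecke data at one level; `M` is the product of the bad primes -/
structure HIn (M : ℕ) (ρ : Gam →* M2 O) (Pl : Λ → Plc) {C : Type} [CommRing C] [Algebra O C]
    {Δ : Type} [CommGroup Δ] (del : Fin r → Δ) (δ : Gam →* Δ) {H : Type} [AddCommGroup H]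
    [Module O H] [Module C H] (ρH : Gam →* Module.End O H) (T : ℕ → Module.End O H)
    (dia : Δ →* Module.End O H) (b : ℕ → C) (v₀ : H) (σ : Gam →* M2 C) : Prop where
  pos : M ≠ 0
  TT : ∀ l l', l.Prime → ¬ l ∣ M → l'.Prime → ¬ l' ∣ M → T l * T l' = T l' * T l
  TD : ∀ l x, l.Prime → ¬ l ∣ M → T l * dia x = dia x * T l
  cT : ∀ g l, l.Prime → ¬ l ∣ M → ρH g * T l = T l * ρH g
  cD : ∀ g x, ρH g * dia x = dia x * ρH g
  opH : Op ρH
  opδ : Op δ
  opρ : Op (bar C ρ)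
  opσ : Op σ
  det : ∀ (P : Plc) g, ¬ P.rchar ∣ M → IsFr P g → (ρ g).det = P.rchar
  es : ∀ (P : Plc) g, ¬ P.rchar ∣ M → IsFr P g →
    ρH g * ρH g - T P.rchar * ρH g + P.rchar • dia (δ g) = 0
  res : ∀ (P : Plc) g, ¬ P.rchar ∣ M → IsFr P g →
    IsNilpotent (T P.rchar - algebraMap O _ (ρ g).trace)
  tw : ∀ i, ∃ τ, δ τ = del i ∧ ρ τ = 1 ∧ (ρH τ - 1) * (ρH τ - dia (del i)) = 0
  vT : ∀ l, l.Prime → ¬ l ∣ M → T l v₀ = b l • v₀
  vD : ∀ x, dia x v₀ = v₀
  v0 : ∀ z : C, z • v₀ = 0 → z = 0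
  σT : IsTr σ M b
  σI : ∀ l, ∀ g ∈ In (Pl l), bar (ResidueField O) ρ g = 1 → σ g = 1

variable {M : ℕ} {ρ : Gam →* M2 O} {Pl : Λ → Plc} {C : Type} [CommRing C] [Algebra O C]
  {Δ : Type} [CommGroup Δ] {del : Fin r → Δ} {δ : Gam →* Δ} {H : Type} [AddCommGroup H]
  [Module O H] [Module C H] [IsScalarTower O C H] {ρH : Gam →* Module.End O H}
  {T : ℕ → Module.End O H} {dia : Δ →* Module.End O H} {b : ℕ → C} {v₀ : H} {σ : Gam →* M2 C}

/-- the trace operator -/
def tE (ρ : Gam →* M2 O) (δ : Gam →* Δ) (ρH : Gam →* Module.End O H) (dia : Δ →* Module.End O H)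
    (g : Gam) : Module.End O H := ρH g + (ρ g).det • (dia (δ g) * ρH g⁻¹)

lemma HIn.tE_fr (h : HIn M ρ Pl del δ ρH T dia b v₀ σ) {P : Plc} {g : Gam} (hP : ¬ P.rchar ∣ M)
    (hg : IsFr P g) : tE ρ δ ρH dia g = T P.rchar := by
  have h1 := congrArg (· * ρH g⁻¹) (h.es P g hP hg)
  have h2 : ρH g * ρH g⁻¹ = 1 := by rw [← map_mul, mul_inv_cancel, map_one]
  simp only [add_mul, sub_mul, mul_assoc, h2, mul_one, zero_mul, smul_mul_assoc] at h1
  rw [tE, h.det P g hP hg, Nat.cast_smul_eq_nsmul, ← sub_eq_zero, ← h1]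
  abel

lemma smul_congr {a a' : O} (e : algebraMap O C a = algebraMap O C a') (f : Module.End O H) :
    a • f = a' • f := LinearMap.ext fun v => by
  rw [LinearMap.smul_apply, LinearMap.smul_apply, ← algebraMap_smul C a, e, algebraMap_smul]

lemma HIn.exists_fr (h : HIn M ρ Pl del δ ρH T dia b v₀ σ) (g : Gam) :
    ∃ (P : Plc) (φ : Gam), ¬ P.rchar ∣ M ∧ IsFr P φ ∧ tE ρ δ ρH dia g = T P.rchar ∧
      algebraMap O C (ρ φ).trace = algebraMap O C (ρ g).trace ∧ σ φ = σ g := by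
  obtain ⟨P, φ, h1, h2, h3⟩ := cheb (Op.prod (Op.prod h.opH h.opδ) (Op.prod h.opρ h.opσ)) h.pos g
  simp only [MonoidHom.prod_apply, Prod.mk.injEq] at h3
  obtain ⟨⟨e1, e2⟩, e3, e4⟩ := h3
  refine ⟨P, φ, h1, h2, ?_, by rw [← trace_bar, ← trace_bar, e3], e4⟩
  have e5 : ρH φ⁻¹ = ρH g⁻¹ := by
    rw [← mul_one (ρH φ⁻¹), ← map_one ρH, ← mul_inv_cancel g, map_mul, ← e1, ← mul_assoc, ← map_mul,
      inv_mul_cancel, map_one, one_mul]
  rw [← h.tE_fr h1 h2, tE, tE, e1, e2, e5]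
  congr 1
  refine smul_congr (C := C) ?_ _
  rw [RingHom.map_det, RingHom.map_det]
  exact congrArg Matrix.det e3.symm

open scoped IsMulCommutative in
/-- **the Hecke algebra at one level** -/
theorem HIn.lev (h : HIn M ρ Pl del δ ρH T dia b v₀ σ) {n : ℕ} {d : Type} (finC : Finite C)
    (surj : Surjective (algebraMap O C)) (ker : RingHom.ker (algebraMap O C) ≤ maximalIdeal O ^ (n + 1))
    (twg : TWg 3 n del)
    (free : ∃ m : d → H, LinearIndependent C (fun q : Δ × d => dia q.1 (m q.2)) ∧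
      Submodule.span C (Set.range fun q : Δ × d => dia q.1 (m q.2)) = ⊤)
    (sel : RT.Sel r ρ Pl C ρH δ) :
    ∃ (A : Type) (_ : CommRing A) (_ : Algebra O A) (ac : A →ₐ[O] Module.End O H) (dia' : Δ →* A)
      (t : Gam → A) (θ : A →+* C), (∀ x, ac (dia' x) = dia x) ∧ (∀ g, ac (t g) = tE ρ δ ρH dia g) ∧
      RT.Lev 3 n r 1 ρ Pl d C (algebraMap O C) del δ ρH ac dia' t θ := by
  let s : Set (Module.End O H) := T '' {l | l.Prime ∧ ¬ l ∣ M} ∪ Set.range dia
  have hs : ∀ x ∈ s, ∀ y ∈ s, x * y = y * x := by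
    rintro _ (⟨l, ⟨h1, h2⟩, rfl⟩ | ⟨x, rfl⟩) _ (⟨l', ⟨h3, h4⟩, rfl⟩ | ⟨y, rfl⟩)
    · exact h.TT l l' h1 h2 h3 h4
    · exact h.TD l y h1 h2
    · exact (h.TD l' x h3 h4).symm
    · rw [← map_mul, mul_comm, map_mul]
  have := Algebra.isMulCommutative_adjoin O hs
  let A := Algebra.adjoin O s
  have ht : ∀ g, tE ρ δ ρH dia g ∈ A := fun g => by
    obtain ⟨P, φ, h1, -, h3, -⟩ := h.exists_fr g
    exact h3 ▸ Algebra.subset_adjoin (Or.inl ⟨_, ⟨P.rchar_prime, h1⟩, rfl⟩)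
  have hCl : ∀ (f : Module.End O H) (z : C) (v : H), f (z • v) = z • f v := fun f z v => by
    obtain ⟨a, rfl⟩ := surj z
    rw [algebraMap_smul, algebraMap_smul, map_smul]
  have inj : ∀ {z z' : C}, z • v₀ = z' • v₀ → z = z' := fun e =>
    sub_eq_zero.1 (h.v0 _ (by rw [sub_smul, e, sub_self]))
  have ex : ∀ a ∈ A, ∃ z : C, a v₀ = z • v₀ := fun a ha => by
    induction ha using Algebra.adjoin_induction with
    | mem x hx =>
      rcases hx with ⟨l, ⟨h1, h2⟩, rfl⟩ | ⟨x, rfl⟩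
      · exact ⟨_, h.vT l h1 h2⟩
      · exact ⟨1, by rw [h.vD, one_smul]⟩
    | algebraMap c => exact ⟨algebraMap O C c, by simp⟩
    | add x y _ _ hx hy =>
      obtain ⟨a, ha⟩ := hx; obtain ⟨c, hc⟩ := hy
      exact ⟨a + c, by rw [LinearMap.add_apply, ha, hc, add_smul]⟩
    | mul x y _ _ hx hy =>
      obtain ⟨a, ha⟩ := hx; obtain ⟨c, hc⟩ := hy
      exact ⟨a * c, by rw [Module.End.mul_apply, hc, hCl, ha, smul_smul, mul_comm]⟩
  choose f hf using ex
  let θ : A →+* C :=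
    { toFun := fun a => f a.1 a.2
      map_one' := inj (by rw [← hf]; simp)
      map_mul' := fun x y => inj (by
        rw [← hf, Subalgebra.coe_mul, Module.End.mul_apply, hf _ y.2, hCl, hf _ x.2, smul_smul,
          mul_comm])
      map_zero' := inj (by rw [← hf]; simp)
      map_add' := fun x y => inj (by rw [← hf, add_smul, ← hf, ← hf]; rfl) }
  have hθ : ∀ (a : A) (z : C), a.1 v₀ = z • v₀ → θ a = z := fun a z e => inj ((hf _ a.2).symm.trans e)
  refine ⟨A, inferInstance, inferInstance, A.val,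
    dia.codRestrict A fun x => Algebra.subset_adjoin (Or.inr ⟨x, rfl⟩), fun g => ⟨_, ht g⟩, θ,
    fun _ => rfl, fun _ => rfl, finC, surj, ker, twg, free, ?_, opn h.opH, opn h.opδ, opn h.opρ,
    fun _ => rfl, fun g => ?_, fun i => ?_, fun a => hθ _ _ (by simp), fun x => hθ _ _ ?_,
    fun a ha => hθ _ _ ?_, fun l g hg hg1 => ?_, sel⟩
  · rintro g ⟨a, ha⟩
    refine Algebra.commute_of_mem_adjoin_of_forall_mem_commute ha ?_
    rintro _ (⟨l, ⟨h1, h2⟩, rfl⟩ | ⟨x, rfl⟩)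
    · exact h.cT g l h1 h2
    · exact h.cD g x
  · obtain ⟨P, φ, h1, h2, h3, h4, -⟩ := h.exists_fr g
    have h5 := h.res P φ h1 h2
    rw [← h3, Algebra.algebraMap_eq_smul_one, smul_congr h4, ← Algebra.algebraMap_eq_smul_one] at h5
    exact h5
  · obtain ⟨τ, h1, h2, h3⟩ := h.tw i
    refine ⟨τ, h1, h2, ?_⟩
    have h4 := congrArg (· * ρH τ⁻¹) h3
    have h5 : ρH τ * ρH τ⁻¹ = 1 := by rw [← map_mul, mul_inv_cancel, map_one]
    have h6 : ρH τ * (dia (del i) * ρH τ⁻¹) = dia (del i) := by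
      rw [← mul_assoc, h.cD, mul_assoc, h5, mul_one]
    simp only [sub_mul, mul_sub, mul_assoc, h5, h6, mul_one, one_mul, zero_mul] at h4
    rw [pow_one, ← h4]
    change tE ρ δ ρH dia τ - 1 - dia (del i) = _
    rw [tE, h1, h2, det_one, one_smul]
    abel
  · rw [one_smul]; exact h.vD x
  · rw [zero_smul]; exact LinearMap.congr_fun ha v₀
  · obtain ⟨P, φ, h1, h2, h3, -, h5⟩ := h.exists_fr g
    refine hθ _ _ ?_
    change tE ρ δ ρH dia g v₀ = _
    rw [h3, h.vT _ P.rchar_prime h1, ← h.σT P φ h1 h2, h5, h.σI l g hg hg1]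
    simp

/-- **one level of `rt_ex`**: `p` is a polynomial in the `T l`, `l = (pl i).rchar`, that is killed
by the norm -/
theorem HIn.levE [Fintype Δ] (h : HIn M ρ Pl del δ ρH T dia b v₀ σ) {n s : ℕ} {d : Type} [Finite d]
    (finC : Finite C) (surj : Surjective (algebraMap O C))
    (ker : RingHom.ker (algebraMap O C) ≤ maximalIdeal O ^ (n + 1)) (twg : TWg 3 n del)
    (free : ∃ m : d → H, LinearIndependent C (fun q : Δ × d => dia q.1 (m q.2)) ∧
      Submodule.span C (Set.range fun q : Δ × d => dia q.1 (m q.2)) = ⊤)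
    (sel : RT.Sel r ρ Pl C ρH δ) (hd : Nat.card d ≤ s) {ι : Type*} (pl : ι → Plc) (fr : ι → Gam)
    (hfr : ∀ i, IsFr (pl i) (fr i)) {S : Set ι} (hS : ∀ i ∈ S, ¬ (pl i).rchar ∣ M)
    {p : FreeAlgebra ℤ ι} (hp : p ∈ Algebra.adjoin ℤ (FreeAlgebra.ι ℤ '' S))
    (h0 : ∑ x, dia x * FreeAlgebra.lift ℤ (fun i => T (pl i).rchar) p = 0) :
    RT.LevE (maximalIdeal O) 3 n r 1 s ρ Pl
      (FreeAlgebra.lift ℤ (fun i => (MvPolynomial.X (fr i) : MvPolynomial Gam O)) p) := by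
  obtain ⟨A, _, _, ac, dia', t, θ, h1, h2, h3⟩ := h.lev finC surj ker twg free sel
  have hC : (1 : C) ≠ 0 := fun e => (maximalIdeal.isMaximal O).ne_top ((Ideal.eq_top_iff_one _).2
    (Ideal.pow_le_self n.succ_ne_zero (ker (by rw [RingHom.mem_ker, map_one, e]))))
  obtain ⟨m, -, hm⟩ := free
  have : Nonempty d := RT.nonempty_of_span hm (v := v₀) fun e => hC (h.v0 1 (by rw [e, smul_zero]))
  refine ⟨d, C, C, Δ, H, A, inferInstance, inferInstance, inferInstance, inferInstance,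
    inferInstance, inferInstance, inferInstance, inferInstance, inferInstance, inferInstance,
    inferInstance, inferInstance, inferInstance, algebraMap O C, del, δ, ρH, ac, dia', t, θ, hd, surj,
    ker.trans (Ideal.pow_le_pow_right n.le_succ), h3, ?_⟩
  rw [← h0]
  refine Finset.sum_congr rfl fun x _ => ?_
  rw [map_mul, h1]
  congr 1
  clear h0
  induction hp using Algebra.adjoin_induction with
  | mem q hq =>
    obtain ⟨i, hi, rfl⟩ := hq
    rw [FreeAlgebra.lift_ι_apply, FreeAlgebra.lift_ι_apply, MvPolynomial.aeval_X, h2,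
      h.tE_fr (hS i hi) (hfr i)]
  | algebraMap c => simp
  | add q q' _ _ hq hq' => simp only [map_add, hq, hq']
  | mul q q' _ _ hq hq' => simp only [map_mul, hq, hq']

end Crest.Agent.T15.RG

end
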