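import Crest.Agent.T15.LkA_47
import Crest.Agent.T170.EllC_61

/-!
# Row 15, block L (helper47), part B: reduction at a place and the formal group modulo `𝔪`

* `Gd Q ι n ι' n'`: good reduction data; `Gd.exists_rd`: the `ℤ[i]`-linear reduction map with kernel
  `Inf Q`;
* `Gd.sp_tt_smul`: `t(α A) / u ↦ ᾱ a` if `t(A) / u ↦ a` and `A` reduces to the origin;
* `Gd.ratio`: two multiples of `P` in the kernel are compared through their gcd.
-/

set_option autoImplicit false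
set_option linter.unusedSectionVars false

namespace Crest.Agent.T15.Lk

open WeierstrassCurve WeierstrassCurve.Affine Crest.Agent.T170.Ell Crest.Agent.T170.Ell.Place

local notation "ℤ[i]" => GaussianInt

variable {L Om : Type*} [Field L] [Field Om]

/-- `A` reduces to the origin at `Q`. -/
def Inf (Q : Place L Om) {V : Affine L} (A : V.Point) : Prop := A = 0 ∨ (co A).1 ∉ Q.A

/-- good reduction of `E ι n` at the place `Q` -/
structure Gd (Q : Place L Om) (ι n : L) (ι' n' : Om) : Prop where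
  i : Q.Sp ι ι'
  n : Q.Sp n n'
  ne : n' ≠ 0
  two : (2 : Om) ≠ 0

theorem sp_of_sq {Q : Place L Om} {z : L} (h : Q.Sp (z ^ 2) 0) : Q.Sp z 0 := by
  have hm : z ∈ Q.A := mem_of_sq (b := 0) (c := z ^ 2) (zero_mem _) h.mem (by ring)
  have := ((sp_val hm).pow 2).unique h
  exact pow_eq_zero_iff two_ne_zero |>.1 this ▸ sp_val hm

theorem vieta {n x₁ x₂ x₃ l m : L} (e₁ : x₁ + x₂ + x₃ = l ^ 2)
    (e₂ : x₁ * x₂ + x₃ * (x₁ + x₂) = -n - 2 * l * m) (e₃ : x₁ * x₂ * x₃ = m ^ 2) (hm : m ≠ 0)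
    (h₁ : l * x₁ + m ≠ 0) (h₂ : l * x₂ + m ≠ 0) (h₃ : l * x₃ + m ≠ 0) :
    (x₁ / (l * x₁ + m) + x₂ / (l * x₂ + m) + x₃ / (l * x₃ + m)) * (1 - n * (l / m) ^ 2) =
      -2 * n * (l / m) * m⁻¹ := by
  have eD : (l * x₁ + m) * (l * x₂ + m) * (l * x₃ + m) = m * (m ^ 2 - n * l ^ 2) := by
    linear_combination l ^ 3 * e₃ + l ^ 2 * m * e₂ + l * m ^ 2 * e₁
  have eN : x₁ * (l * x₂ + m) * (l * x₃ + m) + x₂ * (l * x₁ + m) * (l * x₃ + m) +
      x₃ * (l * x₁ + m) * (l * x₂ + m) = -2 * n * l * m := by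
    linear_combination 3 * l ^ 2 * e₃ + 2 * l * m * e₂ + m ^ 2 * e₁
  have e : x₁ / (l * x₁ + m) + x₂ / (l * x₂ + m) + x₃ / (l * x₃ + m) =
      -2 * n * l * m / (m * (m ^ 2 - n * l ^ 2)) := by
    rw [← eD, ← eN]
    generalize l * x₁ + m = y₁ at h₁
    generalize l * x₂ + m = y₂ at h₂
    generalize l * x₃ + m = y₃ at h₃
    field_simp
  have hD : m ^ 2 - n * l ^ 2 ≠ 0 := fun h => by
    rw [h, mul_zero] at eD
    exact mul_ne_zero (mul_ne_zero h₁ h₂) h₃ eD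
  rw [e]
  field_simp

namespace Gd

variable {Q : Place L Om} {ι n : L} {ι' n' : Om} (h : Gd Q ι n ι' n')
include h

theorem two' : (2 : L) ≠ 0 := (sp_ofNat (P := Q) 2).ne_zero h.two

theorem ne' : n ≠ 0 := h.n.ne_zero h.ne

theorem y_mem {x y : L} (e : (E ι n).Equation x y) (hx : x ∈ Q.A) : y ∈ Q.A :=
  mem_of_sq (b := 0) (c := x ^ 3 - n * x) (zero_mem _)
    (sub_mem (pow_mem hx 3) (mul_mem h.n.mem hx)) (by rw [← E_equation.1 e]; ring)

variable [DecidableEq L] [DecidableEq Om]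

theorem exists_rd₀ : ∃ r : (E ι n).Point →+ (E ι' n').Point,
    (∀ x y hn, x ∉ Q.A → r (.some x y hn) = 0) ∧
    ∀ x y hn a b, Q.Sp x a → Q.Sp y b → ∃ h', r (.some x y hn) = .some a b h' := by
  let _ : Algebra Q.A Om := Q.φ.toAlgebra
  let W : Affine Q.A := E ⟨ι, h.i.mem⟩ ⟨n, h.n.mem⟩
  have unit : ∀ (z : Q.A), Q.φ z ≠ 0 → IsUnit z := fun z hz =>
    IsUnit.of_mul_eq_one ⟨_, Q.loc z hz⟩ (Subtype.ext (mul_inv_cancel₀ ((sp_coe z).ne_zero hz)))
  have hn' : Q.φ ⟨n, h.n.mem⟩ = n' := h.n.2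
  have : W.IsElliptic := ⟨unit _ (by
    rw [E_Δ, map_mul, map_pow, hn', show (64 : Q.A) = 2 ^ 6 by norm_num, map_pow, map_ofNat]
    exact mul_ne_zero (pow_ne_zero _ h.two) (pow_ne_zero _ h.ne))⟩
  have hQ : Q.Over Q.A := fun r => sp_coe r
  have t₁ : Tw (E ι n) (W⁄L) (RingHom.id L) 1 :=
    ⟨one_ne_zero, by simp [W], by simp [W], by simp [W], by simp [W], by simp [W]⟩
  have t₂ : Tw (W⁄Om) (E ι' n') (RingHom.id Om) 1 :=
    ⟨one_ne_zero, by simp [W], by simp [W], by simp [W],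
      by simp [W, ← hn', RingHom.algebraMap_toAlgebra], by simp [W]⟩
  refine ⟨t₂.hom.comp ((red W hQ).comp t₁.hom), fun x y hn hx => ?_, fun x y hn a b hx hy => ?_⟩
  · simp only [AddMonoidHom.comp_apply, Tw.hom_some]
    rw [red_some_of_not_mem hQ _ (by simpa using hx), map_zero]
  · simp only [AddMonoidHom.comp_apply, Tw.hom_some]
    rw [red_some_of_sp hQ _ (a := a) (b := b) (by simpa using hx) (by simpa using hy), Tw.hom_some]
    simp only [one_pow, RingHom.id_apply, one_mul, exists_prop, and_true]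
    simpa using t₂.nonsingular (nonsingular_sp hQ (t₁.nonsingular hn).1 (a := a) (b := b)
      (by simpa using hx) (by simpa using hy))

variable [Fact (ι ^ 2 = -1)] [Fact (ι' ^ 2 = -1)]

/-- the reduction map: `ℤ[i]`-linear with kernel `Inf Q` -/
theorem exists_rd : ∃ r : (E ι n).Point →+ (E ι' n').Point,
    (∀ A, r A = 0 ↔ Inf Q A) ∧ (∀ (α : ℤ[i]) A, r (α • A) = α • r A) ∧
    ∀ x y hn a b, Q.Sp x a → Q.Sp y b → ∃ h', r (.some x y hn) = .some a b h' := by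
  obtain ⟨r, h0, h1⟩ := h.exists_rd₀
  refine ⟨r, ?_, map_smul_of_J r ?_, h1⟩
  · rintro (_ | ⟨x, y, hn⟩)
    · exact ⟨fun _ => Or.inl rfl, fun _ => map_zero r⟩
    · refine ⟨fun e => Or.inr fun hx => ?_, fun e => h0 x y hn (e.resolve_left (Point.some_ne_zero _))⟩
      obtain ⟨h', e'⟩ := h1 x y hn _ _ (sp_val hx) (sp_val (h.y_mem hn.1 hx))
      exact Point.some_ne_zero _ (e'.symm.trans e)
  · rintro (_ | ⟨x, y, hn⟩)
    · rw [← Point.zero_def, map_zero, map_zero, map_zero]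
    · by_cases hx : x ∈ Q.A
      · have hy := sp_val (h.y_mem hn.1 hx)
        obtain ⟨h', e'⟩ := h1 x y hn _ _ (sp_val hx) hy
        obtain ⟨h'', e''⟩ := h1 _ _ (J_nonsingular hn) _ _ (sp_val hx).neg (h.i.mul hy)
        rw [J_some, e', e'', J_some]
      · rw [J_some, h0 x y hn hx, h0 _ _ _ (fun e => hx (by simpa using neg_mem e)), map_zero]

theorem inf_add {A B : (E ι n).Point} (hA : Inf Q A) (hB : Inf Q B) : Inf Q (A + B) := by
  obtain ⟨r, h0, -, -⟩ := h.exists_rd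
  rw [← h0] at hA hB ⊢
  rw [map_add, hA, hB, add_zero]

theorem inf_smul (α : ℤ[i]) {A : (E ι n).Point} (hA : Inf Q A) : Inf Q (α • A) := by
  obtain ⟨r, h0, h1, -⟩ := h.exists_rd
  rw [← h0] at hA ⊢
  rw [h1, hA, smul_zero]

omit [DecidableEq L] [DecidableEq Om] [Fact (ι ^ 2 = -1)] [Fact (ι' ^ 2 = -1)] in
theorem y_ne {x y : L} (e : (E ι n).Equation x y) (hx : x ∉ Q.A) :
    y ≠ 0 ∧ Q.Sp (x⁻¹ / (x / y) ^ 2) 1 := by
  obtain ⟨hx0, hs⟩ := not_mem_iff.1 hx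
  rw [E_equation] at e
  have s1 : Q.Sp (1 - n * x⁻¹ ^ 2) 1 := by simpa using sp_one.sub (h.n.mul (hs.pow 2))
  have e1 : y ^ 2 = x ^ 3 * (1 - n * x⁻¹ ^ 2) := by
    rw [e]
    field_simp
  have hy : y ≠ 0 := fun h0 => by
    rw [h0] at e1
    exact mul_ne_zero (pow_ne_zero 3 hx0) (s1.ne_zero one_ne_zero) (by simpa using e1.symm)
  refine ⟨hy, ?_⟩
  convert s1 using 1
  rw [div_pow, e1]
  have := s1.ne_zero one_ne_zero
  field_simp

omit [DecidableEq L] [DecidableEq Om] [Fact (ι ^ 2 = -1)] [Fact (ι' ^ 2 = -1)] in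
theorem tt_ne {A : (E ι n).Point} (hA : Inf Q A) (h0 : A ≠ 0) : tt A ≠ 0 := by
  rcases A with _ | ⟨x, y, hn⟩
  · exact absurd rfl h0
  · have hx : x ∉ Q.A := hA.resolve_left h0
    exact div_ne_zero (not_mem_iff.1 hx).1 (h.y_ne hn.1 hx).1

/-- the parameter `t` is additive to first order on the kernel of reduction -/
theorem sp_tt_add {A B : (E ι n).Point} (hA : Inf Q A) (hB : Inf Q B) {u : L} {a b : Om}
    (ha : Q.Sp (tt A / u) a) (hb : Q.Sp (tt B / u) b) : Q.Sp (tt (A + B) / u) (a + b) := by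
  have hAB := h.inf_add hA hB
  rcases A with _ | ⟨x₁, y₁, h₁⟩
  · rw [← Point.zero_def] at ha ⊢
    rw [zero_add, ha.unique (by simpa using sp_zero), zero_add]
    exact hb
  rcases B with _ | ⟨x₂, y₂, h₂⟩
  · rw [← Point.zero_def] at hb ⊢
    rw [add_zero, hb.unique (by simpa using sp_zero), add_zero]
    exact ha
  by_cases hxy : x₁ = x₂ ∧ y₁ = (E ι n).negY x₂ y₂
  · rw [Point.add_of_Y_eq hxy.1 hxy.2]
    have := ha.add hb
    rwa [tt_some, tt_some, hxy.1, hxy.2, E_negY, div_neg, neg_div, neg_add_cancel, ← zero_div u,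
      ← tt_zero (V := E ι n)] at this
  rw [Point.add_some hxy] at hAB ⊢
  have hx₁ : x₁ ∉ Q.A := hA.resolve_left (Point.some_ne_zero _)
  have hx₂ : x₂ ∉ Q.A := hB.resolve_left (Point.some_ne_zero _)
  have hx₃ := hAB.resolve_left (Point.some_ne_zero _)
  have hy₃ := (h.y_ne (nonsingular_add h₁ h₂ hxy).1 hx₃).1
  obtain ⟨hy₁, hz₁⟩ := h.y_ne h₁.1 hx₁
  have hy₂ := (h.y_ne h₂.1 hx₂).1
  have sl := slope_mul h₁.1 h₂.1 hxy
  have cl : y₁ - y₂ = (E ι n).slope x₁ x₂ y₁ y₂ * (x₁ - x₂) := by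
    by_cases hx : x₁ = x₂
    · rw [Y_eq_of_Y_ne h₁.1 h₂.1 hx fun e => hxy ⟨hx, e⟩, hx]
      ring
    · rw [slope_of_X_ne hx, div_mul_cancel₀ _ (sub_ne_zero.2 hx)]
  have q₁ := E_equation.1 h₁.1
  simp only [co_some, tt_some] at hx₃ ha hb ⊢
  set l := (E ι n).slope x₁ x₂ y₁ y₂
  set x₃ := (E ι n).addX x₁ x₂ l with hx₃def
  simp only [E_negY, E_a₁, E_a₂, E_a₄] at sl
  set m := y₁ - l * x₁ with hm
  have e₁ : x₁ + x₂ + x₃ = l ^ 2 := by simp [hx₃def, addX]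
  have e₂ : x₁ * x₂ + x₃ * (x₁ + x₂) = -n - 2 * l * m := by
    linear_combination (x₁ + x₂) * e₁ + sl + l * cl
  have e₃ : x₁ * x₂ * x₃ = m ^ 2 := by
    linear_combination x₁ * x₂ * e₁ + x₁ * sl - q₁ + l * x₁ * cl
  have f₁ : y₁ = l * x₁ + m := by rw [hm]; ring
  have f₂ : y₂ = l * x₂ + m := by linear_combination -cl
  have f₃ : (E ι n).addY x₁ x₂ y₁ l = -(l * x₃ + m) := by
    simp only [addY, negAddY, E_negY, ← hx₃def, hm]
    ring
  obtain ⟨n₁, s₁⟩ := not_mem_iff.1 hx₁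
  obtain ⟨n₂, s₂⟩ := not_mem_iff.1 hx₂
  obtain ⟨n₃, s₃⟩ := not_mem_iff.1 hx₃
  have hm0 : m ≠ 0 := fun h0 => mul_ne_zero (mul_ne_zero n₁ n₂) n₃ (by rw [e₃, h0]; ring)
  rw [f₃] at hy₃ ⊢
  have key := vieta e₁ e₂ e₃ hm0 (f₁ ▸ hy₁) (f₂ ▸ hy₂) (neg_ne_zero.1 hy₃)
  rw [← f₁, ← f₂] at key
  have sl' : Q.Sp (l / m) 0 := sp_of_sq (by
    convert ((s₁.mul s₂).add (s₁.mul s₃)).add (s₂.mul s₃) using 1
    · rw [div_pow, ← e₁, ← e₃]
      field_simp
      ring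
    · simp)
  have sn : Q.Sp (m⁻¹ / (x₁ / y₁)) 0 := sp_of_sq (by
    convert (hz₁.mul s₂).mul s₃ using 1
    · rw [div_pow, inv_pow, ← e₃]
      field_simp
    · simp)
  have sD : Q.Sp (1 - n * (l / m) ^ 2) 1 := by simpa using sp_one.sub (h.n.mul (sl'.pow 2))
  have hD := sD.ne_zero one_ne_zero
  have := (ha.add hb).add
    ((((((sp_ofNat (P := Q) 2).mul h.n).mul sl').mul sn).mul ha).div sD one_ne_zero)
  convert this using 1
  · have e4 : x₃ / -(l * x₃ + m) = x₁ / y₁ + x₂ / y₂ + 2 * n * (l / m) * m⁻¹ / (1 - n * (l / m) ^ 2) := by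
      rw [div_neg]
      have := (eq_div_iff hD).2 key
      linear_combination -this
    rw [e4]
    have hz : x₁ / y₁ ≠ 0 := div_ne_zero n₁ hy₁
    generalize x₁ / y₁ = z at hz
    generalize 1 - n * (l / m) ^ 2 = D at hD
    rw [add_div, add_div]
    congr 1
    field_simp
  · simp

theorem sp_tt_nsmul (k : ℕ) {A : (E ι n).Point} (hA : Inf Q A) {u : L} {a : Om}
    (ha : Q.Sp (tt A / u) a) : Q.Sp (tt (k • A) / u) (k * a) := by
  induction k with
  | zero => simpa using sp_zero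
  | succ k ih =>
    have := h.sp_tt_add (h.inf_smul (k : ℤ) hA) hA (by rwa [intCast_smul, natCast_zsmul]) ha
    rw [intCast_smul, natCast_zsmul] at this
    rw [succ_nsmul]
    convert this using 1
    push_cast
    ring

omit h [DecidableEq Om] [Fact (ι ^ 2 = -1)] [Fact (ι' ^ 2 = -1)] in
theorem tt_neg (A : (E ι n).Point) : tt (-A) = -tt A := by
  rcases A with _ | ⟨x, y, hn⟩
  · rw [← Point.zero_def]
    simp
  · rw [Point.neg_some, tt_some, tt_some, E_negY, div_neg]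

theorem sp_tt_zsmul (k : ℤ) {A : (E ι n).Point} (hA : Inf Q A) {u : L} {a : Om}
    (ha : Q.Sp (tt A / u) a) : Q.Sp (tt (k • A) / u) (k * a) := by
  obtain ⟨k, rfl | rfl⟩ := k.eq_nat_or_neg
  · simpa using h.sp_tt_nsmul k hA ha
  · have := (h.sp_tt_nsmul k hA ha).neg
    rw [neg_smul, tt_neg, natCast_zsmul, neg_div]
    simpa using this

omit h [DecidableEq Om] [Fact (ι' ^ 2 = -1)] in
theorem tt_J (A : (E ι n).Point) : tt (J ι n A) = ι * tt A := by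
  rcases A with _ | ⟨x, y, hn⟩
  · rw [← Point.zero_def]
    simp
  · have e : ι ^ 2 = -1 := Fact.out
    have h0 : ι ≠ 0 := fun h0 => by simp [h0] at e
    rw [J_some, tt_some, tt_some, ← mul_div_mul_left x y h0, ← mul_div_assoc]
    congr 1
    linear_combination -x * e

/-- `t(α A) = ᾱ t(A)` to first order -/
theorem sp_tt_smul (α : ℤ[i]) {A : (E ι n).Point} (hA : Inf Q A) {u : L} {a : Om}
    (ha : Q.Sp (tt A / u) a) : Q.Sp (tt (α • A) / u) (zi ι' α * a) := by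
  have hJ : Inf Q (J ι n A) := I_smul A ▸ h.inf_smul _ hA
  have hj : Q.Sp (tt (J ι n A) / u) (ι' * a) := by
    rw [tt_J, mul_div_assoc]
    exact h.i.mul ha
  have := h.sp_tt_add (intCast_smul α.re A ▸ h.inf_smul _ hA) (intCast_smul α.im (J ι n A) ▸ h.inf_smul _ hJ)
    (h.sp_tt_zsmul α.re hA ha) (h.sp_tt_zsmul α.im hJ hj)
  rw [smul_def, zi_apply]
  convert this using 1
  ring

/-- Two multiples of `P` in the kernel of reduction are compared through their gcd. -/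
theorem ratio {P : (E ι n).Point} {α β : ℤ[i]} (hα : Inf Q (α • P)) (hβ : Inf Q (β • P))
    (h0 : β • P ≠ 0) : ∃ (α₀ β₀ γ : ℤ[i]) (u : L), α = α₀ * γ ∧ β = β₀ * γ ∧ u ≠ 0 ∧
      Q.Sp (tt (α • P) / u) (zi ι' α₀) ∧ Q.Sp (tt (β • P) / u) (zi ι' β₀) := by
  obtain ⟨α₀, e₁⟩ := EuclideanDomain.gcd_dvd_left α β
  obtain ⟨β₀, e₂⟩ := EuclideanDomain.gcd_dvd_right α β
  have e := EuclideanDomain.gcd_eq_gcd_ab α β
  generalize EuclideanDomain.gcd α β = γ at e e₁ e₂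
  have hG : Inf Q (γ • P) := by
    rw [e, add_smul, mul_comm α, mul_comm β, mul_smul, mul_smul]
    exact h.inf_add (h.inf_smul _ hα) (h.inf_smul _ hβ)
  have hG0 : γ • P ≠ 0 := fun e0 => h0 (by rw [e₂, mul_comm, mul_smul, e0, smul_zero])
  have hu := h.tt_ne hG hG0
  have s1 : Q.Sp (tt (γ • P) / tt (γ • P)) 1 := by
    rw [div_self hu]
    exact sp_one
  refine ⟨α₀, β₀, γ, tt (γ • P), by rw [e₁, mul_comm], by rw [e₂, mul_comm], hu, ?_, ?_⟩
  · simpa [← mul_smul, mul_comm α₀, ← e₁] using h.sp_tt_smul α₀ hG s1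
  · simpa [← mul_smul, mul_comm β₀, ← e₂] using h.sp_tt_smul β₀ hG s1

/-- the channel `Z`: a multiple much closer to the origin than another one has index in `𝔭` -/
theorem chan {P : (E ι n).Point} {α β : ℤ[i]} (hα : Inf Q (α • P)) (hβ : Inf Q (β • P))
    (h0 : β • P ≠ 0) (hz : Q.Sp (tt (α • P) / tt (β • P)) 0) : zi ι' α = 0 := by
  obtain ⟨α₀, β₀, γ, u, e₁, -, hu, s₁, s₂⟩ := h.ratio hα hβ h0
  have := hz.mul s₂
  rw [div_mul_div_cancel₀ (h.tt_ne hβ h0), zero_mul] at this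
  rw [e₁, map_mul, s₁.unique this, zero_mul]

/-- reading a quotient of indices -/
theorem read {P : (E ι n).Point} {α β : ℤ[i]} (hα : Inf Q (α • P)) (hβ : Inf Q (β • P))
    (h0 : β • P ≠ 0) (hb : zi ι' β ≠ 0) :
    Q.Sp (tt (α • P) / tt (β • P)) (zi ι' α / zi ι' β) := by
  obtain ⟨α₀, β₀, γ, u, e₁, e₂, hu, s₁, s₂⟩ := h.ratio hα hβ h0
  rw [e₂, map_mul] at hb
  have := s₁.div s₂ (left_ne_zero_of_mul hb)
  rw [div_div_div_cancel_right₀ hu] at this
  convert this using 1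
  rw [e₁, e₂, map_mul, map_mul, mul_div_mul_right _ _ (right_ne_zero_of_mul hb)]

end Gd

end Crest.Agent.T15.Lk
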