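import Crest.Agent.T15.LkA_47

/-!
# Row 15, block L (helper47), part C: `#E[g] ≤ 3 N(g)` for a Gaussian integer `g`

Differential addition gives polynomials `X_m, Z_m` with `x(m A) = X_m(x) / Z_m(x)`; a point killed
by `a + b i` is a root of `X_a Z_b + X_b Z_a`, whose top coefficient is `a² + b²`.
-/

set_option autoImplicit false
set_option linter.unusedSectionVars false

namespace Crest.Agent.T15.Lk

open WeierstrassCurve WeierstrassCurve.Affine Polynomial

local notation "ℤ[i]" => GaussianInt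

variable {k : Type*} [Field k]

/-- degree at most `d`, coefficient `c` in degree `d` -/
def Ld (p : k[X]) (d : ℕ) (c : k) : Prop := p.natDegree ≤ d ∧ p.coeff d = c

namespace Ld

variable {p q : k[X]} {d e : ℕ} {c c' : k}

theorem congr (h : Ld p d c) (h1 : d = e) (h2 : c = c') : Ld p e c' := h1 ▸ h2 ▸ h

theorem mul (h : Ld p d c) (h' : Ld q e c') : Ld (p * q) (d + e) (c * c') :=
  ⟨natDegree_mul_le.trans (add_le_add h.1 h'.1), by
    rw [coeff_mul_add_eq_of_natDegree_le h.1 h'.1, h.2, h'.2]⟩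

theorem add (h : Ld p d c) (h' : Ld q d c') : Ld (p + q) d (c + c') :=
  ⟨natDegree_add_le_of_degree_le h.1 h'.1, by rw [coeff_add, h.2, h'.2]⟩

theorem sub (h : Ld p d c) (h' : Ld q d c') : Ld (p - q) d (c - c') :=
  ⟨(natDegree_sub_le _ _).trans (max_le h.1 h'.1), by rw [coeff_sub, h.2, h'.2]⟩

theorem up (h : Ld p d c) (he : d < e) : Ld p e 0 :=
  ⟨h.1.trans he.le, coeff_eq_zero_of_natDegree_lt (h.1.trans_lt he)⟩

theorem C (c : k) : Ld (C c) 0 c := ⟨by simp, by simp⟩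

theorem X : Ld (X : k[X]) 1 1 := ⟨by simp, by simp⟩

theorem ne_zero (h : Ld p d c) (hc : c ≠ 0) : p ≠ 0 := fun e => hc (by rw [← h.2, e, coeff_zero])

end Ld

variable [DecidableEq k] {ι n : k}

/-- `(u : v)` is the `x`-coordinate of `B`, or `(0 : 0)` -/
def Rp (u v : k) (B : (E ι n).Point) : Prop := ∃ l, u = l * B.xRep 0 ∧ v = l * B.xRep 1

theorem rp_zero (u : k) : Rp u 0 (0 : (E ι n).Point) := ⟨u, by simp, by simp⟩

theorem rp_some {u v x y : k} (h : (E ι n).Nonsingular x y) (e : u = v * x) :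
    Rp u v (.some x y h) := ⟨v, by simpa using e, by simp⟩

theorem Rp.smul {u v : k} {B : (E ι n).Point} (h : Rp u v B) (l : k) : Rp (l * u) (l * v) B := by
  obtain ⟨m, rfl, rfl⟩ := h
  exact ⟨l * m, by ring, by ring⟩

theorem Rp.neg {u v : k} {B : (E ι n).Point} (h : Rp u v B) : Rp u v (-B) := by
  rwa [Rp, Point.xRep_neg]

theorem rp_dbl (B : (E ι n).Point) :
    Rp ((B.xRep 0 ^ 2 + n * B.xRep 1 ^ 2) ^ 2)
      (4 * (B.xRep 0 * B.xRep 1 * (B.xRep 0 ^ 2 - n * B.xRep 1 ^ 2))) (B + B) := by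
  rcases B with _ | ⟨x, y, h⟩
  · rw [← Point.zero_def]
    simpa using rp_zero 1
  have e := E_equation.1 h.1
  simp only [Point.xRep_some, Matrix.cons_val_zero, Matrix.cons_val_one]
  by_cases hy : y = (E ι n).negY x y
  · rw [Point.add_self_of_Y_eq hy]
    rw [E_negY] at hy
    rw [show 4 * (x * 1 * (x ^ 2 - n * 1 ^ 2)) = 0 by linear_combination (-4) * e + 2 * y * hy]
    exact rp_zero _
  · rw [Point.add_self_of_Y_ne hy]
    refine rp_some _ ?_
    have sl := div_mul_cancel₀ (3 * x ^ 2 - n) (sub_ne_zero.2 hy)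
    rw [slope_of_Y_ne rfl hy]
    simp only [addX, E_a₁, E_a₂, E_a₄, E_negY, mul_zero, zero_mul, add_zero, sub_zero,
      ← sub_eq_add_neg] at sl ⊢
    generalize (3 * x ^ 2 - n) / (y - -y) = l at sl
    linear_combination (4 * l ^ 2) * e - (2 * l * y + 3 * x ^ 2 - n) * sl

theorem addX_mul {x₁ y₁ x₂ y₂ : k} (e₁ : y₁ ^ 2 = x₁ ^ 3 - n * x₁) (e₂ : y₂ ^ 2 = x₂ ^ 3 - n * x₂)
    (hx : x₁ ≠ x₂) : (E ι n).addX x₁ x₂ ((E ι n).slope x₁ x₂ y₁ y₂) * (x₁ - x₂) ^ 2 =
      (x₁ + x₂) * (x₁ * x₂ - n) - 2 * y₁ * y₂ := by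
  have sl := div_mul_cancel₀ (y₁ - y₂) (sub_ne_zero.2 hx)
  rw [slope_of_X_ne hx]
  simp only [addX, E_a₁, E_a₂, zero_mul, add_zero, sub_zero]
  generalize (y₁ - y₂) / (x₁ - x₂) = l at sl
  linear_combination (l * (x₁ - x₂) + (y₁ - y₂)) * sl + e₁ + e₂

theorem rp_add {B D : (E ι n).Point} {x y : k} {h : (E ι n).Nonsingular x y}
    (e : D - B = .some x y h) :
    Rp ((B.xRep 0 * D.xRep 0 + n * (B.xRep 1 * D.xRep 1)) ^ 2)
      (x * (B.xRep 0 * D.xRep 1 - D.xRep 0 * B.xRep 1) ^ 2) (B + D) := by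
  rcases B with _ | ⟨x₁, y₁, h₁⟩
  · rw [← Point.zero_def] at e ⊢
    rw [sub_zero] at e
    rw [e, zero_add]
    exact rp_some _ (by simp; ring)
  rcases D with _ | ⟨x₂, y₂, h₂⟩
  · rw [← Point.zero_def] at e ⊢
    rw [zero_sub, Point.neg_some] at e
    obtain ⟨rfl, -⟩ := Point.some.inj e
    rw [add_zero]
    exact rp_some _ (by simp; ring)
  simp only [Point.xRep_some, Matrix.cons_val_zero, Matrix.cons_val_one]
  by_cases hx : x₁ = x₂
  · rcases (Point.X_eq_iff (h₁ := h₁) (h₂ := h₂)).1 hx with e' | e'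
    · rw [e', sub_self] at e
      exact absurd e.symm (Point.some_ne_zero _)
    · rw [e', neg_add_cancel, hx]
      simpa using rp_zero _
  · rw [Point.add_of_X_ne hx]
    refine rp_some _ ?_
    rw [sub_eq_add_neg, add_comm, Point.neg_some, Point.add_of_X_ne hx] at e
    obtain ⟨rfl, -⟩ := Point.some.inj e
    have e₁ := E_equation.1 h₁.1
    have e₂ := E_equation.1 h₂.1
    have k₁ := addX_mul (ι := ι) e₁ e₂ hx
    have k₂ := addX_mul (ι := ι) (y₁ := -y₁) (by rw [neg_sq, e₁]) e₂ hx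
    rw [E_negY]
    generalize (E ι n).addX x₁ x₂ ((E ι n).slope x₁ x₂ y₁ y₂) = s at k₁
    generalize (E ι n).addX x₁ x₂ ((E ι n).slope x₁ x₂ (-y₁) y₂) = t at k₂
    apply mul_left_cancel₀ (pow_ne_zero 2 (sub_ne_zero.2 hx))
    linear_combination -(t * (x₁ - x₂) ^ 2) * k₁ - ((x₁ + x₂) * (x₁ * x₂ - n) - 2 * y₁ * y₂) * k₂
      + 4 * y₂ ^ 2 * e₁ + 4 * (x₁ ^ 3 - n * x₁) * e₂

variable (ι n) in
/-- polynomials for the `x`-coordinate of `m A` -/
theorem exists_poly (m : ℕ) (hm : 0 < m) : ∃ (U V : k[X]) (d : ℕ), Ld U (d + 1) 1 ∧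
    Ld V d ((m : k) ^ 2) ∧ 2 * d + 3 ≤ 3 * m ^ 2 ∧
    ∀ x y h, Rp (U.eval x) (V.eval x) (m • (.some x y h : (E ι n).Point)) := by
  induction m using Nat.strong_induction_on with
  | _ m ih =>
  obtain ⟨j, rfl | rfl⟩ := m.even_or_odd'
  · obtain ⟨U, V, d, hU, hV, hd, H⟩ := ih j (by omega) (by omega)
    have hV2 : Ld (C n * (V * V)) (d + 1 + (d + 1)) 0 := ((Ld.C n).mul (hV.mul hV)).up (by omega)
    have h1 := (hU.mul hU).add hV2
    refine ⟨(U * U + C n * (V * V)) * (U * U + C n * (V * V)),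
      C 4 * (U * V * (U * U - C n * (V * V))), 4 * d + 3, (h1.mul h1).congr (by ring) (by simp),
      ((Ld.C 4).mul ((hU.mul hV).mul ((hU.mul hU).sub hV2))).congr (by ring) (by push_cast; ring),
      by nlinarith, fun x y h => ?_⟩
    obtain ⟨l, e₁, e₂⟩ := H x y h
    have := (rp_dbl (j • (.some x y h : (E ι n).Point))).smul (l ^ 4)
    rw [two_mul, add_nsmul]
    convert this using 1 <;> simp only [eval_mul, eval_add, eval_sub, eval_C, e₁, e₂] <;> ring
  · rcases Nat.eq_zero_or_pos j with rfl | hj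
    · exact ⟨X, C 1, 0, Ld.X, (Ld.C 1).congr rfl (by simp), by norm_num, fun x y h => by
        simpa using rp_some h (by simp)⟩
    obtain ⟨U, V, d, hU, hV, hd, H⟩ := ih j (by omega) hj
    obtain ⟨U', V', d', hU', hV', hd', H'⟩ := ih (j + 1) (by omega) (by omega)
    have h1 := (hU.mul hU').add (((Ld.C n).mul (hV.mul hV')).up (by omega))
    have h2 := (hU.mul hV').sub ((hU'.mul hV).congr (by ring) rfl)
    refine ⟨(U * U' + C n * (V * V')) * (U * U' + C n * (V * V')),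
      X * ((U * V' - U' * V) * (U * V' - U' * V)), 2 * (d + d') + 3,
      (h1.mul h1).congr (by ring) (by simp),
      (Ld.X.mul (h2.mul h2)).congr (by ring) (by push_cast; ring), by nlinarith, fun x y h => ?_⟩
    obtain ⟨l, e₁, e₂⟩ := H x y h
    obtain ⟨l', e₁', e₂'⟩ := H' x y h
    have := (rp_add (B := j • (.some x y h : (E ι n).Point)) (D := (j + 1) • .some x y h)
      (by rw [succ_nsmul, add_sub_cancel_left])).smul ((l * l') ^ 2)
    rw [show 2 * j + 1 = j + (j + 1) by ring, add_nsmul]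
    convert this using 1 <;>
      simp only [eval_mul, eval_add, eval_sub, eval_C, eval_X, e₁, e₂, e₁', e₂'] <;> ring

theorem Rp.of_natAbs {u v : k} {a : ℤ} {A : (E ι n).Point} (h : Rp u v (a.natAbs • A)) :
    Rp u v (a • A) := by
  rcases a.natAbs_eq with e | e
  · rwa [e, natCast_zsmul]
  · rw [e, neg_smul, natCast_zsmul]
    exact h.neg

variable [Fact (ι ^ 2 = -1)]

theorem exists_killer (g : ℤ[i]) (hg : ((g.norm : ℤ) : k) ≠ 0) : ∃ Φ : k[X], Φ ≠ 0 ∧
    (2 * Φ.natDegree + 1 : ℤ) ≤ 3 * g.norm ∧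
    ∀ x y h, g • (.some x y h : (E ι n).Point) = 0 → Φ.eval x = 0 := by
  have hN : g.norm = g.re ^ 2 + g.im ^ 2 := by rw [Zsqrtd.norm_def]; ring
  have sq : ∀ a : ℤ, ((a.natAbs : ℕ) : k) ^ 2 = (a : k) ^ 2 := fun a => by
    rw [← Int.cast_natCast, ← Int.cast_pow, Int.natAbs_sq, Int.cast_pow]
  have one : ∀ a : ℤ, g.norm = a ^ 2 → ∃ Φ : k[X], Φ ≠ 0 ∧ (2 * Φ.natDegree + 1 : ℤ) ≤ 3 * g.norm ∧
      ∀ x y h, a • (.some x y h : (E ι n).Point) = 0 → Φ.eval x = 0 := fun a ha => by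
    have h0 : a ≠ 0 := fun e => hg (by simp [ha, e])
    obtain ⟨U, V, d, -, hV, hd, H⟩ := exists_poly ι n a.natAbs (Int.natAbs_pos.2 h0)
    refine ⟨V, hV.ne_zero (by rwa [sq, ← Int.cast_pow, ← ha]), ?_, fun x y h e => ?_⟩
    · have := hV.1
      zify at hd this
      rw [sq_abs] at hd
      omega
    · obtain ⟨l, -, e₂⟩ := (H x y h).of_natAbs
      simpa [e] using e₂
  by_cases hb : g.im = 0
  · obtain ⟨Φ, h1, h2, h3⟩ := one g.re (by simp [hN, hb])
    exact ⟨Φ, h1, h2, fun x y h e => h3 x y h (by simpa [smul_def, hb] using e)⟩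
  by_cases ha : g.re = 0
  · obtain ⟨Φ, h1, h2, h3⟩ := one g.im (by simp [hN, ha])
    refine ⟨Φ, h1, h2, fun x y h e => h3 x y h ((tw_J ι n).hom_injective ?_)⟩
    rw [smul_def, ha, zero_smul, zero_add] at e
    rw [map_zero, map_zsmul]
    exact e
  obtain ⟨U, V, d, hU, hV, hd, H⟩ := exists_poly ι n _ (Int.natAbs_pos.2 ha)
  obtain ⟨U', V', d', hU', hV', hd', H'⟩ := exists_poly ι n _ (Int.natAbs_pos.2 hb)
  have hΦ := (hU.mul hV').add ((hU'.mul hV).congr (by ring) rfl)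
  refine ⟨U * V' + U' * V, hΦ.ne_zero ?_, ?_, fun x y h e => ?_⟩
  · rw [sq, sq]
    convert hg using 1
    rw [hN]
    push_cast
    ring
  · have := hΦ.1
    zify at hd hd' this
    rw [sq_abs] at hd hd'
    omega
  · obtain ⟨l, e₁, e₂⟩ := (H x y h).of_natAbs
    obtain ⟨l', e₁', e₂'⟩ := (H' x y h).of_natAbs
    rw [smul_def, ← map_zsmul, add_eq_zero_iff_eq_neg] at e
    rw [e, Point.xRep_neg] at e₁ e₂
    rw [eval_add, eval_mul, eval_mul, e₁, e₂, e₁', e₂']
    generalize g.im • (Point.some x y h : (E ι n).Point) = B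
    rcases B with _ | ⟨x', y', h'⟩
    · rw [← Point.zero_def]
      simp
    · rw [J_some]
      simp
      ring

/-- **`#E[g] ≤ 3 N(g)`** when the characteristic does not divide `N(g)`. -/
theorem card_tors_le (g : ℤ[i]) (hg : ((g.norm : ℤ) : k) ≠ 0) (S : Finset (E ι n).Point)
    (hS : ∀ A ∈ S, g • A = 0) : (S.card : ℤ) ≤ 3 * g.norm := by
  classical
  obtain ⟨Φ, h0, hd, H⟩ := exists_killer (ι := ι) (n := n) g hg
  have h1 : (S.erase 0).card ≤ 2 * Φ.roots.toFinset.card := by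
    refine Finset.card_le_mul_card_image_of_maps_to (f := fun A => (co A).1) ?_ 2 fun x _ => ?_
    · rintro (_ | ⟨x, y, h⟩) hA
      · exact absurd rfl (Finset.mem_erase.1 hA).1
      · simpa [h0] using H x y h (hS _ (Finset.mem_erase.1 hA).2)
    · rcases Finset.eq_empty_or_nonempty ((S.erase 0).filter fun A => (co A).1 = x) with e | ⟨A, hA⟩
      · simp [e]
      · refine (Finset.card_le_card (t := {A, -A}) fun B hB => ?_).trans Finset.card_le_two
        simp only [Finset.mem_filter, Finset.mem_erase] at hA hB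
        rcases A with _ | ⟨x₁, y₁, h₁⟩
        · exact absurd rfl hA.1.1
        rcases B with _ | ⟨x₂, y₂, h₂⟩
        · exact absurd rfl hB.1.1
        simpa using (Point.X_eq_iff (h₁ := h₂) (h₂ := h₁)).1 (hB.2.trans hA.2.symm)
  have h2 := (Multiset.toFinset_card_le Φ.roots).trans (card_roots' Φ)
  have h3 : S.card ≤ (S.erase 0).card + 1 := by
    have := Finset.pred_card_le_card_erase (s := S) (a := 0)
    omega
  omega

end Crest.Agent.T15.Lk
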