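import Crest.Agent.T15.Dio_15
import Crest.Agent.T15.LkA_47

/-!
# Row 15, block L (D): Diophantine maps and Diophantine families of points of `E ι n`
-/

set_option autoImplicit false
set_option linter.unusedSectionVars false

namespace Crest.Agent.T15

attribute [fun_prop] DioF

variable {V W X : Type*} [AddCommGroup V] [Module ℚ V] [AddCommGroup W] [Module ℚ W]
  [AddCommGroup X] [Module ℚ X]

namespace DioF

theorem congr {f g : V → W} (h : DioF f) (e : ∀ x, f x = g x) : DioF g := funext e ▸ h

@[fun_prop] theorem id' [Module.Finite ℚ V] : DioF fun x : V => x := PolM.dioF PolM.id'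

@[fun_prop] theorem const [Module.Finite ℚ W] (c : W) : DioF fun _ : V => c :=
  PolM.dioF (PolM.const c)

@[fun_prop] theorem comp [Module.Finite ℚ W] {g : W → X} {f : V → W} (hg : DioF g) (hf : DioF f) :
    DioF fun x => g (f x) :=
  (Dio.ex (R := fun (p : V × X) (w : W) => f p.1 = w ∧ g w = p.2)
    (Dio.and (Dio.comp hf (g := fun q : (V × X) × W => (q.1.1, q.2)) (by fun_prop))
      (Dio.comp hg (g := fun q : (V × X) × W => (q.2, q.1.2)) (by fun_prop)))).congr
    fun _ => by simp

/-- precomposition with a polynomial map (no finiteness needed) -/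
theorem compP {g : W → X} {f : V → W} (hg : DioF g) (hf : PolM f) : DioF fun x => g (f x) :=
  Dio.comp hg (g := fun q : V × X => (f q.1, q.2)) (by fun_prop)

/-- postcomposition with a polynomial map -/
theorem pol [Module.Finite ℚ W] [Module.Finite ℚ X] {g : W → X} {f : V → W} (hg : PolM g)
    (hf : DioF f) : DioF fun x => g (f x) := comp hg.dioF hf

@[fun_prop] theorem prodMk {f : V → W} {g : V → X} (hf : DioF f) (hg : DioF g) :
    DioF fun x => (f x, g x) :=
  (Dio.and (Dio.comp hf (g := fun q : V × W × X => (q.1, q.2.1)) (by fun_prop))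
    (Dio.comp hg (g := fun q : V × W × X => (q.1, q.2.2)) (by fun_prop))).congr
    fun _ => by simp [Prod.ext_iff]

@[fun_prop] theorem fst [Module.Finite ℚ W] [Module.Finite ℚ X] {f : V → W × X} (hf : DioF f) :
    DioF fun x => (f x).1 := pol (g := fun p : W × X => p.1) (by fun_prop) hf

@[fun_prop] theorem snd [Module.Finite ℚ W] [Module.Finite ℚ X] {f : V → W × X} (hf : DioF f) :
    DioF fun x => (f x).2 := pol (g := fun p : W × X => p.2) (by fun_prop) hf

section pi

variable {ι : Type*} {Y : ι → Type*} [∀ i, AddCommGroup (Y i)] [∀ i, Module ℚ (Y i)]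

@[fun_prop] theorem pi [Finite ι] {f : V → ∀ i, Y i} (h : ∀ i, DioF fun x => f x i) : DioF f :=
  (Dio.forall_fin fun i => Dio.comp (h i) (g := fun q : V × (∀ i, Y i) => (q.1, q.2 i))
    (by fun_prop)).congr fun _ => funext_iff.symm

@[fun_prop] theorem apply [Finite ι] [∀ i, Module.Finite ℚ (Y i)] (i : ι) :
    DioF fun f : ∀ i, Y i => f i := (PolM.apply i).dioF

end pi

section fin

variable [Module.Finite ℚ W]

@[fun_prop] theorem add {f g : V → W} (hf : DioF f) (hg : DioF g) : DioF fun x => f x + g x :=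
  pol (g := fun p : W × W => p.1 + p.2) (by fun_prop) (hf.prodMk hg)

@[fun_prop] theorem neg {f : V → W} (hf : DioF f) : DioF fun x => -f x :=
  pol (g := fun p : W => -p) (by fun_prop) hf

@[fun_prop] theorem sub {f g : V → W} (hf : DioF f) (hg : DioF g) : DioF fun x => f x - g x :=
  pol (g := fun p : W × W => p.1 - p.2) (by fun_prop) (hf.prodMk hg)

@[fun_prop] theorem smul {f : V → ℚ} {g : V → W} (hf : DioF f) (hg : DioF g) :
    DioF fun x => f x • g x :=
  pol (g := fun p : ℚ × W => p.1 • p.2) (by fun_prop) (hf.prodMk hg)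

@[fun_prop] theorem lin [Module.Finite ℚ X] (L : W →ₗ[ℚ] X) {f : V → W} (hf : DioF f) :
    DioF fun x => L (f x) := pol (g := fun p => L p) (by fun_prop) hf

@[fun_prop] theorem sum {ι : Type*} (s : Finset ι) {f : ι → V → W} (h : ∀ i ∈ s, DioF (f i)) :
    DioF fun x => ∑ i ∈ s, f i x := by
  classical
  induction s using Finset.induction_on with
  | empty => simpa using const (0 : W)
  | insert a s ha ih =>
    simp only [Finset.sum_insert ha]
    exact (h a (Finset.mem_insert_self _ _)).add (ih fun i hi => h i (Finset.mem_insert_of_mem hi))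

end fin

/-- definition by cases -/
theorem ite {P : V → Prop} [DecidablePred P] {f g : V → W} (hP : Dio P) (hN : Dio fun x => ¬ P x)
    (hf : DioF f) (hg : DioF g) : DioF fun x => if P x then f x else g x :=
  (Dio.or (Dio.and (hP.comp (g := fun q : V × W => q.1) (by fun_prop)) hf)
    (Dio.and (hN.comp (g := fun q : V × W => q.1) (by fun_prop)) hg)).congr fun q => by
      by_cases h : P q.1 <;> simp [h]

section alg

variable {A : Type*} [Ring A] [Algebra ℚ A] [Module.Finite ℚ A]

@[fun_prop] theorem mul {f g : V → A} (hf : DioF f) (hg : DioF g) : DioF fun x => f x * g x :=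
  pol (g := fun p : A × A => p.1 * p.2) (by fun_prop) (hf.prodMk hg)

@[fun_prop] theorem pow {f : V → A} (hf : DioF f) (k : ℕ) : DioF fun x => f x ^ k :=
  pol (g := fun p : A => p ^ k) (by fun_prop) hf

variable {B : Type*} [Ring B] [Algebra ℚ B] [Module.Finite ℚ B]

@[fun_prop] theorem algHom (φ : A →ₐ[ℚ] B) {f : V → A} (hf : DioF f) : DioF fun x => φ (f x) :=
  pol (g := fun p => φ p) (by fun_prop) hf

@[fun_prop] theorem algEquiv (φ : A ≃ₐ[ℚ] B) {f : V → A} (hf : DioF f) : DioF fun x => φ (f x) :=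
  pol (g := fun p => φ p) (by fun_prop) hf

@[fun_prop] theorem ringHom (φ : A →+* B) {f : V → A} (hf : DioF f) : DioF fun x => φ (f x) :=
  pol (g := fun p => φ p) (by fun_prop) hf

@[fun_prop] theorem ringEquiv (φ : A ≃+* B) {f : V → A} (hf : DioF f) : DioF fun x => φ (f x) :=
  pol (g := fun p => φ p) (by fun_prop) hf

end alg

section field

variable {F : Type*} [Field F] [Algebra ℚ F] [Module.Finite ℚ F]

@[fun_prop] theorem inv {f : V → F} (hf : DioF f) : DioF fun x => (f x)⁻¹ :=
  comp (g := fun y : F => y⁻¹) (Dio.inv (R := fun (p : F × F) (w : F) => w = p.2)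
    (Dio.eq (by fun_prop) (by fun_prop)) (f := fun p : F × F => p.1) (by fun_prop)) hf

@[fun_prop] theorem div {f g : V → F} (hf : DioF f) (hg : DioF g) : DioF fun x => f x / g x :=
  (hf.mul hg.inv).congr fun _ => (div_eq_mul_inv _ _).symm

@[fun_prop] theorem algebraMap' {K : Type*} [Field K] [Algebra ℚ K] [Module.Finite ℚ K]
    [Algebra K F] {f : V → K} (hf : DioF f) : DioF fun x => algebraMap K F (f x) :=
  hf.ringHom (algebraMap K F)

end field

@[fun_prop] theorem ratCast {F : Type*} [Field F] [CharZero F] [Module.Finite ℚ F] {f : V → ℚ}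
    (hf : DioF f) : DioF fun x => (f x : F) := pol (g := fun p : ℚ => (p : F)) (by fun_prop) hf

end DioF

namespace Dio

theorem eqF [Module.Finite ℚ W] {f g : V → W} (hf : DioF f) (hg : DioF g) :
    Dio fun x => f x = g x :=
  Dio.compF (S := fun p : W × W => p.1 = p.2) (Dio.eq (by fun_prop) (by fun_prop)) (hf.prodMk hg)

theorem neF [Module.Finite ℚ W] {f g : V → W} (hf : DioF f) (hg : DioF g) :
    Dio fun x => f x ≠ g x :=
  Dio.compF (S := fun p : W × W => p.1 ≠ p.2) (Dio.ne (by fun_prop) (by fun_prop)) (hf.prodMk hg)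

end Dio

namespace Lk

open WeierstrassCurve WeierstrassCurve.Affine

local notation "ℤ[i]" => GaussianInt

section pt

variable {F : Type*} [Field F]

open Classical in
/-- the point with given coordinates (`0` off the curve) -/
noncomputable def pt (ι n : F) (v : F × F) : (E ι n).Point :=
  if h : (E ι n).Nonsingular v.1 v.2 then .some v.1 v.2 h else 0

variable {ι n : F}

theorem pt_some {x y : F} (h : (E ι n).Nonsingular x y) : pt ι n (x, y) = .some x y h := dif_pos h

theorem pt_of_not {v : F × F} (h : ¬ (E ι n).Nonsingular v.1 v.2) : pt ι n v = 0 := dif_neg h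

theorem not_nonsingular_zero_one : ¬ (E ι n).Nonsingular 0 1 := fun h => by
  simpa using E_equation.1 h.1

@[simp] theorem pt_co (A : (E ι n).Point) : pt ι n (co A) = A := by
  rcases A with _ | ⟨x, y, h⟩
  · exact pt_of_not not_nonsingular_zero_one
  · exact pt_some h

theorem co_eq_iff {A : (E ι n).Point} : co A = (0, 1) ↔ A = 0 :=
  (co_injective (ι := ι) (n := n)).eq_iff' co_zero

open Classical in
theorem co_pt (h2 : (2 : F) ≠ 0) (hn : n ≠ 0) (v : F × F) :
    co (pt ι n v) = if v.2 ^ 2 = v.1 ^ 3 - n * v.1 then v else (0, 1) := by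
  split_ifs with h
  · rw [pt, dif_pos ((E_nonsingular h2 hn).2 h)]
    rfl
  · rw [pt_of_not (mt (E_nonsingular h2 hn).1 h)]
    rfl

theorem exists_co_iff (h2 : (2 : F) ≠ 0) (hn : n ≠ 0) (v : F × F) :
    (∃ A : (E ι n).Point, co A = v) ↔ v = (0, 1) ∨ v.2 ^ 2 = v.1 ^ 3 - n * v.1 := by
  constructor
  · rintro ⟨_ | ⟨x, y, h⟩, rfl⟩
    · exact Or.inl rfl
    · exact Or.inr (E_equation.1 h.1)
  · rintro (rfl | h)
    · exact ⟨0, rfl⟩
    · exact ⟨.some v.1 v.2 ((E_nonsingular h2 hn).2 h), rfl⟩

variable [DecidableEq F]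

/-- the slope in coordinates -/
def slc (n : F) (a b : F × F) : F :=
  if a.1 = b.1 then (3 * a.1 ^ 2 - n) / (2 * a.2) else (a.2 - b.2) / (a.1 - b.1)

/-- addition in coordinates -/
def adc (n : F) (a b : F × F) : F × F :=
  if a = (0, 1) then b else if b = (0, 1) then a else if (a.1, a.2) = (b.1, -b.2) then (0, 1) else
    (slc n a b ^ 2 - a.1 - b.1, -(slc n a b * (slc n a b ^ 2 - a.1 - b.1 - a.1) + a.2))

theorem co_add (A B : (E ι n).Point) : co (A + B) = adc n (co A) (co B) := by
  rcases A with _ | ⟨x₁, y₁, h₁⟩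
  · change co (0 + B) = adc n (0, 1) (co B)
    rw [zero_add, adc, if_pos rfl]
  have e₁ : (x₁, y₁) ≠ (0, 1) := fun e => Point.some_ne_zero h₁ (co_eq_iff.1 e)
  rcases B with _ | ⟨x₂, y₂, h₂⟩
  · change co (.some x₁ y₁ h₁ + 0) = adc n (x₁, y₁) (0, 1)
    rw [add_zero, adc, if_neg e₁, if_pos rfl]
    rfl
  have e₂ : (x₂, y₂) ≠ (0, 1) := fun e => Point.some_ne_zero h₂ (co_eq_iff.1 e)
  rw [co_some, co_some, adc, if_neg e₁, if_neg e₂]
  by_cases hxy : x₁ = x₂ ∧ y₁ = (E ι n).negY x₂ y₂
  · rw [Point.add_of_Y_eq hxy.1 hxy.2, if_pos (by simpa using hxy)]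
    rfl
  · rw [Point.add_some hxy, if_neg (by simpa using hxy), co_some]
    have hs : (E ι n).slope x₁ x₂ y₁ y₂ = slc n (x₁, y₁) (x₂, y₂) := by
      unfold slc
      by_cases hx : x₁ = x₂
      · rw [if_pos hx, slope_of_Y_ne hx fun h => hxy ⟨hx, h⟩]
        simp [two_mul, sub_eq_add_neg]
      · rw [if_neg hx, slope_of_X_ne hx]
    rw [hs]
    simp [Affine.addY, Affine.negAddY, Affine.addX]

theorem co_neg (A : (E ι n).Point) :
    co (-A) = if co A = (0, 1) then (0, 1) else ((co A).1, -(co A).2) := by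
  rcases A with _ | ⟨x, y, h⟩
  · exact (if_pos rfl).symm
  · have e : (x, y) ≠ (0, 1) := fun e => Point.some_ne_zero h (co_eq_iff.1 e)
    rw [Point.neg_some, co_some, co_some, if_neg e, E_negY]

theorem co_J [Fact (ι ^ 2 = -1)] (A : (E ι n).Point) :
    co (J ι n A) = if co A = (0, 1) then (0, 1) else (-(co A).1, ι * (co A).2) := by
  rcases A with _ | ⟨x, y, h⟩
  · exact (if_pos rfl).symm
  · have e : (x, y) ≠ (0, 1) := fun e => Point.some_ne_zero h (co_eq_iff.1 e)
    rw [J_some, co_some, co_some, if_neg e]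

theorem co_hom {F' : Type*} [Field F'] [DecidableEq F'] {ι' n' : F'} {f : F →+* F'} {u : F'}
    (h : Tw (E ι n) (E ι' n') f u) (A : (E ι n).Point) :
    co (h.hom A) = if co A = (0, 1) then (0, 1) else (u ^ 2 * f (co A).1, u ^ 3 * f (co A).2) := by
  rcases A with _ | ⟨x, y, hn⟩
  · exact (if_pos rfl).symm
  · have e : (x, y) ≠ (0, 1) := fun e => Point.some_ne_zero hn (co_eq_iff.1 e)
    rw [h.hom_some, co_some, co_some, if_neg e]

end pt

section dpt

variable {F : Type*} [Field F] [NumberField F] {ι n : F}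

/-- a Diophantine family of points -/
def DPt (f : V → (E ι n).Point) : Prop := DioF fun v => co (f v)

theorem dio_on (hn : n ≠ 0) : Dio fun v : F × F => ∃ A : (E ι n).Point, co A = v :=
  (Dio.or (Dio.eq (by fun_prop) (by fun_prop)) (Dio.eq (by fun_prop) (by fun_prop))).congr
    fun v => (exists_co_iff two_ne_zero hn v).symm

theorem dioF_slc [DecidableEq F] : DioF fun p : (F × F) × F × F => slc n p.1 p.2 :=
  DioF.ite (Dio.eq (by fun_prop) (by fun_prop)) (Dio.ne (by fun_prop) (by fun_prop))
    (by fun_prop) (by fun_prop)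

theorem dioF_adc [DecidableEq F] : DioF fun p : (F × F) × F × F => adc n p.1 p.2 := by
  have h := dioF_slc (n := n)
  refine DioF.ite (Dio.eq (by fun_prop) (by fun_prop)) (Dio.ne (by fun_prop) (by fun_prop))
    (by fun_prop) (DioF.ite (Dio.eq (by fun_prop) (by fun_prop)) (Dio.ne (by fun_prop) (by fun_prop))
      (by fun_prop) (DioF.ite (Dio.eq (by fun_prop) (by fun_prop))
        (Dio.ne (by fun_prop) (by fun_prop)) (by fun_prop) ?_))
  have h1 : DioF fun p : (F × F) × F × F => slc n p.1 p.2 ^ 2 - p.1.1 - p.2.1 :=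
    ((h.pow 2).sub (by fun_prop)).sub (by fun_prop)
  exact h1.prodMk ((h.mul (h1.sub (by fun_prop))).add (by fun_prop)).neg

namespace DPt

variable {f g : V → (E ι n).Point}

theorem dioF (hf : DPt f) : DioF fun v => co (f v) := hf

theorem congr (hf : DPt f) (e : ∀ v, f v = g v) : DPt g := funext e ▸ hf

theorem pt (hn : n ≠ 0) {g : V → F × F} (hg : DioF g) : DPt fun v => Lk.pt ι n (g v) := by
  classical
  refine DioF.comp (g := fun v => co (Lk.pt ι n v)) ?_ hg
  refine DioF.congr ?_ fun v => (co_pt two_ne_zero hn v).symm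
  exact DioF.ite (Dio.eq (by fun_prop) (by fun_prop)) (Dio.ne (by fun_prop) (by fun_prop))
    (by fun_prop) (by fun_prop)

theorem const (A : (E ι n).Point) : DPt fun _ : V => A := DioF.const _

theorem comp [Module.Finite ℚ W] {f : W → (E ι n).Point} (hf : DPt f) {g : V → W} (hg : DioF g) :
    DPt fun v => f (g v) := DioF.comp (g := fun w => co (f w)) hf hg

theorem compP {f : W → (E ι n).Point} (hf : DPt f) {g : V → W} (hg : PolM g) :
    DPt fun v => f (g v) := DioF.compP (g := fun w => co (f w)) hf hg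

theorem tt (hf : DPt f) : DioF fun v => tt (f v) := hf.dioF.fst.div hf.dioF.snd

theorem eq (hf : DPt f) (hg : DPt g) : Dio fun v => f v = g v :=
  (Dio.eqF hf hg).congr fun _ => co_injective.eq_iff

theorem ne (hf : DPt f) (hg : DPt g) : Dio fun v => f v ≠ g v :=
  (Dio.neF hf hg).congr fun _ => co_injective.ne_iff

variable [DecidableEq F]

theorem add (hf : DPt f) (hg : DPt g) : DPt fun v => f v + g v :=
  (DioF.comp dioF_adc (DioF.prodMk hf hg)).congr fun _ => (co_add _ _).symm

theorem neg (hf : DPt f) : DPt fun v => -f v :=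
  (DioF.ite (Dio.eqF hf (DioF.const _)) (Dio.neF hf (DioF.const _)) (DioF.const _)
    (hf.dioF.fst.prodMk hf.dioF.snd.neg)).congr fun _ => (co_neg _).symm

theorem sub (hf : DPt f) (hg : DPt g) : DPt fun v => f v - g v :=
  (hf.add hg.neg).congr fun _ => (sub_eq_add_neg _ _).symm

theorem nsmul (k : ℕ) (hf : DPt f) : DPt fun v => k • f v := by
  induction k with
  | zero => exact (const 0).congr fun _ => (zero_nsmul _).symm
  | succ k ih => exact (ih.add hf).congr fun _ => (succ_nsmul _ _).symm

theorem zsmul (k : ℤ) (hf : DPt f) : DPt fun v => k • f v := by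
  rcases k with k | k
  · exact (hf.nsmul k).congr fun _ => (natCast_zsmul _ _).symm
  · exact (hf.nsmul (k + 1)).neg.congr fun _ => (negSucc_zsmul _ _).symm

theorem sum {κ : Type*} (s : Finset κ) {f : κ → V → (E ι n).Point} (h : ∀ i ∈ s, DPt (f i)) :
    DPt fun v => ∑ i ∈ s, f i v := by
  classical
  induction s using Finset.induction_on with
  | empty => simpa using const (0 : (E ι n).Point)
  | insert a s ha ih =>
    simp only [Finset.sum_insert ha]
    exact (h a (Finset.mem_insert_self _ _)).add (ih fun i hi => h i (Finset.mem_insert_of_mem hi))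

/-- twists, conjugations and base changes -/
theorem hom {F' : Type*} [Field F'] [NumberField F'] [DecidableEq F'] {ι' n' : F'} {φ : F →+* F'}
    {u : F'} (h : Tw (E ι n) (E ι' n') φ u) (hf : DPt f) : DPt fun v => h.hom (f v) :=
  (DioF.ite (Dio.eqF hf (DioF.const _)) (Dio.neF hf (DioF.const _)) (DioF.const _)
    (((DioF.const _).mul (hf.dioF.fst.ringHom φ)).prodMk
      ((DioF.const _).mul (hf.dioF.snd.ringHom φ)))).congr fun _ => (co_hom h _).symm

variable [Fact (ι ^ 2 = -1)]

theorem J (hf : DPt f) : DPt fun v => J ι n (f v) := hf.hom (tw_J ι n)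

theorem smul (α : ℤ[i]) (hf : DPt f) : DPt fun v => α • f v :=
  ((hf.zsmul α.re).add (hf.J.zsmul α.im)).congr fun _ => (smul_def _ _).symm

end DPt

end dpt

end Lk

end Crest.Agent.T15
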