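import Crest.Agent.T15.LkC_47

/-!
# Row 15, block L (helper47), part E: structural coprimality of annihilators

`A ∈ E_n(k)`, `B ∈ E_{b² n}(k)`, `b` a non-square: the annihilators of `A` and `B` in `ℤ[i]` have a
gcd of norm at most `192`; over `𝔽_p` the annihilator of `A` is prime to `p`.
-/

set_option autoImplicit false
set_option linter.unusedSectionVars false

namespace Crest.Agent.T15.Lk

open WeierstrassCurve WeierstrassCurve.Affine

local notation "ℤ[i]" => GaussianInt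

section small

variable {K : Type*} [Field K] [DecidableEq K] {ι n : K} [Fact (ι ^ 2 = -1)]

/-- two independent points of annihilator `g` force `N(g) ≤ 192` -/
theorem norm_le_of_indep {g : ℤ[i]} (hg : ((g.norm : ℤ) : K) ≠ 0) {A B : (E ι n).Point}
    (hA : g • A = 0) (hB : g • B = 0)
    (H : ∀ α β : ℤ[i], α • A + β • B = 0 → g ∣ 2 * α ∧ g ∣ 2 * β) : g.norm ≤ 192 := by
  classical
  have h0 : 0 < g.norm := (GaussianInt.norm_nonneg g).lt_of_ne fun e => hg (by simp [← e])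
  have hex : ∃ r : ℕ, g.norm ≤ 8 * (r : ℤ) ^ 2 := ⟨g.norm.toNat, by
    rw [Int.toNat_of_nonneg h0.le]
    nlinarith⟩
  obtain ⟨r, hr⟩ : ∃ r, Nat.find hex = r + 1 := Nat.exists_eq_succ_of_ne_zero fun e => by
    have := Nat.find_spec hex
    rw [e] at this
    simp at this
    omega
  have h1 : g.norm ≤ 8 * ((r + 1 : ℕ) : ℤ) ^ 2 := hr ▸ Nat.find_spec hex
  have h2 : 8 * (r : ℤ) ^ 2 < g.norm := not_le.1 (Nat.find_min hex (by omega))
  let z : Fin (r + 1) × Fin (r + 1) → ℤ[i] := fun u => ⟨(u.1 : ℕ), (u.2 : ℕ)⟩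
  have hz : ∀ u v, g ∣ 2 * (z u - z v) → u = v := fun u v ⟨w, hw⟩ => by
    have e := congrArg Zsqrtd.norm hw
    rw [Zsqrtd.norm_mul g w] at e
    have b : ∀ s t : Fin (r + 1), (((s : ℕ) : ℤ) - (t : ℕ)) ^ 2 ≤ (r : ℤ) ^ 2 := fun s t =>
      sq_le_sq' (by have := t.2; omega) (by have := s.2; omega)
    have e' : (2 * (z u - z v)).norm =
        4 * ((((u.1 : ℕ) : ℤ) - (v.1 : ℕ)) ^ 2 + (((u.2 : ℕ) : ℤ) - (v.2 : ℕ)) ^ 2) := by
      simp [Zsqrtd.norm_def, z]
      ring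
    have hw0 : w.norm = 0 := by
      by_contra hne
      have : 1 ≤ w.norm := (GaussianInt.norm_nonneg w).lt_of_ne (Ne.symm hne)
      have := b u.1 v.1
      have := b u.2 v.2
      nlinarith
    rw [hw0, mul_zero, e'] at e
    have p1 := sq_nonneg (((u.1 : ℕ) : ℤ) - (v.1 : ℕ))
    have p2 := sq_nonneg (((u.2 : ℕ) : ℤ) - (v.2 : ℕ))
    have q1 := pow_eq_zero_iff two_ne_zero |>.1 (show (((u.1 : ℕ) : ℤ) - (v.1 : ℕ)) ^ 2 = 0 by omega)
    have q2 := pow_eq_zero_iff two_ne_zero |>.1 (show (((u.2 : ℕ) : ℤ) - (v.2 : ℕ)) ^ 2 = 0 by omega)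
    exact Prod.ext (Fin.ext (by omega)) (Fin.ext (by omega))
  let f : (Fin (r + 1) × Fin (r + 1)) × (Fin (r + 1) × Fin (r + 1)) → (E ι n).Point :=
    fun u => z u.1 • A + z u.2 • B
  have hf : Function.Injective f := fun u v e => by
    have := H (z u.1 - z v.1) (z u.2 - z v.2) (by
      rw [sub_smul, sub_smul, sub_add_sub_comm]
      exact sub_eq_zero.2 e)
    exact Prod.ext (hz _ _ this.1) (hz _ _ this.2)
  have h3 := card_tors_le g hg (Finset.univ.image f) fun C hC => by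
    obtain ⟨u, -, rfl⟩ := Finset.mem_image.1 hC
    rw [smul_add, smul_comm, hA, smul_comm g, hB, smul_zero, smul_zero, add_zero]
  rw [Finset.card_image_of_injective _ hf] at h3
  simp only [Finset.card_univ, Fintype.card_prod, Fintype.card_fin] at h3
  push_cast at h1 h3
  have h4 : (0 : ℤ) < (r + 1) ^ 2 := by positivity
  have h5 : ((r : ℤ) + 1) ^ 2 ≤ 24 := by nlinarith
  omega

end small

section twist

variable {k : Type*} [Field k] [DecidableEq k] {ι n b : k} [hι : Fact (ι ^ 2 = -1)]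

/-- **Structural coprimality.** -/
theorem norm_le_of_twist (hb : ¬ IsSquare b) {g : ℤ[i]} (hg : ((g.norm : ℤ) : k) ≠ 0)
    {A : (E ι n).Point} {B : (E ι (b ^ 2 * n)).Point} (hA : ∀ α : ℤ[i], α • A = 0 ↔ g ∣ α)
    (hB : ∀ α : ℤ[i], α • B = 0 ↔ g ∣ α) : g.norm ≤ 192 := by
  classical
  have : Fact (∀ r : k, r ^ 2 ≠ b + 0 * r) := ⟨fun r e => hb ⟨r, by rw [← sq, e]; ring⟩⟩
  let K := QuadraticAlgebra k b 0
  let f : k →+* K := algebraMap k K
  let s : K := QuadraticAlgebra.omega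
  let σ : K →+* K := starRingEnd K
  have hs : s ^ 2 = f b := by ext <;> simp [s, f, K, sq]
  have hσs : σ s = -s := by ext <;> simp [s, σ, K, starRingEnd_apply]
  have hσf : ∀ x, σ (f x) = f x := fun x => by ext <;> simp [f, σ, K, starRingEnd_apply]
  have hb0 : b ≠ 0 := fun e => hb (e ▸ IsSquare.zero)
  have hs0 : s ≠ 0 := fun e => hb0 (f.injective (by rw [← hs, e, map_zero]; ring))
  have : Fact (f ι ^ 2 = -1) := ⟨by rw [← map_pow, hι.out, map_neg, map_one]⟩
  have t₁ : Tw (E ι n) (E (f ι) (f n)) f 1 := tw_E one_ne_zero (by simp)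
  have t₂ : Tw (E ι (b ^ 2 * n)) (E (f ι) (f n)) f s⁻¹ := tw_E (inv_ne_zero hs0) (by
    rw [map_mul, map_pow, ← hs, ← mul_assoc, ← pow_mul, ← mul_pow, inv_mul_cancel₀ hs0]
    simp)
  have t₃ : Tw (E (f ι) (f n)) (E (f ι) (f n)) σ 1 := tw_E one_ne_zero (by simp [hσf])
  have e₁ : ∀ C, t₃.hom (t₁.hom C) = t₁.hom C := by
    rintro (_ | ⟨x, y, h⟩)
    · rfl
    · simp only [Tw.hom_some, one_pow, one_mul, hσf]
  have e₂ : ∀ C, t₃.hom (t₂.hom C) = -t₂.hom C := by
    rintro (_ | ⟨x, y, h⟩)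
    · rfl
    · simp only [Tw.hom_some, Point.neg_some, E_negY, one_pow, one_mul, map_mul, map_pow, hσf,
        map_inv₀, hσs]
      congr 1 <;> ring
  refine norm_le_of_indep (ι := f ι) (n := f n) (A := t₁.hom A) (B := t₂.hom B)
    (by rwa [← map_intCast f, map_ne_zero]) ?_ ?_ fun α β e => ?_
  · rw [← t₁.hom_smul rfl, (hA g).2 dvd_rfl, map_zero]
  · rw [← t₂.hom_smul rfl, (hB g).2 dvd_rfl, map_zero]
  · rw [← t₁.hom_smul rfl, ← t₂.hom_smul rfl] at e
    have e' := congrArg t₃.hom e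
    rw [map_add, e₁, e₂, map_zero] at e'
    refine ⟨(hA _).1 (t₁.hom_injective ?_), (hB _).1 (t₂.hom_injective ?_)⟩
    · rw [two_mul, add_smul, map_add, map_zero]
      linear_combination (norm := abel1) e + e'
    · rw [two_mul, add_smul, map_add, map_zero]
      linear_combination (norm := abel1) e - e'

theorem exists_ann (A : (E ι n).Point) : ∃ δ : ℤ[i], ∀ α : ℤ[i], α • A = 0 ↔ δ ∣ α := by
  obtain ⟨δ, hδ⟩ := (IsPrincipalIdealRing.principal (Ideal.torsionOf ℤ[i] _ A)).principal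
  exact ⟨δ, fun α => by
    rw [← Ideal.mem_torsionOf_iff, hδ, Ideal.submodule_span_eq, Ideal.mem_span_singleton]⟩

theorem ann_div {A : (E ι n).Point} {g d : ℤ[i]} (hd : d ≠ 0)
    (h : ∀ α : ℤ[i], α • A = 0 ↔ g * d ∣ α) (α : ℤ[i]) : α • (d • A) = 0 ↔ g ∣ α := by
  rw [← mul_smul, h, mul_dvd_mul_iff_right hd]

end twist

section count

variable {k : Type*} [Field k] [Fintype k] [DecidableEq k]

theorem card_points (ι : k) {n : k} (h2 : (2 : k) ≠ 0) (hn : n ≠ 0) :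
    (Nat.card (E ι n).Point : ℤ) = 1 + ∑ x : k, (quadraticChar k (x ^ 3 - n * x) + 1) := by
  have hc : ringChar k ≠ 2 := fun e => h2 (by exact_mod_cast (ringChar.spec k 2).2 (e ▸ dvd_rfl))
  have := E_isElliptic ι h2 hn
  classical
  rw [Nat.card_congr (pointEquiv (E ι n)), WithZero, Nat.card_eq_fintype_card, Fintype.card_option,
    Fintype.card_congr (Equiv.subtypeProdEquivSigmaSubtype fun x y => (E ι n).Equation x y),
    Fintype.card_sigma]
  push_cast
  rw [add_comm]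
  congr 1
  refine Finset.sum_congr rfl fun x _ => ?_
  rw [← quadraticChar_card_sqrts hc, Set.toFinset_card]
  exact congrArg _ (Fintype.card_congr (Equiv.subtypeEquivRight fun y => E_equation))

theorem card_add_card (ι : k) {n b : k} (h2 : (2 : k) ≠ 0) (hn : n ≠ 0) (hb : ¬ IsSquare b) :
    Nat.card (E ι n).Point + Nat.card (E ι (b ^ 2 * n)).Point = 2 * Fintype.card k + 2 := by
  have hb0 : b ≠ 0 := fun e => hb (e ▸ IsSquare.zero)
  zify
  rw [card_points ι h2 hn, card_points ι h2 (mul_ne_zero (pow_ne_zero 2 hb0) hn),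
    ← Equiv.sum_comp (Equiv.mulLeft₀ b hb0) fun x => quadraticChar k (x ^ 3 - b ^ 2 * n * x) + 1]
  have : ∀ x : k, quadraticChar k ((b * x) ^ 3 - b ^ 2 * n * (b * x)) =
      -quadraticChar k (x ^ 3 - n * x) := fun x => by
    rw [show (b * x) ^ 3 - b ^ 2 * n * (b * x) = b ^ 2 * (b * (x ^ 3 - n * x)) by ring, map_mul,
      map_mul, quadraticChar_sq_one' hb0, quadraticChar_neg_one_iff_not_isSquare.2 hb]
    ring
  simp only [Equiv.mulLeft₀_apply, this, Finset.sum_add_distrib, Finset.sum_neg_distrib,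
    Finset.sum_const, Finset.card_univ, nsmul_eq_mul, mul_one]
  ring

instance finite_point (ι n : k) : Finite (E ι n).Point := Finite.of_injective _ co_injective

end count

section zmod

variable {p : ℕ} [hp : Fact p.Prime] {ι n b : ZMod p} [Fact (ι ^ 2 = -1)]

theorem not_dvd_card (h2 : (2 : ZMod p) ≠ 0) (hn : n ≠ 0) (hb : ¬ IsSquare b) {x y : ZMod p}
    (h : (E ι (b ^ 2 * n)).Nonsingular x y) (hx : x ≠ 0) : ¬ p ∣ Nat.card (E ι n).Point := by
  intro hd
  have hb0 : b ≠ 0 := fun e => hb (e ▸ IsSquare.zero)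
  have hs := card_add_card ι h2 hn hb
  rw [ZMod.card] at hs
  have hT : (E ι n).Nonsingular 0 0 := (E_nonsingular h2 hn).2 (by simp)
  have hT' : (E ι (b ^ 2 * n)).Nonsingular 0 0 :=
    (E_nonsingular h2 (mul_ne_zero (pow_ne_zero 2 hb0) hn)).2 (by simp)
  have d2 : 2 ∣ Nat.card (E ι n).Point := by
    rw [← addOrderOf_eq_prime (p := 2) (x := (.some 0 0 hT : (E ι n).Point))
      (by rw [two_nsmul]; exact Point.add_self_of_Y_eq (by simp)) (Point.some_ne_zero _)]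
    exact addOrderOf_dvd_natCard _
  have hp2 : p ≠ 2 := fun e => h2 (by exact_mod_cast (ZMod.natCast_eq_zero_iff 2 p).2 (e ▸ dvd_rfl))
  have h3 := Nat.le_of_dvd Nat.card_pos
    (((Nat.coprime_primes Nat.prime_two hp.out).2 hp2.symm).mul_dvd_of_dvd_of_dvd d2 hd)
  have h4 : 2 < Nat.card (E ι (b ^ 2 * n)).Point := by
    have := Fintype.ofFinite (E ι (b ^ 2 * n)).Point
    rw [Nat.card_eq_fintype_card, Fintype.two_lt_card_iff]
    exact ⟨0, .some 0 0 hT', .some x y h, (Point.some_ne_zero _).symm, (Point.some_ne_zero _).symm,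
      fun e => hx (Point.some.inj e).1.symm⟩
  omega

/-- the fixed integer in the gcd of the annihilators -/
def cc : ℕ := Nat.factorial 192

theorem cc_ne_zero : cc ≠ 0 := Nat.factorial_ne_zero _

/-- **The link index.** `μ` kills `A`, and `μ - c` lies in `𝔭 · Ann B`. -/
theorem exists_mu (h2 : (2 : ZMod p) ≠ 0) (hn : n ≠ 0) (hb : ¬ IsSquare b) (A : (E ι n).Point)
    {x y : ZMod p} (h : (E ι (b ^ 2 * n)).Nonsingular x y) (hx : x ≠ 0) :
    ∃ μ π δ : ℤ[i], μ • A = 0 ∧ δ ≠ 0 ∧ δ • (.some x y h : (E ι (b ^ 2 * n)).Point) = 0 ∧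
      μ - (cc : ℤ[i]) = π * δ ∧ zi ι π = 0 := by
  obtain ⟨d, hd⟩ := exists_ann A
  obtain ⟨δ, hδ⟩ := exists_ann (.some x y h : (E ι (b ^ 2 * n)).Point)
  have kill : ∀ {m : ZMod p} (C : (E ι m).Point), ((Nat.card (E ι m).Point : ℕ) : ℤ[i]) • C = 0 :=
    fun C => by rw [Nat.cast_smul_eq_nsmul, card_nsmul_eq_zero']
  have hN : ((Nat.card (E ι n).Point : ℕ) : ZMod p) ≠ 0 := fun e =>
    not_dvd_card h2 hn hb h hx ((ZMod.natCast_eq_zero_iff _ _).1 e)
  have hδ0 : δ ≠ 0 := fun e => by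
    have := (hδ _).1 (kill _)
    rw [e, zero_dvd_iff, Nat.cast_eq_zero] at this
    exact Nat.card_pos.ne' this
  obtain ⟨d', hd'⟩ := (hd _).1 (kill A)
  have hz : zi ι d ≠ 0 := fun e => hN (by rw [← map_natCast (zi ι), hd', map_mul, e, zero_mul])
  obtain ⟨d₁, e₁⟩ := EuclideanDomain.gcd_dvd_left d δ
  obtain ⟨δ₁, e₂⟩ := EuclideanDomain.gcd_dvd_right d δ
  have e := EuclideanDomain.gcd_eq_gcd_ab d δ
  generalize EuclideanDomain.gcd d δ = g at e e₁ e₂
  have hg : ((g.norm : ℤ) : ZMod p) ≠ 0 := fun e0 => by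
    have := congrArg (fun z : ℤ[i] => ((z.norm : ℤ) : ZMod p)) hd'
    simp only [e₁, Zsqrtd.norm_mul, Zsqrtd.norm_natCast, Int.cast_mul, e0, zero_mul,
      Int.cast_natCast] at this
    exact mul_ne_zero hN hN this
  have hle := norm_le_of_twist hb hg
    (ann_div (d := d₁) (fun e0 => hz (by rw [e₁, e0, mul_zero, map_zero])) (e₁ ▸ hd))
    (ann_div (d := δ₁) (fun e0 => hδ0 (by rw [e₂, e0, mul_zero])) (e₂ ▸ hδ))
  have h0 : 0 < g.norm := (GaussianInt.norm_nonneg g).lt_of_ne fun e => hg (by simp [← e])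
  obtain ⟨c₁, hc⟩ : g ∣ (cc : ℤ[i]) := by
    obtain ⟨t, ht⟩ : g.norm.toNat ∣ cc := Nat.dvd_factorial (by omega) (by omega)
    refine ⟨star g * t, ?_⟩
    rw [ht, Nat.cast_mul, ← mul_assoc, ← Zsqrtd.norm_eq_mul_conj, ← Int.cast_natCast,
      Int.toNat_of_nonneg h0.le]
  obtain ⟨t, ht⟩ := ZMod.intCast_surjective (zi ι (EuclideanDomain.gcdB d δ * c₁) / zi ι d)
  refine ⟨(EuclideanDomain.gcdA d δ * c₁ + t * δ) * d, t * d - EuclideanDomain.gcdB d δ * c₁, δ,
    (hd _).2 (dvd_mul_left _ _), hδ0, (hδ _).2 dvd_rfl, ?_, ?_⟩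
  · rw [hc]
    linear_combination -c₁ * e
  · rw [map_sub, map_mul, map_intCast, ht, div_mul_cancel₀ _ hz, sub_self]

end zmod

end Crest.Agent.T15.Lk
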