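import Crest.Agent.T15.Dio_15
import Crest.Agent.T170.EllC_61

/-!
# Row 15, block L: the gadget for ONE prime of a number field (helper67)

From the quantifier `J w ·` ("in `pℤ_(p)`") over `ℚ` we get a Diophantine relation saying that
finitely many elements of a Galois number field vanish at one common place over `p`.
-/

set_option autoImplicit false

namespace Crest.Agent.T15.Lk

open Crest.Agent.T170.Ell Crest.Agent.T170.Ell.Place NumberField

variable {F Om : Type*} [Field F] [Field Om]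

theorem mem_of_isIntegral (Q : Place F Om) {x : F} (hx : IsIntegral ℤ x) : x ∈ Q.A := by
  have h : IsIntegral Q.A x := hx.tower_top
  obtain ⟨y, hy⟩ := IsIntegrallyClosed.isIntegral_iff.1 h
  rw [← hy]; exact y.2

theorem sp_zero_mul {Q : Place F Om} {x y : F} (hx : Q.Sp x 0) (hy : y ∈ Q.A) :
    Q.Sp (x * y) 0 := by simpa using hx.mul (sp_val hy)

theorem inv_mem_of_not_sp {Q : Place F Om} {x : F} (hx : ¬ Q.Sp x 0) : x⁻¹ ∈ Q.A := by
  rcases Q.sp_total x with ⟨a, h⟩ | h
  · exact (h.inv fun e => hx (e ▸ h)).mem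
  · exact h.mem

theorem exists_nat_mul_isIntegral [NumberField F] (z : F) :
    ∃ N : ℕ, N ≠ 0 ∧ IsIntegral ℤ ((N : F) * z) := by
  have h : IsAlgebraic ℤ z := (IsFractionRing.isAlgebraic_iff ℤ ℚ F).2 (Algebra.IsAlgebraic.isAlgebraic z)
  obtain ⟨y, hy, h⟩ := h.exists_integral_multiple
  refine ⟨y.natAbs, Int.natAbs_ne_zero.2 hy, ?_⟩
  rw [zsmul_eq_mul] at h
  rcases Int.natAbs_eq y with e | e
  · rw [e] at h; simpa using h
  · rw [e] at h; simpa using h.neg

theorem exists_den [NumberField F] (z : F) : ∃ N : ℕ, N ≠ 0 ∧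
    ∀ (Om : Type) [Field Om] (Q : Place F Om), (N : Om) ≠ 0 → z ∈ Q.A := by
  obtain ⟨N, hN, h⟩ := exists_nat_mul_isIntegral z
  refine ⟨N, hN, fun Om _ Q h0 => ?_⟩
  have := mul_mem ((sp_natCast (P := Q) N).inv h0).mem (mem_of_isIntegral Q h)
  rwa [inv_mul_cancel_left₀ (by exact_mod_cast hN)] at this

/-- a common denominator for finitely many elements -/
theorem exists_den_fin [NumberField F] {ι : Type*} [Finite ι] (z : ι → F) : ∃ N : ℕ, N ≠ 0 ∧
    ∀ (Om : Type) [Field Om] (Q : Place F Om), (N : Om) ≠ 0 → ∀ i, z i ∈ Q.A := by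
  have := Fintype.ofFinite ι
  choose N hN h using fun i => exists_den (z i)
  refine ⟨∏ i, N i, Finset.prod_ne_zero_iff.2 fun i _ => hN i, fun Om _ Q h0 i => h i Om Q ?_⟩
  rw [Nat.cast_prod] at h0
  exact Finset.prod_ne_zero_iff.1 h0 i (Finset.mem_univ _)

theorem sp_rat_den [CharZero F] (Q : Place F Om) {y : ℚ} (h : (y.den : Om) ≠ 0) :
    Q.Sp (y : F) ((y.num : Om) / y.den) := by
  rw [Rat.cast_def]
  exact (sp_intCast _).div (sp_natCast _) h

theorem sp_rat [CharZero F] {p : ℕ} [hp : Fact p.Prime] [CharP Om p] (Q : Place F Om) (y : ℚ) :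
    Q.Sp (y : F) 0 ↔ (p : ℤ) ∣ y.num := by
  constructor
  · intro h
    have h1 : Q.Sp ((y : F) * y.den) 0 := sp_zero_mul h (sp_natCast _).mem
    have e : (y : F) * y.den = y.num := by exact_mod_cast Rat.mul_den_eq_num y
    rw [e] at h1
    exact (CharP.intCast_eq_zero_iff Om p _).1 ((sp_intCast _).unique h1)
  · intro h
    have hd : (y.den : Om) ≠ 0 := fun h0 => by
      have h1 := (CharP.cast_eq_zero_iff Om p _).1 h0
      have h2 : p ∣ y.num.natAbs := Int.natCast_dvd.1 h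
      exact hp.out.one_lt.ne' (Nat.eq_one_of_dvd_coprimes y.reduced h2 h1)
    have := sp_rat_den Q hd
    rwa [(CharP.intCast_eq_zero_iff Om p _).2 h, zero_div] at this

/-- places over `p` with values in an algebraically closed field exist -/
theorem exists_place_char [CharZero F] [IsAlgClosed Om] : Nonempty (Place F Om) := by
  obtain ⟨Q, -⟩ := exists_place (Int.castRingHom F) (Int.castRingHom Om) fun b hb => by
    have : b = 0 := by simpa using hb
    simp [this]
  exact ⟨Q⟩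

/-- rank one: a power of an integral element of the maximal ideal is divisible by `p` -/
theorem exists_pow_div {p : ℕ} [hp : Fact p.Prime] [CharP Om p] [CharZero F] (Q : Place F Om) {x : F}
    (hi : IsIntegral ℤ x) (hx : Q.Sp x 0) : ∃ j : ℕ, x ^ j / p ∈ Q.A := by
  classical
  obtain ⟨f, hf, h0⟩ := hi
  have hex : ∃ j, ¬ (p : ℤ) ∣ f.coeff j := ⟨f.natDegree, by
    rw [hf.coeff_natDegree]
    exact fun h => hp.out.one_lt.ne' (by exact_mod_cast Int.eq_one_of_dvd_one (by positivity) h)⟩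
  set j := Nat.find hex with hj
  have hp0 : (p : F) ≠ 0 := by exact_mod_cast hp.out.ne_zero
  obtain ⟨g, hg⟩ : Polynomial.X ^ j ∣ f - ∑ i ∈ Finset.range j, Polynomial.monomial i (f.coeff i) := by
    rw [Polynomial.X_pow_dvd_iff]
    intro d hd
    simp [Polynomial.finsetSum_coeff, Polynomial.coeff_monomial, hd]
  have hg0 : g.coeff 0 = f.coeff j := by
    have := congrArg (fun q => q.coeff j) hg
    simp only [Polynomial.coeff_sub, Polynomial.finsetSum_coeff, Polynomial.coeff_monomial] at this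
    rw [Finset.sum_eq_zero (fun i hi => if_neg (Finset.mem_range.1 hi).ne), sub_zero] at this
    rw [this]
    simpa using (Polynomial.coeff_X_pow_mul g j 0).symm
  have hu : Q.Sp (Polynomial.aeval x g) (f.coeff j : Om) := by
    have := Over.sp_aeval (P := Q) (R := ℤ) (fun r => by simpa using sp_intCast r) hx g
    rwa [← Polynomial.coeff_zero_eq_aeval_zero', hg0, algebraMap_int_eq, eq_intCast] at this
  have hne : (f.coeff j : Om) ≠ 0 := fun h =>
    Nat.find_spec hex ((CharP.intCast_eq_zero_iff Om p _).1 h)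
  have e : x ^ j * Polynomial.aeval x g = -∑ i ∈ Finset.range j, (f.coeff i : F) * x ^ i := by
    have := congrArg (Polynomial.aeval x) hg
    rw [map_sub, map_mul, map_pow, Polynomial.aeval_X, map_sum, Polynomial.aeval_def, h0] at this
    rw [← this]
    simp [Polynomial.aeval_monomial]
  refine ⟨j, ?_⟩
  have e2 : x ^ j / p = -(∑ i ∈ Finset.range j, (f.coeff i : F) / p * x ^ i) *
      (Polynomial.aeval x g)⁻¹ := by
    rw [eq_mul_inv_iff_mul_eq₀ (hu.ne_zero hne), div_mul_eq_mul_div, e, neg_div, Finset.sum_div]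
    congr 1
    exact Finset.sum_congr rfl fun i _ => by ring
  rw [e2]
  refine mul_mem (neg_mem (sum_mem fun i hi => mul_mem ?_ (pow_mem hx.mem _))) (hu.inv hne).mem
  obtain ⟨c, hc⟩ : (p : ℤ) ∣ f.coeff i := not_not.1 (Nat.find_min hex (Finset.mem_range.1 hi))
  rw [hc]
  push_cast
  rw [mul_div_cancel_left₀ _ hp0]
  exact (sp_intCast c).mem

/-- a high power of an integral element of the maximal ideal kills any element -/
theorem exists_pow_mul {p : ℕ} [hp : Fact p.Prime] [CharP Om p] [NumberField F] (Q : Place F Om)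
    {x : F} (hi : IsIntegral ℤ x) (hx : Q.Sp x 0) (z : F) :
    ∃ j : ℕ, ∀ m, j ≤ m → Q.Sp (x ^ m * z) 0 := by
  obtain ⟨j, hj⟩ := exists_pow_div (p := p) Q hi hx
  obtain ⟨N, hN, hz⟩ := exists_nat_mul_isIntegral z
  obtain ⟨k, N', hN', rfl⟩ := Nat.exists_eq_pow_mul_and_not_dvd hN p hp.out.ne_one
  have hp0 : (p : F) ≠ 0 := by exact_mod_cast hp.out.ne_zero
  have h1 : (N' : Om) ≠ 0 := fun h => hN' ((CharP.cast_eq_zero_iff Om p _).1 h)
  have h2 : (N' : F) ≠ 0 := (sp_natCast (P := Q) N').ne_zero h1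
  refine ⟨j * k + 1, fun m hm => ?_⟩
  obtain ⟨r, rfl⟩ := Nat.exists_eq_add_of_le hm
  have e : x ^ (j * k + 1 + r) * z =
      x * (x ^ r * (x ^ j / p) ^ k * (((p ^ k * N' : ℕ) : F) * z) * (N' : F)⁻¹) := by
    push_cast
    rw [div_pow]
    field_simp
    ring
  rw [e]
  exact sp_zero_mul hx (mul_mem (mul_mem (mul_mem (pow_mem hx.mem _) (pow_mem hj _))
    (mem_of_isIntegral Q hz)) ((sp_natCast N').inv h1).mem)

theorem sp_trace [NumberField F] [IsGalois ℚ F] (Q : Place F Om) {x : F} {a : Gal(F/ℚ) → Om}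
    (h : ∀ σ : Gal(F/ℚ), Q.Sp (σ x) (a σ)) : Q.Sp ((Algebra.trace ℚ F x : ℚ) : F) (∑ σ, a σ) := by
  have := trace_eq_sum_automorphisms (K := ℚ) x
  rw [eq_ratCast] at this
  rw [this]
  exact sp_sum _ fun σ _ => h σ

/-- **the gadget** -/
theorem gadget [NumberField F] [IsGalois ℚ F] (k : Type*) [Fintype k] {J : ℚ × ℚ → Prop}
    (hJ : Dio J) : ∃ N : ℕ, N ≠ 0 ∧ ∃ G : ℚ × (k → F) → Prop, Dio G ∧
      (∀ (w : ℚ) (z : k → F) (p : ℕ) [Fact p.Prime], G (w, z) →
        (∀ y, J (w, y) → (p : ℤ) ∣ y.num) →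
        ∃ Q : Place F (AlgebraicClosure (ZMod p)), ∀ j, Q.Sp (z j) 0) ∧
      ∀ (w : ℚ) (z : k → F) (p : ℕ) [Fact p.Prime] (Q : Place F (ZMod p)), ¬ p ∣ N →
        (∀ y : ℚ, (p : ℤ) ∣ y.num → J (w, y)) → (∀ j, Q.Sp (z j) 0) → G (w, z) := by
  classical
  let b := integralBasis F
  have hb : ∀ i, IsIntegral ℤ (b i) := fun i => by
    simp only [b, integralBasis_apply]; exact RingOfIntegers.isIntegral_coe _
  let β := fun i => ((Algebra.traceForm ℚ F).toDual (traceForm_nondegenerate ℚ F)).symm (b.coord i)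
  have hβ : ∀ i x, b.coord i x = Algebra.trace ℚ F (β i * x) := fun i x =>
    (LinearMap.BilinForm.apply_toDual_symm_apply (hB := traceForm_nondegenerate ℚ F) _ _).symm
  have hθ : ∀ σ : Gal(F/ℚ), ∃ i, σ ≠ 1 → σ (b i) - b i ≠ 0 := fun σ => by
    by_contra h
    push Not at h
    obtain ⟨i0⟩ := b.index_nonempty
    refine (h i0).1 (AlgEquiv.toLinearMap_injective (b.ext fun i => ?_))
    simpa using sub_eq_zero.1 (h i).2
  choose θ hθ using hθ
  obtain ⟨N1, hN1, h1⟩ := exists_den_fin fun q : Gal(F/ℚ) × _ => q.1 (β q.2)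
  obtain ⟨N2, hN2, h2⟩ := exists_den_fin fun σ : Gal(F/ℚ) => (σ (b (θ σ)) - b (θ σ))⁻¹
  refine ⟨N1 * N2, mul_ne_zero hN1 hN2, fun v => ∃ e : F,
    (∀ q : k × _, J (v.1, b.coord q.2 (e * v.2 q.1))) ∧ J (v.1, Algebra.trace ℚ F e - 1), ?_, ?_, ?_⟩
  · refine Dio.ex (Dio.and (Dio.forall_fin fun q => hJ.comp ?_) (hJ.comp ?_)) <;> fun_prop
  · rintro w z p _ ⟨e, he, ht⟩ hs
    obtain ⟨Q⟩ := exists_place_char (F := F) (Om := AlgebraicClosure (ZMod p))
    by_contra hc
    push Not at hc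
    have h3 : ∀ σ : Gal(F/ℚ), Q.Sp (σ e) 0 := fun σ => by
      obtain ⟨j, hj⟩ := hc (Q.comap (σ : F →+* F))
      have h4 : (Q.comap (σ : F →+* F)).Sp (e * z j) 0 := by
        rw [← b.sum_repr (e * z j)]
        have := sp_sum (P := Q.comap (σ : F →+* F)) Finset.univ
          (x := fun i => b.repr (e * z j) i • b i) (a := fun _ => 0) fun i _ => by
            rw [Rat.smul_def]
            exact sp_zero_mul ((sp_rat _ _).2 (hs _ (he (j, i)))) (mem_of_isIntegral _ (hb i))
        simpa using this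
      have h5 := sp_zero_mul h4 (inv_mem_of_not_sp hj)
      have h0 : z j ≠ 0 := fun h => hj (h ▸ sp_zero)
      rwa [mul_inv_cancel_right₀ h0] at h5
    have h6 := (sp_trace Q h3).sub ((sp_rat Q _).2 (hs _ ht))
    simp only [Finset.sum_const_zero, sub_zero, Rat.cast_sub, Rat.cast_one, sub_sub_cancel] at h6
    exact one_ne_zero (sp_one.unique h6)
  · intro w z p hp Q hN hs hz
    have hN' : ((N1 * N2 : ℕ) : ZMod p) ≠ 0 := fun h => hN ((ZMod.natCast_eq_zero_iff _ _).1 h)
    rw [Nat.cast_mul] at hN'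
    replace h1 := h1 _ Q (left_ne_zero_of_mul hN')
    replace h2 := h2 _ Q (right_ne_zero_of_mul hN')
    have hσ : ∀ (σ : Gal(F/ℚ)) {x : F}, IsIntegral ℤ x → IsIntegral ℤ (σ x) := fun σ x hx =>
      hx.map (σ.toRingEquiv.toRingHom.toIntAlgHom)
    let t : Gal(F/ℚ) → ℤ := fun σ => (Q.val (σ (b (θ σ)))).cast
    have ht : ∀ σ : Gal(F/ℚ), Q.Sp (σ (b (θ σ)) - t σ) 0 := fun σ => by
      have := (sp_val (mem_of_isIntegral Q (hσ σ (hb (θ σ))))).sub (sp_intCast (t σ))
      simpa [t] using this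
    let e0 : F := ∏ σ ∈ Finset.univ.erase 1, (b (θ σ) - t σ)
    have hi : ∀ σ, IsIntegral ℤ (b (θ σ) - t σ) := fun σ => (hb _).sub (isIntegral_intCast _)
    have hi0 : IsIntegral ℤ e0 := IsIntegral.prod _ fun σ _ => hi σ
    have he1 : ∀ σ : Gal(F/ℚ), σ ≠ 1 → Q.Sp (σ e0) 0 := fun σ h => by
      simp only [e0]
      rw [← Finset.mul_prod_erase _ _ (Finset.mem_erase.2 ⟨h, Finset.mem_univ σ⟩), map_mul, map_sub,
        map_intCast]
      exact sp_zero_mul (ht σ) (mem_of_isIntegral Q (hσ σ (IsIntegral.prod _ fun σ _ => hi σ)))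
    obtain ⟨a, ha, he0⟩ : ∃ a, a ≠ 0 ∧ Q.Sp e0 a := by
      refine ⟨_, Finset.prod_ne_zero_iff.2 fun σ h h0 => ?_,
        sp_prod _ fun σ _ => sp_val (mem_of_isIntegral Q (hi σ))⟩
      have h3 := sp_val (mem_of_isIntegral Q (hi σ))
      rw [h0] at h3
      have h4 := (ht σ).sub h3
      rw [sub_sub_sub_cancel_right, sub_zero] at h4
      exact h4.inv_not_mem (hθ σ (Finset.mem_erase.1 h).1) (h2 σ)
    have hM : ∀ q : Gal(F/ℚ) × k, ∃ j : ℕ, q.1 ≠ 1 → ∀ m, j ≤ m →
        Q.Sp (q.1 e0 ^ m * q.1 (z q.2)) 0 := fun q => by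
      by_cases h : q.1 = 1
      · exact ⟨0, fun h' => absurd h h'⟩
      · obtain ⟨j, hj⟩ := exists_pow_mul (p := p) Q (hσ _ hi0) (he1 _ h) (q.1 (z q.2))
        exact ⟨j, fun _ => hj⟩
    choose M hM using hM
    have hp1 : 1 ≤ p - 1 := by have := hp.out.two_le; omega
    set m := (p - 1) * (∑ q, M q + 1) with hm
    have hm1 : ∑ q, M q + 1 ≤ m := Nat.le_mul_of_pos_left _ hp1
    have hone : Q.Sp (e0 ^ m) 1 := by
      have e : a ^ m = 1 := by rw [hm, pow_mul, ZMod.pow_card_sub_one_eq_one ha, one_pow]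
      exact e ▸ he0.pow m
    refine ⟨e0 ^ m, fun q => hs _ ((sp_rat Q _).1 ?_), hs _ ((sp_rat Q _).1 ?_)⟩
    · rw [hβ]
      have := sp_trace Q (x := β q.2 * (e0 ^ m * z q.1)) (a := fun _ => 0) fun σ => by
        rw [map_mul, mul_comm]
        refine sp_zero_mul ?_ (h1 (σ, q.2))
        by_cases h : σ = 1
        · subst h
          rw [AlgEquiv.one_apply, mul_comm]
          exact sp_zero_mul (hz _) hone.mem
        · rw [map_mul, map_pow]
          exact hM (σ, q.1) h m ((Finset.single_le_sum (fun _ _ => Nat.zero_le _)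
            (Finset.mem_univ _)).trans ((Nat.le_succ _).trans hm1))
      simpa using this
    · have := (sp_trace Q (x := e0 ^ m) (a := fun σ => if σ = 1 then 1 else 0) fun σ => by
        split_ifs with h
        · subst h; exact hone
        · rw [map_pow]
          have := (he1 σ h).pow m
          rwa [zero_pow (by omega)] at this).sub sp_one
      simpa using this

/-- Extension of a place to `K(√d)` when `d` has a nonzero square as value. -/
theorem exists_place_quad {K k : Type*} [Field K] [Field k] {d : K}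
    [Fact (∀ r : K, r ^ 2 ≠ d + 0 * r)] (P : Place K k) {δ : k} (hd : P.Sp d (δ ^ 2)) (hδ : δ ≠ 0)
    (h2 : (2 : k) ≠ 0) : ∃ Q : Place (QuadraticAlgebra K d 0) k,
      ∀ x a, P.Sp x a → Q.Sp (algebraMap K _ x) a := by
  let f := algebraMap k (AlgebraicClosure k)
  let j := algebraMap K (QuadraticAlgebra K d 0)
  obtain ⟨Q, hQ⟩ := (P.map f).exists_extension j
  have hQ' : ∀ x a, P.Sp x a → Q.Sp (j x) (f a) := fun x a h => hQ _ _ (h.map f)
  set s : QuadraticAlgebra K d 0 := QuadraticAlgebra.omega with hs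
  have hss : s ^ 2 = j d := by ext <;> simp [hs, sq, j]
  have hsA : s ∈ Q.A := mem_of_sq (b := 0) (zero_mem _) (hQ' _ _ hd).mem (by simpa using hss)
  obtain ⟨ε, hε, hsε⟩ : ∃ ε, ε ≠ 0 ∧ Q.Sp s (f ε) := by
    have h1 := (sp_val hsA).pow 2
    rw [hss] at h1
    have h3 := h1.unique (hQ' _ _ hd)
    rw [map_pow] at h3
    rcases sq_eq_sq_iff_eq_or_eq_neg.1 h3 with h | h
    · exact ⟨δ, hδ, h ▸ sp_val hsA⟩
    · exact ⟨-δ, neg_ne_zero.2 hδ, by rw [map_neg, ← h]; exact sp_val hsA⟩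
  have key : ∀ x c, Q.Sp x c → ∃ a, f a = c := by
    intro x c hx
    have ex : x = j x.re + j x.im * s := by ext <;> simp [hs, j]
    by_cases hb : x.im ∈ P.A
    · have h1 := (hQ' _ _ (sp_val hb)).mul hsε
      have h3 : j x.re ∈ Q.A := by
        have := (hx.sub h1).mem
        rwa [show x - j x.im * s = j x.re by rw [sub_eq_iff_eq_add]; exact ex] at this
      have h4 := (hQ' _ _ (sp_val ((mem_iff_of_sp hQ' _).1 h3))).add h1
      rw [← ex] at h4
      exact ⟨P.val x.re + P.val x.im * ε, by rw [hx.unique h4, map_add, map_mul]⟩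
    · obtain ⟨hb0, hbi⟩ := not_mem_iff.1 hb
      have hjb : j x.im ≠ 0 := (map_ne_zero j).2 hb0
      have h1 := hQ' _ _ hbi
      rw [map_zero, map_inv₀] at h1
      have h3 : Q.Sp (x * (j x.im)⁻¹ - 2 * s) (f (-(2 * ε))) := by
        have := (hx.mul h1).sub ((sp_ofNat 2).mul hsε)
        rw [map_neg, map_mul, map_ofNat]
        simpa using this
      have h4 : f (-(2 * ε)) ≠ 0 := (map_ne_zero f).2 (neg_ne_zero.2 (mul_ne_zero h2 hε))
      have e : x * (x * (j x.im)⁻¹ - 2 * s) = j ((x.re ^ 2 - d * x.im ^ 2) / x.im) := by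
        rw [map_div₀, map_sub, map_mul, map_pow, map_pow, ← hss, eq_div_iff hjb]
        have : x * (x * (j x.im)⁻¹ - 2 * s) * j x.im = x * (x - 2 * (j x.im * s)) := by
          field_simp
        rw [this]
        generalize j x.re = u at ex
        generalize j x.im = v at ex
        rw [ex]; ring
      have h5 := hx.mul h3
      rw [e] at h5
      have h6 := h5.unique (hQ' _ _ (sp_val ((mem_iff_of_sp hQ' _).1 h5.mem)))
      exact ⟨_ / -(2 * ε), by rw [map_div₀, ← h6, mul_div_cancel_right₀ _ h4]⟩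
  obtain ⟨Q', hQ''⟩ := exists_codRestrict Q f key
  exact ⟨Q', fun x a h => (hQ'' _ _).2 (hQ' _ _ h)⟩

/-- the `p`-adic place of `ℚ` -/
theorem exists_place_rat (p : ℕ) [Fact p.Prime] : Nonempty (Place ℚ (ZMod p)) := by
  obtain ⟨Q⟩ := exists_place_char (F := ℚ) (Om := AlgebraicClosure (ZMod p))
  obtain ⟨Q', -⟩ := exists_codRestrict Q (algebraMap (ZMod p) _) fun x c hx => by
    by_cases h : (x.den : AlgebraicClosure (ZMod p)) = 0
    · exfalso
      have h1 := hx.mul (sp_natCast x.den)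
      rw [h, mul_zero, Rat.mul_den_eq_num] at h1
      have h3 := (CharP.intCast_eq_zero_iff _ p _).1 ((sp_intCast _).unique h1)
      exact (Fact.out : p.Prime).one_lt.ne' (Nat.eq_one_of_dvd_coprimes x.reduced (Int.natCast_dvd.1 h3)
        ((CharP.cast_eq_zero_iff _ p _).1 h))
    · have := sp_rat_den Q h
      rw [Rat.cast_id] at this
      exact ⟨x.num / x.den, by rw [hx.unique this]; simp⟩
  exact ⟨Q'⟩

end Crest.Agent.T15.Lk
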