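import Crest.Agent.T15.LkB_47
import Crest.Agent.T15.LkE_47
import Crest.Agent.T15.LkD_16
import Crest.Agent.T15.LkG_67

/-!
# Row 15, block L (helper47), part H: reading the index of a point modulo a variable prime

`exists_read`: a Diophantine relation `Read w (co (a • P)) ρ` that forces `ρ ≡ a` modulo every good
prime of odd valuation in `w`, and holds for `ρ = a` at visible primes.
-/

set_option autoImplicit false
set_option linter.unusedSectionVars false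

namespace Crest.Agent.T15.Lk

open WeierstrassCurve WeierstrassCurve.Affine Crest.Agent.T170.Ell Crest.Agent.T170.Ell.Place

local notation "ℤ[i]" => GaussianInt

section place

variable {F Om : Type*} [Field F] [Field Om] [DecidableEq F] [DecidableEq Om] {ι n : F}
  [Fact (ι ^ 2 = -1)] {P : (E ι n).Point}

theorem Inf.sp {Q : Place F Om} {A : (E ι n).Point} (h : Inf Q A) : Q.Sp (co A).1⁻¹ 0 := by
  rcases h with rfl | h
  · simpa using sp_zero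
  · exact sp_inv_of_not_mem h

theorem x_ne_zero (hP : ∀ k : ℤ, k ≠ 0 → k • P ≠ 0) {α : ℤ[i]} (h0 : α • P ≠ 0) :
    (co (α • P)).1 ≠ 0 := by
  intro hx
  have hα : α ≠ 0 := fun e => h0 (by rw [e, zero_smul])
  refine smul_ne_zero_of hP (mul_ne_zero two_ne_zero hα) ?_
  rw [two_mul, add_smul]
  generalize α • P = A at h0 hx
  rcases A with _ | ⟨x, y, h⟩
  · exact absurd rfl h0
  · have e := E_equation.1 h.1
    rw [co_some] at hx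
    have hy : y = 0 := pow_eq_zero_iff two_ne_zero |>.1 (by rw [e, show x = 0 from hx]; ring)
    exact Point.add_self_of_Y_eq (by simp [hy])

theorem inf_of_sp (hP : ∀ k : ℤ, k ≠ 0 → k • P ≠ 0) {Q : Place F Om} {α : ℤ[i]}
    (h : Q.Sp (co (α • P)).1⁻¹ 0) : Inf Q (α • P) := by
  by_cases h0 : α • P = 0
  · exact Or.inl h0
  · exact Or.inr (not_mem_iff.2 ⟨x_ne_zero hP h0, h⟩)

/-- the elements that have to vanish at the place -/
noncomputable def zs (τ : F →+* F) (P A M B M' : (E ι n).Point) (ρ : F) : Fin 8 → F :=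
  ![(co M).1⁻¹, (co B).1⁻¹, τ (co M').1⁻¹, τ (co (M - (cc : ℤ[i]) • P)).1⁻¹,
    τ (co (B - (cc : ℤ[i]) • A)).1⁻¹, τ (tt (M - (cc : ℤ[i]) • P) / tt M'),
    τ (tt (B - (cc : ℤ[i]) • A) / tt M'), tt B / tt M - ρ]

variable {τ : F →+* F}

theorem zs_sound (hP : ∀ k : ℤ, k ≠ 0 → k • P ≠ 0) {Q : Place F Om} {ι' n' n'' : Om}
    [Fact (ι' ^ 2 = -1)] (g : Gd Q ι n ι' n') (g' : Gd (Q.comap τ) ι n ι' n'')
    (hc : (cc : Om) ≠ 0) {α μ β δ : ℤ[i]} {ρ : F} (hδ : δ • P ≠ 0)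
    (h : ∀ j, Q.Sp (zs τ P (α • P) (μ • P) (β • P) (δ • P) ρ j) 0) : Q.Sp ρ (zi ι' α) := by
  have e₁ : μ • P - (cc : ℤ[i]) • P = (μ - cc) • P := (sub_smul _ _ _).symm
  have e₂ : β • P - (cc : ℤ[i]) • α • P = (β - cc * α) • P := by rw [sub_smul, mul_smul]
  simp only [zs, e₁, e₂] at h
  have i₀ := inf_of_sp hP (h 0)
  have i₁ := inf_of_sp hP (h 1)
  have i₂ := inf_of_sp hP (((Q.comap_sp τ) _ _).2 (h 2))
  have c₁ := g'.chan (inf_of_sp hP (((Q.comap_sp τ) _ _).2 (h 3))) i₂ hδ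
    (((Q.comap_sp τ) _ _).2 (h 5))
  have c₂ := g'.chan (inf_of_sp hP (((Q.comap_sp τ) _ _).2 (h 4))) i₂ hδ
    (((Q.comap_sp τ) _ _).2 (h 6))
  rw [map_sub, map_natCast, sub_eq_zero] at c₁
  rw [map_sub, map_mul, map_natCast, sub_eq_zero] at c₂
  have hμ : zi ι' μ ≠ 0 := c₁ ▸ hc
  have r := g.read i₁ i₀ (smul_ne_zero_of hP fun e => hμ (by rw [e, map_zero])) hμ
  have := r.sub (h 7)
  rw [c₁, c₂, mul_div_cancel_left₀ _ hc, sub_zero] at this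
  exact sub_sub_cancel (tt (β • P) / tt (μ • P)) ρ ▸ this

theorem zs_complete (hP : ∀ k : ℤ, k ≠ 0 → k • P ≠ 0) {p : ℕ} [Fact p.Prime]
    {Q : Place F (ZMod p)} {ι' n' b' : ZMod p} [Fact (ι' ^ 2 = -1)] (g : Gd Q ι n ι' n')
    (g' : Gd (Q.comap τ) ι n ι' (b' ^ 2 * n')) (hc : (cc : ZMod p) ≠ 0) (hb : ¬ IsSquare b')
    {x' : ZMod p} (hx : Q.Sp (τ (co P).1) x') (hx' : x' ≠ 0) (a : ℤ) :
    ∃ μ β δ : ℤ[i], δ • P ≠ 0 ∧ ∀ j, Q.Sp (zs τ P (a • P) (μ • P) (β • P) (δ • P) a j) 0 := by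
  obtain ⟨r, r0, r1, -⟩ := g.exists_rd
  obtain ⟨r', r0', r1', r2'⟩ := g'.exists_rd
  obtain ⟨y', h', e'⟩ : ∃ y' h', r' P = .some x' y' h' := by
    rcases P with _ | ⟨x, y, h⟩
    · exact absurd (one_smul ℤ _) (hP 1 one_ne_zero)
    · have hx1 := ((Q.comap_sp τ) _ _).2 hx
      exact ⟨_, r2' x y h _ _ hx1 (sp_val (g'.y_mem h.1 hx1.mem))⟩
  obtain ⟨μ, π, δ, h1, h2, h3, h4, h5⟩ := exists_mu g.two g.ne hb (r P) h' hx'
  have i₀ : Inf Q (μ • P) := (r0 _).1 (by rw [r1, h1])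
  have i₂ : Inf (Q.comap τ) (δ • P) := (r0' _).1 (by rw [r1', e', h3])
  have hδ := smul_ne_zero_of hP h2
  have hμ : zi ι' μ = cc := by
    have := congrArg (zi ι') h4
    rwa [map_sub, map_mul, h5, zero_mul, map_natCast, sub_eq_zero] at this
  have one : ∀ {Q : Place F (ZMod p)} {u : F}, u ≠ 0 → Q.Sp (u / u) 1 := fun hu => by
    rw [div_self hu]
    exact sp_one
  have hM : μ • P ≠ 0 := smul_ne_zero_of hP fun e => hc (by rw [← hμ, e, map_zero])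
  have e₁ : μ • P - (cc : ℤ[i]) • P = π • δ • P := by rw [← sub_smul, h4, mul_smul]
  have e₂ : ((a : ℤ[i]) * μ) • P - (cc : ℤ[i]) • a • P = ((a : ℤ[i]) * π) • δ • P := by
    rw [← intCast_smul, ← mul_smul, ← mul_smul, ← sub_smul, mul_assoc, ← h4]
    congr 1
    ring
  refine ⟨μ, a * μ, δ, hδ, fun j => ?_⟩
  simp only [zs, e₁, e₂]
  fin_cases j
  · exact i₀.sp
  · exact (mul_smul (a : ℤ[i]) μ P ▸ g.inf_smul _ i₀).sp
  · exact ((Q.comap_sp τ) _ _).1 i₂.sp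
  · exact ((Q.comap_sp τ) _ _).1 (g'.inf_smul _ i₂).sp
  · exact ((Q.comap_sp τ) _ _).1 (g'.inf_smul _ i₂).sp
  · have := g'.sp_tt_smul π i₂ (one (g'.tt_ne i₂ hδ))
    rw [h5, zero_mul] at this
    exact ((Q.comap_sp τ) _ _).1 this
  · have := g'.sp_tt_smul (a * π) i₂ (one (g'.tt_ne i₂ hδ))
    rw [map_mul, h5, mul_zero, zero_mul] at this
    exact ((Q.comap_sp τ) _ _).1 this
  · have := (g.sp_tt_smul a i₀ (one (g.tt_ne i₀ hM))).sub (sp_intCast a)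
    rw [map_intCast, mul_one, sub_self, ← mul_smul] at this
    exact this

theorem exists_gd {Q : Place F Om} {b : F} (hn : n ≠ 0) (hτι : τ ι = ι) (hτn : τ n = b ^ 2 * n)
    (h2 : (2 : Om) ≠ 0) (h : ∀ j, ![n, n⁻¹, b, b⁻¹] j ∈ Q.A) :
    Q.val ι ^ 2 = -1 ∧ Gd Q ι n (Q.val ι) (Q.val n) ∧
      Gd (Q.comap τ) ι n (Q.val ι) (Q.val b ^ 2 * Q.val n) := by
  have e : ι ^ 2 = -1 := Fact.out
  have hι : Q.Sp ι (Q.val ι) :=
    sp_val (mem_of_sq (b := 0) (c := -1) (zero_mem _) (neg_mem (one_mem _)) (by rw [e]; ring))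
  have hb : b ≠ 0 := fun e0 => (map_ne_zero τ).2 hn (by rw [hτn, e0]; ring)
  have unit : ∀ {z : F}, z ≠ 0 → z ∈ Q.A → z⁻¹ ∈ Q.A → Q.val z ≠ 0 := fun h0 h1 h2 e0 =>
    (e0 ▸ sp_val h1).inv_not_mem h0 h2
  have hn' := unit hn (h 0) (h 1)
  refine ⟨(hι.pow 2).unique (e ▸ sp_one.neg), ⟨hι, sp_val (h 0), hn', h2⟩,
    ((Q.comap_sp τ) _ _).2 (by rwa [hτι]), ((Q.comap_sp τ) _ _).2 ?_,
    mul_ne_zero (pow_ne_zero 2 (unit hb (h 2) (h 3))) hn', h2⟩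
  rw [hτn]
  exact ((sp_val (h 2)).pow 2).mul (sp_val (h 0))

end place

section dio

variable {F : Type} [Field F] [NumberField F] [DecidableEq F] {ι n : F} [Fact (ι ^ 2 = -1)]
  {P : (E ι n).Point}

theorem dio_lattice (hn : n ≠ 0) (hZ : Dio fun v : F × F => ∃ a : ℤ, co (a • P) = v) :
    Dio fun v : F × F => ∃ α : ℤ[i], co (α • P) = v := by
  refine (Dio.ex (R := fun (v : F × F) (u : (F × F) × F × F) =>
    ((∃ a : ℤ, co (a • P) = u.1) ∧ ∃ a : ℤ, co (a • P) = u.2) ∧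
      co (pt ι n u.1 + J ι n (pt ι n u.2)) = v)
    (((hZ.comp (by fun_prop)).and (hZ.comp (by fun_prop))).and (Dio.eqF
      ((DPt.pt hn (by fun_prop)).add (DPt.pt hn (by fun_prop)).J) (by fun_prop)))).congr fun v => ?_
  constructor
  · rintro ⟨⟨_, _⟩, ⟨⟨a, rfl⟩, b, rfl⟩, rfl⟩
    exact ⟨⟨a, b⟩, by simp [smul_def]⟩
  · rintro ⟨α, rfl⟩
    exact ⟨(co (α.re • P), co (α.im • P)), ⟨⟨_, rfl⟩, _, rfl⟩, by simp [smul_def]⟩

/-- **The link.** -/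
theorem exists_read [IsGalois ℚ F] {b : F} {τ : F →+* F} (hn : n ≠ 0) (hτι : τ ι = ι)
    (hτn : τ n = b ^ 2 * n) (hP : ∀ k : ℤ, k ≠ 0 → k • P ≠ 0)
    (hZ : Dio fun v : F × F => ∃ a : ℤ, co (a • P) = v) {J : ℚ × ℚ → Prop} (hJ : Dio J) :
    ∃ (N : ℕ) (Read : ℚ → F × F → ℚ → Prop), N ≠ 0 ∧
      (Dio fun q : ℚ × (F × F) × ℚ => Read q.1 q.2.1 q.2.2) ∧
      (∀ (w : ℚ) (a : ℤ) (ρ : ℚ) (p : ℕ), p.Prime → ¬ p ∣ N → (∀ y, J (w, y) → (p : ℤ) ∣ y.num) →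
        Read w (co (a • P)) ρ → (p : ℤ) ∣ (ρ - a).num) ∧
      ∀ (w : ℚ) (p : ℕ) [Fact p.Prime] (Q : Place F (ZMod p)), ¬ p ∣ N →
        (∀ y : ℚ, (p : ℤ) ∣ y.num → J (w, y)) → ¬ IsSquare (Q.val b) →
        ∀ a : ℤ, Read w (co (a • P)) a := by
  obtain ⟨N₁, hN₁, G, dG, sG, cG⟩ := gadget (F := F) (Fin 8) hJ
  obtain ⟨N₂, hN₂, h₂⟩ := exists_den_fin ![n, n⁻¹, b, b⁻¹]
  obtain ⟨N₃, hN₃, h₃⟩ := exists_den_fin ![τ (co P).1, (τ (co P).1)⁻¹]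
  have hL := dio_lattice hn hZ
  have good : ∀ (p : ℕ) (Om : Type) [Field Om] [CharP Om p], ¬ p ∣ 2 * cc * N₁ * N₂ * N₃ →
      (2 : Om) ≠ 0 ∧ (cc : Om) ≠ 0 ∧ (N₂ : Om) ≠ 0 ∧ (N₃ : Om) ≠ 0 := fun p Om _ _ h => by
    rw [← CharP.cast_eq_zero_iff Om p] at h
    push_cast at h
    simp only [mul_eq_zero, not_or] at h
    exact ⟨h.1.1.1.1, h.1.1.1.2, h.1.2, h.2⟩
  refine ⟨2 * cc * N₁ * N₂ * N₃, fun w v ρ => ∃ u : (F × F) × (F × F) × F × F,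
    (((∃ α : ℤ[i], co (α • P) = u.1) ∧ ∃ α : ℤ[i], co (α • P) = u.2.1) ∧
      ((∃ α : ℤ[i], co (α • P) = u.2.2) ∧ u.2.2 ≠ (0, 1))) ∧
      G (w, zs τ P (pt ι n v) (pt ι n u.1) (pt ι n u.2.1) (pt ι n u.2.2) ρ),
    by simp [cc_ne_zero, hN₁, hN₂, hN₃], ?_, ?_, ?_⟩
  · refine Dio.ex ((((hL.comp (by fun_prop)).and (hL.comp (by fun_prop))).and
      ((hL.comp (by fun_prop)).and (Dio.ne (by fun_prop) (by fun_prop)))).and
        (dG.compF (DioF.prodMk (by fun_prop) (DioF.pi fun j => ?_))))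
    let U := (ℚ × (F × F) × ℚ) × (F × F) × (F × F) × F × F
    have dA : DPt fun q : U => pt ι n q.1.2.1 := DPt.pt hn (by fun_prop)
    have dM : DPt fun q : U => pt ι n q.2.1 := DPt.pt hn (by fun_prop)
    have dB : DPt fun q : U => pt ι n q.2.2.1 := DPt.pt hn (by fun_prop)
    have dM' : DPt fun q : U => pt ι n q.2.2.2 := DPt.pt hn (by fun_prop)
    have d₁ := dM.sub (DPt.const ((cc : ℤ[i]) • P))
    have d₂ := dB.sub (dA.smul (cc : ℤ[i]))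
    fin_cases j
    exacts [dM.dioF.fst.inv, dB.dioF.fst.inv, dM'.dioF.fst.inv.ringHom τ,
      d₁.dioF.fst.inv.ringHom τ, d₂.dioF.fst.inv.ringHom τ, (d₁.tt.div dM'.tt).ringHom τ,
      (d₂.tt.div dM'.tt).ringHom τ, (dB.tt.div dM.tt).sub (DioF.ratCast (by fun_prop))]
  · rintro w a ρ p hp hN hs ⟨⟨_, _, _⟩, ⟨⟨⟨μ, rfl⟩, β, rfl⟩, ⟨δ, rfl⟩, hδ⟩, hG⟩
    classical
    have := Fact.mk hp
    obtain ⟨Q, hQ⟩ := sG w _ p hG hs
    obtain ⟨g2, gc, gN, -⟩ := good p (AlgebraicClosure (ZMod p)) hN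
    obtain ⟨e, g, g'⟩ := exists_gd hn hτι hτn g2 (h₂ _ Q gN)
    have := Fact.mk e
    simp only [pt_co, ← intCast_smul] at hQ
    have := (zs_sound hP g g' gc (mt co_eq_iff.2 hδ) hQ).sub (sp_intCast a)
    rw [map_intCast, sub_self] at this
    exact (sp_rat Q _).1 (by push_cast; exact this)
  · intro w p _ Q hN hc hb a
    obtain ⟨g2, gc, gN, gN'⟩ := good p (ZMod p) hN
    obtain ⟨e, g, g'⟩ := exists_gd hn hτι hτn g2 (h₂ _ Q gN)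
    have := Fact.mk e
    have hx := sp_val (h₃ _ Q gN' 0)
    have hx0 : τ (co P).1 ≠ 0 := (map_ne_zero τ).2 (by
      simpa using x_ne_zero hP (α := 1) (by simpa using hP 1 one_ne_zero))
    obtain ⟨μ, β, δ, hδ, H⟩ := zs_complete hP g g' gc hb hx
      (fun e0 => (e0 ▸ hx).inv_not_mem hx0 (h₃ _ Q gN' 1)) a
    refine ⟨(co (μ • P), co (β • P), co (δ • P)), ⟨⟨⟨_, rfl⟩, _, rfl⟩, ⟨_, rfl⟩,
      mt co_eq_iff.1 hδ⟩, cG w _ p Q (fun h => hN ?_) hc ?_⟩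
    · exact ((h.mul_left _).mul_right _).mul_right _
    · simpa only [pt_co, Rat.cast_intCast] using H

end dio

end Crest.Agent.T15.Lk
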