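import Crest.Agent.T24.AsaA_53
import Crest.Agent.T15.Hnt_73

/-!
# Row 15 (helper73): Hilbert 90 in semilocal algebras and the local step of the crossing argument
-/

set_option autoImplicit false

noncomputable section

namespace Crest.Agent.T15.Hnt

open Finset Module NumberField IsDedekindDomain WithZero Filter Topology
open scoped TensorProduct

section h90
variable {F R : Type*} [Field F] [CommRing R] [Algebra F R]

theorem prod_shift {σ : R ≃ₐ[F] R} (x : R) (k : ℕ) :
    x * σ (∏ i ∈ range k, (σ ^ i) x) = ∏ i ∈ range (k + 1), (σ ^ i) x := by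
  rw [prod_range_succ', map_prod, mul_comm]
  simp only [pow_succ' σ, AlgEquiv.mul_apply, pow_zero, AlgEquiv.one_apply]

theorem sum_shift {σ : R ≃ₐ[F] R} {N : ℕ} (hσ : σ ^ N = 1) (x : R) :
    σ (∑ i ∈ range N, (σ ^ i) x) = ∑ i ∈ range N, (σ ^ i) x := by
  have h1 := (sum_range_succ (fun i => (σ ^ i) x) N).symm.trans (sum_range_succ' _ N)
  simp only [hσ, pow_zero, add_left_inj] at h1
  rw [map_sum, h1]
  simp only [pow_succ' σ, AlgEquiv.mul_apply]

theorem prod_shift' {σ : R ≃ₐ[F] R} {N : ℕ} (hσ : σ ^ N = 1) {x : R} (hx : IsUnit x) :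
    ∏ i ∈ range N, (σ ^ i) (σ x) = ∏ i ∈ range N, (σ ^ i) x := by
  have h1 := (prod_range_succ (fun i => (σ ^ i) x) N).symm.trans (prod_range_succ' _ N)
  simp only [hσ, pow_zero, AlgEquiv.one_apply] at h1
  exact (hx.mul_right_cancel h1).symm

/-- **Hilbert 90** in a semilocal Galois algebra -/
theorem h90 [Infinite F] [Finite (MaximalSpectrum R)] {σ : R ≃ₐ[F] R} {N : ℕ} (hN : 0 < N)
    (hσ : σ ^ N = 1) {θ : R} (hθ : ∀ k, 0 < k → k < N → IsUnit (θ - (σ ^ k) θ)) {x : R}
    (hx : ∏ i ∈ range N, (σ ^ i) x = 1) : ∃ e : R, IsUnit e ∧ x * σ e = e := by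
  let E : R →ₗ[F] R := ∑ k ∈ range N, (∏ i ∈ range k, (σ ^ i) x) • (σ ^ k).toLinearMap
  have hE : ∀ z, E z = ∑ k ∈ range N, (∏ i ∈ range k, (σ ^ i) x) * (σ ^ k) z := fun z => by
    simp [E, LinearMap.sum_apply]
  obtain ⟨z, hz⟩ := Submodule.exists_forall_notMem_of_forall_ne_top
    (fun m : MaximalSpectrum R => (m.asIdeal.restrictScalars F).comap E) fun m hm => by
      have h1 : ∀ P : Polynomial R,
          ∑ k ∈ range N, (∏ i ∈ range k, (σ ^ i) x) * P.eval ((σ ^ k) θ) ∈ m.asIdeal := fun P => by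
        induction P using Polynomial.induction_on' with
        | add p q hp hq => simpa [mul_add, sum_add_distrib] using m.asIdeal.add_mem hp hq
        | monomial j c =>
          have h2 : E (θ ^ j) ∈ m.asIdeal := (hm ▸ Submodule.mem_top : θ ^ j ∈ _)
          convert m.asIdeal.mul_mem_left c h2 using 1
          rw [hE, mul_sum]
          exact sum_congr rfl fun k _ => by rw [Polynomial.eval_monomial, map_pow]; ring
      have h2 := h1 (∏ k ∈ (range N).erase 0, (Polynomial.X - Polynomial.C ((σ ^ k) θ)))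
      rw [sum_eq_single 0 (fun k hk h0 => by
        rw [Polynomial.eval_prod, prod_eq_zero (mem_erase.2 ⟨h0, hk⟩) (by simp), mul_zero])
        (fun h => absurd (mem_range.2 hN) h)] at h2
      refine m.isMaximal.ne_top (m.asIdeal.eq_top_of_isUnit_mem h2 ?_)
      simp only [range_zero, prod_empty, one_mul, Polynomial.eval_prod]
      exact IsUnit.prod_iff.2 fun k hk => by
        simpa using hθ k (Nat.pos_of_ne_zero (mem_erase.1 hk).1) (mem_range.1 (mem_erase.1 hk).2)
  refine ⟨E z, by_contra fun h => ?_, ?_⟩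
  · obtain ⟨m, hm, h⟩ := exists_max_ideal_of_mem_nonunits h
    exact hz ⟨m, hm⟩ h
  · have h1 := (sum_range_succ (fun k => (∏ i ∈ range k, (σ ^ i) x) * (σ ^ k) z) N).symm.trans
      (sum_range_succ' _ N)
    simp only [hσ, hx, pow_zero, range_zero, prod_empty, add_left_inj] at h1
    rw [hE, map_sum, mul_sum, h1]
    exact sum_congr rfl fun k _ => by
      rw [map_mul, ← mul_assoc, prod_shift, pow_succ' σ, AlgEquiv.mul_apply]

/-- the crossing step: if `N_σ c` is the norm of a `τ`-fixed element then `N_τ d` is the norm of a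
`σ`-fixed element -/
theorem cross [Infinite F] [Finite (MaximalSpectrum R)] {σ τ : R ≃ₐ[F] R} {N n : ℕ} (hN : 0 < N)
    (hσ : σ ^ N = 1) (hτ : τ ^ n = 1) (hc : Commute σ τ) {θ : R}
    (hθ : ∀ k, 0 < k → k < N → IsUnit (θ - (σ ^ k) θ)) {c d c₀ : R} (h0 : IsUnit c₀)
    (h1 : τ c₀ = c₀) (h2 : ∏ i ∈ range N, (σ ^ i) c₀ = ∏ i ∈ range N, (σ ^ i) c)
    (h3 : τ c * d = σ d * c) :
    ∃ d', σ d' = d' ∧ ∏ i ∈ range n, (τ ^ i) d' = ∏ i ∈ range n, (τ ^ i) d := by
  obtain ⟨c', hc'⟩ := h0.exists_right_inv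
  have h4 : τ c' = c' := by
    have := congrArg τ hc'
    rw [map_mul, h1, map_one] at this
    exact h0.mul_left_cancel (this.trans hc'.symm)
  obtain ⟨e, he, h5⟩ := h90 hN hσ hθ (x := c * c') (by
    simp only [map_mul, prod_mul_distrib]
    rw [← h2, ← prod_mul_distrib]
    simp only [← map_mul, hc', map_one, prod_const_one])
  obtain ⟨e', he'⟩ := he.exists_right_inv
  have h6 := congrArg τ h5
  have h7 := congrArg σ he'
  have h8 : σ (τ e) = τ (σ e) := AlgEquiv.congr_fun hc.eq e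
  rw [map_mul, map_mul, h4] at h6
  rw [map_mul, map_one] at h7
  have h9 : σ e' = c * c' * e' := by linear_combination (-σ e') * he' - e' * σ e' * h5 + c * c' * e' * h7
  refine ⟨d * τ e * e', ?_, ?_⟩
  · rw [map_mul, map_mul, h8, h9]
    linear_combination (-c' * τ (σ e) * e') * h3 + d * e' * h6
  · simp only [map_mul, prod_mul_distrib]
    rw [prod_shift' hτ he, mul_assoc, ← prod_mul_distrib]
    simp only [← map_mul, he', map_one, prod_const_one, mul_one]

end h90

section field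
variable {K Ω : Type*} [Field K] [CharZero K] [Field Ω] [Algebra K Ω] [FiniteDimensional K Ω]

theorem exists_theta (s : Ω ≃ₐ[K] Ω) :
    ∃ θ : Ω, ∀ k, 0 < k → k < orderOf s → θ - (s ^ k) θ ≠ 0 := by
  obtain ⟨θ, hθ⟩ := Field.exists_primitive_element K Ω
  refine ⟨θ, fun k h0 hk h => pow_ne_one_of_lt_orderOf h0.ne' hk ?_⟩
  refine AlgEquiv.coe_toAlgHom_injective (AlgHom.ext fun x => ?_)
  have hx : x ∈ (AlgHom.equalizer ((s ^ k : Ω ≃ₐ[K] Ω) : Ω →ₐ[K] Ω) (AlgHom.id K Ω)) := by
    have h1 : Algebra.adjoin K {θ} = ⊤ := by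
      rw [← IntermediateField.adjoin_simple_toSubalgebra_of_isAlgebraic
        (Algebra.IsAlgebraic.isAlgebraic θ), hθ, IntermediateField.top_toSubalgebra]
    exact (Algebra.adjoin_le (S := AlgHom.equalizer _ _)
      (Set.singleton_subset_iff.2 (sub_eq_zero.1 h).symm)) (h1 ▸ Algebra.mem_top)
  exact hx

/-- **Hilbert 90** for one automorphism of a field -/
theorem h90_field (s : Ω ≃ₐ[K] Ω) {x : Ω} (hx : ∏ i ∈ range (orderOf s), (s ^ i) x = 1) :
    ∃ e : Ω, e ≠ 0 ∧ x * s e = e := by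
  obtain ⟨θ, hθ⟩ := exists_theta s
  obtain ⟨e, he, h⟩ := h90 (orderOf_pos s) (pow_orderOf_eq_one s)
    (fun k h0 hk => (hθ k h0 hk).isUnit) hx
  exact ⟨e, he.ne_zero, h⟩

variable (A : Type*) [CommRing A] [Algebra K A]

/-- base change of automorphisms -/
def bc : (Ω ≃ₐ[K] Ω) →* (A ⊗[K] Ω ≃ₐ[A] A ⊗[K] Ω) where
  toFun g := Algebra.TensorProduct.congr AlgEquiv.refl g
  map_one' := AlgEquiv.ext fun x => by
    induction x with
    | zero => simp
    | tmul a x => simp
    | add x y hx hy => rw [map_add, map_add, hx, hy]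
  map_mul' g h := AlgEquiv.ext fun x => by
    induction x with
    | zero => simp
    | tmul a x => simp
    | add x y hx hy => rw [map_add, map_add, hx, hy]

omit [CharZero K] [FiniteDimensional K Ω] in
theorem bc_tmul (g : Ω ≃ₐ[K] Ω) (a : A) (x : Ω) : bc A g (a ⊗ₜ x) = a ⊗ₜ g x := by
  simp [bc]

/-- the polynomial `∑_f μ_f ∏_k r_{f k}` -/
def pol {ι : Type*} [Fintype ι] {n : ℕ} (μ : (Fin n → ι) → K) (r : ι → A) : A :=
  ∑ f : Fin n → ι, (∏ k, r (f k)) * algebraMap K A (μ f)

variable {A} in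
omit [CharZero K] [FiniteDimensional K Ω] [Algebra K Ω] in
theorem lam_prod {ι R : Type*} [Fintype ι] [CommRing R] [Algebra A R] {n : ℕ} (j : Ω →+* R)
    (l : R →ₗ[A] A) (l₀ : Ω → K) (hl : ∀ x, l (j x) = algebraMap K A (l₀ x)) (y : Fin n → ι → Ω)
    (r : ι → A) : l (∏ k, ∑ i, r i • j (y k i)) = pol A (fun f => l₀ (∏ k, y k (f k))) r := by
  classical
  rw [Fintype.prod_sum, map_sum, pol]
  exact sum_congr rfl fun f _ => by rw [prod_smul, map_smul, ← map_prod, hl, smul_eq_mul]

end field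

section loc
variable {K : Type*} [Field K] [NumberField K]

theorem val_alg (w : HeightOneSpectrum (𝓞 K)) (x : K) :
    Valued.v (algebraMap K (w.adicCompletion K) x) = w.valuation K x :=
  w.valuedAdicCompletion_eq_valuation' x

/-- weak approximation, as a sequence -/
theorem exists_seq (T : Finset (HeightOneSpectrum (𝓞 K))) (a : ∀ w : HeightOneSpectrum (𝓞 K),
    w.adicCompletion K) : ∃ x : ℕ → K, ∀ w ∈ T,
      Tendsto (fun m => algebraMap K (w.adicCompletion K) (x m)) atTop (𝓝 (a w)) := by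
  obtain ⟨v, hv⟩ := T24.Asa.exists_notMem T
  choose x hx _ using fun m => T24.Asa.approxC T v hv a m 0 one_pos
  refine ⟨x, fun w hw => ?_⟩
  obtain ⟨p, hp⟩ := w.valuation_surjective K (exp (-1))
  rw [tendsto_iff_norm_sub_tendsto_zero]
  refine squeeze_zero (fun _ => norm_nonneg _) (fun m => ?_)
    (tendsto_pow_atTop_nhds_zero_of_lt_one (norm_nonneg (algebraMap K (w.adicCompletion K) p)) ?_)
  · rw [← norm_pow, Valued.toNormedField.norm_le_iff, map_pow, val_alg, hp, ← exp_nsmul]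
    rw [smul_neg, nsmul_one]
    exact hx m w hw
  · rw [Valued.toNormedField.norm_lt_one_iff, val_alg, hp, ← exp_zero, exp_lt_exp]; omega

/-- a value of a polynomial that is attained locally is attained approximately -/
theorem approx_pol {ι : Type*} [Fintype ι] {n : ℕ} (μ : (Fin n → ι) → K) {b : K} (hb : b ≠ 0)
    (T : Finset (HeightOneSpectrum (𝓞 K)))
    (h : ∀ w ∈ T, ∃ r : ι → w.adicCompletion K, pol _ μ r = algebraMap K _ b) (M : ℕ) :
    ∃ r : ι → K, ∀ w ∈ T, pol K μ r ≠ 0 ∧ w.valuation K (b / pol K μ r - 1) ≤ exp (-(M : ℤ)) := by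
  choose! r hr using h
  choose x hx using fun i => exists_seq T fun w => r w i
  refine ((eventually_all_finset T (l := atTop)).2 fun w hw => ?_).exists.imp'
    (fun m i => x i m) fun m h => h
  have h1 : ∀ y : ι → K, algebraMap K (w.adicCompletion K) (pol K μ y) =
      pol _ μ fun i => algebraMap K _ (y i) := fun y => by simp [pol]
  have h2 : Tendsto (fun m => algebraMap K (w.adicCompletion K) (pol K μ fun i => x i m)) atTop
      (𝓝 (algebraMap K _ b)) := by
    simp only [h1, ← hr w hw]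
    exact tendsto_finsetSum _ fun f _ => (tendsto_finsetProd _ fun k _ => hx _ w hw).mul_const _
  have hb' := (map_ne_zero (algebraMap K (w.adicCompletion K))).2 hb
  obtain ⟨p, hp⟩ := w.valuation_surjective K (exp (-(M : ℤ)))
  have h3 := (((tendsto_const_nhds (x := algebraMap K _ b)).div h2 hb').sub_const 1).norm
  rw [div_self hb', sub_self, norm_zero] at h3
  have h4 : 0 < ‖algebraMap K (w.adicCompletion K) p‖ := norm_pos_iff.2 ((map_ne_zero _).2 (by
    rintro rfl; simp at hp; exact exp_ne_zero hp.symm))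
  filter_upwards [h2.eventually_ne hb', h3.eventually (ge_mem_nhds h4)] with m h5 h6
  refine ⟨fun h => h5 (by rw [h, map_zero]), ?_⟩
  rw [Valued.toNormedField.norm_le_iff, val_alg, hp] at h6
  rw [← val_alg, map_sub, map_div₀, map_one]
  exact h6

variable {Ω : Type*} [Field Ω] [Algebra K Ω] [FiniteDimensional K Ω]

/-- **LOC**: `a = N_s c` an approximate norm of `t`-fixed elements at `T` gives `b = N_t d` an
approximate norm of an `s`-fixed element at `T`. -/
theorem loc {s t : Ω ≃ₐ[K] Ω} (hst : Commute s t) {n : ℕ} (ht : t ^ n = 1)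
    (hG : ∀ x, s x = x → t x = x → ∃ y, algebraMap K Ω y = x) {c d : Ω} {a b : K} (ha : a ≠ 0)
    (hb : b ≠ 0) (hc : ∏ i ∈ range (orderOf s), (s ^ i) c = algebraMap K Ω a)
    (hcd : t c * d = s d * c) (hd : ∏ i ∈ range n, (t ^ i) d = algebraMap K Ω b)
    (T : Finset (HeightOneSpectrum (𝓞 K)))
    (h : ∀ w ∈ T, ∃ (g : Ω) (m : K), m ≠ 0 ∧ t g = g ∧
      ∏ i ∈ range (orderOf s), (s ^ i) g = algebraMap K Ω m ∧
      w.valuation K (a / m - 1) < w.valuation K (orderOf s : K) ^ 2) (M : ℕ) :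
    ∃ (g : Ω) (b' : K), b' ≠ 0 ∧ s g = g ∧ ∏ i ∈ range n, (t ^ i) g = algebraMap K Ω b' ∧
      ∀ w ∈ T, w.valuation K (b / b' - 1) ≤ exp (-(M : ℤ)) := by
  rcases T.eq_empty_or_nonempty with rfl | ⟨w₀, hw₀⟩
  · exact ⟨1, 1, one_ne_zero, map_one _, by simp, by simp⟩
  set N := orderOf s with hN
  have hN0 : 0 < N := orderOf_pos s
  have hs : s ^ N = 1 := pow_orderOf_eq_one s
  let ω := Module.finBasis K Ω
  let η : Fin (finrank K Ω) → Ω := fun i => (N : K)⁻¹ • ∑ k ∈ range N, (s ^ k) (ω i)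
  have hη : ∀ i, s (η i) = η i := fun i => by simp only [η, map_smul, sum_shift hs]
  obtain ⟨l₀, hl₀⟩ := Module.Projective.exists_dual_eq_one K (one_ne_zero : (1 : Ω) ≠ 0)
  have hl₁ : ∀ y, l₀ (algebraMap K Ω y) = y := fun y => by
    rw [Algebra.algebraMap_eq_smul_one, map_smul, hl₀, smul_eq_mul, mul_one]
  obtain ⟨θ, hθ⟩ := exists_theta s
  obtain ⟨r, hr⟩ := approx_pol (fun f : Fin n → _ => l₀ (∏ k : Fin n, (t ^ (k : ℕ)) (η (f k)))) hb T
    (fun w hw => by
      obtain ⟨g, m, hm, htg, hg, hv⟩ := h w hw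
      obtain ⟨y, hy⟩ := exists_root_adic w hv
      let A := w.adicCompletion K
      let j : Ω →ₐ[K] A ⊗[K] Ω := Algebra.TensorProduct.includeRight
      have hj : ∀ g x, bc A g (j x) = j (g x) := fun g x => bc_tmul A g 1 x
      have hy0 : y ≠ 0 := by
        rintro rfl
        rw [zero_pow hN0.ne', eq_comm, map_eq_zero] at hy
        exact div_ne_zero ha hm hy
      have hg0 : g ≠ 0 := by
        rintro rfl
        rw [prod_eq_zero (mem_range.2 hN0) (by simp), eq_comm, map_eq_zero] at hg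
        exact hm hg
      have := IsArtinianRing.of_finite A (A ⊗[K] Ω)
      have := T24.Loc.charZero_adic K w
      obtain ⟨d', h1, h2⟩ := cross (σ := bc A s) (τ := bc A t) (n := n) hN0
        (by rw [← map_pow, hs, map_one]) (by rw [← map_pow, ht, map_one]) (hst.map _) (θ := j θ)
        (fun k h0 hk => by
          rw [← map_pow, hj, ← map_sub]; exact (hθ k h0 hk).isUnit.map j)
        (c := j c) (d := j d) (c₀ := algebraMap A _ y * j g)
        ((hy0.isUnit.map _).mul (hg0.isUnit.map j)) (by rw [map_mul, AlgEquiv.commutes, hj, htg])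
        (by
          simp only [map_mul, AlgEquiv.commutes, ← map_pow (bc A), hj, prod_mul_distrib, prod_const,
            card_range]
          rw [← map_prod, ← map_prod, hg, hc, ← map_pow, hy, AlgHom.commutes, AlgHom.commutes,
            ← IsScalarTower.algebraMap_apply, ← map_mul, div_mul_cancel₀ _ hm])
        (by rw [hj, hj, ← map_mul, ← map_mul, hcd])
      let r := (ω.baseChange A).repr d'
      have h3 : d' = ∑ i, r i • j (ω i) := by
        conv_lhs => rw [← (ω.baseChange A).sum_repr d']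
        exact sum_congr rfl fun i _ => by rw [Basis.baseChange_apply]; rfl
      have h4 : ∀ k : ℕ, (bc A s ^ k) d' = d' := fun k => by
        induction k with
        | zero => rfl
        | succ k ih => rw [pow_succ, AlgEquiv.mul_apply, h1, ih]
      have h5 : d' = ∑ i, r i • j (η i) := by
        have h6 : (N : K)⁻¹ • ∑ k ∈ range N, (bc A s ^ k) d' = d' := by
          simp only [h4, sum_const, card_range]
          rw [← Nat.cast_smul_eq_nsmul K, smul_smul, inv_mul_cancel₀ (Nat.cast_ne_zero.2 hN0.ne'),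
            one_smul]
        conv_lhs => rw [← h6, h3]
        simp only [map_sum, map_smul, ← map_pow, hj, η, smul_sum]
        rw [sum_comm]
        exact sum_congr rfl fun i _ => sum_congr rfl fun k _ => smul_comm _ _ _
      let l : A ⊗[K] Ω →ₗ[A] A := l₀.baseChange A
      have hl : ∀ x, l ((j : Ω →+* _) x) = algebraMap K A (l₀ x) := fun x => by
        simp [l, j, Algebra.algebraMap_eq_smul_one]
      refine ⟨r, (lam_prod (j : Ω →+* _) l l₀ hl
        (fun (k : Fin n) i => (t ^ (k : ℕ)) (η i)) r).symm.trans ?_⟩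
      rw [← hl₁ b, ← hl, ← hd, map_prod (j : Ω →+* A ⊗[K] Ω)]
      simp only [← map_pow (bc A), hj] at h2
      refine congrArg l (Eq.trans ?_ h2)
      rw [← Fin.prod_univ_eq_prod_range]
      refine prod_congr rfl fun k _ => ?_
      conv_rhs => rw [h5]
      simp only [map_sum (bc A _), map_smul, hj]
      rfl) M
  let g := ∑ i, r i • η i
  have hg : s g = g := by simp only [g, map_sum, map_smul, hη]
  have h1 : ∀ k : ℕ, s ((t ^ k) g) = (t ^ k) g := fun k =>
    (AlgEquiv.congr_fun (hst.pow_right k).eq g).trans (by rw [AlgEquiv.mul_apply, hg])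
  have h2 : ∏ i ∈ range n, (t ^ i) g = ∏ k : Fin n, ∑ i, r i • RingHom.id Ω ((t ^ (k : ℕ)) (η i)) := by
    rw [← Fin.prod_univ_eq_prod_range]
    simp only [g, map_sum, map_smul, RingHom.id_apply]
  have h3 := lam_prod (RingHom.id Ω) l₀ l₀ (fun _ => rfl) (fun (k : Fin n) i => (t ^ (k : ℕ)) (η i)) r
  rw [← h2] at h3
  have hg0 : n = 0 ∨ g ≠ 0 := or_iff_not_imp_left.2 fun hn h0 => (hr w₀ hw₀).1 (by
    rw [← h3, prod_eq_zero (mem_range.2 (Nat.pos_of_ne_zero hn)) (by rw [h0, map_zero]), map_zero])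
  obtain ⟨b', hb'⟩ := hG (∏ i ∈ range n, (t ^ i) g) (by simp only [map_prod, h1]) (by
    rcases hg0 with rfl | hg0
    · simp
    rw [map_prod, ← prod_shift' ht hg0.isUnit]
    exact prod_congr rfl fun k _ => AlgEquiv.congr_fun (Commute.self_pow t k).eq g)
  rw [← hb', hl₁] at h3
  exact ⟨g, b', h3 ▸ (hr w₀ hw₀).1, hg, hb'.symm, fun w hw => h3 ▸ (hr w hw).2⟩

end loc

/-- the local step as a nullary statement -/
def LocStmt : Prop :=
  ∀ (K Ω : Type) [Field K] [NumberField K] [Field Ω] [Algebra K Ω] [FiniteDimensional K Ω]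
    (s t : Ω ≃ₐ[K] Ω), Commute s t → ∀ n : ℕ, t ^ n = 1 →
    (∀ x, s x = x → t x = x → ∃ y, algebraMap K Ω y = x) → ∀ (c d : Ω) (a b : K), a ≠ 0 → b ≠ 0 →
    ∏ i ∈ range (orderOf s), (s ^ i) c = algebraMap K Ω a → t c * d = s d * c →
    ∏ i ∈ range n, (t ^ i) d = algebraMap K Ω b → ∀ T : Finset (HeightOneSpectrum (𝓞 K)),
    (∀ w ∈ T, ∃ (g : Ω) (m : K), m ≠ 0 ∧ t g = g ∧
      ∏ i ∈ range (orderOf s), (s ^ i) g = algebraMap K Ω m ∧
      w.valuation K (a / m - 1) < w.valuation K (orderOf s : K) ^ 2) → ∀ M : ℕ,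
    ∃ (g : Ω) (b' : K), b' ≠ 0 ∧ s g = g ∧ ∏ i ∈ range n, (t ^ i) g = algebraMap K Ω b' ∧
      ∀ w ∈ T, w.valuation K (b / b' - 1) ≤ exp (-(M : ℤ))

theorem locStmt : LocStmt := fun _ _ _ _ _ _ _ _ _ hst _ ht hG _ _ _ _ ha hb hc hcd hd T h M =>
  loc hst ht hG ha hb hc hcd hd T h M

end Crest.Agent.T15.Hnt
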