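import Crest.Agent.T15.MfC_79
import Crest.Agent.T15.Gw_84
import Crest.Agent.T15.IgE_61
import Crest.Agent.T15.PlC_32

/-!
# T15 / MfD (helper79): the residue fields `kapF (F Γ) h` as extensions of `k(j̄)`
-/

set_option autoImplicit false
set_option linter.all false

noncomputable section

namespace Crest.Agent.T15.Mf

open CongruenceSubgroup
open scoped MatrixGroups NNReal
open Crest.Agent.T15.Hs Crest.Agent.T15.Cg Crest.Agent.T15.Ig
open Crest.Agent.R013.RR8_948 Crest.Agent.R013.RR20_948 Crest.Agent.R013.GR4_921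

attribute [-instance] HahnSeries.powerSeriesAlgebra

/-- the inclusion `F Γ → FF` as a `ℂ`-algebra map -/
def iF (Γ : Subgroup SL(2, ℤ)) : F Γ →ₐ[ℂ] FF := IsScalarTower.toAlgHom ℂ (F Γ) FF

theorem iF_apply (Γ : Subgroup SL(2, ℤ)) (x : F Γ) : iF Γ x = (x : FF) := rfl

theorem iF_xK (Γ : Subgroup SL(2, ℤ)) : iF Γ (xK ℂ (F Γ)) = jF := algebraMap_X

theorem lvl (M : ℕ) [NeZero M] : Lvl M (iF (Gamma M)) where
  mem x := ⟨fun ⟨y, hy⟩ => hy ▸ y.2, fun h => ⟨⟨x, h⟩, rfl⟩⟩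
  xj := iF_xK _
  gal g := by
    obtain ⟨γ, rfl⟩ := act_surjective (Gamma M) g
    exact ⟨γ, fun x => coe_act _ γ x⟩

variable {k : Type*} [Field k] [IsAlgClosed k] {v : Valuation ℂ ℝ≥0} {r : ℂ → k}

theorem gwK_iF (Γ : Subgroup SL(2, ℤ)) (x : F Γ) : gwK v (F Γ) x = gw v (iF Γ x) := rfl

theorem gwK_xK (Γ : Subgroup SL(2, ℤ)) : gwK v (F Γ) (xK ℂ (F Γ)) = 1 := by
  rw [gwK_iF, iF_xK, w_jF (isG v)]

variable (h : IsRes v r)

theorem rhoF_xK_notMem (Γ : Subgroup SL(2, ℤ)) :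
    rhoF (F Γ) h (xK ℂ (F Γ)) ∉ Set.range (algebraMap k (kapF (F Γ) h)) :=
  res_j_notMem (iF_xK Γ) (isG v) (gwK_iF Γ) (redF (F Γ) h)

instance kapField (Γ : Subgroup SL(2, ℤ)) : Field (kapF (F Γ) h) := inferInstance

instance kapAlgK (Γ : Subgroup SL(2, ℤ)) : Algebra k (kapF (F Γ) h) := inferInstance

/-- `k(X) → kapF (F Γ) h`, `X ↦ j̄` -/
instance kapRat (Γ : Subgroup SL(2, ℤ)) : Algebra (RatFunc k) (kapF (F Γ) h) :=
  (ratHom _ (transcendental_of_notMem (rhoF_xK_notMem h Γ))).toRingHom.toAlgebra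

instance kapRatModule (Γ : Subgroup SL(2, ℤ)) : Module (RatFunc k) (kapF (F Γ) h) := Algebra.toModule

instance kapRatSMul (Γ : Subgroup SL(2, ℤ)) : SMul (RatFunc k) (kapF (F Γ) h) := Algebra.toSMul

instance kapRat_tower (Γ : Subgroup SL(2, ℤ)) : IsScalarTower k (RatFunc k) (kapF (F Γ) h) :=
  IsScalarTower.of_algebraMap_eq fun c =>
    ((ratHom _ (transcendental_of_notMem (rhoF_xK_notMem h Γ))).commutes c).symm

theorem xK_kap (Γ : Subgroup SL(2, ℤ)) : xK k (kapF (F Γ) h) = rhoF (F Γ) h (xK ℂ (F Γ)) :=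
  ratHom_X _ _

theorem coe_xK_kap (Γ : Subgroup SL(2, ℤ)) : ((xK k (kapF (F Γ) h) : kapF (F Γ) h) : HS k) = rh h jF := by
  rw [xK_kap, coe_rhoF, ← iF_xK Γ]
  rfl

section two

variable (Γ Γ' : Subgroup SL(2, ℤ)) [Fact (Γ' ≤ Γ)]

instance kapAlgF : Algebra (kapF (F Γ) h) (kapF (F Γ') h) := kapAlg (F Γ) h (F Γ')

instance kapModF : Module (kapF (F Γ) h) (kapF (F Γ') h) := Algebra.toModule

instance kapSMulF : SMul (kapF (F Γ) h) (kapF (F Γ') h) := Algebra.toSMul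

instance kapF_tower : IsScalarTower k (kapF (F Γ) h) (kapF (F Γ') h) := kapAlg_tower (F Γ) h (F Γ')

theorem coe_algebraMap_kap (x : kapF (F Γ) h) :
    ((algebraMap (kapF (F Γ) h) (kapF (F Γ') h) x : kapF (F Γ') h) : HS k) = (x : HS k) := rfl

theorem rhoF_algebraMap_F (x : F Γ) :
    rhoF (F Γ') h (algebraMap (F Γ) (F Γ') x) =
      algebraMap (kapF (F Γ) h) (kapF (F Γ') h) (rhoF (F Γ) h x) := Subtype.ext rfl

theorem gwK_algebraMap_F (x : F Γ) : gwK v (F Γ') (algebraMap (F Γ) (F Γ') x) = gwK v (F Γ) x := rfl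

instance kapRat_towerF : IsScalarTower (RatFunc k) (kapF (F Γ) h) (kapF (F Γ') h) :=
  IsScalarTower.of_algebraMap_eq fun s => by
    have e : algebraMap (kapF (F Γ) h) (kapF (F Γ') h) (xK k (kapF (F Γ) h)) = xK k (kapF (F Γ') h) :=
      Subtype.ext (by rw [coe_algebraMap_kap, coe_xK_kap, coe_xK_kap])
    rw [← RatFunc.num_div_denom s, map_div₀, map_div₀, map_div₀, Ig.algebraMap_poly,
      Ig.algebraMap_poly, Ig.algebraMap_poly, Ig.algebraMap_poly, ← e,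
      Polynomial.aeval_algebraMap_apply, Polynomial.aeval_algebraMap_apply]

end two

end Crest.Agent.T15.Mf
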