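import Crest.Agent.T15.ModC_53
import Crest.Agent.T15.AxC_14
import Crest.Agent.T15.MumB_4
import Crest.Agent.T15.Sc3F_89

/-!
# T15 / ModD (helper53): the scalar bound for a modular parametrisation

* `exists_loc` the local solution of the Abel-Jacobi equation along an analytic arc;
* `exists_sol` its Taylor series have symmetric functions in `K0 M`;
* `scal_mod`, `scal_mod_fam`, `scal_fin` the bound for the `q`-coefficients.
-/

set_option autoImplicit false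
set_option linter.all false
set_option maxHeartbeats 400000

noncomputable section

namespace Crest.Agent.T15.Mod

open UpperHalfPlane ModularForm CongruenceSubgroup Matrix.SpecialLinearGroup Filter Topology Set
open Polynomial
open scoped MatrixGroups Manifold NNReal Real
open Crest.Agent.R007 Crest.Agent.R007.Rat Crest.Agent.T15.Hs Crest.Agent.T15.Mf
open Crest.Agent.T15.AlgM Crest.Agent.T15.Esc Crest.Agent.T15.Mum Crest.Agent.T15.Ax
open Crest.Agent.T15.Sc3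

attribute [-instance] HahnSeries.powerSeriesAlgebra

variable {A : Type*} [AddCommGroup A] {F : ℂ[X]} {g : ℕ} {cl : ℂ × ℂ → A}
  {ex : (Fin g → ℂ) →+ A} {M : ℕ}

/-- the local inverse attached to `g` charts, with its differential equation -/
theorem exists_loc (he : IsExp F g cl ex) (c : Fin g → Ch F g)
    (hx : Function.Injective fun j => (c j).x 0) :
    ∃ x w : Fin g → (Fin g → ℂ) → ℂ, LocInv F g cl ex x w ∧ (∀ j, x j 0 = (c j).x 0) ∧
      (∀ j, w j 0 = (c j).w 0) ∧ ∀ Ψ : ℂ → Fin g → ℂ, AnalyticAt ℂ Ψ 0 → Ψ 0 = 0 →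
        (∀ j, (c j).w 0 ≠ 0) → ∀ k : Fin g, ∀ᶠ t in 𝓝 (0 : ℂ),
          ∑ j, x j (Ψ t) ^ (k : ℕ) * deriv (fun t => x j (Ψ t)) t * (w j (Ψ t))⁻¹ =
            deriv (fun t => Ψ t k) t := by
  obtain ⟨ψ, h1, h2, h3, -⟩ := vinv c hx
  have ht : Tendsto ψ (𝓝 0) (𝓝 0) := by simpa [h2] using h1.continuousAt.tendsto
  have a1 : ∀ j, AnalyticAt ℂ (fun z => ψ z j) 0 := analyticAt_pi_iff.1 h1
  have z1 : ∀ j, ψ 0 j = 0 := fun j => by rw [h2]; rfl
  refine ⟨fun j z => (c j).x (ψ z j), fun j z => (c j).w (ψ z j), ⟨fun j => ?_, fun j => ?_,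
    fun j => ?_, ?_⟩, fun j => congrArg (c j).x (z1 j), fun j => congrArg (c j).w (z1 j), fun Ψ hΨ h0 hw k => ?_⟩
  · exact (c j).anx.comp_of_eq (a1 j) (z1 j)
  · exact (c j).anw.comp_of_eq (a1 j) (z1 j)
  · exact (ht.eventually (ev_pi fun j => (c j).ev)).mono fun z hz => (hz j).1
  · filter_upwards [ht.eventually (he.sum c), h3] with z e1 e2
    simp only [z1]
    rw [e2] at e1
    exact e1
  · have tΨ : Tendsto Ψ (𝓝 0) (𝓝 0) := by simpa [h0] using hΨ.continuousAt.tendsto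
    have a2 : ∀ j, AnalyticAt ℂ (fun t => ψ (Ψ t) j) 0 := fun j => (a1 j).comp_of_eq hΨ h0
    have n1 : ∀ j, ∀ᶠ t in 𝓝 (0 : ℂ), (c j).w t ≠ 0 := fun j =>
      (c j).anw.continuousAt.eventually_ne (hw j)
    filter_upwards [(ht.comp tΨ).eventually (ev_pi fun j => (c j).ev.and (n1 j)),
      (tΨ.eventually h3).eventually_nhds, eventually_all.2 fun j => (a2 j).eventually_analyticAt]
      with t e1 e2 e3
    simp only [Function.comp_apply] at e1
    have d1 := fun j => (e3 j).differentiableAt.hasDerivAt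
    have d2 := fun j => (e1 j).1.2.1.comp t (d1 j)
    have d3 := fun j => (hasDerivAt_pi.1 (e1 j).1.2.2.2.1 k).comp t (d1 j)
    have d4 := (HasDerivAt.fun_sum (u := Finset.univ) fun j _ => d3 j).congr_of_eventuallyEq
      (f₁ := fun t => Ψ t k) (e2.mono fun s hs => by
        have := congrFun hs k
        rw [sab, Finset.sum_apply] at this
        exact this.symm)
    rw [d4.deriv]
    refine Finset.sum_congr rfl fun j _ => ?_
    rw [show deriv (fun t => (c j).x (ψ (Ψ t) j)) t = _ from (d2 j).deriv]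
    have := (e1 j).2
    field_simp

theorem an_prim {Φ : Fin g → ℍ → ℂ} {f : Fin g → ℍ → ℂ} (hΦ : ∀ k, IsPrim (Φ k) (f k)) (τ : ℍ) :
    AnalyticAt ℂ (fun t k => Φ k (ofComplex t)) τ :=
  analyticAt_pi_iff.2 fun k => an_of_mdiff (hΦ k).mdiff τ

/-- Mumford coordinates of `c + ex Φ` are meromorphic, also at the cusps -/
theorem mero_mum (hc : Cls F g cl) {x w : Fin g → (Fin g → ℂ) → ℂ} (hl : LocInv F g cl ex x w)
    (hM : M ≠ 0) {f Φ : Fin g → ℍ → ℂ} (hf : ∀ k, f k ∈ CS (Gamma M) 2)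
    (hΦ : ∀ k, IsPrim (Φ k) (f k)) {a : A} (ha : IsSum F cl a) (n : ℕ) :
    (Mero fun τ => (mum F g cl (a + ex fun k => Φ k τ)).1.coeff n) ∧
    (Mero fun τ => (mum F g cl (a + ex fun k => Φ k τ)).2.coeff n) ∧
    (∀ s : SL(2, ℤ), Cusp M fun τ => (mum F g cl (a + ex fun k => Φ k (s • τ))).1.coeff n) ∧
    (∀ s : SL(2, ℤ), Cusp M fun τ => (mum F g cl (a + ex fun k => Φ k (s • τ))).2.coeff n) := by
  choose Ψ h1 h2 using fun s k => exists_Psi hM (hf k) (hΦ k) s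
  have h3 := fun s => hl.fam hc ha (Φ := fun t k => Ψ s k t) (analyticAt_pi_iff.2 (h1 s)) n
  refine ⟨fun τ => (hl.fam hc ha (an_prim hΦ τ) n).1, fun τ => (hl.fam hc ha (an_prim hΦ τ) n).2,
    fun s => ⟨_, ∅, (h3 s).1, countable_empty, Eventually.of_forall fun τ _ => ?_⟩,
    fun s => ⟨_, ∅, (h3 s).2, countable_empty, Eventually.of_forall fun τ _ => ?_⟩⟩ <;>
  simp only [h2]

/-- **the formal solution has symmetric functions in `K0 M`** -/
theorem exists_sol (hc : Cls F g cl) (he : IsExp F g cl ex) (hM : 3 ≤ M) {f : Fin g → ℍ → ℂ}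
    (hf : ∀ k, f k ∈ CS (Gamma M) 2)
    (hper : ∀ γ ∈ Gamma M, ex (fun k => 2 * π * Complex.I * per (f k) γ) = 0) :
    ∃ x w : Fin g → HS ℂ, (∀ n, (∏ j, (X - C (x j))).coeff n ∈ K0 M) ∧
      (∀ j, w j ^ 2 = aeval (x j) F) ∧
      ∀ k : Fin g, ∑ j, x j ^ (k : ℕ) * ((M : ℂ) • th (x j)) / w j =
        HahnSeries.C (M : ℂ) * qf (f k) := by
  classical
  have hM0 : M ≠ 0 := by omega
  have hF : Squarefree F := hc.sep.squarefree
  obtain ⟨c, hx, hB⟩ := exists_charts hF g (Fin g) F.roots.toFinset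
  have hw : ∀ j, (c j).w 0 ≠ 0 := fun j h => hB j (by
    have := (c j).on0
    rw [h] at this
    rw [Multiset.mem_toFinset, mem_roots hF.ne_zero]
    simpa using this.symm)
  obtain ⟨x, w, hl, x0, w0, ode⟩ := exists_loc he c hx
  have hf' : ∀ k, (2 * π * Complex.I : ℂ) • f k ∈ CS (Gamma M) 2 := fun k =>
    Submodule.smul_mem _ _ (hf k)
  have hP : ∀ k, IsPrim (prim ((2 * π * Complex.I : ℂ) • f k)) _ := fun k => isPrim_prim (hf' k).1
  choose Ψ0 a0 e0 using fun k => exists_Psi hM0 (hf' k) (hP k) 1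
  simp only [one_smul] at e0
  set Φ : Fin g → ℍ → ℂ := fun k τ => prim ((2 * π * Complex.I : ℂ) • f k) τ - Ψ0 k 0 with hΦd
  have hΦ : ∀ k, IsPrim (Φ k) ((2 * π * Complex.I : ℂ) • f k) := fun k => by
    have := (hP k).sub (isPrim_const (Ψ0 k 0))
    rwa [sub_zero] at this
  set Ψ : ℂ → Fin g → ℂ := fun t k => Ψ0 k t - Ψ0 k 0 with hΨd
  have aΨ' : ∀ k, AnalyticAt ℂ (fun t => Ψ t k) 0 := fun k => (a0 k).sub analyticAt_const
  have aΨ : AnalyticAt ℂ Ψ 0 := analyticAt_pi_iff.2 aΨ'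
  have zΨ : Ψ 0 = 0 := funext fun k => sub_self _
  have eΨ : ∀ k (τ : ℍ), Φ k τ = Ψ (Function.Periodic.qParam M τ) k := fun k τ => by
    simp only [hΦd, hΨd, e0]
  have tΨ : Tendsto Ψ (𝓝 0) (𝓝 0) := by simpa [zΨ] using aΨ.continuousAt.tendsto
  have ax : ∀ j, AnalyticAt ℂ (fun t => x j (Ψ t)) 0 := fun j => (hl.anx j).comp_of_eq aΨ zΨ
  have aw : ∀ j, AnalyticAt ℂ (fun t => w j (Ψ t)) 0 := fun j => (hl.anw j).comp_of_eq aΨ zΨ
  have nw : ∀ j, w j (Ψ 0) ≠ 0 := fun j => by rw [zΨ, w0]; exact hw j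
  have ha : IsSum F cl (∑ j, cl (x j 0, w j 0)) :=
    IsSum.sum (P := fun j => (x j 0, w j 0)) fun j => (hl.on j).self_of_nhds
  refine ⟨fun j => tq M fun t => x j (Ψ t), fun j => tq M fun t => w j (Ψ t), fun n => ?_,
    fun j => ?_, fun k => ?_⟩
  · obtain ⟨m1, -, m2, -⟩ := mero_mum hc hl hM0 hf' hΦ ha n
    obtain ⟨p1, p2⟩ := tq_coeff_prod (M := M) ax n
    rw [← p2]
    refine tq_mem_K0 hM m1 (fun γ hγ => AE.of_eq (funext fun τ => ?_)) m2 p1 countable_empty ?_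
    · have : (fun k => Φ k (γ • τ)) =
          (fun k => 2 * π * Complex.I * per (f k) γ) + fun k => Φ k τ := funext fun k => by
        rw [per_SL (hΦ k) ((hf' k).2.1 γ hγ), per_smul _ (hf k).1]; rfl
      rw [this, map_add, hper γ hγ, zero_add]
    · have hi : Function.Injective fun j => x j 0 := by simpa only [x0] using hx
      filter_upwards [(tΨ.comp ((tend_q hM0).mono_right nhdsWithin_le_nhds)).eventually
        (hl.mum_near hc hi)] with τ hτ _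
      simp only [eΨ]
      exact congrArg (fun p : ℂ[X] × ℂ[X] => p.1.coeff n) hτ.2
  · rw [← tq_eval hM0 (ax j), pow_two, ← tq_mul (aw j) (aw j)]
    exact tq_congr ((tΨ.eventually (hl.on j)).mono fun t ht => (pow_two _).symm.trans ht)
  · rw [← th_tq_Psi hM0 (isF_of_CS (hf k)) (hΦ k) (aΨ' k) (eΨ k)]
    let X' : Fin g → An0 := fun j => ⟨_, ax j⟩
    let D' : Fin g → An0 := fun j => ⟨_, analyticAt_id.mul (ax j).deriv⟩
    let W' : Fin g → An0 := fun j => ⟨_, (aw j).inv (nw j)⟩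
    have e1 : tqH M (∑ j, X' j ^ (k : ℕ) * D' j * W' j) = tq M (id * deriv fun t => Ψ t k) := by
      refine tq_congr ((ode Ψ aΨ zΨ hw k).mono fun t ht => ?_)
      show ev0 t _ = t * _
      rw [← ht, map_sum, Finset.mul_sum]
      refine Finset.sum_congr rfl fun j _ => ?_
      rw [map_mul, map_mul, map_pow]
      show x j (Ψ t) ^ (k : ℕ) * (t * _) * (w j (Ψ t))⁻¹ = _
      ring
    rw [← e1, map_sum]
    refine Finset.sum_congr rfl fun j _ => ?_
    rw [map_mul, map_mul, map_pow, th_tq hM0 (ax j), div_eq_mul_inv,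
      ← (tq_inv (M := M) (aw j) (nw j)).2]
    rfl

/-- **scalar bound for a modular parametrisation** -/
theorem scal_mod {ex : (Fin 3 → ℂ) →+ A} (hc : Cls F 3 cl) (he : IsExp F 3 cl ex) {c a1 a2 a3 : ℂ}
    (hF : F = C c * X * (X ^ 2 - C a1) * (X ^ 2 - C a2) * (X ^ 2 - C a3)) (hM : 3 ≤ M)
    {f : Fin 3 → ℍ → ℂ} (hf : ∀ k, f k ∈ CS (Gamma M) 2)
    (hper : ∀ γ ∈ Gamma M, ex (fun k => 2 * π * Complex.I * per (f k) γ) = 0)
    (hB : qf (f 1) ∈ Bz) (v : Valuation ℂ ℝ≥0) (r : ℚ) :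
    v ((1944 * (M * (qf (f 1)).coeff r)) ^ 4 * T1 c a1 a2 a3) ≤ 1 ∧
      v ((1944 * (M * (qf (f 1)).coeff r)) ^ 4 * T2 c a1 a2 a3) ≤ 1 := by
  obtain ⟨x, w, h1, h2, h3⟩ := exists_sol hc he hM hf hper
  simp only [Fin.prod_univ_three, Cubic.prod_X_sub_C_eq] at h1
  have k1 := (K0 M).neg_mem (h1 2)
  have k2 := h1 1
  have k3 := (K0 M).neg_mem (h1 0)
  simp only [Cubic.coeff_eq_b, Cubic.coeff_eq_c, Cubic.coeff_eq_d, neg_neg] at k1 k2 k3
  have hg : HahnSeries.C (M : ℂ) * qf (f 1) ∈ K0 M :=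
    mul_mem ((K0 M).algebraMap_mem _) (qf_mem_K0 hM (isF_of_CS (hf 1)))
  have hgB : HahnSeries.C (M : ℂ) * qf (f 1) ∈ Bz := mul_mem (Bz.algebraMap_mem _) hB
  have h4 := h3 1
  simp only [Fin.sum_univ_three, Fin.val_one, pow_one] at h4
  have h5 : ∀ j, w j ^ 2 = HahnSeries.C c * x j * (x j ^ 2 - HahnSeries.C a1) *
      (x j ^ 2 - HahnSeries.C a2) * (x j ^ 2 - HahnSeries.C a3) := fun j => by
    rw [h2, hF]
    simp only [map_mul, map_sub, map_pow, aeval_C, aeval_X, algebraMap_HS]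
  let ι := algebraMap ℂ (K0 M)
  haveI : CharZero (HS ℂ) := charZero_of_injective_ringHom (algebraMap ℂ (HS ℂ)).injective
  obtain ⟨r1, r2⟩ := scal_ext (wK v M) (K0 M).val.toRingHom ((M : ℂ) • th) (dK M) (fun _ => rfl)
    wK_dK (c := ι c) (a1 := ι a1) (a2 := ι a2) (a3 := ι a3) (e1 := ⟨_, k1⟩) (e2 := ⟨_, k2⟩)
    (e3 := ⟨_, k3⟩) (g := ⟨_, hg⟩) ((dK M).map_algebraMap _) ((dK M).map_algebraMap _)
    ((dK M).map_algebraMap _) rfl rfl rfl (h5 0) (h5 1) (h5 2) h4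
  have key : ∀ T : ℂ, wK v M ((1944 * ⟨_, hg⟩) ^ 4 * ι T) ≤ 1 →
      v ((1944 * (M * (qf (f 1)).coeff r)) ^ 4 * T) ≤ 1 := fun T hT => by
    refine le_trans ?_ hT
    have e : (1944 : K0 M) = ι 1944 := (map_ofNat ι 1944).symm
    rw [e, map_mul, map_mul, map_pow, map_pow, map_mul, map_mul (wK v M), wK_const, wK_const,
      ← coeff_C_mul]
    exact mul_le_mul_left (pow_le_pow_left' (mul_le_mul_right
      (coeff_le_wK (x := ⟨_, hg⟩) hgB r) _) 4) _
  rw [← map_T1 ι] at r1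
  rw [← map_T2 ι] at r2
  exact ⟨key _ r1, key _ r2⟩

/-- the bound for the family -/
theorem scal_mod_fam {ex : (Fin 3 → ℂ) →+ A} (hc : Cls F 3 cl) (he : IsExp F 3 cl ex)
    {p1 p2 p3 : ℤ} {D t al be c a1 a2 a3 : ℂ} (h : Nf (p1 : ℂ) p2 p3 D t al be c a1 a2 a3)
    (hcop : IsCoprime p1 (p2 * p3))
    (hF : F = C c * X * (X ^ 2 - C a1) * (X ^ 2 - C a2) * (X ^ 2 - C a3)) (hM : 3 ≤ M)
    {f : Fin 3 → ℍ → ℂ} (hf : ∀ k, f k ∈ CS (Gamma M) 2)
    (hper : ∀ γ ∈ Gamma M, ex (fun k => 2 * π * Complex.I * per (f k) γ) = 0)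
    (hB : qf (f 1) ∈ Bz) (v : Valuation ℂ ℝ≥0) (r : ℚ) :
    v ((1944 * (kap (p2 : ℂ) p3 al be * (qf (f 1)).coeff r)) ^ 4 /
      (64 * D * ((p1 : ℂ) * p2 * p3) ^ 2 / M ^ 4)) ≤ 1 := by
  obtain ⟨r1, r2⟩ := scal_mod hc he hF hM hf hper hB v r
  convert h.comb v hcop r1 r2 using 2
  rw [div_div_eq_mul_div]
  ring

/-- **the finite part of the height bound**: two parametrisations `f`, `f'` whose forms
`kap • f 1`, `kap • f' 1` have rational coefficients `a`, `b` -/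
theorem scal_fin {ex : (Fin 3 → ℂ) →+ A} (hc : Cls F 3 cl) (he : IsExp F 3 cl ex)
    {p1 p2 p3 D : ℤ} {t al be c a1 a2 a3 : ℂ} (h : Nf (p1 : ℂ) p2 p3 D t al be c a1 a2 a3)
    (hcop : IsCoprime p1 (p2 * p3))
    (hF : F = C c * X * (X ^ 2 - C a1) * (X ^ 2 - C a2) * (X ^ 2 - C a3)) (hM : 3 ≤ M)
    {f f' : Fin 3 → ℍ → ℂ} (hf : ∀ k, f k ∈ CS (Gamma M) 2) (hf' : ∀ k, f' k ∈ CS (Gamma M) 2)
    (hper : ∀ γ ∈ Gamma M, ex (fun k => 2 * π * Complex.I * per (f k) γ) = 0)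
    (hper' : ∀ γ ∈ Gamma M, ex (fun k => 2 * π * Complex.I * per (f' k) γ) = 0)
    (hB : qf (f 1) ∈ Bz) (hB' : qf (f' 1) ∈ Bz) {r r' a b : ℚ}
    (ha : kap (p2 : ℂ) p3 al be * (qf (f 1)).coeff r = a)
    (hb : kap (p2 : ℂ) p3 al be * (qf (f' 1)).coeff r' = b) (hab : 3 * a ^ 2 - b ^ 2 ≠ 0) :
    64 * |(D : ℚ)| * ((p1 : ℚ) * p2 * p3) ^ 2 ≤ (1944 * M) ^ 4 * (3 * a ^ 2 - b ^ 2) ^ 2 := by
  have hn := h.prod ▸ h.ne
  have n1 : (p1 : ℚ) ≠ 0 := fun e => hn (by simp [show p1 = 0 by exact_mod_cast e])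
  have n2 : (p2 : ℚ) ≠ 0 := fun e => hn (by simp [show p2 = 0 by exact_mod_cast e])
  have n3 : (p3 : ℚ) ≠ 0 := fun e => hn (by simp [show p3 = 0 by exact_mod_cast e])
  have n4 : (D : ℚ) ≠ 0 := fun e => h.ne (by simp [show D = 0 by exact_mod_cast e])
  have n5 : (0 : ℚ) < M := by exact_mod_cast (show 0 < M by omega)
  have key := fin_bound (K := ℂ) (Γ := ℝ≥0) (N := 64 * D * ((p1 : ℚ) * p2 * p3) ^ 2 / M ^ 4)
    (by positivity) hab fun l hl => by
      obtain ⟨v, hv⟩ := exists_val hl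
      have r1 := scal_mod_fam hc he h hcop hF hM hf hper hB v r
      have r2 := scal_mod_fam hc he h hcop hF hM hf' hper' hB' v r'
      rw [ha] at r1
      rw [hb] at r2
      exact ⟨v, hv, by push_cast; exact r1, by push_cast; exact r2⟩
  rw [abs_div, abs_mul, abs_mul, abs_of_pos (pow_pos n5 4), abs_of_pos (show (0 : ℚ) < 64 by norm_num),
    abs_of_nonneg (sq_nonneg ((p1 : ℚ) * p2 * p3)), div_le_iff₀ (pow_pos n5 4)] at key
  exact key.trans_eq (by ring)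

end Crest.Agent.T15.Mod
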