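import Crest.Agent.T15.MDef_7
import Crest.Agent.R018.FDE_389

/-!
# Row 15, block C (helper44): `ModI` from `EpsStmt`, `ThStmt`, `XiStmt`
-/

set_option autoImplicit false

noncomputable section

namespace Crest.Agent.T15.C

open NumberField Crest.Agent.R018.Placesx484 Crest.Agent.T15.Ps Crest.Agent.T15.Ex

namespace Md44

/-! ### induction from the stabiliser of `δ` -/

section Ind

variable {δ : Om}

lemma ne_neg (hδ : δ ^ 2 = -1) : δ ≠ -δ := fun h => by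
  have h2 : (2 : Om) * δ = 0 := by linear_combination h
  rcases mul_eq_zero.1 h2 with h3 | h3
  · exact two_ne_zero h3
  · rw [h3] at hδ; norm_num at hδ

lemma dich (hδ : δ ^ 2 = -1) (g : Gam) : g δ = δ ∨ g δ = -δ :=
  sq_eq_sq_iff_eq_or_eq_neg.1 (by rw [← map_pow, hδ, map_neg, map_one])

lemma neg_of_ne (hδ : δ ^ 2 = -1) {g : Gam} (h : g δ ≠ δ) : g δ = -δ := (dich hδ g).resolve_left h

lemma ne_of_neg (hδ : δ ^ 2 = -1) {g : Gam} (h : g δ = -δ) : g δ ≠ δ := fun h' =>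
  ne_neg hδ (h'.symm.trans h)

lemma inv_neg {c : Gam} (hc : c δ = -δ) : c⁻¹ δ = -δ := by
  have : c⁻¹ (c δ) = δ := c.symm_apply_apply δ
  rw [hc, map_neg] at this
  exact neg_eq_iff_eq_neg.1 this

lemma conj_fix {c g : Gam} (hc : c δ = -δ) (hg : g δ = δ) : (c⁻¹ * g * c) δ = δ := by
  rw [AlgEquiv.mul_apply, AlgEquiv.mul_apply, hc, map_neg, hg, map_neg, inv_neg hc, neg_neg]

variable {A : Type} [CommRing A]

/-- a character of the stabiliser of `δ`, extended by zero -/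
structure Ch (δ : Om) (F : Gam → A) : Prop where
  one : F 1 = 1
  mul : ∀ g h : Gam, g δ = δ → h δ = δ → F (g * h) = F g * F h
  zero : ∀ g : Gam, g δ = -δ → F g = 0

variable {F : Gam → A} {c : Gam}

lemma Ch.mul' (hF : Ch δ F) (hδ : δ ^ 2 = -1) {g : Gam} (hg : g δ = δ) (h : Gam) :
    F (g * h) = F g * F h := by
  rcases dich hδ h with hh | hh
  · exact hF.mul g h hg hh
  · rw [hF.zero h hh, hF.zero (g * h) (by rw [AlgEquiv.mul_apply, hh, map_neg, hg]), mul_zero]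

lemma Ch.split (hF : Ch δ F) (hδ : δ ^ 2 = -1) (hc : c δ = -δ) (g h : Gam) :
    F (g * h) = F g * F h + F (g * c) * F (c⁻¹ * h) := by
  rcases dich hδ g with hg | hg
  · rw [hF.mul' hδ hg, hF.zero (g * c) (by rw [AlgEquiv.mul_apply, hc, map_neg, hg]), zero_mul,
      add_zero]
  · rw [hF.zero g hg, zero_mul, zero_add, ← hF.mul' hδ (g := g * c)
      (by rw [AlgEquiv.mul_apply, hc, map_neg, hg, neg_neg])]
    congr 1
    group

/-- the induced representation -/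
def Ch.ind (hF : Ch δ F) (hδ : δ ^ 2 = -1) (hc : c δ = -δ) : Gam →* M2 A where
  toFun g := !![F g, F (g * c); F (c⁻¹ * g), F (c⁻¹ * g * c)]
  map_one' := by
    rw [mul_one, one_mul, inv_mul_cancel, hF.one, hF.zero c hc, hF.zero _ (inv_neg hc),
      Matrix.one_fin_two]
  map_mul' g h := by
    rw [Matrix.mul_fin_two, ← hF.split hδ hc g h, mul_assoc c⁻¹ h c, ← hF.split hδ hc g (h * c),
      ← hF.split hδ hc (c⁻¹ * g) h, ← hF.split hδ hc (c⁻¹ * g) (h * c)]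
    simp only [mul_assoc]

lemma Ch.ind_fix (hF : Ch δ F) (hδ : δ ^ 2 = -1) (hc : c δ = -δ) {g : Gam} (hg : g δ = δ) :
    hF.ind hδ hc g = !![F g, 0; 0, F (c⁻¹ * g * c)] := by
  change !![F g, F (g * c); F (c⁻¹ * g), F (c⁻¹ * g * c)] = _
  rw [hF.zero (g * c) (by rw [AlgEquiv.mul_apply, hc, map_neg, hg]),
    hF.zero (c⁻¹ * g) (by rw [AlgEquiv.mul_apply, hg, inv_neg hc])]

lemma Ch.ind_neg (hF : Ch δ F) (hδ : δ ^ 2 = -1) (hc : c δ = -δ) {g : Gam} (hg : g δ = -δ) :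
    (hF.ind hδ hc g).trace = 0 ∧ (hF.ind hδ hc g).det = -F (g * g) := by
  have e : hF.ind hδ hc g = !![F g, F (g * c); F (c⁻¹ * g), F (c⁻¹ * g * c)] := rfl
  have h1 := hF.zero g hg
  have h2 := hF.zero (c⁻¹ * g * c) (by
    rw [AlgEquiv.mul_apply, AlgEquiv.mul_apply, hc, map_neg, hg, neg_neg, inv_neg hc])
  rw [e, Matrix.trace_fin_two_of, Matrix.det_fin_two_of, hF.split hδ hc g g, h1, h2]
  constructor <;> ring

end Ind

/-! ### Frobenius elements -/

lemma IsFr_conj {P : Place Om} {q : ℕ} {s : Gam} (h : IsFr P q s) (g : Gam) :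
    IsFr (g • P) q (g * s * g⁻¹) := fun x => by
  rw [Place.mem_smul_ideal, smul_sub, smul_pow', mul_smul, mul_smul, inv_smul_smul]
  exact h _

lemma IsFr_sq {P : Place Om} {q : ℕ} {s : Gam} (h : IsFr P q s) : IsFr P (q * q) (s * s) :=
  fun x => by
    have h1 := Ideal.Quotient.eq.2 (h (s • x))
    have h2 := Ideal.Quotient.eq.2 (h x)
    rw [← Ideal.Quotient.eq, mul_smul, h1, map_pow, h2, ← map_pow, ← pow_mul]

lemma In_conj {P : Place Om} {t : Gam} (h : t ∈ In P) (g : Gam) : g * t * g⁻¹ ∈ In (g • P) :=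
  fun x => by
    change (g * t * g⁻¹) • x - x ∈ (g • P).ideal
    rw [Place.mem_smul_ideal, smul_sub, mul_smul, mul_smul, inv_smul_smul]
    exact h _

variable (j : Zi →+* 𝓞 Om)

lemma ii_sq : ii ^ 2 = -1 := by decide

lemma dl_sq : dl j ^ 2 = -1 := by
  have : j ii ^ 2 = -1 := by rw [← map_pow, ii_sq, map_neg, map_one]
  exact_mod_cast congrArg (algebraMap (𝓞 Om) Om) this

variable {j}

lemma fr_pow {P : Place Om} {p : ℕ} {s : Gam} (h : IsFr P p s) (hp : P.rchar ≠ 2) {e : Zi}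
    (he : ii ^ p = e * ii) (h1 : e = 1 ∨ e = -1) : s (dl j) = (j e : 𝓞 Om) * dl j := by
  by_contra hne
  have h2 : s • j ii = -(j e * j ii) := by
    apply RingOfIntegers.coe_injective
    rw [Place.smul_coe]
    rcases dich (dl_sq j) s with h3 | h3 <;> rcases h1 with rfl | rfl <;>
      simp_all [dl]
  have h3 := h (j ii)
  rw [h2, ← map_pow, he, map_mul] at h3
  have h4 : ((4 : ℕ) : 𝓞 Om) ∈ P.ideal := by
    have h5 := P.ideal.mul_mem_left (2 * (j e * j ii)) h3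
    have h6 : (j e * j ii) ^ 2 = -1 := by
      rw [← map_mul, ← map_pow, mul_pow, ii_sq]
      rcases h1 with rfl | rfl <;> simp
    convert h5 using 1
    push_cast
    linear_combination 4 * h6
  exact hp ((Nat.prime_dvd_prime_iff_eq P.rchar_prime Nat.prime_two).1
    (P.rchar_prime.dvd_of_dvd_pow (n := 2) ((P.natCast_mem_iff 4).1 h4)))

lemma ii_four : ii ^ 4 = 1 := by decide

lemma fr_one {P : Place Om} {p : ℕ} {s : Gam} (h : IsFr P p s) (hp : P.rchar ≠ 2)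
    (h4 : p % 4 = 1) : s (dl j) = dl j := by
  have := fr_pow (j := j) h hp (e := 1) (by
    rw [← Nat.div_add_mod p 4, h4, pow_add, pow_mul, ii_four, one_pow, pow_one]) (.inl rfl)
  simpa using this

lemma fr_three {P : Place Om} {p : ℕ} {s : Gam} (h : IsFr P p s) (hp : P.rchar ≠ 2)
    (h4 : p % 4 = 3) : s (dl j) = -dl j := by
  have := fr_pow (j := j) h hp (e := -1) (by
    rw [← Nat.div_add_mod p 4, h4, pow_add, pow_mul, ii_four, one_pow, one_mul]; decide) (.inr rfl)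
  simpa using this

lemma exists_place {p : ℕ} (hp : p.Prime) : ∃ P : Place Om, P.rchar = p := by
  have h1 : Ideal.span {(p : 𝓞 Om)} ≠ ⊤ := fun h => by
    have hu := Ideal.span_singleton_eq_top.1 h
    have : IsUnit (algebraMap ℤ (𝓞 Om) p) := by simpa using hu
    have h2 := (isUnit_map_iff (algebraMap ℤ (𝓞 Om)) (p : ℤ)).1 this
    exact hp.ne_one (by simpa using Int.isUnit_iff_natAbs_eq.1 h2)
  obtain ⟨M, hM, hle⟩ := Ideal.exists_le_maximal _ h1
  have hm : (p : 𝓞 Om) ∈ M := hle (Ideal.mem_span_singleton_self _)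
  refine ⟨⟨M, hM.isPrime, fun h0 => ?_⟩, Place.rchar_eq_of_mem _ hp hm⟩
  rw [h0, Ideal.mem_bot] at hm
  exact hp.ne_zero (by exact_mod_cast hm)

lemma exists_c (j : Zi →+* 𝓞 Om) : ∃ c : Gam, c (dl j) = -dl j := by
  obtain ⟨P, hP⟩ := exists_place Nat.prime_three
  obtain ⟨s, hs⟩ := exists_isF (K := ℚ) P
  have h : IsFr P 3 s := fun x => by
    have := hs x
    rwa [R018.FDEx389.qv_rat, hP] at this
  exact ⟨s, fr_three h (by omega) rfl⟩

lemma zi_eq (x : Zi) : x = (x.re : Zi) + (x.im : Zi) * ii := by ext <;> simp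

lemma smul_j {c : Gam} (hc : c (dl j) = -dl j) (x : Zi) : c • j x = j (star x) := by
  have h : c • j ii = -j ii := by
    apply RingOfIntegers.coe_injective
    rw [Place.smul_coe]
    simpa using hc
  have h2 : star x = (x.re : Zi) - (x.im : Zi) * ii := by ext <;> simp
  rw [h2]
  conv_lhs => rw [zi_eq x]
  simp only [map_add, map_sub, map_mul, map_intCast, smul_add, smul_mul', h]
  have hz : ∀ n : ℤ, c • (n : 𝓞 Om) = n := fun n =>
    map_intCast (MulSemiringAction.toRingHom Gam (𝓞 Om) c) n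
  rw [hz, hz]; ring

lemma exists_split {P : Place Om} (h4 : P.rchar % 4 = 1) :
    ∃ x : Zi, x * star x = P.rchar ∧ x.norm.natAbs = P.rchar ∧ j x ∈ P.ideal := by
  have := Fact.mk P.rchar_prime
  obtain ⟨a, b, hab⟩ := Nat.Prime.sq_add_sq (p := P.rchar) (by omega)
  have hn : (⟨a, b⟩ : Zi).norm = P.rchar := by
    rw [Zsqrtd.norm_def, ← hab]; push_cast; ring
  have hm : (⟨a, b⟩ : Zi) * star ⟨a, b⟩ = P.rchar := by
    rw [← Zsqrtd.norm_eq_mul_conj, hn]; simp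
  have h : j ⟨a, b⟩ * j (star ⟨a, b⟩) ∈ P.ideal := by
    rw [← map_mul, hm, map_natCast]; exact P.rchar_mem
  rcases P.isPrime.mem_or_mem h with h | h
  · exact ⟨_, hm, by rw [hn]; simp, h⟩
  · exact ⟨_, by rw [star_star, mul_comm, hm], by rw [Zsqrtd.norm_conj, hn]; simp, h⟩

lemma prime_of_norm {x : Zi} (h : x.norm.natAbs.Prime) : Prime x := by
  refine Irreducible.prime ⟨fun hu => h.ne_one (Zsqrtd.norm_eq_one_iff.2 hu), fun a b hab => ?_⟩
  rw [hab, Zsqrtd.norm_mul, Int.natAbs_mul] at h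
  exact (Nat.prime_mul_iff.1 h).symm.imp (fun h => Zsqrtd.norm_eq_one_iff.1 h.2)
    fun h => Zsqrtd.norm_eq_one_iff.1 h.2

/-! ### the residual representation -/

section Res

variable {k : Type} [Field k] {ρ : Gam →* M2 k} {red : 𝓞 Om →+* k} {S : Finset ℕ}

lemma rho_conj (hD : Dih ρ red S 1 (dl j)) {c g : Gam} (hc : c (dl j) = -dl j)
    (hg : g (dl j) = dl j) : ρ (c⁻¹ * g * c) 0 0 = ρ g 1 1 := by
  have h1 := hD.anti c (ne_of_neg (dl_sq j) hc)
  have h2 := hD.diag g hg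
  have h3 : ρ c 1 0 ≠ 0 := fun h0 => by
    have := hD.det c
    rw [Matrix.det_fin_two, h1.1, h0] at this
    split_ifs at this <;> simp at this
  have h4 : (ρ c * ρ (c⁻¹ * g * c)) 1 0 = (ρ g * ρ c) 1 0 := by
    rw [← map_mul, ← map_mul]; congr 2; group
  simp only [Matrix.mul_apply, Fin.sum_univ_two, h1.2, h2.2.1, zero_mul, add_zero, zero_add] at h4
  exact mul_left_cancel₀ h3 (h4.trans (mul_comm _ _))

lemma rho_mul (hD : Dih ρ red S 1 (dl j)) {g : Gam} (hg : g (dl j) = dl j) (h : Gam) :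
    ρ (g * h) 0 0 = ρ g 0 0 * ρ h 0 0 := by
  simp only [map_mul, Matrix.mul_apply, Fin.sum_univ_two, (hD.diag g hg).1, zero_mul, add_zero]

lemma fix_of_ker (hD : Dih ρ red S 1 (dl j)) {g : Gam} (hg : ρ g = 1) : g (dl j) = dl j := by
  by_contra h
  have := (hD.anti g h).1
  rw [hg] at this
  simp at this

lemma three_dvd (h3 : red 3 = 0) {x : Zi} (h : red (j x) = 0) : (3 : Zi) ∣ x := by
  have h3' : ((3 : ℕ) : k) = 0 := by rw [← map_natCast red]; exact h3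
  have : CharP k 3 := (CharP.charP_iff_prime_eq_zero Nat.prime_three).2 h3'
  have h1 : ((x.norm : ℤ) : k) = 0 := by
    rw [← map_intCast (red.comp j), Zsqrtd.norm_eq_mul_conj, map_mul, RingHom.comp_apply, h,
      zero_mul]
  have h2 : ((3 : ℕ) : ℤ) ∣ x.norm := (CharP.intCast_eq_zero_iff k 3 _).1 h1
  rw [Zsqrtd.norm_def] at h2
  have h4 : (3 : ℤ) ∣ x.re ∧ (3 : ℤ) ∣ x.im := by
    have key : ∀ a b : ZMod 3, a * a - -1 * b * b = 0 → a = 0 ∧ b = 0 := by decide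
    have := key x.re x.im (by exact_mod_cast (ZMod.intCast_zmod_eq_zero_iff_dvd _ 3).2 h2)
    exact ⟨(ZMod.intCast_zmod_eq_zero_iff_dvd _ 3).1 this.1,
      (ZMod.intCast_zmod_eq_zero_iff_dvd _ 3).1 this.2⟩
  exact (Zsqrtd.intCast_dvd 3 x).2 h4

lemma exists_lift (h3 : red 3 = 0) {κ : k} (h : κ ^ 8 = 1) : ∃ b : Zi, red (j b) = κ := by
  set ι := red (j ii) with hι
  have h2 : ι ^ 2 = -1 := by rw [hι, ← map_pow, ← map_pow, ii_sq]; simp
  have h3' : (3 : k) = 0 := by rw [← map_ofNat red 3]; exact h3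
  have key : (κ - 1) * ((κ - -1) * ((κ - ι) * ((κ - -ι) * ((κ - (1 + ι)) * ((κ - (1 - ι)) *
      ((κ - (-1 + ι)) * (κ - (-1 - ι)))))))) = 0 := by
    have e : (κ - (1 + ι)) * ((κ - (1 - ι)) * ((κ - (-1 + ι)) * (κ - (-1 - ι)))) = κ ^ 4 + 1 := by
      linear_combination (-2 * κ ^ 2 + ι ^ 2 - 3) * h2 + h3'
    rw [e]
    linear_combination h - (κ ^ 2 - 1) * (κ ^ 4 + 1) * h2
  simp only [mul_eq_zero, sub_eq_zero] at key
  rcases key with h | h | h | h | h | h | h | h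
  exacts [⟨1, by simp [h]⟩, ⟨-1, by simp [h]⟩, ⟨ii, h.symm⟩, ⟨-ii, by simp [h, hι]⟩,
    ⟨1 + ii, by simp [h, hι]⟩, ⟨1 - ii, by simp [h, hι]⟩, ⟨-1 + ii, by simp [h, hι]⟩,
    ⟨-1 - ii, by simp [h, hι]⟩]

/-- the Teichmüller lift -/
lemma exists_teich (h3 : red 3 = 0) {A : Type} [CommRing A] (φ : Zi →+* A)
    (hA : IsNilpotent (3 : A)) : ∃ (r : ℕ) (T : k → A), ∀ b, T (red (j b)) = φ b ^ 9 ^ r := by
  classical
  obtain ⟨r, hr⟩ := hA
  refine ⟨r, fun κ => if h : ∃ b, red (j b) = κ then φ h.choose ^ 9 ^ r else 0, fun b => ?_⟩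
  have h : ∃ b', red (j b') = red (j b) := ⟨b, rfl⟩
  beta_reduce
  rw [dif_pos h]
  have h1 : ((3 : ℕ) : Zi) ∣ h.choose - b :=
    three_dvd (j := j) h3 (by rw [map_sub, map_sub, h.choose_spec, sub_self])
  obtain ⟨y, hy⟩ := dvd_sub_pow_of_dvd_sub h1 (2 * r)
  rw [show 9 ^ r = 3 ^ (2 * r) by rw [pow_mul]; rfl, ← map_pow, ← map_pow, ← sub_eq_zero,
    ← map_sub, hy, map_mul, map_pow, map_natCast, show 2 * r + 1 = r + (r + 1) by ring, pow_add]
  push_cast
  rw [hr, zero_mul, zero_mul]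

end Res

end Md44

open Md44

theorem modI (hE : EpsStmt) (hT : ThStmt) (hX : XiStmt) : ModI := by
  classical
  obtain ⟨e, hE⟩ := hE
  refine ⟨2 * e + 2, fun k _ ρ red S δ hD htr => ?_⟩
  have hδ : δ ^ 2 = -1 := by simpa using hD.sq
  obtain ⟨j, rfl⟩ : ∃ j : Zi →+* 𝓞 Om, dl j = δ := by
    have hi : IsIntegral ℤ δ := IsIntegral.of_pow two_pos (by rw [hδ]; exact isIntegral_one.neg)
    obtain ⟨d, rfl⟩ : ∃ d : 𝓞 Om, (d : Om) = δ := ⟨⟨δ, hi⟩, rfl⟩
    refine ⟨Zsqrtd.lift ⟨d, RingOfIntegers.coe_injective ?_⟩, by simp [dl]⟩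
    simpa [sq] using hδ
  obtain ⟨m, ε, hε, hm, hS, hR⟩ := hE k ρ red S j hD htr
  obtain ⟨a, ha, ha0, ha3, ha1⟩ := hT m ε hε
  obtain ⟨c, hc⟩ := exists_c j
  have hp2 : ∀ P : Place Om, P.rchar ∉ S → P.rchar ≠ 2 := fun P h h2 => h (h2 ▸ hD.two)
  have hodd : ∀ P : Place Om, P.rchar ∉ S → P.rchar % 4 = 1 ∨ P.rchar % 4 = 3 := fun P h => by
    have := P.rchar_prime.eq_two_or_odd.resolve_left (hp2 P h)
    omega
  have hcop : ∀ P : Place Om, P.rchar ∉ S → P.rchar.Coprime m := fun P h =>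
    Nat.Coprime.coprime_dvd_right hm (Nat.Coprime.pow_right _ (Nat.Coprime.prod_right fun l hl =>
      (Nat.coprime_primes P.rchar_prime (hD.prime l hl)).2 fun h' => h (h' ▸ hl)))
  -- values at split and inert Frobenius elements
  have hsplit : ∀ {B : Type} {ξ : Gam → B} {f : Zi → B}, Rec j S ξ f → ∀ (P : Place Om) (s : Gam),
      P.rchar ≠ 3 → P.rchar ∉ S → IsFr P P.rchar s → P.rchar % 4 = 1 → ∀ x : Zi,
      x.norm.natAbs = P.rchar → j x ∈ P.ideal → ξ s = f x ∧ ξ (c⁻¹ * s * c) = f (star x) := by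
    intro B ξ f h P s h3 hP hs h4 x hx hj
    have hs1 := fr_one (j := j) hs (hp2 P hP) h4
    have hx' : (star x).norm.natAbs = P.rchar := by rwa [Zsqrtd.norm_conj]
    refine ⟨h P s x (prime_of_norm (hx ▸ P.rchar_prime)) hj h3 hP hs1 (hx ▸ hs),
      h (c⁻¹ • P) _ _ (prime_of_norm (hx' ▸ P.rchar_prime)) ?_ (by rwa [Place.rchar_smul])
        (by rwa [Place.rchar_smul]) (conj_fix hc hs1) ?_⟩
    · rwa [← smul_j (inv_neg hc), Place.smul_mem_smul_ideal]
    · simpa only [hx', inv_inv] using IsFr_conj hs c⁻¹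
  refine ⟨4 * m ^ 2, a, ?_, ?_, fun l hl => ((hS l hl).trans (dvd_pow_self m two_ne_zero)).mul_left _,
    ha, fun n hn => ha0 n fun h => hn ?_, ha3, fun P s h3 hP hs => ?_, fun A _ _ i hi hA => ?_⟩
  · rw [pow_add, mul_comm 2 e, pow_mul, mul_comm]
    exact mul_dvd_mul (pow_dvd_pow_of_dvd hm 2)
      (pow_dvd_pow_of_dvd (Finset.dvd_prod_of_mem (fun l => l) hD.two) 2)
  · exact mul_dvd_mul_left 4 (pow_dvd_pow_of_dvd hε.two 2)
  · exact ((h.coprime_dvd_right hε.two).pow_right 2).mul_right (h.pow_right 2)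
  · rcases hodd P hP with h4 | h4
    · obtain ⟨x, -, hx, hj⟩ := exists_split (j := j) h4
      obtain ⟨h1, h2⟩ := hsplit hR P s h3 hP hs h4 x hx hj
      have h5 := ha1 x (hx ▸ P.rchar_prime)
      rw [Matrix.trace_fin_two, ← rho_conj hD hc (fr_one hs (hp2 P hP) h4), h1, h2, hε.conj,
        ← star_mul', ← map_add, ← map_add, ← h5, hx, map_intCast, map_intCast]
    · have := hD.anti s (ne_of_neg hδ (fr_three hs (hp2 P hP) h4))
      rw [ha3 _ P.rchar_prime h4, Matrix.trace_fin_two, this.1, this.2]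
      simp
  let φ : Zi →+* A := Zsqrtd.lift ⟨i, by simpa [sq] using hi⟩
  obtain ⟨r, T, hTe⟩ := exists_teich (j := j) hD.red3 φ hA
  have h9 : 9 ^ r % 8 = 1 := by rw [Nat.pow_mod]; simp
  obtain ⟨ξ, hξ1, hξm, ⟨U, hU, hξU⟩, hξI, hξR⟩ := hX j A φ hA (7 * 9 ^ r + 1) (by omega)
  have hT1 : T 1 = 1 := by simpa using hTe 1
  set F : Gam → A := fun g => if g (dl j) = dl j then ξ g * T (ρ g 0 0) else 0 with hFd
  have hFe : ∀ g : Gam, g (dl j) = dl j → F g = ξ g * T (ρ g 0 0) := fun g hg => if_pos hg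
  have hF : Ch (dl j) F := by
    refine ⟨by rw [hFe 1 rfl, hξ1, map_one, Matrix.one_apply_eq, hT1, mul_one], fun g h hg hh => ?_,
      fun g hg => if_neg (ne_of_neg hδ hg)⟩
    obtain ⟨b, hb⟩ := exists_lift (j := j) hD.red3 (hD.diag g hg).2.2
    obtain ⟨b', hb'⟩ := exists_lift (j := j) hD.red3 (hD.diag h hh).2.2
    rw [hFe g hg, hFe h hh, hFe (g * h) (by rw [AlgEquiv.mul_apply, hh, hg]), hξm g h hg hh,
      rho_mul hD hg, ← hb, ← hb', ← map_mul, ← map_mul, hTe, hTe, hTe, map_mul, mul_pow]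
    ring
  have hFR : Rec j S F fun x => φ (x * ε x) := by
    intro P s x hx hj h3 hP hs hf
    have h1 : ρ s 0 0 = red (j (x * ε x)) := hR P s x hx hj h3 hP hs hf
    have h8 := (hD.diag s hs).2.2
    have h2 : ε x ^ 4 = 1 := hε.unit x (by
      by_contra h
      rw [h1, hε.zero x h] at h8
      simp at h8)
    have h5 : φ (x * ε x) ^ (8 * 9 ^ r) = 1 := by
      rw [pow_mul, ← map_pow, ← hTe, map_pow, map_pow, ← h1, h8, hT1]
    have h6 : φ (ε x) ^ (7 * 9 ^ r + 1) = 1 := by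
      obtain ⟨t, ht⟩ : 4 ∣ 7 * 9 ^ r + 1 := by omega
      rw [ht, pow_mul, ← map_pow, h2, map_one, one_pow]
    have h7 : ξ s = φ x ^ (7 * 9 ^ r + 1) := hξR P s x hx hj h3 (Finset.notMem_empty _) hs hf
    rw [hFe s hs, h7, h1, hTe, ← mul_one (φ x ^ _), ← h6, ← mul_pow, ← map_mul, ← pow_add,
      show 7 * 9 ^ r + 1 + 9 ^ r = 8 * 9 ^ r + 1 by ring, pow_succ, h5, one_mul]
  have hker : ∀ g : Gam, ρ g = 1 → ξ g = 1 → ξ (c⁻¹ * g * c) = 1 → hF.ind hδ hc g = 1 := by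
    intro g hg h1 h2
    have hf := fix_of_ker hD hg
    have hg' : ρ (c⁻¹ * g * c) = 1 := by
      rw [map_mul, map_mul, hg, mul_one, ← map_mul, inv_mul_cancel, map_one]
    rw [hF.ind_fix hδ hc hf, hFe g hf, hFe _ (conj_fix hc hf), hg, hg', h1, h2,
      Matrix.one_apply_eq, hT1, mul_one, Matrix.one_fin_two]
  refine ⟨hF.ind hδ hc, ?_, fun P h3 g hg => ?_, fun P s h3 hP hs => ?_⟩
  · refine Subgroup.isOpen_mono (H₁ := ρ.ker ⊓ (U ⊓ U.comap (MulAut.conj c⁻¹).toMonoidHom))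
      (fun g hg => ?_) (hD.opn.inter (hU.inter (hU.preimage ?_)))
    · have hf := fix_of_ker hD hg.1
      exact hker g hg.1 (hξU g hg.2.1 hf) (hξU _ (by simpa using hg.2.2) (conj_fix hc hf))
    · exact (continuous_const.mul continuous_id).mul continuous_const
  · have hf := fix_of_ker hD hg.2
    exact hker g hg.2 (hξI P h3 g hg.1 hf) (hξI (c⁻¹ • P) (by rwa [Place.rchar_smul]) _
      (by simpa using In_conj hg.1 c⁻¹) (conj_fix hc hf))
  rcases hodd P hP with h4 | h4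
  · obtain ⟨x, hm', hx, hj⟩ := exists_split (j := j) h4
    obtain ⟨h1, h2⟩ := hsplit hFR P s h3 hP hs h4 x hx hj
    have h5 := ha1 x (hx ▸ P.rchar_prime)
    rw [hF.ind_fix hδ hc (fr_one hs (hp2 P hP) h4), Matrix.trace_fin_two_of,
      Matrix.det_fin_two_of, h1, h2]
    constructor
    · rw [hε.conj, ← star_mul', ← map_add, ← h5, hx, map_intCast]
    · rw [← map_mul, mul_mul_mul_comm, ← hε.mul, hm', hε.int _ (hcop P hP),
        ZMod.χ₄_nat_one_mod_four h4]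
      simp
  · have := Fact.mk P.rchar_prime
    have hs3 := fr_three (j := j) hs (hp2 P hP) h4
    obtain ⟨h1, h2⟩ := hF.ind_neg hδ hc hs3
    have h5 : F (s * s) = φ (P.rchar * ε P.rchar) := hFR P (s * s) P.rchar
      (GaussianInt.prime_of_nat_prime_of_mod_four_eq_three _ h4)
      (by rw [map_natCast]; exact P.rchar_mem) h3 hP
      (by rw [AlgEquiv.mul_apply, hs3, map_neg, hs3, neg_neg])
      (by simpa [Zsqrtd.norm_natCast, Int.natAbs_mul] using IsFr_sq hs)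
    rw [h1, h2, h5, ha3 _ P.rchar_prime h4, hε.int _ (hcop P hP), ZMod.χ₄_nat_three_mod_four h4]
    simp

end Crest.Agent.T15.C
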