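import Crest.Agent.T15.Hk_62
import Crest.Agent.T15.MfA_79

/-!
# Row 15, block Ht (helper40): Manin symbols, combinatorics

* `cu g x` action of `SL(2,ℤ)` on the cusps `OnePoint ℚ`; `ht x` the denominator;
* `steps x` the continued fraction path from `∞` to `x`, `sy Φ A = Φ (A 0) - Φ (A ∞)`;
* `Man r` Manin's relations, `pt r` the potential of a Manin system (`sy_pt`).
-/

set_option autoImplicit false
set_option linter.unusedSectionVars false

noncomputable section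

namespace Crest.Agent.T15.Ms

open Matrix MatrixGroups ModularGroup OnePoint Matrix.SpecialLinearGroup
open Crest.Agent.T15.Mf Crest.Agent.T15.Hk

/-- cusps -/
abbrev Cu : Type := OnePoint ℚ

/-- action of `GL(2,ℚ)⁺` on the cusps -/
def ac (g : GQ) (x : Cu) : Cu := (g : GL (Fin 2) ℚ) • x

lemma ac_mul (g h : GQ) (x : Cu) : ac (g * h) x = ac g (ac h x) := by
  simp [ac, mul_smul]

lemma ac_one (x : Cu) : ac 1 x = x := by simp [ac]

/-- action of `SL(2,ℤ)` on the cusps -/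
def cu (g : SL(2, ℤ)) (x : Cu) : Cu := ac (sq g) x

lemma cu_mul (g h : SL(2, ℤ)) (x : Cu) : cu (g * h) x = cu g (cu h x) := by
  simp [cu, ac_mul]

lemma cu_one (x : Cu) : cu 1 x = x := by simp [cu, ac_one]

lemma ac_infty (g : GQ) : ac g ∞ = if (g : GL (Fin 2) ℚ) 1 0 = 0 then ∞ else
    (((g : GL (Fin 2) ℚ) 0 0 / (g : GL (Fin 2) ℚ) 1 0 : ℚ) : Cu) := smul_infty_eq_ite _

lemma cu_infty (g : SL(2, ℤ)) : cu g ∞ = if g 1 0 = 0 then ∞ else
    ((((g 0 0 : ℤ) : ℚ) / ((g 1 0 : ℤ) : ℚ) : ℚ) : Cu) := by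
  rw [cu, ac_infty, sq_apply, sq_apply]; simp

lemma cu_S : cu S ∞ = ((0 : ℚ) : Cu) := by
  rw [cu_infty]; simp [coe_S]

/-- `g 0` -/
def cz (g : SL(2, ℤ)) : Cu := cu (g * S) ∞

lemma cz_eq (g : SL(2, ℤ)) : cz g = cu g ((0 : ℚ) : Cu) := by rw [cz, cu_mul, cu_S]

lemma mulS (g : SL(2, ℤ)) : (g * S) 0 0 = g 0 1 ∧ (g * S) 0 1 = -g 0 0 ∧ (g * S) 1 0 = g 1 1 ∧
    (g * S) 1 1 = -g 1 0 := by
  simp [coe_S, Matrix.mul_apply, Fin.sum_univ_two]

lemma mulT (g : SL(2, ℤ)) : (g * T) 0 0 = g 0 0 ∧ (g * T) 0 1 = g 0 0 + g 0 1 ∧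
    (g * T) 1 0 = g 1 0 ∧ (g * T) 1 1 = g 1 0 + g 1 1 := by
  simp [coe_T, Matrix.mul_apply, Fin.sum_univ_two]

/-- the lower triangular generator -/
def Lm : SL(2, ℤ) := ⟨!![1, 0; 1, 1], by simp [det_fin_two_of]⟩

lemma mulL (g : SL(2, ℤ)) : (g * Lm) 0 0 = g 0 0 + g 0 1 ∧ (g * Lm) 0 1 = g 0 1 ∧
    (g * Lm) 1 0 = g 1 0 + g 1 1 ∧ (g * Lm) 1 1 = g 1 1 := by
  have e : (Lm : Matrix (Fin 2) (Fin 2) ℤ) = !![1, 0; 1, 1] := rfl
  simp [e, Matrix.mul_apply, Fin.sum_univ_two]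

lemma det_eq (g : SL(2, ℤ)) : g 0 0 * g 1 1 - g 0 1 * g 1 0 = 1 := by
  have := g.det_coe
  rwa [det_fin_two] at this

lemma cu_congr {g h : SL(2, ℤ)} (h0 : g 0 0 = h 0 0) (h1 : g 1 0 = h 1 0) : cu g ∞ = cu h ∞ := by
  rw [cu_infty, cu_infty, h0, h1]

lemma cu_congr' {g h : SL(2, ℤ)} (h0 : g 0 0 = -h 0 0) (h1 : g 1 0 = -h 1 0) :
    cu g ∞ = cu h ∞ := by
  rw [cu_infty, cu_infty, h0, h1]; simp [neg_div_neg_eq]

lemma cu_mulT (g : SL(2, ℤ)) : cu (g * T) ∞ = cu g ∞ := cu_congr (mulT g).1 (mulT g).2.2.1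

lemma cz_mulS (g : SL(2, ℤ)) : cz (g * S) = cu g ∞ :=
  cu_congr' (by rw [(mulS _).1, (mulS _).2.1]) (by rw [(mulS _).2.2.1, (mulS _).2.2.2])

lemma cz_mulL (g : SL(2, ℤ)) : cz (g * Lm) = cz g :=
  cu_congr (by rw [(mulS _).1, (mulS _).1, (mulL _).2.1])
    (by rw [(mulS _).2.2.1, (mulS _).2.2.1, (mulL _).2.2.2])

lemma cu_mulL (g : SL(2, ℤ)) : cu (g * Lm) ∞ = cz (g * T) :=
  cu_congr (by rw [(mulS _).1, (mulL _).1, (mulT _).2.1])
    (by rw [(mulS _).2.2.1, (mulL _).2.2.1, (mulT _).2.2.2])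

lemma cu_neg (g : SL(2, ℤ)) : cu (-g) ∞ = cu g ∞ := cu_congr' (by simp) (by simp)

lemma cz_neg (g : SL(2, ℤ)) : cz (-g) = cz g := by rw [cz, neg_mul, cu_neg, cz]

lemma cz_mul (g h : SL(2, ℤ)) : cz (g * h) = cu g (cz h) := by rw [cz, cz, mul_assoc, cu_mul]

/-- the denominator of a cusp -/
def ht (x : Cu) : ℕ := OnePoint.rec 0 (fun q : ℚ => q.den) x

@[simp] lemma ht_infty : ht ∞ = 0 := rfl
@[simp] lemma ht_coe (q : ℚ) : ht (q : Cu) = q.den := rfl

lemma den_div_le (a c : ℤ) (hc : c ≠ 0) : ((a : ℚ) / (c : ℚ)).den ≤ c.natAbs := by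
  have h := Rat.den_dvd a c
  rw [Rat.divInt_eq_div] at h
  exact Nat.le_of_dvd (Int.natAbs_pos.2 hc) (Int.natCast_dvd.1 h)

lemma coprime_col (g : SL(2, ℤ)) : Nat.Coprime (g 0 0).natAbs (g 1 0).natAbs := by
  rw [← Int.isCoprime_iff_nat_coprime]
  exact ⟨g 1 1, -g 0 1, by linear_combination det_eq g⟩

lemma ht_cu (g : SL(2, ℤ)) : ht (cu g ∞) = (g 1 0).natAbs := by
  rcases lt_trichotomy (g 1 0) 0 with h | h | h
  · rw [← cu_neg, cu_infty, if_neg (by simpa using h.ne), ht_coe]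
    have := Rat.den_div_eq_of_coprime (a := (-g) 0 0) (b := (-g) 1 0) (by simpa using h)
      (coprime_col (-g))
    have e : (-g) 1 0 = -g 1 0 := by simp
    omega
  · rw [cu_infty, if_pos h, h]; rfl
  · rw [cu_infty, if_neg h.ne', ht_coe]
    have := Rat.den_div_eq_of_coprime h (coprime_col g)
    omega

lemma ht_cz (g : SL(2, ℤ)) : ht (cz g) = (g 1 1).natAbs := by rw [cz, ht_cu, (mulS g).2.2.1]

/-- reduced matrices -/
def Rd (g : SL(2, ℤ)) : Prop := 0 ≤ g 1 1 ∧ g 1 1 < g 1 0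

lemma exists_rd (q : ℚ) : ∃ g : SL(2, ℤ), Rd g ∧ cu g ∞ = (q : Cu) := by
  obtain ⟨u, v, h⟩ : IsCoprime q.num (q.den : ℤ) := Int.isCoprime_iff_nat_coprime.2 (by
    simpa using q.reduced)
  have hc : (0 : ℤ) < q.den := by exact_mod_cast q.den_pos
  refine ⟨⟨!![q.num, -(v + q.num * (u / q.den)); q.den, u % q.den], ?_⟩, ⟨?_, ?_⟩, ?_⟩
  · rw [det_fin_two_of]
    have := Int.emod_add_mul_ediv u q.den
    linear_combination h + q.num * this
  · exact Int.emod_nonneg _ hc.ne'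
  · exact Int.emod_lt_of_pos _ hc
  · exact (cu_infty _).trans ((if_neg hc.ne').trans (congrArg _ (Rat.num_div_den q)))

lemma rd_unique {g h : SL(2, ℤ)} (hg : Rd g) (hh : Rd h) (e : cu g ∞ = cu h ∞) : g = h := by
  have g0 : 0 < g 1 0 := hg.1.trans_lt hg.2
  have h0 : 0 < h 1 0 := hh.1.trans_lt hh.2
  rw [cu_infty, cu_infty, if_neg g0.ne', if_neg h0.ne'] at e
  obtain ⟨e0, e1⟩ := Rat.div_int_inj g0 h0 (coprime_col g) (coprime_col h) (coe_injective e)
  have d1 := det_eq g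
  have d2 := det_eq h
  rw [← e0, ← e1] at d2
  have hd : g 1 0 ∣ g 1 1 - h 1 1 := by
    have hc : IsCoprime (g 1 0) (g 0 0) := ⟨-g 0 1, g 1 1, by linear_combination d1⟩
    refine hc.dvd_of_dvd_mul_left ⟨g 0 1 - h 0 1, by linear_combination d1 - d2⟩
  have e3 : g 1 1 = h 1 1 := by
    have := Int.eq_zero_of_abs_lt_dvd hd (by
      have := hg.1; have := hg.2; have := hh.1; have := hh.2
      rw [abs_lt]; constructor <;> omega)
    omega
  have e2 : g 0 1 = h 0 1 := by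
    rw [← e3] at d2
    exact mul_right_cancel₀ g0.ne' (by linear_combination d2 - d1)
  ext i j
  fin_cases i <;> fin_cases j <;> assumption

/-- the last step of the path to `q` -/
def nx (q : ℚ) : SL(2, ℤ) := (exists_rd q).choose

lemma nx_rd (q : ℚ) : Rd (nx q) := (exists_rd q).choose_spec.1
lemma cu_nx (q : ℚ) : cu (nx q) ∞ = (q : Cu) := (exists_rd q).choose_spec.2

lemma ht_nx (q : ℚ) : ht (cz (nx q)) < ht (q : Cu) := by
  rw [← cu_nx q, ht_cz, ht_cu]
  have := (nx_rd q).1; have := (nx_rd q).2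
  omega

/-- path of length at most `n` -/
def stp : ℕ → Cu → List SL(2, ℤ)
  | 0, _ => []
  | n + 1, x => OnePoint.rec [] (fun q : ℚ => nx q :: stp n (cz (nx q))) x

lemma stp_eq : ∀ (n m : ℕ) (x : Cu), ht x ≤ n → ht x ≤ m → stp n x = stp m x
  | 0, 0, _, _, _ => rfl
  | 0, m + 1, x, h, _ => by
    induction x using OnePoint.rec with
    | infty => rfl
    | coe q => exact absurd h (by simp)
  | n + 1, 0, x, _, h => by
    induction x using OnePoint.rec with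
    | infty => rfl
    | coe q => exact absurd h (by simp)
  | n + 1, m + 1, x, h, h' => by
    induction x using OnePoint.rec with
    | infty => rfl
    | coe q =>
      have := ht_nx q
      exact congrArg (nx q :: ·) (stp_eq n m _ (by omega) (by omega))

/-- the continued fraction path from `∞` to `x` -/
def steps (x : Cu) : List SL(2, ℤ) := stp (ht x) x

@[simp] lemma steps_infty : steps ∞ = [] := rfl

lemma steps_coe (q : ℚ) : steps (q : Cu) = nx q :: steps (cz (nx q)) := by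
  have h := ht_nx q
  obtain ⟨n, hn⟩ : ∃ n, ht (q : Cu) = n + 1 := ⟨ht (q : Cu) - 1, by omega⟩
  rw [steps, hn]
  exact congrArg (nx q :: ·) (stp_eq _ _ _ (by omega) le_rfl)

lemma cu_ind {p : Cu → Prop} (h0 : p ∞) (h1 : ∀ q : ℚ, p (cz (nx q)) → p q) (x : Cu) : p x := by
  induction hn : ht x using Nat.strong_induction_on generalizing x with
  | _ n ih =>
    induction x using OnePoint.rec with
    | infty => exact h0
    | coe q => exact h1 q (ih _ (hn ▸ ht_nx q) _ rfl)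

lemma length_steps (x : Cu) : (steps x).length ≤ ht x := by
  induction x using cu_ind with
  | h0 => simp
  | h1 q ih => have := ht_nx q; rw [steps_coe, List.length_cons]; omega

variable {A : Type*} [AddCommGroup A]

/-- the Manin symbol of a potential -/
def sy (Φ : Cu → A) (g : SL(2, ℤ)) : A := Φ (cz g) - Φ (cu g ∞)

/-- the potential of a function on `SL(2,ℤ)` -/
def pt (r : SL(2, ℤ) → A) (x : Cu) : A := -((steps x).map r).sum

@[simp] lemma pt_infty (r : SL(2, ℤ) → A) : pt r ∞ = 0 := by simp [pt]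

lemma pt_coe (r : SL(2, ℤ) → A) (q : ℚ) : pt r q = pt r (cz (nx q)) - r (nx q) := by
  rw [pt, pt, steps_coe, List.map_cons, List.sum_cons]; abel

theorem pt_sy (Φ : Cu → A) (x : Cu) : pt (sy Φ) x = Φ x - Φ ∞ := by
  induction x using cu_ind with
  | h0 => simp
  | h1 q ih => rw [pt_coe, ih, sy, cu_nx]; abel

/-- Manin's relations -/
structure Man (r : SL(2, ℤ) → A) : Prop where
  s : ∀ g, r (g * S) = -r g
  t : ∀ g, r g = r (g * T) + r (g * Lm)

theorem man_sy (Φ : Cu → A) : Man (sy Φ) where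
  s g := by rw [sy, sy, cz_mulS, cz]; abel
  t g := by rw [sy, sy, sy, cu_mulT, cz_mulL, cu_mulL]; abel

lemma Man.neg {r : SL(2, ℤ) → A} (h : Man r) (g : SL(2, ℤ)) : r (-g) = r g := by
  have e : g * S * S = -g := by
    rw [mul_assoc, show (S * S : SL(2, ℤ)) = -1 by decide]; simp
  rw [← e, h.s, h.s, neg_neg]

lemma sy_pt_rd (r : SL(2, ℤ) → A) {g : SL(2, ℤ)} (hg : Rd g) : sy (pt r) g = r g := by
  have g0 : 0 < g 1 0 := hg.1.trans_lt hg.2
  have e : cu g ∞ = ((((g 0 0 : ℤ) : ℚ) / ((g 1 0 : ℤ) : ℚ) : ℚ) : Cu) := by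
    rw [cu_infty, if_neg g0.ne']
  have e2 : nx _ = g := rd_unique (nx_rd _) hg ((cu_nx _).trans e.symm)
  rw [sy, e, pt_coe, e2]; abel

/-- **Manin's theorem**: a Manin system is the symbol of its potential -/
theorem Man.sy_pt {r : SL(2, ℤ) → A} (h : Man r) (g : SL(2, ℤ)) : sy (pt r) g = r g := by
  have hm := man_sy (pt r)
  have hS : ∀ g, Ms.sy (pt r) (g * S) = r (g * S) → Ms.sy (pt r) g = r g := fun g e => by
    rwa [hm.s, h.s, neg_inj] at e
  have hN : ∀ g, Ms.sy (pt r) (-g) = r (-g) → Ms.sy (pt r) g = r g := fun g e => by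
    rwa [hm.neg, h.neg] at e
  induction hn : (g 1 0).natAbs + (g 1 1).natAbs using Nat.strong_induction_on generalizing g with
  | _ n ih =>
    have key : ∀ g : SL(2, ℤ), (g 1 0).natAbs + (g 1 1).natAbs = n → 0 < g 1 0 →
        (g 1 1).natAbs ≤ (g 1 0).natAbs → Ms.sy (pt r) g = r g := by
      intro g hn h0 h1
      rcases lt_or_ge (g 1 1) 0 with h2 | h2
      · rw [hm.t, h.t g, sy_pt_rd r (g := g * T) ⟨by rw [(mulT g).2.2.2]; omega,
          by rw [(mulT g).2.2.2, (mulT g).2.2.1]; omega⟩,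
          ih _ ?_ (g * Lm) rfl]
        rw [(mulL g).2.2.1, (mulL g).2.2.2]; omega
      rcases lt_or_ge (g 1 1) (g 1 0) with h3 | h3
      · exact sy_pt_rd r ⟨h2, h3⟩
      have e : g 1 1 = g 1 0 := by omega
      have e0 : (g * T⁻¹) 1 0 = g 1 0 := by
        have := (mulT (g * T⁻¹)).2.2.1; rw [inv_mul_cancel_right] at this; exact this.symm
      have e1 : (g * T⁻¹) 1 1 = 0 := by
        have := (mulT (g * T⁻¹)).2.2.2; rw [inv_mul_cancel_right] at this; omega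
      have a1 := sy_pt_rd r (g := g * T⁻¹) ⟨e1.ge, by omega⟩
      have a2 := sy_pt_rd r (g := g * T⁻¹ * Lm) ⟨by rw [(mulL _).2.2.2]; omega,
        by rw [(mulL _).2.2.2, (mulL _).2.2.1]; omega⟩
      rw [hm.t, h.t (g * T⁻¹), inv_mul_cancel_right, a2] at a1
      exact add_right_cancel a1
    have key2 : ∀ g : SL(2, ℤ), (g 1 0).natAbs + (g 1 1).natAbs = n →
        (g 1 1).natAbs ≤ (g 1 0).natAbs → Ms.sy (pt r) g = r g := by
      intro g hn h1
      rcases lt_trichotomy (g 1 0) 0 with h0 | h0 | h0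
      · exact hN g (key _ (by simpa using hn) (by simpa using h0) (by simpa using h1))
      · have := det_eq g
        have e : g 1 1 = 0 := by omega
        rw [h0, e] at this; simp at this
      · exact key g hn h0 h1
    rcases le_total (g 1 1).natAbs (g 1 0).natAbs with h1 | h1
    · exact key2 g hn h1
    · refine hS g (key2 _ ?_ ?_) <;> rw [(mulS g).2.2.1, (mulS g).2.2.2] <;> omega

lemma sy_eq_zero {Φ : Cu → A} (h : ∀ g, sy Φ g = 0) (x : Cu) : Φ x = Φ ∞ := by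
  have := pt_sy Φ x
  rw [show sy Φ = fun _ => 0 from funext h, pt, List.map_const', List.sum_replicate, smul_zero,
    neg_zero] at this
  exact sub_eq_zero.1 this.symm

lemma sy_cu (Φ : Cu → A) (γ g : SL(2, ℤ)) : sy (fun x => Φ (cu γ x)) g = sy Φ (γ * g) := by
  rw [sy, sy, cz_mul, cu_mul]

/-- invariance of the symbol under `γ` makes the potential a cocycle -/
lemma cu_of_inv {Φ : Cu → A} {γ : SL(2, ℤ)} (h : ∀ g, sy Φ (γ * g) = sy Φ g) (x : Cu) :
    Φ (cu γ x) = Φ (cu γ ∞) - Φ ∞ + Φ x := by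
  have := sy_eq_zero (Φ := fun x => Φ (cu γ x) - Φ x) (fun g => by
    have := h g
    rw [← sy_cu] at this
    simp only [sy] at this ⊢
    rw [sub_sub_sub_comm, this, sub_self]) x
  rw [← this]; abel

lemma inv_of_cu {Φ : Cu → A} {γ : SL(2, ℤ)} {a : A} (h : ∀ x, Φ (cu γ x) = a + Φ x)
    (g : SL(2, ℤ)) : sy Φ (γ * g) = sy Φ g := by
  rw [← sy_cu, sy, sy, h, h]; abel

end Crest.Agent.T15.Ms
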