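import Crest.Agent.T15.MsA_40
import Crest.Agent.T15.EscA_99

/-!
# Row 15, block Ht (helper40): potentials of cusp forms

* `pot f x` the value at the cusp `x` of the primitive `prim f` (`tendsto_pot`);
* `PP f Φ`: `Φ` is the boundary value of a primitive of `f`;
* `sl z f = f ∣ z`, `hk Φ z` the action of `ℤ[GL₂(ℚ)⁺]` on forms and on potentials.
-/

set_option autoImplicit false
set_option linter.unusedSectionVars false

noncomputable section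

namespace Crest.Agent.T15.Ms

open UpperHalfPlane hiding I
open MatrixGroups ModularGroup OnePoint Matrix.SpecialLinearGroup ModularForm Filter Complex
open scoped Topology Manifold
open Crest.Agent.T15.Mf Crest.Agent.T15.Hk Crest.Agent.T15.Esc

lemma exists_cu (x : Cu) : ∃ g : SL(2, ℤ), cu g ∞ = x := by
  induction x using OnePoint.rec with
  | infty => exact ⟨1, cu_one _⟩
  | coe q => exact ⟨_, cu_nx q⟩

lemma rr_tri {δ : GQ} (h : ac δ ∞ = ∞) : rr δ 1 0 = 0 := by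
  rw [rr_apply, smul_infty_eq_self_iff.1 h, Rat.cast_zero]

lemma exists_tri (δ : GQ) {g : SL(2, ℤ)} (h : cu g ∞ = ac δ ∞) :
    ∃ u : GQ, rr u 1 0 = 0 ∧ δ = Mf.sq g * u :=
  ⟨(sq g)⁻¹ * δ, rr_tri (by rw [ac_mul, ← h, cu, ← ac_mul, inv_mul_cancel, ac_one]),
    (mul_inv_cancel_left _ _).symm⟩

lemma rr_det_pos (δ : GQ) : 0 < (rr δ).val.det := by
  have := rr_pos δ
  rwa [Matrix.GeneralLinearGroup.val_det_apply] at this

/-- `Φ` is the boundary value of `F` -/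
def IsPot (F : ℍ → ℂ) (Φ : Cu → ℂ) : Prop :=
  ∀ δ : GQ, Tendsto (fun z => F (rr δ • z)) atImInfty (𝓝 (Φ (ac δ ∞)))

/-- the value of `prim f` at a cusp -/
def pot (f : ℍ → ℂ) (x : Cu) : ℂ := limUnder atImInfty fun z => prim f ((exists_cu x).choose • z)

variable {Γ : Subgroup SL(2, ℤ)} {f f' F F' : ℍ → ℂ} {Φ Φ' : Cu → ℂ}

theorem tendsto_pot [Γ.FiniteIndex] (hf : f ∈ CS Γ 2) (δ : GQ) :
    Tendsto (fun z => prim f (rr δ • z)) atImInfty (𝓝 (pot f (ac δ ∞))) := by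
  obtain ⟨M, hM⟩ := exists_wid Γ
  obtain ⟨u, hu, e⟩ := exists_tri δ (exists_cu (ac δ ∞)).choose_spec
  have h1 := tendsto_nhds_limUnder (((isPrim_prim hf.1).comp_SL (exists_cu (ac δ ∞)).choose).tendsto
    hM.pos (hM.periodic hf.2.1 _) (hf.2.2 _))
  refine (h1.comp (tendsto_smul_atImInfty hu)).congr fun z => ?_
  conv_rhs => rw [e, map_mul, mul_smul, rr_sq_smul]
  rfl

theorem tendsto_pot_SL [Γ.FiniteIndex] (hf : f ∈ CS Γ 2) (g : SL(2, ℤ)) :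
    Tendsto (fun z => prim f (g • z)) atImInfty (𝓝 (pot f (cu g ∞))) := by
  simpa only [rr_sq_smul] using! tendsto_pot hf (sq g)

lemma IsPot.eq (h : IsPot F Φ) (h' : IsPot F' Φ') {c : ℂ} (e : ∀ z, F z = c + F' z) (x : Cu) :
    Φ x = c + Φ' x := by
  obtain ⟨g, rfl⟩ := exists_cu x
  exact tendsto_nhds_unique (h (sq g)) (((h' (sq g)).const_add c).congr fun z => (e _).symm)

lemma IsPot.comp (h : IsPot F Φ) (δ : GQ) : IsPot (fun z => F (rr δ • z)) fun x => Φ (ac δ x) :=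
  fun ε => by simpa only [map_mul, mul_smul, ac_mul] using h (δ * ε)

/-- `Φ` is the boundary value of a primitive of `f` -/
def PP (f : ℍ → ℂ) (Φ : Cu → ℂ) : Prop := ∃ F, IsPrim F f ∧ IsPot F Φ

lemma pp_pot [Γ.FiniteIndex] (hf : f ∈ CS Γ 2) : PP f (pot f) :=
  ⟨_, isPrim_prim hf.1, tendsto_pot hf⟩

lemma pp_zero : PP 0 0 := ⟨_, isPrim_const 0, fun _ => tendsto_const_nhds⟩

lemma PP.add (h : PP f Φ) (h' : PP f' Φ') : PP (f + f') (Φ + Φ') := by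
  obtain ⟨F, h1, h2⟩ := h
  obtain ⟨F', h1', h2'⟩ := h'
  exact ⟨_, h1.add h1', fun δ => (h2 δ).add (h2' δ)⟩

lemma PP.smul (c : ℂ) (h : PP f Φ) : PP (c • f) (c • Φ) := by
  obtain ⟨F, h1, h2⟩ := h
  exact ⟨_, h1.smul c, fun δ => (h2 δ).const_mul c⟩

lemma PP.sum {ι : Type*} (s : Finset ι) {f : ι → ℍ → ℂ} {Φ : ι → Cu → ℂ}
    (h : ∀ i, PP (f i) (Φ i)) : PP (∑ i ∈ s, f i) (∑ i ∈ s, Φ i) := by
  classical
  induction s using Finset.induction_on with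
  | empty => simpa using pp_zero
  | insert a s ha ih => rw [Finset.sum_insert ha, Finset.sum_insert ha]; exact (h a).add ih

lemma PP.slash (h : PP f Φ) (δ : GQ) : PP (f ∣[(2 : ℤ)] rr δ) fun x => Φ (ac δ x) := by
  obtain ⟨F, h1, h2⟩ := h
  exact ⟨_, h1.comp_smul (rr_det_pos δ), h2.comp δ⟩

lemma PP.unique (h : PP f Φ) (h' : PP f Φ') : ∃ c, ∀ x, Φ x = c + Φ' x := by
  obtain ⟨F, h1, h2⟩ := h
  obtain ⟨F', h1', h2'⟩ := h'
  exact ⟨F UpperHalfPlane.I - F' UpperHalfPlane.I, h2.eq h2' fun z => by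
    linear_combination h1.sub_eq h1' z UpperHalfPlane.I⟩

lemma PP.cu_eq (h : PP f Φ) {γ : SL(2, ℤ)} (hγ : f ∣[(2 : ℤ)] γ = f) (x : Cu) :
    Φ (cu γ x) = per f γ + Φ x := by
  obtain ⟨F, h1, h2⟩ := h
  exact (h2.comp (sq γ)).eq h2 (fun z => by rw [rr_sq_smul]; exact per_SL h1 hγ z) x

theorem pot_cu [Γ.FiniteIndex] (hf : f ∈ CS Γ 2) {γ : SL(2, ℤ)} (hγ : γ ∈ Γ) (x : Cu) :
    pot f (cu γ x) = per f γ + pot f x := (pp_pot hf).cu_eq (hf.2.1 γ hγ) x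

/-! ### the group ring -/

/-- `f ∣ z` -/
def sl (z : MonoidAlgebra ℤ GQ) (f : ℍ → ℂ) : ℍ → ℂ := lin ℤ (fun δ => f ∣[(2 : ℤ)] rr δ) z

/-- `Φ ∣ z` -/
def hk {A : Type*} [AddCommGroup A] (Φ : Cu → A) (z : MonoidAlgebra ℤ GQ) (x : Cu) : A :=
  lin ℤ (fun δ => Φ (ac δ x)) z

lemma lin_ind {p : MonoidAlgebra ℤ GQ → Prop} (h0 : p 0) (ha : ∀ x y, p x → p y → p (x + y))
    (hs : ∀ (n : ℤ) δ, p (n • e ℤ δ)) (z : MonoidAlgebra ℤ GQ) : p z := by
  induction z using MonoidAlgebra.induction_linear with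
  | zero => exact h0
  | add x y hx hy => exact ha x y hx hy
  | single g r => rw [single_eq]; exact hs r g

lemma sl_add (z w : MonoidAlgebra ℤ GQ) (f : ℍ → ℂ) : sl (z + w) f = sl z f + sl w f := map_add _ _ _
lemma sl_sub (z w : MonoidAlgebra ℤ GQ) (f : ℍ → ℂ) : sl (z - w) f = sl z f - sl w f := map_sub _ _ _
lemma sl_zsmul (n : ℤ) (z : MonoidAlgebra ℤ GQ) (f : ℍ → ℂ) : sl (n • z) f = (n : ℂ) • sl z f := by
  rw [Int.cast_smul_eq_zsmul]; exact map_smul _ _ _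
lemma sl_e (δ : GQ) (f : ℍ → ℂ) : sl (e ℤ δ) f = f ∣[(2 : ℤ)] rr δ := lin_e _ _
lemma sl_zero (f : ℍ → ℂ) : sl 0 f = 0 := map_zero _
lemma sl_one (f : ℍ → ℂ) : sl 1 f = f := by
  rw [← e_one, sl_e, map_one, SlashAction.slash_one]

lemma PP.hk (h : PP f Φ) (z : MonoidAlgebra ℤ GQ) : PP (sl z f) (hk Φ z) := by
  induction z using lin_ind with
  | h0 =>
    rw [sl_zero, show Ms.hk Φ 0 = 0 from funext fun x => map_zero _]
    exact pp_zero
  | ha x y hx hy =>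
    rw [sl_add, show Ms.hk Φ (x + y) = Ms.hk Φ x + Ms.hk Φ y from funext fun _ => map_add _ _ _]
    exact hx.add hy
  | hs n δ =>
    rw [sl_zsmul, sl_e, show Ms.hk Φ (n • e ℤ δ) = (n : ℂ) • fun x => Φ (ac δ x) from
      funext fun x => by rw [Ms.hk, _root_.map_smul, lin_e, Int.cast_smul_eq_zsmul]; rfl]
    exact (h.slash δ).smul _

lemma sl_slash (z : MonoidAlgebra ℤ GQ) (f : ℍ → ℂ) (δ : GQ) :
    sl z f ∣[(2 : ℤ)] rr δ = sl (z * e ℤ δ) f := by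
  induction z using lin_ind with
  | h0 => simp [sl_zero]
  | ha x y hx hy => rw [sl_add, SlashAction.add_slash, hx, hy, add_mul, sl_add]
  | hs n ε =>
    rw [smul_mul_assoc, ← e_mul, sl_zsmul, sl_zsmul, sl_e, sl_e, map_mul, SlashAction.slash_mul,
      Int.cast_smul_eq_zsmul, Int.cast_smul_eq_zsmul]
    exact map_zsmul (AddMonoidHom.mk' (fun u : ℍ → ℂ => u ∣[(2 : ℤ)] rr δ) fun a b =>
      SlashAction.add_slash _ _ a b) n _

lemma sl_null (hf : ∀ γ ∈ Γ, f ∣[(2 : ℤ)] γ = f) {z : MonoidAlgebra ℤ GQ}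
    (hz : z ∈ Null ℤ (Γ.map sq)) : sl z f = 0 :=
  null_lin hz (by
    rintro _ ⟨γ, hγ, rfl⟩ δ
    rw [map_mul, SlashAction.slash_mul, slash_sq, hf γ hγ])

theorem sl_mem (hf : f ∈ CS Γ 2) {c : MonoidAlgebra ℤ GQ} {Γ' : Subgroup SL(2, ℤ)}
    (hc : c ∈ Corr ℤ (Γ.map sq) (Γ'.map sq)) : sl c f ∈ CS Γ' 2 := by
  have key : ∀ z, MDiff (sl z f) ∧ IsZeroAtImInfty (sl z f) := fun z => by
    induction z using lin_ind with
    | h0 => rw [sl_zero]; exact ⟨mdifferentiable_const, Filter.zero_zeroAtFilter atImInfty⟩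
    | ha x y hx hy => rw [sl_add]; exact ⟨hx.1.add hy.1, hx.2.add hy.2⟩
    | hs n δ =>
      rw [sl_zsmul, sl_e]
      refine ⟨(hf.1.slash 2 _).const_smul _, Filter.ZeroAtFilter.smul _ ?_⟩
      obtain ⟨g, hg⟩ := exists_cu (ac δ ∞)
      obtain ⟨u, hu, rfl⟩ := exists_tri δ hg
      rw [map_mul, SlashAction.slash_mul, slash_sq]
      exact (hf.2.2 g).slash 2 hu
  refine ⟨(key c).1, fun γ hγ => ?_, fun s => ?_⟩
  · rw [← slash_sq, sl_slash, ← sub_eq_zero, ← sl_sub]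
    exact sl_null hf.2.1 (hc _ ⟨γ, hγ, rfl⟩)
  · rw [← slash_sq, sl_slash]; exact (key _).2

end Crest.Agent.T15.Ms
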