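import Crest.Agent.T15.MsC_40
import Crest.Agent.T15.HabC_58

/-!
# Row 15, block Ht (helper40): the integer rows

For correspondences `c j i`, the space `Sp Γ c` of tuples of cusp forms with `∑ i, h i ∣ c j i = 0`
is cut out, on normalised symbols, by the small integer rows `Rows Γ c`.
-/

set_option autoImplicit false
set_option linter.unusedSectionVars false

noncomputable section

namespace Crest.Agent.T15.Ms

open UpperHalfPlane hiding I
open MatrixGroups ModularGroup OnePoint Matrix.SpecialLinearGroup ModularForm Filter Complex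
open scoped Topology Manifold ComplexConjugate
open Crest.Agent.T15.Mf Crest.Agent.T15.Hk Crest.Agent.T15.Esc

variable {Γ : Subgroup SL(2, ℤ)} {ι J : Type*} [Fintype ι]
variable {A B : Type*} [AddCommGroup A] [AddCommGroup B]

open Classical in
/-- the universal symbol -/
def un (Γ : Subgroup SL(2, ℤ)) (i : ι) (g : SL(2, ℤ)) : ι × RC Γ → ℤ := Pi.single (i, cs Γ g) 1

/-- the rows -/
def Rows (Γ : Subgroup SL(2, ℤ)) (c : J → ι → MonoidAlgebra ℤ GQ) : Set (ι × RC Γ → ℤ) :=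
  {v | (∃ i g, v = un Γ i (g * S) + un Γ i g) ∨
    (∃ i g, v = un Γ i g - (un Γ i (g * T) + un Γ i (g * Lm))) ∨
    (∃ i x y, v = pt (un Γ i) (kp Γ x) - pt (un Γ i) (kp Γ y)) ∨
    ∃ j x, Ht x ≤ 2 ^ Nat.card (RC Γ) ∧
      v = ∑ i, hk (pt (un Γ i)) (c j i) x - ∑ i, hk (pt (un Γ i)) (c j i) (kp Γ x)}

/-- solutions of the rows -/
structure Sol (Γ : Subgroup SL(2, ℤ)) (c : J → ι → MonoidAlgebra ℤ GQ) (u : ι × RC Γ → A) :
    Prop where
  man : ∀ i, Man fun g => u (i, cs Γ g)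
  nrm : ∀ i x y, pt (fun g => u (i, cs Γ g)) (kp Γ x) = pt (fun g => u (i, cs Γ g)) (kp Γ y)
  hke : ∀ j x, Ht x ≤ 2 ^ Nat.card (RC Γ) → ∑ i, hk (pt fun g => u (i, cs Γ g)) (c j i) x =
    ∑ i, hk (pt fun g => u (i, cs Γ g)) (c j i) (kp Γ x)

lemma map_hk (φ : A →+ B) (Φ : Cu → A) (z : MonoidAlgebra ℤ GQ) (x : Cu) :
    φ (hk Φ z x) = hk (fun y => φ (Φ y)) z x := map_lin φ.toIntLinearMap _ z

variable {c : J → ι → MonoidAlgebra ℤ GQ}

theorem sol_iff [Fintype (RC Γ)] (u : ι × RC Γ → A) :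
    Sol Γ c u ↔ ∀ v ∈ Rows Γ c, ∑ a, v a • u a = 0 := by
  classical
  let φ : (ι × RC Γ → ℤ) →+ A := (Fintype.linearCombination ℤ u).toAddMonoidHom
  have h0 : ∀ v, ∑ a, v a • u a = φ v := fun v => (Fintype.linearCombination_apply ℤ u v).symm
  have h1 : ∀ i g, φ (un Γ i g) = u (i, cs Γ g) := fun i g => by
    rw [← h0, Finset.sum_eq_single (i, cs Γ g)] <;> simp +contextual [un]
  simp only [h0]
  constructor
  · rintro h v (⟨i, g, rfl⟩ | ⟨i, g, rfl⟩ | ⟨i, x, y, rfl⟩ | ⟨j, x, hx, rfl⟩)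
    · rw [map_add, h1, h1, (h.man i).s g, neg_add_cancel]
    · rw [map_sub, map_add, h1, h1, h1, sub_eq_zero]; exact (h.man i).t g
    · simp only [map_sub, map_pt, h1, h.nrm i x y, sub_self]
    · simp only [map_sub, map_sum, map_hk, map_pt, h1, h.hke j x hx, sub_self]
  · refine fun h => ⟨fun i => ⟨fun g => ?_, fun g => ?_⟩, fun i x y => ?_, fun j x hx => ?_⟩
    · have := h _ (Or.inl ⟨i, g, rfl⟩)
      rwa [map_add, h1, h1, add_eq_zero_iff_eq_neg] at this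
    · have := h _ (Or.inr (Or.inl ⟨i, g, rfl⟩))
      rwa [map_sub, map_add, h1, h1, h1, sub_eq_zero] at this
    · have := h _ (Or.inr (Or.inr (Or.inl ⟨i, x, y, rfl⟩)))
      simpa only [map_sub, map_pt, h1, sub_eq_zero] using this
    · have := h _ (Or.inr (Or.inr (Or.inr ⟨j, x, hx, rfl⟩)))
      simpa only [map_sub, map_sum, map_hk, map_pt, h1, sub_eq_zero] using this

/-! ### the size of the rows -/

/-- `z` is a sum of at most `n` matrices of size at most `m` -/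
def Nm (z : MonoidAlgebra ℤ GQ) (n m : ℕ) : Prop :=
  ∀ (F : GQ → ℤ) (b : ℕ), (∀ δ, Sz δ m → |F δ| ≤ b) → |lin ℤ F z| ≤ n * b

lemma Nm.mono {z : MonoidAlgebra ℤ GQ} {n n' m : ℕ} (h : Nm z n m) (h' : n ≤ n') : Nm z n' m :=
  fun F b hb => (h F b hb).trans (by gcongr)

lemma nm_zero (n m : ℕ) : Nm 0 n m := fun F b _ => by rw [map_zero, abs_zero]; positivity

lemma nm_e {δ : GQ} {m : ℕ} (h : Sz δ m) : Nm (e ℤ δ) 1 m := fun F b hb => by
  simpa using hb δ h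

lemma Nm.add {z w : MonoidAlgebra ℤ GQ} {n n' m : ℕ} (h : Nm z n m) (h' : Nm w n' m) :
    Nm (z + w) (n + n') m := fun F b hb => by
  rw [map_add]; push_cast
  linarith [abs_add_le (lin ℤ F z) (lin ℤ F w), h F b hb, h' F b hb]

lemma Nm.smul {z : MonoidAlgebra ℤ GQ} {n m : ℕ} (h : Nm z n m) (k : ℤ) :
    Nm (k • z) (k.natAbs * n) m := fun F b hb => by
  rw [_root_.map_smul, smul_eq_mul, abs_mul]; push_cast
  rw [mul_assoc]
  exact mul_le_mul_of_nonneg_left (h F b hb) (abs_nonneg _)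

lemma nm_sum {κ : Type*} (s : Finset κ) {α : κ → GQ} {m : ℕ} (h : ∀ k ∈ s, Sz (α k) m) :
    Nm (∑ k ∈ s, e ℤ (α k)) s.card m := fun F b hb => by
  rw [lin_sum_e]
  refine (Finset.abs_sum_le_sum_abs _ _).trans ?_
  simpa using Finset.sum_le_card_nsmul s _ _ fun k hk => hb _ (h k hk)

lemma abs_un (i : ι) (g : SL(2, ℤ)) (a : ι × RC Γ) : |un Γ i g a| ≤ 1 := by
  classical
  rw [un, Pi.single_apply]; split_ifs <;> simp

lemma abs_pt {r : SL(2, ℤ) → ℤ} (h : ∀ g, |r g| ≤ 1) (x : Cu) : |pt r x| ≤ ht x := by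
  induction x using cu_ind with
  | h0 => simp
  | h1 q ih =>
    have h1 : (ht (cz (nx q)) : ℤ) < ht (q : Cu) := by exact_mod_cast ht_nx q
    rw [pt_coe]
    linarith [abs_sub (pt r (cz (nx q))) (r (nx q)), h (nx q)]

theorem rows_bound [Γ.FiniteIndex] {n m : ℕ} (hc : ∀ j i, Nm (c j i) n m) {v : ι × RC Γ → ℤ}
    (hv : v ∈ Rows Γ c) (a : ι × RC Γ) :
    |v a| ≤ (3 + 4 * Fintype.card ι * n * m) * 2 ^ Nat.card (RC Γ) := by
  set E : ℕ := 2 ^ Nat.card (RC Γ) with hE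
  have hE1 : (1 : ℤ) ≤ E := by exact_mod_cast Nat.one_le_two_pow
  have hE2 : (2 : ℤ) ^ Nat.card (RC Γ) = E := by rw [hE]; push_cast; rfl
  have h0 : (0 : ℤ) ≤ 4 * Fintype.card ι * n * m * E := by positivity
  have hp : ∀ i x, |pt (un Γ i) x a| ≤ Ht x := fun i x => by
    have := map_pt (Pi.evalAddMonoidHom (fun _ => ℤ) a) (un Γ i) x
    rw [Pi.evalAddMonoidHom_apply] at this
    rw [this]
    exact (abs_pt (fun g => abs_un i g a) x).trans (by exact_mod_cast ht_le_Ht x)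
  have hh : ∀ j x, Ht x ≤ E → |(∑ i, hk (pt (un Γ i)) (c j i) x) a| ≤
      Fintype.card ι * (n * (2 * m * E : ℕ)) := fun j x hx => by
    rw [Finset.sum_apply]
    refine (Finset.abs_sum_le_sum_abs _ _).trans ?_
    rw [← nsmul_eq_mul, ← Finset.card_univ]
    refine Finset.sum_le_card_nsmul _ _ _ fun i _ => ?_
    have := map_hk (Pi.evalAddMonoidHom (fun _ => ℤ) a) (pt (un Γ i)) (c j i) x
    rw [Pi.evalAddMonoidHom_apply] at this
    rw [this]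
    refine hc j i _ _ fun δ hδ => (hp i _).trans ?_
    exact_mod_cast (hδ.Ht_le x).trans (Nat.mul_le_mul_left _ hx)
  rw [hE2, add_mul]
  rcases hv with ⟨i, g, rfl⟩ | ⟨i, g, rfl⟩ | ⟨i, x, y, rfl⟩ | ⟨j, x, hx, rfl⟩
  · linarith [abs_add_le (un Γ i (g * S) a) (un Γ i g a), abs_un i (g * S) a, abs_un i g a,
      show |(un Γ i (g * S) + un Γ i g) a| = |un Γ i (g * S) a + un Γ i g a| from rfl]
  · linarith [abs_sub (un Γ i g a) (un Γ i (g * T) a + un Γ i (g * Lm) a), abs_un i g a,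
      abs_add_le (un Γ i (g * T) a) (un Γ i (g * Lm) a), abs_un i (g * T) a, abs_un i (g * Lm) a,
      show |(un Γ i g - (un Γ i (g * T) + un Γ i (g * Lm))) a| =
        |un Γ i g a - (un Γ i (g * T) a + un Γ i (g * Lm) a)| from rfl]
  · have h1 : (Ht (kp Γ x) : ℤ) ≤ E := by exact_mod_cast Ht_kp_le x
    have h2 : (Ht (kp Γ y) : ℤ) ≤ E := by exact_mod_cast Ht_kp_le y
    rw [Pi.sub_apply]
    linarith [abs_sub (pt (un Γ i) (kp Γ x) a) (pt (un Γ i) (kp Γ y) a), hp i (kp Γ x),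
      hp i (kp Γ y)]
  · have h1 := hh j x hx
    have h2 := hh j _ (Ht_kp_le x)
    push_cast at h1 h2
    rw [Pi.sub_apply]
    refine (abs_sub _ _).trans ?_
    linarith

/-! ### cusp forms -/

/-- the solutions in cusp forms -/
def Sp (Γ : Subgroup SL(2, ℤ)) (c : J → ι → MonoidAlgebra ℤ GQ) (h : ι → ℍ → ℂ) : Prop :=
  (∀ i, h i ∈ CS Γ 2) ∧ ∀ j, ∑ i, sl (c j i) (h i) = 0

/-- surjectivity of the Eichler-Shimura map -/
def ES (Γ : Subgroup SL(2, ℤ)) : Prop :=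
  ∀ φ : SL(2, ℤ) → ℂ, (∀ γ ∈ Γ, ∀ γ' ∈ Γ, φ (γ * γ') = φ γ + φ γ') →
    ∃ f ∈ MS Γ 2, ∃ g ∈ CS Γ 2, ∀ γ ∈ Γ, φ γ = per f γ + conj (per g γ)

lemma hk_sub (Φ Ψ : Cu → A) (z : MonoidAlgebra ℤ GQ) (x : Cu) :
    hk (fun y => Φ y - Ψ y) z x = hk Φ z x - hk Ψ z x := lin_sub _ _ z

variable [Γ.FiniteIndex]

theorem Sp.sol (hc : ∀ j i, c j i ∈ Corr ℤ (Γ.map Mf.sq) (Γ.map Mf.sq)) {h : ι → ℍ → ℂ}
    (hh : Sp Γ c h) : Sol Γ c fun a => rn Γ (h a.1) a.2 := by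
  have e : ∀ i, (fun g => rn Γ (h i) (cs Γ g)) = sy (nm Γ (pot (h i))) := fun i =>
    funext (rn_cs (hh.1 i))
  refine ⟨fun i => e i ▸ man_sy _, fun i x y => ?_, fun j x _ => ?_⟩
  · simp only [e, pt_sy, nm, kp_kp, sub_self]
  · have e2 : ∀ i, pt (fun g => rn Γ (h i) (cs Γ g)) =
        fun y => pot (h i) y - (pot (h i) (kp Γ y) + nm Γ (pot (h i)) ∞) := fun i =>
      funext fun y => by rw [e, pt_sy, nm, sub_sub]
    have h1 : ∀ i, Inv Γ fun y => pot (h i) (kp Γ y) + nm Γ (pot (h i)) ∞ := fun i γ hγ y => by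
      simp only [kp_cu hγ]
    have h2 := PP.sum Finset.univ fun i => (pp_pot (hh.1 i)).hk (c j i)
    rw [hh.2 j] at h2
    obtain ⟨b, hb⟩ := h2.unique pp_zero
    simp only [Finset.sum_apply, Pi.zero_apply] at hb
    simp only [e2, hk_sub, Finset.sum_sub_distrib, hb, ((h1 _).hk (hc j _)).kp]

theorem Sol.exists_sp (hES : ES Γ) (hc : ∀ j i, c j i ∈ Corr ℤ (Γ.map Mf.sq) (Γ.map Mf.sq))
    {u : ι × RC Γ → ℝ} (hu : Sol Γ c u) : ∃ h, Sp Γ c h ∧ ∀ a, u a = (rn Γ (h a.1) a.2).re := by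
  obtain ⟨M, hM⟩ := exists_wid Γ
  let Φ : ι → Cu → ℝ := fun i => pt fun g => u (i, cs Γ g)
  have h1 : ∀ i g, sy (Φ i) g = u (i, cs Γ g) := fun i g => (hu.man i).sy_pt g
  have h2 : ∀ i, ∀ γ ∈ Γ, ∀ x, Φ i (cu γ x) = Φ i (cu γ ∞) - Φ i ∞ + Φ i x := fun i γ hγ =>
    cu_of_inv fun g => by rw [h1, h1, cs_mul hγ]
  have h3 : ∀ i, ∃ h ∈ CS Γ 2, Inv Γ fun x => Φ i x - (pot h x).re := fun i => by
    obtain ⟨f, hf, g, hg, e⟩ := hES (fun γ => (Φ i (cu γ ∞) - Φ i ∞ : ℝ)) fun γ hγ γ' _ => by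
      rw [cu_mul, h2 i γ hγ]; push_cast; ring
    have hf' : f ∈ CS Γ 2 := (mem_CS_iff hM hf).2 fun s => by
      have e1 := e _ (hM.2 s)
      have e2 := h2 i _ (hM.2 s) (cu s ∞)
      have e3 : ∀ k : ℕ, cu (s * T ^ k) ∞ = cu s ∞ := fun k => by
        induction k with
        | zero => rw [pow_zero, mul_one]
        | succ k ih => rw [pow_succ, ← mul_assoc, cu_mulT, ih]
      rw [← cu_mul, inv_mul_cancel_right, e3, right_eq_add] at e2
      rw [(mem_CS_iff hM (CS_le_MS hg)).1 hg s, map_zero, add_zero] at e1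
      rw [← e1, e2, ofReal_zero]
    refine ⟨f + g, add_mem hf' hg, fun γ hγ x => ?_⟩
    have e1 := congrArg Complex.re (e γ hγ)
    rw [ofReal_re, add_re, conj_re] at e1
    simp only [pot_cu (add_mem hf' hg) hγ, h2 i γ hγ x, per_add hf.1 hg.1, add_re]
    linarith
  choose h hh hi using h3
  refine ⟨h, ⟨hh, fun j => ?_⟩, fun ⟨i, a⟩ => ?_⟩
  · have h4 : Inv Γ fun x => ∑ i, hk (Φ i) (c j i) x :=
      (Coc.sum _ fun i => Coc.hk (fun γ hγ => ⟨_, h2 i γ hγ⟩) (hc j i)).inv (hu.hke j)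
    have h5 := PP.sum Finset.univ fun i => (pp_pot (hh i)).hk (c j i)
    have h6 : ∑ i, sl (c j i) (h i) ∈ CS Γ 2 := sum_mem fun i _ => sl_mem (hh i) (hc j i)
    refine re_per_inj h6 fun γ hγ => ?_
    have h7 := congrArg Complex.re (h5.cu_eq (h6.2.1 γ hγ) ∞)
    have h8 : ∀ i x, (hk (pot (h i)) (c j i) x).re =
        hk (Φ i) (c j i) x - hk (fun x => Φ i x - (pot (h i) x).re) (c j i) x := fun i x => by
      rw [hk_sub, sub_sub_cancel]; exact map_hk Complex.reLm.toAddMonoidHom _ _ _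
    have h9 := h4 γ hγ ∞
    simp only [add_re, Finset.sum_apply, re_sum, h8, Finset.sum_sub_distrib,
      (hi _).hk (hc j _) γ hγ] at h7 h9
    linarith
  · have e1 := (hi i).kp (cz a.out)
    have e2 := (hi i).kp (cu a.out ∞)
    have e3 : Φ i _ = Φ i _ := hu.nrm i (cz a.out) (cu a.out ∞)
    have e4 := h1 i a.out
    rw [cs_out] at e4
    simp only [← e4, rn, sy, nm, sub_re] at e1 e2 ⊢
    linarith

/-- **the rows cut out the symbols** -/
theorem rows_dim [Fintype (RC Γ)] [DecidableEq (ι × RC Γ)] (hES : ES Γ)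
    (hc : ∀ j i, c j i ∈ Corr ℤ (Γ.map Mf.sq) (Γ.map Mf.sq)) {κ : Type*} [Fintype κ]
    (G : κ → ι → ℍ → ℂ) (hG : ∀ k i, G k i ∈ CS Γ 2)
    (hs : ∀ h, Sp Γ c h → ∃ x : κ → ℂ, ∀ i, h i = ∑ k, x k • G k i) :
    Module.finrank ℝ (Hab.Ker (Rows Γ c)) ≤ 2 * Fintype.card κ := by
  let w : κ ⊕ κ → ι × RC Γ → ℝ := Sum.elim (fun k a => (rn Γ (G k a.1) a.2).re)
    fun k a => (rn Γ (G k a.1) a.2).im
  have h1 : Hab.Ker (Rows Γ c) ≤ Submodule.span ℝ (Set.range w) := fun u hu => by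
    obtain ⟨h, hh, e⟩ := ((sol_iff u).2 fun v hv => by
      simpa only [zsmul_eq_mul] using hu v hv).exists_sp hES hc
    obtain ⟨x, hx⟩ := hs h hh
    refine (Submodule.mem_span_range_iff_exists_fun ℝ).2
      ⟨Sum.elim (fun k => (x k).re) fun k => -(x k).im, funext fun a => ?_⟩
    rw [e, hx, rn_sum _ _ fun k => hG k _]
    simp [w, Fintype.sum_sum_type, sub_eq_add_neg, Finset.sum_add_distrib]
  refine (Submodule.finrank_mono h1).trans ((finrank_range_le_card w).trans ?_)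
  simp [two_mul]

theorem rows_ker [Fintype (RC Γ)] (hc : ∀ j i, c j i ∈ Corr ℤ (Γ.map Mf.sq) (Γ.map Mf.sq))
    {h : ι → ℍ → ℂ} (hh : Sp Γ c h) {v : ι × RC Γ → ℤ} (hv : v ∈ Rows Γ c) :
    ∑ a, (v a : ℂ) * rn Γ (h a.1) a.2 = 0 := by
  simpa only [zsmul_eq_mul] using (sol_iff _).1 (hh.sol hc) v hv

end Crest.Agent.T15.Ms
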