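import Crest.Agent.T15.MsD_40
import Crest.Agent.T15.HabD_58
import Crest.Agent.T15.UndB_98

/-!
# Row 15, block Ht (helper40): the Sturm bound and Haberland's inequality for normalised symbols
-/

set_option autoImplicit false
set_option linter.unusedSectionVars false

noncomputable section

namespace Crest.Agent.T15.Ms

open UpperHalfPlane hiding I
open MatrixGroups ModularGroup OnePoint Matrix.SpecialLinearGroup ModularForm Filter Complex
open scoped Topology Manifold ComplexConjugate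
open Crest.Agent.T15.Mf Crest.Agent.T15.Hk Crest.Agent.T15.Esc Crest.Agent.T15.Und

local notation "𝕢" => Function.Periodic.qParam

variable {Γ : Subgroup SL(2, ℤ)} {f : ℍ → ℂ} {c : ℕ → ℂ}

lemma qs_iff : QS c f ↔ ∀ τ : ℍ, HasSum (fun n => c n * 𝕢 1 τ ^ n) (f τ) := by
  refine forall_congr' fun τ => iff_of_eq ?_
  congr 1
  funext n
  rw [Function.Periodic.qParam, ← Complex.exp_nat_mul]
  congr 2
  push_cast
  ring

lemma periodic_T (h : f ∣[(2 : ℤ)] T = f) : Function.Periodic (f ∘ ofComplex) (1 : ℝ) :=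
  periodic_of_vadd fun z => by
    have := slash_T_pow (k := 2) f 1 z
    rw [pow_one, h, Nat.cast_one] at this
    exact this.symm

lemma qs_coeff (hT : T ∈ Γ) (hf : f ∈ CS Γ 2) : QS (fun n => (qExpansion 1 f).coeff n) f :=
  qs_iff.2 (hasSum_qExpansion one_pos (periodic_T (hf.2.1 _ hT)) hf.1
    (by simpa using (hf.2.2 1).isBoundedAtImInfty))

lemma coeff_zero (hT : T ∈ Γ) (hf : f ∈ CS Γ 2) (hc : QS c f) : c 0 = 0 := by
  have h0 : IsZeroAtImInfty f := by simpa using hf.2.2 1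
  have hp := periodic_T (hf.2.1 _ hT)
  rw [hc.coeff_eq (qs_coeff hT hf)]
  exact (qExpansion_coeff_zero one_pos (analyticAt_cuspFunction_zero one_pos hp hf.1
    h0.isBoundedAtImInfty) hp).trans h0.valueAtInfty_eq_zero

lemma slash_cs {k : ℤ} (hf : ∀ γ ∈ Γ, f ∣[k] γ = f) (g : SL(2, ℤ)) :
    f ∣[k] (cs Γ g).out = f ∣[k] g := by
  conv_rhs => rw [← inv_mul_cancel_right g (cs Γ g).out, SlashAction.slash_mul,
    hf _ (mul_out_mem Γ g)]

/-- **Sturm bound** -/
theorem sturm [Γ.FiniteIndex] (hf : f ∈ MS Γ 2) (hc : QS c f)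
    (h0 : ∀ n ≤ Nat.card (RC Γ), c n = 0) : f = 0 := by
  classical
  have := Fintype.ofFinite (RC Γ)
  rw [Nat.card_eq_fintype_card] at h0
  set n := Fintype.card (RC Γ) with hn
  have hG : ∀ γ : SL(2, ℤ), (∏ A : RC Γ, f ∣[(2 : ℤ)] A.out) ∣[(2 * n : ℤ)] γ =
      ∏ A : RC Γ, f ∣[(2 : ℤ)] A.out := fun γ => by
    have h1 := prod_slash (k := 2) (g := (γ : GL (Fin 2) ℝ)) (s := Finset.univ)
      (f := fun A : RC Γ => f ∣[(2 : ℤ)] A.out)
    rw [Matrix.GeneralLinearGroup.val_det_apply, det_SL, abs_one, one_zpow, one_smul] at h1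
    rw [SL_slash, hn, ← Finset.card_univ, h1,
      ← Equiv.prod_comp (rm γ) fun A : RC Γ => f ∣[(2 : ℤ)] A.out]
    refine Finset.prod_congr rfl fun A _ => ?_
    rw [← SL_slash, ← SlashAction.slash_mul]
    exact (slash_cs hf.2.1 _).symm
  have hb : ∀ s : Finset (RC Γ), IsBoundedAtImInfty (∏ A ∈ s, f ∣[(2 : ℤ)] A.out) := fun s =>
    (boundedAtImInftySubalgebra ℂ).prod_mem fun A _ => hf.2.2 _
  have hd : ∀ s : Finset (RC Γ), MDiff (∏ A ∈ s, f ∣[(2 : ℤ)] A.out) := fun s =>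
    Hol.prod_mem fun A _ => mdiff_slash hf.1 _
  let G : ModularForm 𝒮ℒ (2 * n : ℤ) :=
    { toFun := ∏ A : RC Γ, f ∣[(2 : ℤ)] A.out
      slash_action_eq' := by rintro _ ⟨γ, rfl⟩; exact hG γ
      holo' := hd _
      bdd_at_cusps' := fun {c} hc => by
        rw [OnePoint.isBoundedAt_iff_forall_SL2Z hc]
        intro γ _
        rw [hG]; exact hb _ }
  have hq : ∀ τ : ℍ, 𝕢 1 τ ^ (n + 1) ≠ 0 := fun τ =>
    pow_ne_zero _ (Function.Periodic.qParam_ne_zero _)
  have h1 : IsBoundedAtImInfty fun τ => f τ / 𝕢 1 τ ^ (n + 1) :=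
    isBoundedAtImInfty_of_hasSum_qExpansion (c := fun j => c (j + (n + 1))) one_pos fun τ => by
      have := (hasSum_nat_add_iff' (n + 1)).2 (qs_iff.1 hc τ)
      rw [Finset.sum_eq_zero fun j hj => by
        rw [h0 j (Nat.lt_succ_iff.1 (Finset.mem_range.1 hj)), zero_mul], sub_zero] at this
      refine (this.div_const _).congr_fun fun j => ?_
      rw [pow_add _ j, ← mul_assoc, mul_div_cancel_right₀ _ (hq τ), smul_eq_mul]
  have h2 : IsBoundedAtImInfty fun τ => G τ / 𝕢 1 τ ^ (n + 1) := by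
    have h3 := h1.mul (hb (Finset.univ.erase (cs Γ 1)))
    refine (funext fun τ => ?_ : _ = fun τ => G τ / 𝕢 1 τ ^ (n + 1)) ▸ h3
    change _ = (∏ A : RC Γ, f ∣[(2 : ℤ)] A.out) τ / _
    rw [← Finset.mul_prod_erase _ _ (Finset.mem_univ (cs Γ 1)), slash_cs hf.2.1,
      SlashAction.slash_one, Pi.mul_apply, Pi.mul_apply]
    ring
  have h3 : MDiff fun τ => G τ / 𝕢 1 τ ^ (n + 1) := by
    have : MDiff fun τ : ℍ => 𝕢 1 τ := fun τ =>
      (Function.Periodic.differentiable_qParam (τ : ℂ)).mdifferentiableAt.comp τ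
        (mdifferentiable_coe τ)
    exact G.holo'.div (this.pow _) hq
  have h4 : Function.Periodic ((fun τ => G τ / 𝕢 1 τ ^ (n + 1)) ∘ ofComplex) (1 : ℝ) :=
    periodic_of_vadd fun z => by
      have := slash_T_pow (k := 2 * n) G 1 z
      rw [show (G : ℍ → ℂ) ∣[(2 * n : ℤ)] (T ^ 1) = G from hG _, Nat.cast_one] at this
      simp only [qParam_vadd one_pos, ← this]
  have h5 := ModularFormClass.qExpansion_coeff_unique (f := G) one_pos (by simp)
    (c := fun j => if j < n + 1 then 0 else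
      (qExpansion 1 fun τ => G τ / 𝕢 1 τ ^ (n + 1)).coeff (j - (n + 1))) fun τ => by
    refine (hasSum_nat_add_iff' (n + 1)).1 ?_
    rw [Finset.sum_eq_zero fun j hj => by rw [if_pos (Finset.mem_range.1 hj), zero_smul], sub_zero]
    have := (hasSum_qExpansion one_pos h4 h3 h2 τ).mul_right (𝕢 1 τ ^ (n + 1))
    rw [div_mul_cancel₀ _ (hq τ)] at this
    refine this.congr_fun fun j => ?_
    rw [if_neg (by omega), Nat.add_sub_cancel, pow_add _ j, smul_mul_assoc]
  have h6 : G = 0 := sturm_bound_levelOne (lt_of_lt_of_le (b := ((n + 1 : ℕ) : ℕ∞))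
    (by exact_mod_cast (by omega : (2 * n : ℤ).toNat / 12 < n + 1))
    (PowerSeries.nat_le_order _ _ fun j hj => by rw [← h5, if_pos hj]))
  obtain ⟨A, -, hA⟩ := (prod_eq_zero_iff fun A _ => mdiff_slash hf.1 _).1
    (show ∏ A : RC Γ, f ∣[(2 : ℤ)] A.out = 0 from congrArg (fun u : ModularForm 𝒮ℒ _ => (u : ℍ → ℂ)) h6)
  exact (SlashAction.slash_eq_zero_iff _ _ _).1 hA

/-- **Haberland's inequality for the normalised symbols** -/
theorem hab_pos [Γ.FiniteIndex] [Fintype (RC Γ)] (hn : -1 ∈ Γ) (hT : T ∈ Γ) (hf : f ∈ CS Γ 2)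
    (hc : QS c f) :
    Hab.c0 * ‖c 1‖ ^ 2 ≤ -∑ A, (conj (rn Γ f A) * rn Γ f (Hab.VV Γ A)).im := by
  have e : ∀ A, Hab.VV Γ A = rm T (rm S A) := fun A => by
    rw [← cs_out A, Hab.VV_cs, rm_cs, rm_cs]
  have h := Hab.hab_CS hn hT hf (tendsto_pot_SL hf) (rs_cs hf)
  simp only [e] at h ⊢
  rwa [hab_rn hn hf, hc.coeff_eq (qs_coeff hT hf)]

end Crest.Agent.T15.Ms
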