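import Crest.Agent.T15.MsE_40
import Crest.Agent.T15.LvT_10
import Crest.Agent.R007.OpQ

/-!
# Row 15, block Ht (helper40): the rows for `Γ₀(L)`
-/

set_option autoImplicit false
set_option linter.unusedSectionVars false

noncomputable section

namespace Crest.Agent.T15.Ms

open UpperHalfPlane hiding I
open MatrixGroups ModularGroup OnePoint Matrix.SpecialLinearGroup ModularForm Filter Complex
open CongruenceSubgroup
open scoped Topology Manifold ComplexConjugate
open Crest.Agent.T15.Mf Crest.Agent.T15.Hk Crest.Agent.T15.Esc Crest.Agent.T15.Und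
open Crest.Agent.T15.Lv (gm up dg U Tp Gq GH)
open Crest.NumberTheoryR.HeckeTwoAdic

variable {L : ℕ} {f : ℍ → ℂ} {c : ℕ → ℂ}

lemma card_le [NeZero L] : Nat.card (RC (Gamma0 L)) ≤ L ^ 2 := by
  have h := Nat.card_le_card_of_injective (fun A : RC (Gamma0 L) =>
    (((A.out 1 0 : ℤ) : ZMod L), ((A.out 1 1 : ℤ) : ZMod L))) fun A B e => by
    rw [← cs_out A, ← cs_out B, cs_eq, Gamma0_mem, Lv.mul_apply, (Lv.inv_apply _).1,
      (Lv.inv_apply _).2.2.1]
    push_cast
    rw [show ((A.out 1 0 : ℤ) : ZMod L) = _ from congrArg Prod.fst e,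
      show ((A.out 1 1 : ℤ) : ZMod L) = _ from congrArg Prod.snd e]
    ring
  rwa [Nat.card_prod, Nat.card_zmod, ← pow_two] at h

/-- the Hecke element with small entries -/
def tp (L p : ℕ) : MonoidAlgebra ℤ GQ := U ℤ p + if p ∣ L then 0 else e ℤ (dg p)

lemma tp_corr {p : ℕ} (hp : p.Prime) :
    tp L p ∈ Corr ℤ ((Gamma0 L).map Mf.sq) ((Gamma0 L).map Mf.sq) := by
  rw [← Lv.GH_top]
  refine corr_congr (cen_corr₁ (Lv.cen_of le_rfl (Lv.Tp_cen hp))) ?_
  rw [tp, Tp, add_sub_add_left_eq_sub]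
  split_ifs
  · simp
  · exact e_sub_mem (by rw [mul_inv_rev, mul_inv_cancel_left]; exact inv_mem (Lv.sg_mem L p))

lemma sz_gm {a b c d : ℤ} (h : 0 < a * d - b * c) {m : ℕ} (hm : 1 ≤ m) (ha : a.natAbs ≤ m)
    (hb : b.natAbs ≤ m) (hc : c.natAbs ≤ m) (hd : d.natAbs ≤ m) : Sz (gm a b c d) m :=
  ⟨hm, ![![a, b], ![c, d]], fun i j => by
    rw [Lv.gm_val h]; fin_cases i <;> fin_cases j <;> rfl, fun i j => by
    fin_cases i <;> fin_cases j <;> assumption⟩

lemma sz_one {m : ℕ} (hm : 1 ≤ m) : Sz 1 m :=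
  ⟨hm, ![![1, 0], ![0, 1]], fun i j => by fin_cases i <;> fin_cases j <;> simp, fun i j => by
    fin_cases i <;> fin_cases j <;> simp [hm]⟩

lemma nm_tp {p m : ℕ} (hp : 0 < p) (hm : p ≤ m) : Nm (tp L p) (m + 1) m := by
  have h1 : Nm (U ℤ p) _ m := nm_sum (Finset.range p) fun i hi => by
    have := Finset.mem_range.1 hi
    exact sz_gm (by simpa using hp) (by omega) (by omega) (by omega) (by omega) (by omega)
  refine (h1.add (n' := 1) ?_).mono (by simpa using hm)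
  split_ifs
  · exact nm_zero _ _
  · exact nm_e (sz_gm (by simpa using hp) (by omega) (by omega) (by omega) (by omega) (by omega))

lemma qs_tp (h : QS c f) {p : ℕ} (hp : p ≠ 0) :
    QS (fun n => c (p * n) + if p ∣ L then 0 else if p ∣ n then p * c (n / p) else 0)
      (sl (tp L p) f) := by
  have hp' : 0 < p := Nat.pos_of_ne_zero hp
  have e1 : ∀ j, rr (up p j) = upperMat p j hp := fun j => by
    ext a b
    rw [rr_apply, up, Lv.gm_val (by simpa using hp')]
    fin_cases a <;> fin_cases b <;> simp [upperMat, mat2]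
  have e2 : rr (dg p) = lowerMat p hp := by
    ext a b
    rw [rr_apply, dg, Lv.gm_val (by simpa using hp')]
    fin_cases a <;> fin_cases b <;> simp [lowerMat, mat2]
  have h1 : QS (fun n => c (p * n)) (sl (U ℤ p) f) := qs_iff.2 fun τ => by
    rw [sl, U, lin_sum_e]
    simp only [e1]
    exact R007.Op.hasSum_upper 2 (qs_iff.1 h) hp τ
  rw [tp]
  split_ifs
  · simpa using h1
  · rw [sl_add, sl_e, e2]
    exact h1.add (qs_iff.2 fun τ => by simpa using R007.Op.hasSum_lower 2 (qs_iff.1 h) hp τ)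

lemma qs_zero : QS 0 0 := fun z => by simp [hasSum_zero]

lemma qs_sum {κ : Type*} (s : Finset κ) {c : κ → ℕ → ℂ} {f : κ → ℍ → ℂ} (h : ∀ k, QS (c k) (f k))
    (x : κ → ℂ) : QS (fun n => ∑ k ∈ s, x k * c k n) (∑ k ∈ s, x k • f k) := fun z => by
  have := hasSum_sum (s := s) fun k _ => (h k z).mul_left (x k)
  simpa only [Finset.sum_apply, Pi.smul_apply, smul_eq_mul, Finset.sum_mul, mul_assoc] using this

variable {ι : Type*} [Fintype ι] [DecidableEq ι]

/-- the relations `T_l h_i = ∑ j, b l i j h_j` for the primes below the Sturm bound -/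
def rel (L : ℕ) (b : ℕ → ι → ι → ℤ)
    (j : {l : ℕ // l.Prime ∧ l ≤ Nat.card (RC (Gamma0 L))} × ι) (i : ι) : MonoidAlgebra ℤ GQ :=
  (if i = j.2 then tp L j.1 else 0) + (-b j.1 j.2 i) • e ℤ 1

/-- the recursion on the coefficients -/
def Rec (L : ℕ) (b : ℕ → ι → ι → ℤ) (a : ι → ℕ → ℂ) (l : ℕ) : Prop :=
  ∀ i n, (a i (l * n) + if l ∣ L then 0 else if l ∣ n then l * a i (n / l) else 0) =
    ∑ j, b l i j * a j n

lemma rel_corr (b : ℕ → ι → ι → ℤ) (j) (i : ι) :
    rel L b j i ∈ Corr ℤ ((Gamma0 L).map Mf.sq) ((Gamma0 L).map Mf.sq) := by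
  refine add_mem ?_ (Submodule.smul_mem _ _ (one_mem_corr le_rfl))
  split_ifs
  exacts [tp_corr j.1.2.1, zero_mem _]

lemma sp_iff {b : ℕ → ι → ι → ℤ} {h : ι → ℍ → ℂ} {a : ι → ℕ → ℂ} (ha : ∀ i, QS (a i) (h i)) :
    (∀ j, ∑ i, sl (rel L b j i) (h i) = 0) ↔
      ∀ l : ℕ, l.Prime → l ≤ Nat.card (RC (Gamma0 L)) → Rec L b a l := by
  have e : ∀ j, ∑ i, sl (rel L b j i) (h i) =
      sl (tp L j.1) (h j.2) - ∑ i, (b j.1 j.2 i : ℂ) • h i := fun j => by
    simp only [rel, sl_add, sl_zsmul, e_one, sl_one, Finset.sum_add_distrib, sub_eq_add_neg]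
    congr 1
    · rw [Finset.sum_eq_single j.2] <;> simp +contextual [sl_zero]
    · simp
  simp only [e, sub_eq_zero]
  refine ⟨fun H l hl hn i n => ?_, fun H j => ?_⟩
  · exact congrFun ((qs_tp (L := L) (ha i) hl.ne_zero).coeff_eq
      (H (⟨l, hl, hn⟩, i) ▸ qs_sum _ ha _)) n
  · refine (qs_tp (ha j.2) j.1.2.1.ne_zero).unique ?_
    simp only [H _ j.1.2.1 j.1.2.2 j.2 _]
    exact qs_sum _ ha _

theorem rows_gen [NeZero L] [Fintype (RC (Gamma0 L))] [DecidableEq (ι × RC (Gamma0 L))]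
    (hES : ES (Gamma0 L)) (b : ℕ → ι → ι → ℤ) (G : ι → ι → ℍ → ℂ) (a : ι → ι → ℕ → ℂ)
    (hG : ∀ k i, G k i ∈ CS (Gamma0 L) 2) (ha : ∀ k i, QS (a k i) (G k i))
    (h1 : ∀ k i, a k i 1 = if k = i then 1 else 0)
    (hr : ∀ k, ∀ l : ℕ, l.Prime → Rec L b (a k) l) :
    (∀ v ∈ Rows (Gamma0 L) (rel L b), ∀ k, ∑ A, (v A : ℂ) * rn (Gamma0 L) (G k A.1) A.2 = 0) ∧
    Module.finrank ℝ (Hab.Ker (Rows (Gamma0 L) (rel L b))) ≤ 2 * Fintype.card ι := by
  have hT : T ∈ Gamma0 L := Lv.GH_top ▸ Lv.T_mem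
  refine ⟨fun v hv k => rows_ker (rel_corr b) ⟨hG k, (sp_iff (ha k)).2 fun l hl _ => hr k l hl⟩ hv,
    rows_dim hES (rel_corr b) G hG fun h hh => ?_⟩
  have hq := fun i => qs_coeff hT (hh.1 i)
  set c : ι → ℕ → ℂ := fun i n => (qExpansion 1 (h i)).coeff n
  have hc := (sp_iff hq).1 hh.2
  refine ⟨fun k => c k 1, fun i => sub_eq_zero.1 ?_⟩
  have hm : ∀ i, h i - ∑ k, c k 1 • G k i ∈ CS (Gamma0 L) 2 := fun i =>
    sub_mem (hh.1 i) (sum_mem fun k _ => Submodule.smul_mem _ _ (hG k i))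
  have hd := fun i => (hq i).sub (qs_sum Finset.univ (fun k => ha k i) fun k => c k 1)
  refine sturm (CS_le_MS (hm i)) (hd i) fun n hn => ?_
  induction n using Nat.strong_induction_on generalizing i with
  | _ n ih =>
    rcases Nat.lt_or_ge n 2 with h2 | h2
    · interval_cases n
      · exact coeff_zero hT (hm i) (hd i)
      · simp [h1, c]
    obtain ⟨l, hl, m, rfl⟩ := Nat.exists_prime_and_dvd (n := n) (by omega)
    have hm0 : 0 < m := Nat.pos_of_ne_zero (by rintro rfl; omega)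
    have hlm : m < l * m := by nlinarith [hl.two_le]
    have hz : ∀ j, ∀ k ≤ m, c j k = ∑ x, c x 1 * a x j k := fun j k hk =>
      sub_eq_zero.1 (ih k (by omega) j (by omega))
    have e1 : c i (l * m) = ∑ j, b l i j * c j m -
        if l ∣ L then 0 else if l ∣ m then l * c i (m / l) else 0 :=
      eq_sub_of_add_eq (hc l hl (le_trans (Nat.le_mul_of_pos_right l hm0) hn) i m)
    have e2 : ∀ x, a x i (l * m) = ∑ j, b l i j * a x j m -
        if l ∣ L then 0 else if l ∣ m then l * a x i (m / l) else 0 := fun x =>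
      eq_sub_of_add_eq (hr x l hl i m)
    rw [Pi.sub_apply, sub_eq_zero]
    change c i (l * m) = _
    simp only [e2, e1, hz _ m le_rfl, hz _ (m / l) (Nat.div_le_self _ _), mul_sub,
      Finset.sum_sub_distrib, Finset.mul_sum]
    congr 1
    · rw [Finset.sum_comm]
      exact Finset.sum_congr rfl fun _ _ => Finset.sum_congr rfl fun _ _ => by ring
    · split_ifs
      · simp
      · exact Finset.sum_congr rfl fun _ _ => by ring
      · simp

lemma rel_bound [NeZero L] {b : ℕ → ι → ι → ℤ} {β : ℕ}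
    (hb : ∀ l : ℕ, l.Prime → ∀ i j, (b l i j).natAbs ≤ β * (l + 1)) {v : ι × RC (Gamma0 L) → ℤ}
    (hv : v ∈ Rows (Gamma0 L) (rel L b)) (A : ι × RC (Gamma0 L)) :
    |(v A : ℝ)| ≤ (3 + 4 * Fintype.card ι * (1 + β)) * Real.exp (3 * (L : ℝ) ^ 2) := by
  set n := Nat.card (RC (Gamma0 L)) with hn
  have h1 := rows_bound (n := (1 + β) * (n + 1)) (m := n) (fun j i => by
    have h2 := j.1.2.1.pos
    have h3 := j.1.2.2
    refine (Nm.add (n := n + 1) ?_ ((nm_e (sz_one (by omega))).smul _)).mono ?_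
    · split_ifs
      exacts [nm_tp h2 h3, nm_zero _ _]
    · have := hb _ j.1.2.1 j.2 i
      rw [Int.natAbs_neg]
      nlinarith) hv A
  have h2 : (n : ℝ) + 1 ≤ Real.exp n := Real.add_one_le_exp _
  have h3 : (2 : ℝ) ^ n ≤ Real.exp n := by
    rw [← Real.exp_one_pow]
    exact pow_le_pow_left₀ zero_le_two (by linarith [Real.add_one_le_exp (1 : ℝ)]) n
  have h4 : Real.exp n * Real.exp n * Real.exp n ≤ Real.exp (3 * (L : ℝ) ^ 2) := by
    rw [← Real.exp_add, ← Real.exp_add]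
    have : (n : ℝ) ≤ (L : ℝ) ^ 2 := by exact_mod_cast card_le
    exact Real.exp_le_exp.2 (by linarith)
  have h5 : (1 : ℝ) ≤ Real.exp n := Real.one_le_exp (Nat.cast_nonneg n)
  have h6 : |(v A : ℝ)| ≤ (3 + 4 * Fintype.card ι * ((1 + β) * (n + 1)) * n) * 2 ^ n := by
    exact_mod_cast h1
  refine h6.trans (le_trans ?_ (mul_le_mul_of_nonneg_left h4 (by positivity)))
  rw [← mul_assoc _ _ (Real.exp n)]
  refine mul_le_mul ?_ h3 (by positivity) (by positivity)
  have h7 : ((n : ℝ) + 1) * n ≤ Real.exp n * Real.exp n :=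
    mul_le_mul h2 (by linarith) (by positivity) (by positivity)
  have h8 : (0 : ℝ) ≤ 4 * Fintype.card ι * (1 + β) := by positivity
  nlinarith [mul_le_mul_of_nonneg_left h7 h8, mul_le_mul h5 h5 zero_le_one (by positivity)]

/-- **the rows of the pair `g₁, g₃`** -/
theorem rows_pair [NeZero L] [Fintype (RC (Gamma0 L))] (hES : ES (Gamma0 L)) (h2 : 2 ∣ L)
    {g : ℕ → ℤ} {f : Fin 2 → ℍ → ℂ} (h1 : g 1 = 1) (hsup : ∀ n, ¬ n.Coprime L → g n = 0)
    (hrec : ∀ l : ℕ, l.Prime → ¬ l ∣ L → ∀ n : ℕ,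
      g (l * n) + (if l ∣ n then (l : ℤ) * g (n / l) else 0) =
        3 ^ ((if l % 4 = 3 then 1 else 0) * (if n % 4 = 3 then 1 else 0)) * g l * g n)
    (hcs : ∀ i, f i ∈ CS (Gamma0 L) 2)
    (q1 : QS (fun n => ((if n % 4 = 1 then g n else 0 : ℤ) : ℂ)) (f 0))
    (q3 : QS (fun n => ((if n % 4 = 3 then g n else 0 : ℤ) : ℂ)) (f 1)) :
    ∃ R : Set (Fin 2 × RC (Gamma0 L) → ℤ),
      (∀ row ∈ R, ∀ A, |(row A : ℝ)| ≤ 35 * Real.exp (3 * (L : ℝ) ^ 2)) ∧
      (∀ row ∈ R, ∀ j : Fin 2, ∑ A, (row A : ℂ) *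
        ![![rn (Gamma0 L) (f 0) A.2, 3 * rn (Gamma0 L) (f 1) A.2],
          ![rn (Gamma0 L) (f 1) A.2, rn (Gamma0 L) (f 0) A.2]] j A.1 = 0) ∧
      Module.finrank ℝ (Hab.Ker R) ≤ 4 := by
  classical
  let p1 : ℕ → ℤ := fun n => if n % 4 = 1 then g n else 0
  let p3 : ℕ → ℤ := fun n => if n % 4 = 3 then g n else 0
  have hev : ∀ n, n % 2 = 0 → g n = 0 := fun n hn => hsup n fun h =>
    absurd (Nat.eq_one_of_dvd_coprimes h (Nat.dvd_of_mod_eq_zero hn) h2) (by norm_num)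
  have key : ∀ l : ℕ, l.Prime → ¬ l ∣ L → ∀ n : ℕ,
      (p1 (l * n) + (if l ∣ n then (l : ℤ) * p1 (n / l) else 0) =
        g l * if l % 4 = 1 then p1 n else 3 * p3 n) ∧
      (p3 (l * n) + (if l ∣ n then (l : ℤ) * p3 (n / l) else 0) =
        g l * if l % 4 = 1 then p3 n else p1 n) := by
    intro l hl hL n
    have h := hrec l hl hL n
    have ho : l % 4 = 1 ∨ l % 4 = 3 := by
      rcases hl.eq_two_or_odd with rfl | h
      · exact absurd h2 hL
      · omega
    have e1 : l * n % 4 = l % 4 * (n % 4) % 4 := Nat.mul_mod _ _ _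
    have e2 : l ∣ n → n / l % 4 = l * n % 4 := by
      rintro ⟨m, rfl⟩
      rw [Nat.mul_div_cancel_left _ hl.pos, ← mul_assoc, Nat.mul_mod, Nat.mul_mod l l]
      rcases ho with h | h <;> simp [h]
    have hn : n % 4 = 0 ∨ n % 4 = 1 ∨ n % 4 = 2 ∨ n % 4 = 3 := by omega
    by_cases hd : l ∣ n
    · have e3 := e2 hd
      rcases ho with h0 | h0 <;> rcases hn with hn | hn | hn | hn <;>
        simp [p1, p3, hd, h0, hn, e1, e3] at h ⊢ <;> linarith
    · rcases ho with h0 | h0 <;> rcases hn with hn | hn | hn | hn <;>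
        simp [p1, p3, hd, h0, hn, e1] at h ⊢ <;> linarith
  have kz : ∀ l : ℕ, l.Prime → l ∣ L → ∀ n : ℕ, p1 (l * n) = 0 ∧ p3 (l * n) = 0 := fun l hl hL n => by
    have := hsup (l * n) fun h => hl.one_lt.ne'
      (Nat.eq_one_of_dvd_coprimes h (dvd_mul_right l n) hL)
    simp [p1, p3, this]
  let b : ℕ → Fin 2 → Fin 2 → ℤ := fun l => if l ∣ L then 0 else
    if l % 4 = 1 then ![![g l, 0], ![0, g l]] else ![![0, g l], ![3 * g l, 0]]
  have hs : ((√3 : ℝ) : ℂ) * (√3 : ℝ) = 3 := by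
    rw [← ofReal_mul, Real.mul_self_sqrt (by norm_num)]; simp
  have hg : ∀ l : ℕ, l.Prime → ¬ l ∣ L → (g l).natAbs ≤ l + 1 := fun l hl hL => by
    have hq := q1.add (q3.smul (√3 : ℝ))
    have h3 := eig_lt (add_mem (hcs 0) (Submodule.smul_mem _ _ (hcs 1))) (fun h0 => by
      rw [h0] at hq
      simpa [h1] using congrFun hq.eq_zero 1) hq hl.two_le
      (a := g l * if l % 4 = 1 then 1 else (√3 : ℝ)) fun n => by
        have a1 := congrArg (Int.cast : ℤ → ℂ) (key l hl hL n).1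
        have a2 := congrArg (Int.cast : ℤ → ℂ) (key l hl hL n).2
        simp only [Pi.add_apply, Pi.smul_apply, smul_eq_mul]
        change (p1 _ : ℂ) + _ * p3 _ + (if _ then _ * ((p1 _ : ℂ) + _ * p3 _) else _) =
          _ * ((p1 _ : ℂ) + _ * p3 _)
        split_ifs at a1 a2 ⊢ <;> push_cast at a1 a2 ⊢
        · linear_combination a1 + (√3 : ℝ) * a2
        · linear_combination a1 + (√3 : ℝ) * a2 - g l * p3 n * hs
        · linear_combination a1 + (√3 : ℝ) * a2
        · linear_combination a1 + (√3 : ℝ) * a2 - g l * p3 n * hs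
    have h4 : (1 : ℝ) ≤ ‖((if l % 4 = 1 then 1 else √3 : ℝ) : ℂ)‖ := by
      split_ifs
      · simp
      · rw [norm_real, Real.norm_of_nonneg (Real.sqrt_nonneg _)]
        exact Real.one_le_sqrt.2 (by norm_num)
    rw [norm_mul, norm_intCast, ← Int.cast_abs, Int.abs_eq_natAbs, Int.cast_natCast] at h3
    exact_mod_cast ((le_mul_of_one_le_right (Nat.cast_nonneg _) h4).trans h3.le :
      ((g l).natAbs : ℝ) ≤ l + 1)
  obtain ⟨k1, k2⟩ := rows_gen hES b ![![f 0, (3 : ℂ) • f 1], ![f 1, f 0]]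
    ![![fun n => p1 n, (3 : ℂ) • fun n => (p3 n : ℂ)], ![fun n => p3 n, fun n => p1 n]]
    (fun k i => by
      fin_cases k <;> fin_cases i
      exacts [hcs 0, Submodule.smul_mem _ _ (hcs 1), hcs 1, hcs 0])
    (fun k i => by
      fin_cases k <;> fin_cases i
      exacts [q1, q3.smul 3, q3, q1])
    (fun k i => by fin_cases k <;> fin_cases i <;> simp [p1, p3, h1])
    (fun k l hl i n => by
      by_cases hL : l ∣ L
      · fin_cases k <;> fin_cases i <;> simp [b, hL, kz l hl hL n]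
      · have a1 := congrArg (Int.cast : ℤ → ℂ) (key l hl hL n).1
        have a2 := congrArg (Int.cast : ℤ → ℂ) (key l hl hL n).2
        clear_value p1 p3
        by_cases h4 : l % 4 = 1 <;> by_cases hd : l ∣ n <;> fin_cases k <;> fin_cases i <;>
          simp [b, hL, h4, hd] at a1 a2 ⊢ <;>
          first | linear_combination a1 | linear_combination a2 | linear_combination 3 * a2)
  refine ⟨_, fun v hv A => (rel_bound (β := 3) (fun l hl i j => ?_) hv A).trans_eq (by norm_num),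
    fun v hv j => ?_, k2⟩
  · by_cases hL : l ∣ L
    · simp [b, hL]
    · have := hg l hl hL
      by_cases h4 : l % 4 = 1 <;> fin_cases i <;> fin_cases j <;>
        simp [b, hL, h4, Int.natAbs_mul] <;> omega
  · rw [← k1 v hv j]
    refine Finset.sum_congr rfl fun ⟨i, A⟩ _ => ?_
    fin_cases j <;> fin_cases i <;> simp [rn_smul _ (hcs 1)]

end Crest.Agent.T15.Ms
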