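import Crest.Agent.T15.MsG_40
import Crest.Agent.T15.EscD_44

/-!
# Row 15, block Ht (helper40): `EsS` from the dimension inequality
-/

set_option autoImplicit false

noncomputable section

namespace Crest.Agent.T15.Ms

open MatrixGroups CongruenceSubgroup Module
open Crest.Agent.T15.Esc

/-- the dimension inequality (helper99's `Esc.hdim`) -/
def HDim : Prop :=
  ∀ (Γ : Subgroup SL(2, ℤ)) (_ : Γ ≤ Gamma1 4) (_ : IsCongruenceSubgroup Γ)
    [Γ.FiniteIndex] [Module.Finite ℂ (MS Γ 2)] [Module.Finite ℂ (CS Γ 2)],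
    Γ.relIndex (Gamma1 4) + 1 ≤ finrank ℂ (MS Γ 2) + finrank ℂ (CS Γ 2)

theorem esS_of (hd : HDim) : EsS := by
  intro Γ _ h4 hc φ
  obtain ⟨_, _⟩ := finite_MS_CS h4
  exact es_surj_of h4 (hd Γ h4 hc) φ

theorem es_of (hd : HDim) {L : ℕ} [NeZero L] (h4 : 4 ∣ L) : ES (Gamma0 L) :=
  es_gamma0_of (esS_of hd) h4

end Crest.Agent.T15.Ms
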