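import Mathlib
import Crest.Agent.T15.NgB_77
import Crest.Agent.T15.HopfB_71

/-!
# Row 15 (helper77): classes with trivial reduction are differences of close divisors

* `pD x w a b` : the divisor `∑ (a i, b i)`; `const_of_LD` : it is non special;
* `perm_of_cls` : the points are determined by the class up to a permutation;
* `NG.move`.
-/

set_option autoImplicit false
set_option linter.all false

namespace Crest.Agent.T15.Ng

open Polynomial WithZero Module
open scoped NNReal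
open Crest.Agent.R013.RR7_948 Crest.Agent.R013.RR8_948 Crest.Agent.R013.RR9_948
open Crest.Agent.R013.RR11_948 Crest.Agent.R013.RR12_948 Crest.Agent.R013.PicD_398
open Crest.Agent.R013.GR2_921 Crest.Agent.R013.Frob1_914
open Crest.Agent.R013.GR4_921 Crest.Agent.R013.GR6_921
open Crest.Agent.T15.Hy Crest.Agent.T15.Disc

section ns

variable {k K : Type*} [Field k] [IsAlgClosed k] [Field K] [Algebra k K]
  [Algebra (RatFunc k) K] [IsScalarTower k (RatFunc k) K] [FiniteDimensional (RatFunc k) K]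
  [Algebra.IsSeparable (RatFunc k) K] {F : k[X]} {x w : K} {ι : Type*} [Fintype ι]

/-- the divisor `∑ (a i, b i)` -/
noncomputable def pD (x w : K) (a b : ι → k) : Pl k K →₀ ℤ :=
  ∑ i, Finsupp.single (pt x w (a i) (b i)) 1

theorem pD_nonneg (a b : ι → k) : 0 ≤ pD x w a b :=
  Finset.sum_nonneg fun _ _ => Finsupp.single_nonneg.mpr zero_le_one

theorem cls_pD (a b : ι → k) :
    cls (pD x w a b) = ∑ i, cls (Finsupp.single (pt x w (a i) (b i)) 1) := map_sum _ _ _

theorem one_le_pD (a b : ι → k) (i : ι) : 1 ≤ pD x w a b (pt x w (a i) (b i)) := by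
  have h := Finset.single_le_sum (f := fun i => Finsupp.single (pt x w (a i) (b i)) (1 : ℤ))
    (fun _ _ => Finsupp.single_nonneg.mpr zero_le_one) (Finset.mem_univ i) (pt x w (a i) (b i))
  rwa [Finsupp.single_eq_same] at h

theorem exists_of_pD {a b : ι → k} {P : Pl k K} (h : pD x w a b P ≠ 0) :
    ∃ i, pt x w (a i) (b i) = P := by
  classical
  unfold pD at h
  rw [Finsupp.finsetSum_apply] at h
  obtain ⟨i, -, hi⟩ := Finset.exists_ne_zero_of_sum_ne_zero h
  exact ⟨i, by by_contra h1; exact hi (by rw [Finsupp.single_apply, if_neg h1])⟩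

theorem divf_prod_x (h : Hyp F x w) {a b : ι → k} (hon : ∀ i, b i ^ 2 = F.eval (a i)) :
    divf (k := k) (aeval x (∏ i, (X - C (a i)))) =
      pD x w a b + pD x w a (-b) - Fintype.card ι • Dinf k x := by
  classical
  have key : ∀ s : Finset ι, divf (k := k) (aeval x (∏ i ∈ s, (X - C (a i)))) =
      ∑ i ∈ s, Finsupp.single (pt x w (a i) (b i)) 1 +
        ∑ i ∈ s, Finsupp.single (pt x w (a i) (-b i)) 1 - s.card • Dinf k x := by
    intro s
    induction s using Finset.induction_on with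
    | empty => simpa using divf_const (k := k) (K := K) one_ne_zero
    | insert j s hj ih =>
      rw [Finset.prod_insert hj, map_mul, divf_mul (h.aeval_ne (X_sub_C_ne_zero _))
        (h.aeval_ne (Finset.prod_ne_zero_iff.mpr fun i _ => X_sub_C_ne_zero _)), ih,
        Finset.sum_insert hj, Finset.sum_insert hj, Finset.card_insert_of_notMem hj, succ_nsmul,
        map_sub, aeval_X, aeval_C, h.div_x (hon j)]
      abel
  exact key Finset.univ

/-- `g` points with distinct abscissae form a non special divisor -/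
theorem const_of_LD (h : Hyp F x w) (hd : 2 * Fintype.card ι < F.natDegree) {a b : ι → k}
    (hon : ∀ i, b i ^ 2 = F.eval (a i)) (ha : Function.Injective a) {f : K}
    (hf : f ∈ LD (pD x w a b)) : f ∈ Set.range (algebraMap k K) := by
  classical
  by_cases hf0 : f = 0
  · exact ⟨0, by simp [hf0]⟩
  set U : k[X] := ∏ i, (X - C (a i)) with hU
  have hUm : U.Monic := monic_prod_of_monic _ _ fun i _ => monic_X_sub_C _
  have hU0 := h.aeval_ne hUm.ne_zero
  have h1 : 0 ≤ Fintype.card ι • Dinf k x - pD x w a (-b) + divf (k := k) (f * aeval x U) := by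
    rw [divf_mul hf0 hU0, divf_prod_x h hon]
    have := (mem_LD_iff hf0).mp hf
    convert this using 1; abel
  have h2 := (mem_LD_iff (mul_ne_zero hf0 hU0)).mpr h1
  obtain ⟨A, B, e, hA, hB⟩ := h.of_mem_LD (LD_mono (sub_le_self _ (pD_nonneg _ _)) h2)
  obtain rfl : B = 0 := hB.resolve_right (by omega)
  rw [el_zero] at e
  have h3 : ∀ i, A.eval (a i) = 0 := by
    intro i
    have hP := h.at_pt (a := a i) (b := -b i) (by rw [neg_sq, hon])
    rw [← hP.aeval_lt_iff, ← e]
    refine lt_of_le_of_lt (mem_LD.mp h2 _) ?_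
    rw [← exp_zero, exp_lt_exp, Finsupp.sub_apply, Finsupp.smul_apply, Dinf_of_le h.x_ne hP.x_le]
    have := one_le_pD (x := x) (w := w) a (-b) i
    simp only [Pi.neg_apply] at this
    simp only [smul_zero]
    omega
  have h4 : U ∣ A := Finset.prod_dvd_of_coprime
    (fun i _ j _ hij => pairwise_coprime_X_sub_C ha hij) fun i _ => dvd_iff_isRoot.mpr (h3 i)
  obtain ⟨c, rfl⟩ := h4
  have hc : c ≠ 0 := by rintro rfl; exact mul_ne_zero hf0 hU0 (by simpa using e)
  have h5 : U.natDegree = Fintype.card ι := by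
    rw [hU, natDegree_prod_of_monic _ _ fun i _ => monic_X_sub_C _]; simp
  rw [natDegree_mul hUm.ne_zero hc, h5] at hA
  rw [eq_C_of_natDegree_eq_zero (p := c) (by omega), map_mul, aeval_C, mul_comm (aeval x U)] at e
  exact ⟨_, (mul_right_cancel₀ hU0 e).symm⟩

theorem ell_pD (h : Hyp F x w) (hd : 2 * Fintype.card ι < F.natDegree) {a b : ι → k}
    (hon : ∀ i, b i ^ 2 = F.eval (a i)) (ha : Function.Injective a) : ell (pD x w a b) ≤ 1 := by
  have h1 : LD (pD x w a b) ≤ Submodule.span k {(1 : K)} := fun f hf => by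
    obtain ⟨c, rfl⟩ := const_of_LD h hd hon ha hf
    exact Submodule.mem_span_singleton.mpr ⟨c, by rw [Algebra.smul_def, mul_one]⟩
  exact (Submodule.finrank_mono h1).trans (finrank_span_singleton one_ne_zero).le

/-- an effective divisor in the class of `pD` is `pD` -/
theorem eq_pD (h : Hyp F x w) (hd : 2 * Fintype.card ι < F.natDegree) {a b : ι → k}
    (hon : ∀ i, b i ^ 2 = F.eval (a i)) (ha : Function.Injective a) {E : Pl k K →₀ ℤ} (hE : 0 ≤ E)
    (hc : cls E = cls (pD x w a b)) : E = pD x w a b := by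
  obtain ⟨f, hf, e⟩ := cls_eq_iff.mp hc
  obtain ⟨c, rfl⟩ := const_of_LD h hd hon ha ((mem_LD_iff hf).mpr (e ▸ hE))
  rw [e, divf_const (by simpa using hf), add_zero]

theorem perm_of_cls (h : Hyp F x w) (hd : 2 * Fintype.card ι < F.natDegree) {a b a' b' : ι → k}
    (hon : ∀ i, b i ^ 2 = F.eval (a i)) (ha : Function.Injective a)
    (hon' : ∀ i, b' i ^ 2 = F.eval (a' i)) (ha' : Function.Injective a')
    (hc : cls (pD x w a' b') = cls (pD x w a b)) :
    ∃ π : Equiv.Perm ι, ∀ i, a' i = a (π i) ∧ b' i = b (π i) := by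
  have h1 := eq_pD h hd hon ha (pD_nonneg _ _) hc
  have h2 : ∀ i, ∃ j, a' i = a j ∧ b' i = b j := fun i => by
    obtain ⟨j, hj⟩ := exists_of_pD (x := x) (w := w) (a := a) (b := b) (P := pt x w (a' i) (b' i))
      (by have := one_le_pD (x := x) (w := w) a' b' i; rw [h1] at this; omega)
    exact ⟨j, (h.at_pt (hon' i)).eq (hj ▸ h.at_pt (hon j))⟩
  choose π hπ using h2
  have h3 : Function.Injective π := fun i j hij => ha' (by rw [(hπ i).1, (hπ j).1, hij])
  exact ⟨Equiv.ofBijective π (Finite.injective_iff_bijective.mp h3), hπ⟩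

theorem SI_on (h : Hyp F x w) (e : SI k K k K) (hx : e.f x = x) (hw : e.f w = w) {a b : k}
    (hon : b ^ 2 = F.eval a) :
    e.s b ^ 2 = F.eval (e.s a) ∧ e.pl (pt x w a b) = pt x w (e.s a) (e.s b) := by
  have h1 := (h.at_pt hon).SI e
  rw [hx, hw] at h1
  exact ⟨h1.sq h.sq, (h.pt_eq h1).symm⟩

theorem D_pD (h : Hyp F x w) (e : SI k K k K) (hx : e.f x = x) (hw : e.f w = w) {a b : ι → k}
    (hon : ∀ i, b i ^ 2 = F.eval (a i)) :
    e.D (pD x w a b) = pD x w (fun i => e.s (a i)) fun i => e.s (b i) := by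
  unfold pD
  rw [map_sum]
  exact Finset.sum_congr rfl fun i _ => by rw [e.D_single, (SI_on h e hx hw (hon i)).2]

/-- an automorphism fixing the class permutes the points -/
theorem perm_of_fix (h : Hyp F x w) (hd : 2 * Fintype.card ι < F.natDegree) {a b : ι → k}
    (hon : ∀ i, b i ^ 2 = F.eval (a i)) (ha : Function.Injective a) (e : SI k K k K)
    (hx : e.f x = x) (hw : e.f w = w) (hc : e.pic (cls (pD x w a b)) = cls (pD x w a b)) :
    ∃ π : Equiv.Perm ι, ∀ i, e.s (a i) = a (π i) ∧ e.s (b i) = b (π i) := by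
  rw [SI.pic_cls, D_pD h e hx hw hon] at hc
  exact perm_of_cls h hd hon ha (fun i => (SI_on h e hx hw (hon i)).1) (e.s.injective.comp ha) hc

end ns

section move

variable {C K : Type*} [Field C] [IsAlgClosed C] [CharZero C] [Field K] [Algebra C K]
  [Algebra (RatFunc C) K] [IsScalarTower C (RatFunc C) K] [FiniteDimensional (RatFunc C) K]
  [Algebra.IsSeparable (RatFunc C) K]
  {k κ : Type*} [Field k] [IsAlgClosed k] [Field κ] [Algebra k κ]
  [Algebra (RatFunc k) κ] [IsScalarTower k (RatFunc k) κ] [FiniteDimensional (RatFunc k) κ]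
  [Algebra.IsSeparable (RatFunc k) κ]
  {v : Valuation C ℝ≥0} {ρ : C → k} {W : Valuation K ℝ≥0} {res : K → κ}
  {F : C[X]} {x w : K} {Fb : k[X]} {xb wb : κ} {sp : Pl C K → Pl k κ}
  {ι : Type*} [Fintype ι]

omit [CharZero C] in
theorem NG.sp_pt (h : NG v ρ F x w Fb xb wb W res sp) {a b : C} (hon : b ^ 2 = F.eval a)
    (ha : v a ≤ 1) : v b ≤ 1 ∧ ρ b ^ 2 = Fb.eval (ρ a) ∧ sp (pt x w a b) = pt xb wb (ρ a) (ρ b) := by
  obtain ⟨h1, h2⟩ := h.at_ _ a b (h.nr.hyp.at_pt hon) ha
  exact ⟨h1, h2.sq h.nr.hyb.sq, (h.nr.hyb.pt_eq h2).symm⟩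

omit [CharZero C] in
/-- the places in the disc of an affine point -/
theorem NG.of_sp (h : NG v ρ F x w Fb xb wb W res sp) {Q : Pl C K} {a b : k}
    (hQ : At (sp Q) xb wb a b) : ∃ al be : C, At Q x w al be ∧ v al ≤ 1 ∧ v be ≤ 1 ∧ ρ al = a ∧
      ρ be = b := by
  have h1 : Q.v x ≤ 1 ∧ v (ev Q x) ≤ 1 := by
    by_contra h2
    exact absurd hQ.x_le (not_le.mpr (h.inf Q h2))
  obtain ⟨h3, h4⟩ := h.at_ _ _ _ (h.nr.hyp.at_ev h1.1) h1.2
  exact ⟨_, _, h.nr.hyp.at_ev h1.1, h1.2, h3, h4.eq hQ⟩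

omit [CharZero C] in
theorem NG.map_pD (h : NG v ρ F x w Fb xb wb W res sp) {a b : ι → C}
    (hon : ∀ i, b i ^ 2 = F.eval (a i)) (ha : ∀ i, v (a i) ≤ 1) :
    (pD x w a b).mapDomain sp = pD xb wb (fun i => ρ (a i)) fun i => ρ (b i) := by
  unfold pD
  rw [Finsupp.mapDomain_finsetSum]
  exact Finset.sum_congr rfl fun i _ => by rw [Finsupp.mapDomain_single, (h.sp_pt (hon i) (ha i)).2.2]

/-- **(MOVE)** -/
theorem NG.move (h : NG v ρ F x w Fb xb wb W res sp) (hd : Fb.natDegree = 2 * Fintype.card ι + 1)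
    {a b : ι → C} (hon : ∀ i, b i ^ 2 = F.eval (a i)) (ha : ∀ i, v (a i) ≤ 1)
    (hab : ∀ i j, i ≠ j → v (a i - a j) = 1) {c : Pic C K} (hc : h.disc.spPic c = 0) :
    ∃ al be : ι → C, (∀ i, be i ^ 2 = F.eval (al i)) ∧ (∀ i, v (al i - a i) < 1) ∧
      (∀ i, v (be i - b i) < 1) ∧ Function.Injective al ∧
      c = cls (pD x w al be) - cls (pD x w a b) := by
  classical
  have hr := h.nr.rd.resC
  have hinj : Function.Injective fun i => ρ (a i) := fun i j hij => by
    by_contra h1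
    have h2 := (hr.eq_iff (ha i) (ha j)).mp hij
    rw [hab i j h1] at h2
    exact lt_irrefl _ h2
  have honb : ∀ i, ρ (b i) ^ 2 = Fb.eval (ρ (a i)) := fun i => (h.sp_pt (hon i) (ha i)).2.1
  set Pb : ι → Pl k κ := fun i => pt xb wb (ρ (a i)) (ρ (b i)) with hPb
  have hPi : Function.Injective Pb := fun i j hij =>
    hinj ((h.nr.hyb.at_pt (honb i)).eq (by
      have := h.nr.hyb.at_pt (honb j)
      rwa [show pt xb wb (ρ (a j)) (ρ (b j)) = _ from hij.symm] at this)).1
  have hT : sumD (Finset.univ.image Pb) = pD xb wb (fun i => ρ (a i)) fun i => ρ (b i) :=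
    Finset.sum_image fun i _ j _ hij => hPi hij
  obtain ⟨D, rfl⟩ := cls_surjective c
  rw [h.disc.spPic_cls, cls_eq_zero_iff] at hc
  obtain ⟨z, hz, hD⟩ := hc
  obtain ⟨f, hf, hE, hE'⟩ := h.disc.exists_move (T := Finset.univ.image Pb) (Q := pD x w a b)
    (by rw [Finset.card_image_of_injective _ hPi, Finset.card_univ,
      gen_eq h.nr.hyb (g := Fintype.card ι) (by omega) (by omega)])
    (by rw [hT]; exact ell_pD h.nr.hyb (by omega) honb hinj) (by rw [hT, h.map_pD hon ha]) hz hD.symm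
  set E := D + pD x w a b + divf (k := C) f with hEdef
  have h1 : ∀ i, ∃ P, sp P = Pb i ∧ ∀ R, sp R = Pb i → E R = if R = P then 1 else 0 := fun i =>
    fibre_single hE sp (by rw [hE', sumD_apply, if_pos (Finset.mem_image_of_mem _ (Finset.mem_univ i))])
  choose Q hQ hQ' using h1
  have h2 : ∀ i, ∃ al be : C, At (Q i) x w al be ∧ v al ≤ 1 ∧ v be ≤ 1 ∧ ρ al = ρ (a i) ∧
      ρ be = ρ (b i) := fun i => h.of_sp (by rw [hQ]; exact h.nr.hyb.at_pt (honb i))
  choose al be h3 h4 h5 h6 h7 using h2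
  have h8 : E = pD x w al be := by
    ext R
    unfold pD
    rw [Finsupp.finsetSum_apply]
    simp only [h.nr.hyp.pt_eq (h3 _), Finsupp.single_apply]
    by_cases hR : ∃ i, sp R = Pb i
    · obtain ⟨i, hi⟩ := hR
      rw [hQ' i R hi, Finset.sum_eq_single i (fun j _ hj => if_neg fun h9 => hj (hPi (by
        rw [← hQ, h9, hi]))) (by simp)]
      simp only [eq_comm]
    · rw [fibre_zero hE sp (b := sp R) (by
        rw [hE', sumD_apply, if_neg]
        intro h9
        obtain ⟨i, -, hi⟩ := Finset.mem_image.mp h9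
        exact hR ⟨i, hi.symm⟩) rfl]
      exact (Finset.sum_eq_zero fun i _ => if_neg fun h9 => hR ⟨i, by rw [← h9, hQ]⟩).symm
  refine ⟨al, be, fun i => (h3 i).sq h.nr.hyp.sq, fun i => (hr.eq_iff (h4 i) (ha i)).mp (h6 i),
    fun i => (hr.eq_iff (h5 i) (h.sp_pt (hon i) (ha i)).1).mp (h7 i),
    fun i j hij => hinj (by show ρ (a i) = ρ (a j); rw [← h6, ← h6, hij]), ?_⟩
  rw [← h8, hEdef, map_add, map_add, cls_divf hf]
  abel

/-- **(MOVE)** with the Galois clause -/
theorem NG.move' (h : NG v ρ F x w Fb xb wb W res sp) (hd : Fb.natDegree = 2 * Fintype.card ι + 1)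
    {a b : ι → C} (hon : ∀ i, b i ^ 2 = F.eval (a i)) (ha : ∀ i, v (a i) ≤ 1)
    (hab : ∀ i j, i ≠ j → v (a i - a j) = 1) {c : Pic C K} (hc : h.disc.spPic c = 0) :
    ∃ al be : ι → C, (∀ i, be i ^ 2 = F.eval (al i)) ∧ (∀ i, v (al i - a i) < 1) ∧
      (∀ i, v (be i - b i) < 1) ∧ c = cls (pD x w al be) - cls (pD x w a b) ∧
      ∀ e : SI C K C K, e.f x = x → e.f w = w → (∀ i, e.s (a i) = a i) → (∀ i, e.s (b i) = b i) →
        e.pic c = c → ∃ π : Equiv.Perm ι, ∀ i, e.s (al i) = al (π i) ∧ e.s (be i) = be (π i) := by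
  obtain ⟨al, be, h1, h2, h3, h4, h5⟩ := h.move hd hon ha hab hc
  refine ⟨al, be, h1, h2, h3, h5, fun e hx hw h6 h7 h8 => ?_⟩
  have hle : Fb.natDegree ≤ F.natDegree := by
    have := natDegree_redP_le h.nr.rd.resC F
    rwa [h.nr.red, one_pow, one_mul] at this
  refine perm_of_fix h.nr.hyp (by omega) h1 h4 e hx hw ?_
  have h9 : e.pic (cls (pD x w a b)) = cls (pD x w a b) := by
    rw [SI.pic_cls, D_pD h.nr.hyp e hx hw hon]
    simp only [h6, h7]
  rw [h5, map_sub, h9] at h8
  exact sub_left_injective h8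

end move

end Crest.Agent.T15.Ng
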