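import Crest.Agent.T15.Mw_52
import Crest.Agent.T15.LDef_15

/-!
# Row 15, block L (helper52): the model, up to the reading relation
-/

set_option autoImplicit false

noncomputable section

namespace Crest.Agent.T15.Mw

open Height Crest.Agent.T15.Lk Crest.Agent.T15.Val

local notation "ℤ[i]" => GaussianInt

/-- the reading relation on the multiples of a point -/
def ReadStmt : Prop :=
  Top.QStmt → ∀ P : (E I nn).Point, ¬IsOfFinAddOrder P →
    (Dio fun v : F × F => ∃ a : ℤ, co (a • P) = v) →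
    (Dio fun v : F × F => ∃ α : ℤ[i], co (α • P) = v) →
    ∃ (Read : ℚ → F × F → ℚ → Prop) (B0 : ℕ),
      (Dio fun q : ℚ × (F × F) × ℚ => Read q.1 q.2.1 q.2.2) ∧
      (∀ (w : ℚ) (a : ℤ) (ρ : ℚ), Read w (co (a • P)) ρ → ∀ p : ℕ, p.Prime → B0 < p →
        Odd (padicValRat p w) → Pz p (ρ - a)) ∧
      ∀ p : ℕ, LDef.Vis p → B0 < p → ∀ a : ℤ, Read p (co (a • P)) a

theorem vis_mod {p : ℕ} (h : LDef.Vis p) : p % 8 = 1 ∧ p % 17 = 3 := by
  have h1 : p % 24 = 1 := h.2.1
  have h2 : p % 17 = 3 := h.2.2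
  omega

theorem lk_of (H : ReadStmt) : LDef.LkStmt := fun hQ => by
  obtain ⟨P, h1, h2, h3⟩ := exists_point
  obtain ⟨Read, B0, r1, r2, r3⟩ := H hQ P h1 h2 h3
  let b := Module.finBasis ℚ F
  obtain ⟨C, hC⟩ := sq_le_height nn_ne h1 b
  exact ⟨F × F, inferInstance, inferInstance, inferInstance, Module.finrank ℚ F, ⟨
    { rep := fun a => co (a • P)
      inj := fun a a' e => injective_zsmul_iff_not_isOfFinAddOrder.2 h1 (co_injective e)
      dPt := h2
      Add := fun x y z => co (pt I nn x + pt I nn y) = z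
      dA := Dio.eqF ((DPt.pt nn_ne (by fun_prop)).add (DPt.pt nn_ne (by fun_prop))) (by fun_prop)
      add_iff := fun a a' v => by rw [pt_co, pt_co, add_smul, eq_comm]
      co := fun i v => b.repr v.1 i
      pco := fun i => PolM.lin (b.coord i) (by fun_prop)
      C := C
      ht := hC
      Read := Read
      dR := r1
      B0 := B0
      sound := r2
      complete := r3 }⟩⟩

end Crest.Agent.T15.Mw

end
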