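import Crest.Agent.T15.MwD_52
import Crest.Agent.T15.LkD_16
import Crest.Agent.T15.LkG_67

/-!
# Row 15, block L (helper52): the curve `y² = x³ - (3+2√-2)² x` over `F = ℚ(√-2, i)`

* `F`, `I`, `rho`, `cc = 3 + 2 rho`, `nn = cc²`, `bb`, `τ`, `IsGalois ℚ F`;
* `exists_point`: a point `P` of infinite order with `ℤ P` and `ℤ[i] P` Diophantine;
* `exists_place`: visible primes have a place of degree one where `bb` is a non-square.
-/

set_option autoImplicit false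

noncomputable section

namespace Crest.Agent.T15.Mw

open Height WeierstrassCurve WeierstrassCurve.Affine Crest.Agent.T15.Lk Crest.Agent.T170.Ell
  Crest.Agent.T170.Ell.Place

instance factF0 : Fact (∀ r : ℚ, r ^ 2 ≠ -2 + 0 * r) := ⟨fun r h => by nlinarith [sq_nonneg r]⟩

/-- `ℚ(√-2)` -/
def F0 : Type := QuadraticAlgebra ℚ (-2) 0

instance : Field F0 := inferInstanceAs (Field (QuadraticAlgebra ℚ (-2) 0))

instance : CharZero F0 := inferInstanceAs (CharZero (QuadraticAlgebra ℚ (-2) 0))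

instance : NumberField F0 where
  to_charZero := inferInstance
  to_finiteDimensional := inferInstanceAs (Module.Finite ℚ (QuadraticAlgebra ℚ (-2) 0))

instance : DecidableEq F0 := Classical.decEq _

/-- `√-2` -/
def ρ0 : F0 := (⟨0, 1⟩ : QuadraticAlgebra ℚ (-2) 0)

theorem ρ0_mul : ρ0 * ρ0 = -2 := by
  change (⟨0, 1⟩ * ⟨0, 1⟩ : QuadraticAlgebra ℚ (-2) 0) = -2
  ext <;> simp [QuadraticAlgebra.re_ofNat, QuadraticAlgebra.im_ofNat]

theorem mk_eq0 (a b : ℚ) : @Eq F0 (⟨a, b⟩ : QuadraticAlgebra ℚ (-2) 0) (a + b * ρ0) := by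
  change (⟨a, b⟩ : QuadraticAlgebra ℚ (-2) 0) = ⟨a, 0⟩ + ⟨b, 0⟩ * ⟨0, 1⟩
  ext <;> simp

theorem exists_coord0 (x : F0) : ∃ a b : ℚ, x = a + b * ρ0 := ⟨_, _, mk_eq0 x.re x.im⟩

theorem coord0 {a b : ℚ} (h : (a : F0) + b * ρ0 = 0) : a = 0 ∧ b = 0 := by
  rw [← mk_eq0] at h
  exact ⟨congrArg QuadraticAlgebra.re h, congrArg QuadraticAlgebra.im h⟩

instance : Algebra R2 F0 := (Zsqrtd.lift ⟨ρ0, by rw [ρ0_mul]; simp⟩ : R2 →+* F0).toAlgebra

theorem algebraMap_R2 (z : R2) : algebraMap R2 F0 z = z.re + z.im * ρ0 := rfl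

instance : FaithfulSMul R2 F0 := (faithfulSMul_iff_algebraMap_injective _ _).2 <|
  (injective_iff_map_eq_zero _).2 fun z h => by
    have := coord0 (a := z.re) (b := z.im) (by simpa [algebraMap_R2] using h)
    ext
    · simpa using this.1
    · simpa using this.2

instance : IsFractionRing R2 F0 := IsFractionRing.of_field R2 F0 fun z => by
  obtain ⟨a, b, rfl⟩ := exists_coord0 z
  refine ⟨⟨a.num * b.den, b.num * a.den⟩, ⟨a.den * b.den, 0⟩, ?_⟩
  have ha : (a.den : F0) ≠ 0 := Nat.cast_ne_zero.2 a.den_nz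
  have hb : (b.den : F0) ≠ 0 := Nat.cast_ne_zero.2 b.den_nz
  rw [algebraMap_R2, algebraMap_R2, Rat.cast_def a, Rat.cast_def b]
  push_cast
  field_simp
  ring

instance factF : Fact (∀ r : F0, r ^ 2 ≠ -1 + 0 * r) :=
  ⟨fun r h => nsq_neg_one (K := F0) ⟨r, by rw [← sq, h]; ring⟩⟩

/-- `ℚ(√-2, i) = ℚ(ζ₈)` -/
def F : Type := QuadraticAlgebra F0 (-1) 0

instance : Field F := inferInstanceAs (Field (QuadraticAlgebra F0 (-1) 0))

instance : CharZero F := inferInstanceAs (CharZero (QuadraticAlgebra F0 (-1) 0))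

instance : Algebra F0 F := inferInstanceAs (Algebra F0 (QuadraticAlgebra F0 (-1) 0))

instance : Module.Finite F0 F := inferInstanceAs (Module.Finite F0 (QuadraticAlgebra F0 (-1) 0))

instance : NumberField F := NumberField.of_module_finite F0 F

instance : DecidableEq F := Classical.decEq _

/-- `i` -/
def I : F := (⟨0, 1⟩ : QuadraticAlgebra F0 (-1) 0)

/-- `√-2` -/
def rho : F := algebraMap F0 F ρ0

theorem I_mul_I : I * I = -1 := by
  change (⟨0, 1⟩ * ⟨0, 1⟩ : QuadraticAlgebra F0 (-1) 0) = -1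
  ext <;> simp [QuadraticAlgebra.re_one, QuadraticAlgebra.im_one]

instance factI : Fact (I ^ 2 = -1) := ⟨by rw [sq, I_mul_I]⟩

theorem rho_mul : rho * rho = -2 := by rw [rho, ← map_mul, ρ0_mul, map_neg, map_ofNat]

theorem mk_eq (a b : F0) : @Eq F (⟨a, b⟩ : QuadraticAlgebra F0 (-1) 0)
    (algebraMap F0 F a + algebraMap F0 F b * I) := by
  change (⟨a, b⟩ : QuadraticAlgebra F0 (-1) 0) = ⟨a, 0⟩ + ⟨b, 0⟩ * ⟨0, 1⟩
  ext <;> simp

theorem exists_coord (x : F) : ∃ a b c d : ℚ, x = a + b * rho + (c + d * rho) * I := by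
  obtain ⟨a, b, h1⟩ := exists_coord0 x.re
  obtain ⟨c, d, h2⟩ := exists_coord0 x.im
  refine ⟨a, b, c, d, (mk_eq x.re x.im).trans ?_⟩
  rw [h1, h2]
  simp [rho]

theorem coord {a b c d : ℚ} (h : (a : F) + b * rho + (c + d * rho) * I = 0) :
    (a = 0 ∧ b = 0) ∧ c = 0 ∧ d = 0 := by
  have h1 : @Eq F (⟨a + b * ρ0, c + d * ρ0⟩ : QuadraticAlgebra F0 (-1) 0) 0 := by
    rw [mk_eq, ← h]
    simp [rho]
  exact ⟨coord0 (congrArg QuadraticAlgebra.re h1), coord0 (congrArg QuadraticAlgebra.im h1)⟩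

/-- ring maps out of `F0` -/
def lift0 {L : Type*} [Field L] [CharZero L] (v : L) (hv : v * v = -2) : F0 →+* L :=
  (QuadraticAlgebra.lift (R := ℚ) (a := -2) (b := 0) (A := L)
    ⟨v, by rw [hv]; simp [Rat.smul_def]⟩).toRingHom

theorem lift0_ρ0 {L : Type*} [Field L] [CharZero L] (v : L) (hv : v * v = -2) :
    lift0 v hv ρ0 = v := by
  change (0 : ℚ) • (1 : L) + (1 : ℚ) • v = v
  simp

/-- ring maps out of `F` -/
def lift {L : Type*} [Field L] [CharZero L] (u v : L) (hu : u * u = -1) (hv : v * v = -2) :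
    F →+* L :=
  letI := (lift0 v hv).toAlgebra
  (QuadraticAlgebra.lift (R := F0) (a := -1) (b := 0) (A := L) ⟨u, by rw [hu]; simp⟩).toRingHom

theorem lift_I {L : Type*} [Field L] [CharZero L] (u v : L) (hu : u * u = -1) (hv : v * v = -2) :
    lift u v hu hv I = u := by
  change lift0 v hv 0 * 1 + lift0 v hv 1 * u = u
  simp

theorem lift_rho {L : Type*} [Field L] [CharZero L] (u v : L) (hu : u * u = -1)
    (hv : v * v = -2) : lift u v hu hv rho = v := by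
  change lift0 v hv ρ0 * 1 + lift0 v hv 0 * u = v
  simp [lift0_ρ0]

/-- `i ↦ i`, `√-2 ↦ -√-2` -/
def τ : F ≃ₐ[ℚ] F := AlgEquiv.ofBijective
  (lift I (-rho) I_mul_I (by rw [neg_mul_neg, rho_mul])).toRatAlgHom (AlgHom.bijective _)

/-- `i ↦ -i`, `√-2 ↦ √-2` -/
def σ : F ≃ₐ[ℚ] F := AlgEquiv.ofBijective
  (lift (-I) rho (by rw [neg_mul_neg, I_mul_I]) rho_mul).toRatAlgHom (AlgHom.bijective _)

@[simp] theorem τ_I : τ I = I := lift_I _ _ I_mul_I (by rw [neg_mul_neg, rho_mul])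

@[simp] theorem τ_rho : τ rho = -rho := lift_rho _ _ I_mul_I (by rw [neg_mul_neg, rho_mul])

@[simp] theorem σ_I : σ I = -I := lift_I _ _ (by rw [neg_mul_neg, I_mul_I]) rho_mul

@[simp] theorem σ_rho : σ rho = rho := lift_rho _ _ (by rw [neg_mul_neg, I_mul_I]) rho_mul

theorem τ_τ (x : F) : τ (τ x) = x := by
  obtain ⟨a, b, c, d, rfl⟩ := exists_coord x
  simp

instance : IsGalois ℚ F := IsGalois.of_fixedField_eq_bot ℚ F <| eq_bot_iff.2 fun x hx => by
  obtain ⟨a, b, c, d, rfl⟩ := exists_coord x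
  have h1 : τ _ = _ := hx ⟨τ, trivial⟩
  have h2 : σ _ = _ := hx ⟨σ, trivial⟩
  simp only [map_add, map_mul, map_ratCast, τ_I, τ_rho, σ_I, σ_rho] at h1 h2
  have h3 := coord (a := 0) (b := 2 * b) (c := 0) (d := 2 * d) (by push_cast; linear_combination -h1)
  have h4 := coord (a := 0) (b := 0) (c := 2 * c) (d := 2 * d) (by push_cast; linear_combination -h2)
  obtain rfl : b = 0 := by linarith [h3.1.2]
  obtain rfl : c = 0 := by linarith [h4.2.1]
  obtain rfl : d = 0 := by linarith [h4.2.2]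
  exact IntermediateField.mem_bot.2 ⟨a, by simp⟩

/-- `3 + 2 √-2` -/
def cc : F := 3 + 2 * rho

/-- the coefficient of the curve -/
def nn : F := cc ^ 2

/-- the twisting element -/
def bb : F := 17 / nn

theorem cc_mul : cc * (3 - 2 * rho) = 17 := by rw [cc]; linear_combination -4 * rho_mul

theorem cc_ne : cc ≠ 0 := left_ne_zero_of_mul (by rw [cc_mul]; norm_num)

theorem nn_ne : nn ≠ 0 := pow_ne_zero 2 cc_ne

theorem bb_ne : bb ≠ 0 := div_ne_zero (by norm_num) nn_ne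

theorem τ_nn : τ nn = bb ^ 2 * nn := by
  have := cc_ne
  rw [bb, nn, ← cc_mul, map_pow, cc, map_add, map_mul, map_ofNat, map_ofNat, τ_rho, ← cc]
  field_simp
  ring

theorem tw0 : Tw (E 0 (algebraMap R2 F0 c2 ^ 2)) (E I nn) (algebraMap F0 F) 1 :=
  tw_E one_ne_zero (by simp [nn, cc, rho, algebraMap_R2, c2, map_ofNat])

local notation "ℤ[i]" => GaussianInt

/-- **The point.** -/
theorem exists_point : ∃ P : (E I nn).Point, ¬IsOfFinAddOrder P ∧
    (Dio fun v : F × F => ∃ a : ℤ, co (a • P) = v) ∧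
    Dio fun v : F × F => ∃ α : ℤ[i], co (α • P) = v := by
  obtain ⟨N, P, h1, h2⟩ := exists_gen (K := F0) 0 rfl
  have hn : algebraMap R2 F0 c2 ^ 2 ≠ 0 :=
    pow_ne_zero 2 ((map_ne_zero_iff _ (IsFractionRing.injective R2 F0)).2 (by decide))
  have key : ∀ a : ℤ, ∃ w : F0 × F0, tw0.hom (N • pt _ _ w) = a • tw0.hom P := fun a => by
    obtain ⟨Q, hQ⟩ := (h2 _).1 ⟨a, rfl⟩
    exact ⟨co Q, by rw [pt_co, hQ, map_zsmul]⟩
  have key' : ∀ w : F0 × F0, ∃ a : ℤ, a • tw0.hom P = tw0.hom (N • pt _ _ w) := fun w => by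
    obtain ⟨a, ha⟩ := (h2 _).2 ⟨pt _ _ w, rfl⟩
    exact ⟨a, by rw [← ha, map_zsmul]⟩
  refine ⟨tw0.hom P, fun h => h1 ((tw0.hom_injective.isOfFinAddOrder_iff).1 h), ?_, ?_⟩
  · refine (Dio.ex (R := fun (v : F × F) (w : F0 × F0) => co (tw0.hom (N • pt _ _ w)) = v)
      (Dio.eqF (((DPt.pt hn (by fun_prop)).nsmul N).hom tw0) (by fun_prop))).congr fun v => ?_
    constructor
    · rintro ⟨w, rfl⟩
      exact (key' w).imp fun a ha => by rw [ha]
    · rintro ⟨a, rfl⟩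
      exact (key a).imp fun w hw => by rw [hw]
  · refine (Dio.ex (R := fun (v : F × F) (w : (F0 × F0) × F0 × F0) =>
        co (tw0.hom (N • pt _ _ w.1) + J I nn (tw0.hom (N • pt _ _ w.2))) = v)
      (Dio.eqF ((((DPt.pt hn (by fun_prop)).nsmul N).hom tw0).add
        (((DPt.pt hn (by fun_prop)).nsmul N).hom tw0).J) (by fun_prop))).congr fun v => ?_
    constructor
    · rintro ⟨w, rfl⟩
      obtain ⟨a, ha⟩ := key' w.1
      obtain ⟨b, hb⟩ := key' w.2
      exact ⟨⟨a, b⟩, by rw [smul_def, ← ha, ← hb, map_zsmul]⟩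
    · rintro ⟨α, rfl⟩
      obtain ⟨w, hw⟩ := key α.re
      obtain ⟨w', hw'⟩ := key α.im
      exact ⟨(w, w'), by rw [smul_def, hw, hw', map_zsmul]⟩

/-- **Visible primes.** -/
theorem exists_place (p : ℕ) [hp : Fact p.Prime] (h8 : p % 8 = 1) (h17 : p % 17 = 3) :
    ∃ (Q : Place F (ZMod p)) (i' n' b' : ZMod p), Q.Sp I i' ∧ Q.Sp nn n' ∧ Q.Sp bb b' ∧
      n' ≠ 0 ∧ (2 : ZMod p) ≠ 0 ∧ ¬IsSquare b' := by
  have hp2 : p ≠ 2 := by omega
  have h2 : (2 : ZMod p) ≠ 0 := fun h => by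
    have := Nat.le_of_dvd two_pos ((ZMod.natCast_eq_zero_iff 2 p).1 (by exact_mod_cast h))
    have := hp.out.two_le
    omega
  have n3 : ¬IsSquare ((3 : ℕ) : ZMod 17) := by decide
  have n17 : ¬IsSquare (17 : ZMod p) := by
    have : Fact (Nat.Prime 17) := ⟨by norm_num⟩
    have h := ZMod.exists_sq_eq_prime_iff_of_mod_four_eq_one (p := 17) (q := p) rfl hp2
    rw [Nat.cast_ofNat] at h
    rw [← h, ← ZMod.natCast_mod, h17]
    exact n3
  obtain ⟨δ, hδ⟩ := (ZMod.exists_sq_eq_neg_two_iff hp2).2 (.inl h8)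
  obtain ⟨ε, hε⟩ := (ZMod.exists_sq_eq_neg_one_iff (p := p)).2 (by omega)
  obtain ⟨Q0⟩ := exists_place_rat p
  obtain ⟨Q1, -⟩ := exists_place_quad (d := -2) (δ := δ) Q0 (by
    rw [sq, ← hδ]; exact (sp_ofNat 2).neg) (fun h => h2 (by simpa [h] using hδ)) h2
  change Place F0 (ZMod p) at Q1
  obtain ⟨Q, -⟩ := exists_place_quad (K := F0) (d := -1) (δ := ε) Q1 (by
    rw [sq, ← hε]; exact sp_one.neg) (fun h => by simp [h] at hε) h2
  change Place F (ZMod p) at Q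
  have hI : I ∈ Q.A := mem_of_sq (b := 0) (c := -1) (zero_mem _) (neg_mem (one_mem _))
    (by linear_combination I_mul_I)
  have hr : rho ∈ Q.A := mem_of_sq (b := 0) (c := -2) (zero_mem _) (sp_ofNat 2).neg.mem
    (by linear_combination rho_mul)
  have hc : Q.Sp cc (3 + 2 * Q.val rho) := (sp_ofNat 3).add ((sp_ofNat 2).mul (sp_val hr))
  have h0 : 3 + 2 * Q.val rho ≠ 0 := fun h => n17 (by
    have h17 : Q.Sp (cc * (3 - 2 * rho)) 17 := by rw [cc_mul]; exact sp_ofNat 17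
    have := (hc.mul ((sp_ofNat 3).sub ((sp_ofNat 2).mul (sp_val hr)))).unique h17
    rw [← this, h, zero_mul]
    exact IsSquare.zero)
  refine ⟨Q, _, _, _, sp_val hI, hc.pow 2, (sp_ofNat 17).div (hc.pow 2) (pow_ne_zero 2 h0),
    pow_ne_zero 2 h0, h2, fun h => n17 ?_⟩
  have := h.mul (⟨_, sq _⟩ : IsSquare ((3 + 2 * Q.val rho) ^ 2))
  rwa [div_mul_cancel₀ _ (pow_ne_zero 2 h0)] at this

end Crest.Agent.T15.Mw

end
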