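import Mathlib
import Crest.Agent.T15.NfC_2
import Crest.Agent.T15.MoB_29

/-!
# Row 15, block F (helper2): charts centred at `0`, the chain row of the reduction table
-/

set_option autoImplicit false
set_option linter.all false

namespace Crest.Agent.T15.Nf

open Polynomial
open scoped NNReal
open Crest.Agent.R013.GR4_921
open Crest.Agent.T15.Mo (Fm)

section fc

variable {C k : Type*} [Field C] [Field k] {vC : Valuation C ℝ≥0} {ρC : C → k}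

/-- the factor `X ^ 2 - a` in the chart `x = π Z` is `s` times a polynomial reducing to `g ^ 2 h` -/
def Fc (vC : Valuation C ℝ≥0) (ρC : C → k) (π a s : C) (g h : k[X]) : Prop :=
  ∃ f : C[X], (Polynomial.C π * X) ^ 2 - Polynomial.C a = Polynomial.C s * f ∧ Rd vC ρC f (g ^ 2 * h)

theorem Fc.eq (hr : IsRes vC ρC) {π a : C} (h0 : π ≠ 0) (h : vC a ≤ vC π ^ 2) :
    Fc vC ρC π a (π ^ 2) 1 (X ^ 2 - Polynomial.C (ρC (a / π ^ 2))) := by
  have hv : 0 < vC π ^ 2 := pow_pos (pos_iff_ne_zero.mpr (by simpa using h0)) 2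
  refine ⟨X ^ 2 - Polynomial.C (a / π ^ 2), ?_, ?_⟩
  · rw [mul_sub, ← map_mul, mul_div_cancel₀ _ (pow_ne_zero 2 h0), map_pow, mul_pow]
  · rw [one_pow, one_mul]
    exact ((Rd.X hr).pow hr 2).sub hr (Rd.cst hr (by rwa [map_div₀, map_pow, div_le_one hv]))

theorem Fc.lt (hr : IsRes vC ρC) {π a : C} (h0 : π ≠ 0) (h : vC a < vC π ^ 2) :
    Fc vC ρC π a (π ^ 2) X 1 := by
  have hv : 0 < vC π ^ 2 := pow_pos (pos_iff_ne_zero.mpr (by simpa using h0)) 2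
  have h1 : vC (a / π ^ 2) < 1 := by rwa [map_div₀, map_pow, div_lt_one hv]
  obtain ⟨f, h2, h3⟩ := Fc.eq hr h0 h.le
  rw [(hr.zero_iff _ h1.le).mpr h1] at h3
  exact ⟨f, h2, h3.congr rfl (by simp)⟩

theorem Fc.self (hr : IsRes vC ρC) {π a : C} (h0 : π ≠ 0) (h : π ^ 2 = a) :
    Fc vC ρC π a (π ^ 2) 1 (X ^ 2 - Polynomial.C 1) := by
  subst h
  have := Fc.eq hr h0 (a := π ^ 2) (by rw [map_pow])
  rwa [div_self (pow_ne_zero 2 h0), hr.one] at this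

theorem Fc.gt (hr : IsRes vC ρC) {π a : C} (h : vC π ^ 2 < vC a) : Fc vC ρC π a (-a) 1 1 := by
  have hv : 0 < vC a := lt_of_le_of_lt zero_le h
  have ha : a ≠ 0 := by rintro rfl; simp at hv
  refine ⟨1 - Polynomial.C (π ^ 2 / a) * X ^ 2, ?_, ?_⟩
  · rw [mul_sub, ← mul_assoc, ← map_mul, neg_mul, mul_div_cancel₀ _ ha, map_neg, map_neg, map_pow]
    ring
  · have := (Rd.one hr).sub hr ((Rd.cst_lt hr (c := π ^ 2 / a)
      (by rwa [map_div₀, map_pow, div_lt_one hv])).mul hr ((Rd.X hr).pow hr 2))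
    exact this.congr rfl (by simp)

/-- a chart centred at `0` -/
theorem ch0 (hr : IsRes vC ρC) {c a1 a2 a3 π γ s1 s2 s3 : C} {g1 g2 g3 h1 h2 h3 G H : k[X]}
    (f1 : Fc vC ρC π a1 s1 g1 h1) (f2 : Fc vC ρC π a2 s2 g2 h2) (f3 : Fc vC ρC π a3 s3 g3 h3)
    (pi0 : π ≠ 0) (ga0 : γ ≠ 0) (hγ : γ ^ 2 = c * π * s1 * s2 * s3)
    (hGH : X * (g1 ^ 2 * h1) * (g2 ^ 2 * h2) * (g3 ^ 2 * h3) = G ^ 2 * H) (G0 : G ≠ 0)
    (sep : H.Separable) (pos : 0 < H.natDegree) : Ch vC ρC (Fm c a1 a2 a3) 0 π γ G H := by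
  obtain ⟨f1, e1, r1⟩ := f1
  obtain ⟨f2, e2, r2⟩ := f2
  obtain ⟨f3, e3, r3⟩ := f3
  refine Ch.mk' (F1 := X * f1 * f2 * f3) pi0 ga0 ?_
    (((((Rd.X hr).mul hr r1).mul hr r2).mul hr r3).congr rfl hGH) G0 sep pos
  simp only [Fm, mul_comp, sub_comp, pow_comp, X_comp, C_comp, map_zero, zero_add, e1, e2, e3, hγ,
    map_mul]
  ring

theorem sep3 (h2 : (2 : k) ≠ 0) {a : k} (ha : a ≠ 0) :
    (X * (X ^ 2 - Polynomial.C a) : k[X]).Separable := by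
  refine separable_X.mul (separable_X_pow_sub_C a (by simpa using h2) ha) ?_
  have := Mo.cop_X (C := k) (c := 1) one_ne_zero ha
  simpa using this

theorem deg3 (a : k) : (X * (X ^ 2 - Polynomial.C a) : k[X]).natDegree = 3 := by
  rw [natDegree_mul X_ne_zero (monic_X_pow_sub_C a two_ne_zero).ne_zero, natDegree_X,
    natDegree_X_pow_sub_C]

theorem Fm_swap12 (c a1 a2 a3 : C) : Fm c a1 a2 a3 = Fm c a2 a1 a3 := by unfold Fm; ring

theorem Fm_swap23 (c a1 a2 a3 : C) : Fm c a1 a2 a3 = Fm c a1 a3 a2 := by unfold Fm; ring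

theorem Fm_rot (c a1 a2 a3 : C) : Fm c a1 a2 a3 = Fm c a3 a1 a2 := by unfold Fm; ring

/-- square roots of powers -/
theorem v_sqrt {x ϖ : C} {j : ℤ} (h : vC x ^ 2 = vC ϖ ^ (2 * j)) : vC x = vC ϖ ^ j := by
  rw [mul_comm, zpow_mul, zpow_ofNat] at h
  exact (pow_left_inj₀ zero_le zero_le two_ne_zero).mp h

end fc

variable {C k : Type} [Field C] [IsAlgClosed C] [Field k] {vC : Valuation C ℝ≥0} {ρC : C → k}

/-- **the chain row**: three discs centred at `0` -/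
theorem tab_chain (hr : IsRes vC ρC) (h2 : (2 : k) ≠ 0) {ϖ c a0 a1 a2 : C} (h0 : ϖ ≠ 0)
    (hϖ : vC ϖ < 1) {j0 j1 j2 n m0 m1 m2 : ℤ} (h01 : j1 < j0) (h12 : j2 < j1)
    (v0 : vC a0 = vC ϖ ^ (2 * j0)) (v1 : vC a1 = vC ϖ ^ (2 * j1)) (v2 : vC a2 = vC ϖ ^ (2 * j2))
    (vc : vC c = vC ϖ ^ n) (e0 : n + 3 * j0 + 2 * j1 + 2 * j2 = 2 * m0)
    (e1 : n + 5 * j1 + 2 * j2 = 2 * m1) (e2 : n + 7 * j2 = 2 * m2) {P : ℤ → ℤ → Prop}
    (P0 : P j0 m0) (P1 : P j1 m1) (P2 : P j2 m2) : Tab vC ρC (Fm c a0 a1 a2) ϖ P := by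
  have hp : 0 < vC ϖ := pos_iff_ne_zero.mpr (by simpa using h0)
  have ne : ∀ {x : C} {j : ℤ}, vC x = vC ϖ ^ j → x ≠ 0 := fun {x j} h hx => by
    rw [hx, map_zero] at h; exact (zpow_pos hp j).ne h
  have lt : ∀ {i j : ℤ}, i < j → vC ϖ ^ j < vC ϖ ^ i := fun h => zpow_lt_zpow_right_of_lt_one₀ hp hϖ h
  obtain ⟨p0, q0⟩ := IsAlgClosed.exists_pow_nat_eq a0 two_pos
  obtain ⟨p1, q1⟩ := IsAlgClosed.exists_pow_nat_eq a1 two_pos
  obtain ⟨p2, q2⟩ := IsAlgClosed.exists_pow_nat_eq a2 two_pos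
  have w0 : vC p0 ^ 2 = vC ϖ ^ (2 * j0) := by rw [← map_pow, q0, v0]
  have w1 : vC p1 ^ 2 = vC ϖ ^ (2 * j1) := by rw [← map_pow, q1, v1]
  have w2 : vC p2 ^ 2 = vC ϖ ^ (2 * j2) := by rw [← map_pow, q2, v2]
  have u0 := v_sqrt w0
  have u1 := v_sqrt w1
  have u2 := v_sqrt w2
  obtain ⟨g0, r0⟩ := IsAlgClosed.exists_pow_nat_eq (c * p0 * p0 ^ 2 * -a1 * -a2) two_pos
  obtain ⟨g1, r1⟩ := IsAlgClosed.exists_pow_nat_eq (c * p1 * p1 ^ 2 * p1 ^ 2 * -a2) two_pos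
  obtain ⟨g2, r2⟩ := IsAlgClosed.exists_pow_nat_eq (c * p2 * p2 ^ 2 * p2 ^ 2 * p2 ^ 2) two_pos
  have t0 : vC g0 = vC ϖ ^ m0 := v_sqrt (by
    rw [← map_pow, r0]
    simp only [map_mul, map_pow, Valuation.map_neg, w0, v1, v2, vc]
    rw [u0, ← e0]
    simp only [← zpow_add₀ hp.ne']
    congr 1; ring)
  have t1 : vC g1 = vC ϖ ^ m1 := v_sqrt (by
    rw [← map_pow, r1]
    simp only [map_mul, map_pow, Valuation.map_neg, w1, v2, vc]
    rw [u1, ← e1]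
    simp only [← zpow_add₀ hp.ne']
    congr 1; ring)
  have t2 : vC g2 = vC ϖ ^ m2 := v_sqrt (by
    rw [← map_pow, r2]
    simp only [map_mul, map_pow, w2, vc]
    rw [u2, ← e2]
    simp only [← zpow_add₀ hp.ne']
    congr 1; ring)
  have sp := sep3 h2 (a := (1 : k)) one_ne_zero
  have dg := deg3 (1 : k)
  have c0 : Ch vC ρC (Fm c a0 a1 a2) 0 p0 g0 1 (X * (X ^ 2 - Polynomial.C 1)) :=
    ch0 hr (Fc.self hr (ne u0) q0) (Fc.gt hr (by rw [w0, v1]; exact lt (by omega)))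
      (Fc.gt hr (by rw [w0, v2]; exact lt (by omega))) (ne u0) (ne t0) r0 (by ring) one_ne_zero sp
      (by omega)
  have c1 : Ch vC ρC (Fm c a0 a1 a2) 0 p1 g1 X (X * (X ^ 2 - Polynomial.C 1)) :=
    ch0 hr (Fc.lt hr (ne u1) (by rw [w1, v0]; exact lt (by omega))) (Fc.self hr (ne u1) q1)
      (Fc.gt hr (by rw [w1, v2]; exact lt (by omega))) (ne u1) (ne t1) r1 (by ring) X_ne_zero sp
      (by omega)
  have c2 : Ch vC ρC (Fm c a0 a1 a2) 0 p2 g2 (X ^ 2) (X * (X ^ 2 - Polynomial.C 1)) :=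
    ch0 hr (Fc.lt hr (ne u2) (by rw [w2, v0]; exact lt (by omega)))
      (Fc.lt hr (ne u2) (by rw [w2, v1]; exact lt (by omega))) (Fc.self hr (ne u2) q2)
      (ne u2) (ne t2) r2 (by ring) (pow_ne_zero 2 X_ne_zero) sp (by omega)
  have n01 : vC p0 ≠ vC p1 := by rw [u0, u1]; exact (lt h01).ne
  have n12 : vC p1 ≠ vC p2 := by rw [u1, u2]; exact (lt h12).ne
  have n02 : vC p0 ≠ vC p2 := by rw [u0, u2]; exact (lt (h12.trans h01)).ne
  refine ⟨Fin 3, inferInstance, fun _ => 0, ![p0, p1, p2], ![g0, g1, g2], ![1, X, X ^ 2],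
    fun _ => X * (X ^ 2 - Polynomial.C 1), ![j0, j1, j2], ![m0, m1, m2], ?_, ?_, ?_, ?_⟩
  · intro i; fin_cases i
    exacts [c0, c1, c2]
  · intro i i' h
    left
    fin_cases i <;> fin_cases i' <;>
      first | exact absurd rfl h | assumption | exact n01.symm | exact n12.symm | exact n02.symm
  · rw [Mo.natDegree_Fm (ne vc)]; simp only [dg]; simp
  · intro i; fin_cases i
    exacts [⟨.inl rfl, u0, t0, P0⟩, ⟨.inl rfl, u1, t1, P1⟩, ⟨.inl rfl, u2, t2, P2⟩]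

end Crest.Agent.T15.Nf
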