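import Mathlib
import Crest.Agent.T15.NfC_2

/-!
# Row 15, block Ht (helper2): the quaternion relations from a reduction table with odd scales
-/

set_option autoImplicit false
set_option linter.all false

namespace Crest.Agent.T15.Nf

open Polynomial Module
open scoped NNReal
open Crest.Agent.R013.RR7_948 Crest.Agent.R013.PicD_398
open Crest.Agent.R013.GR4_921 Crest.Agent.R013.Frob1_914
open Crest.Agent.T15.Hy

section grp

variable {C K : Type} [Field C] [Field K] [Algebra C K]

theorem SI_ext {e e' : SI C K C K} (h1 : e.s = e'.s) (h2 : e.f = e'.f) : e = e' := by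
  cases e; cases e'; cases h1; cases h2; rfl

/-- semilinear automorphisms fixing `x` and `w` -/
def GS (C : Type) [Field C] [Algebra C K] (x w : K) : Type :=
  {e : SI C K C K // e.f x = x ∧ e.f w = w}

noncomputable instance (x w : K) : Group (GS C x w) where
  mul a b := ⟨b.1.trans a.1, by show a.1.f (b.1.f x) = x; rw [b.2.1, a.2.1],
    by show a.1.f (b.1.f w) = w; rw [b.2.2, a.2.2]⟩
  one := ⟨SI.refl C K, rfl, rfl⟩
  inv a := ⟨a.1.symm, a.1.f.symm_apply_eq.mpr a.2.1.symm, a.1.f.symm_apply_eq.mpr a.2.2.symm⟩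
  mul_assoc _ _ _ := rfl
  one_mul _ := rfl
  mul_one _ := rfl
  inv_mul_cancel a := Subtype.ext (SI_ext a.1.s.self_trans_symm a.1.f.self_trans_symm)

variable [Algebra (RatFunc C) K] [IsScalarTower C (RatFunc C) K]
  [FiniteDimensional (RatFunc C) K] [Algebra.IsSeparable (RatFunc C) K]

noncomputable instance (x w : K) : DistribMulAction (GS C x w) (Pic C K) where
  smul a y := a.1.pic y
  one_smul y := by
    obtain ⟨D, rfl⟩ := cls_surjective y
    show (SI.refl C K).pic _ = _
    rw [SI.pic_cls]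
    congr 1
    ext P
    exact (SI.refl C K).D_apply D P
  mul_smul a b y := SI.pic_trans b.1 a.1 y
  smul_zero a := map_zero a.1.pic
  smul_add a := map_add a.1.pic

end grp

variable {C k K : Type} [Field C] [Field k] [IsAlgClosed C] [CharZero C] [Field K]
  [Algebra C K] [Algebra (RatFunc C) K] [IsScalarTower C (RatFunc C) K]
  [FiniteDimensional (RatFunc C) K] [Algebra.IsSeparable (RatFunc C) K] [IsAlgClosed k]
  {vC : Valuation C ℝ≥0} {ρC : C → k} {F : C[X]} {x w : K} {ϖ : C}

/-- **IRR** from the table -/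
theorem Tab.irr (hN : NOS) (h : Tab vC ρC F ϖ fun j m => Even j ∧ Odd m) (hr : IsRes vC ρC)
    (h2 : (2 : k) ≠ 0) {p : ℕ} (hp : p.Prime) (hpv : vC p < 1) (hy : Hyp F x w)
    (hodd : Odd F.natDegree) (h0 : ϖ ≠ 0) (e e' : SI C K C K) (hx : e.f x = x) (hw : e.f w = w)
    (hx' : e'.f x = x) (hw' : e'.f w = w) (hs : Inr vC e.s) (hϖ : e.s (ϖ ^ 2) = -ϖ ^ 2)
    (hϖ' : e'.s (ϖ ^ 4) = ϖ ^ 4) (ht : ∀ c, vC (e'.s c) = vC c) {i : C} (hi : i ^ 2 = -1)
    (hi' : e'.s i = -i) {n : ℕ} (hn : vC n = 1) {y : Pic C K} (hy0 : n • y = 0) :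
    e.pic (e.pic y) = -y ∧ e'.pic (e.pic y) = -e.pic (e'.pic y) :=
  Nf.irr (Γ := GS C x w) (M := Pic C K) (fun y => n • y = 0)
    (fun g y hy => by show n • g.1.pic y = 0; rw [← map_nsmul, hy, map_zero]) (fun g => g.1.s)
    (fun _ _ _ => rfl) (v_two hr h2) h0 hi
    (fun g h1 h3 y hy0 => h.triv hN hr h2 hp hpv hy h0 g.1 h1 h3 g.2.1 g.2.2 hn hy0)
    (fun g h1 h3 y hy0 => h.neg hN hr h2 hp hpv hy hodd h0 g.1 h1 h3 g.2.1 g.2.2 hn hy0)
    (σ := ⟨e, hx, hw⟩) (τ := ⟨e', hx', hw'⟩) hs hϖ hϖ' ht hi' y hy0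

omit [IsAlgClosed C] [CharZero C] in
/-- an isometry fixing `u ^ 2` and a unit `b` with `u ^ 2 ≡ b ^ 2` fixes `u` -/
theorem fix_of_near {s : C ≃+* C} (hs : ∀ c, vC (s c) = vC c) (h2 : vC 2 = 1) {u b : C}
    (hu : s (u ^ 2) = u ^ 2) (hb : s b = b) (hb1 : vC b = 1) (h : vC (u ^ 2 - b ^ 2) < 1) :
    s u = u := by
  rw [map_pow] at hu
  refine (sq_eq_sq_iff_eq_or_eq_neg.mp hu).resolve_right fun h1 => ?_
  have h3 : vC (u - b) = vC (u + b) := by
    rw [← hs, map_sub, h1, hb, ← Valuation.map_neg]; congr 1; ring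
  rw [sq_sub_sq, map_mul, ← h3] at h
  have h4 : vC (u - b) < 1 := by
    by_contra h5
    exact absurd h (not_lt.mpr (one_le_mul (not_lt.mp h5) (not_lt.mp h5)))
  have h5 := lt_of_le_of_lt (vC.map_sub (u + b) (u - b)) (max_lt (h3 ▸ h4) h4)
  rw [show u + b - (u - b) = 2 * b by ring, map_mul, h2, hb1, one_mul] at h5
  exact lt_irrefl _ h5

omit [CharZero C] [IsAlgClosed k] in
theorem isAlgClosed_res (h : IsRes vC ρC) : IsAlgClosed k := by
  refine IsAlgClosed.of_exists_root k fun q hq hirr => ?_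
  obtain ⟨p, hp⟩ := exists_lift h q
  have hd := degree_pos_of_irreducible hirr
  have h1 := hp.eq_one h hq.ne_zero
  by_contra hne
  push Not at hne
  have key : ∀ (n : ℕ) (p : C[X]) (q : k[X]), p.natDegree = n → Rd vC ρC p q → q ≠ 0 →
      (∀ a, q.eval a ≠ 0) → q.natDegree = 0 := by
    intro n
    induction n with
    | zero =>
      intro p q hn hp _ _
      rw [← Nat.le_zero, natDegree_le_iff_coeff_eq_zero]
      intro N hN
      rw [← (hp N).2, coeff_eq_zero_of_natDegree_lt (hn ▸ hN), h.zero]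
    | succ n ih =>
      intro p q hn hp hq0 hq
      obtain ⟨a, ha⟩ := IsAlgClosed.exists_root p (by
        rw [degree_eq_natDegree (by rintro rfl; simp at hn), hn]; exact_mod_cast n.succ_ne_zero)
      have hp1 := hp.eq_one h hq0
      have e1 := mul_divByMonic_eq_iff_isRoot.mpr ha
      have hdeg : (p /ₘ (X - Polynomial.C a)).natDegree = n := by
        rw [natDegree_divByMonic _ (monic_X_sub_C a), natDegree_X_sub_C, hn]; rfl
      have e2 : gn vC (X - Polynomial.C a) = max 1 (vC a) := by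
        rw [sub_eq_add_neg, ← map_neg, gn_X_add, Valuation.map_neg]
      have e3 := congrArg (gn vC) e1
      rw [gn_mul, e2, hp1] at e3
      rcases le_or_gt (vC a) 1 with hle | hlt
      · rw [max_eq_left hle, one_mul] at e3
        obtain ⟨r, hr⟩ := exists_rd h e3.le
        have := (((Rd.X h).sub h (Rd.cst h hle)).mul h hr).congr e1 rfl
        exact absurd (by rw [hp.unique this]; simp) (hq (ρC a))
      · have ha0 : a ≠ 0 := by rintro rfl; simp at hlt
        rw [max_eq_right hlt.le] at e3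
        obtain ⟨r, hr⟩ := exists_rd h (p := Polynomial.C (-a) * (p /ₘ (X - Polynomial.C a)))
          (by rw [gn_mul, gn_C, Valuation.map_neg, e3])
        have hi : vC a⁻¹ < 1 := by rw [map_inv₀]; exact inv_lt_one_of_one_lt₀ hlt
        have e4 : (1 - Polynomial.C a⁻¹ * X) * (Polynomial.C (-a) * (p /ₘ (X - Polynomial.C a))) =
            p := by
          have : Polynomial.C a⁻¹ * Polynomial.C a = 1 := by
            rw [← map_mul, inv_mul_cancel₀ ha0, map_one]
          rw [map_neg]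
          linear_combination e1 + X * (p /ₘ (X - Polynomial.C a)) * this
        have := (((Rd.one h).sub h ((Rd.cst_lt h hi).mul h (Rd.X h))).mul h hr).congr e4
          (by simp : _ = r)
        obtain rfl := hp.unique this
        exact ih _ _ (by rw [natDegree_C_mul (neg_ne_zero.mpr ha0), hdeg]) hr hq0 hq
  have := key _ p q rfl hp hq.ne_zero hne
  exact absurd (natDegree_pos_iff_degree_pos.mpr hd) (by omega)

end Crest.Agent.T15.Nf
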