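import Mathlib
import Crest.Agent.T15.MoA_29

/-!
# Row 15, block Ht (helper46): the matrix of `j` on the differentials, pure algebra
-/

set_option autoImplicit false
set_option linter.all false

namespace Crest.Agent.T15.Om

open Crest.Agent.T15.Mo

variable {K : Type*} [Field K]

/-- the three quadratic relations -/
structure Rl (P : Par K) (V R S u : K) : Prop where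
  hV : (P.p1 * P.d1) * (P.p2 * P.d2) * u * V ^ 2 = u - 2 * P.p3 ^ 2
  hR : (P.p1 * P.d1) * (P.p3 * P.d3) * u * R ^ 2 = 2 * P.p2 ^ 2 - u
  hS : (P.p2 * P.d2) * (P.p3 * P.d3) * u * S ^ 2 = 2 * P.p1 ^ 2 - u

/-- twice the second root -/
def U2 (P : Par K) (V R S u : K) : K :=
  -2 * (P.p1 * P.p2 + P.p1 * P.p3 + P.p2 * P.p3) - u +
    (P.p1 * P.d1) * (P.p2 * P.d2) * (P.p3 * P.d3) * u * V * R * S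

def E1 (P : Par K) (V R S u : K) : K :=
  (R + V) * (P.p1 * P.d1 * u * V * R) +
    (P.p3 * P.d3 * R - P.p2 * P.d2 * V) * (u + 2 * (P.p2 * P.p3)) * S ^ 2

def E0 (P : Par K) (V R u : K) : K :=
  (R + V) * (u + 2 * (P.p2 * P.p3)) +
    (P.p3 * P.d3 * R - P.p2 * P.d2 * V) * (P.p1 * P.d1 * u * V * R)

def LL (P : Par K) (V R u : K) : K :=
  P.d3 * ((u + P.p1 * P.p2) * V) + P.d2 * ((u + P.p1 * P.p3) * R)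

def TT (P : Par K) (V R S u : K) : K :=
  P.d1 * (u + P.p2 * P.p3) * S ^ 2 * (P.p3 * R - P.p2 * V)

namespace Rl

variable {P : Par K} {V R S u : K} (h : Rl P V R S u)
include h

theorem neg : Rl P V R (-S) u := ⟨h.hV, h.hR, by rw [neg_sq]; exact h.hS⟩

theorem PV : (U2 P V R S u + 2 * (P.p1 * P.p2)) * (u * (V + P.p3 * P.d3 * R * S)) =
    4 * (P.p1 * P.p2) * ((u + P.p1 * P.p2) * V) := by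
  unfold U2
  obtain ⟨hV, hR, hS⟩ := h
  unfold Par.d1 Par.d2 Par.d3 at *
  rw [P.p3_eq] at *
  generalize P.p1 = p1 at *
  generalize P.p2 = p2 at *
  linear_combination ((-1)*R*S*u*p1^2 + (1)*R*S*u*p2^2) * hV + ((-1)*V*u + (2)*V*p1^2) * hR + ((-1)*V*R^2*u*p1^4 + (-2)*V*R^2*u*p1^3*p2 + (1)*V*R^2*u*p1^2*p2^2 + (2)*V*R^2*u*p1*p2^3) * hS

theorem PR : (U2 P V R S u + 2 * (P.p1 * P.p3)) * (u * (R - P.p2 * P.d2 * V * S)) =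
    4 * (P.p1 * P.p3) * ((u + P.p1 * P.p3) * R) := by
  unfold U2
  obtain ⟨hV, hR, hS⟩ := h
  unfold Par.d1 Par.d2 Par.d3 at *
  rw [P.p3_eq] at *
  generalize P.p1 = p1 at *
  generalize P.p2 = p2 at *
  linear_combination ((1)*R*u + (-2)*R*p1^2) * hV + ((-2)*V*S*u*p1*p2 + (-1)*V*S*u*p2^2) * hR + ((2)*V^2*R*u*p1^3*p2 + (5)*V^2*R*u*p1^2*p2^2 + (2)*V^2*R*u*p1*p2^3) * hS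

theorem PS : 2 * U2 P V R S u * (u + P.p2 * P.p3) * S =
    (U2 P V R S u + 2 * (P.p2 * P.p3)) *
      ((u + 2 * (P.p2 * P.p3)) * S + P.p1 * P.d1 * u * V * R) := by
  unfold U2
  obtain ⟨hV, hR, hS⟩ := h
  unfold Par.d1 Par.d2 Par.d3 at *
  rw [P.p3_eq] at *
  generalize P.p1 = p1 at *
  generalize P.p2 = p2 at *
  linear_combination ((1)*R^2*S*u*p1^4 + (2)*R^2*S*u*p1^3*p2 + (-1)*R^2*S*u*p1^2*p2^2 + (-2)*R^2*S*u*p1*p2^3) * hV + ((-1)*S*u + (2)*S*p1^2 + (4)*S*p1*p2 + (2)*S*p2^2) * hR + ((1)*V*R*u*p1^2 + (2)*V*R*u*p1*p2) * hS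

theorem PX : (P.p1 * P.d1) * (P.p2 * P.d2) * (P.p3 * P.d3) * (u * (V + P.p3 * P.d3 * R * S)) *
    (u * (R - P.p2 * P.d2 * V * S)) * ((u + 2 * (P.p2 * P.p3)) * S + P.p1 * P.d1 * u * V * R) =
    4 * (P.p1 * P.p2) * (P.p1 * P.p3) *
      (-4 * (P.p1 * P.p2 + P.p1 * P.p3 + P.p2 * P.p3) - 4 * u - U2 P V R S u) := by
  unfold U2
  obtain ⟨hV, hR, hS⟩ := h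
  unfold Par.d1 Par.d2 Par.d3 at *
  rw [P.p3_eq] at *
  generalize P.p1 = p1 at *
  generalize P.p2 = p2 at *
  linear_combination ((-2)*V*R*S*u^2*p1^5*p2 + (-5)*V*R*S*u^2*p1^4*p2^2 + (5)*V*R*S*u^2*p1^2*p2^4 + (2)*V*R*S*u^2*p1*p2^5 + (-2)*R^2*u^2*p1^4 + (-4)*R^2*u^2*p1^3*p2 + (2)*R^2*u^2*p1^2*p2^2 + (4)*R^2*u^2*p1*p2^3 + (2)*R^2*u*p1^6 + (4)*R^2*u*p1^5*p2 + (-2)*R^2*u*p1^4*p2^2 + (-4)*R^2*u*p1^3*p2^3 + (1)*u^2 + (-2)*u*p1^2 + (-2)*u*p1*p2 + (-2)*u*p2^2 + (4)*p1^3*p2 + (4)*p1^2*p2^2) * hV + ((2)*V*R*S*u^2*p1^5*p2 + (5)*V*R*S*u^2*p1^4*p2^2 + (-5)*V*R*S*u^2*p1^2*p2^4 + (-2)*V*R*S*u^2*p1*p2^5 + (1)*u^2 + (-4)*u*p1^2 + (-6)*u*p1*p2 + (-2)*u*p2^2 + (4)*p1^4 + (4)*p1^3*p2) * hR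 + ((-2)*V^2*R^2*u^2*p1^7*p2 + (-9)*V^2*R^2*u^2*p1^6*p2^2 + (-10)*V^2*R^2*u^2*p1^5*p2^3 + (5)*V^2*R^2*u^2*p1^4*p2^4 + (12)*V^2*R^2*u^2*p1^3*p2^5 + (4)*V^2*R^2*u^2*p1^2*p2^6 + (2)*V^2*u^2*p1^3*p2 + (5)*V^2*u^2*p1^2*p2^2 + (2)*V^2*u^2*p1*p2^3 + (-4)*V^2*u*p1^4*p2^2 + (-14)*V^2*u*p1^3*p2^3 + (-14)*V^2*u*p1^2*p2^4 + (-4)*V^2*u*p1*p2^5 + (-2)*V*R*S*u^2*p1^5*p2 + (-5)*V*R*S*u^2*p1^4*p2^2 + (5)*V*R*S*u^2*p1^2*p2^4 + (2)*V*R*S*u^2*p1*p2^5 + (4)*V*R*S*u*p1^6*p2^2 + (14)*V*R*S*u*p1^5*p2^3 + (10)*V*R*S*u*p1^4*p2^4 + (-10)*V*R*S*u*p1^3*p2^5 + (-14)*V*R*S*u*p1^2*p2^6 + (-4)*V*R*S*u*p1*p2^7 + (-1)*R^2*u^2*p1^4 + (-2)*R^2*u^2*p1^3*p2 + (1)*R^2*u^2*p1^2*p2^2 + (2)*R^2*u^2*p1*p2^3 + (2)*R^2*u*p1^5*p2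 + (6)*R^2*u*p1^4*p2^2 + (2)*R^2*u*p1^3*p2^3 + (-6)*R^2*u*p1^2*p2^4 + (-4)*R^2*u*p1*p2^5) * hS

omit h in
theorem mult_ne (hu : u ≠ 0) :
    ((P.p1 * P.d1) * (P.p2 * P.d2) * u) * ((P.p2 * P.d2) * (P.p3 * P.d3) * u) ≠ 0 :=
  mul_ne_zero (mul_ne_zero (mul_ne_zero (mul_ne_zero P.h1 P.d1_ne) (mul_ne_zero P.h2 P.d2_ne)) hu)
    (mul_ne_zero (mul_ne_zero (mul_ne_zero P.h2 P.d2_ne) (mul_ne_zero P.h3 P.d3_ne)) hu)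

theorem J1 (hu : u ≠ 0) : LL P V R u * E1 P V R S u =
    2 * P.p1 * TT P V R S u * (P.p2 * P.d2 * V + P.p3 * P.d3 * R) := by
  apply mul_left_cancel₀ (mult_ne (P := P) hu)
  unfold LL E1 TT
  obtain ⟨hV, hR, hS⟩ := h
  unfold Par.d1 Par.d2 Par.d3 at *
  rw [P.p3_eq] at *
  generalize P.p1 = p1 at *
  generalize P.p2 = p2 at *
  linear_combination ((2)*V*R*u^3*p1^6*p2 + (3)*V*R*u^3*p1^5*p2^2 + (-5)*V*R*u^3*p1^4*p2^3 + (-5)*V*R*u^3*p1^3*p2^4 + (3)*V*R*u^3*p1^2*p2^5 + (2)*V*R*u^3*p1*p2^6 + (2)*V*R*u^2*p1^7*p2^2 + (3)*V*R*u^2*p1^6*p2^3 + (-5)*V*R*u^2*p1^5*p2^4 + (-5)*V*R*u^2*p1^4*p2^5 + (3)*V*R*u^2*p1^3*p2^6 + (2)*V*R*u^2*p1^2*p2^7 + (-2)*R^2*u^3*p1^6*p2 + (-9)*R^2*u^3*p1^5*p2^2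 + (-10)*R^2*u^3*p1^4*p2^3 + (5)*R^2*u^3*p1^3*p2^4 + (12)*R^2*u^3*p1^2*p2^5 + (4)*R^2*u^3*p1*p2^6 + (4)*R^2*u^2*p1^8*p2 + (18)*R^2*u^2*p1^7*p2^2 + (20)*R^2*u^2*p1^6*p2^3 + (-10)*R^2*u^2*p1^5*p2^4 + (-24)*R^2*u^2*p1^4*p2^5 + (-8)*R^2*u^2*p1^3*p2^6 + (-2)*u^3*p1^2*p2 + (1)*u^3*p1*p2^2 + (1)*u^3*p2^3 + (4)*u^2*p1^4*p2 + (4)*u^2*p1^3*p2^2 + (11)*u^2*p1^2*p2^3 + (1)*u^2*p1*p2^4 + (-2)*u^2*p2^5 + (-12)*u*p1^5*p2^2 + (-26)*u*p1^4*p2^3 + (-14)*u*p1^3*p2^4 + (-14)*u*p1^2*p2^5 + (-6)*u*p1*p2^6 + (24)*p1^5*p2^4 + (36)*p1^4*p2^5 + (12)*p1^3*p2^6) * hV + ((-8)*V*R*u^3*p1^5*p2^2 + (-28)*V*R*u^3*p1^4*p2^3 + (-30)*V*R*u^3*p1^3*p2^4 + (-13)*V*R*u^3*p1^2*p2^5 + (-2)*V*R*u^3*p1*p2^6 + (8)*V*R*u^2*p1^7*p2^2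 + (36)*V*R*u^2*p1^6*p2^3 + (58)*V*R*u^2*p1^5*p2^4 + (43)*V*R*u^2*p1^4*p2^5 + (15)*V*R*u^2*p1^3*p2^6 + (2)*V*R*u^2*p1^2*p2^7 + (-2)*u^3*p1^2*p2 + (1)*u^3*p1*p2^2 + (1)*u^3*p2^3 + (8)*u^2*p1^4*p2 + (10)*u^2*p1^3*p2^2 + (5)*u^2*p1^2*p2^3 + (-3)*u^2*p1*p2^4 + (-2)*u^2*p2^5 + (-8)*u*p1^6*p2 + (-36)*u*p1^5*p2^2 + (-56)*u*p1^4*p2^3 + (-48)*u*p1^3*p2^4 + (-26)*u*p1^2*p2^5 + (-6)*u*p1*p2^6 + (24)*p1^7*p2^2 + (84)*p1^6*p2^3 + (108)*p1^5*p2^4 + (60)*p1^4*p2^5 + (12)*p1^3*p2^6) * hR + ((-4)*V^2*u^3*p1^5*p2^2 + (-8)*V^2*u^3*p1^4*p2^3 + (3)*V^2*u^3*p1^3*p2^4 + (7)*V^2*u^3*p1^2*p2^5 + (2)*V^2*u^3*p1*p2^6 + (12)*V^2*u^2*p1^6*p2^3 + (56)*V^2*u^2*p1^5*p2^4 + (79)*V^2*u^2*p1^4*p2^5 + (27)*V^2*u^2*p1^3*p2^6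 + (-8)*V^2*u^2*p1^2*p2^7 + (-4)*V^2*u^2*p1*p2^8 + (-24)*V^2*u*p1^6*p2^5 + (-96)*V^2*u*p1^5*p2^6 + (-126)*V^2*u*p1^4*p2^7 + (-66)*V^2*u*p1^3*p2^8 + (-12)*V^2*u*p1^2*p2^9 + (2)*V*R*u^3*p1^6*p2 + (11)*V*R*u^3*p1^5*p2^2 + (23)*V*R*u^3*p1^4*p2^3 + (25)*V*R*u^3*p1^3*p2^4 + (16)*V*R*u^3*p1^2*p2^5 + (4)*V*R*u^3*p1*p2^6 + (2)*V*R*u^2*p1^7*p2^2 + (7)*V*R*u^2*p1^6*p2^3 + (-5)*V*R*u^2*p1^5*p2^4 + (-48)*V*R*u^2*p1^4*p2^5 + (-70)*V*R*u^2*p1^3*p2^6 + (-40)*V*R*u^2*p1^2*p2^7 + (-8)*V*R*u^2*p1*p2^8 + (-4)*R^2*u^3*p1^6*p2 + (-12)*R^2*u^3*p1^5*p2^2 + (-5)*R^2*u^3*p1^4*p2^3 + (10)*R^2*u^3*p1^3*p2^4 + (9)*R^2*u^3*p1^2*p2^5 + (2)*R^2*u^3*p1*p2^6 + (8)*R^2*u^2*p1^8*p2 + (46)*R^2*u^2*p1^7*p2^2 +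 (87)*R^2*u^2*p1^6*p2^3 + (39)*R^2*u^2*p1^5*p2^4 + (-63)*R^2*u^2*p1^4*p2^5 + (-81)*R^2*u^2*p1^3*p2^6 + (-32)*R^2*u^2*p1^2*p2^7 + (-4)*R^2*u^2*p1*p2^8 + (-12)*R^2*u*p1^9*p2^2 + (-66)*R^2*u*p1^8*p2^3 + (-126)*R^2*u*p1^7*p2^4 + (-72)*R^2*u*p1^6*p2^5 + (72)*R^2*u*p1^5*p2^6 + (126)*R^2*u*p1^4*p2^7 + (66)*R^2*u*p1^3*p2^8 + (12)*R^2*u*p1^2*p2^9) * hS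

theorem JV (hu : u ≠ 0) :
    LL P V R u * u * (V * E1 P V R S u + P.p3 * P.d3 * R * S ^ 2 * E0 P V R u) =
    -(4 * P.p1 * TT P V R S u) := by
  apply mul_left_cancel₀ (mult_ne (P := P) hu)
  unfold LL E1 E0 TT
  obtain ⟨hV, hR, hS⟩ := h
  unfold Par.d1 Par.d2 Par.d3 at *
  rw [P.p3_eq] at *
  generalize P.p1 = p1 at *
  generalize P.p2 = p2 at *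
  linear_combination ((2)*V^2*R*u^4*p1^6*p2 + (3)*V^2*R*u^4*p1^5*p2^2 + (-5)*V^2*R*u^4*p1^4*p2^3 + (-5)*V^2*R*u^4*p1^3*p2^4 + (3)*V^2*R*u^4*p1^2*p2^5 + (2)*V^2*R*u^4*p1*p2^6 + (2)*V^2*R*u^3*p1^7*p2^2 + (3)*V^2*R*u^3*p1^6*p2^3 + (-5)*V^2*R*u^3*p1^5*p2^4 + (-5)*V^2*R*u^3*p1^4*p2^5 + (3)*V^2*R*u^3*p1^3*p2^6 + (2)*V^2*R*u^3*p1^2*p2^7 + (-6)*V*R^2*u^4*p1^5*p2^2 + (-15)*V*R^2*u^4*p1^4*p2^3 + (15)*V*R^2*u^4*p1^2*p2^5 + (6)*V*R^2*u^4*p1*p2^6 + (14)*V*R^2*u^3*p1^7*p2^2 + (33)*V*R^2*u^3*p1^6*p2^3 + (-5)*V*R^2*u^3*p1^5*p2^4 + (-35)*V*R^2*u^3*p1^4*p2^5 + (-9)*V*R^2*u^3*p1^3*p2^6 + (2)*V*R^2*u^3*p1^2*p2^7 + (-4)*V*R^2*u^2*p1^9*p2^2 + (-6)*V*R^2*u^2*p1^8*p2^3 + (10)*V*R^2*u^2*p1^7*p2^4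 + (10)*V*R^2*u^2*p1^6*p2^5 + (-6)*V*R^2*u^2*p1^5*p2^6 + (-4)*V*R^2*u^2*p1^4*p2^7 + (-2)*V*u^4*p1^2*p2 + (1)*V*u^4*p1*p2^2 + (1)*V*u^4*p2^3 + (4)*V*u^3*p1^4*p2 + (1)*V*u^3*p1^2*p2^3 + (-3)*V*u^3*p1*p2^4 + (-2)*V*u^3*p2^5 + (-4)*V*u^2*p1^5*p2^2 + (-2)*V*u^2*p1^4*p2^3 + (8)*V*u^2*p1^3*p2^4 + (-2)*V*u^2*p1*p2^6 + (-8)*V*u*p1^6*p2^3 + (-4)*V*u*p1^5*p2^4 + (8)*V*u*p1^4*p2^5 + (4)*V*u*p1^3*p2^6 + (-1)*R^3*u^4*p1^7 + (-9)*R^3*u^4*p1^6*p2 + (-20)*R^3*u^4*p1^5*p2^2 + (-8)*R^3*u^4*p1^4*p2^3 + (15)*R^3*u^4*p1^3*p2^4 + (17)*R^3*u^4*p1^2*p2^5 + (6)*R^3*u^4*p1*p2^6 + (2)*R^3*u^3*p1^9 + (17)*R^3*u^3*p1^8*p2 + (47)*R^3*u^3*p1^7*p2^2 + (44)*R^3*u^3*p1^6*p2^3 + (-18)*R^3*u^3*p1^5*p2^4 + (-59)*R^3*u^3*p1^4*p2^5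 + (-31)*R^3*u^3*p1^3*p2^6 + (-2)*R^3*u^3*p1^2*p2^7 + (-6)*R^3*u^2*p1^10*p2 + (-30)*R^3*u^2*p1^9*p2^2 + (-42)*R^3*u^2*p1^8*p2^3 + (6)*R^3*u^2*p1^7*p2^4 + (48)*R^3*u^2*p1^6*p2^5 + (24)*R^3*u^2*p1^5*p2^6 + (1)*R*u^4*p1^3 + (3)*R*u^4*p1^2*p2 + (3)*R*u^4*p1*p2^2 + (2)*R*u^4*p2^3 + (-2)*R*u^3*p1^5 + (-9)*R*u^3*p1^4*p2 + (-25)*R*u^3*p1^3*p2^2 + (-24)*R*u^3*p1^2*p2^3 + (-8)*R*u^3*p1*p2^4 + (-4)*R*u^3*p2^5 + (14)*R*u^2*p1^6*p2 + (42)*R*u^2*p1^5*p2^2 + (50)*R*u^2*p1^4*p2^3 + (48)*R*u^2*p1^3*p2^4 + (26)*R*u^2*p1^2*p2^5 + (-8)*R*u*p1^7*p2^2 + (-48)*R*u*p1^6*p2^3 + (-68)*R*u*p1^5*p2^4 + (-24)*R*u*p1^4*p2^5 + (4)*R*u*p1^3*p2^6) * hV + ((4)*V*R^2*u^4*p1^6*p2 + (12)*V*R^2*u^4*p1^5*p2^2 +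 (5)*V*R^2*u^4*p1^4*p2^3 + (-10)*V*R^2*u^4*p1^3*p2^4 + (-9)*V*R^2*u^4*p1^2*p2^5 + (-2)*V*R^2*u^4*p1*p2^6 + (-12)*V*R^2*u^3*p1^8*p2 + (-40)*V*R^2*u^3*p1^7*p2^2 + (-27)*V*R^2*u^3*p1^6*p2^3 + (25)*V*R^2*u^3*p1^5*p2^4 + (37)*V*R^2*u^3*p1^4*p2^5 + (15)*V*R^2*u^3*p1^3*p2^6 + (2)*V*R^2*u^3*p1^2*p2^7 + (8)*V*R^2*u^2*p1^10*p2 + (32)*V*R^2*u^2*p1^9*p2^2 + (34)*V*R^2*u^2*p1^8*p2^3 + (-10)*V*R^2*u^2*p1^7*p2^4 + (-38)*V*R^2*u^2*p1^6*p2^5 + (-22)*V*R^2*u^2*p1^5*p2^6 + (-4)*V*R^2*u^2*p1^4*p2^7 + (-2)*V*u^4*p1^2*p2 + (1)*V*u^4*p1*p2^2 + (1)*V*u^4*p2^3 + (8)*V*u^3*p1^4*p2 + (6)*V*u^3*p1^3*p2^2 + (-5)*V*u^3*p1^2*p2^3 + (-7)*V*u^3*p1*p2^4 + (-2)*V*u^3*p2^5 + (-8)*V*u^2*p1^6*p2 + (-28)*V*u^2*p1^5*p2^2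 + (-32)*V*u^2*p1^4*p2^3 + (-26)*V*u^2*p1^3*p2^4 + (-12)*V*u^2*p1^2*p2^5 + (-2)*V*u^2*p1*p2^6 + (24)*V*u*p1^7*p2^2 + (76)*V*u*p1^6*p2^3 + (80)*V*u*p1^5*p2^4 + (32)*V*u*p1^4*p2^5 + (4)*V*u*p1^3*p2^6 + (1)*R*u^4*p1^3 + (3)*R*u^4*p1^2*p2 + (3)*R*u^4*p1*p2^2 + (2)*R*u^4*p2^3 + (-4)*R*u^3*p1^5 + (-19)*R*u^3*p1^4*p2 + (-43)*R*u^3*p1^3*p2^2 + (-40)*R*u^3*p1^2*p2^3 + (-16)*R*u^3*p1*p2^4 + (-4)*R*u^3*p2^5 + (4)*R*u^2*p1^7 + (32)*R*u^2*p1^6*p2 + (80)*R*u^2*p1^5*p2^2 + (94)*R*u^2*p1^4*p2^3 + (60)*R*u^2*p1^3*p2^4 + (18)*R*u^2*p1^2*p2^5 + (-12)*R*u*p1^8*p2 + (-44)*R*u*p1^7*p2^2 + (-60)*R*u*p1^6*p2^3 + (-32)*R*u*p1^5*p2^4 + (4)*R*u*p1^3*p2^6) * hR + ((4)*V^3*R^2*u^4*p1^9*p2^2 + (16)*V^3*R^2*u^4*p1^8*p2^3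 + (9)*V^3*R^2*u^4*p1^7*p2^4 + (-29)*V^3*R^2*u^4*p1^6*p2^5 + (-29)*V^3*R^2*u^4*p1^5*p2^6 + (9)*V^3*R^2*u^4*p1^4*p2^7 + (16)*V^3*R^2*u^4*p1^3*p2^8 + (4)*V^3*R^2*u^4*p1^2*p2^9 + (4)*V^3*R^2*u^3*p1^10*p2^3 + (16)*V^3*R^2*u^3*p1^9*p2^4 + (9)*V^3*R^2*u^3*p1^8*p2^5 + (-29)*V^3*R^2*u^3*p1^7*p2^6 + (-29)*V^3*R^2*u^3*p1^6*p2^7 + (9)*V^3*R^2*u^3*p1^5*p2^8 + (16)*V^3*R^2*u^3*p1^4*p2^9 + (4)*V^3*R^2*u^3*p1^3*p2^10 + (-4)*V^3*u^4*p1^5*p2^2 + (-8)*V^3*u^4*p1^4*p2^3 + (3)*V^3*u^4*p1^3*p2^4 + (7)*V^3*u^4*p1^2*p2^5 + (2)*V^3*u^4*p1*p2^6 + (4)*V^3*u^3*p1^6*p2^3 + (16)*V^3*u^3*p1^5*p2^4 + (13)*V^3*u^3*p1^4*p2^5 + (-13)*V^3*u^3*p1^3*p2^6 + (-16)*V^3*u^3*p1^2*p2^7 + (-4)*V^3*u^3*p1*p2^8 + (8)*V^3*u^2*p1^7*p2^4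 + (24)*V^3*u^2*p1^6*p2^5 + (10)*V^3*u^2*p1^5*p2^6 + (-20)*V^3*u^2*p1^4*p2^7 + (-18)*V^3*u^2*p1^3*p2^8 + (-4)*V^3*u^2*p1^2*p2^9 + (-2)*V^2*R^3*u^4*p1^10*p2 + (-15)*V^2*R^3*u^4*p1^9*p2^2 + (-43)*V^2*R^3*u^4*p1^8*p2^3 + (-56)*V^2*R^3*u^4*p1^7*p2^4 + (-21)*V^2*R^3*u^4*p1^6*p2^5 + (35)*V^2*R^3*u^4*p1^5*p2^6 + (58)*V^2*R^3*u^4*p1^4*p2^7 + (36)*V^2*R^3*u^4*p1^3*p2^8 + (8)*V^2*R^3*u^4*p1^2*p2^9 + (6)*V^2*R^3*u^3*p1^11*p2^2 + (45)*V^2*R^3*u^3*p1^10*p2^3 + (123)*V^2*R^3*u^3*p1^9*p2^4 + (129)*V^2*R^3*u^3*p1^8*p2^5 + (-21)*V^2*R^3*u^3*p1^7*p2^6 + (-150)*V^2*R^3*u^3*p1^6*p2^7 + (-108)*V^2*R^3*u^3*p1^5*p2^8 + (-24)*V^2*R^3*u^3*p1^4*p2^9 + (4)*V^2*R*u^4*p1^6*p2 + (14)*V^2*R*u^4*p1^5*p2^2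 + (18)*V^2*R*u^4*p1^4*p2^3 + (20)*V^2*R*u^4*p1^3*p2^4 + (19)*V^2*R*u^4*p1^2*p2^5 + (6)*V^2*R*u^4*p1*p2^6 + (-12)*V^2*R*u^3*p1^7*p2^2 + (-66)*V^2*R*u^3*p1^6*p2^3 + (-132)*V^2*R*u^3*p1^5*p2^4 + (-129)*V^2*R*u^3*p1^4*p2^5 + (-87)*V^2*R*u^3*p1^3*p2^6 + (-48)*V^2*R*u^3*p1^2*p2^7 + (-12)*V^2*R*u^3*p1*p2^8 + (8)*V^2*R*u^2*p1^8*p2^3 + (68)*V^2*R*u^2*p1^7*p2^4 + (196)*V^2*R*u^2*p1^6*p2^5 + (242)*V^2*R*u^2*p1^5*p2^6 + (124)*V^2*R*u^2*p1^4*p2^7 + (14)*V^2*R*u^2*p1^3*p2^8 + (-4)*V^2*R*u^2*p1^2*p2^9 + (4)*V*R^4*u^4*p1^10*p2 + (20)*V*R^4*u^4*p1^9*p2^2 + (25)*V*R^4*u^4*p1^8*p2^3 + (-20)*V*R^4*u^4*p1^7*p2^4 + (-58)*V*R^4*u^4*p1^6*p2^5 + (-20)*V*R^4*u^4*p1^5*p2^6 + (25)*V*R^4*u^4*p1^4*p2^7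 + (20)*V*R^4*u^4*p1^3*p2^8 + (4)*V*R^4*u^4*p1^2*p2^9 + (-4)*V*R^4*u^3*p1^12*p2 + (-24)*V*R^4*u^3*p1^11*p2^2 + (-45)*V*R^4*u^3*p1^10*p2^3 + (-5)*V*R^4*u^3*p1^9*p2^4 + (78)*V*R^4*u^3*p1^8*p2^5 + (78)*V*R^4*u^3*p1^7*p2^6 + (-5)*V*R^4*u^3*p1^6*p2^7 + (-45)*V*R^4*u^3*p1^5*p2^8 + (-24)*V*R^4*u^3*p1^4*p2^9 + (-4)*V*R^4*u^3*p1^3*p2^10 + (-6)*V*R^2*u^4*p1^6*p2 + (-21)*V*R^2*u^4*p1^5*p2^2 + (-15)*V*R^2*u^4*p1^4*p2^3 + (15)*V*R^2*u^4*p1^3*p2^4 + (21)*V*R^2*u^4*p1^2*p2^5 + (6)*V*R^2*u^4*p1*p2^6 + (8)*V*R^2*u^3*p1^8*p2 + (46)*V*R^2*u^3*p1^7*p2^2 + (91)*V*R^2*u^3*p1^6*p2^3 + (57)*V*R^2*u^3*p1^5*p2^4 + (-43)*V*R^2*u^3*p1^4*p2^5 + (-91)*V*R^2*u^3*p1^3*p2^6 + (-56)*V*R^2*u^3*p1^2*p2^7 + (-12)*V*R^2*u^3*p1*p2^8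 + (-16)*V*R^2*u^2*p1^9*p2^2 + (-84)*V*R^2*u^2*p1^8*p2^3 + (-142)*V*R^2*u^2*p1^7*p2^4 + (-44)*V*R^2*u^2*p1^6*p2^5 + (116)*V*R^2*u^2*p1^5*p2^6 + (124)*V*R^2*u^2*p1^4*p2^7 + (42)*V*R^2*u^2*p1^3*p2^8 + (4)*V*R^2*u^2*p1^2*p2^9 + (8)*V*u^2*p1^5*p2^2 + (36)*V*u^2*p1^4*p2^3 + (48)*V*u^2*p1^3*p2^4 + (16)*V*u^2*p1^2*p2^5 + (-8)*V*u*p1^6*p2^3 + (-44)*V*u*p1^5*p2^4 + (-84)*V*u*p1^4*p2^5 + (-64)*V*u*p1^3*p2^6 + (-16)*V*u*p1^2*p2^7 + (-4)*R^3*u^4*p1^6*p2 + (-12)*R^3*u^4*p1^5*p2^2 + (-5)*R^3*u^4*p1^4*p2^3 + (10)*R^3*u^4*p1^3*p2^4 + (9)*R^3*u^4*p1^2*p2^5 + (2)*R^3*u^4*p1*p2^6 + (4)*R^3*u^3*p1^8*p2 + (24)*R^3*u^3*p1^7*p2^2 + (49)*R^3*u^3*p1^6*p2^3 + (29)*R^3*u^3*p1^5*p2^4 + (-29)*R^3*u^3*p1^4*p2^5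 + (-49)*R^3*u^3*p1^3*p2^6 + (-24)*R^3*u^3*p1^2*p2^7 + (-4)*R^3*u^3*p1*p2^8 + (-8)*R^3*u^2*p1^9*p2^2 + (-40)*R^3*u^2*p1^8*p2^3 + (-66)*R^3*u^2*p1^7*p2^4 + (-24)*R^3*u^2*p1^6*p2^5 + (48)*R^3*u^2*p1^5*p2^6 + (60)*R^3*u^2*p1^4*p2^7 + (26)*R^3*u^2*p1^3*p2^8 + (4)*R^3*u^2*p1^2*p2^9 + (8)*R*u^2*p1^6*p2 + (44)*R*u^2*p1^5*p2^2 + (84)*R*u^2*p1^4*p2^3 + (64)*R*u^2*p1^3*p2^4 + (16)*R*u^2*p1^2*p2^5 + (-8)*R*u*p1^7*p2^2 + (-52)*R*u*p1^6*p2^3 + (-128)*R*u*p1^5*p2^4 + (-148)*R*u*p1^4*p2^5 + (-80)*R*u*p1^3*p2^6 + (-16)*R*u*p1^2*p2^7) * hS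

theorem JR (hu : u ≠ 0) :
    LL P V R u * u * (R * E1 P V R S u - P.p2 * P.d2 * V * S ^ 2 * E0 P V R u) =
    -(4 * P.p1 * TT P V R S u) := by
  apply mul_left_cancel₀ (mult_ne (P := P) hu)
  unfold LL E1 E0 TT
  obtain ⟨hV, hR, hS⟩ := h
  unfold Par.d1 Par.d2 Par.d3 at *
  rw [P.p3_eq] at *
  generalize P.p1 = p1 at *
  generalize P.p2 = p2 at *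
  linear_combination ((-4)*V^2*R*u^4*p1^5*p2^2 + (-8)*V^2*R*u^4*p1^4*p2^3 + (3)*V^2*R*u^4*p1^3*p2^4 + (7)*V^2*R*u^4*p1^2*p2^5 + (2)*V^2*R*u^4*p1*p2^6 + (8)*V^2*R*u^3*p1^7*p2^2 + (12)*V^2*R*u^3*p1^6*p2^3 + (-14)*V^2*R*u^3*p1^5*p2^4 + (-11)*V^2*R*u^3*p1^4*p2^5 + (3)*V^2*R*u^3*p1^3*p2^6 + (2)*V^2*R*u^3*p1^2*p2^7 + (8)*V^2*R*u^2*p1^8*p2^3 + (16)*V^2*R*u^2*p1^7*p2^4 + (-6)*V^2*R*u^2*p1^6*p2^5 + (-14)*V^2*R*u^2*p1^5*p2^6 + (-4)*V^2*R*u^2*p1^4*p2^7 + (4)*V*R^2*u^4*p1^6*p2 + (14)*V*R^2*u^4*p1^5*p2^2 + (18)*V*R^2*u^4*p1^4*p2^3 + (20)*V*R^2*u^4*p1^3*p2^4 + (19)*V*R^2*u^4*p1^2*p2^5 + (6)*V*R^2*u^4*p1*p2^6 + (-4)*V*R^2*u^3*p1^8*p2 + (-26)*V*R^2*u^3*p1^7*p2^2 + (-76)*V*R^2*u^3*p1^6*p2^3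 + (-118)*V*R^2*u^3*p1^5*p2^4 + (-85)*V*R^2*u^3*p1^4*p2^5 + (-17)*V*R^2*u^3*p1^3*p2^6 + (2)*V*R^2*u^3*p1^2*p2^7 + (12)*V*R^2*u^2*p1^9*p2^2 + (66)*V*R^2*u^2*p1^8*p2^3 + (126)*V*R^2*u^2*p1^7*p2^4 + (96)*V*R^2*u^2*p1^6*p2^5 + (24)*V*R^2*u^2*p1^5*p2^6 + (-2)*V*u^4*p1^2*p2 + (1)*V*u^4*p1*p2^2 + (1)*V*u^4*p2^3 + (4)*V*u^3*p1^4*p2 + (1)*V*u^3*p1^2*p2^3 + (-3)*V*u^3*p1*p2^4 + (-2)*V*u^3*p2^5 + (-4)*V*u^2*p1^5*p2^2 + (-2)*V*u^2*p1^4*p2^3 + (8)*V*u^2*p1^3*p2^4 + (-2)*V*u^2*p1*p2^6 + (-8)*V*u*p1^6*p2^3 + (-4)*V*u*p1^5*p2^4 + (8)*V*u*p1^4*p2^5 + (4)*V*u*p1^3*p2^6 + (-6)*R^3*u^4*p1^6*p2 + (-21)*R^3*u^4*p1^5*p2^2 + (-15)*R^3*u^4*p1^4*p2^3 + (15)*R^3*u^4*p1^3*p2^4 + (21)*R^3*u^4*p1^2*p2^5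 + (6)*R^3*u^4*p1*p2^6 + (16)*R^3*u^3*p1^8*p2 + (58)*R^3*u^3*p1^7*p2^2 + (47)*R^3*u^3*p1^6*p2^3 + (-35)*R^3*u^3*p1^5*p2^4 + (-61)*R^3*u^3*p1^4*p2^5 + (-23)*R^3*u^3*p1^3*p2^6 + (-2)*R^3*u^3*p1^2*p2^7 + (-8)*R^3*u^2*p1^10*p2 + (-32)*R^3*u^2*p1^9*p2^2 + (-34)*R^3*u^2*p1^8*p2^3 + (10)*R^3*u^2*p1^7*p2^4 + (38)*R^3*u^2*p1^6*p2^5 + (22)*R^3*u^2*p1^5*p2^6 + (4)*R^3*u^2*p1^4*p2^7 + (2)*R*u^4*p1^2*p2 + (5)*R*u^4*p1*p2^2 + (2)*R*u^4*p2^3 + (-12)*R*u^3*p1^4*p2 + (-26)*R*u^3*p1^3*p2^2 + (-18)*R*u^3*p1^2*p2^3 + (-12)*R*u^3*p1*p2^4 + (-4)*R*u^3*p2^5 + (16)*R*u^2*p1^6*p2 + (36)*R*u^2*p1^5*p2^2 + (54)*R*u^2*p1^4*p2^3 + (56)*R*u^2*p1^3*p2^4 + (18)*R*u^2*p1^2*p2^5 + (-8)*R*u*p1^7*p2^2 + (-52)*R*u*p1^6*p2^3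 + (-64)*R*u*p1^5*p2^4 + (-20)*R*u*p1^4*p2^5) * hV + ((-8)*V*R^2*u^4*p1^5*p2^2 + (-28)*V*R^2*u^4*p1^4*p2^3 + (-30)*V*R^2*u^4*p1^3*p2^4 + (-13)*V*R^2*u^4*p1^2*p2^5 + (-2)*V*R^2*u^4*p1*p2^6 + (8)*V*R^2*u^3*p1^7*p2^2 + (36)*V*R^2*u^3*p1^6*p2^3 + (58)*V*R^2*u^3*p1^5*p2^4 + (43)*V*R^2*u^3*p1^4*p2^5 + (15)*V*R^2*u^3*p1^3*p2^6 + (2)*V*R^2*u^3*p1^2*p2^7 + (-2)*V*u^4*p1^2*p2 + (1)*V*u^4*p1*p2^2 + (1)*V*u^4*p2^3 + (8)*V*u^3*p1^4*p2 + (6)*V*u^3*p1^3*p2^2 + (-5)*V*u^3*p1^2*p2^3 + (-7)*V*u^3*p1*p2^4 + (-2)*V*u^3*p2^5 + (-8)*V*u^2*p1^6*p2 + (-28)*V*u^2*p1^5*p2^2 + (-32)*V*u^2*p1^4*p2^3 + (-26)*V*u^2*p1^3*p2^4 + (-12)*V*u^2*p1^2*p2^5 + (-2)*V*u^2*p1*p2^6 + (24)*V*u*p1^7*p2^2 + (76)*V*u*p1^6*p2^3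 + (80)*V*u*p1^5*p2^4 + (32)*V*u*p1^4*p2^5 + (4)*V*u*p1^3*p2^6 + (2)*R*u^4*p1^2*p2 + (5)*R*u^4*p1*p2^2 + (2)*R*u^4*p2^3 + (-16)*R*u^3*p1^4*p2 + (-44)*R*u^3*p1^3*p2^2 + (-42)*R*u^3*p1^2*p2^3 + (-20)*R*u^3*p1*p2^4 + (-4)*R*u^3*p2^5 + (32)*R*u^2*p1^6*p2 + (92)*R*u^2*p1^5*p2^2 + (102)*R*u^2*p1^4*p2^3 + (52)*R*u^2*p1^3*p2^4 + (10)*R*u^2*p1^2*p2^5 + (-16)*R*u*p1^8*p2 + (-48)*R*u*p1^7*p2^2 + (-52)*R*u*p1^6*p2^3 + (-24)*R*u*p1^5*p2^4 + (-4)*R*u*p1^4*p2^5) * hR + ((-8)*V^4*R*u^4*p1^8*p2^3 + (-36)*V^4*R*u^4*p1^7*p2^4 + (-42)*V^4*R*u^4*p1^6*p2^5 + (13)*V^4*R*u^4*p1^5*p2^6 + (45)*V^4*R*u^4*p1^4*p2^7 + (24)*V^4*R*u^4*p1^3*p2^8 + (4)*V^4*R*u^4*p1^2*p2^9 + (-8)*V^4*R*u^3*p1^9*p2^4 + (-36)*V^4*R*u^3*p1^8*p2^5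 + (-42)*V^4*R*u^3*p1^7*p2^6 + (13)*V^4*R*u^3*p1^6*p2^7 + (45)*V^4*R*u^3*p1^5*p2^8 + (24)*V^4*R*u^3*p1^4*p2^9 + (4)*V^4*R*u^3*p1^3*p2^10 + (4)*V^3*R^2*u^4*p1^9*p2^2 + (32)*V^3*R^2*u^4*p1^8*p2^3 + (105)*V^3*R^2*u^4*p1^7*p2^4 + (187)*V^3*R^2*u^4*p1^6*p2^5 + (203)*V^3*R^2*u^4*p1^5*p2^6 + (138)*V^3*R^2*u^4*p1^4*p2^7 + (52)*V^3*R^2*u^4*p1^3*p2^8 + (8)*V^3*R^2*u^4*p1^2*p2^9 + (-12)*V^3*R^2*u^3*p1^10*p2^3 + (-96)*V^3*R^2*u^3*p1^9*p2^4 + (-303)*V^3*R^2*u^3*p1^8*p2^5 + (-477)*V^3*R^2*u^3*p1^7*p2^6 + (-390)*V^3*R^2*u^3*p1^6*p2^7 + (-156)*V^3*R^2*u^3*p1^5*p2^8 + (-24)*V^3*R^2*u^3*p1^4*p2^9 + (-4)*V^3*u^4*p1^5*p2^2 + (-8)*V^3*u^4*p1^4*p2^3 + (3)*V^3*u^4*p1^3*p2^4 + (7)*V^3*u^4*p1^2*p2^5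 + (2)*V^3*u^4*p1*p2^6 + (4)*V^3*u^3*p1^6*p2^3 + (16)*V^3*u^3*p1^5*p2^4 + (13)*V^3*u^3*p1^4*p2^5 + (-13)*V^3*u^3*p1^3*p2^6 + (-16)*V^3*u^3*p1^2*p2^7 + (-4)*V^3*u^3*p1*p2^8 + (8)*V^3*u^2*p1^7*p2^4 + (24)*V^3*u^2*p1^6*p2^5 + (10)*V^3*u^2*p1^5*p2^6 + (-20)*V^3*u^2*p1^4*p2^7 + (-18)*V^3*u^2*p1^3*p2^8 + (-4)*V^3*u^2*p1^2*p2^9 + (-8)*V^2*R^3*u^4*p1^9*p2^2 + (-44)*V^2*R^3*u^4*p1^8*p2^3 + (-78)*V^2*R^3*u^4*p1^7*p2^4 + (-29)*V^2*R^3*u^4*p1^6*p2^5 + (58)*V^2*R^3*u^4*p1^5*p2^6 + (69)*V^2*R^3*u^4*p1^4*p2^7 + (28)*V^2*R^3*u^4*p1^3*p2^8 + (4)*V^2*R^3*u^4*p1^2*p2^9 + (8)*V^2*R^3*u^3*p1^11*p2^2 + (52)*V^2*R^3*u^3*p1^10*p2^3 + (122)*V^2*R^3*u^3*p1^9*p2^4 + (107)*V^2*R^3*u^3*p1^8*p2^5 + (-29)*V^2*R^3*u^3*p1^7*p2^6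 + (-127)*V^2*R^3*u^3*p1^6*p2^7 + (-97)*V^2*R^3*u^3*p1^5*p2^8 + (-32)*V^2*R^3*u^3*p1^4*p2^9 + (-4)*V^2*R^3*u^3*p1^3*p2^10 + (12)*V^2*R*u^4*p1^4*p2^3 + (36)*V^2*R*u^4*p1^3*p2^4 + (27)*V^2*R*u^4*p1^2*p2^5 + (6)*V^2*R*u^4*p1*p2^6 + (-8)*V^2*R*u^3*p1^7*p2^2 + (-44)*V^2*R*u^3*p1^6*p2^3 + (-98)*V^2*R*u^3*p1^5*p2^4 + (-133)*V^2*R*u^3*p1^4*p2^5 + (-127)*V^2*R*u^3*p1^3*p2^6 + (-64)*V^2*R*u^3*p1^2*p2^7 + (-12)*V^2*R*u^3*p1*p2^8 + (16)*V^2*R*u^2*p1^8*p2^3 + (104)*V^2*R*u^2*p1^7*p2^4 + (236)*V^2*R*u^2*p1^6*p2^5 + (222)*V^2*R*u^2*p1^5*p2^6 + (76)*V^2*R*u^2*p1^4*p2^7 + (-2)*V^2*R*u^2*p1^3*p2^8 + (-4)*V^2*R*u^2*p1^2*p2^9 + (2)*V*R^2*u^4*p1^6*p2 + (19)*V*R^2*u^4*p1^5*p2^2 + (51)*V*R^2*u^4*p1^4*p2^3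 + (55)*V*R^2*u^4*p1^3*p2^4 + (29)*V*R^2*u^4*p1^2*p2^5 + (6)*V*R^2*u^4*p1*p2^6 + (-18)*V*R^2*u^3*p1^7*p2^2 + (-111)*V*R^2*u^3*p1^6*p2^3 + (-261)*V*R^2*u^3*p1^5*p2^4 + (-303)*V*R^2*u^3*p1^4*p2^5 + (-195)*V*R^2*u^3*p1^3*p2^6 + (-72)*V*R^2*u^3*p1^2*p2^7 + (-12)*V*R^2*u^3*p1*p2^8 + (28)*V*R^2*u^2*p1^8*p2^3 + (166)*V*R^2*u^2*p1^7*p2^4 + (380)*V*R^2*u^2*p1^6*p2^5 + (424)*V*R^2*u^2*p1^5*p2^6 + (236)*V*R^2*u^2*p1^4*p2^7 + (58)*V*R^2*u^2*p1^3*p2^8 + (4)*V*R^2*u^2*p1^2*p2^9 + (8)*V*u^2*p1^5*p2^2 + (36)*V*u^2*p1^4*p2^3 + (48)*V*u^2*p1^3*p2^4 + (16)*V*u^2*p1^2*p2^5 + (-8)*V*u*p1^6*p2^3 + (-44)*V*u*p1^5*p2^4 + (-84)*V*u*p1^4*p2^5 + (-64)*V*u*p1^3*p2^6 + (-16)*V*u*p1^2*p2^7 + (-4)*R^3*u^4*p1^6*p2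 + (-12)*R^3*u^4*p1^5*p2^2 + (-5)*R^3*u^4*p1^4*p2^3 + (10)*R^3*u^4*p1^3*p2^4 + (9)*R^3*u^4*p1^2*p2^5 + (2)*R^3*u^4*p1*p2^6 + (4)*R^3*u^3*p1^8*p2 + (24)*R^3*u^3*p1^7*p2^2 + (49)*R^3*u^3*p1^6*p2^3 + (29)*R^3*u^3*p1^5*p2^4 + (-29)*R^3*u^3*p1^4*p2^5 + (-49)*R^3*u^3*p1^3*p2^6 + (-24)*R^3*u^3*p1^2*p2^7 + (-4)*R^3*u^3*p1*p2^8 + (-8)*R^3*u^2*p1^9*p2^2 + (-40)*R^3*u^2*p1^8*p2^3 + (-66)*R^3*u^2*p1^7*p2^4 + (-24)*R^3*u^2*p1^6*p2^5 + (48)*R^3*u^2*p1^5*p2^6 + (60)*R^3*u^2*p1^4*p2^7 + (26)*R^3*u^2*p1^3*p2^8 + (4)*R^3*u^2*p1^2*p2^9 + (8)*R*u^2*p1^6*p2 + (44)*R*u^2*p1^5*p2^2 + (84)*R*u^2*p1^4*p2^3 + (64)*R*u^2*p1^3*p2^4 + (16)*R*u^2*p1^2*p2^5 + (-8)*R*u*p1^7*p2^2 + (-52)*R*u*p1^6*p2^3 + (-128)*R*u*p1^5*p2^4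 + (-148)*R*u*p1^4*p2^5 + (-80)*R*u*p1^3*p2^6 + (-16)*R*u*p1^2*p2^7) * hS

end Rl

end Crest.Agent.T15.Om
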