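import Mathlib
import Crest.Agent.T15.OmA_46

/-!
# Row 15, block Ht (helper46): the differentials `z^k dz / w` and the matrix of `j`, field level
-/

set_option autoImplicit false
set_option linter.all false

namespace Crest.Agent.T15.Om

open Crest.Agent.T15.Mo

variable {K : Type*} [Field K]

/-- the normalising constant -/
def kap (P : Par K) : K := -4 * (P.al * P.p3 - P.be * P.p2)

theorem kap_ne (P : Par K) (h2 : (2 : K) ≠ 0) : kap P ≠ 0 := by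
  have : (-4 : K) = -(2 * 2) := by norm_num
  unfold kap
  rw [this]
  exact mul_ne_zero (neg_ne_zero.mpr (mul_ne_zero h2 h2)) P.sub_ne2

/-- `S' = A B / (t d₁ (u + p₂ p₃))` -/
def S' (P : Par K) (A B u : K) : K := A * B / (P.t * P.d1) / (u + P.p2 * P.p3)

/-- the second root of the cubic -/
def nu (P : Par K) (A B u : K) : K :=
  (-2 * (P.p1 * P.p2 + P.p1 * P.p3 + P.p2 * P.p3) - u +
    (P.p1 * P.d1) * (P.p2 * P.d2) * (P.p3 * P.d3) * u * P.V' A (B ^ 2) u * P.R' A (B ^ 2) u *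
      (A * B / (P.t * P.d1) / (u + P.p2 * P.p3))) / 2

theorem S'_neg (P : Par K) (A B u : K) : S' P A (-B) u = -S' P A B u := by
  unfold S'; ring

theorem V_r (P : Par K) (A B : K) : P.V B (A ^ 2) = P.V A (B ^ 2) := by unfold Par.V; ring
theorem R_r (P : Par K) (A B : K) : P.R B (A ^ 2) = -P.R A (B ^ 2) := by unfold Par.R; ring
theorem V_n (P : Par K) (A B : K) : P.V (-A) B = P.V A B := by unfold Par.V; ring
theorem R_n (P : Par K) (A B : K) : P.R (-A) B = P.R A B := by unfold Par.R; ring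

theorem two_nu (P : Par K) (h2 : (2 : K) ≠ 0) (A B u : K) :
    2 * nu P A B u = U2 P (P.V' A (B ^ 2) u) (P.R' A (B ^ 2) u) (S' P A B u) u := by
  unfold nu U2 S'
  rw [mul_div_cancel₀ _ h2]

theorem AB_eq (P : Par K) {A B u : K} (hS : u + P.p2 * P.p3 ≠ 0) :
    A * B = P.t * P.d1 * (u + P.p2 * P.p3) * S' P A B u := by
  unfold S'
  have := P.ht; have := P.d1_ne
  field_simp

theorem idS (P : Par K) (u : K) :
    P.p3 * P.d3 * P.d3 ^ 2 * ((u - 2 * P.p3 ^ 2) * (u + P.p1 * P.p2) ^ 2) -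
    P.p2 * P.d2 * P.d2 ^ 2 * ((2 * P.p2 ^ 2 - u) * (u + P.p1 * P.p3) ^ 2) =
    P.p1 * P.d1 * P.d1 ^ 2 * ((2 * P.p1 ^ 2 - u) * (u + P.p2 * P.p3) ^ 2) := by
  simp only [Par.d1, Par.d2, Par.d3, P.p3_eq]; ring

theorem A_LL {P : Par K} {A B2 u : K} (h : Eqs P A B2 u) :
    A ^ 2 = P.t * LL P (P.V' A B2 u) (P.R' A B2 u) u := by
  have := h.A_sq
  rwa [h.V_eq, h.R_eq] at this

theorem rl {P : Par K} {A B u : K} (h : Eqs P A (B ^ 2) u) (hS : u + P.p2 * P.p3 ≠ 0) :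
    Rl P (P.V' A (B ^ 2) u) (P.R' A (B ^ 2) u) (S' P A B u) u := by
  refine ⟨h.V'_sq, h.R'_sq, ?_⟩
  have a := h.A_sq
  have b := h.B_eq
  rw [h.V_eq, h.R_eq] at a b
  have c := AB_eq P (A := A) (B := B) hS
  have hV := h.V'_sq
  have hR := h.R'_sq
  have e := idS P u
  apply mul_left_cancel₀ (mul_ne_zero (mul_ne_zero P.h1 P.d1_ne)
    (pow_ne_zero 2 (mul_ne_zero (mul_ne_zero P.ht P.d1_ne) hS)))
  generalize P.V' A (B ^ 2) u = V at *
  generalize P.R' A (B ^ 2) u = R at *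
  generalize S' P A B u = S at *
  have f : (P.t * P.d1 * (u + P.p2 * P.p3) * S) ^ 2 = P.t ^ 2 *
      (P.d3 ^ 2 * ((u + P.p1 * P.p2) * V) ^ 2 - P.d2 ^ 2 * ((u + P.p1 * P.p3) * R) ^ 2) := by
    rw [← c, mul_pow, a, b]; ring
  linear_combination (P.p1 * P.d1) * (P.p2 * P.d2) * (P.p3 * P.d3) * u * f +
    P.t ^ 2 * P.p3 * P.d3 ^ 3 * (u + P.p1 * P.p2) ^ 2 * hV -
    P.t ^ 2 * P.p2 * P.d2 ^ 3 * (u + P.p1 * P.p3) ^ 2 * hR + P.t ^ 2 * e

/-- the inverse of `r` on `u` -/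
theorem nu_nu {P : Par K} {A B u : K} (h : Eqs P A (B ^ 2) u) (hS : u + P.p2 * P.p3 ≠ 0)
    (n3 : nu P A B u + P.p1 * P.p2 ≠ 0) (n2 : nu P A B u + P.p1 * P.p3 ≠ 0)
    (n1 : nu P A B u + P.p2 * P.p3 ≠ 0) : nu P (-B) (-A) (nu P A B u) = u := by
  have h2 := h.two
  have r := rl h hS
  have e := two_nu P h2 A B u
  have pV := r.PV; have pR := r.PR; have pS := r.PS; have pX := r.PX
  rw [← e] at pV pR pS pX
  have e' := two_nu P h2 (-B) (-A) (nu P A B u)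
  have c := AB_eq P (A := A) (B := B) hS
  have c' := AB_eq P (A := -B) (B := -A) n1
  have v : (nu P A B u + P.p1 * P.p2) * P.V' (-B) ((-A) ^ 2) (nu P A B u) =
      (u + P.p1 * P.p2) * P.V' A (B ^ 2) u := by
    rw [← h.V_eq, Par.V', mul_div_cancel₀ _ n3, neg_sq, V_n, V_r]
  have w : (nu P A B u + P.p1 * P.p3) * P.R' (-B) ((-A) ^ 2) (nu P A B u) =
      -((u + P.p1 * P.p3) * P.R' A (B ^ 2) u) := by
    rw [← h.R_eq, Par.R', mul_div_cancel₀ _ n2, neg_sq, R_n, R_r]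
  generalize nu P (-B) (-A) (nu P A B u) = y at *
  generalize P.V' (-B) ((-A) ^ 2) (nu P A B u) = V1 at *
  generalize P.R' (-B) ((-A) ^ 2) (nu P A B u) = R1 at *
  generalize S' P (-B) (-A) (nu P A B u) = S1 at *
  generalize nu P A B u = x at *
  generalize P.V' A (B ^ 2) u = V at *
  generalize P.R' A (B ^ 2) u = R at *
  generalize S' P A B u = S at *
  have a1 : 2 * (P.p1 * P.p2) * V1 = u * (V + P.p3 * P.d3 * R * S) := by
    apply mul_left_cancel₀ (mul_ne_zero h2 n3)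
    linear_combination 4 * (P.p1 * P.p2) * v - pV
  have a2 : 2 * (P.p1 * P.p3) * R1 = -(u * (R - P.p2 * P.d2 * V * S)) := by
    apply mul_left_cancel₀ (mul_ne_zero h2 n2)
    linear_combination 4 * (P.p1 * P.p3) * w + pR
  have a0 : (x + P.p2 * P.p3) * S1 = (u + P.p2 * P.p3) * S := by
    apply mul_left_cancel₀ (mul_ne_zero P.ht P.d1_ne)
    linear_combination c - c'
  have a3 : 2 * x * S1 = (u + 2 * (P.p2 * P.p3)) * S + P.p1 * P.d1 * u * V * R := by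
    apply mul_left_cancel₀ (mul_ne_zero h2 n1)
    linear_combination pS + 4 * x * a0
  rw [← a1, ← a3, ← neg_eq_iff_eq_neg.mpr a2] at pX
  unfold U2 at e'
  apply mul_left_cancel₀ (mul_ne_zero (pow_ne_zero 4 h2)
    (mul_ne_zero (mul_ne_zero P.h1 P.h2) (mul_ne_zero P.h1 P.h3)))
  linear_combination 8 * (P.p1 * P.p2) * (P.p1 * P.p3) * e' - pX

section der

variable {R₀ : Type*} [CommSemiring R₀] [Algebra R₀ K]

/-- `D` kills the parameters -/
structure Kill (P : Par K) (D : Derivation R₀ K K) : Prop where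
  p1 : D P.p1 = 0
  p2 : D P.p2 = 0
  p3 : D P.p3 = 0
  al : D P.al = 0

variable {P : Par K} {D : Derivation R₀ K K} {A B2 u : K}

theorem D_two (D : Derivation R₀ K K) : D 2 = 0 := by
  have : (2 : K) = ((2 : ℕ) : K) := by norm_num
  rw [this, D.map_natCast]

theorem D_u (hD : Kill P D) (h : Eqs P A B2 u) :
    P.p3 ^ 2 * D u = (P.p1 * P.d1) * (P.p2 * P.d2) * u ^ 2 * P.V' A B2 u * D (P.V' A B2 u) := by
  have hV := h.V'_sq
  have e := congrArg D hV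
  simp only [Par.d1, Par.d2, Derivation.leibniz, Derivation.leibniz_pow, map_sub, hD.p1, hD.p2,
    hD.p3, D_two, smul_eq_mul, nsmul_eq_mul] at e hV ⊢
  apply mul_left_cancel₀ h.two
  push_cast at e
  linear_combination D u * hV - u * e

theorem D_V (hD : Kill P D) (h : Eqs P A B2 u) :
    D (P.V A B2) = D u * P.V' A B2 u + (u + P.p1 * P.p2) * D (P.V' A B2 u) := by
  rw [h.V_eq]
  simp only [Derivation.leibniz, map_add, hD.p1, hD.p2, smul_eq_mul]
  ring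

theorem D_V' (hD : Kill P D) (h : Eqs P A B2 u) :
    P.al * D (P.V' A B2 u) * P.z A B2 u = P.be * P.R' A B2 u * D (P.z A B2 u) := by
  have e := congrArg D h.V'_z
  have hz : P.z A B2 u = P.al * P.V' A B2 u + P.be * P.R' A B2 u := rfl
  simp only [Derivation.leibniz, Derivation.leibniz_pow, map_add, hD.al, D_two, smul_eq_mul,
    nsmul_eq_mul, Derivation.map_one_eq_zero] at e
  apply mul_left_cancel₀ h.two
  push_cast at e
  linear_combination e + 2 * D (P.z A B2 u) * hz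

theorem D_z (hD : Kill P D) (h : Eqs P A B2 u) :
    P.be * P.R A B2 * (u + P.p2 * P.p3) * D (P.z A B2 u) =
      P.al * P.p3 ^ 2 * P.z A B2 u * D (P.V A B2) := by
  have a := D_u hD h
  have b := D_V' hD h
  have hV := h.V'_sq
  have s := P.sum
  rw [D_V hD h, h.R_eq]
  generalize D (P.V' A B2 u) = dV at *
  generalize D (P.z A B2 u) = dz at *
  generalize P.V' A B2 u = V at *
  generalize P.R' A B2 u = R at *
  generalize P.z A B2 u = z at *
  linear_combination -(u + P.p1 * P.p3) * (u + P.p2 * P.p3) * b - P.al * z * V * a -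
    P.al * z * u * dV * hV + P.al * z * dV * u * P.p3 * s

theorem w_ne (h : Eqs P A B2 u) (hA : A ≠ 0) (hb : P.z A B2 u ^ 2 - P.b ≠ 0) : P.w A B2 u ≠ 0 :=
  div_ne_zero (mul_ne_zero (mul_ne_zero (mul_ne_zero hA h.z_ne) h.a1_ne) h.a2_ne) hb

theorem w_z (h : Eqs P A B2 u) (hb : P.z A B2 u ^ 2 - P.b ≠ 0) :
    P.w A B2 u * u * (P.p1 * P.d1) * P.al * P.be * (P.p3 * P.R' A B2 u - P.p2 * P.V' A B2 u) =
      -(kap P * A * P.p2 ^ 2 * P.p3 ^ 2 * P.z A B2 u ^ 2) := by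
  have a : P.w A B2 u * (P.z A B2 u ^ 2 - P.b) =
      A * P.z A B2 u * (P.z A B2 u ^ 2 - P.a1) * (P.z A B2 u ^ 2 - P.a2) := by
    rw [Par.w, div_mul_cancel₀ _ hb]
  have b := h.u_N
  rw [P.N_eq] at b
  have c := h.conic
  have hz : P.z A B2 u = P.al * P.V' A B2 u + P.be * P.R' A B2 u := rfl
  have d : P.b * (P.al * P.p3 - P.be * P.p2) = P.al * P.p3 + P.be * P.p2 := by
    rw [Par.b, div_mul_cancel₀ _ P.sub_ne2]
  apply mul_left_cancel₀ (mul_ne_zero h.two h.z_ne)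
  unfold kap
  generalize P.w A B2 u = w at *
  generalize P.V' A B2 u = V at *
  generalize P.R' A B2 u = R at *
  generalize P.z A B2 u = z at *
  have e : (z ^ 2 - P.b) * (P.al * P.p3 - P.be * P.p2) =
      2 * P.al * P.be * (P.p3 * R - P.p2 * V) * z := by
    linear_combination -d + (P.al * P.p3 + P.be * P.p2) * c + z * (P.al * P.p3 - P.be * P.p2) * hz
  linear_combination -(w * u * (P.p1 * P.d1)) * e +
    u * (P.p1 * P.d1) * (P.al * P.p3 - P.be * P.p2) * a + (P.al * P.p3 - P.be * P.p2) * A * z * b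

/-- `kap z dz / w` in terms of `dV` -/
theorem om1 (hD : Kill P D) (h : Eqs P A B2 u) (hA : A ≠ 0) (hb : P.z A B2 u ^ 2 - P.b ≠ 0) :
    kap P * A * P.R A B2 * (u + P.p2 * P.p3) * (P.z A B2 u * D (P.z A B2 u) / P.w A B2 u) =
      (P.p1 * P.d1) * (P.p2 * P.d2) * D (P.V A B2) * u *
        (P.p3 * P.R' A B2 u - P.p2 * P.V' A B2 u) := by
  have a := D_z hD h
  have b := w_z h hb
  have c := P.al_sq
  have hw := w_ne h hA hb
  rw [← mul_div_assoc, div_eq_iff hw]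
  apply mul_left_cancel₀ (mul_ne_zero P.be_ne (pow_ne_zero 2 P.h2))
  generalize D (P.V A B2) = W at *
  generalize D (P.z A B2 u) = dz at *
  generalize P.w A B2 u = w at *
  generalize P.V' A B2 u = V at *
  generalize P.R' A B2 u = R at *
  generalize P.z A B2 u = z at *
  linear_combination kap P * A * P.p2 ^ 2 * z * a + P.al * W * b -
    w * u * (P.p1 * P.d1) * P.be * (P.p3 * R - P.p2 * V) * W * c

/-- the transform by `r` -/
theorem tr_V {P : Par K} {A B u : K} (h : Eqs P A (B ^ 2) u) (hS : u + P.p2 * P.p3 ≠ 0)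
    (n3 : nu P A B u + P.p1 * P.p2 ≠ 0) :
    2 * (P.p1 * P.p2) * P.V' (-B) (A ^ 2) (nu P A B u) =
      u * (P.V' A (B ^ 2) u + P.p3 * P.d3 * P.R' A (B ^ 2) u * S' P A B u) := by
  have pV := (rl h hS).PV
  rw [← two_nu P h.two A B u] at pV
  have v : (nu P A B u + P.p1 * P.p2) * P.V' (-B) (A ^ 2) (nu P A B u) =
      (u + P.p1 * P.p2) * P.V' A (B ^ 2) u := by
    rw [← h.V_eq, Par.V', mul_div_cancel₀ _ n3, V_n, V_r]
  apply mul_left_cancel₀ (mul_ne_zero h.two n3)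
  linear_combination 4 * (P.p1 * P.p2) * v - pV

theorem tr_R {P : Par K} {A B u : K} (h : Eqs P A (B ^ 2) u) (hS : u + P.p2 * P.p3 ≠ 0)
    (n2 : nu P A B u + P.p1 * P.p3 ≠ 0) :
    2 * (P.p1 * P.p3) * P.R' (-B) (A ^ 2) (nu P A B u) =
      -(u * (P.R' A (B ^ 2) u - P.p2 * P.d2 * P.V' A (B ^ 2) u * S' P A B u)) := by
  have pR := (rl h hS).PR
  rw [← two_nu P h.two A B u] at pR
  have w : (nu P A B u + P.p1 * P.p3) * P.R' (-B) (A ^ 2) (nu P A B u) =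
      -((u + P.p1 * P.p3) * P.R' A (B ^ 2) u) := by
    rw [← h.R_eq, Par.R', mul_div_cancel₀ _ n2, R_n, R_r]
  apply mul_left_cancel₀ (mul_ne_zero h.two n2)
  linear_combination 4 * (P.p1 * P.p3) * w + pR

theorem tr_om (hD : Kill P D) {B : K} (h : Eqs P A (B ^ 2) u) (hS : u + P.p2 * P.p3 ≠ 0)
    (h' : Eqs P (-B) (A ^ 2) (nu P A B u)) (n1 : nu P A B u + P.p2 * P.p3 ≠ 0) (hB : B ≠ 0)
    (hb : P.z (-B) (A ^ 2) (nu P A B u) ^ 2 - P.b ≠ 0) :
    4 * P.p1 * kap P * B * P.R A (B ^ 2) * (u + P.p2 * P.p3) * S' P A B u *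
      (P.z (-B) (A ^ 2) (nu P A B u) * D (P.z (-B) (A ^ 2) (nu P A B u)) /
        P.w (-B) (A ^ 2) (nu P A B u)) =
    -((P.p1 * P.d1) * (P.p2 * P.d2) * D (P.V A (B ^ 2)) * u *
      (E1 P (P.V' A (B ^ 2) u) (P.R' A (B ^ 2) u) (S' P A B u) u +
        S' P A B u * E0 P (P.V' A (B ^ 2) u) (P.R' A (B ^ 2) u) u)) := by
  have a := om1 hD h' (neg_ne_zero.mpr hB) hb
  rw [V_n, V_r, R_n, R_r] at a
  have v := tr_V h hS h'.n3
  have w := tr_R h hS h'.n2
  have pS := (rl h hS).PS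
  rw [← two_nu P h.two A B u] at pS
  unfold E1 E0
  generalize P.z (-B) (A ^ 2) (nu P A B u) * D (P.z (-B) (A ^ 2) (nu P A B u)) /
    P.w (-B) (A ^ 2) (nu P A B u) = x at *
  generalize P.V' (-B) (A ^ 2) (nu P A B u) = V1 at *
  generalize P.R' (-B) (A ^ 2) (nu P A B u) = R1 at *
  generalize nu P A B u = y at *
  generalize P.V' A (B ^ 2) u = V at *
  generalize P.R' A (B ^ 2) u = R at *
  generalize S' P A B u = S at *
  generalize D (P.V A (B ^ 2)) = W at *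
  generalize P.R A (B ^ 2) = Rf at *
  have e : 2 * P.p1 * (P.p3 * R1 - P.p2 * V1) =
      -(u * (R + V + S * (P.p3 * P.d3 * R - P.p2 * P.d2 * V))) := by
    linear_combination w - v
  apply mul_left_cancel₀ (mul_ne_zero h.two n1)
  linear_combination 8 * P.p1 * (u + P.p2 * P.p3) * S * a +
    (P.p1 * P.d1) * (P.p2 * P.d2) * W * (4 * y * (u + P.p2 * P.p3) * S) * e -
    (P.p1 * P.d1) * (P.p2 * P.d2) * W * (u * (R + V + S * (P.p3 * P.d3 * R - P.p2 * P.d2 * V))) * pS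

/-- all that is needed about one triple and its two transforms -/
structure Tri (P : Par K) (A B u : K) : Prop where
  h0 : Eqs P A (B ^ 2) u
  hp : Eqs P (-B) (A ^ 2) (nu P A B u)
  hm : Eqs P B (A ^ 2) (nu P A (-B) u)
  s0 : u + P.p2 * P.p3 ≠ 0
  sp : nu P A B u + P.p2 * P.p3 ≠ 0
  sm : nu P A (-B) u + P.p2 * P.p3 ≠ 0
  hA : A ≠ 0
  hB : B ≠ 0
  hR : P.R A (B ^ 2) ≠ 0
  b0 : P.z A (B ^ 2) u ^ 2 - P.b ≠ 0
  bp : P.z (-B) (A ^ 2) (nu P A B u) ^ 2 - P.b ≠ 0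
  bm : P.z B (A ^ 2) (nu P A (-B) u) ^ 2 - P.b ≠ 0

/-- `z dz / w` -/
def om (P : Par K) (D : Derivation R₀ K K) (A B2 u : K) : K :=
  P.z A B2 u * D (P.z A B2 u) / P.w A B2 u

theorem key (hD : Kill P D) {B : K} (h : Tri P A B u) :
    (om P D (-B) (A ^ 2) (nu P A B u) + om P D B (A ^ 2) (nu P A (-B) u) =
      -((P.p2 * P.d2 * P.V' A (B ^ 2) u + P.p3 * P.d3 * P.R' A (B ^ 2) u) * om P D A (B ^ 2) u)) ∧
    P.p1 * P.p2 * (P.V' (-B) (A ^ 2) (nu P A B u) * om P D (-B) (A ^ 2) (nu P A B u) +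
      P.V' B (A ^ 2) (nu P A (-B) u) * om P D B (A ^ 2) (nu P A (-B) u)) = om P D A (B ^ 2) u ∧
    P.p1 * P.p3 * (P.R' (-B) (A ^ 2) (nu P A B u) * om P D (-B) (A ^ 2) (nu P A B u) +
      P.R' B (A ^ 2) (nu P A (-B) u) * om P D B (A ^ 2) (nu P A (-B) u)) = -om P D A (B ^ 2) u := by
  have h2 := h.h0.two
  have h0' : Eqs P A ((-B) ^ 2) u := by rw [neg_sq]; exact h.h0
  have hm' : Eqs P (- -B) (A ^ 2) (nu P A (-B) u) := by rw [neg_neg]; exact h.hm
  have a0 := om1 hD h.h0 h.hA h.b0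
  have a1 := tr_om hD h.h0 h.s0 h.hp h.sp h.hB h.bp
  have a2 := tr_om hD h0' h.s0 hm' h.sm (neg_ne_zero.mpr h.hB) (by rw [neg_neg]; exact h.bm)
  have v1 := tr_V h.h0 h.s0 h.hp.n3
  have v2 := tr_V h0' h.s0 h.hm.n3
  have w1 := tr_R h.h0 h.s0 h.hp.n2
  have w2 := tr_R h0' h.s0 h.hm.n2
  rw [neg_neg, neg_sq, S'_neg] at a2 v2 w2
  have r := rl h.h0 h.s0
  have j1 := r.J1 h.h0.u_ne
  have jV := r.JV h.h0.u_ne
  have jR := r.JR h.h0.u_ne
  have c := AB_eq P (A := A) (B := B) h.s0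
  have l := A_LL h.h0
  have hS : S' P A B u ≠ 0 := fun h1 => by
    rw [h1, mul_zero] at c
    exact mul_ne_zero h.hA h.hB c
  have G : (2 : K) ^ 3 * P.p1 * kap P * B * P.R A (B ^ 2) * (u + P.p2 * P.p3) * S' P A B u * A ^ 2 ≠ 0 :=
    mul_ne_zero (mul_ne_zero (mul_ne_zero (mul_ne_zero (mul_ne_zero (mul_ne_zero (mul_ne_zero
      (pow_ne_zero 3 h2) P.h1) (kap_ne P h2)) h.hB) h.hR) h.s0) hS) (pow_ne_zero 2 h.hA)
  have ee : E1 P (P.V' A (B ^ 2) u) (P.R' A (B ^ 2) u) (-S' P A B u) u =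
      E1 P (P.V' A (B ^ 2) u) (P.R' A (B ^ 2) u) (S' P A B u) u := by unfold E1; ring
  rw [ee] at a2
  clear ee
  unfold om TT at *
  generalize P.z (-B) (A ^ 2) (nu P A B u) * D (P.z (-B) (A ^ 2) (nu P A B u)) /
    P.w (-B) (A ^ 2) (nu P A B u) = x1 at *
  generalize P.z B (A ^ 2) (nu P A (-B) u) * D (P.z B (A ^ 2) (nu P A (-B) u)) /
    P.w B (A ^ 2) (nu P A (-B) u) = x2 at *
  generalize P.z A (B ^ 2) u * D (P.z A (B ^ 2) u) / P.w A (B ^ 2) u = x at *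
  generalize E1 P (P.V' A (B ^ 2) u) (P.R' A (B ^ 2) u) (S' P A B u) u = e1 at *
  generalize E0 P (P.V' A (B ^ 2) u) (P.R' A (B ^ 2) u) u = e0 at *
  generalize LL P (P.V' A (B ^ 2) u) (P.R' A (B ^ 2) u) u = L at *
  generalize P.V' (-B) (A ^ 2) (nu P A B u) = V1 at *
  generalize P.R' (-B) (A ^ 2) (nu P A B u) = R1 at *
  generalize P.V' B (A ^ 2) (nu P A (-B) u) = V2 at *
  generalize P.R' B (A ^ 2) (nu P A (-B) u) = R2 at *
  generalize P.V' A (B ^ 2) u = V at *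
  generalize P.R' A (B ^ 2) u = R at *
  generalize S' P A B u = S at *
  generalize D (P.V A (B ^ 2)) = W at *
  generalize P.R A (B ^ 2) = Rf at *
  generalize (P.p1 * P.d1) * (P.p2 * P.d2) * W * u = Z at *
  generalize kap P = k at *
  have f0 : 4 * P.p1 * k * B * Rf * (u + P.p2 * P.p3) * S * A ^ 2 * x =
      4 * P.p1 * P.t * (P.d1 * (u + P.p2 * P.p3) * S ^ 2 * (P.p3 * R - P.p2 * V)) * Z := by
    linear_combination 4 * P.p1 * S * (A * B) * a0 + 4 * P.p1 * S * Z * (P.p3 * R - P.p2 * V) * c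
  have f1 : 4 * P.p1 * k * B * Rf * (u + P.p2 * P.p3) * S * A ^ 2 * x1 =
      -(Z * P.t * L * (e1 + S * e0)) := by
    linear_combination A ^ 2 * a1 - Z * (e1 + S * e0) * l
  have f2 : 4 * P.p1 * k * B * Rf * (u + P.p2 * P.p3) * S * A ^ 2 * x2 =
      -(Z * P.t * L * (e1 - S * e0)) := by
    linear_combination A ^ 2 * a2 - Z * (e1 - S * e0) * l
  refine ⟨mul_left_cancel₀ G ?_, mul_left_cancel₀ G ?_, mul_left_cancel₀ G ?_⟩
  · linear_combination 2 * f1 + 2 * f2 + 2 * (P.p2 * P.d2 * V + P.p3 * P.d3 * R) * f0 -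
      4 * Z * P.t * j1
  · linear_combination 2 * (P.p1 * P.p2) * V1 * f1 + 2 * (P.p1 * P.p2) * V2 * f2 - 2 * f0 -
      Z * P.t * L * (e1 + S * e0) * v1 - Z * P.t * L * (e1 - S * e0) * v2 - 2 * Z * P.t * jV
  · linear_combination 2 * (P.p1 * P.p3) * R1 * f1 + 2 * (P.p1 * P.p3) * R2 * f2 + 2 * f0 -
      Z * P.t * L * (e1 + S * e0) * w1 - Z * P.t * L * (e1 - S * e0) * w2 + 2 * Z * P.t * jR

theorem om_zero (h : Eqs P A B2 u) : P.z A B2 u ^ 0 * D (P.z A B2 u) / P.w A B2 u =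
    (P.al * P.V' A B2 u - P.be * P.R' A B2 u) * om P D A B2 u := by
  rw [← h.z_inv, om, ← mul_div_assoc, ← mul_assoc, inv_mul_cancel₀ h.z_ne, pow_zero]

theorem om_one : P.z A B2 u ^ 1 * D (P.z A B2 u) / P.w A B2 u = om P D A B2 u := by
  rw [pow_one, om]

theorem om_two : P.z A B2 u ^ 2 * D (P.z A B2 u) / P.w A B2 u =
    (P.al * P.V' A B2 u + P.be * P.R' A B2 u) * om P D A B2 u := by
  rw [om, ← mul_div_assoc, ← mul_assoc, sq]; rfl

/-- the matrix of `j` -/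
def Mx (P : Par K) : Matrix (Fin 3) (Fin 3) K :=
  !![0, P.al / (P.p1 * P.p2) + P.be / (P.p1 * P.p3), 0;
    P.al / (2 * P.p2 ^ 2) + P.be / (2 * P.p3 ^ 2), 0, P.al / (2 * P.p2 ^ 2) - P.be / (2 * P.p3 ^ 2);
    0, P.al / (P.p1 * P.p2) - P.be / (P.p1 * P.p3), 0]

/-- **MAT**, field level -/
theorem mat (hD : Kill P D) {B : K} (h : Tri P A B u) (k : Fin 3) :
    P.z (-B) (A ^ 2) (nu P A B u) ^ (k : ℕ) * D (P.z (-B) (A ^ 2) (nu P A B u)) /
        P.w (-B) (A ^ 2) (nu P A B u) +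
      P.z B (A ^ 2) (nu P A (-B) u) ^ (k : ℕ) * D (P.z B (A ^ 2) (nu P A (-B) u)) /
        P.w B (A ^ 2) (nu P A (-B) u) =
    ∑ m : Fin 3, Mx P k m *
      (P.z A (B ^ 2) u ^ (m : ℕ) * D (P.z A (B ^ 2) u) / P.w A (B ^ 2) u) := by
  obtain ⟨k1, k2, k3⟩ := key hD h
  have h2 := h.h0.two
  have := P.h1; have := P.h2; have := P.h3
  have ha := P.al_sq; have hb := P.be_sq
  rw [Fin.sum_univ_three]
  simp only [Fin.val_zero, Fin.val_one, Fin.val_two, om_zero h.h0, om_one, om_two]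
  fin_cases k
  · simp only [Fin.zero_eta, Fin.val_zero, om_zero h.hp, om_zero h.hm, Mx]
    simp
    field_simp
    linear_combination P.al * P.p3 * k2 - P.be * P.p2 * k3
  · simp only [Fin.mk_one, Fin.val_one, om_one, Mx]
    simp
    rw [k1]
    field_simp
    linear_combination -(2 * om P D A (B ^ 2) u * P.p3 ^ 2 * P.V' A (B ^ 2) u) * ha +
      2 * om P D A (B ^ 2) u * P.p2 ^ 2 * P.R' A (B ^ 2) u * hb
  · simp only [Fin.reduceFinMk, Fin.val_two, om_two, Mx]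
    simp
    field_simp
    linear_combination P.al * P.p3 * k2 + P.be * P.p2 * k3

end der

end Crest.Agent.T15.Om
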