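import Mathlib
import Crest.Agent.T15.OmB_46

/-!
# Row 15, block Ht (helper46): the matrix of `j` for an automorphism `r`
-/

set_option autoImplicit false
set_option linter.all false

namespace Crest.Agent.T15.Om

open Crest.Agent.T15.Mo

variable {C K K' : Type*} [Field C] [Field K] [Field K']

/-- the parameters inside `K` -/
abbrev up (P : Par C) (K : Type*) [Field K] [Algebra C K] : Par K := P.map (algebraMap C K)

theorem add_c_ne [Algebra C K] {u : K} (h : Transcendental C u) (c : C) :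
    u + algebraMap C K c ≠ 0 := by
  intro h0
  exact h (by rw [eq_neg_of_add_eq_zero_left h0, ← map_neg]; exact isAlgebraic_algebraMap _)

section act

variable (f : K →+* K') (Q : Par K) (A B2 u : K)

theorem mV : f (Q.V A B2) = (Q.map f).V (f A) (f B2) := by simp [Par.V, map_ofNat]
theorem mR : f (Q.R A B2) = (Q.map f).R (f A) (f B2) := by simp [Par.R, map_ofNat]
theorem mV' : f (Q.V' A B2 u) = (Q.map f).V' (f A) (f B2) (f u) := by simp [Par.V', mV]
theorem mR' : f (Q.R' A B2 u) = (Q.map f).R' (f A) (f B2) (f u) := by simp [Par.R', mR]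
theorem mz : f (Q.z A B2 u) = (Q.map f).z (f A) (f B2) (f u) := by simp [Par.z, mV', mR']
theorem mw : f (Q.w A B2 u) = (Q.map f).w (f A) (f B2) (f u) := by simp [Par.w, mz]

end act

theorem map_Xc (f : K →+* K') (Q : Par K) (A B2 : K) :
    f (Q.Xc A B2) = (Q.map f).Xc (f A) (f B2) := by
  simp [Par.Xc, mV, map_ofNat]

theorem eqs_map {Q : Par K} {A B2 u : K} (h : Eqs Q A B2 u) (f : K →+* K') :
    Eqs (Q.map f) (f A) (f B2) (f u) where
  two := by
    have := (map_ne_zero f).mpr h.two
    rwa [map_ofNat] at this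
  k0 := by simpa [map_ofNat] using congrArg f h.k0
  cub := by simpa [map_ofNat, map_Xc] using congrArg f h.cub
  n3 := by simpa using (map_ne_zero f).mpr h.n3
  n2 := by simpa using (map_ne_zero f).mpr h.n2

theorem map_nu (f : K →+* K') (Q : Par K) (A B u : K) :
    f (nu Q A B u) = nu (Q.map f) (f A) (f B) (f u) := by
  simp [nu, mV', mR', map_ofNat]

variable [Algebra C K]

theorem up_map [Algebra C K'] (P : Par C) (f : K →+* K')
    (hf : ∀ c, f (algebraMap C K c) = algebraMap C K' c) : (up P K).map f = up P K' := by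
  have : f.comp (algebraMap C K) = algebraMap C K' := RingHom.ext hf
  rw [up, up, ← this]; rfl

theorem kill (P : Par C) (D : Derivation C K K) : Kill (up P K) D :=
  ⟨D.map_algebraMap _, D.map_algebraMap _, D.map_algebraMap _, D.map_algebraMap _⟩

variable {P : Par C} {A B B2 u : K}

theorem s_ne (tr : Transcendental C u) : u + (up P K).p2 * (up P K).p3 ≠ 0 := by
  simpa using add_c_ne tr (P.p2 * P.p3)

theorem R_ne (h : Eqs (up P K) A B2 u) (tr : Transcendental C u) : (up P K).R A B2 ≠ 0 := by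
  rw [h.R_eq]
  refine mul_ne_zero h.n2 fun h0 => ?_
  have e := h.R'_sq
  rw [h0] at e
  apply add_c_ne tr (-(2 * P.p2 ^ 2))
  simp only [map_neg, map_mul, map_pow, map_ofNat, Par.map_p2] at e ⊢
  linear_combination e

theorem b_ne (h : Eqs (up P K) A B2 u) (tr : Transcendental C u) :
    (up P K).z A B2 u ^ 2 - (up P K).b ≠ 0 := by
  intro h0
  have e := h.u_eq
  rw [sub_eq_zero.mp h0] at e
  apply add_c_ne tr (-(8 * P.p2 ^ 2 * P.p3 ^ 2 * P.b / P.N P.b))
  rw [e]
  simp [Par.N, map_ofNat]

theorem tr_map (r : K ≃ₐ[C] K) (tr : Transcendental C u) : Transcendental C (r u) := fun h =>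
  tr ((isAlgebraic_algHom_iff (r : K →ₐ[C] K) r.injective).mp h)

section r

variable (h : Eqs (up P K) A (B ^ 2) u) (tr : Transcendental C u) (r : K ≃ₐ[C] K)
  (rA : r A = -B) (rB : r B = A) (ru : r u = nu (up P K) A B u)
include h tr rA rB ru

omit tr in
theorem eqs_r : Eqs (up P K) (-B) (A ^ 2) (nu (up P K) A B u) := by
  have e := eqs_map h (r : K →+* K)
  rw [up_map P _ r.commutes] at e
  simpa [rA, rB, ru] using e

theorem symm_u : r.symm u = nu (up P K) A (-B) u := by
  rw [AlgEquiv.symm_apply_eq]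
  have e := map_nu (r : K →+* K) (up P K) A (-B) u
  rw [up_map P _ r.commutes] at e
  have h' := eqs_r h r rA rB ru
  have e2 := nu_nu h (s_ne tr) h'.n3 h'.n2 (by rw [← ru]; exact s_ne (tr_map r tr))
  simpa [rA, rB, ru, e2] using e.symm

omit h tr rA ru in
theorem symm_A : r.symm A = B := by rw [AlgEquiv.symm_apply_eq, rB]

omit h tr rB ru in
theorem symm_B : r.symm B = -A := by rw [AlgEquiv.symm_apply_eq, map_neg, rA, neg_neg]

theorem eqs_symm : Eqs (up P K) B (A ^ 2) (nu (up P K) A (-B) u) := by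
  have e := eqs_map h (r.symm : K →+* K)
  rw [up_map P _ r.symm.commutes] at e
  simpa [symm_A r rB, symm_B r rA, symm_u h tr r rA rB ru] using e

theorem tri (hB : B ≠ 0) : Tri (up P K) A B u := by
  have t1 : Transcendental C (nu (up P K) A B u) := ru ▸ tr_map r tr
  have t2 : Transcendental C (nu (up P K) A (-B) u) := symm_u h tr r rA rB ru ▸ tr_map r.symm tr
  have h1 := eqs_r h r rA rB ru
  have h2 := eqs_symm h tr r rA rB ru
  exact ⟨h, h1, h2, s_ne tr, s_ne t1, s_ne t2, by rw [← rB]; simpa using hB, hB, R_ne h tr,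
    b_ne h tr, b_ne h1 t1, b_ne h2 t2⟩

omit h tr in
theorem r_z : r ((up P K).z A (B ^ 2) u) = (up P K).z (-B) (A ^ 2) (nu (up P K) A B u) := by
  have e := mz (r : K →+* K) (up P K) A (B ^ 2) u
  rw [up_map P _ r.commutes] at e
  simpa [rA, rB, ru] using e

omit h tr in
theorem r_w : r ((up P K).w A (B ^ 2) u) = (up P K).w (-B) (A ^ 2) (nu (up P K) A B u) := by
  have e := mw (r : K →+* K) (up P K) A (B ^ 2) u
  rw [up_map P _ r.commutes] at e
  simpa [rA, rB, ru] using e

theorem symm_z : r.symm ((up P K).z A (B ^ 2) u) =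
    (up P K).z B (A ^ 2) (nu (up P K) A (-B) u) := by
  have e := mz (r.symm : K →+* K) (up P K) A (B ^ 2) u
  rw [up_map P _ r.symm.commutes] at e
  simpa [symm_A r rB, symm_B r rA, symm_u h tr r rA rB ru] using e

theorem symm_w : r.symm ((up P K).w A (B ^ 2) u) =
    (up P K).w B (A ^ 2) (nu (up P K) A (-B) u) := by
  have e := mw (r.symm : K →+* K) (up P K) A (B ^ 2) u
  rw [up_map P _ r.symm.commutes] at e
  simpa [symm_A r rB, symm_B r rA, symm_u h tr r rA rB ru] using e

omit h tr rA rB ru in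
theorem Mx_up (k m : Fin 3) : Mx (up P K) k m = algebraMap C K (Mx P k m) := by
  fin_cases k <;> fin_cases m <;> simp [Mx, map_ofNat]

/-- **MAT** for an automorphism `r` -/
theorem mat_r (hB : B ≠ 0) (D : Derivation C K K) (k : Fin 3) :
    r ((up P K).z A (B ^ 2) u) ^ (k : ℕ) * D (r ((up P K).z A (B ^ 2) u)) /
        r ((up P K).w A (B ^ 2) u) +
      r.symm ((up P K).z A (B ^ 2) u) ^ (k : ℕ) * D (r.symm ((up P K).z A (B ^ 2) u)) /
        r.symm ((up P K).w A (B ^ 2) u) =
    ∑ m : Fin 3, algebraMap C K (Mx P k m) * ((up P K).z A (B ^ 2) u ^ (m : ℕ) *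
      D ((up P K).z A (B ^ 2) u) / (up P K).w A (B ^ 2) u) := by
  rw [r_z r rA rB ru, r_w r rA rB ru, symm_z h tr r rA rB ru, symm_w h tr r rA rB ru,
    mat (kill P D) (tri h tr r rA rB ru hB) k]
  simp only [Mx_up]

end r

end Crest.Agent.T15.Om
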