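import Crest.Agent.T15.HtDef_95
import Crest.Agent.T15.MoB_29

/-!
# Row 15, block Ht (helper82): the rational basis of the differentials of `Y`
-/

set_option autoImplicit false
set_option linter.all false

noncomputable section

namespace Crest.Agent.T15.Omq

open Polynomial Matrix
open Crest.Agent.T15.Mo (Par Eqs IsY Act)
open Crest.Agent.T15.Ht

section alg

variable {R : Type*} [Field R]

/-- the rows are `om1`, `j om1 / 3`, `omE` -/
def Nm (P : Par R) : Matrix (Fin 3) (Fin 3) R :=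
  !![0, -4 * (P.al * P.p3 - P.be * P.p2), 0;
    -4 * (P.al * P.p3 - P.be * P.p2) * (P.al / (2 * P.p2 ^ 2) + P.be / (2 * P.p3 ^ 2)) / 3, 0,
      -4 * (P.al * P.p3 - P.be * P.p2) * (P.al / (2 * P.p2 ^ 2) - P.be / (2 * P.p3 ^ 2)) / 3;
    -(P.al * P.be) * P.b⁻¹, 0, P.al * P.be]

variable [CharZero R] (P : Par R)

theorem three82 : P.al ^ 2 * P.p3 ^ 3 + P.be ^ 2 * P.p2 ^ 3 = 3 * P.p1 * P.p2 ^ 3 * P.p3 ^ 3 := by
  rw [P.hal, P.hbe]
  linear_combination (-(P.p2 ^ 3 * P.p3 ^ 3)) * P.sum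

theorem det_Nm : (Nm P).det ≠ 0 := by
  have h2 := P.h2; have h3 := P.h3; have h4 := P.add_ne2; have h5 := P.sub_ne2
  have e : (Nm P).det = -(16 * (P.al * P.p3 - P.be * P.p2) ^ 2 * (P.al * P.be) *
      (P.p1 * P.p2 * P.p3) / (P.al * P.p3 + P.be * P.p2)) := by
    simp only [Nm, det_fin_three, Par.b, inv_div, of_apply, cons_val', cons_val_zero, cons_val_one,
      cons_val_two, cons_val_fin_one, Nat.succ_eq_add_one, Nat.reduceAdd, head_cons, tail_cons,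
      head_fin_const, empty_val']
    field_simp
    linear_combination (-32 * P.al * P.be * (P.al * P.p3 - P.be * P.p2) ^ 2) * three82 P
  rw [e]
  exact neg_ne_zero.mpr (div_ne_zero (mul_ne_zero (mul_ne_zero (mul_ne_zero (by norm_num)
    (pow_ne_zero 2 h5)) (mul_ne_zero P.al_ne P.be_ne))
    (mul_ne_zero (mul_ne_zero P.h1 h2) h3)) h4)

theorem Nm_v1 : Nm P *ᵥ v1 P = ![1, 0, 0] := by
  have h5 := P.sub_ne2
  ext i
  fin_cases i <;> simp [Nm, v1, Sc3.kap, mulVec, dotProduct, Fin.sum_univ_three]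
  field_simp

theorem Nm_Mx : Nm P * Mx P =
    (!![0, 3, 0; 1, 0, 0; 0, 0, 0] : Matrix (Fin 3) (Fin 3) ℤ).map (Int.cast : ℤ → R) * Nm P := by
  have h1 := P.h1; have h2 := P.h2; have h3 := P.h3; have h4 := P.add_ne2; have h5 := P.sub_ne2
  ext i j
  fin_cases i <;> fin_cases j <;>
    simp [Nm, Mx, mul_apply, Fin.sum_univ_three, Par.b]
  · field_simp
  · field_simp
  · field_simp
    linear_combination (-2 : R) * three82 P
  · field_simp
    ring

omit [CharZero R] in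
theorem Nm_map {S : Type*} [Field S] (f : R →+* S) (m k : Fin 3) :
    Nm (P.map f) m k = f (Nm P m k) := by
  fin_cases m <;> fin_cases k <;> simp [Nm, map_ofNat]

variable {P} {s : R →+* R} (h : P.Fix s)
include h

theorem s_pp (h1 : s P.al = P.al) (h2 : s P.be = P.be) (m k : Fin 3) : s (Nm P m k) = Nm P m k := by
  fin_cases m <;> fin_cases k <;> simp [Nm, map_ofNat, h1, h2, h.p2, h.p3, h.b_pp h1 h2]

theorem s_mm (h1 : s P.al = -P.al) (h2 : s P.be = -P.be) (m : Fin 3) :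
    s (Nm P m 0) = Nm P m 0 ∧ s (Nm P m 1) = -Nm P m 1 ∧ s (Nm P m 2) = Nm P m 2 := by
  fin_cases m <;> simp [Nm, map_ofNat, h1, h2, h.p2, h.p3, h.b_mm h1 h2]
  · ring
  · constructor <;> ring

theorem s_pm (h1 : s P.al = P.al) (h2 : s P.be = -P.be) (m : Fin 3) :
    s (Nm P m 0) = P.b * Nm P m 2 ∧ s (Nm P m 1) = P.b * Nm P m 1 ∧
      s (Nm P m 2) = P.b * Nm P m 0 := by
  have h4 := P.add_ne2; have h5 := P.sub_ne2; have h6 := P.h2; have h7 := P.h3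
  have hb := h.b_pm h1 h2
  fin_cases m <;> simp [Nm, map_ofNat, h1, h2, h.p2, h.p3, hb]
  · unfold Par.b; field_simp
  · unfold Par.b; constructor <;> field_simp <;> ring
  · have := P.b_ne; constructor <;> field_simp

theorem s_mp (h1 : s P.al = -P.al) (h2 : s P.be = P.be) (m : Fin 3) :
    s (Nm P m 0) = P.b * Nm P m 2 ∧ s (Nm P m 1) = -(P.b * Nm P m 1) ∧
      s (Nm P m 2) = P.b * Nm P m 0 := by
  have h4 := P.add_ne2; have h5 := P.sub_ne2; have h6 := P.h2; have h7 := P.h3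
  have hb := h.b_mp h1 h2
  fin_cases m <;> simp [Nm, map_ofNat, h1, h2, h.p2, h.p3, hb]
  · unfold Par.b; field_simp; ring
  · unfold Par.b; constructor <;> field_simp <;> ring
  · have := P.b_ne; constructor <;> field_simp

end alg

section fx

variable {C Y : Type*} [Field C] [Field Y] [Algebra C Y]

theorem aux1 {x y : Fin 3 → C} (z w : Y) (D : Derivation C Y Y) (h0 : x 0 = y 0)
    (h1 : x 1 = -y 1) (h2 : x 2 = y 2) :
    ∑ k : Fin 3, x k • ((-z) ^ (k : ℕ) / (-w) * D (-z)) =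
      ∑ k : Fin 3, y k • (z ^ (k : ℕ) / w * D z) := by
  simp only [Fin.sum_univ_three, h0, h1, h2, map_neg, Algebra.smul_def, Fin.val_zero, Fin.val_one,
    Fin.val_two, div_neg]
  ring

theorem aux2 {x y : Fin 3 → C} {b : C} {z w : Y} (D : Derivation C Y Y) (hb : b ≠ 0) (hz : z ≠ 0)
    (hw : w ≠ 0) (h0 : x 0 = b * y 2) (h1 : x 1 = b * y 1) (h2 : x 2 = b * y 0) :
    ∑ k : Fin 3, x k • (z⁻¹ ^ (k : ℕ) / (-(algebraMap C Y b * w / z ^ 4)) * D z⁻¹) =
      ∑ k : Fin 3, y k • (z ^ (k : ℕ) / w * D z) := by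
  have hb' : algebraMap C Y b ≠ 0 := (_root_.map_ne_zero _).mpr hb
  rw [Derivation.leibniz_inv, smul_eq_mul]
  simp only [Fin.sum_univ_three, h0, h1, h2, map_mul, Algebra.smul_def, Fin.val_zero, Fin.val_one,
    Fin.val_two]
  field_simp
  ring

theorem aux3 {x y : Fin 3 → C} {b : C} {z w : Y} (D : Derivation C Y Y) (hb : b ≠ 0) (hz : z ≠ 0)
    (hw : w ≠ 0) (h0 : x 0 = b * y 2) (h1 : x 1 = -(b * y 1)) (h2 : x 2 = b * y 0) :
    ∑ k : Fin 3, x k • ((-z⁻¹) ^ (k : ℕ) / (algebraMap C Y b * w / z ^ 4) * D (-z⁻¹)) =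
      ∑ k : Fin 3, y k • (z ^ (k : ℕ) / w * D z) := by
  have hb' : algebraMap C Y b ≠ 0 := (_root_.map_ne_zero _).mpr hb
  rw [map_neg D, Derivation.leibniz_inv, smul_eq_mul]
  simp only [Fin.sum_univ_three, h0, h1, h2, map_mul, map_neg, Algebra.smul_def, Fin.val_zero,
    Fin.val_one, Fin.val_two]
  field_simp
  ring

/-- the basis is rational -/
theorem fx_Nm [CharZero C] {P : Par C} {A B2 u : Y} (h : IsY P A B2 u) {s : C →+* C} {f : Y →+* Y}
    (a : Act P A B2 u s f 1) (D : Derivation C Y Y) (m : Fin 3) :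
    ∑ k : Fin 3, s (Nm P m k) •
        (f (P.zY A B2 u) ^ (k : ℕ) / f (P.wY A B2 u) * D (f (P.zY A B2 u))) =
      ∑ k : Fin 3, Nm P m k • (P.zY A B2 u ^ (k : ℕ) / P.wY A B2 u * D (P.zY A B2 u)) := by
  rcases a.fix.al with h1 | h1 <;> rcases a.fix.be with h2 | h2
  · obtain ⟨hz, hw⟩ := h.act_pp a h1 h2
    simp only [hz, hw, s_pp a.fix h1 h2]
  · obtain ⟨hz, hw⟩ := h.act_pm a h1 h2
    obtain ⟨e0, e1, e2⟩ := s_pm a.fix h1 h2 m
    rw [hz, hw]
    exact aux2 (x := fun k => s (Nm P m k)) D P.b_ne h.z_ne h.hyp.w_ne e0 e1 e2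
  · obtain ⟨hz, hw⟩ := h.act_mp a h1 h2
    obtain ⟨e0, e1, e2⟩ := s_mp a.fix h1 h2 m
    rw [hz, hw]
    exact aux3 (x := fun k => s (Nm P m k)) D P.b_ne h.z_ne h.hyp.w_ne e0 e1 e2
  · obtain ⟨hz, hw⟩ := h.act_mm a h1 h2
    obtain ⟨e0, e1, e2⟩ := s_mm a.fix h1 h2 m
    rw [hz, hw]
    exact aux1 (x := fun k => s (Nm P m k)) _ _ D e0 e1 e2

end fx

section mdl

variable {C : Type} [Field C] [IsAlgClosed C] [CharZero C] {P : Par C} (M : Mdl P)

theorem isY82 : IsY P M.A M.B2 M.u := ⟨two_ne_zero, M.eqs.k0, M.eqs.cub, M.tr, M.gen⟩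

theorem hyp82 : Hy.Hyp P.F M.z M.w := (isY82 M).hyp

theorem fix82 {e : R013.Frob1_914.SI C M.Y C M.Y} (h : M.Fx e) : P.Fix e.s :=
  ⟨h.2.2.2.1, h.2.2.2.2.1, by rw [P.p3_eq, map_sub, map_neg, h.2.2.2.1, h.2.2.2.2.1], h.2.2.2.2.2⟩

theorem fx_mdl {e : R013.Frob1_914.SI C M.Y C M.Y} (h : M.Fx e) (D : Derivation C M.Y M.Y)
    (m : Fin 3) :
    ∑ k : Fin 3, e.s (Nm P m k) • (e.f M.z ^ (k : ℕ) / e.f M.w * D (e.f M.z)) =
      ∑ k : Fin 3, Nm P m k • (M.z ^ (k : ℕ) / M.w * D M.z) :=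
  fx_Nm (isY82 M) ((isY82 M).act_SI e (fix82 M h) h.1 h.2.1 h.2.2.1) D m

end mdl

end Crest.Agent.T15.Omq
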