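import Mathlib

/-!
# Row 15, block R (helper43): abstract patching, part A (ultralimits)

`Cpt I`: the ring is `I`-adically complete with finite quotients.  Ultralimits of sequences and of
ring homomorphisms into matrix rings over varying quotients `B n` of a compact ring `S`.
-/

set_option autoImplicit false
set_option linter.unusedSectionVars false

noncomputable section

namespace Crest.Agent.T15.Pat

open IsLocalRing Filter Function

/-- complete with finite quotients -/
structure Cpt {A : Type*} [CommRing A] (I : Ideal A) : Prop where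
  cpl : IsAdicComplete I A
  fin : ∀ k : ℕ, Finite (A ⧸ I ^ k)

lemma cpt_of {A : Type*} [CommRing A] [IsNoetherianRing A] (I : Ideal A) [IsAdicComplete I A]
    [Finite (A ⧸ I)] : Cpt I :=
  ⟨inferInstance, Ideal.finite_quotient_pow (IsNoetherian.noetherian I)⟩

lemma Cpt.eq_zero {A : Type*} [CommRing A] {I : Ideal A} (h : Cpt I) {a : A}
    (ha : ∀ k, a ∈ I ^ k) : a = 0 :=
  h.cpl.toIsHausdorff.haus' a fun k => by
    rw [SModEq.zero, smul_eq_mul, Ideal.mul_top]; exact ha k

/-- a power of the maximal ideal dies in a finite ring, uniformly -/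
lemma pow_le_ker {R F : Type*} [CommRing R] [IsLocalRing R] [Ring F] [Finite F] (ψ : R →+* F) :
    maximalIdeal R ^ Nat.card F ≤ RingHom.ker ψ := by
  set Q := R ⧸ RingHom.ker ψ
  have : Finite Q := Finite.of_injective _ (RingHom.kerLift_injective ψ)
  let N : ℕ → Submodule R Q := fun j => maximalIdeal R ^ j • ⊤
  have hN : ∀ j, N j = ⊥ ∨ (N j : Set Q).ncard + j ≤ Nat.card Q := by
    intro j
    induction j with
    | zero => exact Or.inr (by rw [add_zero]; exact Set.ncard_le_card _)
    | succ j ih =>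
      have e : N (j + 1) = maximalIdeal R • N j := by
        simp only [N, pow_succ', mul_smul]
      by_cases h0 : N j = ⊥
      · left; rw [e, h0, Submodule.smul_bot]
      · right
        have hle : N (j + 1) ≤ N j := by rw [e]; exact Submodule.smul_le_right
        have hne : N (j + 1) ≠ N j := fun h => h0
          (Submodule.eq_bot_of_le_smul_of_le_jacobson_bot (maximalIdeal R) (N j)
            (Submodule.fg_def.2 ⟨N j, Set.toFinite _, Submodule.span_eq _⟩) (by rw [← e, h])
            (maximalIdeal_le_jacobson _))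
        have := Set.ncard_lt_ncard (SetLike.coe_ssubset_coe.2 (lt_of_le_of_ne hle hne))
        have := ih.resolve_left h0
        omega
  have h1 : N (Nat.card F) = ⊥ := by
    refine (hN _).resolve_right fun h => ?_
    have h2 : Nat.card Q ≤ Nat.card F :=
      Nat.card_le_card_of_injective _ (RingHom.kerLift_injective ψ)
    have h3 : 0 < (N (Nat.card F) : Set Q).ncard :=
      (Set.ncard_pos (Set.toFinite _)).2 ⟨0, (N _).zero_mem⟩
    omega
  intro r hr
  have h2 : r • (1 : Q) ∈ N (Nat.card F) := Submodule.smul_mem_smul hr trivial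
  rw [h1, Submodule.mem_bot, ← Algebra.algebraMap_eq_smul_one] at h2
  exact Ideal.Quotient.eq_zero_iff_mem.1 h2

/-- the ultrafilter used for all limits -/
abbrev U : Ultrafilter ℕ := hyperfilter ℕ

lemma ev_ge (k : ℕ) : ∀ᶠ n in (U : Filter ℕ), k ≤ n :=
  (hyperfilter_le_cofinite.trans_eq Nat.cofinite_eq_atTop) (eventually_ge_atTop k)

section conv

variable {S : Type*} [CommRing S] {I : Ideal S} {B : ℕ → Type*} [∀ n, CommRing (B n)]

/-- convergence along `U` of a sequence in the quotients `B n` -/
def Conv (I : Ideal S) (p : ∀ n, S →+* B n) (g : ∀ n, B n) (L : S) : Prop :=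
  ∀ k, ∀ᶠ n in (U : Filter ℕ), g n - p n L ∈ (I ^ k).map (p n)

/-- the quotient system -/
structure Sys (I : Ideal S) (p : ∀ n, S →+* B n) : Prop where
  cpt : Cpt I
  surj : ∀ n, Surjective (p n)
  ker : ∀ n, RingHom.ker (p n) ≤ I ^ n

lemma Cpt.sys (h : Cpt I) : Sys I fun _ => RingHom.id S :=
  ⟨h, fun _ => surjective_id, fun _ a ha => by
    rw [RingHom.mem_ker, RingHom.id_apply] at ha; rw [ha]; exact zero_mem _⟩

variable {p : ∀ n, S →+* B n} {g g' : ∀ n, B n} {L L' : S}

lemma conv_const (L : S) : Conv I p (fun n => p n L) L := fun _ =>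
  Eventually.of_forall fun _ => by rw [sub_self]; exact zero_mem _

lemma Conv.congr (h : Conv I p g L) (e : ∀ n, g' n = g n) : Conv I p g' L := by
  rwa [show g' = g from funext e]

lemma Conv.add (h : Conv I p g L) (h' : Conv I p g' L') :
    Conv I p (fun n => g n + g' n) (L + L') := fun k => by
  filter_upwards [h k, h' k] with n a b
  rw [map_add, add_sub_add_comm]
  exact add_mem a b

lemma Conv.mul (h : Conv I p g L) (h' : Conv I p g' L') :
    Conv I p (fun n => g n * g' n) (L * L') := fun k => by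
  filter_upwards [h k, h' k] with n a b
  rw [map_mul, show g n * g' n - p n L * p n L' =
    (g n - p n L) * g' n + p n L * (g' n - p n L') by ring]
  exact add_mem (Ideal.mul_mem_right _ _ a) (Ideal.mul_mem_left _ _ b)

lemma Conv.sum {ι : Type*} (s : Finset ι) {G : ι → ∀ n, B n} {M : ι → S}
    (h : ∀ i, Conv I p (G i) (M i)) : Conv I p (fun n => ∑ i ∈ s, G i n) (∑ i ∈ s, M i) := by
  classical
  induction s using Finset.induction_on with
  | empty => simpa using conv_const (I := I) (p := p) 0
  | insert a s ha ih => simpa only [Finset.sum_insert ha] using (h a).add ih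

lemma Sys.mem_of_map (h : Sys I p) {k n : ℕ} (hkn : k ≤ n) {a : S} (ha : p n a ∈ (I ^ k).map (p n)) :
    a ∈ I ^ k := by
  have h1 : a ∈ ((I ^ k).map (p n)).comap (p n) := ha
  rw [Ideal.comap_map_of_surjective _ (h.surj n), ← RingHom.ker_eq_comap_bot,
    sup_eq_left.2 ((h.ker n).trans (Ideal.pow_le_pow_right hkn))] at h1
  exact h1

lemma Sys.unique (h : Sys I p) (h1 : Conv I p g L) (h2 : Conv I p g L') : L = L' := by
  refine sub_eq_zero.1 (h.cpt.eq_zero fun k => ?_)
  obtain ⟨n, a, b, c⟩ := ((h1 k).and ((h2 k).and (ev_ge k))).exists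
  refine h.mem_of_map c ?_
  rw [map_sub, show p n L - p n L' = (g n - p n L') - (g n - p n L) by ring]
  exact sub_mem b a

lemma Sys.exists_conv (h : Sys I p) (g : ∀ n, B n) : ∃ L, Conv I p g L := by
  choose f hf using fun n => h.surj n (g n)
  have h1 : ∀ k, ∃ y : S, ∀ᶠ n in (U : Filter ℕ), f n - y ∈ I ^ k := fun k => by
    have := h.cpt.fin k
    obtain ⟨c, hc⟩ := (Ultrafilter.eventually_exists_iff (f := U)
      (P := fun (c : S ⧸ I ^ k) n => Ideal.Quotient.mk _ (f n) = c)).1
        (Eventually.of_forall fun n => ⟨_, rfl⟩)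
    obtain ⟨y, rfl⟩ := Ideal.Quotient.mk_surjective c
    exact ⟨y, hc.mono fun n hn => Ideal.Quotient.eq.1 hn⟩
  choose y hy using h1
  obtain ⟨L, hL⟩ := h.cpt.cpl.toIsPrecomplete.prec' y (fun {k l} hkl => by
    obtain ⟨n, a, b⟩ := ((hy k).and (hy l)).exists
    rw [SModEq.sub_mem, smul_eq_mul, Ideal.mul_top, show y k - y l = (f n - y l) - (f n - y k) by
      ring]
    exact sub_mem (Ideal.pow_le_pow_right hkl b) a)
  refine ⟨L, fun k => (hy k).mono fun n hn => ?_⟩
  have h2 := hL k
  rw [SModEq.sub_mem, smul_eq_mul, Ideal.mul_top] at h2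
  rw [← hf, ← map_sub, show f n - L = (f n - y k) + (y k - L) by ring]
  exact Ideal.mem_map_of_mem _ (add_mem hn h2)

/-- limits of elements of a fixed closed ideal -/
lemma Sys.map_eq_zero (h : Sys I p) [IsLocalRing S] (hI : I = maximalIdeal S) {O : Type*}
    [CommRing O] {J : Ideal O} (hO : Cpt J) (ε : S →+* O) (hg : Conv I p g L)
    (hm : ∀ n, g n ∈ (RingHom.ker ε).map (p n)) : ε L = 0 := by
  refine hO.eq_zero fun k => ?_
  have := hO.fin k
  obtain ⟨n, a, c⟩ := ((hg (Nat.card (O ⧸ J ^ k))).and (ev_ge (Nat.card (O ⧸ J ^ k)))).exists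
  obtain ⟨b, hb, e⟩ := (Ideal.mem_map_iff_of_surjective _ (h.surj n)).1 (hm n)
  rw [← e, ← map_sub] at a
  have h1 := h.mem_of_map c a
  rw [hI] at h1
  have h2 := pow_le_ker ((Ideal.Quotient.mk (J ^ k)).comp ε) h1
  rw [RingHom.mem_ker, RingHom.comp_apply, map_sub, RingHom.mem_ker.1 hb, zero_sub, map_neg,
    neg_eq_zero] at h2
  exact Ideal.Quotient.eq_zero_iff_mem.1 h2

variable {R : Type*} [CommRing R] [IsLocalRing R] {d : Type*} [Fintype d] [DecidableEq d]

/-- plain convergence in a local ring -/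
abbrev ConvR (r : ℕ → R) (a : R) : Prop := Conv (maximalIdeal R) (fun _ => RingHom.id R) r a

lemma Sys.unif (h : Sys I p) (k : ℕ) : ∃ N : ℕ, ∀ n (φ : R →+* Matrix d d (B n)),
    ∀ r ∈ maximalIdeal R ^ N, ∀ i j, φ r i j ∈ (I ^ k).map (p n) := by
  have := h.cpt.fin k
  refine ⟨Nat.card (Matrix d d (S ⧸ I ^ k)), fun n φ r hr i j => ?_⟩
  let q : S ⧸ I ^ k →+* B n ⧸ (I ^ k).map (p n) := Ideal.quotientMap _ (p n) Ideal.le_comap_map
  have hq : Surjective q := Ideal.quotientMap_surjective (h.surj n)
  have hq' : Surjective (q.mapMatrix (m := d)) := fun M => by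
    choose f hf using fun i j => hq (M i j)
    exact ⟨Matrix.of f, Matrix.ext hf⟩
  have : Finite (Matrix d d (B n ⧸ (I ^ k).map (p n))) := Finite.of_surjective _ hq'
  have h1 := pow_le_ker ((Ideal.Quotient.mk ((I ^ k).map (p n))).mapMatrix.comp φ)
    (Ideal.pow_le_pow_right (Nat.card_le_card_of_surjective _ hq') hr)
  rw [RingHom.mem_ker] at h1
  exact Ideal.Quotient.eq_zero_iff_mem.1 (congrFun (congrFun h1 i) j)

/-- **ultralimit of matrix representations** -/
theorem Sys.exists_hom (h : Sys I p) (φ : ∀ n, R →+* Matrix d d (B n)) :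
    ∃ Φ : R →+* Matrix d d S, ∀ (r : ℕ → R) (a : R), ConvR r a →
      ∀ i j, Conv I p (fun n => φ n (r n) i j) (Φ a i j) := by
  choose F hF using fun a i j => h.exists_conv fun n => φ n a i j
  refine ⟨{ toFun := fun a => Matrix.of (F a), map_one' := ?_, map_mul' := fun a b => ?_,
            map_zero' := ?_, map_add' := fun a b => ?_ }, fun r a hr i j k => ?_⟩
  · ext i j
    refine h.unique (hF 1 i j) ((conv_const _).congr fun n => ?_)
    rw [map_one, Matrix.one_apply, Matrix.one_apply]
    split_ifs <;> simp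
  · ext i j
    refine h.unique (hF (a * b) i j)
      ((Conv.sum Finset.univ fun l => (hF a i l).mul (hF b l j)).congr fun n => ?_)
    rw [map_mul, Matrix.mul_apply]
  · ext i j
    exact h.unique (hF 0 i j) ((conv_const _).congr fun n => by simp)
  · ext i j
    exact h.unique (hF (a + b) i j) (((hF a i j).add (hF b i j)).congr fun n => by simp)
  · obtain ⟨N, hN⟩ := h.unif (R := R) (d := d) k
    filter_upwards [hF a i j k, hr N] with n h1 h2
    rw [Ideal.map_id, RingHom.id_apply] at h2
    have h3 := add_mem (hN n (φ n) _ h2 i j) h1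
    rwa [map_sub, Matrix.sub_apply, sub_add_sub_cancel] at h3

/-- **ultralimit of points** -/
theorem Cpt.exists_hom {O : Type*} [CommRing O] {J : Ideal O} (h : Cpt J) (x : ℕ → R →+* O) :
    ∃ X : R →+* O, ∀ (r : ℕ → R) (a : R), ConvR r a →
      Conv J (fun _ => RingHom.id O) (fun n => x n (r n)) (X a) := by
  obtain ⟨Φ, hΦ⟩ := h.sys.exists_hom (d := Unit) fun n => (Matrix.scalar Unit).comp (x n)
  refine ⟨{ toFun := fun a => Φ a () (), map_one' := by simp, map_mul' := fun a b => ?_,
            map_zero' := by simp, map_add' := fun a b => by simp }, fun r a hr => ?_⟩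
  · simp [Matrix.mul_apply]
  · exact (hΦ r a hr () ()).congr fun n => by simp

end conv

end Crest.Agent.T15.Pat

end
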