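import Crest.Agent.T15.PatA_43

/-!
# Row 15, block R (helper43): abstract patching, part B (the theorem)

No depth, no Auslander-Buchsbaum: the image of the patched ring in `M_d(S)` is integral and
torsion-free over `S`, so its spectrum is a union of components; Cayley-Hamilton finishes.
-/

set_option autoImplicit false
set_option linter.unusedSectionVars false

noncomputable section

namespace Crest.Agent.T15.Pat

open IsLocalRing Filter Function Polynomial

section alg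

variable {R S B O : Type*} [CommRing R] [CommRing S] [CommRing B] [CommRing O]
  {d : Type*} [Fintype d] [DecidableEq d]

lemma map_sum_charpoly (p : S →+* B) (φ : R →+* Matrix d d B) (σ : S → R)
    (hσ : ∀ s, φ (σ s) = Matrix.scalar d (p s)) (t : R) (N : Matrix d d S) (hN : N.map p = φ t) :
    φ (N.charpoly.sum fun i c => σ c * t ^ i) = 0 := by
  have h := Matrix.aeval_self_charpoly (φ t)
  rw [← hN, Matrix.charpoly_map, aeval_def, eval₂_map, eval₂_eq_sum, hN] at h
  rw [← h, Polynomial.sum, Polynomial.sum, map_sum]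
  refine Finset.sum_congr rfl fun i _ => ?_
  rw [map_mul, map_pow, hσ]
  rfl

/-- Cayley-Hamilton at a point of the support -/
lemma pow_mem (p : S →+* B) (φ : R →+* Matrix d d B) (θ : R →+* O) (ε : S →+* O)
    (hsc : ∀ s, ∃ r, φ r = Matrix.scalar d (p s) ∧ θ r = ε s)
    (hker : RingHom.ker φ ≤ RingHom.ker θ) (t : R) (N : Matrix d d S) (hN : N.map p = φ t)
    (𝔞 : Ideal S) (h𝔞 : ∀ i j, N i j ∈ 𝔞) : θ t ^ Fintype.card d ∈ 𝔞.map ε := by
  choose σ h1 h2 using hsc
  have h := hker (map_sum_charpoly p φ σ h1 t N hN)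
  have e : θ (N.charpoly.sum fun i c => σ c * t ^ i) = eval₂ ε (θ t) N.charpoly := by
    rw [eval₂_eq_sum, Polynomial.sum, Polynomial.sum, map_sum]
    exact Finset.sum_congr rfl fun i _ => by rw [map_mul, map_pow, h2]
  rw [RingHom.mem_ker, e] at h
  have h3 := congrArg (Ideal.Quotient.mk (𝔞.map ε)) h
  have h4 : N.map ((Ideal.Quotient.mk (𝔞.map ε)).comp ε) = 0 := Matrix.ext fun i j =>
    Ideal.Quotient.eq_zero_iff_mem.2 (Ideal.mem_map_of_mem _ (h𝔞 i j))
  rw [hom_eval₂, eval₂_eq_eval_map, ← Matrix.charpoly_map, h4, Matrix.charpoly_zero, eval_pow,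
    eval_X, map_zero, ← map_pow] at h3
  exact Ideal.Quotient.eq_zero_iff_mem.1 h3

/-- **the support is a union of components** -/
theorem min_of_min [IsDomain S] [Nonempty d] (Φ : R →+* Matrix d d S)
    (hsc : ∀ s, ∃ r, Φ r = Matrix.scalar d s) {D : ℕ} (hR : ringKrullDim R ≤ D)
    (hS : D ≤ ringKrullDim S) {Q : Ideal R} (hQ : Q ∈ (RingHom.ker Φ).minimalPrimes) :
    Q ∈ minimalPrimes R := by
  choose σ hσ using hsc
  set A := R ⧸ RingHom.ker Φ
  have inj : Injective (RingHom.kerLift Φ) := RingHom.kerLift_injective Φ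
  let ι : S →+* A :=
    { toFun := fun s => Ideal.Quotient.mk _ (σ s)
      map_one' := inj (by rw [RingHom.kerLift_mk, hσ, map_one, map_one])
      map_mul' := fun a b => inj (by
        rw [map_mul, RingHom.kerLift_mk, RingHom.kerLift_mk, RingHom.kerLift_mk, hσ, hσ, hσ,
          map_mul])
      map_zero' := inj (by rw [RingHom.kerLift_mk, hσ, map_zero, map_zero])
      map_add' := fun a b => inj (by
        rw [map_add, RingHom.kerLift_mk, RingHom.kerLift_mk, RingHom.kerLift_mk, hσ, hσ, hσ,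
          map_add]) }
  have hι : ∀ s, RingHom.kerLift Φ (ι s) = Matrix.scalar d s := fun s =>
    (RingHom.kerLift_mk Φ _).trans (hσ s)
  let _ : Algebra S A := ι.toAlgebra
  have hint : Algebra.IsIntegral S A := ⟨fun a => by
    refine ⟨(RingHom.kerLift Φ a).charpoly, Matrix.charpoly_monic _, inj ?_⟩
    rw [eval₂_eq_sum, map_zero]
    exact map_sum_charpoly (RingHom.id S) _ ι hι a _ (Matrix.map_id' _)⟩
  rw [Ideal.minimalPrimes_eq_comap] at hQ
  obtain ⟨P, hP, rfl⟩ := hQ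
  have hPp : P.IsPrime := hP.isPrime
  have hP0 : P.under S = ⊥ := by
    refine eq_bot_iff.2 fun s hs => ?_
    by_contra h0
    refine Set.disjoint_left.1 (Ideal.disjoint_nonZeroDivisors_of_mem_minimalPrimes hP) hs ?_
    refine mem_nonZeroDivisors_iff_left.2 fun a ha => inj ?_
    have h1 := congrArg (RingHom.kerLift Φ) ha
    rw [map_mul, map_zero] at h1
    erw [hι] at h1
    rw [map_zero]
    ext i j
    have h2 := congrFun (congrFun h1 i) j
    rw [Matrix.scalar_apply, Matrix.diagonal_mul] at h2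
    exact (mul_eq_zero.1 h2).resolve_left h0
  obtain ⟨l, hl⟩ := Order.le_krullDim_iff.1 hS
  -- a chain of the same length starting at `⊥`
  obtain ⟨l', hl', h0⟩ : ∃ l' : LTSeries (PrimeSpectrum S), D ≤ l'.length ∧ l'.head.asIdeal = ⊥ := by
    by_cases h : l.head.asIdeal = ⊥
    · exact ⟨l, hl.ge, h⟩
    · exact ⟨l.cons ⟨⊥, Ideal.isPrime_bot⟩ (bot_lt_iff_ne_bot.2 h : (⊥ : Ideal S) < _),
        by simp [hl], rfl⟩
  have : P.LiesOver l'.head.asIdeal := ⟨by rw [h0, hP0]⟩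
  obtain ⟨L, hL1, hL2, -⟩ := Ideal.exists_ltSeries_of_hasGoingUp l' P
  obtain ⟨Q', hQ', hle⟩ := Ideal.exists_minimalPrimes_le (I := (⊥ : Ideal R))
    (J := P.comap (Ideal.Quotient.mk (RingHom.ker Φ))) bot_le
  rcases hle.eq_or_lt with h | h
  · exact h ▸ hQ'
  exfalso
  let L' := L.map (PrimeSpectrum.comap (Ideal.Quotient.mk (RingHom.ker Φ)))
    (RingHom.strictMono_comap_of_surjective Ideal.Quotient.mk_surjective)
  have h1 : (⟨Q', hQ'.isPrime⟩ : PrimeSpectrum R) < L'.head := by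
    rw [LTSeries.head_map, hL2]; exact h
  have h2 := (Order.LTSeries.length_le_krullDim (L'.cons _ h1)).trans hR
  rw [RelSeries.cons_length] at h2
  have h3 : L'.length + 1 ≤ D := by exact_mod_cast h2
  have h4 : L'.length = l'.length := hL1
  omega

theorem injective_of_domain [IsDomain S] [IsDomain R] [Nonempty d] (Φ : R →+* Matrix d d S)
    (hsc : ∀ s, ∃ r, Φ r = Matrix.scalar d s) {D : ℕ} (hR : ringKrullDim R ≤ D)
    (hS : D ≤ ringKrullDim S) : RingHom.ker Φ = ⊥ := by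
  obtain ⟨m, hm, hle⟩ := Ideal.exists_le_maximal _ (RingHom.ker_ne_top Φ)
  obtain ⟨Q, hQ, -⟩ := Ideal.exists_minimalPrimes_le hle
  have h := min_of_min Φ hsc hR hS hQ
  rw [IsDomain.minimalPrimes_eq_singleton_bot] at h
  exact eq_bot_iff.2 (h ▸ hQ.le)

end alg

section main

variable {S R O O' : Type*} [CommRing S] [IsDomain S] [IsLocalRing S] [CommRing R] [IsLocalRing R]
  [CommRing O] [CommRing O'] {J : Ideal O} {J' : Ideal O'}
  {B : ℕ → Type*} [∀ n, CommRing (B n)] {p : ∀ n, S →+* B n}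
  {d : Type*} [Fintype d] [DecidableEq d] [Nonempty d]
  {φ : ∀ n, R →+* Matrix d d (B n)} {Φ : R →+* Matrix d d S}

/-- `Φ` is the limit of the `φ n` -/
def LimM (p : ∀ n, S →+* B n) (φ : ∀ n, R →+* Matrix d d (B n)) (Φ : R →+* Matrix d d S) : Prop :=
  ∀ (r : ℕ → R) (a : R), ConvR r a →
    ∀ i j, Conv (maximalIdeal S) p (fun n => φ n (r n) i j) (Φ a i j)

/-- `X` is the limit of the `x n` -/
def LimP (J : Ideal O) (x : ℕ → R →+* O) (X : R →+* O) : Prop :=
  ∀ (r : ℕ → R) (a : R), ConvR r a → Conv J (fun _ => RingHom.id O) (fun n => x n (r n)) (X a)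

lemma LimP.eq {x : ℕ → R →+* O} {X : R →+* O} (h : LimP J x X) (hO : Cpt J) {r : ℕ → R} {a : R}
    (hr : ConvR r a) {c : O} (hc : ∀ n, x n (r n) = c) : X a = c :=
  hO.sys.unique (h r a hr) ((conv_const c).congr hc)

lemma LimP.eq' {x : ℕ → R →+* O} {X : R →+* O} (h : LimP J x X) (hO : Cpt J) {a : R}
    {c : O} (hc : ∀ n, x n a = c) : X a = c :=
  h.eq hO (conv_const a) hc

lemma lim_scalar (hS : Sys (maximalIdeal S) p) (hR : Cpt (maximalIdeal R)) (hO : Cpt J)
    (hΦ : LimM p φ Φ) {x : ℕ → R →+* O} {X : R →+* O} (hX : LimP J x X) {ε : S →+* O}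
    (hsc : ∀ n s, ∃ r, φ n r = Matrix.scalar d (p n s) ∧ x n r = ε s) (s : S) :
    ∃ r, Φ r = Matrix.scalar d s ∧ X r = ε s := by
  choose r h1 h2 using fun n => hsc n s
  obtain ⟨a, ha⟩ := hR.sys.exists_conv r
  refine ⟨a, Matrix.ext fun i j => hS.unique (hΦ r a ha i j) ((conv_const _).congr fun n => ?_),
    hX.eq hO ha h2⟩
  rw [h1, Matrix.scalar_apply, Matrix.scalar_apply, Matrix.diagonal_apply, Matrix.diagonal_apply]
  split_ifs <;> simp

/-- points of the support of the `M n` have a limit in the support of the patched module -/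
lemma lim_support (hS : Sys (maximalIdeal S) p) (hO : Cpt J) [IsReduced O]
    (hΦ : LimM p φ Φ) {θ : ℕ → R →+* O} {Θ : R →+* O} (hΘ : LimP J θ Θ) {ε : S →+* O}
    (hsc : ∀ n s, ∃ r, φ n r = Matrix.scalar d (p n s) ∧ θ n r = ε s)
    (hker : ∀ n, RingHom.ker (φ n) ≤ RingHom.ker (θ n)) : RingHom.ker Φ ≤ RingHom.ker Θ := by
  intro a ha
  refine IsNilpotent.eq_zero ⟨Fintype.card d, hO.eq_zero fun k => ?_⟩
  have := hO.fin k
  have h1 : ∀ᶠ n in (U : Filter ℕ), ∀ i j, φ n a i j ∈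
      (maximalIdeal S ^ Nat.card (O ⧸ J ^ k)).map (p n) := by
    refine eventually_all.2 fun i => eventually_all.2 fun j => ?_
    have h := hΦ (fun _ => a) a (conv_const a) i j (Nat.card (O ⧸ J ^ k))
    rw [RingHom.mem_ker.1 ha] at h
    simpa using h
  obtain ⟨n, h2, h3⟩ := (h1.and (hΘ (fun _ => a) a (conv_const a) k)).exists
  choose N hN1 hN2 using fun i j => (Ideal.mem_map_iff_of_surjective _ (hS.surj n)).1 (h2 i j)
  have h4 := pow_mem (p n) (φ n) (θ n) ε (hsc n) (hker n) a (Matrix.of N) (Matrix.ext hN2) _ hN1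
  have h5 : (maximalIdeal S ^ Nat.card (O ⧸ J ^ k)).map ε ≤ J ^ k :=
    Ideal.map_le_iff_le_comap.2 fun s hs => (Ideal.Quotient.eq_zero_iff_mem (I := J ^ k)).1
      (pow_le_ker ((Ideal.Quotient.mk (J ^ k)).comp ε) hs)
  rw [Ideal.map_id, RingHom.id_apply, ← Ideal.Quotient.eq] at h3
  rw [← Ideal.Quotient.eq_zero_iff_mem, map_pow, ← h3, ← map_pow, Ideal.Quotient.eq_zero_iff_mem]
  exact h5 h4

lemma lim_conclude (hS : Sys (maximalIdeal S) p) (hR : Cpt (maximalIdeal R)) (hO : Cpt J)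
    (hΦ : LimM p φ Φ) {x : ℕ → R →+* O} {X : R →+* O} (hX : LimP J x X) {ε : S →+* O}
    (hsc : ∀ n s, ∃ r, φ n r = Matrix.scalar d (p n s) ∧ x n r = ε s)
    (hker : RingHom.ker Φ ≤ RingHom.ker X) {c : O}
    (hc : ∀ n, ∃ t, (∀ i j, φ n t i j ∈ (RingHom.ker ε).map (p n)) ∧ x n t = c) :
    c ^ Fintype.card d = 0 := by
  choose t h1 h2 using hc
  obtain ⟨a, ha⟩ := hR.sys.exists_conv t
  have h := pow_mem (RingHom.id S) Φ X ε (lim_scalar hS hR hO hΦ hX hsc) hker a (Φ a)
    (Matrix.map_id' _) (RingHom.ker ε) fun i j =>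
      hS.map_eq_zero rfl hO ε (hΦ t a ha i j) fun n => h1 n i j
  rwa [hX.eq hO ha h2, (Ideal.map_eq_bot_iff_le_ker ε).2 le_rfl, Ideal.mem_bot] at h

/-- **Patching, domain version.**  `B n` are quotients of `S` by ideals tending to `0`, `R` acts on
`(B n)^d` and contains the scalars, `x n` are points of `R` over the augmentation `ε`.  If `R` is a
domain of dimension at most `dim S`, the points are in the support of the `ε`-fibre. -/
theorem patch_domain [IsDomain R] (hS : Sys (maximalIdeal S) p) (hR : Cpt (maximalIdeal R))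
    (hO : Cpt J) {D : ℕ} (hRD : ringKrullDim R ≤ D) (hSD : D ≤ ringKrullDim S)
    (φ : ∀ n, R →+* Matrix d d (B n)) (x : ℕ → R →+* O) (ε : S →+* O)
    (hsc : ∀ n s, ∃ r, φ n r = Matrix.scalar d (p n s) ∧ x n r = ε s) {c : O}
    (hc : ∀ n, ∃ t, (∀ i j, φ n t i j ∈ (RingHom.ker ε).map (p n)) ∧ x n t = c) :
    c ^ Fintype.card d = 0 := by
  obtain ⟨Φ, hΦ⟩ := hS.exists_hom φ
  obtain ⟨X, hX⟩ := hO.exists_hom x
  refine lim_conclude hS hR hO hΦ hX hsc ?_ hc
  rw [injective_of_domain Φ (fun s => (lim_scalar hS hR hO hΦ hX hsc s).imp fun _ h => h.1) hRD hSD]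
  exact bot_le

/-- **Patching, component version.**  A second family of points `θ n` in the support pins the
component: `pin` is asked for all homomorphisms that agree with the `θ n`, `x n` where these do
not depend on `n`. -/
theorem patch_comp [IsDomain O'] (hS : Sys (maximalIdeal S) p) (hR : Cpt (maximalIdeal R))
    (hO : Cpt J) (hO' : Cpt J') {D : ℕ} (hRD : ringKrullDim R ≤ D) (hSD : D ≤ ringKrullDim S)
    (φ : ∀ n, R →+* Matrix d d (B n)) (x : ℕ → R →+* O) (ε : S →+* O)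
    (hsc : ∀ n s, ∃ r, φ n r = Matrix.scalar d (p n s) ∧ x n r = ε s)
    (θ : ℕ → R →+* O') (ε' : S →+* O')
    (hsc' : ∀ n s, ∃ r, φ n r = Matrix.scalar d (p n s) ∧ θ n r = ε' s)
    (hθ : ∀ n, RingHom.ker (φ n) ≤ RingHom.ker (θ n))
    (pin : ∀ (Θ : R →+* O') (X : R →+* O), (∀ a c, (∀ n, θ n a = c) → Θ a = c) →
      (∀ a c, (∀ n, x n a = c) → X a = c) →
      ∀ Q ∈ minimalPrimes R, Q ≤ RingHom.ker Θ → Q ≤ RingHom.ker X) {c : O}
    (hc : ∀ n, ∃ t, (∀ i j, φ n t i j ∈ (RingHom.ker ε).map (p n)) ∧ x n t = c) :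
    c ^ Fintype.card d = 0 := by
  obtain ⟨Φ, hΦ⟩ := hS.exists_hom φ
  obtain ⟨X, hX⟩ := hO.exists_hom x
  obtain ⟨Θ, hΘ⟩ := hO'.exists_hom θ
  refine lim_conclude hS hR hO hΦ hX hsc ?_ hc
  have := RingHom.ker_isPrime Θ
  obtain ⟨Q, hQ, hle⟩ := Ideal.exists_minimalPrimes_le (lim_support hS hO' hΦ hΘ hsc' hθ)
  exact hQ.le.trans (pin Θ X (fun a c h => LimP.eq' hΘ hO' h) (fun a c h => LimP.eq' hX hO h) Q
    (min_of_min Φ (fun s => (lim_scalar hS hR hO hΦ hX hsc s).imp fun _ h => h.1) hRD hSD hQ) hle)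

end main

end Crest.Agent.T15.Pat

end
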