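import Crest.Agent.T15.PatB_43
import Crest.Agent.R183.CohenDim

/-!
# Row 15, block R (helper43): abstract patching, part C (killed and integral variables)

`R = R₀ + (u) + (s)`; the `u k` are killed on the component of a second point, the `s k` are
integral over `R₀` modulo the `u`; the points take values in varying quotients.
-/

set_option autoImplicit false
set_option linter.unusedSectionVars false

noncomputable section

namespace Crest.Agent.T15.Pat

open IsLocalRing Filter Function Polynomial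

section alg

variable {R₀ R S O : Type*} [CommRing R₀] [CommRing R] [CommRing S] [CommRing O]
  {d : Type*} [Fintype d] [DecidableEq d]

/-- every component of the support has full dimension -/
theorem dim_le_of_min [IsDomain S] [Nonempty d] (Φ : R →+* Matrix d d S)
    (hsc : ∀ s, ∃ r, Φ r = Matrix.scalar d s) {P : Ideal R}
    (hP : P ∈ (RingHom.ker Φ).minimalPrimes) : ringKrullDim S ≤ ringKrullDim (R ⧸ P) := by
  choose σ hσ using hsc
  have hPp := hP.isPrime
  have hk : ∀ a b : R, Φ a = Φ b → Ideal.Quotient.mk P a = Ideal.Quotient.mk P b := fun a b h =>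
    Ideal.Quotient.eq.2 (hP.le (by rw [RingHom.mem_ker, map_sub, h, sub_self]))
  let ι : S →+* R ⧸ P :=
    { toFun := fun s => Ideal.Quotient.mk _ (σ s)
      map_one' := hk _ 1 (by rw [hσ, map_one, map_one])
      map_mul' := fun a b => hk _ (σ a * σ b) (by rw [map_mul, hσ, hσ, hσ, map_mul])
      map_zero' := hk _ 0 (by rw [hσ, map_zero, map_zero])
      map_add' := fun a b => hk _ (σ a + σ b) (by rw [map_add, hσ, hσ, hσ, map_add]) }
  let _ : Algebra S (R ⧸ P) := ι.toAlgebra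
  have hint : Algebra.IsIntegral S (R ⧸ P) := ⟨fun a => by
    obtain ⟨a, rfl⟩ := Ideal.Quotient.mk_surjective a
    refine ⟨(Φ a).charpoly, Matrix.charpoly_monic _, ?_⟩
    have h := hk _ 0 ((map_sum_charpoly (RingHom.id S) Φ σ hσ a _ (Matrix.map_id' _)).trans
      (map_zero Φ).symm)
    rw [eval₂_eq_sum, ← map_zero (Ideal.Quotient.mk P), ← h, Polynomial.sum, Polynomial.sum,
      map_sum]
    exact Finset.sum_congr rfl fun i _ => by rw [map_mul, map_pow]; rfl⟩
  have hinj : Injective (algebraMap S (R ⧸ P)) := by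
    refine (injective_iff_map_eq_zero _).2 fun s hs => ?_
    by_contra h0
    have h1 : σ s ∈ P := Ideal.Quotient.eq_zero_iff_mem.1 hs
    obtain ⟨y, hy, hm⟩ := Ideal.exists_mul_mem_of_mem_minimalPrimes hP h1
    refine hy ?_
    rw [RingHom.mem_ker] at hm ⊢
    rw [map_mul, hσ] at hm
    ext i j
    have h2 := congrFun (congrFun hm i) j
    rw [Matrix.scalar_apply, Matrix.diagonal_mul] at h2
    exact (mul_eq_zero.1 h2).resolve_left h0
  rw [ringKrullDim, Order.krullDim_eq_iSup_length, WithBot.coe_iSup (OrderTop.bddAbove _),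
    iSup_le_iff]
  intro l
  obtain ⟨Q, hQ, hQ'⟩ := Ideal.exists_ideal_over_prime_of_isIntegral_of_isDomain
    (R := S) (S := R ⧸ P) l.head.asIdeal
    (by rw [(RingHom.injective_iff_ker_eq_bot _).1 hinj]; exact bot_le)
  have : Q.LiesOver l.head.asIdeal := ⟨hQ'.symm⟩
  obtain ⟨L, hL, -⟩ := Ideal.exists_ltSeries_of_hasGoingUp l Q
  exact hL ▸ Order.LTSeries.length_le_krullDim L

lemma map_max_le [IsLocalRing R₀] [IsLocalRing R] (hR : Cpt (maximalIdeal R)) (j : R₀ →+* R) :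
    (maximalIdeal R₀).map j ≤ maximalIdeal R := by
  have := hR.fin 1
  refine Ideal.map_le_iff_le_comap.2 fun a ha => ?_
  have h := pow_le_ker ((Ideal.Quotient.mk (maximalIdeal R ^ 1)).comp j) (Ideal.pow_mem_pow ha _)
  rw [RingHom.mem_ker, RingHom.comp_apply, Ideal.Quotient.eq_zero_iff_mem, pow_one, map_pow] at h
  exact (maximalIdeal.isMaximal R).isPrime.mem_of_pow_mem _ h

/-- a point of `R₀` lifts to the component -/
theorem le_ker_of_integral [IsLocalRing R₀] [IsDomain R₀] [IsLocalRing R] [IsNoetherianRing R]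
    [IsDomain O] (h₀ : Cpt (maximalIdeal R₀)) (hR : Cpt (maximalIdeal R)) (j : R₀ →+* R)
    {K : Type*} (z : K → R) (hgen : ∀ r, ∃ a, r - j a ∈ Ideal.span (Set.range z)) (X : R →+* O)
    (hX : ∀ k, X (z k) = 0) (P : Ideal R) [P.IsPrime] {D : ℕ} (hD₀ : ringKrullDim R₀ ≤ D)
    (hD : D ≤ ringKrullDim (R ⧸ P))
    (hrel : ∀ k, ∃ (e : ℕ) (a : Fin e → R₀), (∀ i, X (j (a i)) = 0) ∧
      z k ^ e + ∑ i, j (a i) * z k ^ (i : ℕ) ∈ P) : P ≤ RingHom.ker X := by
  set q := RingHom.ker (X.comp j) with hq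
  have hqp : q.IsPrime := RingHom.ker_isPrime _
  -- an ideal containing `P` and `q` contains a power of each `z k`
  have key : ∀ I : Ideal R, P ≤ I → q.map j ≤ I → Ideal.span (Set.range z) ≤ I.radical := by
    intro I h1 h2
    refine Ideal.span_le.2 ?_
    rintro _ ⟨k, rfl⟩
    obtain ⟨e, a, ha, hm⟩ := hrel k
    exact ⟨e, (add_mem_cancel_right (I.sum_mem fun i _ => I.mul_mem_right _
      (h2 (Ideal.mem_map_of_mem j (ha i))))).1 (h1 hm)⟩
  have hzm : Ideal.span (Set.range z) ≤ maximalIdeal R :=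
    (Ideal.span_le.2 (by rintro _ ⟨k, rfl⟩; exact hX k) : _ ≤ RingHom.ker X).trans
      (le_maximalIdeal (RingHom.ker_ne_top X))
  have hm : maximalIdeal R ≤ (P ⊔ (maximalIdeal R₀).map j).radical := by
    intro r hr
    obtain ⟨a, ha⟩ := hgen r
    have h1 : a ∈ maximalIdeal R₀ := by
      by_contra h
      have h2 : j a ∈ maximalIdeal R := by
        simpa using sub_mem hr (hzm ha)
      exact h2 ((notMem_maximalIdeal.1 h).map j)
    rw [← sub_add_cancel r (j a)]
    exact add_mem (key _ le_sup_left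
      ((Ideal.map_mono (le_maximalIdeal hqp.ne_top)).trans le_sup_right) ha)
      (Ideal.le_radical (Ideal.mem_sup_right (Ideal.mem_map_of_mem j h1)))
  obtain ⟨N, hN⟩ := Ideal.exists_pow_le_of_le_radical_of_fg hm (IsNoetherian.noetherian _)
  let _ : Algebra R₀ (R ⧸ P) := ((Ideal.Quotient.mk P).comp j).toAlgebra
  have hloc : IsLocalRing (R ⧸ P) := .of_surjective' _ Ideal.Quotient.mk_surjective
  set I := (maximalIdeal R₀).map (algebraMap R₀ (R ⧸ P)) with hI
  have hI' : I = ((maximalIdeal R₀).map j).map (Ideal.Quotient.mk P) := (Ideal.map_map _ _).symm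
  have hne : I ≠ ⊤ := by
    refine ne_top_of_le_ne_top (maximalIdeal.isMaximal (R ⧸ P)).ne_top ?_
    rw [hI', Ideal.map_le_iff_le_comap]
    have := IsLocalHom.of_surjective _ (Ideal.Quotient.mk_surjective (I := P))
    exact (map_max_le hR j).trans fun a ha => map_nonunit _ a ha
  have hH : IsHausdorff (maximalIdeal R₀) (R ⧸ P) :=
    IsHausdorff.map_algebraMap_iff.1 (IsHausdorff.of_isLocalRing I (R ⧸ P) hne)
  have hfin : Finite ((R ⧸ P) ⧸ I) := by
    have := hR.fin N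
    refine Finite.of_surjective (Ideal.Quotient.lift (maximalIdeal R ^ N)
      ((Ideal.Quotient.mk I).comp (Ideal.Quotient.mk P)) fun a ha => ?_)
      (Ideal.Quotient.lift_surjective_of_surjective _ _
        (Ideal.Quotient.mk_surjective.comp Ideal.Quotient.mk_surjective))
    obtain ⟨b, hb, c, hc, rfl⟩ := Submodule.mem_sup.1 (hN ha)
    rw [RingHom.comp_apply, Ideal.Quotient.eq_zero_iff_mem, map_add,
      Ideal.Quotient.eq_zero_iff_mem.2 hb, zero_add, hI']
    exact Ideal.mem_map_of_mem _ hc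
  have := h₀.cpl
  have hF : Module.Finite R₀ (R ⧸ P) := by
    refine R183.Cohen.finite_of_finite_quotient (I := maximalIdeal R₀) ?_
    rw [Ideal.smul_top_eq_map]
    exact @Module.Finite.of_finite _ _ _ _ _ hfin
  have hinj : Injective (algebraMap R₀ (R ⧸ P)) :=
    R183.Cohen.injective_of_isIntegral_of_ringKrullDim_le
      (ne_top_of_le_ne_top (fun h => ENat.natCast_ne_top D (WithBot.coe_injective h)) hD₀) (hD₀.trans hD)
  obtain ⟨Q, hQ, hQ'⟩ := Ideal.exists_ideal_over_prime_of_isIntegral_of_isDomain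
    (R := R₀) (S := R ⧸ P) q (by rw [(RingHom.injective_iff_ker_eq_bot _).1 hinj]; exact bot_le)
  set Q' := Q.comap (Ideal.Quotient.mk P) with hQ''
  have h1 : Q'.comap j = q := hQ'
  have h2 : P ≤ Q' := fun a ha => by
    rw [Ideal.mem_comap, Ideal.Quotient.eq_zero_iff_mem.2 ha]; exact zero_mem _
  have h3 := key Q' h2 (Ideal.map_le_iff_le_comap.2 h1.ge)
  rw [Ideal.IsPrime.radical inferInstance] at h3
  intro r hr
  obtain ⟨a, ha⟩ := hgen r
  have h4 : a ∈ q := by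
    rw [← h1, Ideal.mem_comap]
    simpa using sub_mem (h2 hr) (h3 ha)
  have h5 : X (r - j a) = 0 :=
    (Ideal.span_le.2 (by rintro _ ⟨k, rfl⟩; exact hX k) : _ ≤ RingHom.ker X) ha
  rw [map_sub, show X (j a) = 0 from h4, sub_zero] at h5
  exact h5

end alg

section conv

variable {S : Type*} [CommRing S] {I : Ideal S} {B : ℕ → Type*} [∀ n, CommRing (B n)]
  {p : ∀ n, S →+* B n} {g : ∀ n, B n} {L : S}

lemma Conv.pow (h : Conv I p g L) (e : ℕ) : Conv I p (fun n => g n ^ e) (L ^ e) := by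
  induction e with
  | zero => simpa using conv_const (I := I) (p := p) 1
  | succ e ih => simpa only [pow_succ] using ih.mul h

lemma ConvR.map {R₀ R : Type*} [CommRing R₀] [IsLocalRing R₀] [CommRing R] [IsLocalRing R]
    (hR : Cpt (maximalIdeal R)) (j : R₀ →+* R) {r : ℕ → R₀} {a : R₀} (h : ConvR r a) :
    ConvR (fun n => j (r n)) (j a) := fun k => (h k).mono fun n hn => by
  rw [Ideal.map_id, RingHom.id_apply] at hn ⊢
  rw [← map_sub]
  exact Ideal.pow_right_mono (map_max_le hR j) k (Ideal.map_pow j _ k ▸ Ideal.mem_map_of_mem j hn)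

/-- ultralimit of points with values in varying quotients -/
theorem Sys.exists_pt {R : Type*} [CommRing R] [IsLocalRing R] (h : Sys I p)
    (x : ∀ n, R →+* B n) : ∃ X : R →+* S, ∀ (r : ℕ → R) (a : R), ConvR r a →
      Conv I p (fun n => x n (r n)) (X a) := by
  obtain ⟨Φ, hΦ⟩ := h.exists_hom (d := Unit) fun n => (Matrix.scalar Unit).comp (x n)
  refine ⟨{ toFun := fun a => Φ a () (), map_one' := by simp, map_mul' := fun a b => ?_,
            map_zero' := by simp, map_add' := fun a b => by simp }, fun r a hr => ?_⟩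
  · simp [Matrix.mul_apply]
  · exact (hΦ r a hr () ()).congr fun n => by simp

end conv

section main

variable {S R R₀ O O' : Type*} [CommRing S] [IsDomain S] [IsLocalRing S] [CommRing R]
  [IsLocalRing R] [CommRing R₀] [IsLocalRing R₀] [CommRing O] [CommRing O'] {J : Ideal O}
  {J' : Ideal O'} {B C C' : ℕ → Type*} [∀ n, CommRing (B n)] [∀ n, CommRing (C n)]
  [∀ n, CommRing (C' n)] {p : ∀ n, S →+* B n} {q : ∀ n, O →+* C n} {q' : ∀ n, O' →+* C' n}
  {d : Type*} [Fintype d] [DecidableEq d] [Nonempty d]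
  {φ : ∀ n, R →+* Matrix d d (B n)} {Φ : R →+* Matrix d d S}

/-- `X` is the limit of the `x n` -/
def LimQ (J : Ideal O) (q : ∀ n, O →+* C n) (x : ∀ n, R →+* C n) (X : R →+* O) : Prop :=
  ∀ (r : ℕ → R) (a : R), ConvR r a → Conv J q (fun n => x n (r n)) (X a)

variable {x : ∀ n, R →+* C n} {X : R →+* O}

lemma LimQ.eq (h : LimQ J q x X) (hO : Sys J q) {r : ℕ → R} {a : R}
    (hr : ConvR r a) {c : O} (hc : ∀ n, x n (r n) = q n c) : X a = c :=
  hO.unique (h r a hr) ((conv_const c).congr hc)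

lemma LimM.ker (h : LimM p φ Φ) (hS : Sys (maximalIdeal S) p) {r : ℕ → R} {a : R}
    (hr : ConvR r a) (hc : ∀ n, φ n (r n) = 0) : a ∈ RingHom.ker Φ :=
  Matrix.ext fun i j => hS.unique (h r a hr i j) ((conv_const 0).congr fun n => by simp [hc])

lemma limQ_scalar (hS : Sys (maximalIdeal S) p) (hR : Cpt (maximalIdeal R)) (hO : Sys J q)
    (hΦ : LimM p φ Φ) (hX : LimQ J q x X) {ε : S →+* O}
    (hsc : ∀ n s, ∃ r, φ n r = Matrix.scalar d (p n s) ∧ x n r = q n (ε s)) (s : S) :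
    ∃ r, Φ r = Matrix.scalar d s ∧ X r = ε s := by
  choose r h1 h2 using fun n => hsc n s
  obtain ⟨a, ha⟩ := hR.sys.exists_conv r
  refine ⟨a, Matrix.ext fun i j => hS.unique (hΦ r a ha i j) ((conv_const _).congr fun n => ?_),
    hX.eq hO ha h2⟩
  rw [h1, Matrix.scalar_apply, Matrix.scalar_apply, Matrix.diagonal_apply, Matrix.diagonal_apply]
  split_ifs <;> simp

lemma limQ_support (hS : Sys (maximalIdeal S) p) (hO : Sys J q) [IsReduced O]
    (hΦ : LimM p φ Φ) (hX : LimQ J q x X) {ε : S →+* O}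
    (hsc : ∀ n s, ∃ r, φ n r = Matrix.scalar d (p n s) ∧ x n r = q n (ε s))
    (hker : ∀ n, RingHom.ker (φ n) ≤ RingHom.ker (x n)) : RingHom.ker Φ ≤ RingHom.ker X := by
  intro a ha
  refine IsNilpotent.eq_zero ⟨Fintype.card d, hO.cpt.eq_zero fun k => ?_⟩
  have := hO.cpt.fin k
  have h1 : ∀ᶠ n in (U : Filter ℕ), ∀ i j, φ n a i j ∈
      (maximalIdeal S ^ Nat.card (O ⧸ J ^ k)).map (p n) := by
    refine eventually_all.2 fun i => eventually_all.2 fun j => ?_
    have h := hΦ (fun _ => a) a (conv_const a) i j (Nat.card (O ⧸ J ^ k))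
    rw [RingHom.mem_ker.1 ha] at h
    simpa using h
  obtain ⟨n, h2, h3, hn⟩ := (h1.and ((hX (fun _ => a) a (conv_const a) k).and (ev_ge k))).exists
  choose N hN1 hN2 using fun i j => (Ideal.mem_map_iff_of_surjective _ (hS.surj n)).1 (h2 i j)
  have h4 := pow_mem (p n) (φ n) (x n) ((q n).comp ε) (hsc n) (hker n) a (Matrix.of N)
    (Matrix.ext hN2) _ hN1
  have h5 : (maximalIdeal S ^ Nat.card (O ⧸ J ^ k)).map ε ≤ J ^ k :=
    Ideal.map_le_iff_le_comap.2 fun s hs => (Ideal.Quotient.eq_zero_iff_mem (I := J ^ k)).1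
      (pow_le_ker ((Ideal.Quotient.mk (J ^ k)).comp ε) hs)
  rw [← Ideal.map_map] at h4
  refine hO.mem_of_map hn ?_
  rw [← Ideal.Quotient.eq] at h3
  rw [← Ideal.Quotient.eq_zero_iff_mem, map_pow, map_pow, ← h3, ← map_pow,
    Ideal.Quotient.eq_zero_iff_mem]
  exact Ideal.map_mono h5 h4

lemma limQ_conclude (hS : Sys (maximalIdeal S) p) (hR : Cpt (maximalIdeal R)) (hO : Sys J q)
    (hΦ : LimM p φ Φ) (hX : LimQ J q x X) {ε : S →+* O}
    (hsc : ∀ n s, ∃ r, φ n r = Matrix.scalar d (p n s) ∧ x n r = q n (ε s))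
    (hker : RingHom.ker Φ ≤ RingHom.ker X) {c : O}
    (hc : ∀ n, ∃ t, (∀ i j, φ n t i j ∈ (RingHom.ker ε).map (p n)) ∧ x n t = q n c) :
    c ^ Fintype.card d = 0 := by
  choose t h1 h2 using hc
  obtain ⟨a, ha⟩ := hR.sys.exists_conv t
  have h := pow_mem (RingHom.id S) Φ X ε (limQ_scalar hS hR hO hΦ hX hsc) hker a (Φ a)
    (Matrix.map_id' _) (RingHom.ker ε) fun i j =>
      hS.map_eq_zero rfl hO.cpt ε (hΦ t a ha i j) fun n => h1 n i j
  rwa [hX.eq hO ha h2, (Ideal.map_eq_bot_iff_le_ker ε).2 le_rfl, Ideal.mem_bot] at h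

variable [IsDomain R₀] [IsNoetherianRing R] [IsDomain O] {K L : Type*} [Fintype K]

lemma limQ_main (hS : Sys (maximalIdeal S) p) (hR : Cpt (maximalIdeal R))
    (h₀ : Cpt (maximalIdeal R₀)) (hO : Sys J q) {D : ℕ} (hD₀ : ringKrullDim R₀ ≤ D)
    (hD : D ≤ ringKrullDim S) (hΦ : LimM p φ Φ) (hX : LimQ J q x X) {ε : S →+* O}
    (hsc : ∀ n s, ∃ r, φ n r = Matrix.scalar d (p n s) ∧ x n r = q n (ε s))
    (j : R₀ →+* R) (u : K → R) (s : L → R)
    (hgen : ∀ r, ∃ a, r - j a ∈ Ideal.span (Set.range (Sum.elim u s)))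
    (hu : ∀ n k, x n (u k) = 0) (hs : ∀ n l, x n (s l) = 0)
    (hint : ∀ l, ∃ e : ℕ, ∀ n, ∃ (a : Fin e → R₀) (b : K → R), (∀ i, x n (j (a i)) = 0) ∧
      φ n (s l ^ e + ∑ i, j (a i) * s l ^ (i : ℕ) + ∑ k, b k * u k) = 0)
    {P : Ideal R} (hP : P ∈ (RingHom.ker Φ).minimalPrimes) (huP : ∀ k, u k ∈ P) :
    RingHom.ker Φ ≤ RingHom.ker X := by
  have := hP.isPrime
  refine hP.le.trans (le_ker_of_integral h₀ hR j _ hgen X ?_ P hD₀ (hD.trans (dim_le_of_min Φ
    (fun s => (limQ_scalar hS hR hO hΦ hX hsc s).imp fun _ h => h.1) hP)) ?_)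
  · rintro (k | l)
    · exact hX.eq hO (conv_const _) fun n => (hu n k).trans (map_zero _).symm
    · exact hX.eq hO (conv_const _) fun n => (hs n l).trans (map_zero _).symm
  · rintro (k | l)
    · exact ⟨1, 0, fun i => by simp, by simpa using huP k⟩
    · obtain ⟨e, he⟩ := hint l
      choose a b h1 h2 using he
      choose a' ha using fun i => h₀.sys.exists_conv fun n => a n i
      choose b' hb using fun k => hR.sys.exists_conv fun n => b n k
      refine ⟨e, a', fun i => hX.eq hO (ConvR.map hR j (ha i)) fun n =>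
        (h1 n i).trans (map_zero _).symm, ?_⟩
      have h3 := hP.le (hΦ.ker hS (((conv_const (s l ^ e)).add (Conv.sum Finset.univ fun i =>
        (ConvR.map hR j (ha i)).mul (conv_const (s l ^ (i : ℕ))))).add
          (Conv.sum Finset.univ fun k => (hb k).mul (conv_const (u k)))) h2)
      exact (add_mem_cancel_right (P.sum_mem fun k _ => P.mul_mem_left _ (huP k))).1 h3

/-- **Patching with killed and integral variables.** -/
theorem patch_gen [IsDomain O'] (hS : Sys (maximalIdeal S) p) (hR : Cpt (maximalIdeal R))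
    (h₀ : Cpt (maximalIdeal R₀)) (hO : Sys J q) (hO' : Sys J' q') {D : ℕ}
    (hD₀ : ringKrullDim R₀ ≤ D) (hD : D ≤ ringKrullDim S)
    (φ : ∀ n, R →+* Matrix d d (B n)) (x : ∀ n, R →+* C n) (ε : S →+* O)
    (hsc : ∀ n s, ∃ r, φ n r = Matrix.scalar d (p n s) ∧ x n r = q n (ε s))
    (θ : ∀ n, R →+* C' n) (ε' : S →+* O')
    (hsc' : ∀ n s, ∃ r, φ n r = Matrix.scalar d (p n s) ∧ θ n r = q' n (ε' s))
    (hθ : ∀ n, RingHom.ker (φ n) ≤ RingHom.ker (θ n))
    (j : R₀ →+* R) (u : K → R) (s : L → R)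
    (hgen : ∀ r, ∃ a, r - j a ∈ Ideal.span (Set.range (Sum.elim u s)))
    (hu : ∀ n k, x n (u k) = 0) (hs : ∀ n l, x n (s l) = 0)
    (hkill : ∀ k, ∃ (e : ℕ) (c : O'), c ≠ 0 ∧ ∀ n, ∃ v, θ n v = q' n c ∧ φ n (v * u k ^ e) = 0)
    (hint : ∀ l, ∃ e : ℕ, ∀ n, ∃ (a : Fin e → R₀) (b : K → R), (∀ i, x n (j (a i)) = 0) ∧
      φ n (s l ^ e + ∑ i, j (a i) * s l ^ (i : ℕ) + ∑ k, b k * u k) = 0) {c : O}
    (hc : ∀ n, ∃ t, (∀ i j, φ n t i j ∈ (RingHom.ker ε).map (p n)) ∧ x n t = q n c) : c = 0 := by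
  obtain ⟨Φ, hΦ⟩ := hS.exists_hom φ
  obtain ⟨X, hX⟩ := hO.exists_pt x
  obtain ⟨Θ, hΘ⟩ := hO'.exists_pt θ
  have := RingHom.ker_isPrime Θ
  obtain ⟨P, hP, hle⟩ := Ideal.exists_minimalPrimes_le (limQ_support hS hO' hΦ hΘ hsc' hθ)
  refine pow_eq_zero_iff Fintype.card_ne_zero |>.1 (limQ_conclude hS hR hO hΦ hX hsc
    (limQ_main hS hR h₀ hO hD₀ hD hΦ hX hsc j u s hgen hu hs hint hP fun k => ?_) hc)
  obtain ⟨e, c, hc0, h⟩ := hkill k
  choose v h1 h2 using h
  obtain ⟨v', hv⟩ := hR.sys.exists_conv v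
  have h3 := hP.le (LimM.ker hΦ hS (hv.mul (conv_const (u k ^ e))) h2)
  exact hP.isPrime.mem_of_pow_mem e ((hP.isPrime.mem_or_mem h3).resolve_left fun h =>
    hc0 ((LimQ.eq hΘ hO' hv h1).symm.trans (hle h)))

/-- **Patching with integral variables only** (no second point). -/
theorem patch_int_43 (hS : Sys (maximalIdeal S) p) (hR : Cpt (maximalIdeal R))
    (h₀ : Cpt (maximalIdeal R₀)) (hO : Sys J q) {D : ℕ}
    (hD₀ : ringKrullDim R₀ ≤ D) (hD : D ≤ ringKrullDim S)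
    (φ : ∀ n, R →+* Matrix d d (B n)) (x : ∀ n, R →+* C n) (ε : S →+* O)
    (hsc : ∀ n s, ∃ r, φ n r = Matrix.scalar d (p n s) ∧ x n r = q n (ε s))
    (j : R₀ →+* R) (s : L → R) (hgen : ∀ r, ∃ a, r - j a ∈ Ideal.span (Set.range s))
    (hs : ∀ n l, x n (s l) = 0)
    (hint : ∀ l, ∃ e : ℕ, ∀ n, ∃ a : Fin e → R₀, (∀ i, x n (j (a i)) = 0) ∧
      φ n (s l ^ e + ∑ i, j (a i) * s l ^ (i : ℕ)) = 0) {c : O}
    (hc : ∀ n, ∃ t, (∀ i j, φ n t i j ∈ (RingHom.ker ε).map (p n)) ∧ x n t = q n c) : c = 0 := by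
  obtain ⟨Φ, hΦ⟩ := hS.exists_hom φ
  obtain ⟨X, hX⟩ := hO.exists_pt x
  obtain ⟨m, hm, hle⟩ := Ideal.exists_le_maximal _ (RingHom.ker_ne_top Φ)
  obtain ⟨P, hP, -⟩ := Ideal.exists_minimalPrimes_le hle
  refine pow_eq_zero_iff Fintype.card_ne_zero |>.1 (limQ_conclude hS hR hO hΦ hX hsc
    (limQ_main (K := Empty) hS hR h₀ hO hD₀ hD hΦ hX hsc j Empty.elim s (fun r => ?_)
      (fun _ k => k.elim) hs (fun l => ?_) hP fun k => k.elim) hc)
  · obtain ⟨a, ha⟩ := hgen r
    exact ⟨a, Ideal.span_mono (by rintro _ ⟨l, rfl⟩; exact ⟨Sum.inr l, rfl⟩) ha⟩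
  · obtain ⟨e, he⟩ := hint l
    refine ⟨e, fun n => ?_⟩
    obtain ⟨a, h1, h2⟩ := he n
    exact ⟨a, Empty.elim, h1, by simpa only [Finset.univ_eq_empty, Finset.sum_empty, add_zero]⟩

end main

end Crest.Agent.T15.Pat

end
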