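import Crest.Agent.T15.PatC_43
import Crest.Agent.R227.LTComplete

/-!
# Row 15, block R (helper43): patching, part D (power series rings, group rings)

* `cpt_mv`, `dim_mv`; `TN` (topologically nilpotent in a finite `O`-algebra), `ev`, `mv_ext`;
* `TWg p n δ`: Taylor-Wiles groups, `gr` and `sys_gr`.
-/

set_option autoImplicit false
set_option linter.unusedSectionVars false

noncomputable section

namespace Crest.Agent.T15.Pat

open IsLocalRing Filter Function MvPowerSeries Crest.Agent.R183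

section ps

variable {O : Type*} [CommRing O] {σ : Type*} [Finite σ]

/-- homomorphisms from a power series ring are determined by constants and variables -/
theorem mv_ext {T : Type*} [CommRing T] (J : Ideal T) [hH : IsHausdorff J T]
    {g g' : MvPowerSeries σ O →+* T} (hC : ∀ a, g (C a) = g' (C a)) (hX : ∀ i, g (X i) = g' (X i))
    (hJ : ∀ i, g (X i) ∈ J) : g = g' := by
  have hpoly : g.comp MvPolynomial.coeToMvPowerSeries.ringHom =
      g'.comp MvPolynomial.coeToMvPowerSeries.ringHom := by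
    apply MvPolynomial.ringHom_ext
    · intro a
      simp only [RingHom.comp_apply, MvPolynomial.coeToMvPowerSeries.ringHom_apply,
        MvPolynomial.coe_C, hC]
    · intro i
      simp only [RingHom.comp_apply, MvPolynomial.coeToMvPowerSeries.ringHom_apply,
        MvPolynomial.coe_X, hX]
  have key : ∀ (h : MvPowerSeries σ O →+* T), (∀ i, h (X i) ∈ J) → ∀ N f,
      h f - h ((truncTotal N f : MvPolynomial σ O) : MvPowerSeries σ O) ∈ J ^ N := by
    intro h hh N f
    have h1 : f - ((truncTotal N f : MvPolynomial σ O) : MvPowerSeries σ O) ∈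
        (Ideal.span (Set.range (X : σ → MvPowerSeries σ O))) ^ N := by
      apply Cohen.mem_span_X_pow
      intro x hx
      rw [map_sub, MvPolynomial.coeff_coe, coeff_truncTotal _ hx, sub_self]
    have h3 : (Ideal.span (Set.range (X : σ → MvPowerSeries σ O))) ^ N ≤ (J ^ N).comap h := by
      rw [← Ideal.map_le_iff_le_comap, Ideal.map_pow]
      apply Ideal.pow_right_mono
      rw [Ideal.map_span, Ideal.span_le]
      rintro _ ⟨_, ⟨i, rfl⟩, rfl⟩
      exact hh i
    rw [← map_sub]
    exact h3 h1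
  ext f
  rw [← sub_eq_zero]
  refine hH.haus' _ fun N => ?_
  rw [SModEq.zero, smul_eq_mul, Ideal.mul_top]
  have h1 := sub_mem (key g hJ N f) (key g' (fun i => hX i ▸ hJ i) N f)
  have h2 : g ((truncTotal N f : MvPolynomial σ O) : MvPowerSeries σ O) =
      g' ((truncTotal N f : MvPolynomial σ O) : MvPowerSeries σ O) := RingHom.congr_fun hpoly _
  rwa [h2, sub_sub_sub_cancel_right] at h1

theorem mv_ext_zero {T : Type*} [CommRing T] {g g' : MvPowerSeries σ O →+* T}
    (hC : ∀ a, g (C a) = g' (C a)) (hX : ∀ i, g (X i) = 0) (hX' : ∀ i, g' (X i) = 0) : g = g' :=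
  mv_ext ⊥ hC (fun i => (hX i).trans (hX' i).symm) hX

variable [IsLocalRing O]

lemma mem_max_mv {f : MvPowerSeries σ O} :
    f ∈ maximalIdeal (MvPowerSeries σ O) ↔ constantCoeff f ∈ maximalIdeal O := by
  rw [mem_maximalIdeal, mem_nonunits_iff, MvPowerSeries.isUnit_iff_constantCoeff,
    mem_maximalIdeal, mem_nonunits_iff]

lemma X_mem_max (i : σ) : (X i : MvPowerSeries σ O) ∈ maximalIdeal _ := by
  rw [mem_max_mv, constantCoeff_X]; exact zero_mem _

lemma C_mem_max {a : O} (h : a ∈ maximalIdeal O) : (C a : MvPowerSeries σ O) ∈ maximalIdeal _ := by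
  rwa [mem_max_mv, constantCoeff_C]

variable [IsNoetherianRing O]

theorem cpt_mv (hO : Cpt (maximalIdeal O)) (σ : Type*) [Finite σ] :
    Cpt (maximalIdeal (MvPowerSeries σ O)) := by
  have := hO.cpl
  have := R227.isAdicComplete_maximalIdeal_mv (σ := σ) (A := O)
  have h1 := hO.fin 1
  rw [pow_one] at h1
  have : Finite (MvPowerSeries σ O ⧸ maximalIdeal (MvPowerSeries σ O)) := by
    refine Finite.of_surjective (Ideal.quotientMap (maximalIdeal (MvPowerSeries σ O))
      (C : O →+* MvPowerSeries σ O) (I := maximalIdeal O) fun a ha => C_mem_max ha) fun f => ?_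
    obtain ⟨f, rfl⟩ := Ideal.Quotient.mk_surjective f
    refine ⟨Ideal.Quotient.mk _ (constantCoeff f), ?_⟩
    rw [Ideal.quotientMap_mk, Ideal.Quotient.eq, mem_max_mv, map_sub, constantCoeff_C, sub_self]
    exact zero_mem _
  exact cpt_of _

theorem dim_mv (n : ℕ) : ringKrullDim (MvPowerSeries (Fin n) O) = ringKrullDim O + n :=
  Cohen.ringKrullDim_mvPowerSeries O n

/-- every series is a series in the first variables modulo the other variables -/
theorem sub_rename_mem {τ : Type*} [Finite τ] (f : MvPowerSeries (σ ⊕ τ) O) :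
    ∃ a : MvPowerSeries σ O, f - rename Sum.inl a ∈
      Ideal.span (Set.range fun k : τ => (X (Sum.inr k) : MvPowerSeries (σ ⊕ τ) O)) := by
  set I := Ideal.span (Set.range fun k : τ => (X (Sum.inr k) : MvPowerSeries (σ ⊕ τ) O))
  have : IsHausdorff ((maximalIdeal (MvPowerSeries (σ ⊕ τ) O)).map
      (algebraMap _ (MvPowerSeries (σ ⊕ τ) O ⧸ I))) (MvPowerSeries (σ ⊕ τ) O ⧸ I) :=
    IsHausdorff.map_algebraMap_iff.2 inferInstance
  have h := mv_ext ((maximalIdeal (MvPowerSeries (σ ⊕ τ) O)).map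
      (algebraMap _ (MvPowerSeries (σ ⊕ τ) O ⧸ I))) (g := Ideal.Quotient.mk I)
    (g' := (Ideal.Quotient.mk I).comp ((rename (R := O) Sum.inl).toRingHom.comp
      (killCompl (R := O) Embedding.inl).toRingHom)) (fun a => by simp) ?_
    fun i => Ideal.mem_map_of_mem _ (X_mem_max i)
  · exact ⟨killCompl Embedding.inl f, Ideal.Quotient.eq.1 (RingHom.congr_fun h f)⟩
  · rintro (i | k)
    · have := killCompl_X (R := O) (e := (Embedding.inl : σ ↪ σ ⊕ τ)) i
      simp only [Embedding.inl_apply] at this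
      simp [this]
    · have := killCompl_X_eq_zero (R := O) (e := (Embedding.inl : σ ↪ σ ⊕ τ)) (t := Sum.inr k)
        (by simp)
      simp only [RingHom.comp_apply, AlgHom.toRingHom_eq_coe, RingHom.coe_coe, this, map_zero]
      exact Ideal.Quotient.eq_zero_iff_mem.2 (Ideal.subset_span ⟨k, rfl⟩)

end ps

section fin

variable (O : Type*) [CommRing O] [IsLocalRing O]

/-- the ideal of topologically nilpotent elements of an `O`-algebra -/
def rad (T : Type*) [CommRing T] [Algebra O T] : Ideal T :=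
  ((maximalIdeal O).map (algebraMap O T)).radical

variable {T T' : Type*} [CommRing T] [Algebra O T] [CommRing T'] [Algebra O T']

/-- topologically nilpotent: some power lies in `m_O T` -/
abbrev TN (a : T) : Prop := a ∈ rad O T

variable {O}

lemma TN.map {a : T} (h : TN O a) (g : T →+* T')
    (hg : ∀ c, g (algebraMap O T c) = algebraMap O T' c) : TN O (g a) := by
  obtain ⟨N, hN⟩ := h
  refine ⟨N, ?_⟩
  have := Ideal.mem_map_of_mem g hN
  rwa [Ideal.map_map, show g.comp (algebraMap O T) = algebraMap O T' from RingHom.ext hg,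
    map_pow] at this

lemma TN.mapₐ {a : T} (h : TN O a) (g : T →ₐ[O] T') : TN O (g a) := h.map g.toRingHom g.commutes

lemma TN.of_nilpotent {a : T} (h : IsNilpotent a) : TN O a := by
  obtain ⟨N, hN⟩ := h
  exact ⟨N, hN ▸ zero_mem _⟩

/-- `a - 1` for `a` of `p`-power order -/
lemma TN.sub_one {p : ℕ} (hp : p.Prime) (hpm : (p : O) ∈ maximalIdeal O) {a : T} {m : ℕ}
    (h : a ^ p ^ m = 1) : TN O (a - 1) := by
  obtain ⟨r, hr⟩ := exists_add_pow_prime_pow_eq hp (a - 1) 1 m
  rw [sub_add_cancel, h, one_pow] at hr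
  refine ⟨p ^ m, ?_⟩
  rw [show (a - 1) ^ p ^ m = algebraMap O T p * (-((a - 1) * r)) by
    rw [map_natCast]; linear_combination -hr]
  exact Ideal.mul_mem_right _ _ (Ideal.mem_map_of_mem _ hpm)

variable [IsNoetherianRing O] [Module.Finite O T]

lemma finite_quot (hO : Cpt (maximalIdeal O)) :
    Finite (T ⧸ (maximalIdeal O).map (algebraMap O T)) := by
  have h1 := hO.fin 1
  rw [pow_one] at h1
  exact Module.finite_of_finite (O ⧸ maximalIdeal O)

/-- the maximal ideal of a finite local algebra is topologically nilpotent -/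
lemma TN.of_mem_max (hO : Cpt (maximalIdeal O)) [IsLocalRing T] {a : T}
    (h : a ∈ maximalIdeal T) : TN O a := by
  have := finite_quot (T := T) hO
  exact ⟨_, Ideal.Quotient.eq_zero_iff_mem.1 (pow_le_ker
    (Ideal.Quotient.mk ((maximalIdeal O).map (algebraMap O T))) (Ideal.pow_mem_pow h _))⟩

theorem complete_rad (hO : Cpt (maximalIdeal O)) (T : Type*) [CommRing T] [Algebra O T]
    [Module.Finite O T] : IsAdicComplete (rad O T) T := by
  have := hO.cpl
  have hN : IsNoetherianRing T := IsNoetherianRing.of_finite O T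
  obtain ⟨K, hK⟩ := Ideal.exists_pow_le_of_le_radical_of_fg (le_refl (rad O T))
    (IsNoetherian.noetherian _)
  set I := (maximalIdeal O).map (algebraMap O T)
  have hK' : ∀ k, rad O T ^ ((K + 1) * k) ≤ I ^ k := fun k => by
    rw [pow_mul]
    exact Ideal.pow_right_mono ((Ideal.pow_le_pow_right (Nat.le_succ K)).trans hK) k
  have hH : IsHausdorff I T := IsHausdorff.map_algebraMap_iff.2 inferInstance
  have hP : IsPrecomplete I T := by
    refine IsPrecomplete.map_algebraMap_iff.2 (AdicCompletion.of_surjective_iff.1 fun y => ?_)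
    obtain ⟨n, f, hf⟩ := Module.Finite.exists_fin' O T
    have := Cohen.isPrecomplete_pi (I := maximalIdeal O) n
    obtain ⟨x, rfl⟩ := AdicCompletion.map_surjective (maximalIdeal O) hf y
    obtain ⟨x, rfl⟩ := AdicCompletion.of_surjective (maximalIdeal O) _ x
    exact ⟨f x, (AdicCompletion.map_of _ f x).symm⟩
  refine { haus' := fun a ha => hH.haus' a fun k => ?_, prec' := fun f hf => ?_ }
  · have := ha ((K + 1) * k)
    rw [SModEq.zero, smul_eq_mul, Ideal.mul_top] at this ⊢
    exact hK' k this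
  · simp only [SModEq.sub_mem, smul_eq_mul, Ideal.mul_top] at hf ⊢
    obtain ⟨L, hL⟩ := hP.prec' (fun k => f ((K + 1) * k)) fun {k l} h => by
      rw [SModEq.sub_mem, smul_eq_mul, Ideal.mul_top]
      exact hK' k (hf (Nat.mul_le_mul_left _ h))
    refine ⟨L, fun k => ?_⟩
    have h1 := hL k
    rw [SModEq.sub_mem, smul_eq_mul, Ideal.mul_top] at h1
    rw [← sub_add_sub_cancel _ (f ((K + 1) * k))]
    exact add_mem (hf (Nat.le_mul_of_pos_left k K.succ_pos))
      (Ideal.pow_right_mono Ideal.le_radical k h1)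

/-- a finite local algebra is compact -/
theorem cpt_finite (hO : Cpt (maximalIdeal O)) (T : Type*) [CommRing T] [Algebra O T]
    [Module.Finite O T] : Cpt (rad O T) := by
  have := complete_rad hO T
  have := finite_quot (T := T) hO
  have hN : IsNoetherianRing T := IsNoetherianRing.of_finite O T
  have : Finite (T ⧸ rad O T) :=
    Finite.of_surjective _ (Ideal.Quotient.factor_surjective Ideal.le_radical)
  exact cpt_of _

variable {σ : Type*} [Finite σ]

/-- evaluation of power series at topologically nilpotent elements of a finite algebra -/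
def ev (hO : Cpt (maximalIdeal O)) (t : σ → T) (ht : ∀ i, TN O (t i)) :
    MvPowerSeries σ O →+* T :=
  haveI := complete_rad hO T
  Cohen.psEval (rad O T) (algebraMap O T) t ht

variable (hO : Cpt (maximalIdeal O)) (t : σ → T) (ht : ∀ i, TN O (t i))

@[simp] lemma ev_C (a : O) : ev hO t ht (C a) = algebraMap O T a :=
  haveI := complete_rad hO T
  Cohen.psEval_C _ _ _ ht a

@[simp] lemma ev_X (i : σ) : ev hO t ht (X i) = t i :=
  haveI := complete_rad hO T
  Cohen.psEval_X _ _ _ ht i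

include hO in
/-- uniqueness for finite algebras -/
lemma fin_ext {g g' : MvPowerSeries σ O →+* T} (hC : ∀ a, g (C a) = g' (C a))
    (hX : ∀ i, g (X i) = g' (X i)) (hJ : ∀ i, TN O (g (X i))) : g = g' :=
  haveI := complete_rad hO T
  mv_ext (rad O T) hC hX hJ

lemma adjoin_le_range_ev {a : T} (ha : a ∈ Algebra.adjoin O (Set.range t)) :
    ∃ f, ev hO t ht f = a := by
  induction ha using Algebra.adjoin_induction with
  | mem x hx => obtain ⟨i, rfl⟩ := hx; exact ⟨X i, ev_X ..⟩
  | algebraMap c => exact ⟨C c, ev_C ..⟩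
  | add x y _ _ hx hy =>
    obtain ⟨f, rfl⟩ := hx; obtain ⟨g, rfl⟩ := hy; exact ⟨f + g, map_add ..⟩
  | mul x y _ _ hx hy =>
    obtain ⟨f, rfl⟩ := hx; obtain ⟨g, rfl⟩ := hy; exact ⟨f * g, map_mul ..⟩

lemma ev_surjective (h : Algebra.adjoin O (Set.range t) = ⊤) : Surjective (ev hO t ht) :=
  fun _ => adjoin_le_range_ev hO t ht (h ▸ Algebra.mem_top)

end fin

section grp

/-- generators of a Taylor-Wiles group of level `n` -/
structure TWg (p n : ℕ) {ι Δ : Type*} [Fintype ι] [CommGroup Δ] (δ : ι → Δ) : Prop where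
  gen : ∀ g, ∃ k : ι → ℕ, g = ∏ i, δ i ^ k i
  rel : ∀ k k' : ι → ℕ, ∏ i, δ i ^ k i = ∏ i, δ i ^ k' i → ∀ i, k i ≡ k' i [MOD p ^ n]
  ord : ∀ i, ∃ m, δ i ^ p ^ m = 1

variable {p n : ℕ} {ι Δ : Type*} [Fintype ι] [CommGroup Δ] {δ : ι → Δ}

lemma TWg.exists_hom (h : TWg p n δ) {A : Type*} [CommMonoid A] (a : ι → A)
    (ha : ∀ i, a i ^ p ^ n = 1) : ∃ f : Δ →* A, ∀ i, f (δ i) = a i := by
  classical
  choose k hk using h.gen
  have key : ∀ g (l : ι → ℕ), g = ∏ i, δ i ^ l i → ∏ i, a i ^ k g i = ∏ i, a i ^ l i :=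
    fun g l e => Finset.prod_congr rfl fun i _ =>
      pow_eq_pow_of_modEq (h.rel _ _ ((hk g).symm.trans e) i) (ha i)
  refine ⟨{ toFun := fun g => ∏ i, a i ^ k g i, map_one' := ?_, map_mul' := fun g g' => ?_ },
    fun i => ?_⟩
  · simpa using key 1 0 (by simp)
  · rw [key (g * g') (k g + k g') (by
      simp only [Pi.add_apply, pow_add, Finset.prod_mul_distrib, ← hk])]
    simp only [Pi.add_apply, pow_add, Finset.prod_mul_distrib]
  · have e : ∀ {M : Type _} [CommMonoid M] (b : ι → M),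
        ∏ j, b j ^ (Pi.single i 1 : ι → ℕ) j = b i := fun b => by
      rw [Finset.prod_eq_single i (fun j _ hj => by simp [hj]) (by simp)]; simp
    exact (key (δ i) (Pi.single i 1) (by
      rw [Finset.prod_eq_single i (fun j _ hj => by simp [hj]) (by simp)]; simp)).trans (e a)

/-- a product of cyclic groups of order `p ^ m i`, `n ≤ m i` -/
theorem twg_pi [DecidableEq ι] {G : ι → Type*} [∀ i, CommGroup (G i)] (γ : ∀ i, G i)
    (hγ : ∀ i g, g ∈ Submonoid.powers (γ i)) (m : ι → ℕ) (hm : ∀ i, n ≤ m i)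
    (ho : ∀ i, orderOf (γ i) = p ^ m i) : TWg p n fun i => Pi.mulSingle i (γ i) := by
  have e : ∀ (k : ι → ℕ) (i : ι), (∏ j, (Pi.mulSingle j (γ j) : ∀ i, G i) ^ k j) i = γ i ^ k i :=
    fun k i => by
      rw [Finset.prod_apply, Finset.prod_eq_single i (fun j _ hj => by
        simp [Pi.mulSingle_eq_of_ne hj.symm]) (by simp)]
      simp
  refine ⟨fun g => ?_, fun k k' h i => ?_, fun i => ⟨m i, ?_⟩⟩
  · choose k hk using fun i => hγ i (g i)
    exact ⟨k, funext fun i => by rw [e]; exact (hk i).symm⟩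
  · have h1 := congrFun h i
    rw [e, e, pow_eq_pow_iff_modEq, ho] at h1
    exact h1.of_dvd (pow_dvd_pow p (hm i))
  · rw [← Pi.mulSingle_pow, ← ho, pow_orderOf_eq_one, Pi.mulSingle_one]

/-- transport along an isomorphism -/
theorem TWg.map (h : TWg p n δ) {Δ' : Type*} [CommGroup Δ'] (e : Δ ≃* Δ') :
    TWg p n fun i => e (δ i) := by
  refine ⟨fun g => ?_, fun k k' hk => h.rel k k' (e.injective ?_), fun i => ?_⟩
  · obtain ⟨k, hk⟩ := h.gen (e.symm g)
    exact ⟨k, by simp only [← map_pow, ← map_prod, ← hk, MulEquiv.apply_symm_apply]⟩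
  · simpa only [map_prod, map_pow] using hk
  · obtain ⟨m, hm⟩ := h.ord i
    exact ⟨m, by rw [← map_pow, hm, map_one]⟩

variable {O : Type*} [CommRing O] [IsLocalRing O] [IsNoetherianRing O]
  (Cn : Type*) [CommRing Cn] [Algebra O Cn] [Module.Finite O Cn] [Finite Δ]

lemma TWg.tn (h : TWg p n δ) (hp : p.Prime) (hpm : (p : O) ∈ maximalIdeal O) (i : ι) :
    TN O (MonoidAlgebra.of Cn Δ (δ i) - 1) := by
  obtain ⟨m, hm⟩ := h.ord i
  exact TN.sub_one hp hpm (m := m) (by rw [← map_pow, hm, map_one])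

/-- the map `O[[y]] → C[Δ]`, `y i ↦ δ i - 1` -/
def TWg.gr (h : TWg p n δ) (hO : Cpt (maximalIdeal O)) (hp : p.Prime)
    (hpm : (p : O) ∈ maximalIdeal O) : MvPowerSeries ι O →+* MonoidAlgebra Cn Δ :=
  ev hO (fun i => MonoidAlgebra.of Cn Δ (δ i) - 1) (h.tn Cn hp hpm)

variable (h : TWg p n δ) (hO : Cpt (maximalIdeal O)) (hp : p.Prime)
  (hpm : (p : O) ∈ maximalIdeal O)

@[simp] lemma TWg.gr_C (a : O) : h.gr Cn hO hp hpm (C a) = algebraMap O _ a := ev_C ..

@[simp] lemma TWg.gr_X (i : ι) : h.gr Cn hO hp hpm (X i) = MonoidAlgebra.of Cn Δ (δ i) - 1 :=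
  ev_X ..

lemma TWg.gr_surjective (hC : Surjective (algebraMap O Cn)) : Surjective (h.gr Cn hO hp hpm) := by
  intro b
  induction b using MonoidAlgebra.induction_on with
  | of g =>
    obtain ⟨k, rfl⟩ := h.gen g
    exact ⟨∏ i, (X i + 1) ^ k i, by simp⟩
  | add x y hx hy => obtain ⟨f, rfl⟩ := hx; obtain ⟨g, rfl⟩ := hy; exact ⟨f + g, map_add ..⟩
  | smul c x hx =>
    obtain ⟨f, rfl⟩ := hx
    obtain ⟨c, rfl⟩ := hC c
    exact ⟨C c * f, by rw [map_mul, TWg.gr_C, algebraMap_smul, Algebra.smul_def]⟩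

lemma TWg.ker_gr (hC : Surjective (algebraMap O Cn))
    (hk : RingHom.ker (algebraMap O Cn) ≤ maximalIdeal O ^ n) :
    RingHom.ker (h.gr Cn hO hp hpm) ≤ maximalIdeal (MvPowerSeries ι O) ^ n := by
  set I := maximalIdeal (MvPowerSeries ι O) ^ n with hI
  obtain ⟨f, hf⟩ := h.exists_hom (fun i => Ideal.Quotient.mk I (X i + 1)) fun i => by
    have h1 : (X i + 1 : MvPowerSeries ι O) ≡ 1 [SMOD maximalIdeal (MvPowerSeries ι O)] := by
      rw [SModEq.sub_mem, add_sub_cancel_right]; exact X_mem_max i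
    have h2 := SModEq.pow_pow_add_one (p := p) (by
      rw [← map_natCast (C : O →+* MvPowerSeries ι O)]; exact C_mem_max hpm) h1 n
    rw [SModEq.sub_mem, one_pow] at h2
    rw [← map_pow, ← map_one (Ideal.Quotient.mk I), Ideal.Quotient.eq]
    exact Ideal.pow_le_pow_right n.le_succ h2
  have hm : (maximalIdeal O).map (C : O →+* MvPowerSeries ι O) ≤ maximalIdeal _ :=
    Ideal.map_le_iff_le_comap.2 fun b hb => C_mem_max hb
  let c : Cn →+* MvPowerSeries ι O ⧸ I := (algebraMap O Cn).liftOfSurjective hC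
    ⟨(Ideal.Quotient.mk I).comp C, fun a ha => Ideal.Quotient.eq_zero_iff_mem.2
      (Ideal.pow_right_mono hm n
        (Ideal.map_pow (C : O →+* MvPowerSeries ι O) _ n ▸ Ideal.mem_map_of_mem _ (hk ha)))⟩
  have hc : ∀ a, c (algebraMap O Cn a) = Ideal.Quotient.mk I (C a) := fun a =>
    RingHom.liftOfSurjective_comp_apply _ _ _ a
  have : IsHausdorff ((maximalIdeal (MvPowerSeries ι O)).map
      (algebraMap _ (MvPowerSeries ι O ⧸ I))) (MvPowerSeries ι O ⧸ I) :=
    IsHausdorff.map_algebraMap_iff.2 inferInstance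
  have e := mv_ext ((maximalIdeal (MvPowerSeries ι O)).map
      (algebraMap _ (MvPowerSeries ι O ⧸ I))) (g := Ideal.Quotient.mk I)
    (g' := (MonoidAlgebra.liftNCRingHom c f fun _ _ => Commute.all _ _).comp (h.gr Cn hO hp hpm))
    (fun a => by
      rw [RingHom.comp_apply, TWg.gr_C, MonoidAlgebra.coe_algebraMap, Function.comp_apply,
        MonoidAlgebra.liftNCRingHom_single, hc, map_one, mul_one])
    (fun i => by
      rw [RingHom.comp_apply, TWg.gr_X, map_sub, MonoidAlgebra.of_apply,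
        MonoidAlgebra.liftNCRingHom_single, hf, map_one, map_one, one_mul, map_add, map_one,
        add_sub_cancel_right])
    fun i => Ideal.mem_map_of_mem _ (X_mem_max i)
  intro a ha
  rw [← Ideal.Quotient.eq_zero_iff_mem, e, RingHom.comp_apply, RingHom.mem_ker.1 ha, map_zero]

end grp

/-- the group rings form a quotient system of `O[[y]]` -/
theorem sys_gr {O : Type*} [CommRing O] [IsLocalRing O] [IsNoetherianRing O] {p : ℕ}
    (hp : p.Prime) (hpm : (p : O) ∈ maximalIdeal O) {Cn Δ : ℕ → Type*} [∀ n, CommRing (Cn n)]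
    [∀ n, Algebra O (Cn n)] [∀ n, Module.Finite O (Cn n)]
    (hC : Sys (maximalIdeal O) fun n => algebraMap O (Cn n)) [∀ n, CommGroup (Δ n)]
    [∀ n, Finite (Δ n)] {ι : Type*} [Fintype ι] {δ : ∀ n, ι → Δ n} (h : ∀ n, TWg p n (δ n)) :
    Sys (maximalIdeal (MvPowerSeries ι O)) fun n => (h n).gr (Cn n) hC.cpt hp hpm :=
  ⟨cpt_mv hC.cpt ι, fun n => (h n).gr_surjective _ _ _ _ (hC.surj n),
    fun n => (h n).ker_gr _ _ _ _ (hC.surj n) (hC.ker n)⟩

/-- the quotients `O / I n` -/
theorem sys_quot {O : Type*} [CommRing O] {J : Ideal O} (hO : Cpt J) (I : ℕ → Ideal O)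
    (hI : ∀ n, I n ≤ J ^ n) : Sys J fun n => algebraMap O (O ⧸ I n) :=
  ⟨hO, fun _ => Ideal.Quotient.mk_surjective, fun n => Ideal.mk_ker.le.trans (hI n)⟩

end Crest.Agent.T15.Pat

end
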