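import Crest.Agent.T15.PatD_43

/-!
# Row 15, block R (helper43): patching, part E (Taylor-Wiles wrapper)

* `exists_mat`: a module free over `C[Δ]` gives a matrix representation;
* `patch_mat`, `patch_TW`: the patching theorem in finite level words.
-/

set_option autoImplicit false
set_option linter.unusedSectionVars false

noncomputable section

namespace Crest.Agent.T15.Pat

open IsLocalRing Filter Function MvPowerSeries

section mat

variable {C Δ H A d : Type*} [CommRing C] [CommGroup Δ] [Fintype Δ] [AddCommGroup H] [Module C H]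
  [CommRing A] [Fintype d] [DecidableEq d]

/-- the matrix representation on a module that is free over the group ring -/
theorem exists_mat (a : A →+* Module.End C H) (β : Δ →* A) (m : d → H)
    (hli : LinearIndependent C fun q : Δ × d => a (β q.1) (m q.2))
    (hsp : Submodule.span C (Set.range fun q : Δ × d => a (β q.1) (m q.2)) = ⊤) :
    ∃ ψ : A →+* Matrix d d (MonoidAlgebra C Δ), (∀ s, ψ s = 0 ↔ a s = 0) ∧
      (∀ g, ψ (β g) = Matrix.scalar d (MonoidAlgebra.of C Δ g)) ∧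
      ∀ s c, a s = algebraMap C _ c → ψ s = Matrix.scalar d (algebraMap C _ c) := by
  let L := MonoidAlgebra.lift C (Module.End C H) Δ (a.toMonoidHom.comp β)
  let _ : Module (MonoidAlgebra C Δ) H := Module.compHom H L.toRingHom
  have hsm : ∀ (b : MonoidAlgebra C Δ) (v : H), b • v = L b v := fun _ _ => rfl
  have hL : ∀ (b : MonoidAlgebra C Δ) (v : H), b • v = ∑ g, b.coeff g • a (β g) v := fun b v => by
    rw [hsm, MonoidAlgebra.lift_apply, Finsupp.sum_fintype _ _ (by simp), LinearMap.sum_apply]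
    rfl
  have hcomm : ∀ (s : A) (b : MonoidAlgebra C Δ) (v : H), a s (b • v) = b • a s v := fun s b v => by
    rw [hL, hL, map_sum]
    refine Finset.sum_congr rfl fun g _ => ?_
    rw [map_smul, ← Module.End.mul_apply, ← map_mul, mul_comm, map_mul, Module.End.mul_apply]
  have hof : ∀ g v, MonoidAlgebra.of C Δ g • v = a (β g) v := fun g v => by
    rw [hsm, MonoidAlgebra.lift_of]; rfl
  have hC : ∀ (c : C) (v : H), algebraMap C (MonoidAlgebra C Δ) c • v = c • v := fun c v => by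
    rw [hsm, AlgHom.commutes]; rfl
  have h1 : LinearIndependent (MonoidAlgebra C Δ) m := by
    rw [Fintype.linearIndependent_iff] at hli ⊢
    intro x hx i
    ext g
    refine hli (fun q => (x q.2).coeff q.1) ?_ (g, i)
    rw [Fintype.sum_prod_type_right, ← hx]
    exact Finset.sum_congr rfl fun i _ => (hL (x i) (m i)).symm
  have h2 : ⊤ ≤ Submodule.span (MonoidAlgebra C Δ) (Set.range m) := by
    intro v hv
    have hv' : v ∈ Submodule.span C (Set.range fun q : Δ × d => a (β q.1) (m q.2)) :=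
      hsp ▸ Submodule.mem_top
    obtain ⟨c, rfl⟩ := (Submodule.mem_span_range_iff_exists_fun _).1 hv'
    refine Submodule.sum_mem _ fun q _ => ?_
    rw [← hC, ← hof]
    exact Submodule.smul_mem _ _ (Submodule.smul_mem _ _ (Submodule.subset_span ⟨_, rfl⟩))
  let B := Module.Basis.mk h1 h2
  let a' : A →+* Module.End (MonoidAlgebra C Δ) H :=
    { toFun := fun s => ⟨(a s).toAddHom, hcomm s⟩
      map_one' := LinearMap.ext fun v => by simp
      map_mul' := fun s s' => LinearMap.ext fun v => by simp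
      map_zero' := LinearMap.ext fun v => by simp
      map_add' := fun s s' => LinearMap.ext fun v => by simp }
  have ha' : ∀ s v, a' s v = a s v := fun _ _ => rfl
  have hsc : ∀ s b, (∀ v, a s v = b • v) →
      LinearMap.toMatrixAlgEquiv B (a' s) = Matrix.scalar d b := fun s b h => by
    rw [show a' s = algebraMap _ _ b from LinearMap.ext h, AlgEquiv.commutes]
    rfl
  refine ⟨(LinearMap.toMatrixAlgEquiv B).toRingEquiv.toRingHom.comp a', fun s => ?_,
    fun g => hsc _ _ fun v => (hof g v).symm, fun s c h => hsc _ _ fun v => by rw [h, hC]; rfl⟩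
  change LinearMap.toMatrixAlgEquiv B (a' s) = 0 ↔ _
  rw [map_eq_zero_iff _ (LinearMap.toMatrixAlgEquiv B).injective]
  exact ⟨fun h => LinearMap.ext fun v => LinearMap.congr_fun h v,
    fun h => LinearMap.ext fun v => LinearMap.congr_fun h v⟩

/-- the augmentation -/
abbrev aug (C Δ : Type*) [CommRing C] [CommGroup Δ] : MonoidAlgebra C Δ →ₐ[C] C :=
  MonoidAlgebra.lift C C Δ 1

lemma aug_eq_zero {b : MonoidAlgebra C Δ} (h : b * ∑ g, MonoidAlgebra.of C Δ g = 0) :
    aug C Δ b = 0 := by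
  classical
  have key : ∀ b : MonoidAlgebra C Δ, b * ∑ g, MonoidAlgebra.of C Δ g =
      aug C Δ b • ∑ g, MonoidAlgebra.of C Δ g := fun b => by
    induction b using MonoidAlgebra.induction_on with
    | of g =>
      rw [MonoidAlgebra.lift_of, MonoidHom.one_apply, one_smul, Finset.mul_sum]
      simp only [← map_mul]
      exact Equiv.sum_comp (Equiv.mulLeft g) _
    | add x y hx hy => rw [add_mul, hx, hy, map_add, add_smul]
    | smul c x hx => rw [smul_mul_assoc, hx, map_smul, smul_assoc]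
  have h1 := congrArg (fun z : MonoidAlgebra C Δ => z.coeff 1) ((key b).symm.trans h)
  simpa [Finsupp.single_apply] using h1

end mat

section main

variable {O : Type*} [CommRing O] [IsLocalRing O] [IsNoetherianRing O] {p : ℕ}

/-- evaluation of `O[[y]]` at the diamonds gives the scalars -/
lemma scalar_ev (hO : Cpt (maximalIdeal O)) (hp : p.Prime) (hpm : (p : O) ∈ maximalIdeal O)
    {C Δ A d ι : Type*} [CommRing C] [Algebra O C] [Module.Finite O C] [CommGroup Δ] [Finite Δ]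
    [CommRing A] [Algebra O A] [Module.Finite O A] [Fintype d] [DecidableEq d] [Fintype ι] {n : ℕ}
    {δ : ι → Δ} (hδ : TWg p n δ) (ψ : A →+* Matrix d d (MonoidAlgebra C Δ)) (β : Δ →* A)
    (hβ : ∀ g, ψ (β g) = Matrix.scalar d (MonoidAlgebra.of C Δ g))
    (hc : ∀ c, ψ (algebraMap O A c) = Matrix.scalar d (algebraMap O _ c))
    (σ : MvPowerSeries ι O →+* A) (hC : ∀ c, σ (MvPowerSeries.C c) = algebraMap O A c)
    (hX : ∀ i, σ (X i) = β (δ i) - 1) (s : MvPowerSeries ι O) :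
    ψ (σ s) = Matrix.scalar d (hδ.gr C hO hp hpm s) := by
  let P : Subalgebra O (A × MonoidAlgebra C Δ) :=
    { RingHom.eqLocus (ψ.comp (RingHom.fst A (MonoidAlgebra C Δ)))
        ((Matrix.scalar d).comp (RingHom.snd A (MonoidAlgebra C Δ))) with
      algebraMap_mem' := hc }
  have : Module.Finite O P := Module.Finite.of_injective P.val.toLinearMap Subtype.val_injective
  let y : ι → P := fun i => ⟨(β (δ i), MonoidAlgebra.of C Δ (δ i)), hβ _⟩
  have hy : ∀ i, TN O (y i - 1) := fun i => by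
    obtain ⟨m, hm⟩ := hδ.ord i
    exact TN.sub_one hp hpm (m := m) (Subtype.ext (Prod.ext
      (by change β (δ i) ^ _ = 1; rw [← map_pow, hm, map_one])
      (by change MonoidAlgebra.of C Δ (δ i) ^ _ = 1; rw [← map_pow, hm, map_one])))
  have e1 := fin_ext hO (g := ((RingHom.fst _ _).comp P.val.toRingHom).comp (ev hO _ hy)) (g' := σ)
    (fun c => by rw [hC, RingHom.comp_apply, ev_C]; rfl)
    (fun i => by rw [hX, RingHom.comp_apply, ev_X]; rfl)
    fun i => by rw [RingHom.comp_apply, ev_X]; exact (hy i).map _ fun _ => rfl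
  have e2 := fin_ext hO (g := ((RingHom.snd _ _).comp P.val.toRingHom).comp (ev hO _ hy))
    (g' := hδ.gr C hO hp hpm) (fun c => by rw [TWg.gr_C, RingHom.comp_apply, ev_C]; rfl)
    (fun i => by rw [TWg.gr_X, RingHom.comp_apply, ev_X]; rfl)
    fun i => by rw [RingHom.comp_apply, ev_X]; exact (hy i).map _ fun _ => rfl
  rw [← e1, ← e2]
  exact (ev hO _ hy s).2

lemma mem_map_gr (hO : Cpt (maximalIdeal O)) (hp : p.Prime) (hpm : (p : O) ∈ maximalIdeal O)
    {C Δ ι : Type*} [CommRing C] [Algebra O C] [Module.Finite O C] [CommGroup Δ] [Finite Δ]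
    [Fintype ι] {n : ℕ} {δ : ι → Δ} (hδ : TWg p n δ) (hC : Surjective (algebraMap O C))
    {b : MonoidAlgebra C Δ} (hb : aug C Δ b = 0) :
    b ∈ (RingHom.ker (constantCoeff : MvPowerSeries ι O →+* O)).map (hδ.gr C hO hp hpm) := by
  obtain ⟨f, rfl⟩ := hδ.gr_surjective C hO hp hpm hC b
  have e := mv_ext_zero (g := (aug C Δ).toRingHom.comp (hδ.gr C hO hp hpm))
    (g' := (algebraMap O C).comp constantCoeff)
    (fun c => by simp [MonoidAlgebra.coe_algebraMap]) (fun i => by simp) fun i => by simp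
  have h1 : algebraMap O C (constantCoeff f) = 0 := (RingHom.congr_fun e f).symm.trans hb
  have h2 : hδ.gr C hO hp hpm f = hδ.gr C hO hp hpm (f - MvPowerSeries.C (constantCoeff f)) := by
    rw [map_sub, TWg.gr_C, IsScalarTower.algebraMap_apply O C, h1, map_zero, sub_zero]
  rw [h2]
  exact Ideal.mem_map_of_mem _ (by simp [RingHom.mem_ker])

lemma exists_dim (O : Type*) [CommRing O] [IsLocalRing O] [IsNoetherianRing O] :
    ∃ D : ℕ, ringKrullDim O = D := by
  obtain ⟨a, ha⟩ := WithBot.ne_bot_iff_exists.1 (ringKrullDim_ne_bot (R := O))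
  obtain ⟨b, rfl⟩ := ENat.ne_top_iff_exists.1 (show a ≠ ⊤ by
    rintro rfl; exact ringKrullDim_ne_top (R := O) ha.symm)
  exact ⟨b, ha.symm⟩

variable [IsDomain O] {O' : Type*} [CommRing O'] [IsDomain O'] {J' : Ideal O'}
  {C C' Δ A R : ℕ → Type*} [∀ n, CommRing (C n)] [∀ n, Algebra O (C n)] [∀ n, CommRing (C' n)]
  {q' : ∀ n, O' →+* C' n} [∀ n, CommGroup (Δ n)] [∀ n, Fintype (Δ n)]
  [∀ n, CommRing (A n)] [∀ n, Algebra O (A n)] [∀ n, Module.Finite O (A n)]
  [∀ n, CommRing (R n)] [∀ n, Algebra O (R n)] [∀ n, Module.Finite O (R n)]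
  {K : Type*} [Fintype K] {g r : ℕ}

/-- **Taylor-Wiles patching, matrix form.** -/
theorem patch_mat (hp : p.Prime) (hpm : (p : O) ∈ maximalIdeal O)
    (hC : Sys (maximalIdeal O) fun n => algebraMap O (C n)) (hC' : Sys J' q') (f' : O →+* O')
    (hgr : g ≤ r) {δ : ∀ n, Fin r → Δ n} (hδ : ∀ n, TWg p n (δ n))
    {d : Type*} [Fintype d] [DecidableEq d] [Nonempty d]
    (ψ : ∀ n, A n →+* Matrix d d (MonoidAlgebra (C n) (Δ n))) (β : ∀ n, Δ n →* A n)
    (hβ : ∀ n γ, ψ n (β n γ) = Matrix.scalar d (MonoidAlgebra.of _ _ γ))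
    (hψ : ∀ n c, ψ n (algebraMap O _ c) = Matrix.scalar d (algebraMap O _ c))
    (al : ∀ n, R n →ₐ[O] A n) (x : ∀ n, R n →ₐ[O] C n)
    (t : ∀ n, Fin g → R n) (u : ∀ n, K → R n) (ht : ∀ n i, TN O (t n i)) (hu : ∀ n k, TN O (u n k))
    (hgen : ∀ n, Algebra.adjoin O (Set.range (t n) ∪ Set.range (u n)) = ⊤)
    (hxu : ∀ n k, x n (u n k) = 0)
    (θ : ∀ n, A n →+* C' n) (hθO : ∀ n c, θ n (algebraMap O _ c) = q' n (f' c))
    (hθδ : ∀ n i, θ n (β n (δ n i)) = 1) (hθ : ∀ n s, ψ n s = 0 → θ n s = 0)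
    (hkill : ∀ k, ∃ (e : ℕ) (c : O'), c ≠ 0 ∧ ∀ n, ∃ v : R n, θ n (al n v) = q' n c ∧
      ψ n (al n (v * u n k ^ e)) = 0)
    (hint : ∀ i, ∃ e : ℕ, ∀ n, ∃ b : Fin e → R n, (∀ j, x n (b j) = 0) ∧
      ψ n ((β n (δ n i) - 1) ^ e + ∑ j, al n (b j) * (β n (δ n i) - 1) ^ (j : ℕ)) = 0) {c : O}
    (hc : ∀ n, ∃ s : R n, x n s = algebraMap O _ c ∧ ψ n (al n s * ∑ γ, β n γ) = 0) : c = 0 := by
  have hO := hC.cpt
  have hfin : ∀ n, Module.Finite O (C n) := fun n =>
    Module.Finite.of_surjective (Algebra.linearMap O (C n)) (hC.surj n)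
  obtain ⟨D, hD⟩ := exists_dim O
  have hdom : ∀ k, IsDomain (MvPowerSeries (Fin k) O) := fun k => NoZeroDivisors.to_isDomain _
  have hy : ∀ n i, TN O (β n (δ n i) - 1) := fun n i => by
    obtain ⟨m, hm⟩ := (hδ n).ord i
    exact TN.sub_one hp hpm (m := m) (by rw [← map_pow, hm, map_one])
  let Φ : ∀ n, MvPowerSeries (Fin g ⊕ (K ⊕ Fin r)) O →+* A n := fun n =>
    ev hO (Sum.elim (fun i => al n (t n i)) (Sum.elim (fun k => al n (u n k))
      fun i => β n (δ n i) - 1)) (by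
        rintro (i | k | i)
        exacts [(ht n i).mapₐ _, (hu n k).mapₐ _, hy n i])
  let X' : ∀ n, MvPowerSeries (Fin g ⊕ (K ⊕ Fin r)) O →+* C n := fun n =>
    ev hO (Sum.elim (fun i => x n (t n i)) fun _ => 0) (by
      rintro (i | k)
      exacts [(ht n i).mapₐ _, zero_mem _])
  have hΦC : ∀ n c, Φ n (MvPowerSeries.C c) = algebraMap O _ c := fun n c => ev_C ..
  have hXC : ∀ n c, X' n (MvPowerSeries.C c) = algebraMap O _ c := fun n c => ev_C ..
  have hΦ1 : ∀ n i, Φ n (X (Sum.inl i)) = al n (t n i) := fun n i => ev_X ..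
  have hΦ2 : ∀ n k, Φ n (X (Sum.inr (Sum.inl k))) = al n (u n k) := fun n i => ev_X ..
  have hΦ3 : ∀ n i, Φ n (X (Sum.inr (Sum.inr i))) = β n (δ n i) - 1 := fun n i => ev_X ..
  have hX1 : ∀ n i, X' n (X (Sum.inl i)) = x n (t n i) := fun n i => ev_X ..
  have hX2 : ∀ n k, X' n (X (Sum.inr k)) = 0 := fun n i => ev_X ..
  let j : MvPowerSeries (Fin g) O →+* MvPowerSeries (Fin g ⊕ (K ⊕ Fin r)) O :=
    (rename (R := O) Sum.inl).toRingHom
  let ι : MvPowerSeries (Fin r) O →+* MvPowerSeries (Fin g ⊕ (K ⊕ Fin r)) O :=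
    (rename (R := O) fun i => Sum.inr (Sum.inr i)).toRingHom
  have hιC : ∀ c, ι (MvPowerSeries.C c) = MvPowerSeries.C c := fun c => rename_C _ c
  have hιX : ∀ i, ι (X i) = X (Sum.inr (Sum.inr i)) := fun i => rename_X _ i
  have hsc : ∀ n s, ψ n (Φ n (ι s)) = Matrix.scalar d ((hδ n).gr (C n) hO hp hpm s) := fun n s =>
    scalar_ev hO hp hpm (hδ n) (ψ n) (β n) (hβ n) (hψ n) ((Φ n).comp ι)
      (fun c => by rw [RingHom.comp_apply, hιC, hΦC])
      (fun i => by rw [RingHom.comp_apply, hιX, hΦ3]) s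
  -- lifting elements of `R n`
  have hlift : ∀ n (s : R n), ∃ F a, Φ n F = al n s ∧ X' n F = x n s ∧ X' n (j a) = x n s ∧
      F - j a ∈ Ideal.span (Set.range fun k : K => X (Sum.inr (Sum.inl k))) := fun n s => by
    have htu : ∀ i, TN O (Sum.elim (t n) (u n) i) := by
      rintro (i | k)
      exacts [ht n i, hu n k]
    obtain ⟨f, rfl⟩ := ev_surjective hO _ htu (by rw [Set.Sum.elim_range, hgen]) s
    let κ : MvPowerSeries (Fin g ⊕ K) O →+* MvPowerSeries (Fin g ⊕ (K ⊕ Fin r)) O :=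
      (rename (R := O) (Sum.map id Sum.inl)).toRingHom
    have hκC : ∀ c, κ (MvPowerSeries.C c) = MvPowerSeries.C c := fun c => rename_C _ c
    have hκX : ∀ i, κ (X i) = X (Sum.map id Sum.inl i) := fun i => rename_X _ i
    have e1 := fin_ext hO (g := (al n).toRingHom.comp (ev hO _ htu)) (g' := (Φ n).comp κ)
      (fun c => by simp [hκC, hΦC]) (by rintro (i | k) <;> simp [hκX, hΦ1, hΦ2])
      fun i => by rw [RingHom.comp_apply, ev_X]; exact (htu i).mapₐ _
    have e2 := fin_ext hO (g := (x n).toRingHom.comp (ev hO _ htu)) (g' := (X' n).comp κ)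
      (fun c => by simp [hκC, hXC]) (by rintro (i | k) <;> simp [hκX, hX1, hX2, hxu])
      fun i => by rw [RingHom.comp_apply, ev_X]; exact (htu i).mapₐ _
    obtain ⟨a, ha⟩ := sub_rename_mem f
    have h1 : κ f - j a ∈ Ideal.span (Set.range fun k : K =>
        (X (Sum.inr (Sum.inl k)) : MvPowerSeries (Fin g ⊕ (K ⊕ Fin r)) O)) := by
      have h2 := Ideal.mem_map_of_mem κ ha
      rw [map_sub, Ideal.map_span, ← Set.range_comp,
        show κ (rename Sum.inl a) = j a from rename_rename ..] at h2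
      convert h2 using 3
      exact funext fun k => (hκX (Sum.inr k)).symm
    have h2 : X' n (κ f - j a) = 0 := (Ideal.span_le.2 (by rintro _ ⟨k, rfl⟩; exact hX2 n _) :
      _ ≤ RingHom.ker (X' n)) h1
    rw [map_sub, sub_eq_zero] at h2
    exact ⟨κ f, a, (RingHom.congr_fun e1 f).symm, (RingHom.congr_fun e2 f).symm,
      h2.symm.trans (RingHom.congr_fun e2 f).symm, h1⟩
  refine patch_gen (D := D + g) (sys_gr hp hpm hC hδ) (cpt_mv hO _) (cpt_mv hO _) hC hC'
    (by rw [dim_mv, hD]; simp) (by rw [dim_mv, hD]; exact_mod_cast Nat.add_le_add_left hgr D)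
    (fun n => (ψ n).comp (Φ n)) X' constantCoeff (fun n s => ⟨ι s, hsc n s, ?_⟩)
    (fun n => (θ n).comp (Φ n)) (f'.comp constantCoeff) (fun n s => ⟨ι s, hsc n s, ?_⟩)
    (fun n s hs => hθ n _ hs) j (fun k => X (Sum.inr (Sum.inl k)))
    (fun i => X (Sum.inr (Sum.inr i))) (fun f => ?_) (fun n k => hX2 n _) (fun n k => hX2 n _)
    (fun k => ?_) (fun i => ?_) fun n => ?_
  · exact RingHom.congr_fun (mv_ext_zero (g := (X' n).comp ι)
      (g' := (algebraMap O (C n)).comp constantCoeff) (fun c => by simp [hιC, hXC])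
      (fun i => by simp [hιX, hX2]) fun i => by simp) s
  · exact RingHom.congr_fun (mv_ext_zero (g := ((θ n).comp (Φ n)).comp ι)
      (g' := (q' n).comp (f'.comp constantCoeff)) (fun c => by simp [hιC, hΦC, hθO])
      (fun i => by simp [hιX, hΦ3, hθδ]) fun i => by simp) s
  · obtain ⟨a, ha⟩ := sub_rename_mem f
    refine ⟨a, ?_⟩
    rwa [show (Sum.elim (fun k : K => X (Sum.inr (Sum.inl k))) fun i : Fin r =>
      X (Sum.inr (Sum.inr i))) = fun k : K ⊕ Fin r =>
        (X (Sum.inr k) : MvPowerSeries (Fin g ⊕ (K ⊕ Fin r)) O) from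
      funext fun k => by rcases k with k | k <;> rfl]
  · obtain ⟨e, c, hc0, h⟩ := hkill k
    refine ⟨e, c, hc0, fun n => ?_⟩
    obtain ⟨v, h1, h2⟩ := h n
    obtain ⟨F, -, h3, -⟩ := hlift n v
    refine ⟨F, by rw [RingHom.comp_apply, h3, h1], ?_⟩
    rw [RingHom.comp_apply, map_mul, map_pow, h3, hΦ2, ← map_pow, ← map_mul, h2]
  · obtain ⟨e, h⟩ := hint i
    refine ⟨e, fun n => ?_⟩
    obtain ⟨b, h1, h2⟩ := h n
    choose F a h3 _ h4 h5 using fun j => hlift n (b j)
    obtain ⟨b', hb'⟩ := Ideal.mem_span_range_iff_exists_fun.1 (Ideal.sum_mem _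
      (t := Finset.univ) fun (j : Fin e) _ =>
        Ideal.mul_mem_right (X (Sum.inr (Sum.inr i)) ^ (j : ℕ)) _ (h5 j))
    refine ⟨a, b', fun j => (h4 j).trans (h1 j), ?_⟩
    rw [hb', add_assoc, ← Finset.sum_add_distrib, RingHom.comp_apply, ← h2]
    simp only [← add_mul, add_sub_cancel, map_add (Φ n), map_sum (Φ n), map_mul (Φ n),
      map_pow (Φ n), h3, hΦ3]
  · obtain ⟨s, h1, h2⟩ := hc n
    obtain ⟨F, -, h3, h4, -⟩ := hlift n s
    refine ⟨F, fun i i' => mem_map_gr hO hp hpm (hδ n) (hC.surj n) (aug_eq_zero ?_), h4.trans h1⟩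
    have h5 := congrFun (congrFun h2 i) i'
    simp only [map_mul, map_sum (ψ n), hβ, ← map_sum (Matrix.scalar d)] at h5
    rw [Matrix.scalar_apply, Matrix.mul_diagonal] at h5
    rw [RingHom.comp_apply, h3]
    exact h5

variable {H : ℕ → Type*} [∀ n, AddCommGroup (H n)] [∀ n, Module (C n) (H n)]

/-- **Taylor-Wiles patching, module form** (`H n` free of fixed rank over `(C n)[Δ n]`). -/
theorem patch_TW (hp : p.Prime) (hpm : (p : O) ∈ maximalIdeal O)
    (hC : Sys (maximalIdeal O) fun n => algebraMap O (C n)) (hC' : Sys J' q') (f' : O →+* O')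
    (hgr : g ≤ r) {δ : ∀ n, Fin r → Δ n} (hδ : ∀ n, TWg p n (δ n))
    (a : ∀ n, A n →+* Module.End (C n) (H n))
    (ha : ∀ n c, a n (algebraMap O _ c) = algebraMap (C n) _ (algebraMap O _ c))
    (β : ∀ n, Δ n →* A n) {d : Type*} [Fintype d] [Nonempty d] (m : ∀ n, d → H n)
    (hli : ∀ n, LinearIndependent (C n) fun q : Δ n × d => a n (β n q.1) (m n q.2))
    (hsp : ∀ n, Submodule.span (C n) (Set.range fun q : Δ n × d => a n (β n q.1) (m n q.2)) = ⊤)
    (al : ∀ n, R n →ₐ[O] A n) (x : ∀ n, R n →ₐ[O] C n)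
    (t : ∀ n, Fin g → R n) (u : ∀ n, K → R n) (ht : ∀ n i, TN O (t n i)) (hu : ∀ n k, TN O (u n k))
    (hgen : ∀ n, Algebra.adjoin O (Set.range (t n) ∪ Set.range (u n)) = ⊤)
    (hxu : ∀ n k, x n (u n k) = 0)
    (θ : ∀ n, A n →+* C' n) (hθO : ∀ n c, θ n (algebraMap O _ c) = q' n (f' c))
    (hθδ : ∀ n i, θ n (β n (δ n i)) = 1) (hθ : ∀ n s, a n s = 0 → θ n s = 0)
    (hkill : ∀ k, ∃ (e : ℕ) (c : O'), c ≠ 0 ∧ ∀ n, ∃ v : R n, θ n (al n v) = q' n c ∧
      a n (al n (v * u n k ^ e)) = 0)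
    (hint : ∀ i, ∃ e : ℕ, ∀ n, ∃ b : Fin e → R n, (∀ j, x n (b j) = 0) ∧
      a n ((β n (δ n i) - 1) ^ e + ∑ j, al n (b j) * (β n (δ n i) - 1) ^ (j : ℕ)) = 0) {c : O}
    (hc : ∀ n, ∃ s : R n, x n s = algebraMap O _ c ∧ a n (al n s * ∑ γ, β n γ) = 0) : c = 0 := by
  classical
  choose ψ h1 h2 h3 using fun n => exists_mat (a n) (β n) (m n) (hli n) (hsp n)
  refine patch_mat hp hpm hC hC' f' hgr hδ ψ β h2
    (fun n c => by rw [h3 n _ _ (ha n c), ← IsScalarTower.algebraMap_apply]) al x t u ht hu hgen hxu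
    θ hθO hθδ (fun n s hs => hθ n s ((h1 n s).1 hs)) ?_ ?_ ?_ <;> simpa only [h1]

end main

end Crest.Agent.T15.Pat

end
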