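import Crest.Agent.T15.PatE_43

/-!
# Row 15, block R (helper43): patching, part F (the words of `RTDef_3`)

`patch_RT`: `A n` is any commutative ring acting `O`-linearly on `H n`.
-/

set_option autoImplicit false
set_option linter.unusedSectionVars false

noncomputable section

namespace Crest.Agent.T15.Pat

open IsLocalRing Filter Function Polynomial

/-- the quadratic relation at a Taylor-Wiles prime as an integral equation -/
lemma exists_int {R A C : Type*} [CommRing R] [CommRing A] [CommRing C] (al : R →+* A)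
    (x : R →+* C) {w : R} (hw : x w = 0) (z : A) (e : ℕ) :
    ∃ b : Fin (e * 2) → R, (∀ j, x (b j) = 0) ∧
      z ^ (e * 2) + ∑ j, al (b j) * z ^ (j : ℕ) = (z ^ 2 - al w * (z + 1)) ^ e := by
  set Q : R[X] := X ^ 2 - Polynomial.C w * (X + 1) with hQ
  have h1 : Q.natDegree ≤ 2 := by rw [hQ]; compute_degree
  have h2 : Q.coeff 2 = 1 := by simp [hQ, coeff_X, coeff_one]
  have h3 : (Q ^ e).natDegree < e * 2 + 1 := Nat.lt_succ_of_le (natDegree_pow_le_of_le e h1)
  refine ⟨fun j => (Q ^ e).coeff j, fun j => ?_, ?_⟩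
  · rw [← coeff_map, Polynomial.map_pow, show Q.map x = X ^ 2 by simp [hQ, hw], ← pow_mul,
      coeff_X_pow, if_neg (by have := j.2; omega)]
  · have h4 := eval₂_eq_sum_range' al h3 z
    rw [Finset.sum_range_succ, coeff_pow_of_natDegree_le h1, h2, one_pow, map_one, one_mul,
      Finset.sum_range, add_comm] at h4
    rw [← h4, eval₂_pow]
    simp [hQ]

/-- `O`-linear endomorphisms are `C`-linear -/
def extC {O C H A : Type*} [CommRing O] [CommRing C] [Algebra O C] [AddCommGroup H] [Module O H]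
    [Module C H] [IsScalarTower O C H] [CommRing A] [Algebra O A] (h : Surjective (algebraMap O C))
    (ac : A →ₐ[O] Module.End O H) : A →+* Module.End C H where
  toFun s := (ac s).extendScalarsOfSurjective h
  map_one' := LinearMap.ext fun v => by simp
  map_mul' s s' := LinearMap.ext fun v => by simp
  map_zero' := LinearMap.ext fun v => by simp
  map_add' s s' := LinearMap.ext fun v => by simp

variable {O : Type*} [CommRing O] [IsLocalRing O] [IsNoetherianRing O] {p : ℕ}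
  [IsDomain O] {O' : Type*} [CommRing O'] [IsDomain O'] {J' : Ideal O'}
  {C C' Δ A R : ℕ → Type*} [∀ n, CommRing (C n)] [∀ n, Algebra O (C n)] [∀ n, CommRing (C' n)]
  {q' : ∀ n, O' →+* C' n} [∀ n, CommGroup (Δ n)] [∀ n, Fintype (Δ n)]
  [∀ n, CommRing (A n)] [∀ n, Algebra O (A n)]
  [∀ n, CommRing (R n)] [∀ n, Algebra O (R n)] [∀ n, Module.Finite O (R n)]
  {K : Type*} [Finite K] {g r : ℕ}
  {H : ℕ → Type*} [∀ n, AddCommGroup (H n)] [∀ n, Module O (H n)] [∀ n, Module (C n) (H n)]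
  [∀ n, IsScalarTower O (C n) (H n)]

/-- **Taylor-Wiles patching** in the words of `RT.Lev` -/
theorem patch_RT (hp : p.Prime) (hpm : (p : O) ∈ maximalIdeal O)
    (hC : Sys (maximalIdeal O) fun n => algebraMap O (C n)) (hC' : Sys J' q') (f' : O →+* O')
    (hgr : g ≤ r) {δ : ∀ n, Fin r → Δ n} (hδ : ∀ n, TWg p n (δ n))
    (ac : ∀ n, A n →ₐ[O] Module.End O (H n)) (dia : ∀ n, Δ n →* A n)
    {d : Type*} [Finite d] [Nonempty d]
    (free : ∀ n, ∃ m : d → H n,
      LinearIndependent (C n) (fun q : Δ n × d => ac n (dia n q.1) (m q.2)) ∧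
      Submodule.span (C n) (Set.range fun q : Δ n × d => ac n (dia n q.1) (m q.2)) = ⊤)
    (al : ∀ n, R n →+* A n) (hal : ∀ n c, ac n (al n (algebraMap O _ c)) = algebraMap O _ c)
    (x : ∀ n, R n →ₐ[O] C n)
    (t : ∀ n, Fin g → R n) (u : ∀ n, K → R n) (ht : ∀ n i, TN O (t n i)) (hu : ∀ n k, TN O (u n k))
    (hgen : ∀ n, Algebra.adjoin O (Set.range (t n) ∪ Set.range (u n)) = ⊤)
    (hxu : ∀ n k, x n (u n k) = 0)
    (θ : ∀ n, A n →+* C' n) (thO : ∀ n c, θ n (algebraMap O _ c) = q' n (f' c))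
    (thD : ∀ n i, θ n (dia n (δ n i)) = 1) (thK : ∀ n s, ac n s = 0 → θ n s = 0)
    (hkill : ∀ k, ∃ (e : ℕ) (c : O'), c ≠ 0 ∧ ∀ n, ∃ v : R n, θ n (al n v) = q' n c ∧
      ac n (al n (v * u n k ^ e)) = 0) {e : ℕ}
    (hint : ∀ n i, ∃ w : R n, x n w = 0 ∧
      ac n ((dia n (δ n i) - 1) ^ 2 - al n w * dia n (δ n i)) ^ e = 0) {c : O}
    (hc : ∀ n, ∃ s : R n, x n s = algebraMap O _ c ∧ ∑ γ, ac n (dia n γ * al n s) = 0) :
    c = 0 := by
  classical
  have := Fintype.ofFinite d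
  have := Fintype.ofFinite K
  have hfin : ∀ n, Module.Finite O (C n) := fun n =>
    Module.Finite.of_surjective (Algebra.linearMap O (C n)) (hC.surj n)
  choose m hli hsp using free
  choose ψ h1 h2 h3 using fun n => exists_mat (extC (hC.surj n) (ac n)) (dia n) (m n) (hli n) (hsp n)
  have h0 : ∀ n s, ψ n s = 0 ↔ ac n s = 0 := fun n s => (h1 n s).trans
    ⟨fun h => LinearMap.ext fun v => LinearMap.congr_fun h v,
      fun h => LinearMap.ext fun v => LinearMap.congr_fun h v⟩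
  have h4 : ∀ n c, ψ n (algebraMap O _ c) = Matrix.scalar d (algebraMap O _ c) := fun n c => by
    rw [h3 n _ (algebraMap O (C n) c), ← IsScalarTower.algebraMap_apply]
    refine LinearMap.ext fun v => ?_
    change ac n (algebraMap O _ c) v = algebraMap O (C n) c • v
    rw [AlgHom.commutes, algebraMap_smul]; rfl
  let ψa : ∀ n, A n →ₐ[O] Matrix d d (MonoidAlgebra (C n) (Δ n)) := fun n => ⟨ψ n, h4 n⟩
  have hA : ∀ n, Module.Finite O (A n ⧸ RingHom.ker (ψ n)) := fun n =>
    have : Module.Finite O (Matrix d d (MonoidAlgebra (C n) (Δ n))) :=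
      Module.Finite.trans (MonoidAlgebra (C n) (Δ n)) _
    have : IsNoetherian O (Matrix d d (MonoidAlgebra (C n) (Δ n))) :=
      isNoetherian_of_isNoetherianRing_of_finite O _
    Module.Finite.of_injective (Ideal.kerLiftAlg (ψa n)).toLinearMap
      (Ideal.kerLiftAlg_injective (ψa n))
  let al' : ∀ n, R n →ₐ[O] A n ⧸ RingHom.ker (ψ n) := fun n =>
    ⟨(Ideal.Quotient.mk _).comp (al n), fun c => Ideal.Quotient.eq.2 ((h0 n _).2 (by
      rw [map_sub, hal, AlgHom.commutes, sub_self]))⟩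
  refine patch_mat (A := fun n => A n ⧸ RingHom.ker (ψ n)) hp hpm hC hC' f' hgr hδ
    (fun n => RingHom.kerLift (ψ n))
    (fun n => (Ideal.Quotient.mk (RingHom.ker (ψ n))).toMonoidHom.comp (dia n)) h2 h4 al' x t u ht
    hu hgen hxu (fun n => Ideal.Quotient.lift _ (θ n) fun s hs => thK n s ((h0 n s).1 hs)) thO thD
    (fun n s hs => ?_) (fun k => ?_) (fun i => ⟨e * 2, fun n => ?_⟩) fun n => ?_
  · obtain ⟨s, rfl⟩ := Ideal.Quotient.mk_surjective s
    exact thK n s ((h0 n s).1 hs)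
  · obtain ⟨e, c, hc0, h⟩ := hkill k
    exact ⟨e, c, hc0, fun n => (h n).imp fun v hv => ⟨hv.1, (h0 n _).2 hv.2⟩⟩
  · obtain ⟨w, hw, h⟩ := hint n i
    obtain ⟨b, hb, h5⟩ := exists_int (al n) (x n).toRingHom hw (dia n (δ n i) - 1) e
    rw [← map_pow, ← h0, ← sub_add_cancel (dia n (δ n i)) 1, add_sub_cancel_right, ← h5] at h
    refine ⟨b, hb, ?_⟩
    rw [← h, ← RingHom.kerLift_mk (ψ n)]
    simp only [map_add (Ideal.Quotient.mk _), map_sum (Ideal.Quotient.mk _),
      map_mul (Ideal.Quotient.mk _), map_pow (Ideal.Quotient.mk _), map_sub (Ideal.Quotient.mk _),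
      map_one (Ideal.Quotient.mk _)]
    rfl
  · obtain ⟨s, hs, h⟩ := hc n
    rw [← map_sum, ← Finset.sum_mul, mul_comm, ← h0] at h
    refine ⟨s, hs, ?_⟩
    rw [← h, ← RingHom.kerLift_mk (ψ n), map_mul (Ideal.Quotient.mk _),
      map_sum (Ideal.Quotient.mk _)]
    rfl

end Crest.Agent.T15.Pat

end
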