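import Crest.Agent.T15.PatB_43

/-!
# Row 15, block R (helper3): patching at finite level, integral + component version

All data live at finite level `n`.  The scalars are only integral over the image of the power
series ring `R₀`, and finitely many elements `u` are killed on the component of the point `θ`.
-/

set_option autoImplicit false
set_option linter.unusedSectionVars false

noncomputable section

namespace Crest.Agent.T15.Pat

open IsLocalRing Filter Function Polynomial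

namespace I3

section alg

variable {R S : Type*} [CommRing R] [CommRing S] {d : Type*} [Fintype d] [DecidableEq d]

/-- a chain of full length starts at every minimal prime of the support -/
theorem exists_chain [IsDomain S] [Nonempty d] (Φ : R →+* Matrix d d S)
    (hsc : ∀ s, ∃ r, Φ r = Matrix.scalar d s) {D : ℕ}
    (hS : D ≤ ringKrullDim S) {Q : Ideal R} (hQ : Q ∈ (RingHom.ker Φ).minimalPrimes) :
    ∃ L : LTSeries (PrimeSpectrum R), D ≤ L.length ∧ L.head.asIdeal = Q := by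
  choose σ hσ using hsc
  set A := R ⧸ RingHom.ker Φ
  have inj : Injective (RingHom.kerLift Φ) := RingHom.kerLift_injective Φ
  let ι : S →+* A :=
    { toFun := fun s => Ideal.Quotient.mk _ (σ s)
      map_one' := inj (by rw [RingHom.kerLift_mk, hσ, map_one, map_one])
      map_mul' := fun a b => inj (by
        rw [map_mul, RingHom.kerLift_mk, RingHom.kerLift_mk, RingHom.kerLift_mk, hσ, hσ, hσ,
          map_mul])
      map_zero' := inj (by rw [RingHom.kerLift_mk, hσ, map_zero, map_zero])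
      map_add' := fun a b => inj (by
        rw [map_add, RingHom.kerLift_mk, RingHom.kerLift_mk, RingHom.kerLift_mk, hσ, hσ, hσ,
          map_add]) }
  have hι : ∀ s, RingHom.kerLift Φ (ι s) = Matrix.scalar d s := fun s =>
    (RingHom.kerLift_mk Φ _).trans (hσ s)
  let _ : Algebra S A := ι.toAlgebra
  have hint : Algebra.IsIntegral S A := ⟨fun a => by
    refine ⟨(RingHom.kerLift Φ a).charpoly, Matrix.charpoly_monic _, inj ?_⟩
    rw [eval₂_eq_sum, map_zero]
    exact map_sum_charpoly (RingHom.id S) _ ι hι a _ (Matrix.map_id' _)⟩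
  rw [Ideal.minimalPrimes_eq_comap] at hQ
  obtain ⟨P, hP, rfl⟩ := hQ
  have hPp : P.IsPrime := hP.isPrime
  have hP0 : P.under S = ⊥ := by
    refine eq_bot_iff.2 fun s hs => ?_
    by_contra h0
    refine Set.disjoint_left.1 (Ideal.disjoint_nonZeroDivisors_of_mem_minimalPrimes hP) hs ?_
    refine mem_nonZeroDivisors_iff_left.2 fun a ha => inj ?_
    have h1 := congrArg (RingHom.kerLift Φ) ha
    rw [map_mul, map_zero] at h1
    erw [hι] at h1
    rw [map_zero]
    ext i j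
    have h2 := congrFun (congrFun h1 i) j
    rw [Matrix.scalar_apply, Matrix.diagonal_mul] at h2
    exact (mul_eq_zero.1 h2).resolve_left h0
  obtain ⟨l, hl⟩ := Order.le_krullDim_iff.1 hS
  obtain ⟨l', hl', h0⟩ : ∃ l' : LTSeries (PrimeSpectrum S), D ≤ l'.length ∧ l'.head.asIdeal = ⊥ := by
    by_cases h : l.head.asIdeal = ⊥
    · exact ⟨l, hl.ge, h⟩
    · exact ⟨l.cons ⟨⊥, Ideal.isPrime_bot⟩ (bot_lt_iff_ne_bot.2 h : (⊥ : Ideal S) < _),
        by simp [hl], rfl⟩
  have : P.LiesOver l'.head.asIdeal := ⟨by rw [h0, hP0]⟩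
  obtain ⟨L, hL1, hL2, -⟩ := Ideal.exists_ltSeries_of_hasGoingUp l' P
  refine ⟨L.map (PrimeSpectrum.comap (Ideal.Quotient.mk (RingHom.ker Φ)))
    (RingHom.strictMono_comap_of_surjective Ideal.Quotient.mk_surjective), ?_, ?_⟩
  · have h4 : L.length = l'.length := hL1
    rw [LTSeries.map_length]; omega
  · rw [LTSeries.head_map, hL2]; rfl

/-- an integral extension of full dimension of a quotient of a domain: the quotient is trivial,
and every prime lifts -/
theorem exists_over {R₀ : Type*} [CommRing R₀] [IsDomain R₀] (Ψ : R₀ →+* R) {D : ℕ}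
    (hR : ringKrullDim R₀ ≤ D) (L : LTSeries (PrimeSpectrum R)) (hL : D ≤ L.length)
    (hint : ((Ideal.Quotient.mk L.head.asIdeal).comp Ψ).IsIntegral) (𝔭 : Ideal R₀) [𝔭.IsPrime] :
    ∃ 𝔓 : Ideal R, 𝔓.IsPrime ∧ L.head.asIdeal ≤ 𝔓 ∧ 𝔓.comap Ψ = 𝔭 := by
  set Q := L.head.asIdeal with hQ
  have hQp : Q.IsPrime := L.head.isPrime
  let _ : Algebra R₀ (R ⧸ Q) := ((Ideal.Quotient.mk Q).comp Ψ).toAlgebra
  have hI : Algebra.IsIntegral R₀ (R ⧸ Q) := ⟨hint⟩
  have hle : ∀ i, Q ≤ (L i).asIdeal := fun i => L.head_le i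
  have hpr : ∀ i, ((L i).asIdeal.map (Ideal.Quotient.mk Q)).IsPrime := fun i =>
    Ideal.map_isPrime_of_surjective Ideal.Quotient.mk_surjective (by simpa using hle i)
  have hcm : ∀ I : Ideal R, Q ≤ I →
      (I.map (Ideal.Quotient.mk Q)).comap (algebraMap R₀ (R ⧸ Q)) = I.comap Ψ := fun I hI => by
    change (I.map _).comap ((Ideal.Quotient.mk Q).comp Ψ) = _
    rw [← Ideal.comap_comap, Ideal.comap_map_of_surjective _ Ideal.Quotient.mk_surjective,
      ← RingHom.ker_eq_comap_bot, Ideal.mk_ker, sup_eq_left.2 hI]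
  have hlt : ∀ i j, i < j → (L i).asIdeal.comap Ψ < (L j).asIdeal.comap Ψ := fun i j hij => by
    have h1 : (L i).asIdeal < (L j).asIdeal := L.strictMono hij
    have := hpr i
    rw [← hcm _ (hle i), ← hcm _ (hle j)]
    refine Ideal.IsIntegral.comap_lt_comap (lt_of_le_of_ne (Ideal.map_mono h1.le) fun h => h1.ne ?_)
    have h2 := congrArg (Ideal.comap (Ideal.Quotient.mk Q)) h
    rwa [Ideal.comap_map_of_surjective _ Ideal.Quotient.mk_surjective,
      Ideal.comap_map_of_surjective _ Ideal.Quotient.mk_surjective,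
      ← RingHom.ker_eq_comap_bot, Ideal.mk_ker, sup_eq_left.2 (hle i),
      sup_eq_left.2 (hle j)] at h2
  let L' : LTSeries (PrimeSpectrum R₀) :=
    LTSeries.mk L.length (fun i => PrimeSpectrum.comap Ψ (L i)) fun i j hij => hlt i j hij
  have hbot : Q.comap Ψ = ⊥ := by
    by_contra h
    have h1 : (⟨⊥, Ideal.isPrime_bot⟩ : PrimeSpectrum R₀) < L'.head :=
      (bot_lt_iff_ne_bot.2 h : (⊥ : Ideal R₀) < _)
    have h2 := (Order.LTSeries.length_le_krullDim (L'.cons _ h1)).trans hR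
    rw [RelSeries.cons_length] at h2
    have h3 : L'.length + 1 ≤ D := by exact_mod_cast h2
    have h4 : L'.length = L.length := rfl
    omega
  obtain ⟨P, -, hP, hPc⟩ := Ideal.exists_ideal_over_prime_of_isIntegral 𝔭 (⊥ : Ideal (R ⧸ Q)) (by
    have := hcm Q le_rfl
    rw [Ideal.map_quotient_self] at this
    rw [this, hbot]; exact bot_le)
  refine ⟨P.comap (Ideal.Quotient.mk Q), Ideal.comap_isPrime _ _, fun a ha => ?_, ?_⟩
  · rw [Ideal.mem_comap, Ideal.Quotient.eq_zero_iff_mem.2 ha]; exact zero_mem _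
  · rw [Ideal.comap_comap]; exact hPc

/-- bounded monomials span -/
theorem exists_monomials {R₀ A ι : Type*} [CommRing R₀] [CommRing A] [Fintype ι] [DecidableEq ι]
    (ψ : R₀ →+* A) (y : ι → A) {m : ℕ} (hm : 0 < m)
    (hy : ∀ i, ∃ c : Fin m → R₀, y i ^ m = ∑ k, ψ (c k) * y i ^ (k : ℕ))
    (P : MvPolynomial ι R₀) : ∃ a : (ι → Fin m) → R₀,
      MvPolynomial.eval₂Hom ψ y P = ∑ γ, ψ (a γ) * ∏ i, y i ^ (γ i : ℕ) := by
  let _ : Algebra R₀ A := ψ.toAlgebra
  let M : Submodule R₀ A := Submodule.span R₀ (Set.range fun γ : ι → Fin m => ∏ i, y i ^ (γ i : ℕ))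
  have hupd : ∀ (γ : ι → Fin m) (i : ι) (k : Fin m),
      (∏ j ∈ Finset.univ.erase i, y j ^ (γ j : ℕ)) * y i ^ (k : ℕ) ∈ M := fun γ i k => by
    refine Submodule.subset_span ⟨update γ i k, ?_⟩
    change ∏ j, y j ^ ((update γ i k j : Fin m) : ℕ) = _
    rw [← Finset.prod_erase_mul _ _ (Finset.mem_univ i), update_self]
    congr 1
    exact Finset.prod_congr rfl fun j hj => by rw [update_of_ne (Finset.ne_of_mem_erase hj)]
  have hmul : ∀ i, ∀ a ∈ M, a * y i ∈ M := fun i a ha => by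
    induction ha using Submodule.span_induction with
    | mem a ha =>
      obtain ⟨γ, rfl⟩ := ha
      change (∏ j, y j ^ (γ j : ℕ)) * y i ∈ M
      rw [← Finset.prod_erase_mul _ _ (Finset.mem_univ i), mul_assoc, ← pow_succ]
      by_cases h : (γ i : ℕ) + 1 < m
      · exact hupd γ i ⟨_, h⟩
      · obtain ⟨c, hc⟩ := hy i
        rw [show (γ i : ℕ) + 1 = m by have := (γ i).2; omega, hc, Finset.mul_sum]
        refine sum_mem fun k _ => ?_
        rw [mul_left_comm]
        exact M.smul_mem (c k) (hupd γ i k)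
    | zero => rw [zero_mul]; exact zero_mem _
    | add a b _ _ ha hb => rw [add_mul]; exact add_mem ha hb
    | smul r a _ ha => rw [smul_mul_assoc]; exact M.smul_mem r ha
  have hP : MvPolynomial.eval₂Hom ψ y P ∈ M := by
    induction P using MvPolynomial.induction_on with
    | C a =>
      rw [MvPolynomial.eval₂Hom_C, ← mul_one (ψ a)]
      exact M.smul_mem a (Submodule.subset_span ⟨fun _ => ⟨0, hm⟩, by simp⟩)
    | add P Q hP hQ => rw [map_add]; exact add_mem hP hQ
    | mul_X P i hP => rw [map_mul, MvPolynomial.eval₂Hom_X']; exact hmul i _ hP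
  obtain ⟨a, ha⟩ := (Submodule.mem_span_range_iff_exists_fun R₀).1 hP
  exact ⟨a, ha.symm⟩

lemma exists_lower {R₀ A : Type*} [CommRing R₀] [Nontrivial R₀] [CommRing A] (ψ : R₀ →+* A) (y : A)
    (w : R₀) {E : ℕ} (h : (y ^ 2 - ψ w * (1 + y)) ^ E = 0) :
    ∃ c : Fin (2 * E) → R₀, y ^ (2 * E) = ∑ k, ψ (c k) * y ^ (k : ℕ) := by
  have hm : (X ^ 2 - C w * (1 + X) : R₀[X]).Monic := by monicity!
  have hd : (X ^ 2 - C w * (1 + X) : R₀[X]).natDegree = 2 := by compute_degree!
  set P : R₀[X] := (X ^ 2 - C w * (1 + X)) ^ E with hP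
  have hPm : P.Monic := hm.pow E
  have hPd : P.natDegree = 2 * E := by rw [hP, hm.natDegree_pow, hd, mul_comm]
  have h0 : eval₂ ψ y P = 0 := by
    rw [hP, eval₂_pow, eval₂_sub, eval₂_pow, eval₂_mul, eval₂_add, eval₂_X, eval₂_C, eval₂_one, h]
  rw [eval₂_eq_sum_range, Finset.sum_range_succ, hPm.coeff_natDegree, map_one, one_mul, hPd,
    Finset.sum_range] at h0
  refine ⟨fun k => -P.coeff k, ?_⟩
  simp only [map_neg, neg_mul, Finset.sum_neg_distrib]
  linear_combination h0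

end alg

section lim

variable {S : Type*} [CommRing S] {I : Ideal S} {B : ℕ → Type*} [∀ n, CommRing (B n)]
  {p : ∀ n, S →+* B n} {A : ℕ → Type*} [∀ n, CommRing (A n)]
  {d : Type*} [Fintype d] [DecidableEq d]

/-- the limit homomorphism on the product ring -/
theorem exists_limM (h : Sys I p) (φ : ∀ n, A n →+* Matrix d d (B n)) :
    ∃ Φ : (∀ n, A n) →+* Matrix d d S, ∀ a i j, Conv I p (fun n => φ n (a n) i j) (Φ a i j) := by
  choose F hF using fun (a : ∀ n, A n) i j => h.exists_conv fun n => φ n (a n) i j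
  refine ⟨{ toFun := fun a => Matrix.of (F a), map_one' := ?_, map_mul' := fun a b => ?_,
            map_zero' := ?_, map_add' := fun a b => ?_ }, hF⟩
  · ext i j
    refine h.unique (hF 1 i j) ((conv_const _).congr fun n => ?_)
    rw [Pi.one_apply, map_one, Matrix.one_apply, Matrix.one_apply]
    split_ifs <;> simp
  · ext i j
    refine h.unique (hF (a * b) i j)
      ((Conv.sum Finset.univ fun l => (hF a i l).mul (hF b l j)).congr fun n => ?_)
    rw [Pi.mul_apply, map_mul, Matrix.mul_apply]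
  · ext i j
    exact h.unique (hF 0 i j) ((conv_const _).congr fun n => by simp)
  · ext i j
    exact h.unique (hF (a + b) i j) (((hF a i j).add (hF b i j)).congr fun n => by simp)

theorem exists_limP (h : Sys I p) (x : ∀ n, A n →+* B n) :
    ∃ X : (∀ n, A n) →+* S, ∀ a, Conv I p (fun n => x n (a n)) (X a) := by
  obtain ⟨Φ, hΦ⟩ := exists_limM h (d := Unit) fun n => (Matrix.scalar Unit).comp (x n)
  refine ⟨{ toFun := fun a => Φ a () (), map_one' := by simp, map_mul' := fun a b => ?_,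
            map_zero' := by simp, map_add' := fun a b => by simp }, fun a => ?_⟩
  · simp [Matrix.mul_apply]
  · exact (hΦ a () ()).congr fun n => by simp

variable {R₀ : Type*} [CommRing R₀] [IsLocalRing R₀]

lemma limM_cont (h : Sys I p) {φ : ∀ n, A n →+* Matrix d d (B n)}
    {Φ : (∀ n, A n) →+* Matrix d d S} (hΦ : ∀ a i j, Conv I p (fun n => φ n (a n) i j) (Φ a i j))
    (ψ : ∀ n, R₀ →+* A n) {r : ℕ → R₀} {a : R₀} (hr : ConvR r a) :
    Φ (fun n => ψ n (r n)) = Φ fun n => ψ n a := by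
  ext i j
  refine h.unique (hΦ _ i j) fun k => ?_
  obtain ⟨N, hN⟩ := h.unif (R := R₀) (d := d) k
  filter_upwards [hΦ (fun n => ψ n a) i j k, hr N] with n h1 h2
  rw [Ideal.map_id, RingHom.id_apply] at h2
  have h3 := add_mem (hN n ((φ n).comp (ψ n)) _ h2 i j) h1
  rwa [map_sub, Matrix.sub_apply, RingHom.comp_apply, RingHom.comp_apply,
    sub_add_sub_cancel] at h3

lemma limP_cont (h : Sys I p) {x : ∀ n, A n →+* B n}
    {X : (∀ n, A n) →+* S} (hX : ∀ a, Conv I p (fun n => x n (a n)) (X a))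
    (ψ : ∀ n, R₀ →+* A n) {r : ℕ → R₀} {a : R₀} (hr : ConvR r a) :
    X (fun n => ψ n (r n)) = X fun n => ψ n a := by
  have := limM_cont h (d := Unit) (φ := fun n => (Matrix.scalar Unit).comp (x n))
    (Φ := (Matrix.scalar Unit).comp X) (fun a i j => by
      have e : ((Matrix.scalar Unit).comp X) a i j = X a := by simp
      rw [e]
      exact (hX a).congr fun n => by simp) ψ hr
  simpa using congrFun (congrFun this ()) ()

/-- a high power of the maximal ideal maps into `J ^ k` -/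
lemma map_pow_le [IsLocalRing S] {O : Type*} [CommRing O] {J : Ideal O} (hO : Cpt J)
    (ε : S →+* O) (k : ℕ) : (maximalIdeal S ^ Nat.card (O ⧸ J ^ k)).map ε ≤ J ^ k := by
  have := hO.fin k
  exact Ideal.map_le_iff_le_comap.2 fun s hs => (Ideal.Quotient.eq_zero_iff_mem (I := J ^ k)).1
    (pow_le_ker ((Ideal.Quotient.mk (J ^ k)).comp ε) hs)

end lim

end I3

open I3

section main

variable {S R₀ O O' : Type*} [CommRing S] [IsDomain S] [IsLocalRing S]
  [CommRing R₀] [IsDomain R₀] [IsLocalRing R₀]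
  [CommRing O] [IsDomain O] [CommRing O'] [IsDomain O'] {J : Ideal O} {J' : Ideal O'}
  {A B C C' : ℕ → Type*} [∀ n, CommRing (A n)] [∀ n, CommRing (B n)] [∀ n, CommRing (C n)]
  [∀ n, CommRing (C' n)] {p : ∀ n, S →+* B n} {q : ∀ n, O →+* C n} {q' : ∀ n, O' →+* C' n}
  {d ι κ : Type*} [Fintype d] [DecidableEq d] [Nonempty d] [Fintype ι] [Fintype κ]

/-- **Patching at finite level.**  `A n` acts on `(B n)^d` through `φ n`, contains the scalars
(`s n`), has two points `x n`, `θ n`, the second in the support.  Modulo the elements `u n j`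
(killed by `x n` and, up to nilpotents, by elements with a fixed non-zero value at `θ`) it is
generated by the image of the domain `R₀` (of dimension at most `dim S`) and by elements `y n i`
that are integral over it.  Then `x` is in the support of the fibre at `ε`. -/
theorem patch_fin (hS : Sys (maximalIdeal S) p) (hR : Cpt (maximalIdeal R₀)) (hO : Sys J q)
    (hO' : Sys J' q') {D : ℕ} (hRD : ringKrullDim R₀ ≤ D) (hSD : D ≤ ringKrullDim S)
    (φ : ∀ n, A n →+* Matrix d d (B n)) (s : ∀ n, S →+* A n)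
    (hs : ∀ n a, φ n (s n a) = Matrix.scalar d (p n a)) (ψ : ∀ n, R₀ →+* A n)
    (x : ∀ n, A n →+* C n) (ε : S →+* O) (hx : ∀ n a, x n (s n a) = q n (ε a))
    (θ : ∀ n, A n →+* C' n) (ε' : S →+* O') (hθ : ∀ n a, θ n (s n a) = q' n (ε' a))
    (hker : ∀ n, RingHom.ker (φ n) ≤ RingHom.ker (θ n)) {E : ℕ} (hE : 0 < E)
    (u v : ∀ n, κ → A n) (cst : κ → O') (hcst : ∀ j, cst j ≠ 0)
    (huv : ∀ n j, φ n (u n j * v n j) ^ E = 0) (hv : ∀ n j, θ n (v n j) = q' n (cst j))
    (hu : ∀ n j, x n (u n j) = 0)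
    (y : ∀ n, ι → A n) (hy0 : ∀ n i, x n (y n i) = 0)
    (hy : ∀ n i, ∃ w, x n (ψ n w) = 0 ∧
      (y n i ^ 2 - ψ n w * (1 + y n i)) ^ E ∈ Ideal.span (Set.range (u n)))
    (hgen : ∀ n a, ∃ P : MvPolynomial ι R₀,
      a - MvPolynomial.eval₂Hom (ψ n) (y n) P ∈ Ideal.span (Set.range (u n))) {c : O}
    (hc : ∀ n, ∃ t, (∀ i j, φ n t i j ∈ (RingHom.ker ε).map (p n)) ∧ x n t = q n c) :
    c = 0 := by
  classical
  obtain ⟨Φ, hΦ⟩ := exists_limM hS φ
  obtain ⟨X, hX⟩ := exists_limP hO x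
  obtain ⟨Θ, hΘ⟩ := exists_limP hO' θ
  have hXc : ∀ (a : ∀ n, A n) (b : O), (∀ n, x n (a n) = q n b) → X a = b := fun a b h =>
    hO.unique (hX a) ((conv_const b).congr h)
  have hΘc : ∀ (a : ∀ n, A n) (b : O'), (∀ n, θ n (a n) = q' n b) → Θ a = b := fun a b h =>
    hO'.unique (hΘ a) ((conv_const b).congr h)
  have hΦ0 : ∀ a : ∀ n, A n, (∀ n, φ n (a n) = 0) → Φ a = 0 := fun a h => Matrix.ext fun i j =>
    hS.unique (hΦ a i j) ((conv_const 0).congr fun n => by simp [h])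
  have hsc : ∀ a : S, Φ (fun n => s n a) = Matrix.scalar d a := fun a => Matrix.ext fun i j =>
    hS.unique (hΦ _ i j) ((conv_const _).congr fun n => by
      rw [hs, Matrix.scalar_apply, Matrix.scalar_apply, Matrix.diagonal_apply,
        Matrix.diagonal_apply]
      split_ifs <;> simp)
  -- the point `Θ` is in the support
  have hsupp : RingHom.ker Φ ≤ RingHom.ker Θ := by
    intro a ha
    refine IsNilpotent.eq_zero ⟨Fintype.card d, hO'.cpt.eq_zero fun k => ?_⟩
    have h1 : ∀ᶠ n in (U : Filter ℕ), ∀ i j, φ n (a n) i j ∈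
        (maximalIdeal S ^ Nat.card (O' ⧸ J' ^ k)).map (p n) := by
      refine eventually_all.2 fun i => eventually_all.2 fun j => ?_
      have h := hΦ a i j (Nat.card (O' ⧸ J' ^ k))
      rw [RingHom.mem_ker.1 ha] at h
      simpa using h
    obtain ⟨n, h2, h3, hn⟩ := (h1.and ((hΘ a k).and (ev_ge k))).exists
    choose N hN1 hN2 using fun i j => (Ideal.mem_map_iff_of_surjective _ (hS.surj n)).1 (h2 i j)
    have h4 := pow_mem (p n) (φ n) (θ n) ((q' n).comp ε') (fun b => ⟨s n b, hs n b, hθ n b⟩)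
      (hker n) (a n) (Matrix.of N) (Matrix.ext hN2) _ hN1
    rw [← Ideal.map_map] at h4
    have h5 := Ideal.map_mono (f := q' n) (map_pow_le hO'.cpt ε' k) h4
    refine hO'.mem_of_map hn ?_
    rw [← Ideal.Quotient.eq] at h3
    rw [← Ideal.Quotient.eq_zero_iff_mem, map_pow, map_pow, ← h3, ← map_pow,
      Ideal.Quotient.eq_zero_iff_mem]
    exact h5
  have := RingHom.ker_isPrime Θ
  obtain ⟨Q, hQ, hle⟩ := Ideal.exists_minimalPrimes_le hsupp
  have hQp : Q.IsPrime := hQ.isPrime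
  have hkQ : ∀ a, Φ a = 0 → a ∈ Q := fun a ha => hQ.le ha
  -- the elements `u` die on the component
  have huQ : ∀ j, (fun n => u n j) ∈ Q := fun j => by
    have h1 : ((fun n => u n j) * fun n => v n j : ∀ n, A n) ^ E ∈ Q :=
      hkQ _ (hΦ0 _ fun n => by rw [Pi.pow_apply, map_pow]; exact huv n j)
    refine (hQp.mem_or_mem (hQp.mem_of_pow_mem _ h1)).resolve_right fun h => hcst j ?_
    rw [← hΘc (fun n => v n j) _ fun n => hv n j]
    exact hle h
  have hspan : ∀ a : ∀ n, A n, (∀ n, a n ∈ Ideal.span (Set.range (u n))) → a ∈ Q ∧ X a = 0 :=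
    fun a ha => by
    choose b hb using fun n => Ideal.mem_span_range_iff_exists_fun.1 (ha n)
    have e : a = ∑ j, (fun n => b n j) * fun n => u n j := funext fun n => by
      rw [← hb n, Finset.sum_apply]; rfl
    rw [e]
    refine ⟨sum_mem fun j _ => Q.mul_mem_left _ (huQ j), ?_⟩
    rw [map_sum]
    exact Finset.sum_eq_zero fun j _ => by
      rw [map_mul, hXc (fun n => u n j) 0 fun n => by rw [hu, map_zero], mul_zero]
  let Ψ : R₀ →+* ∀ n, A n := RingHom.pi ψ
  have hΨ : ∀ a, Ψ a = fun n => ψ n a := fun _ => rfl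
  let Y : ι → ∀ n, A n := fun i n => y n i
  have hcont : ∀ r : ℕ → R₀, ∃ a, (fun n => ψ n (r n)) - Ψ a ∈ Q ∧
      X (fun n => ψ n (r n)) = X (Ψ a) := fun r => by
    obtain ⟨a, ha⟩ := hR.sys.exists_conv r
    exact ⟨a, hkQ _ (by rw [map_sub, limM_cont hS hΦ ψ ha, hΨ, sub_self]), limP_cont hO hX ψ ha⟩
  -- every element is a bounded polynomial in the `Y i`
  have hE2 : 0 < 2 * E := by omega
  have hrep : ∀ a : ∀ n, A n, ∃ b : (ι → Fin (2 * E)) → R₀,
      a - ∑ γ, Ψ (b γ) * ∏ i, Y i ^ (γ i : ℕ) ∈ Q ∧ X a = X (Ψ (b fun _ => ⟨0, hE2⟩)) := by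
    intro a
    have h1 : ∀ n, ∃ b : (ι → Fin (2 * E)) → R₀,
        a n - ∑ γ, ψ n (b γ) * ∏ i, y n i ^ (γ i : ℕ) ∈ Ideal.span (Set.range (u n)) := fun n => by
      obtain ⟨P, hP⟩ := hgen n (a n)
      set π := Ideal.Quotient.mk (Ideal.span (Set.range (u n)))
      obtain ⟨b, hb⟩ := exists_monomials (π.comp (ψ n)) (fun i => π (y n i)) hE2 (fun i => by
        obtain ⟨w, -, hw⟩ := hy n i
        refine exists_lower _ _ w ?_
        have := Ideal.Quotient.eq_zero_iff_mem.2 hw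
        simpa using this) P
      refine ⟨b, Ideal.Quotient.eq.1 ?_⟩
      rw [Ideal.Quotient.eq.2 hP]
      change π _ = π _
      rw [MvPolynomial.map_eval₂Hom, hb]
      simp
    choose b hb using h1
    choose b' hb1 hb2 using fun γ => hcont fun n => b n γ
    obtain ⟨h2, h3⟩ := hspan (a - ∑ γ, (fun n => ψ n (b n γ)) * ∏ i, Y i ^ (γ i : ℕ)) fun n => by
      simpa [Y] using hb n
    refine ⟨b', ?_, ?_⟩
    · have h4 : ∑ γ, ((fun n => ψ n (b n γ)) - Ψ (b' γ)) * ∏ i, Y i ^ (γ i : ℕ) ∈ Q :=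
        sum_mem fun γ _ => Q.mul_mem_right _ (hb1 γ)
      have h5 := add_mem h2 h4
      simp only [sub_mul, Finset.sum_sub_distrib] at h5
      rwa [sub_add_sub_cancel] at h5
    · rw [map_sub, sub_eq_zero, map_sum] at h3
      rw [h3, Finset.sum_eq_single (fun _ => ⟨0, hE2⟩)]
      · simp [hb2]
      · intro γ _ hγ
        obtain ⟨i, hi⟩ := Function.ne_iff.1 hγ
        rw [map_mul, map_prod, Finset.prod_eq_zero (Finset.mem_univ i), mul_zero]
        rw [map_pow, hXc (Y i) 0 fun n => by rw [hy0, map_zero]]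
        exact zero_pow fun h => hi (Fin.ext h)
      · simp
  obtain ⟨L, hL, hLQ⟩ := exists_chain Φ (fun a => ⟨_, hsc a⟩) hSD hQ
  have hint : ((Ideal.Quotient.mk L.head.asIdeal).comp Ψ).IsIntegral := by
    rw [hLQ]
    refine RingHom.IsIntegral.of_finite ?_
    let _ : Algebra R₀ ((∀ n, A n) ⧸ Q) := ((Ideal.Quotient.mk Q).comp Ψ).toAlgebra
    change Module.Finite R₀ ((∀ n, A n) ⧸ Q)
    refine ⟨Submodule.fg_def.2 ⟨Set.range fun γ : ι → Fin (2 * E) =>
      Ideal.Quotient.mk Q (∏ i, Y i ^ (γ i : ℕ)), Set.finite_range _, eq_top_iff.2 fun z _ => ?_⟩⟩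
    obtain ⟨a, rfl⟩ := Ideal.Quotient.mk_surjective z
    obtain ⟨b, hb, -⟩ := hrep a
    rw [Ideal.Quotient.eq.2 hb, map_sum]
    refine sum_mem fun γ _ => ?_
    rw [map_mul]
    exact Submodule.smul_mem _ (b γ) (Submodule.subset_span ⟨γ, rfl⟩)
  have := RingHom.ker_isPrime (X.comp Ψ)
  obtain ⟨𝔓, h𝔓, hQ𝔓, hc𝔓⟩ := exists_over Ψ hRD L hL hint (RingHom.ker (X.comp Ψ))
  rw [hLQ] at hQ𝔓
  have hmem : ∀ a, Ψ a ∈ 𝔓 ↔ X (Ψ a) = 0 := fun a => by
    rw [← Ideal.mem_comap, hc𝔓]; rfl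
  have hY : ∀ i, Y i ∈ 𝔓 := fun i => by
    choose w hw1 hw2 using fun n => hy n i
    obtain ⟨w', h1, h2⟩ := hcont w
    have h3 := (hspan ((Y i ^ 2 - (fun n => ψ n (w n)) * (1 + Y i)) ^ E) fun n => hw2 n).1
    have h4 := h𝔓.mem_of_pow_mem _ (hQ𝔓 h3)
    have h5 : Ψ w' ∈ 𝔓 := (hmem w').2 (by rw [← h2]; exact hXc _ 0 fun n => by rw [hw1, map_zero])
    have h6 : (fun n => ψ n (w n)) ∈ 𝔓 := by simpa using add_mem (hQ𝔓 h1) h5
    exact h𝔓.mem_of_pow_mem 2 (by simpa using add_mem h4 (𝔓.mul_mem_right (1 + Y i) h6))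
  have hkX : RingHom.ker Φ ≤ RingHom.ker X := fun a ha => by
    obtain ⟨b, h1, h2⟩ := hrep a
    rw [RingHom.mem_ker, h2, ← hmem]
    have h3 : ∑ γ, Ψ (b γ) * ∏ i, Y i ^ (γ i : ℕ) ∈ 𝔓 := by
      simpa using sub_mem (hQ𝔓 (hkQ a ha)) (hQ𝔓 h1)
    rw [← Finset.add_sum_erase _ _ (Finset.mem_univ fun _ => ⟨0, hE2⟩)] at h3
    have h4 : ∑ γ ∈ Finset.univ.erase (fun _ => ⟨0, hE2⟩ : ι → Fin (2 * E)),
        Ψ (b γ) * ∏ i, Y i ^ (γ i : ℕ) ∈ 𝔓 := sum_mem fun γ hγ => by
      obtain ⟨i, hi⟩ := Function.ne_iff.1 (Finset.ne_of_mem_erase hγ)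
      refine 𝔓.mul_mem_left _ (Ideal.prod_mem _ (Finset.mem_univ i) ?_)
      exact 𝔓.pow_mem_of_mem (hY i) _ (Nat.pos_of_ne_zero fun h => hi (Fin.ext h))
    simpa using sub_mem h3 h4
  choose t h1 h2 using hc
  have h := pow_mem (RingHom.id S) Φ X ε (fun a => ⟨_, hsc a, hXc _ _ fun n => hx n a⟩) hkX t (Φ t)
    (Matrix.map_id' _) (RingHom.ker ε) fun i j =>
      hS.map_eq_zero rfl hO.cpt ε (hΦ t i j) fun n => h1 n i j
  rw [hXc t c h2, (Ideal.map_eq_bot_iff_le_ker ε).2 le_rfl, Ideal.mem_bot] at h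
  exact pow_eq_zero_iff Fintype.card_ne_zero |>.1 h

end main

end Crest.Agent.T15.Pat

end
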