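import Crest.Agent.T15.MfC_79
import Crest.Agent.T15.BetUni_91

/-!
# T15 / PlA (helper32): the valuations of `FF` at points of `ℍ` and at the cusps

* `vz z` (91's `vM z` on `FF`), `oc x` the order of the `q`-expansion, `vc`, `vg g` (cusp `g ∞`);
* `jj = E₄³ / Δ`, `oc jj = -1`.
-/

set_option autoImplicit false
set_option linter.all false

noncomputable section

namespace Crest.Agent.T15.Pl

open UpperHalfPlane hiding I
open WithZero ModularForm CongruenceSubgroup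
open scoped MatrixGroups Manifold
open Crest.Agent.R007 Crest.Agent.R007.Rat
open Crest.Agent.T15.Mf Crest.Agent.T15.Hs Crest.Agent.T15.Bet

/-! shortcut instances -/

instance (priority := high) fieldFF : Field FF := inferInstance
instance (priority := high) algFF : Algebra ℂ FF := inferInstance
instance (priority := high) algMer : Algebra FF Mer := inferInstance
instance (priority := high) mulActSL : MulAction SL(2, ℤ) FF :=
  (inferInstance : MulSemiringAction SL(2, ℤ) FF).toDistribMulAction.toMulAction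
instance (priority := high) smulSL : SMul SL(2, ℤ) FF := mulActSL.toSMul
instance (priority := high) mulActGQ : MulAction GQ FF :=
  (inferInstance : MulSemiringAction GQ FF).toDistribMulAction.toMulAction
instance (priority := high) smulGQ : SMul GQ FF := mulActGQ.toSMul

/-- the valuation at `z` on `FF` -/
def vz (z : ℍ) : Valuation FF ℤᵐ⁰ := (vM z).comap (algebraMap FF Mer)

theorem vz_apply (z : ℍ) (x : FF) : vz z x = vM z (x : Mer) := rfl

theorem vz_inv_smul' (g : GQ) (z : ℍ) (x : FF) : vz z (g⁻¹ • x) = vz (rr g • z) x :=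
  vM_inv_smul g z x

theorem vz_inv_smul (g : SL(2, ℤ)) (z : ℍ) (x : FF) : vz z (g⁻¹ • x) = vz (g • z) x := by
  rw [sl_smul, map_inv, vz_inv_smul', rr_sq_smul]

theorem vz_smul (g : SL(2, ℤ)) (z : ℍ) (x : FF) : vz (g • z) (g • x) = vz z x := by
  rw [← vz_inv_smul, inv_smul_smul]

theorem vz_const (z : ℍ) {c : ℂ} (hc : c ≠ 0) : vz z (algebraMap ℂ FF c) = 1 := vM_const z hc

theorem vz_quo {M : ℕ} {k : ℤ} {F G : ℍ → ℂ} (hM : M ≠ 0) (hF : IsF M k F) (hG : IsF M k G)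
    (z : ℍ) : vz z (quo F G) = vM z (mer F) / vM z (mer G) := by
  rw [vz_apply, coe_quo hM hF hG, map_div₀]

/-! ### orders of Hahn series -/

theorem order_eq {x : HS ℂ} {r : ℚ} (h1 : x.coeff r ≠ 0) (h2 : ∀ s < r, x.coeff s = 0) :
    x.order = r := by
  have h0 : x ≠ 0 := by rintro rfl; simp at h1
  refine le_antisymm (HahnSeries.order_le_of_coeff_ne_zero h1) (not_lt.mp fun h => ?_)
  exact h0 (HahnSeries.coeff_order_eq_zero.mp (h2 _ h))

theorem order_sc {a : ℚ} (ha : 0 < a) (x : HS ℂ) : (sc a x).order = a * x.order := by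
  by_cases h0 : x = 0
  · simp [h0]
  refine order_eq ?_ fun s hs => ?_
  · rw [coeff_sc_mul ha]; exact HahnSeries.coeff_order_eq_zero.not.mpr h0
  · rw [coeff_sc ha]
    exact HahnSeries.coeff_eq_zero_of_lt_order (by rwa [div_lt_iff₀ ha, mul_comm])

theorem ee_ne (b : ℚ) (r : Multiplicative ℚ) : ee b r ≠ 0 := Complex.exp_ne_zero _

theorem order_tw (b : ℚ) (x : HS ℂ) : (tw (ee b) x).order = x.order := by
  by_cases h0 : x = 0
  · simp [h0]
  refine order_eq ?_ fun s hs => ?_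
  · rw [coeff_tw]; exact mul_ne_zero (ee_ne _ _) (HahnSeries.coeff_order_eq_zero.not.mpr h0)
  · rw [coeff_tw, HahnSeries.coeff_eq_zero_of_lt_order hs, mul_zero]

/-- the order of the `q`-expansion at `∞` -/
def oc (x : FF) : ℚ := (qx x).order

theorem qx_ne {x : FF} (hx : x ≠ 0) : qx x ≠ 0 := fun h => hx (qx_injective (by rw [h, map_zero]))

theorem oc_zero : oc 0 = 0 := by simp [oc]

theorem oc_one : oc 1 = 0 := by simp [oc]

theorem oc_mul {x y : FF} (hx : x ≠ 0) (hy : y ≠ 0) : oc (x * y) = oc x + oc y := by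
  rw [oc, map_mul, HahnSeries.order_mul (qx_ne hx) (qx_ne hy)]; rfl

theorem oc_const (c : ℂ) : oc (algebraMap ℂ FF c) = 0 := by
  rw [oc, qx_algebraMap, HahnSeries.order_C]

theorem le_oc_add {x y : FF} (h : x + y ≠ 0) : min (oc x) (oc y) ≤ oc (x + y) := by
  unfold oc
  rw [map_add]
  exact HahnSeries.min_order_le_order_add (by rw [← map_add]; exact qx_ne h)

open Classical in
/-- the valuation at the cusp `∞` -/
def vc : Valuation FF ℚᵐ⁰ where
  toFun x := if x = 0 then 0 else exp (-oc x)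
  map_zero' := by simp
  map_one' := by simp [oc_one]
  map_mul' a b := by
    by_cases ha : a = 0
    · simp [ha]
    by_cases hb : b = 0
    · simp [hb]
    rw [if_neg ha, if_neg hb, if_neg (mul_ne_zero ha hb), ← exp_add, oc_mul ha hb, neg_add]
  map_add_le_max' a b := by
    by_cases hab : a + b = 0
    · simp [hab]
    by_cases ha : a = 0
    · simp [ha]
    by_cases hb : b = 0
    · simp [hb]
    rw [if_neg ha, if_neg hb, if_neg hab, le_max_iff, exp_le_exp, exp_le_exp, neg_le_neg_iff,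
      neg_le_neg_iff, ← min_le_iff]
    exact le_oc_add hab

theorem vc_apply {x : FF} (hx : x ≠ 0) : vc x = exp (-oc x) := if_neg hx

theorem oc_eq (x : FF) : oc x = -log (vc x) := by
  by_cases hx : x = 0
  · simp [hx, oc_zero]
  · rw [vc_apply hx, log_exp, neg_neg]

theorem oc_zpow (x : FF) (n : ℤ) : oc (x ^ n) = n * oc x := by
  rw [oc_eq, oc_eq, map_zpow₀, log_zpow, zsmul_eq_mul, mul_neg]

theorem oc_pow (x : FF) (n : ℕ) : oc (x ^ n) = n * oc x := by
  rw [← zpow_natCast, oc_zpow, Int.cast_natCast]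

theorem oc_inv (x : FF) : oc x⁻¹ = -oc x := by
  rw [← zpow_neg_one, oc_zpow]; simp

theorem oc_div {x y : FF} (hx : x ≠ 0) (hy : y ≠ 0) : oc (x / y) = oc x - oc y := by
  rw [div_eq_mul_inv, oc_mul hx (inv_ne_zero hy), oc_inv, sub_eq_add_neg]

theorem vc_const {c : ℂ} (hc : c ≠ 0) : vc (algebraMap ℂ FF c) = 1 := by
  rw [vc_apply (by simpa using hc), oc_const, neg_zero, exp_zero]

theorem oc_quo {M : ℕ} {k : ℤ} {F G : ℍ → ℂ} (hM : M ≠ 0) (hF : IsF M k F) (hG : IsF M k G)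
    (hF0 : F ≠ 0) (hG0 : G ≠ 0) : oc (quo F G) = (qf F).order - (qf G).order := by
  have h1 := qf_ne_zero hM hF hF0
  have h2 := qf_ne_zero hM hG hG0
  have h3 : qf F = qf F / qf G * qf G := (div_mul_cancel₀ _ h2).symm
  rw [oc, qx_quo hM hF hG, eq_sub_iff_add_eq, ← HahnSeries.order_mul (div_ne_zero h1 h2) h2, ← h3]

theorem oc_upper {g : GQ} (hg : (g : GL (Fin 2) ℚ) 1 0 = 0) (x : FF) :
    oc (g⁻¹ • x) = (g : GL (Fin 2) ℚ) 0 0 / (g : GL (Fin 2) ℚ) 1 1 * oc x := by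
  rw [oc, qx_upper hg, order_sc (upper_pos hg), order_tw]; rfl

theorem T_zpow_apply (n : ℤ) : (ModularGroup.T ^ n) 0 0 = 1 ∧ (ModularGroup.T ^ n) 0 1 = n ∧
    (ModularGroup.T ^ n) 1 0 = 0 ∧ (ModularGroup.T ^ n) 1 1 = 1 := by
  have h := ModularGroup.coe_T_zpow n
  refine ⟨?_, ?_, ?_, ?_⟩ <;> simp [h]

theorem qx_T (n : ℤ) (x : FF) : qx ((ModularGroup.T ^ n)⁻¹ • x) = tw (ee n) (qx x) := by
  obtain ⟨h1, h2, h3, h4⟩ := T_zpow_apply n
  rw [sl_smul, map_inv, qx_upper (by rw [sq_apply, h3]; simp)]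
  simp only [sq_apply, h1, h2, h4, Int.cast_one, div_one, sc_one]

theorem oc_T (n : ℤ) (x : FF) : oc (ModularGroup.T ^ n • x) = oc x := by
  rw [← inv_inv (ModularGroup.T ^ n), ← zpow_neg, oc, qx_T, order_tw]; rfl

/-- integrality of the order -/
theorem oc_int {h : ℤ} {x : FF} (hx : ModularGroup.T ^ h • x = x) : ∃ n : ℤ, h * oc x = n := by
  by_cases h0 : x = 0
  · exact ⟨0, by simp [h0, oc_zero]⟩
  have h1 := qx_T h x
  rw [inv_smul_eq_iff.mpr hx.symm] at h1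
  have h2 := congrArg (fun y : HS ℂ => y.coeff (oc x)) h1
  simp only [coeff_tw, ee_apply] at h2
  have h3 : (qx x).coeff (oc x) ≠ 0 := HahnSeries.coeff_order_eq_zero.not.mpr (qx_ne h0)
  have h4 : ex (oc x) ((h : ℚ) : ℂ) = 1 := by
    nth_rewrite 1 [← one_mul ((qx x).coeff (oc x))] at h2
    exact (mul_right_cancel₀ h3 h2).symm
  rw [ex, Complex.exp_eq_one_iff] at h4
  obtain ⟨n, hn⟩ := h4
  refine ⟨n, ?_⟩
  have h5 : (((h * oc x : ℚ)) : ℂ) = ((n : ℚ) : ℂ) := by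
    apply mul_left_cancel₀ Complex.two_pi_I_ne_zero
    push_cast at hn ⊢
    linear_combination hn
  exact_mod_cast h5

theorem smul_ne {g : SL(2, ℤ)} {x : FF} (hx : x ≠ 0) : g • x ≠ 0 := fun h =>
  hx (by rw [← inv_smul_smul g x, h, smul_zero])

theorem sl_const (g : SL(2, ℤ)) (c : ℂ) : g • algebraMap ℂ FF c = algebraMap ℂ FF c :=
  smul_algebraMap_FF _ c

/-- the valuation at the cusp `g ∞` -/
def vg (g : SL(2, ℤ)) : Valuation FF ℚᵐ⁰ :=
  vc.comap (MulSemiringAction.toRingHom SL(2, ℤ) FF g⁻¹)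

theorem vg_def (g : SL(2, ℤ)) (x : FF) : vg g x = vc (g⁻¹ • x) := rfl

theorem vg_apply (g : SL(2, ℤ)) {x : FF} (hx : x ≠ 0) : vg g x = exp (-oc (g⁻¹ • x)) :=
  vc_apply (smul_ne hx)

theorem vg_one (x : FF) : vg 1 x = vc x := by rw [vg_def, inv_one, one_smul]

theorem vg_inv_smul (g h : SL(2, ℤ)) (x : FF) : vg g (h⁻¹ • x) = vg (h * g) x := by
  rw [vg_def, vg_def, mul_inv_rev, mul_smul]

theorem vg_smul (g h : SL(2, ℤ)) (x : FF) : vg (h * g) (h • x) = vg g x := by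
  rw [← vg_inv_smul, inv_smul_smul]

theorem vc_T (n : ℤ) (x : FF) : vc (ModularGroup.T ^ n • x) = vc x := by
  by_cases hx : x = 0
  · simp [hx]
  · rw [vc_apply hx, vc_apply (smul_ne hx), oc_T]

theorem vg_mul_T (g : SL(2, ℤ)) (n : ℤ) (x : FF) : vg (g * ModularGroup.T ^ n) x = vg g x := by
  rw [vg_def, vg_def, mul_inv_rev, mul_smul, ← zpow_neg, vc_T]

theorem vg_neg (g : SL(2, ℤ)) (x : FF) : vg (-g) x = vg g x := by
  rw [vg_def, vg_def, ← neg_one_mul, mul_inv_rev, mul_smul,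
    inv_smul_eq_iff.mpr (neg_one_smul_FF x).symm]

theorem vg_const (g : SL(2, ℤ)) {c : ℂ} (hc : c ≠ 0) : vg g (algebraMap ℂ FF c) = 1 := by
  rw [vg_def, sl_const, vc_const hc]

/-! ### the function `j` -/

theorem jj_sub (c : ℂ) : jj - algebraMap ℂ FF c = quo (jn c) dl := by
  rw [jn, quo_sub one_ne_zero isF_e43 (isF_dl.smul c) isF_dl, quo_smul one_ne_zero isF_dl isF_dl,
    quo_self one_ne_zero isF_dl Mf.dl_ne_zero, mul_one, jj]

theorem jj_sub_ne (c : ℂ) : jj - algebraMap ℂ FF c ≠ 0 := by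
  rw [jj_sub, Ne, quo_eq_zero one_ne_zero (isF_jn c) isF_dl Mf.dl_ne_zero]
  exact jn_ne c

theorem jj_ne : jj ≠ 0 := by simpa using jj_sub_ne 0

theorem vz_jj_sub (z : ℍ) (c : ℂ) : vz z (jj - algebraMap ℂ FF c) = vM z (mer (jn c)) := by
  rw [jj_sub, vz_quo one_ne_zero (isF_jn c) isF_dl, (vM_mer_eq_one isF_dl.holo).mpr (Mf.dl_ne z),
    div_one]

theorem vz_jj_le (z : ℍ) : vz z jj ≤ 1 := by
  have := vz_jj_sub z 0
  rw [map_zero, sub_zero] at this
  rw [this]
  exact vM_mer_le z (isF_jn 0).holo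

theorem vz_jj_sub_lt {z : ℍ} {c : ℂ} :
    vz z (jj - algebraMap ℂ FF c) < 1 ↔ e4 z ^ 3 = c * dl z := by
  rw [vz_jj_sub, vM_mer_lt_one (isF_jn c).holo, jn, Pi.sub_apply, sub_eq_zero]
  rfl

theorem exists_vz_lt (z : ℍ) : ∃ c : ℂ, vz z (jj - algebraMap ℂ FF c) < 1 :=
  ⟨e4 z ^ 3 / dl z, vz_jj_sub_lt.mpr (div_mul_cancel₀ _ (Mf.dl_ne z)).symm⟩

theorem exists_point (c : ℂ) : ∃ z : ℍ, vz z (jj - algebraMap ℂ FF c) < 1 :=
  (j_onto c).imp fun _ h => vz_jj_sub_lt.mpr h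

theorem order_qf {M : ℕ} {k : ℤ} {F : ℍ → ℂ} (hM : M ≠ 0) (hF : IsF M k F) {n : ℕ}
    (h1 : PowerSeries.coeff n (qe M F) ≠ 0) (h2 : ∀ m < n, PowerSeries.coeff m (qe M F) = 0) :
    (qf F).order = (n : ℚ) / M := by
  refine order_eq (by rwa [coeff_qf hM hF]) fun s hs => ?_
  by_contra h
  obtain ⟨m, rfl⟩ := lev_qf hM hF s h
  rw [coeff_qf hM hF] at h
  have hM' : (0 : ℚ) < M := by exact_mod_cast Nat.pos_of_ne_zero hM
  exact h (h2 m (by exact_mod_cast (div_lt_div_iff_of_pos_right hM').mp hs))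

theorem order_qf_nonneg {M : ℕ} {k : ℤ} {F : ℍ → ℂ} (hM : M ≠ 0) (hF : IsF M k F) :
    0 ≤ (qf F).order := by
  by_cases h : qf F = 0
  · simp [h]
  obtain ⟨m, hm⟩ := lev_qf hM hF _ (HahnSeries.coeff_order_eq_zero.not.mpr h)
  rw [hm]; positivity

theorem order_e4 : (qf e4).order = 0 := by
  simpa using order_qf one_ne_zero isF_e4 (n := 0) (by rw [coeff_zero_e4]; exact one_ne_zero)
    (by simp)

theorem order_dl : (qf dl).order = 1 := by
  simpa using order_qf one_ne_zero isF_dl (n := 1) (by rw [coeff_one_dl]; exact one_ne_zero)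
    (fun m hm => by rw [Nat.lt_one_iff.mp hm, coeff_zero_dl])

theorem oc_jj : oc jj = -1 := by
  have h0 : (e4 ^ 3 : ℍ → ℂ) ≠ 0 := by simpa [jn] using jn_ne 0
  rw [jj, oc_quo one_ne_zero isF_e43 isF_dl h0 Mf.dl_ne_zero, qf_pow one_ne_zero isF_e4,
    HahnSeries.order_pow, order_e4, order_dl]
  simp

theorem vg_jj (g : SL(2, ℤ)) : vg g jj = exp 1 := by
  rw [vg_apply g jj_ne, sl_smul_jj, oc_jj, neg_neg]

theorem one_lt_vg_jj (g : SL(2, ℤ)) : 1 < vg g jj := by
  rw [vg_jj, ← exp_zero, exp_lt_exp]; norm_num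

end Crest.Agent.T15.Pl
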