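import Crest.Agent.T15.PlA_32
import Crest.Agent.R013.RR28_948

/-!
# T15 / PlB (helper32): the places `plz z`, `plc g` of a function field `K ⊆ FF` containing `j`

* `plz K z`, `plc K g : Pl ℂ K`; `under_plz`, `under_plc`;
* `Gal T θ`: `T / ℂ(j)` Galois, all automorphisms come from `SL(2,ℤ)`; `Gal.exists_plz`,
  `Gal.exists_plc`: every place of a subfield is some `plz z` or some `plc g`;
* `IsWd K g h` the width; `Gal.plc_log`: `log ((plc K g).v f) = - h * oc (g⁻¹ • f)`.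
-/

set_option autoImplicit false
set_option linter.all false

noncomputable section

namespace Crest.Agent.T15.Pl

open UpperHalfPlane hiding I
open WithZero ModularForm CongruenceSubgroup
open scoped MatrixGroups Manifold
open Crest.Agent.T15.Mf Crest.Agent.T15.Hs Crest.Agent.T15.Bet
open Crest.Agent.R013.RR7_948 Crest.Agent.R013.RR8_948 Crest.Agent.R013.RR9_948
open Crest.Agent.R013.RR11_948 Crest.Agent.R013.RR12_948 Crest.Agent.R013.RR13_948
open Crest.Agent.R013.RR18_948 Crest.Agent.R013.RR19_948 Crest.Agent.R013.RR20_948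
open Crest.Agent.R013.RR21_948 Crest.Agent.R013.RR22_948
open Crest.Agent.R013.RR28_948 (ratFunc_finite ratFunc_infinite v_C v_C_le)
open Crest.Agent.R013.GR2_921 (degP_eq_one)

/-- `K ⊆ FF` contains `j` -/
class HasJ (K : Type*) [Field K] [Algebra K FF] : Prop where
  out : ∃ j : K, algebraMap K FF j = jj

section K

variable (K : Type*) [Field K] [Algebra ℂ K] [Algebra (RatFunc ℂ) K]
  [IsScalarTower ℂ (RatFunc ℂ) K] [FiniteDimensional (RatFunc ℂ) K]
  [Algebra.IsSeparable (RatFunc ℂ) K] [Algebra K FF] [IsScalarTower ℂ K FF] [HasJ K]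

theorem exists_plz' (z : ℍ) : ∃ P : Pl ℂ K, P.v.IsEquiv ((vz z).comap (algebraMap K FF)) := by
  refine exists_place _ (fun c hc => ?_) ?_
  · rw [Valuation.comap_apply, ← IsScalarTower.algebraMap_apply, vz_const z hc]
  · obtain ⟨j, hj⟩ := HasJ.out (K := K)
    obtain ⟨c, hc⟩ := exists_vz_lt z
    refine ⟨j - algebraMap ℂ K c, ?_, ?_⟩
    · rw [Valuation.comap_apply, map_sub, hj, ← IsScalarTower.algebraMap_apply]
      exact (Valuation.ne_zero_iff _).mpr (jj_sub_ne c)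
    · rw [Valuation.comap_apply, map_sub, hj, ← IsScalarTower.algebraMap_apply]
      exact hc.ne

theorem exists_plc' (g : SL(2, ℤ)) :
    ∃ P : Pl ℂ K, P.v.IsEquiv ((vg g).comap (algebraMap K FF)) := by
  refine exists_place _ (fun c hc => ?_) ?_
  · rw [Valuation.comap_apply, ← IsScalarTower.algebraMap_apply, vg_const g hc]
  · obtain ⟨j, hj⟩ := HasJ.out (K := K)
    refine ⟨j, ?_, ?_⟩
    · rw [Valuation.comap_apply, hj, vg_jj]; exact exp_ne_zero
    · rw [Valuation.comap_apply, hj]; exact (one_lt_vg_jj g).ne'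

/-- the place of a point of `ℍ` -/
def plz (z : ℍ) : Pl ℂ K := (exists_plz' K z).choose

/-- the place of the cusp `g ∞` -/
def plc (g : SL(2, ℤ)) : Pl ℂ K := (exists_plc' K g).choose

theorem plz_isEquiv (z : ℍ) : (plz K z).v.IsEquiv ((vz z).comap (algebraMap K FF)) :=
  (exists_plz' K z).choose_spec

theorem plc_isEquiv (g : SL(2, ℤ)) : (plc K g).v.IsEquiv ((vg g).comap (algebraMap K FF)) :=
  (exists_plc' K g).choose_spec

variable {K}

theorem plz_le_one {z : ℍ} {f : K} : (plz K z).v f ≤ 1 ↔ vz z (algebraMap K FF f) ≤ 1 :=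
  (plz_isEquiv K z).le_one_iff_le_one

theorem plz_lt_one {z : ℍ} {f : K} : (plz K z).v f < 1 ↔ vz z (algebraMap K FF f) < 1 :=
  (plz_isEquiv K z).lt_one_iff_lt_one

theorem plz_eq_one {z : ℍ} {f : K} : (plz K z).v f = 1 ↔ vz z (algebraMap K FF f) = 1 :=
  (plz_isEquiv K z).eq_one_iff_eq_one

theorem plc_le_one' {g : SL(2, ℤ)} {f : K} : (plc K g).v f ≤ 1 ↔ vg g (algebraMap K FF f) ≤ 1 :=
  (plc_isEquiv K g).le_one_iff_le_one

theorem plc_lt_one' {g : SL(2, ℤ)} {f : K} : (plc K g).v f < 1 ↔ vg g (algebraMap K FF f) < 1 :=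
  (plc_isEquiv K g).lt_one_iff_lt_one

theorem map_ne {f : K} (hf : f ≠ 0) : algebraMap K FF f ≠ 0 := by simpa using hf

theorem plc_le_one {g : SL(2, ℤ)} {f : K} :
    (plc K g).v f ≤ 1 ↔ 0 ≤ oc (g⁻¹ • algebraMap K FF f) := by
  by_cases hf : f = 0
  · simp [hf, oc_zero]
  rw [plc_le_one', vg_apply g (map_ne hf), ← exp_zero, exp_le_exp, neg_nonpos]

theorem plc_lt_one {g : SL(2, ℤ)} {f : K} (hf : f ≠ 0) :
    (plc K g).v f < 1 ↔ 0 < oc (g⁻¹ • algebraMap K FF f) := by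
  rw [plc_lt_one', vg_apply g (map_ne hf), ← exp_zero, exp_lt_exp, neg_lt_zero]

theorem plz_j {j : K} (hj : algebraMap K FF j = jj) (z : ℍ) : (plz K z).v j ≤ 1 := by
  rw [plz_le_one, hj]; exact vz_jj_le z

theorem plc_j {j : K} (hj : algebraMap K FF j = jj) (g : SL(2, ℤ)) : 1 < (plc K g).v j := by
  rw [← not_le, plc_le_one', hj, not_le]; exact one_lt_vg_jj g

theorem plz_ne_plc (z : ℍ) (g : SL(2, ℤ)) : plz K z ≠ plc K g := fun h => by
  obtain ⟨j, hj⟩ := HasJ.out (K := K)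
  have := plz_j hj z
  rw [h] at this
  exact this.not_gt (plc_j hj g)

/-- with a uniformiser in `K` the place is `vz z` itself -/
theorem plz_v {z : ℍ} (h : ∃ x : K, vz z (algebraMap K FF x) = exp (-1)) (f : K) :
    (plz K z).v f = vz z (algebraMap K FF f) := by
  obtain ⟨x, hx⟩ := h
  have hs : Function.Surjective ((vz z).comap (algebraMap K FF)) := fun y => by
    by_cases hy : y = 0
    · exact ⟨0, by rw [map_zero, hy]⟩
    · refine ⟨x ^ (-log y), ?_⟩
      rw [map_zpow₀, Valuation.comap_apply, hx, ← exp_zsmul, smul_eq_mul, neg_mul_neg, mul_one,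
        exp_log hy]
  rw [eq_of_isEquiv_surj (plz_isEquiv K z) (plz K z).surj hs]; rfl

theorem plz_smul {γ : SL(2, ℤ)} (h : ∀ x : K, γ • algebraMap K FF x = algebraMap K FF x) (z : ℍ) :
    plz K (γ • z) = plz K z :=
  pl_eq_of_le fun f hf => by
    rw [plz_le_one] at hf ⊢
    rwa [← h f, vz_smul] at hf

theorem plc_mul {γ : SL(2, ℤ)} (h : ∀ x : K, γ • algebraMap K FF x = algebraMap K FF x)
    (g : SL(2, ℤ)) : plc K (γ * g) = plc K g :=
  pl_eq_of_le fun f hf => by
    rw [plc_le_one'] at hf ⊢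
    rwa [← h f, vg_smul] at hf

theorem plc_mul_T (g : SL(2, ℤ)) (n : ℤ) : plc K (g * ModularGroup.T ^ n) = plc K g :=
  pl_eq_of_le fun f hf => by
    rw [plc_le_one'] at hf ⊢
    rwa [vg_mul_T] at hf

theorem plc_neg (g : SL(2, ℤ)) : plc K (-g) = plc K g :=
  pl_eq_of_le fun f hf => by
    rw [plc_le_one'] at hf ⊢
    rwa [vg_neg] at hf

/-- the normalisation of `plc` through `j` -/
theorem plc_log' {j : K} (hj : algebraMap K FF j = jj) (g : SL(2, ℤ)) (f : K) :
    ((log ((plc K g).v f) : ℤ) : ℚ) =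
      -(((log ((plc K g).v j) : ℤ) : ℚ) * oc (g⁻¹ • algebraMap K FF f)) := by
  by_cases hf : f = 0
  · simp [hf, oc_zero]
  obtain ⟨t, ht0, ht⟩ := exists_v_eq (plc K g) (-1)
  have hj0 : j ≠ 0 := by rintro rfl; exact jj_ne (by rw [← hj, map_zero])
  have key : ∀ y : K, y ≠ 0 → oc (g⁻¹ • algebraMap K FF y) =
      -(log ((plc K g).v y)) * oc (g⁻¹ • algebraMap K FF t) := fun y hy => by
    have h1 := eq_zpow_of_isEquiv (plc_isEquiv K g) ht
      (exp_log ((Valuation.ne_zero_iff (plc K g).v).mpr hy)).symm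
    rw [Valuation.comap_apply, Valuation.comap_apply, vg_apply g (map_ne hy),
      vg_apply g (map_ne ht0), ← exp_zsmul, exp_inj, zsmul_eq_mul] at h1
    push_cast at h1
    linear_combination -h1
  have h1 := key j hj0
  rw [hj, sl_smul_jj, oc_jj] at h1
  rw [key f hf]
  linear_combination (-((log ((plc K g).v f) : ℤ) : ℚ)) * h1

/-- the ramification index at a cusp divides every period -/
theorem plc_dvd {j : K} (hj : algebraMap K FF j = jj) (g : SL(2, ℤ)) {h : ℤ}
    (hh : ∀ x : K, (g * ModularGroup.T ^ h * g⁻¹) • algebraMap K FF x = algebraMap K FF x) :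
    log ((plc K g).v j) ∣ h := by
  obtain ⟨t, ht0, ht⟩ := exists_v_eq (plc K g) (-1)
  have h1 := plc_log' hj g t
  obtain ⟨n, hn⟩ := oc_int (h := h) (x := g⁻¹ • algebraMap K FF t) (by
    rw [← mul_smul, eq_comm, inv_smul_eq_iff, ← mul_smul, ← mul_assoc, hh])
  rw [ht, log_exp] at h1
  refine ⟨n, ?_⟩
  have : (h : ℚ) = ((log ((plc K g).v j) : ℤ) : ℚ) * n := by
    push_cast at h1
    rw [← hn]
    linear_combination (-h : ℚ) * h1
  exact_mod_cast this

variable (K) in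
/-- `h` is the width of the cusp `g ∞` for `K` -/
def IsWd (g : SL(2, ℤ)) (h : ℕ) : Prop :=
  ∀ n : ℤ, (∀ x : K, (g * ModularGroup.T ^ n * g⁻¹) • algebraMap K FF x = algebraMap K FF x) ↔
    (h : ℤ) ∣ n

end K

section tower

variable {K L : Type*} [Field K] [Algebra ℂ K] [Algebra (RatFunc ℂ) K]
  [IsScalarTower ℂ (RatFunc ℂ) K] [FiniteDimensional (RatFunc ℂ) K]
  [Algebra.IsSeparable (RatFunc ℂ) K] [Algebra K FF] [IsScalarTower ℂ K FF] [HasJ K]
  [Field L] [Algebra ℂ L] [Algebra (RatFunc ℂ) L]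
  [IsScalarTower ℂ (RatFunc ℂ) L] [FiniteDimensional (RatFunc ℂ) L]
  [Algebra.IsSeparable (RatFunc ℂ) L] [Algebra L FF] [IsScalarTower ℂ L FF] [HasJ L]
  [Algebra K L] [IsScalarTower ℂ K L] [IsScalarTower K L FF] [FiniteDimensional K L]

theorem under_plz (z : ℍ) : under K (plz L z) = plz K z :=
  under_eq_iff_le.mpr fun f hf => by
    rw [plz_le_one] at hf ⊢
    rwa [← IsScalarTower.algebraMap_apply]

theorem under_plc (g : SL(2, ℤ)) : under K (plc L g) = plc K g :=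
  under_eq_iff_le.mpr fun f hf => by
    rw [plc_le_one'] at hf ⊢
    rwa [← IsScalarTower.algebraMap_apply]

/-- no ramification at `z` when the small field has a uniformiser -/
theorem eR_plz {z : ℍ} (h : ∃ x : K, vz z (algebraMap K FF x) = exp (-1)) :
    eR K (plz L z) = 1 := by
  obtain ⟨x, hx⟩ := h
  have h1 : (under K (plz L z)).v x = exp (-1) := by rw [under_plz, plz_v ⟨x, hx⟩, hx]
  have h2 := v_algebraMap_exp (plz L z) h1
  have h3 : vz z (algebraMap L FF (algebraMap K L x)) = exp (-1) := by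
    rw [← IsScalarTower.algebraMap_apply, hx]
  rw [plz_v ⟨_, h3⟩, h3, exp_inj] at h2
  omega

end tower

section Gal

variable {T : Type*} [Field T] [Algebra ℂ T] [Algebra (RatFunc ℂ) T]
  [IsScalarTower ℂ (RatFunc ℂ) T] [FiniteDimensional (RatFunc ℂ) T]
  [Algebra T FF] [IsScalarTower ℂ T FF] [HasJ T] [IsGalois (RatFunc ℂ) T]

/-- `T / ℂ(j)` is Galois and all automorphisms come from `SL(2,ℤ)` -/
structure Gal (θ : SL(2, ℤ) →* (T ≃ₐ[RatFunc ℂ] T)) : Prop where
  hj : algebraMap T FF (xK ℂ T) = jj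
  surj : Function.Surjective θ
  comm : ∀ g x, algebraMap T FF (θ g x) = g • algebraMap T FF x

variable {θ : SL(2, ℤ) →* (T ≃ₐ[RatFunc ℂ] T)}

theorem Gal.symm (H : Gal θ) (g : SL(2, ℤ)) (x : T) :
    algebraMap T FF (((θ g).restrictScalars ℂ).symm x) = g⁻¹ • algebraMap T FF x := by
  rw [← H.comm, map_inv]; rfl

theorem Gal.mapPl_plz (H : Gal θ) (g : SL(2, ℤ)) (z : ℍ) :
    mapPl ((θ g).restrictScalars ℂ) (plz T z) = plz T (g • z) :=
  pl_eq_of_le fun f hf => by
    rw [mapPl_v, plz_le_one, H.symm, vz_inv_smul] at hf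
    rwa [plz_le_one]

theorem Gal.mapPl_plc (H : Gal θ) (g h : SL(2, ℤ)) :
    mapPl ((θ g).restrictScalars ℂ) (plc T h) = plc T (g * h) :=
  pl_eq_of_le fun f hf => by
    rw [mapPl_v, plc_le_one', H.symm, vg_inv_smul] at hf
    rwa [plc_le_one']

theorem Gal.exists_plz0 (H : Gal θ) (Q : Pl ℂ T) (hQ : Q.v (xK ℂ T) ≤ 1) : ∃ z, Q = plz T z := by
  have h1 : (under (RatFunc ℂ) Q).v RatFunc.X ≤ 1 := (under_le_one_iff Q _).mpr hQ
  obtain ⟨a, ha, ha'⟩ := ratFunc_finite _ h1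
  obtain ⟨z, hz⟩ := exists_point a
  have h2 : under (RatFunc ℂ) (plz T z) = under (RatFunc ℂ) Q := by
    by_contra hne
    have h3 := ha' _ hne ((under_le_one_iff _ _).mpr (plz_j H.hj z))
    have h4 : (under (RatFunc ℂ) (plz T z)).v (RatFunc.X - RatFunc.C a) < 1 := by
      rw [under_lt_one_iff, plz_lt_one, map_sub, map_sub, ← RatFunc.algebraMap_eq_C,
        ← IsScalarTower.algebraMap_apply ℂ (RatFunc ℂ) T, ← IsScalarTower.algebraMap_apply ℂ T FF]
      have := H.hj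
      rw [xK] at this
      rwa [this]
    exact h4.ne h3
  obtain ⟨σ, hσ⟩ := exists_mapPl_eq h2
  obtain ⟨g, rfl⟩ := H.surj σ
  exact ⟨g • z, by rw [← hσ, H.mapPl_plz]⟩

theorem Gal.exists_plc0 (H : Gal θ) (Q : Pl ℂ T) (hQ : 1 < Q.v (xK ℂ T)) : ∃ g, Q = plc T g := by
  have key : ∀ R : Pl ℂ T, 1 < R.v (xK ℂ T) → 1 < (under (RatFunc ℂ) R).v RatFunc.X :=
    fun R hR => not_le.mp fun h => hR.not_ge ((under_le_one_iff R _).mp h)
  have h2 : under (RatFunc ℂ) (plc T 1) = under (RatFunc ℂ) Q :=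
    (ratFunc_infinite _ (key Q hQ)).2 _ (key _ (plc_j H.hj 1))
  obtain ⟨σ, hσ⟩ := exists_mapPl_eq h2
  obtain ⟨g, rfl⟩ := H.surj σ
  exact ⟨g * 1, by rw [← hσ, H.mapPl_plc]⟩

variable {K : Type*} [Field K] [Algebra ℂ K] [Algebra (RatFunc ℂ) K]
  [IsScalarTower ℂ (RatFunc ℂ) K] [FiniteDimensional (RatFunc ℂ) K]
  [Algebra.IsSeparable (RatFunc ℂ) K] [Algebra K FF] [IsScalarTower ℂ K FF] [HasJ K]
  [Algebra K T] [IsScalarTower ℂ K T] [IsScalarTower K T FF] [FiniteDimensional K T]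
  [Algebra.IsSeparable K T]

theorem Gal.map_j (H : Gal θ) {j : K} (hj : algebraMap K FF j = jj) :
    algebraMap K T j = xK ℂ T :=
  (algebraMap T FF).injective (by rw [← IsScalarTower.algebraMap_apply, hj, H.hj])

/-- **every place without a pole of `j` comes from a point of `ℍ`** -/
theorem Gal.exists_plz (H : Gal θ) {j : K} (hj : algebraMap K FF j = jj) (P : Pl ℂ K)
    (hP : P.v j ≤ 1) : ∃ z, P = plz K z := by
  obtain ⟨Q, hQ⟩ := above_nonempty (L := T) P
  rw [mem_above] at hQ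
  subst hQ
  rw [under_le_one_iff, H.map_j hj] at hP
  obtain ⟨z, rfl⟩ := H.exists_plz0 Q hP
  exact ⟨z, under_plz z⟩

/-- **every pole of `j` is a cusp** -/
theorem Gal.exists_plc (H : Gal θ) {j : K} (hj : algebraMap K FF j = jj) (P : Pl ℂ K)
    (hP : 1 < P.v j) : ∃ g, P = plc K g := by
  obtain ⟨Q, hQ⟩ := above_nonempty (L := T) P
  rw [mem_above] at hQ
  subst hQ
  rw [← not_le, under_le_one_iff, H.map_j hj, not_le] at hP
  obtain ⟨g, rfl⟩ := H.exists_plc0 Q hP
  exact ⟨g, under_plc g⟩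

/-! ### the ramification index at a cusp is the width -/

open Classical in
theorem card_stab {K' : Type*} [Field K'] [Algebra ℂ K'] [Algebra (RatFunc ℂ) K']
    [IsScalarTower ℂ (RatFunc ℂ) K'] [FiniteDimensional (RatFunc ℂ) K']
    [Algebra.IsSeparable (RatFunc ℂ) K'] [Algebra K' T] [IsScalarTower ℂ K' T]
    [IsScalarTower (RatFunc ℂ) K' T] [FiniteDimensional K' T] [IsGalois K' T] (Q : Pl ℂ T) :
    (Finset.univ.filter fun g : T ≃ₐ[K'] T => mapPl (g.restrictScalars ℂ) Q = Q).card =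
      eR K' Q := by
  have h := sum_galois (K := K') Q fun R => if R = Q then 1 else 0
  rw [Finset.sum_ite_eq' , if_pos (mem_above.2 rfl), degP_eq_one, degP_eq_one,
    Finset.sum_boole] at h
  simp only [Nat.cast_one, mul_one, one_mul] at h
  exact_mod_cast h.symm

theorem Gal.eq_one_iff (H : Gal θ) (γ : SL(2, ℤ)) :
    θ γ = 1 ↔ ∀ x : T, γ • algebraMap T FF x = algebraMap T FF x :=
  ⟨fun h x => by rw [← H.comm, h]; rfl, fun h => AlgEquiv.ext fun x =>
    (algebraMap T FF).injective (by rw [H.comm, h]; rfl)⟩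

theorem conj_zpow' (g : SL(2, ℤ)) (n : ℤ) :
    (g * ModularGroup.T * g⁻¹) ^ n = g * ModularGroup.T ^ n * g⁻¹ := conj_zpow

theorem Gal.isWd (H : Gal θ) (g : SL(2, ℤ)) :
    IsWd T g (orderOf (θ (g * ModularGroup.T * g⁻¹))) := fun n => by
  rw [← H.eq_one_iff, ← conj_zpow', map_zpow, orderOf_dvd_iff_zpow_eq_one]

theorem Gal.fix (H : Gal θ) (g : SL(2, ℤ)) (n : ℤ) :
    mapPl ((θ (g * ModularGroup.T * g⁻¹) ^ n).restrictScalars ℂ) (plc T g) = plc T g := by
  rw [← map_zpow, conj_zpow', H.mapPl_plc, inv_mul_cancel_right, plc_mul_T]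

theorem Gal.log_j (H : Gal θ) (g : SL(2, ℤ)) :
    log ((plc T g).v (xK ℂ T)) = eR (RatFunc ℂ) (plc T g) := by
  have h1 : 1 < (under (RatFunc ℂ) (plc T g)).v RatFunc.X :=
    not_le.mp fun h => (plc_j H.hj g).not_ge ((under_le_one_iff _ _).mp h)
  have h2 := v_algebraMap_exp (plc T g) (ratFunc_infinite _ h1).1
  rw [map_inv₀, map_inv₀, inv_eq_iff_eq_inv, ← exp_neg] at h2
  rw [xK, h2, log_exp]; ring

/-- the stabiliser of a cusp is generated by the conjugate of `T` -/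
theorem Gal.stab (H : Gal θ) (g : SL(2, ℤ)) :
    eR (RatFunc ℂ) (plc T g) = orderOf (θ (g * ModularGroup.T * g⁻¹)) ∧
    ∀ σ : T ≃ₐ[RatFunc ℂ] T, mapPl (σ.restrictScalars ℂ) (plc T g) = plc T g →
      ∃ n : ℕ, σ = θ (g * ModularGroup.T * g⁻¹) ^ n := by
  classical
  set t := θ (g * ModularGroup.T * g⁻¹) with ht
  have h1 : eR (RatFunc ℂ) (plc T g) ≤ orderOf t := by
    have := plc_dvd H.hj g (((H.isWd g) _).mpr dvd_rfl)
    rw [H.log_j, Int.natCast_dvd_natCast] at this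
    exact Nat.le_of_dvd (orderOf_pos t) this
  have hsub : (Finset.range (orderOf t)).image (t ^ ·) ⊆ Finset.univ.filter
      fun σ : T ≃ₐ[RatFunc ℂ] T => mapPl (σ.restrictScalars ℂ) (plc T g) = plc T g := by
    intro x hx
    obtain ⟨n, -, rfl⟩ := Finset.mem_image.1 hx
    exact Finset.mem_filter.2 ⟨Finset.mem_univ _, by have := H.fix g n; rwa [zpow_natCast] at this⟩
  have hc : ((Finset.range (orderOf t)).image (t ^ ·)).card = orderOf t := by
    rw [Finset.card_image_of_injOn, Finset.card_range]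
    rw [Finset.coe_range]
    exact pow_injOn_Iio_orderOf
  have h2 := card_stab (K' := RatFunc ℂ) (plc T g)
  have h3 := Finset.card_le_card hsub
  refine ⟨by omega, fun σ hσ => ?_⟩
  have heq := Finset.eq_of_subset_of_card_le hsub (by omega)
  have : σ ∈ (Finset.range (orderOf t)).image (t ^ ·) := by
    rw [heq]; exact Finset.mem_filter.2 ⟨Finset.mem_univ _, hσ⟩
  obtain ⟨n, -, rfl⟩ := Finset.mem_image.1 this
  exact ⟨n, rfl⟩

/-- two cusps give the same place of `T` -/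
theorem Gal.plc_eq_iff0 (H : Gal θ) {g g' : SL(2, ℤ)} (h : plc T g' = plc T g) :
    ∃ n : ℤ, θ g' = θ (g * ModularGroup.T ^ n) := by
  obtain ⟨n, hn⟩ := (H.stab g).2 (θ (g' * g⁻¹)) (by rw [H.mapPl_plc, inv_mul_cancel_right, h])
  refine ⟨n, ?_⟩
  rw [← zpow_natCast, ← map_zpow, conj_zpow', map_mul, map_mul θ (g * _), mul_left_inj] at hn
  exact hn

variable [IsScalarTower (RatFunc ℂ) K T]

theorem Gal.hjK (H : Gal θ) : algebraMap K FF (xK ℂ K) = jj := by
  rw [IsScalarTower.algebraMap_apply K T FF, algebraMap_xK, H.hj]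

/-- an element of `SL(2,ℤ)` fixing `K` as an automorphism of `T / K` -/
def Gal.aut (H : Gal θ) {γ : SL(2, ℤ)}
    (h : ∀ x : K, γ • algebraMap K FF x = algebraMap K FF x) : T ≃ₐ[K] T :=
  AlgEquiv.ofRingEquiv (f := (θ γ).toRingEquiv) fun x => (algebraMap T FF).injective (by
    rw [← IsScalarTower.algebraMap_apply, ← h x, IsScalarTower.algebraMap_apply K T FF, ← H.comm]
    rfl)

theorem Gal.fixes (H : Gal θ) {γ : SL(2, ℤ)} {σ : T ≃ₐ[K] T}
    (h : σ.restrictScalars (RatFunc ℂ) = θ γ) (x : K) :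
    γ • algebraMap K FF x = algebraMap K FF x := by
  rw [IsScalarTower.algebraMap_apply K T FF, ← H.comm, ← h]
  exact congrArg _ (σ.commutes x)

/-- **the pole order of `j` at a cusp is the width** -/
theorem Gal.plc_v_j (H : Gal θ) {g : SL(2, ℤ)} {h : ℕ} (hw : IsWd K g h) :
    (plc K g).v (xK ℂ K) = exp (h : ℤ) := by
  classical
  haveI : IsGalois K T := IsGalois.tower_top_of_isGalois (RatFunc ℂ) K T
  obtain ⟨h1, h2⟩ := H.stab g
  set t := θ (g * ModularGroup.T * g⁻¹) with ht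
  set e := log ((plc K g).v (xK ℂ K)) with he
  have he' : (plc K g).v (xK ℂ K) = exp e :=
    (exp_log ((Valuation.ne_zero_iff _).mpr xK_ne_zero)).symm
  have hepos : 0 < e := by
    have := plc_j (H.hjK (K := K)) g
    rwa [he', ← exp_zero, exp_lt_exp] at this
  have h3 : (orderOf t : ℤ) = eR K (plc T g) * e := by
    have := v_algebraMap_exp (K := K) (plc T g) (f := xK ℂ K) (n := e) (by rw [under_plc, he'])
    rw [← h1, ← H.log_j, ← algebraMap_xK (K := K), this, log_exp]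
  have h4 : e ∣ h := plc_dvd (H.hjK (K := K)) g ((hw h).mpr dvd_rfl)
  obtain ⟨m, hm⟩ : h ∣ orderOf t := by
    rw [← Int.natCast_dvd_natCast, ← hw]
    intro x
    rw [IsScalarTower.algebraMap_apply K T FF]
    exact ((H.isWd g) _).mpr dvd_rfl _
  have hpos := orderOf_pos t
  have hh : 0 < h := Nat.pos_of_ne_zero (by rintro rfl; omega)
  have hm0 : 0 < m := Nat.pos_of_ne_zero (by rintro rfl; omega)
  set τ : T ≃ₐ[K] T := H.aut ((hw h).mpr dvd_rfl) with hτ
  have hτ1 : τ.restrictScalars (RatFunc ℂ) = t ^ h := by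
    rw [ht, ← zpow_natCast, ← map_zpow, conj_zpow']; rfl
  have hτ2 : ∀ n : ℕ, (τ ^ n).restrictScalars (RatFunc ℂ) = t ^ (h * n) := fun n => by
    induction n with
    | zero => rfl
    | succ n ih => rw [pow_succ, mul_add, mul_one, pow_add, ← ih, ← hτ1]; rfl
  have hsub : (Finset.univ.filter fun σ : T ≃ₐ[K] T =>
      mapPl (σ.restrictScalars ℂ) (plc T g) = plc T g) ⊆ (Finset.range m).image (τ ^ ·) := by
    intro σ hσ
    obtain ⟨n, hn⟩ := h2 (σ.restrictScalars (RatFunc ℂ)) (Finset.mem_filter.1 hσ).2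
    obtain ⟨c, rfl⟩ : h ∣ n := by
      rw [← Int.natCast_dvd_natCast, ← hw]
      refine H.fixes (σ := σ) ?_
      rw [hn, ← conj_zpow', map_zpow, zpow_natCast]
    refine Finset.mem_image.2 ⟨c % m, Finset.mem_range.2 (Nat.mod_lt _ hm0), ?_⟩
    apply AlgEquiv.restrictScalars_injective (RatFunc ℂ)
    rw [hτ2, hn, ← Nat.mul_mod_mul_left, ← hm, pow_mod_orderOf]
  have h5 : eR K (plc T g) ≤ m := by
    rw [← card_stab (K' := K)]
    exact (Finset.card_le_card hsub).trans (Finset.card_image_le.trans (Finset.card_range m).le)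
  have h6 : e ≤ h := Int.le_of_dvd (by exact_mod_cast hh) h4
  have h7 : (h : ℤ) ≤ e := by
    rw [hm] at h3
    push_cast at h3
    have h8 : (eR K (plc T g) : ℤ) ≤ m := by exact_mod_cast h5
    have h9 : (0 : ℤ) < m := by exact_mod_cast hm0
    nlinarith
  rw [he', le_antisymm h6 h7]

/-- **the order at a cusp is the width times the order of the `q`-expansion** -/
theorem Gal.plc_log (H : Gal θ) {g : SL(2, ℤ)} {h : ℕ} (hw : IsWd K g h) (f : K) :
    ((log ((plc K g).v f) : ℤ) : ℚ) = -(h * oc (g⁻¹ • algebraMap K FF f)) := by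
  rw [plc_log' (H.hjK (K := K)), H.plc_v_j hw, log_exp, Int.cast_natCast]

theorem Gal.exists_wd (H : Gal θ) (g : SL(2, ℤ)) : ∃ h : ℕ, 0 < h ∧ IsWd K g h := by
  let S : AddSubgroup ℤ :=
    { carrier := {n | ∀ x : K,
        (g * ModularGroup.T ^ n * g⁻¹) • algebraMap K FF x = algebraMap K FF x}
      zero_mem' := fun x => by simp
      add_mem' := fun {a b} ha hb x => by
        rw [← conj_zpow', zpow_add, mul_smul, conj_zpow', conj_zpow', hb, ha]
      neg_mem' := fun {a} ha x => by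
        rw [← conj_zpow', zpow_neg, inv_smul_eq_iff, conj_zpow', ha] }
  obtain ⟨a, ha⟩ := Int.subgroup_cyclic S
  have hw : IsWd K g a.natAbs := fun n => by
    show n ∈ S ↔ _
    rw [ha, AddSubgroup.mem_closure_singleton, Int.natAbs_dvd]
    exact ⟨fun ⟨m, hm⟩ => ⟨m, by rw [← hm, smul_eq_mul, mul_comm]⟩,
      fun ⟨m, hm⟩ => ⟨m, by rw [hm, smul_eq_mul, mul_comm]⟩⟩
  refine ⟨a.natAbs, Nat.pos_of_ne_zero fun h0 => ?_, hw⟩
  have h1 := (hw (orderOf (θ (g * ModularGroup.T * g⁻¹)) : ℕ)).mp fun x => by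
    rw [IsScalarTower.algebraMap_apply K T FF]
    exact ((H.isWd g) _).mpr dvd_rfl _
  rw [h0, Nat.cast_zero, zero_dvd_iff, Nat.cast_eq_zero] at h1
  exact (orderOf_pos _).ne' h1

/-- two cusps give the same place of `K` -/
theorem Gal.plc_eq (H : Gal θ) {g g' : SL(2, ℤ)} (h : plc K g' = plc K g) :
    ∃ (γ : SL(2, ℤ)) (n : ℤ), (∀ x : K, γ • algebraMap K FF x = algebraMap K FF x) ∧
      g' = γ * g * ModularGroup.T ^ n := by
  haveI : IsGalois K T := IsGalois.tower_top_of_isGalois (RatFunc ℂ) K T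
  obtain ⟨σ, hσ⟩ := exists_mapPl_eq (K := K) (Q := plc T g) (Q' := plc T g')
    (by rw [under_plc, under_plc, h])
  obtain ⟨γ, hγ⟩ := H.surj (σ.restrictScalars (RatFunc ℂ))
  have h1 : plc T g' = plc T (γ * g) := by rw [← hσ, ← H.mapPl_plc, hγ]; rfl
  obtain ⟨n, hn⟩ := H.plc_eq_iff0 h1
  refine ⟨g' * (g * ModularGroup.T ^ n)⁻¹, n, H.fixes (σ := σ) ?_, by group⟩
  rw [← hγ, map_mul, map_inv, hn, mul_assoc, map_mul θ γ, mul_inv_cancel_right]

end Gal

end Crest.Agent.T15.Pl
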