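import Mathlib
import Crest.Agent.R018.Places_484

/-!
# Row 15 (helper11): the place of a valuation on a field of algebraic numbers
-/

set_option autoImplicit false
set_option linter.all false

namespace Crest.Agent.T15.Id

open NumberField Crest.Agent.R018.Placesx484
open scoped NNReal

variable {E : Type*} [Field E]

theorem v_int11 (v : Valuation E ℝ≥0) (x : 𝓞 E) : v (x : E) ≤ 1 := by
  have h1 : IsIntegral v.integer (x : E) := x.2.tower_top
  exact (Valuation.integer.integers v).mem_of_integral h1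

theorem exists_place11 [CharZero E] (v : Valuation E ℝ≥0) {p : ℕ} (hp : p.Prime) (h : v p < 1) :
    ∃ Q : Place E, Q.rchar = p ∧ ∀ x : 𝓞 E, x ∈ Q.ideal ↔ v (x : E) < 1 := by
  let I : Ideal (𝓞 E) :=
    { carrier := {x | v (x : E) < 1}
      add_mem' := fun {a b} ha hb => by
        change v ((a + b : 𝓞 E) : E) < 1
        push_cast
        exact Valuation.map_add_lt _ ha hb
      zero_mem' := by change v ((0 : 𝓞 E) : E) < 1; simp
      smul_mem' := fun c x hx => by
        change v ((c * x : 𝓞 E) : E) < 1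
        push_cast
        rw [map_mul]
        exact mul_lt_one_of_nonneg_of_lt_one_right (v_int11 v c) zero_le' hx }
  have hI : ∀ x : 𝓞 E, x ∈ I ↔ v (x : E) < 1 := fun _ => Iff.rfl
  have hpI : (p : 𝓞 E) ∈ I := by rw [hI]; simpa using h
  let Q : Place E := ⟨I, ⟨fun h1 => by
      have : (1 : 𝓞 E) ∈ I := h1 ▸ Submodule.mem_top
      rw [hI] at this; simp at this, fun {a b} hab => by
      rw [hI] at hab
      push_cast at hab
      rw [map_mul] at hab
      by_contra hc
      rw [hI, hI, not_or, not_lt, not_lt] at hc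
      rw [le_antisymm (v_int11 v a) hc.1, le_antisymm (v_int11 v b) hc.2, mul_one] at hab
      exact lt_irrefl _ hab⟩, fun h1 => by
      rw [h1, Ideal.mem_bot] at hpI
      exact hp.ne_zero (by exact_mod_cast hpI)⟩
  exact ⟨Q, (Nat.prime_dvd_prime_iff_eq Q.rchar_prime hp).mp ((Q.natCast_mem_iff p).mp hpI), hI⟩

/-- body of `PlS90` -/
theorem plS11 [CharZero E] [Algebra ℚ E] (v : Valuation E ℝ≥0) (p : ℕ) (s : E ≃+* E) (hp : p.Prime)
    (h : v p < 1) (hs : ∀ a, v a ≤ 1 → v (s a - a ^ p) < 1) :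
    ∃ (Q : Place E) (σ : E ≃ₐ[ℚ] E), Q.rchar = p ∧
      (∀ x : 𝓞 E, σ • x - x ^ Q.rchar ∈ Q.ideal) ∧ ∀ c, s c = σ c := by
  obtain ⟨Q, h1, h2⟩ := exists_place11 v hp h
  have h3 : ∀ q, s (algebraMap ℚ E q) = algebraMap ℚ E q := fun q => by
    rw [eq_ratCast (algebraMap ℚ E) q]; exact map_ratCast s q
  refine ⟨Q, { s with commutes' := fun q => h3 q }, h1, fun x => ?_, fun _ => rfl⟩
  rw [h2, h1]
  exact hs _ (v_int11 v x)

end Crest.Agent.T15.Id
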