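import Crest.Agent.T15.QHb_22

/-!
# Row 15, block Q: (H5), `CMStmt → HGStmt` (helper22)
-/

set_option autoImplicit false

noncomputable section

namespace Crest.Agent.T15.Q.Hg

open WeierstrassCurve WeierstrassCurve.Affine

variable {δ π : ℂ}

abbrev Gs (δ : ℂ) := MulAction.stabilizer (ℂ ≃ₐ[ℚ] ℂ) δ

def act (σ : ℂ →ₐ[ℚ] ℂ) : EC.Point →+ EC.Point := Point.map (W' := EE) σ

def cj : ℂ →ₐ[ℚ] ℂ := (Complex.conjAe.restrictScalars ℚ).toAlgHom

theorem cj_apply (x : ℂ) : cj x = (starRingEnd ℂ) x := rfl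

theorem act_some (σ : ℂ →ₐ[ℚ] ℂ) {x y : ℂ} (h : EC.Nonsingular x y) :
    ∃ h', act σ (.some x y h) = .some (σ x) (σ y) h' := ⟨_, rfl⟩

theorem act_eq {σ : ℂ →ₐ[ℚ] ℂ} {x y x' y' : ℂ} {h : EC.Nonsingular x y} {h' : EC.Nonsingular x' y'} :
    act σ (.some x y h) = .some x' y' h' ↔ σ x = x' ∧ σ y = y' := by
  obtain ⟨_, e⟩ := act_some σ h
  rw [e, Point.some.injEq]

theorem act_PP (σ : ℂ →ₐ[ℚ] ℂ) {s b s' b' : ℂ} (h : s ^ 4 + b ^ 2 = 1) (hs : s ≠ 0)
    (h' : s' ^ 4 + b' ^ 2 = 1) (hs' : s' ≠ 0) (e1 : σ s = s') (e2 : σ b = b') :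
    act σ (PP s b h hs) = PP s' b' h' hs' :=
  act_eq.2 ⟨by simp [e1, e2, map_ofNat], by simp [e1, e2, map_ofNat]⟩

/-- the end of the argument: two conjugate points whose sum is sent to `T₂ - ·` by conjugation -/
theorem D0_of_points {p q : ℕ} (hp : p.Prime) (hq : q.Prime) (h5 : p % 8 = 5) (h3 : q % 8 = 3)
    (hδ : δ ^ 2 = -(p * q)) (hπ : π ^ 2 = p) {y1 y2 : EC.Point} (σ0 : Gs δ)
    (h0 : act σ0.1 y1 = y2)
    (hσ : ∀ σ : Gs δ, (σ.1 π = π ∧ act σ.1 y1 = y1 ∧ act σ.1 y2 = y2) ∨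
      (σ.1 π = -π ∧ act σ.1 y1 = y2 ∧ act σ.1 y2 = y1))
    (hc : act cj (y1 + y2) = T2 - (y1 + y2)) : D0 p q := by
  have hn : (0 : ℚ) < (p * q : ℕ) := by exact_mod_cast Nat.mul_pos hp.pos hq.pos
  have hδ' : δ ^ 2 = -((p * q : ℕ) : ℚ) := by rw [hδ]; push_cast; ring
  have π0 : π ≠ 0 := by rintro rfl; exact hp.ne_zero (by simpa using hπ.symm)
  have n0 : y1 + y2 ≠ 0 := fun e => by rw [e, map_zero, sub_zero] at hc; exact T2_ne hc.symm
  have hfix : ∀ σ : Gs δ, act σ.1 (y1 + y2) = y1 + y2 := fun σ => by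
    rcases hσ σ with ⟨-, a, b⟩ | ⟨-, a, b⟩ <;> rw [map_add, a, b]
    exact add_comm _ _
  obtain _ | ⟨x₁, y₁, h₁⟩ := y1
  · exact absurd (by rw [← h0, ← Point.zero_def, map_zero, add_zero]) n0
  obtain ⟨h₂, e₂⟩ := act_some σ0.1 h₁
  obtain rfl := e₂.symm.trans h0
  have x0 : x₁ ≠ 0 := by
    rintro rfl
    have : y₁ = 0 := by simpa using ns_iff.1 h₁
    subst this
    exact n0 (Point.add_of_Y_eq (by simp) (by simp [negY]))
  have x0' : (σ0.1 : ℂ →ₐ[ℚ] ℂ) x₁ ≠ 0 := by simpa using x0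
  generalize (σ0.1 : ℂ →ₐ[ℚ] ℂ) x₁ = x₂, (σ0.1 : ℂ →ₐ[ℚ] ℂ) y₁ = y₂ at *
  obtain ⟨X, Y, h, e⟩ : ∃ X Y h, Point.some x₁ y₁ h₁ + .some x₂ y₂ h₂ = .some X Y h := by
    revert n0
    generalize Point.some x₁ y₁ h₁ + Point.some x₂ y₂ h₂ = z
    rcases z with _ | ⟨X, Y, h⟩
    · exact fun h => absurd rfl h
    · exact fun _ => ⟨X, Y, h, rfl⟩
  obtain ⟨ν, hν, fν⟩ := sum_sq e
  simp only [act_eq] at hσ
  rw [e] at hc hfix
  simp only [act_eq] at hfix
  have eq := ns_iff.1 h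
  have X0 : X ≠ 0 := by
    rintro rfl
    have : Y = 0 := by simpa using eq
    subst this
    have e1 : act cj (.some 0 0 h) = .some 0 0 h := act_eq.2 ⟨map_zero _, map_zero _⟩
    rw [e1, show T2 = .some 0 0 h from rfl, sub_self] at hc
    exact Point.some_ne_zero _ hc
  obtain ⟨h', e'⟩ := T2_sub h X0
  rw [e', act_eq, cj_apply, cj_apply] at hc
  have ν0 : ν ≠ 0 := by rintro rfl; simp [x0, x0', X0] at hν
  have fν' : ∀ σ : Gs δ, σ.1 ν = ν := fun σ => fν σ.1 ((hσ σ).imp (·.2) (·.2))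
  -- the elements of `K`
  obtain ⟨r, r', hr⟩ := fixK hn hδ' (x := Y / X) fun σ => by
    rw [map_div₀]; exact congrArg₂ _ (hfix σ).2 (hfix σ).1
  obtain ⟨α, β, hX⟩ := fixK hn hδ' (x := X) fun σ => (hfix σ).1
  obtain ⟨a1, a2, hA⟩ := fixK hn hδ' (x := (x₁ + x₂) / 2 * ((X + 2) / ν)) fun σ => by
    have := (hfix σ).1
    rcases hσ σ with ⟨-, ⟨a, -⟩, b, -⟩ | ⟨-, ⟨a, -⟩, b, -⟩ <;>
      change σ.1 _ = _ at a b this <;> simp [map_ofNat, a, b, this, fν' σ, add_comm]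
  obtain ⟨b1, b2, hB⟩ := fixK hn hδ' (x := (x₁ - x₂) / (2 * π) * ((X + 2) / ν)) fun σ => by
    have := (hfix σ).1
    rcases hσ σ with ⟨c, ⟨a, -⟩, b, -⟩ | ⟨c, ⟨a, -⟩, b, -⟩ <;>
      change σ.1 _ = _ at a b this <;> simp [map_ofNat, a, b, c, this, fν' σ]
    left; field_simp; ring
  have cδ := conj_delta hn hδ'
  have r0 : r' = 0 := by
    have : (starRingEnd ℂ) (Y / X) = Y / X := by rw [map_div₀, hc.1, hc.2]; field_simp
    rw [hr] at this
    simp only [map_add, map_mul, map_ratCast, cδ] at this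
    exact (indep hn hδ' (a := 0) (b := r') (by push_cast; linear_combination -this / 2)).2
  rw [r0, Rat.cast_zero, zero_mul, add_zero] at hr
  have hr2 : (r : ℂ) ^ 2 = X + 4 / X := by rw [← hr]; field_simp; linear_combination eq
  have cX : 4 / X = α - β * δ := by
    rw [← hc.1, hX]; simp only [map_add, map_mul, map_ratCast, cδ]; ring
  have m : (4 + r ^ 2) * (4 - r ^ 2) = p * q * (2 * β) ^ 2 := by
    have e4 : (α + β * δ) * (α - β * δ) = 4 := by rw [← cX, ← hX]; field_simp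
    rw [cX, hX] at hr2
    have : ((4 + r ^ 2) * (4 - r ^ 2) : ℂ) = p * q * (2 * β) ^ 2 := by
      linear_combination (-(r : ℂ) ^ 2 - 2 * α) * hr2 - 4 * e4 - 4 * β ^ 2 * hδ
    exact_mod_cast this
  refine D0_of hp hq h5 h3 m ?_
  have key : (4 + r ^ 2 : ℂ) = (a1 + a2 * δ) ^ 2 - p * (b1 + b2 * δ) ^ 2 := by
    rw [← hA, ← hB, hr2, ← hπ, mul_pow, mul_pow, div_pow (X + 2), hν]; field_simp; ring
  have := indep hn hδ' (a := a1 ^ 2 - p * q * a2 ^ 2 - p * (b1 ^ 2 - p * q * b2 ^ 2) - (4 + r ^ 2))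
    (b := 2 * (a1 * a2 - p * (b1 * b2)))
    (by push_cast; linear_combination -key - (a2 ^ 2 - p * b2 ^ 2) * hδ)
  refine even_val_of_norm h5 (n := p * q) ?_ (a1 := a1) (a2 := a2) (b1 := b1) (b2 := b2)
    (by positivity) (by push_cast; linear_combination -this.1) (by linear_combination this.2 / 2)
  have : p * q % 8 = 7 := by rw [Nat.mul_mod, h5, h3]
  omega

theorem sign_pi {p : ℕ} (hπ : π ^ 2 = p) (σ : ℂ ≃ₐ[ℚ] ℂ) : σ π = π ∨ σ π = -π :=
  sq_eq_sq_iff_eq_or_eq_neg.1 (by rw [← map_pow, hπ, map_natCast])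

theorem pow_neg {σ : ℂ ≃ₐ[ℚ] ℂ} (h : σ π = -π) (k : ℕ) : (σ ^ k) π = (-1) ^ k * π := by
  induction k with
  | zero => simp
  | succ k ih => rw [pow_succ, AlgEquiv.mul_apply, h, map_neg, ih]; ring

end Hg

open Hg in
theorem hgGlue : HGGlue := by
  intro H p q hp hq h5 h3 hn
  obtain ⟨δ, hδ⟩ := IsAlgClosed.exists_pow_nat_eq (-(p * q : ℂ)) two_pos
  obtain ⟨π, hπ⟩ := IsAlgClosed.exists_pow_nat_eq (p : ℂ) two_pos
  obtain ⟨Cl, _, _, s, b, c, χ, P, ho, hP, hsb, hσ, hc, hk⟩ := H p q hp hq h5 h3 hn δ π hδ hπ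
  classical
  have π0 : π ≠ 0 := by rintro rfl; exact hp.ne_zero (by simpa using hπ.symm)
  have πn : -π ≠ π := fun e => π0 (by linear_combination -e / 2)
  have hA : ∀ σ, χ (c σ) = 1 → σ.1 π = π := fun σ h => by
    refine (sign_pi hπ σ.1).resolve_right fun e => πn ?_
    have h1 : (⟨c σ, h⟩ : χ.ker) ^ Nat.card χ.ker = 1 := pow_card_eq_one'
    have h2 := hk (σ ^ Nat.card χ.ker) (by rw [map_pow]; exact congrArg Subtype.val h1)
    rwa [Subgroup.coe_pow, pow_neg e, ho.neg_one_pow, neg_one_mul] at h2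
  obtain ⟨σ0, h0⟩ : ∃ σ0 : Gs δ, σ0.1 π ≠ π := by
    by_contra h
    push Not at h
    have hn : (0 : ℚ) < (p * q : ℕ) := by exact_mod_cast Nat.mul_pos hp.pos hq.pos
    have hδ' : δ ^ 2 = -((p * q : ℕ) : ℚ) := by rw [hδ]; push_cast; ring
    obtain ⟨u, v, e⟩ := fixK hn hδ' h
    have := indep hn hδ' (a := u ^ 2 - p * q * v ^ 2 - p) (b := 2 * (u * v))
      (by push_cast; rw [e] at hπ; linear_combination hπ - v ^ 2 * hδ)
    have p0 : (0 : ℚ) < p := by exact_mod_cast hp.pos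
    have q0 : (0 : ℚ) < q := by exact_mod_cast hq.pos
    rcases mul_eq_zero.1 (by linarith [this.2] : u * v = 0) with rfl | rfl
    · nlinarith [this.1, mul_nonneg (mul_pos p0 q0).le (sq_nonneg v)]
    · exact hp.prime.not_isSquare (Rat.isSquare_natCast_iff.1 ⟨u, by linarith [this.1]⟩)
  have c0 : χ (c σ0) = -1 := (Int.units_eq_one_or _).resolve_left fun h => h0 (hA _ h)
  have hB : ∀ σ, χ (c σ) = -1 → σ.1 π = -π := fun σ h => by
    refine (sign_pi hπ σ.1).resolve_left fun e => h0 ?_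
    have := hA (σ0 * σ) (by rw [map_mul, map_mul, c0, h]; simp)
    rwa [Subgroup.coe_mul, AlgEquiv.mul_apply, e] at this
  let Q : Cl → EC.Point := fun a => PP (s a) (b a) (hsb a).1 (hsb a).2.1
  let y : ℤˣ → EC.Point := fun e => ∑ a with χ a = e, Q a
  have hy : ∀ (σ : Gs δ) e, act σ.1 (y e) = y (χ (c σ) * e) := fun σ e => by
    simp only [y, map_sum]
    refine Finset.sum_equiv (Equiv.mulLeft (c σ)) (fun a => by simp) fun a _ => ?_
    exact act_PP _ _ _ _ _ (hσ σ a).1 (hσ σ a).2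
  have tot : y 1 + y (-1) = ∑ a, Q a := by
    rw [← Finset.sum_filter_add_sum_filter_not Finset.univ fun a => χ a = 1]
    simp only [y, Int.units_ne_iff_eq_neg]
  have card : Fintype.card Cl = Nat.card χ.ker * 2 := by
    have : χ.range = ⊤ := by
      rw [eq_top_iff]; rintro e -
      rcases Int.units_eq_one_or e with rfl | rfl
      · exact one_mem _
      · exact ⟨P, hP⟩
    rw [← Nat.card_eq_fintype_card, ← χ.ker.card_mul_index, Subgroup.index_ker, this]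
    simp
  refine D0_of_points hp hq h5 h3 hδ hπ (y1 := y 1) (y2 := y (-1)) σ0 (by rw [hy, c0, mul_one])
    (fun σ => ?_) ?_
  · rcases Int.units_eq_one_or (χ (c σ)) with h | h
    · exact .inl ⟨hA σ h, by rw [hy, h, one_mul], by rw [hy, h, one_mul]⟩
    · exact .inr ⟨hB σ h, by rw [hy, h, mul_one], by rw [hy, h]; simp⟩
  · have e : ∀ a, act cj (Q a) = T - Q (P * a⁻¹) := fun a => by
      rw [T_sub_PP _ _ (hsb _).2.2 (s' := cj (s a)) (b' := cj (b a))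
        (by rw [← map_pow, ← map_pow, ← map_add, (hsb a).1, map_one])
        (by simpa using (hsb a).2.1) (hc a).1 (hc a).2]
      exact act_PP _ _ _ _ _ rfl rfl
    rw [tot, map_sum, Finset.sum_congr rfl fun a _ => e a, Finset.sum_sub_distrib, Finset.sum_const,
      Finset.card_univ, card, odd_smul ho]
    congr 1
    exact Fintype.sum_equiv ((Equiv.inv Cl).trans (Equiv.mulLeft P)) _ _ fun _ => rfl

end Crest.Agent.T15.Q
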