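import Crest.Agent.T15.QJ_22

/-!
# Row 15, block Q: the arithmetic end of (H5) (helper22)
-/

set_option autoImplicit false

namespace Crest.Agent.T15.Q

theorem isSquare_of_even {U : ℕ} (hU : U ≠ 0) (h : ∀ l : ℕ, l.Prime → Even (padicValNat l U)) :
    IsSquare U := by
  obtain ⟨a, b, e, hs⟩ := Nat.sq_mul_squarefree U
  have a0 : a ≠ 0 := hs.ne_zero
  have b0 : b ≠ 0 := by rintro rfl; simp at e; exact hU e.symm
  have : a = 1 := by
    by_contra h1
    obtain ⟨l, hl, hd⟩ := Nat.exists_prime_and_dvd h1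
    have := Fact.mk hl
    have h2 := h l hl
    rw [← e, padicValNat.mul (pow_ne_zero 2 b0) a0, padicValNat.pow] at h2
    have l1 := one_le_padicValNat_of_dvd a0 hd
    have l2 : ¬ 2 ≤ padicValNat l a := fun h => by
      have := (padicValNat_dvd_iff_le a0).2 h
      exact hl.not_isUnit (hs l (by rwa [← sq]))
    obtain ⟨k, hk⟩ := h2
    omega
  exact ⟨b, by rw [← e, this]; ring⟩

/-- `a² - p b²` has even `2`-adic valuation for `p ≡ 5 mod 8` -/
theorem even_val_norm {p : ℕ} (hp : p % 8 = 5) {A B : ℚ} (h : A ^ 2 - p * B ^ 2 ≠ 0) :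
    Even (padicValRat 2 (A ^ 2 - p * B ^ 2)) := by
  have p0 : (p : ℚ) ≠ 0 := by exact_mod_cast (by omega : p ≠ 0)
  have vp : padicValRat 2 p = 0 := by
    rw [padicValRat.of_nat, padicValNat.eq_zero_of_not_dvd (by omega)]; rfl
  by_cases hB : B = 0
  · simp [hB]
  have e : A ^ 2 - p * B ^ 2 = (((A / B).num ^ 2 - p * (A / B).den ^ 2 : ℤ) : ℚ) *
      (B / (A / B).den) ^ 2 := by
    have d0 : ((A / B).den : ℚ) ≠ 0 := by exact_mod_cast (A / B).den_nz
    have : ((A / B).num : ℚ) = A / B * (A / B).den := by rw [Rat.mul_den_eq_num]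
    push_cast; rw [this]; field_simp
  have hc := (A / B).reduced
  generalize (A / B).num = m at e hc
  have d0 : ((A / B).den : ℚ) ≠ 0 := by exact_mod_cast (A / B).den_nz
  generalize (A / B).den = d at e hc d0
  rw [e] at h ⊢
  have h0 := left_ne_zero_of_mul h
  rw [val_mul_sq h0 (div_ne_zero hB d0), padicValRat.of_int]
  refine Even.add ?_ (even_two_mul _)
  obtain ⟨k, rfl⟩ : ∃ k, p = 8 * k + 5 := ⟨p / 8, by omega⟩
  by_cases h2 : (2 : ℤ) ∣ m ^ 2 - (8 * k + 5 : ℕ) * d ^ 2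
  · have om : Odd m ∧ Odd d := by
      rcases Int.even_or_odd' m with ⟨a, rfl | rfl⟩ <;> rcases Nat.even_or_odd' d with ⟨c, rfl | rfl⟩
      · exact absurd (Nat.eq_one_of_dvd_coprimes hc (by simp [Int.natAbs_mul]) (dvd_mul_right 2 c))
          (by norm_num)
      · exfalso; push_cast at h2; ring_nf at h2; omega
      · exfalso; push_cast at h2; ring_nf at h2; omega
      · exact ⟨⟨a, rfl⟩, ⟨c, rfl⟩⟩
    obtain ⟨⟨a, rfl⟩, ⟨c, rfl⟩⟩ := om
    obtain ⟨u, hu⟩ := Int.even_mul_succ_self a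
    obtain ⟨v, hv⟩ := Int.even_mul_succ_self (c : ℤ)
    have e2 : (2 * a + 1) ^ 2 - ((8 * k + 5 : ℕ) : ℤ) * ((2 * c + 1 : ℕ) : ℤ) ^ 2 =
        (2 * (u - k * (8 * v + 1) - 5 * v - 1) + 1) * 2 ^ 2 := by
      push_cast; linear_combination 4 * hu - 4 * (8 * k + 5) * hv
    have o : ¬ ((2 : ℕ) : ℤ) ∣ 2 * (u - k * (8 * v + 1) - 5 * v - 1) + 1 := by omega
    have := val_mul_sq (p := 2) (w := ((2 * (u - k * (8 * v + 1) - 5 * v - 1) + 1 : ℤ) : ℚ)) (t := 2)
      (by exact_mod_cast (by omega : 2 * (u - k * (8 * v + 1) - 5 * v - 1) + 1 ≠ 0)) two_ne_zero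
    rw [padicValRat.of_int, padicValInt.eq_zero_of_not_dvd o] at this
    rw [← padicValRat.of_int, e2, Int.cast_mul, Int.cast_pow, Int.cast_ofNat, this]
    simp
  · rw [padicValInt.eq_zero_of_not_dvd (by exact_mod_cast h2)]; simp

theorem exists_sqrt_neg {n : ℤ} (hn : n % 8 = 7) (k : ℕ) : ∃ d : ℤ, Odd d ∧ 2 ^ (k + 3) ∣ d ^ 2 + n := by
  induction k with
  | zero => exact ⟨1, odd_one, by omega⟩
  | succ k ih =>
    obtain ⟨d, ⟨e, he⟩, c, hc⟩ := ih
    rcases Int.even_or_odd' c with ⟨a, rfl | rfl⟩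
    · exact ⟨d, ⟨e, he⟩, a, by rw [hc]; ring⟩
    · refine ⟨d + 2 ^ (k + 2), ⟨e + 2 ^ (k + 1), by rw [he]; ring⟩, a + e + 1 + 2 ^ k, ?_⟩
      subst he
      linear_combination hc

/-- a rational norm from `K(√p)` to `K = ℚ(√(-n))`, `2` split in `K`, has even `2`-adic valuation -/
theorem even_val_of_norm {p : ℕ} (hp : p % 8 = 5) {n : ℤ} (hn : n % 8 = 7) {a1 a2 b1 b2 ρ : ℚ}
    (h0 : ρ ≠ 0) (h1 : ρ = a1 ^ 2 - n * a2 ^ 2 - p * (b1 ^ 2 - n * b2 ^ 2))
    (h2 : a1 * a2 = p * (b1 * b2)) : Even (padicValRat 2 ρ) := by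
  set c := a2 ^ 2 - p * b2 ^ 2 with hc
  obtain ⟨d, -, e, he⟩ := exists_sqrt_neg hn (padicValRat 2 ρ - padicValRat 2 c).natAbs
  set k := (padicValRat 2 ρ - padicValRat 2 c).natAbs + 3 with hk
  have he' : (d : ℚ) ^ 2 + n = 2 ^ k * e := by exact_mod_cast he
  have key : (a1 + a2 * d) ^ 2 - p * (b1 + b2 * d) ^ 2 = ρ + 2 ^ k * e * c := by
    rw [← he', h1, hc]; linear_combination 2 * d * h2
  by_cases hz : 2 ^ k * e * c = 0
  · rw [hz, add_zero] at key
    exact key ▸ even_val_norm hp (key ▸ h0)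
  have c0 : c ≠ 0 := right_ne_zero_of_mul hz
  have e0 : (e : ℚ) ≠ 0 := right_ne_zero_of_mul (left_ne_zero_of_mul hz)
  have hlt : padicValRat 2 ρ < padicValRat 2 (2 ^ k * e * c) := by
    have v2 : padicValRat 2 (2 : ℚ) = 1 := padicValRat.self (p := 2) one_lt_two
    rw [padicValRat.mul (left_ne_zero_of_mul hz) c0, padicValRat.mul (by positivity) e0,
      padicValRat.pow, v2, padicValRat.of_int]
    omega
  have hs : ρ + 2 ^ k * e * c ≠ 0 := fun h => by
    rw [eq_neg_of_add_eq_zero_left h, padicValRat.neg] at hlt; exact lt_irrefl _ hlt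
  rw [← padicValRat.add_eq_of_lt hs h0 hz hlt, ← key]
  exact even_val_norm hp (key ▸ hs)

theorem D0_of {p q : ℕ} (hp : p.Prime) (hq : q.Prime) (h5 : p % 8 = 5) (h3 : q % 8 = 3) {r w : ℚ}
    (h : (4 + r ^ 2) * (4 - r ^ 2) = p * q * w ^ 2) (h2 : Even (padicValRat 2 (4 + r ^ 2))) :
    D0 p q := by
  have n1 : 4 + r ^ 2 ≠ 0 := by positivity
  have n2 : 4 - r ^ 2 ≠ 0 := fun e => by
    have v2 : padicValRat 2 (2 : ℚ) = 1 := padicValRat.self (p := 2) one_lt_two
    rw [show 4 + r ^ 2 = 2 ^ 3 by linarith, padicValRat.pow, v2] at h2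
    exact absurd h2 (by decide)
  have p0 : (p : ℚ) ≠ 0 := by exact_mod_cast hp.ne_zero
  have q0 : (q : ℚ) ≠ 0 := by exact_mod_cast hq.ne_zero
  have w0 : w ≠ 0 := by rintro rfl; simp [n1, n2] at h
  have d0 : (r.den : ℚ) ≠ 0 := by exact_mod_cast r.den_nz
  have em : (r.num : ℚ) = r * r.den := by rw [Rat.mul_den_eq_num]
  obtain ⟨U, hU⟩ : ∃ U : ℕ, (U : ℤ) = 4 * r.den ^ 2 + r.num ^ 2 :=
    ⟨_, Int.toNat_of_nonneg (by positivity)⟩
  have eU : (U : ℚ) = (4 + r ^ 2) * r.den ^ 2 := by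
    have : (U : ℚ) = 4 * r.den ^ 2 + r.num ^ 2 := by exact_mod_cast hU
    rw [this, em]; ring
  have U0 : U ≠ 0 := by
    have : (U : ℚ) ≠ 0 := eU ▸ mul_ne_zero n1 (pow_ne_zero 2 d0)
    exact_mod_cast this
  have vU : ∀ l : ℕ, l.Prime → (Even (padicValNat l U) ↔ Even (padicValRat l (4 + r ^ 2))) := by
    intro l hl
    have := Fact.mk hl
    rw [← Int.even_coe_nat, ← padicValRat.of_nat, eU, val_mul_sq n1 d0]
    simp [Int.even_add]
  have vs : ∀ l : ℕ, l.Prime → padicValRat l (4 + r ^ 2) + padicValRat l (4 - r ^ 2) =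
      padicValNat l p + padicValNat l q + 2 * padicValRat l w := by
    intro l hl
    have := Fact.mk hl
    rw [← padicValRat.mul n1 n2, h, val_mul_sq (mul_ne_zero p0 q0) w0, padicValRat.mul p0 q0]
    simp
  -- the denominator is a unit modulo a prime dividing `4 d² ± m²`
  have den : ∀ l : ℕ, l.Prime → ∀ c : ZMod l, (r.num : ZMod l) ^ 2 = c * (r.den : ZMod l) ^ 2 →
      (r.den : ZMod l) ≠ 0 := by
    intro l hl c e h0
    have := Fact.mk hl
    rw [h0, zero_pow two_ne_zero, mul_zero, pow_eq_zero_iff two_ne_zero,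
      ZMod.intCast_zmod_eq_zero_iff_dvd] at e
    exact hl.one_lt.ne' (Nat.eq_one_of_dvd_coprimes r.reduced (Int.natCast_dvd.1 e)
      ((ZMod.natCast_eq_zero_iff _ _).1 h0))
  have Fp := Fact.mk hp
  have Fq := Fact.mk hq
  have ev : ∀ l : ℕ, l.Prime → l ≠ p → Even (padicValNat l U) := by
    intro l hl hlp
    have := Fact.mk hl
    by_cases e2 : l = 2
    · subst e2; exact (vU 2 hl).2 h2
    by_cases eq : l = q
    · subst eq
      by_contra ho
      have hd : l ∣ U := by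
        by_contra hd; exact ho (by simp [padicValNat.eq_zero_of_not_dvd hd])
      have z : ((4 * r.den ^ 2 + r.num ^ 2 : ℤ) : ZMod l) = 0 := by
        rw [← hU, Int.cast_natCast]; exact (ZMod.natCast_eq_zero_iff _ _).2 hd
      push_cast at z
      have d1 := den l hl (-4) (by linear_combination z)
      have t : (2 : ZMod l) ≠ 0 := by
        intro h; exact e2 ((Nat.prime_dvd_prime_iff_eq hl Nat.prime_two).1
          ((ZMod.natCast_eq_zero_iff 2 l).1 (by exact_mod_cast h)))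
      exact ZMod.mod_four_ne_three_of_sq_eq_neg_sq' (x := r.num) (mul_ne_zero t d1)
        (by linear_combination z) (by omega)
    rw [vU l hl]
    by_contra ho
    rw [Int.not_even_iff_odd] at ho
    have h1 := (sound_R0 _ _ ⟨⟨r, 1, 1, by ring, by ring, one_ne_zero⟩, n2⟩).2 l hl e2 ho
    have h4 := vs l hl
    rw [padicValNat_primes hlp, padicValNat_primes eq] at h4
    obtain ⟨a, ha⟩ := ho
    obtain ⟨b, hb⟩ := h1
    omega
  have op : Odd (padicValNat p U) := by
    by_contra ho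
    rw [Nat.not_odd_iff_even] at ho
    obtain ⟨k, hk⟩ := isSquare_of_even U0 fun l hl => by
      by_cases e : l = p
      · exact e ▸ ho
      · exact ev l hl e
    have h4 := vs p hp
    rw [padicValNat_self, padicValNat_primes (by omega)] at h4
    have e' : ((4 * r.den ^ 2 - r.num ^ 2 : ℤ) : ℚ) = (4 - r ^ 2) * r.den ^ 2 := by
      push_cast; rw [em]; ring
    have hd : (p : ℤ) ∣ 4 * r.den ^ 2 - r.num ^ 2 := by
      by_contra hd
      have := padicValInt.eq_zero_of_not_dvd hd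
      have h6 := val_mul_sq (p := p) n2 d0
      rw [← e', padicValRat.of_int, this] at h6
      obtain ⟨a, ha⟩ := (vU p hp).1 ho
      omega
    have z := (ZMod.intCast_zmod_eq_zero_iff_dvd _ _).2 hd
    have z' : ((k * k : ℕ) : ZMod p) = ((4 * r.den ^ 2 + r.num ^ 2 : ℤ) : ZMod p) := by
      rw [← hU, hk, Int.cast_natCast]
    push_cast at z z'
    have d1 := den p hp 4 (by linear_combination -z)
    have t : (2 : ZMod p) ≠ 0 := by
      intro h
      have := (Nat.prime_dvd_prime_iff_eq hp Nat.prime_two).1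
        ((ZMod.natCast_eq_zero_iff 2 p).1 (by exact_mod_cast h))
      omega
    have : IsSquare (2 : ZMod p) := ⟨k / (2 * r.den), by field_simp; linear_combination z - z'⟩
    rw [ZMod.exists_sq_eq_two_iff (by omega)] at this
    omega
  obtain ⟨k, hk⟩ := isSquare_of_even (mul_ne_zero hp.ne_zero U0) fun l hl => by
    have := Fact.mk hl
    rw [padicValNat.mul hp.ne_zero U0]
    by_cases e : l = p
    · subst e; rw [padicValNat_self]; exact odd_one.add_odd op
    · rw [padicValNat_primes e, zero_add]; exact ev l hl e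
  have hk' : (p : ℚ) * ((4 + r ^ 2) * r.den ^ 2) = k * k := by rw [← eU]; exact_mod_cast hk
  have k0 : (k : ℚ) ≠ 0 := fun e => by
    rw [e, mul_zero] at hk'; exact mul_ne_zero p0 (mul_ne_zero n1 (pow_ne_zero 2 d0)) hk'
  have hA : 4 + r ^ 2 = p * (k / (p * r.den)) ^ 2 := by field_simp; linear_combination hk'
  refine ⟨r, k / (p * r.den), w / (k / (p * r.den)), hA, ?_, by positivity⟩
  have A0 : (k / (p * r.den) : ℚ) ≠ 0 := by positivity
  generalize (k / (p * r.den) : ℚ) = A at hA A0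
  rw [hA] at h
  field_simp at h ⊢
  linear_combination h

end Crest.Agent.T15.Q
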