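import Crest.Agent.T15.QHa_22
import Crest.Agent.R007.RatDesc

/-!
# Row 15, block Q: the curve `Y² = X³ + 4X` and the field `ℚ(δ)` (helper22)
-/

set_option autoImplicit false

noncomputable section

namespace Crest.Agent.T15.Q.Hg

open WeierstrassCurve WeierstrassCurve.Affine

def EE : Affine ℚ := ⟨0, 0, 0, 4, 0⟩
abbrev EC : Affine ℂ := EE⁄ℂ

theorem EC_eq : EC = ⟨0, 0, 0, 4, 0⟩ := by
  ext <;> simp [EC, EE, Affine.baseChange, WeierstrassCurve.baseChange, WeierstrassCurve.map]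

@[simp] theorem b1 : EE.a₁ = 0 := rfl
@[simp] theorem b2 : EE.a₂ = 0 := rfl
@[simp] theorem b3 : EE.a₃ = 0 := rfl
@[simp] theorem b4 : EE.a₄ = 4 := rfl
@[simp] theorem b6 : EE.a₆ = 0 := rfl
@[simp] theorem a1 : EC.a₁ = 0 := by rw [EC_eq]
@[simp] theorem a2 : EC.a₂ = 0 := by rw [EC_eq]
@[simp] theorem a3 : EC.a₃ = 0 := by rw [EC_eq]
@[simp] theorem a4 : EC.a₄ = 4 := by rw [EC_eq]
@[simp] theorem a6 : EC.a₆ = 0 := by rw [EC_eq]

theorem ns_iff {x y : ℂ} : EC.Nonsingular x y ↔ y ^ 2 = x ^ 3 + 4 * x := by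
  rw [← equation_iff_nonsingular_of_Δ_ne_zero, equation_iff]
  · simp
  · simp [WeierstrassCurve.Δ, b₂, b₄, b₆, b₈]

def pt (x y : ℂ) (h : y ^ 2 = x ^ 3 + 4 * x) : EC.Point := .some x y (ns_iff.2 h)

def T : EC.Point := pt 2 (-4) (by norm_num)
def T2 : EC.Point := pt 0 0 (by norm_num)

theorem T_add_T : T + T = T2 := by
  have h : (-4 : ℂ) ≠ EC.negY 2 (-4) := by simp [negY]; norm_num
  rw [T, T2, pt, pt, Point.add_self_of_Y_ne h]
  simp only [Point.some.injEq, addY, slope_of_Y_ne rfl h]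
  simp [negY]; norm_num

theorem T2_add_T2 : T2 + T2 = 0 := Point.add_self_of_Y_eq (by simp [negY])

theorem T2_ne : T2 ≠ 0 := Point.some_ne_zero _

theorem odd_smul {h : ℕ} (ho : Odd h) : (h * 2) • T = T2 := by
  obtain ⟨k, rfl⟩ := ho
  rw [mul_nsmul', two_nsmul, T_add_T, add_nsmul, mul_nsmul, two_nsmul, T2_add_T2, one_nsmul,
    nsmul_zero, zero_add]

theorem T2_sub {x y : ℂ} (h : EC.Nonsingular x y) (hx : x ≠ 0) :
    ∃ h', T2 - .some x y h = .some (4 / x) (4 * y / x ^ 2) h' := by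
  have e := ns_iff.1 h
  refine ⟨ns_iff.2 (by field_simp; linear_combination e), ?_⟩
  rw [sub_eq_add_neg, Point.neg_some, T2, pt, Point.add_of_X_ne hx.symm]
  simp only [Point.some.injEq, addY, slope_of_X_ne hx.symm]
  simp only [negY, addX, negAddY, a1, a2, a3]
  have := neg_ne_zero.2 hx
  simp only [zero_sub, zero_mul, sub_zero, add_zero, neg_neg]
  constructor <;> field_simp
  · linear_combination e
  · linear_combination y * e

/-- the point attached to `s⁴ + b² = 1` -/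
def PP (s b : ℂ) (h : s ^ 4 + b ^ 2 = 1) (hs : s ≠ 0) : EC.Point :=
  pt (2 * (1 + b) / s ^ 2) (4 * (1 + b) / s ^ 3) (by field_simp; linear_combination (-8 * (1 + b)) * h)

theorem T_sub_PP {s b s' b' : ℂ} (h : s ^ 4 + b ^ 2 = 1) (hs : s ≠ 0) (hb : b ≠ 0)
    (h' : s' ^ 4 + b' ^ 2 = 1) (hs' : s' ≠ 0) (e1 : s' = -b / (1 + s ^ 2))
    (e2 : b' = -2 * s / (1 + s ^ 2)) : T - PP s b h hs = PP s' b' h' hs' := by
  have n1 : 1 + s ^ 2 ≠ 0 := fun e => hb (pow_eq_zero_iff two_ne_zero |>.1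
    (by linear_combination h + (1 - s ^ 2) * e))
  have n2 : 1 - s ^ 2 ≠ 0 := fun e => hb (pow_eq_zero_iff two_ne_zero |>.1
    (by linear_combination h + (1 + s ^ 2) * e))
  have n3 : 1 + b - s ^ 2 ≠ 0 := fun e => by
    have : 2 * s ^ 2 * (1 - s ^ 2) = 0 := by linear_combination -h + (b - 1 + s ^ 2) * e
    simp [hs, n2] at this
  have hx : (2 : ℂ) ≠ 2 * (1 + b) / s ^ 2 := fun e => n3 (by field_simp at e; linear_combination -e)
  have hsl : (-4 - -(4 * (1 + b) / s ^ 3)) / (2 - 2 * (1 + b) / s ^ 2) =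
      2 * (s ^ 3 - 1 - b) / (s * (1 + b - s ^ 2)) := by
    have : s ^ 2 - (1 + b) ≠ 0 := fun e => n3 (by linear_combination -e)
    field_simp; ring
  subst e1 e2
  rw [sub_eq_add_neg, PP, PP, T, pt, pt, pt, Point.neg_some, Point.add_of_X_ne hx]
  simp only [Point.some.injEq, addY, slope_of_X_ne hx]
  simp only [negY, addX, negAddY, a1, a2, a3, zero_mul, sub_zero, add_zero, hsl]
  clear hsl hx hs' h'
  constructor <;> field_simp <;> clear hs hb n1 n2 n3 <;> grind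

/-- the product of the three abscissae is the square of the intercept -/
theorem sum_sq {x₁ y₁ x₂ y₂ X Y : ℂ} {h₁ : EC.Nonsingular x₁ y₁} {h₂ : EC.Nonsingular x₂ y₂}
    {h : EC.Nonsingular X Y} (e : Point.some x₁ y₁ h₁ + .some x₂ y₂ h₂ = .some X Y h) :
    ∃ ν : ℂ, ν ^ 2 = x₁ * x₂ * X ∧ ∀ σ : ℂ →ₐ[ℚ] ℂ,
      (σ x₁ = x₁ ∧ σ y₁ = y₁) ∧ (σ x₂ = x₂ ∧ σ y₂ = y₂) ∨
        (σ x₁ = x₂ ∧ σ y₁ = y₂) ∧ (σ x₂ = x₁ ∧ σ y₂ = y₁) → σ ν = ν := by
  have hxy : ¬(x₁ = x₂ ∧ y₁ = EC.negY x₂ y₂) := fun h => by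
    rw [Point.add_of_Y_eq h.1 h.2] at e; exact Point.some_ne_zero _ e.symm
  rw [Point.add_some hxy, Point.some.injEq] at e
  refine ⟨y₁ - EC.slope x₁ x₂ y₁ y₂ * x₁, ?_, ?_⟩
  · have := congrArg (Polynomial.eval 0) (addPolynomial_slope h₁.1 h₂.1 hxy)
    rw [addPolynomial_eq, e.1] at this
    simp [Cubic.toPoly] at this
    linear_combination this
  · rintro σ (⟨⟨a, b⟩, c, d⟩ | ⟨⟨a, b⟩, c, d⟩) <;>
      rw [map_sub, map_mul, ← baseChange_slope (W' := EE) σ, a, b, c, d]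
    by_cases hx : x₁ = x₂
    · have := Y_eq_of_Y_ne h₁.1 h₂.1 hx fun h => hxy ⟨hx, h⟩
      subst hx this; rfl
    · rw [slope_of_X_ne hx, slope_of_X_ne (Ne.symm hx)]
      have := sub_ne_zero.2 hx
      have := sub_ne_zero.2 (Ne.symm hx)
      field_simp; ring

/-! ### the imaginary quadratic field -/

variable {δ : ℂ} {n : ℚ}

theorem conj_delta (hn : 0 < n) (h : δ ^ 2 = -n) : (starRingEnd ℂ) δ = -δ := by
  have h1 := congrArg Complex.re h
  have h2 := congrArg Complex.im h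
  simp [sq] at h1 h2
  have : (0 : ℝ) < n := by exact_mod_cast hn
  have : δ.re = 0 := by
    by_contra h0
    have : δ.im = 0 := by
      have : δ.re * δ.im = 0 := by linarith
      exact (mul_eq_zero.1 this).resolve_left h0
    rw [this] at h1; nlinarith [sq_nonneg δ.re]
  apply Complex.ext <;> simp [this]

theorem indep (hn : 0 < n) (h : δ ^ 2 = -n) {a b : ℚ} (e : (a : ℂ) + b * δ = 0) : a = 0 ∧ b = 0 := by
  have e' := congrArg (starRingEnd ℂ) e
  simp only [map_add, map_mul, map_ratCast, conj_delta hn h, map_zero] at e'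
  have d0 : δ ≠ 0 := by rintro rfl; simp at h; exact hn.ne' h
  refine ⟨?_, ?_⟩
  · exact_mod_cast (by linear_combination (e + e') / 2 : (a : ℂ) = 0)
  · have : (b : ℂ) * δ = 0 := by linear_combination (e - e') / 2
    exact_mod_cast (mul_eq_zero.1 this).resolve_right d0

def KK (hn : 0 < n) (h : δ ^ 2 = -n) : Subfield ℂ where
  carrier := {x | ∃ a b : ℚ, x = a + b * δ}
  mul_mem' := by
    rintro _ _ ⟨a, b, rfl⟩ ⟨c, d, rfl⟩
    exact ⟨a * c - n * b * d, a * d + b * c, by push_cast; linear_combination b * d * h⟩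
  one_mem' := ⟨1, 0, by simp⟩
  add_mem' := by
    rintro _ _ ⟨a, b, rfl⟩ ⟨c, d, rfl⟩
    exact ⟨a + c, b + d, by push_cast; ring⟩
  zero_mem' := ⟨0, 0, by simp⟩
  neg_mem' := by
    rintro _ ⟨a, b, rfl⟩
    exact ⟨-a, -b, by push_cast; ring⟩
  inv_mem' := by
    rintro _ ⟨a, b, rfl⟩
    by_cases e : (a : ℂ) + b * δ = 0
    · exact ⟨0, 0, by simp [e]⟩
    have : a ^ 2 + n * b ^ 2 ≠ 0 := fun h0 => by
      have ha : a = 0 := by nlinarith [sq_nonneg a, mul_nonneg hn.le (sq_nonneg b)]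
      have hb : b = 0 := by simpa [ha, hn.ne'] using h0
      simp [ha, hb] at e
    have : (a : ℂ) ^ 2 + n * b ^ 2 ≠ 0 := by exact_mod_cast this
    refine ⟨a / (a ^ 2 + n * b ^ 2), -b / (a ^ 2 + n * b ^ 2), ?_⟩
    push_cast
    rw [eq_comm, ← mul_eq_one_iff_eq_inv₀ e]
    field_simp; linear_combination -(b : ℂ) ^ 2 * h

theorem fixK (hn : 0 < n) (h : δ ^ 2 = -n) {x : ℂ}
    (hx : ∀ σ : MulAction.stabilizer (ℂ ≃ₐ[ℚ] ℂ) δ, σ.1 x = x) : ∃ a b : ℚ, x = a + b * δ :=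
  R007.RatAlg.mem_of_fixed (KK hn h) x fun σ hσ =>
    hx ⟨AlgEquiv.ofRingEquiv (f := σ) fun q => map_ratCast σ q, hσ δ ⟨0, 1, by simp⟩⟩

end Crest.Agent.T15.Q.Hg
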