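import Crest.Agent.T15.QDef_22

/-!
# Row 15, block Q: the bootstrap `HGStmt → K4Stmt → JStmt` (helper22)
-/

set_option autoImplicit false

namespace Crest.Agent.T15.Q

/-- `G` has even valuation at the odd primes where `w` has odd valuation -/
def Ev (w G : ℚ) : Prop :=
  G ≠ 0 ∧ ∀ p : ℕ, p.Prime → p ≠ 2 → Odd (padicValRat p w) → Even (padicValRat p G)

def Sound (R : ℚ → ℚ → Prop) : Prop := ∀ w G, R w G → Ev w G

def R0 (w G : ℚ) : Prop := D0 w G ∧ G ≠ 0

def Step (R : ℚ → ℚ → Prop) (w d : ℚ) : Prop := d ≠ 0 ∧ ∃ x y z : ℚ, R w x ∧ R w y ∧ R w z ∧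
  R w (d * z - 144 * w * x) ∧ R w (d * z - 144 * w * y) ∧ R w (d * z - 144 * w * x - 144 * w * y)

def Flip (R : ℚ → ℚ → Prop) (w G : ℚ) : Prop := R G w ∧ G ≠ 0

def D2 : ℚ → ℚ → Prop := Step (Flip (Step R0))

def J (w y : ℚ) : Prop := ∃ t s N : ℚ, y = w * t ^ 2 - w * s ^ 2 ∧
  D2 w ((1 + w * t ^ 2) * N ^ 2) ∧ D2 w ((1 + w * s ^ 2) * N ^ 2)

/-! ### Diophantine -/

abbrev Dio2 (R : ℚ → ℚ → Prop) : Prop := Dio fun x : ℚ × ℚ => R x.1 x.2

theorem Dio2.app {R : ℚ → ℚ → Prop} (h : Dio2 R) {V : Type*} [AddCommGroup V] [Module ℚ V]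
    {f g : V → ℚ} (hf : PolM f) (hg : PolM g) : Dio fun x => R (f x) (g x) :=
  Dio.comp (S := fun x : ℚ × ℚ => R x.1 x.2) h (g := fun x => (f x, g x)) (by fun_prop)

theorem dio_ex3 {R : ℚ × ℚ → ℚ → ℚ → ℚ → Prop}
    (h : Dio fun p : (ℚ × ℚ) × ℚ × ℚ × ℚ => R p.1 p.2.1 p.2.2.1 p.2.2.2) :
    Dio fun x => ∃ a b c, R x a b c :=
  (Dio.ex (W := ℚ × ℚ × ℚ) (R := fun x u => R x u.1 u.2.1 u.2.2) h).congr fun _ =>
    ⟨fun ⟨_, hu⟩ => ⟨_, _, _, hu⟩, fun ⟨a, b, c, hu⟩ => ⟨(a, b, c), hu⟩⟩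

theorem dio_D0 : Dio2 D0 :=
  dio_ex3 (R := fun x r A B => 4 + r ^ 2 = x.1 * A ^ 2 ∧ 4 - r ^ 2 = x.2 * B ^ 2 ∧ B ≠ 0)
    ((Dio.eq (by fun_prop) (by fun_prop)).and ((Dio.eq (by fun_prop) (by fun_prop)).and
      (Dio.ne_zero (by fun_prop))))

theorem dio_R0 : Dio2 R0 := dio_D0.and (Dio.ne_zero (by fun_prop))

theorem dio_step {R : ℚ → ℚ → Prop} (h : Dio2 R) : Dio2 (Step R) :=
  (Dio.ne_zero (by fun_prop)).and (dio_ex3
    (R := fun p x y z => R p.1 x ∧ R p.1 y ∧ R p.1 z ∧ R p.1 (p.2 * z - 144 * p.1 * x) ∧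
      R p.1 (p.2 * z - 144 * p.1 * y) ∧ R p.1 (p.2 * z - 144 * p.1 * x - 144 * p.1 * y))
    ((h.app (by fun_prop) (by fun_prop)).and ((h.app (by fun_prop) (by fun_prop)).and
      ((h.app (by fun_prop) (by fun_prop)).and ((h.app (by fun_prop) (by fun_prop)).and
        ((h.app (by fun_prop) (by fun_prop)).and (h.app (by fun_prop) (by fun_prop))))))))

theorem dio_flip {R : ℚ → ℚ → Prop} (h : Dio2 R) : Dio2 (Flip R) :=
  (h.app (by fun_prop) (by fun_prop)).and (Dio.ne_zero (by fun_prop))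

theorem dio_D2 : Dio2 D2 := dio_step (dio_flip (dio_step dio_R0))

theorem dio_J : Dio2 J :=
  dio_ex3 (R := fun p t s N => p.2 = p.1 * t ^ 2 - p.1 * s ^ 2 ∧
      D2 p.1 ((1 + p.1 * t ^ 2) * N ^ 2) ∧ D2 p.1 ((1 + p.1 * s ^ 2) * N ^ 2))
    ((Dio.eq (by fun_prop) (by fun_prop)).and ((dio_D2.app (by fun_prop) (by fun_prop)).and
      (dio_D2.app (by fun_prop) (by fun_prop))))

/-! ### soundness -/

section val
variable {p : ℕ} [Fact p.Prime]

omit [Fact p.Prime] in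
theorem ne_of_odd {w : ℚ} (h : Odd (padicValRat p w)) : w ≠ 0 := by
  rintro rfl; simp at h

theorem val_mul_sq {w t : ℚ} (hw : w ≠ 0) (ht : t ≠ 0) :
    padicValRat p (w * t ^ 2) = padicValRat p w + 2 * padicValRat p t := by
  rw [padicValRat.mul hw (pow_ne_zero 2 ht), padicValRat.pow]; rfl

theorem lt_of_parity {a j : ℚ} (ha : a ≠ 0) (hs : a + j ≠ 0) (ea : Even (padicValRat p a))
    (oj : Odd (padicValRat p j)) (es : Even (padicValRat p (a + j))) :
    padicValRat p a < padicValRat p j := by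
  rcases lt_trichotomy (padicValRat p a) (padicValRat p j) with h | h | h
  · exact h
  · exact absurd (h ▸ ea) (Int.not_even_iff_odd.2 oj)
  · rw [add_comm, padicValRat.add_eq_of_lt (by rwa [add_comm]) (ne_of_odd oj) ha h] at es
    exact absurd es (Int.not_even_iff_odd.2 oj)

theorem val_two_pow (hp : p ≠ 2) (k : ℕ) : padicValRat p (2 ^ k) = 0 := by
  have : padicValRat p ((2 : ℕ) : ℚ) = 0 := by
    rw [padicValRat.of_nat, padicValNat_primes hp]; rfl
  rw [padicValRat.pow]; simp_all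

end val

theorem sound_R0 : Sound R0 := by
  rintro w G ⟨⟨r, A, B, h1, h2, hB⟩, hG⟩
  refine ⟨hG, fun p hp h2' ow => ?_⟩
  have := Fact.mk hp
  by_contra oG
  rw [Int.not_even_iff_odd] at oG
  have n1 : 4 + r ^ 2 ≠ 0 := by positivity
  have hA : A ≠ 0 := by rintro rfl; simp [h1] at n1
  have o1 : Odd (padicValRat p (4 + r ^ 2)) := by
    rw [h1, val_mul_sq (ne_of_odd ow) hA]; exact ow.add_even (even_two_mul _)
  have o2 : Odd (padicValRat p (4 - r ^ 2)) := by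
    rw [h2, val_mul_sq hG hB]; exact oG.add_even (even_two_mul _)
  have v4 : padicValRat p 4 = 0 := by simpa [show (2 : ℚ) ^ 2 = 4 by norm_num] using val_two_pow h2' 2
  have v8 : padicValRat p 8 = 0 := by simpa [show (2 : ℚ) ^ 3 = 8 by norm_num] using val_two_pow h2' 3
  -- `4 = (4 + r²) - r²`
  have hr : r ≠ 0 := by rintro rfl; simp [v4] at o1
  have er : Even (padicValRat p (r ^ 2)) := by rw [padicValRat.pow]; exact even_two_mul _
  have l1 := lt_of_parity (p := p) (a := -4) (j := 4 + r ^ 2) (by norm_num)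
    (by simpa using hr) (by simp [v4]) o1 (by simp)
  have e4 : -4 + (4 - r ^ 2) = -r ^ 2 := by ring
  have l2 := lt_of_parity (p := p) (a := -4) (j := 4 - r ^ 2) (by norm_num)
    (by rw [e4]; simpa using hr) (by simp [v4]) o2 (by rwa [e4, padicValRat.neg])
  have := padicValRat.min_le_padicValRat_add (p := p) (q := 4 + r ^ 2) (r := 4 - r ^ 2) (by norm_num)
  rw [show 4 + r ^ 2 + (4 - r ^ 2) = 8 by ring, v8] at this
  simp only [padicValRat.neg, v4] at l1 l2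
  omega

theorem sound_step {R : ℚ → ℚ → Prop} (h : Sound R) : Sound (Step R) := by
  rintro w d ⟨hd, x, y, z, hx, hy, hz, hu, hv, ha⟩
  refine ⟨hd, fun p hp h2 ow => ?_⟩
  have := Fact.mk hp
  obtain ⟨x0, ex⟩ := h _ _ hx
  obtain ⟨y0, ey⟩ := h _ _ hy
  obtain ⟨z0, ez⟩ := h _ _ hz
  obtain ⟨u0, eu⟩ := h _ _ hu
  obtain ⟨v0, ev⟩ := h _ _ hv
  obtain ⟨a0, ea⟩ := h _ _ ha
  have w0 := ne_of_odd ow
  have og : ∀ {x : ℚ}, x ≠ 0 → Even (padicValRat p x) → Odd (padicValRat p (144 * w * x)) := by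
    intro x x0 ex
    rw [show 144 * w * x = w * x * 12 ^ 2 by ring, val_mul_sq (mul_ne_zero w0 x0) (by norm_num),
      padicValRat.mul w0 x0]
    exact (ow.add_even ex).add_even (even_two_mul _)
  set a := d * z - 144 * w * x - 144 * w * y with hadef
  have e1 : a + 144 * w * x = d * z - 144 * w * y := by rw [hadef]; ring
  have e2 : a + 144 * w * y = d * z - 144 * w * x := by rw [hadef]; ring
  have l1 := lt_of_parity a0 (e1 ▸ v0) (ea p hp h2 ow) (og x0 (ex p hp h2 ow)) (e1 ▸ ev p hp h2 ow)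
  have l2 := lt_of_parity a0 (e2 ▸ u0) (ea p hp h2 ow) (og y0 (ey p hp h2 ow)) (e2 ▸ eu p hp h2 ow)
  have s1 := padicValRat.add_eq_of_lt (p := p) (e1 ▸ v0) a0 (ne_of_odd (og x0 (ex p hp h2 ow))) l1
  have e3 : a + 144 * w * x + 144 * w * y = d * z := by rw [hadef]; ring
  have s2 := padicValRat.add_eq_of_lt (p := p) (e3 ▸ mul_ne_zero hd z0) (e1 ▸ v0)
    (ne_of_odd (og y0 (ey p hp h2 ow))) (s1 ▸ l2)
  rw [e3, s1, padicValRat.mul hd z0] at s2
  have := ea p hp h2 ow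
  rw [← s2] at this
  exact (Int.even_add.1 this).2 (ez p hp h2 ow)

theorem sound_flip {R : ℚ → ℚ → Prop} (h : Sound R) : Sound (Flip R) := fun _ _ ⟨h1, h2⟩ =>
  ⟨h2, fun p hp h2' ow => by
    by_contra o
    exact Int.not_even_iff_odd.2 ow ((h _ _ h1).2 p hp h2' (Int.not_even_iff_odd.1 o))⟩

theorem sound_D2 : Sound D2 := sound_step (sound_flip (sound_step sound_R0))

theorem pos_of_D2 {w t N : ℚ} (h : D2 w ((1 + w * t ^ 2) * N ^ 2)) {p : ℕ} (hp : p.Prime) (h2 : p ≠ 2)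
    (ow : Odd (padicValRat p w)) : w * t ^ 2 = 0 ∨ 0 < padicValRat p (w * t ^ 2) := by
  have := Fact.mk hp
  obtain ⟨h0, he⟩ := sound_D2 _ _ h
  have he := he p hp h2 ow
  have h1 := left_ne_zero_of_mul h0
  have hN : N ≠ 0 := by rintro rfl; simp at h0
  rw [val_mul_sq h1 hN] at he
  by_cases ht : t = 0
  · simp [ht]
  · right
    have := lt_of_parity (p := p) one_ne_zero h1 (by simp)
      (by rw [val_mul_sq (ne_of_odd ow) ht]; exact ow.add_even (even_two_mul _))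
      ((Int.even_add.1 he).2 (even_two_mul _))
    simpa using this

theorem sound_J {w y : ℚ} (h : J w y) {p : ℕ} (hp : p.Prime) (h2 : p ≠ 2)
    (ow : Odd (padicValRat p w)) : y = 0 ∨ 0 < padicValRat p y := by
  have := Fact.mk hp
  obtain ⟨t, s, N, rfl, ht, hs⟩ := h
  by_cases h0 : w * t ^ 2 - w * s ^ 2 = 0
  · exact Or.inl h0
  right
  rcases pos_of_D2 ht hp h2 ow with a | a <;> rcases pos_of_D2 hs hp h2 ow with b | b
  · simp [a, b] at h0
  · simpa [a] using b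
  · simpa [b] using a
  · have := padicValRat.min_le_padicValRat_add (p := p) (q := w * t ^ 2) (r := -(w * s ^ 2))
      (by rwa [← sub_eq_add_neg])
    rw [padicValRat.neg, ← sub_eq_add_neg] at this
    omega

/-! ### completeness -/

theorem step_of (K : K4Stmt) {R : ℚ → ℚ → Prop} {w c D : ℕ} (hw : 0 < w) (hD : 0 < D)
    (h1 : D.Coprime (144 * w)) (h2 : c.Coprime (144 * w))
    (hR : ∀ q : ℕ, q.Prime → (q ≡ c [MOD 144 * w] ∨ q ≡ D * c [MOD 144 * w]) → R w q) :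
    Step R w D := by
  obtain ⟨x, y, z, u, v, a, px, py, pz, pu, pv, pa, cx, cy, cz, eu, ev, ea⟩ :=
    K (144 * w) D c (by positivity) (Dvd.dvd.mul_right (by norm_num) _) hD h1 h2
  have hz := cz.mul_left D
  have m : ∀ {q k : ℕ}, q + 144 * w * k = D * z → q ≡ D * c [MOD 144 * w] := fun {q k} e => by
    rw [← e] at hz
    exact (Nat.ModEq.symm (by simp [Nat.ModEq])).trans hz
  refine ⟨by positivity, x, y, z, hR x px (.inl cx), hR y py (.inl cy), hR z pz (.inl cz), ?_, ?_, ?_⟩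
  · convert hR u pu (.inr (m eu)) using 1
    rw [sub_eq_iff_eq_add]; exact_mod_cast eu.symm
  · convert hR v pv (.inr (m ev)) using 1
    rw [sub_eq_iff_eq_add]; exact_mod_cast ev.symm
  · convert hR a pa (.inr (m (k := x + y) (by rw [mul_add, ← add_assoc, ea]))) using 1
    rw [sub_sub, sub_eq_iff_eq_add, ← add_assoc]; exact_mod_cast ea.symm

theorem cop144 {p : ℕ} (hp : p.Prime) (h : p % 8 = 5 ∨ p % 8 = 1) : Nat.Coprime 144 p := by
  have h2 : Nat.Coprime 2 p := (Nat.coprime_primes Nat.prime_two hp).2 (by omega)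
  have h3 : Nat.Coprime 3 p := (Nat.coprime_primes Nat.prime_three hp).2 (by omega)
  simpa using (h2.pow_left 4).mul_left (h3.pow_left 2)

theorem mod_split {w c D q : ℕ} (hD : D % 8 = 1)
    (h : q ≡ c [MOD 144 * w] ∨ q ≡ D * c [MOD 144 * w]) :
    q % 8 = c % 8 ∧ ((q : ZMod w) = c ∨ (q : ZMod w) = D * c) := by
  rcases h with h | h
  · exact ⟨h.of_dvd (Dvd.dvd.mul_right (by norm_num) _),
      .inl ((ZMod.natCast_eq_natCast_iff _ _ _).2 (h.of_mul_left _))⟩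
  · refine ⟨?_, .inr (by exact_mod_cast (ZMod.natCast_eq_natCast_iff _ _ _).2 (h.of_mul_left _))⟩
    have : q % 8 = D * c % 8 := h.of_dvd (Dvd.dvd.mul_right (by norm_num) _)
    rw [this, Nat.mul_mod, hD]; simp

/-- level one -/
theorem D1_of (H : HGStmt) (K : K4Stmt) {p D : ℕ} (hp : p.Prime) (h5 : p % 8 = 5) (hD : D % 8 = 1)
    (h1 : D.Coprime (144 * p)) (hs : IsSquare (D : ZMod p)) : Step R0 p D := by
  have := Fact.mk hp
  obtain ⟨c, c1, c2⟩ := Nat.chineseRemainder (cop144 hp (.inl h5)) 19 2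
  have c2' : (c : ZMod p) = 2 := by exact_mod_cast (ZMod.natCast_eq_natCast_iff _ _ _).2 c2
  have n2 : ¬ IsSquare (2 : ZMod p) := by rw [ZMod.exists_sq_eq_two_iff (by omega)]; omega
  refine step_of K (c := c) hp.pos (by omega) h1 (Nat.Coprime.mul_right ?_ ?_) fun q hq h => ?_
  · rw [Nat.Coprime, c1.gcd_eq]; norm_num
  · rw [Nat.Coprime, c2.gcd_eq]; exact (Nat.coprime_primes Nat.prime_two hp).2 (by omega)
  obtain ⟨m8, mz⟩ := mod_split hD h
  have c8 : c % 8 = 19 % 8 := c1.of_dvd (by norm_num)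
  refine ⟨H p q hp hq h5 (by omega) ?_, by exact_mod_cast hq.ne_zero⟩
  rcases mz with e | e <;> rw [e, c2']
  · exact n2
  · obtain ⟨k, hk⟩ := hs
    have k0 : k ≠ 0 := by
      rintro rfl
      rw [mul_zero, ZMod.natCast_eq_zero_iff] at hk
      exact hp.one_lt.ne' (Nat.eq_one_of_dvd_coprimes h1 hk (dvd_mul_left _ _))
    rintro ⟨m, hm⟩
    exact n2 ⟨m / k, by rw [hk] at hm; field_simp; linear_combination hm⟩

/-- level two -/
theorem D2_of (H : HGStmt) (K : K4Stmt) {l D : ℕ} (hl : l.Prime) (h1 : l % 8 = 1) (hD : D % 8 = 1)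
    (hc : D.Coprime (144 * l)) (hs : IsSquare (D : ZMod l)) : D2 l D := by
  have := Fact.mk hl
  obtain ⟨c, c1, c2⟩ := Nat.chineseRemainder (cop144 hl (.inr h1)) 5 1
  have c2' : (c : ZMod l) = 1 := by exact_mod_cast (ZMod.natCast_eq_natCast_iff _ _ _).2 c2
  refine step_of K (c := c) hl.pos (by omega) hc (Nat.Coprime.mul_right ?_ ?_) fun p hp h => ?_
  · rw [Nat.Coprime, c1.gcd_eq]; norm_num
  · rw [Nat.Coprime, c2.gcd_eq]; simp
  obtain ⟨m8, mz⟩ := mod_split hD h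
  have c8 : c % 8 = 5 % 8 := c1.of_dvd (by norm_num)
  have := Fact.mk hp
  refine ⟨D1_of H K hp (by omega) h1 (Nat.Coprime.mul_right (cop144 hl (.inr h1)).symm
    ((Nat.coprime_primes hl hp).2 (by omega))) ?_, by exact_mod_cast hp.ne_zero⟩
  rw [← ZMod.exists_sq_eq_prime_iff_of_mod_four_eq_one (by omega) (by omega)]
  rcases mz with e | e <;> rw [e, c2']
  · exact IsSquare.one
  · simpa using hs

theorem D2_form (H : HGStmt) (K : K4Stmt) {l N : ℕ} (hl : l.Prime) (h1 : l % 8 = 1) (hN : ¬ l ∣ N)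
    (k : ℤ) : D2 l ((24 * N) ^ 2 + l * (1 + 144 * k) ^ 2) := by
  have := Fact.mk hl
  obtain ⟨T, hT⟩ : ∃ T : ℕ, (T : ℤ) = (1 + 144 * k) ^ 2 := ⟨_, Int.toNat_of_nonneg (sq_nonneg _)⟩
  have T1 : T % 144 = 1 := by
    have : (T : ℤ) = 1 + 144 * (2 * k + 144 * k ^ 2) := by rw [hT]; ring
    omega
  have hm : (24 * N) ^ 2 + l * T ≡ l [MOD 144] := by
    have : l * T ≡ l * 1 [MOD 144] := Nat.ModEq.mul_left _ T1
    rw [show (24 * N) ^ 2 = 144 * (4 * N ^ 2) by ring]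
    simpa [Nat.ModEq] using this
  have h := D2_of H K (D := (24 * N) ^ 2 + l * T) hl h1 ?_ (Nat.Coprime.mul_right ?_ ?_) ?_
  · convert h using 1
    have : (T : ℚ) = (1 + 144 * k) ^ 2 := by exact_mod_cast hT
    push_cast; rw [this]
  · exact Eq.trans (hm.of_dvd (by norm_num : 8 ∣ 144)) h1
  · rw [Nat.Coprime, hm.gcd_eq]; exact (cop144 hl (.inr h1)).symm
  · rw [Nat.coprime_add_mul_left_left]
    refine Nat.Coprime.pow_left _ (Nat.Coprime.mul_left ?_ ((hl.coprime_iff_not_dvd.2 hN).symm))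
    exact Nat.Coprime.coprime_dvd_left (by norm_num) (cop144 hl (.inr h1))
  · exact ⟨24 * N, by push_cast; simp [sq]⟩

theorem J_of (H : HGStmt) (K : K4Stmt) {l : ℕ} (hl : l.Prime) (h1 : l % 8 = 1) {y : ℚ}
    (hy : y = 0 ∨ 0 < padicValRat l y) : J l y := by
  have := Fact.mk hl
  have l0 : (l : ℚ) ≠ 0 := by exact_mod_cast hl.ne_zero
  set c : ℚ := y / l with hc
  have hN : ¬ l ∣ c.den := by
    intro hd
    have c0 : c ≠ 0 := by
      intro e; rw [e] at hd; exact hl.one_lt.ne' (by simpa using hd)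
    have y0 : y ≠ 0 := by rintro rfl; simp [hc] at c0
    have v : 0 ≤ padicValRat l c := by
      rw [hc, padicValRat.div y0 l0, padicValRat.self hl.one_lt]
      have := hy.resolve_left y0; omega
    have n : ¬ (l : ℤ) ∣ c.num := fun h => hl.one_lt.ne' (Nat.eq_one_of_dvd_coprimes c.reduced
      (Int.natCast_dvd.1 h) hd)
    have := one_le_padicValNat_of_dvd c.den_nz hd
    rw [padicValRat_def, padicValInt.eq_zero_of_not_dvd n] at v
    omega
  have d0 : (c.den : ℚ) ≠ 0 := by exact_mod_cast c.den_nz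
  have e : (c.num : ℚ) = c * c.den := by rw [Rat.mul_den_eq_num]
  refine ⟨(1 + 144 * (c.num * c.den)) / (24 * c.den), (1 + 144 * (-(c.num * c.den))) / (24 * c.den),
    24 * c.den, ?_, ?_, ?_⟩
  · have : y = l * c := by rw [hc]; field_simp
    rw [e]; nth_rw 1 [this]; field_simp; ring
  · convert D2_form H K hl h1 hN (c.num * c.den) using 1
    push_cast; field_simp
  · convert D2_form H K hl h1 hN (-(c.num * c.den)) using 1
    push_cast; field_simp

theorem jGlue : JGlue := fun H K =>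
  ⟨J, dio_J, fun _ _ h _ hp h2 ow => sound_J h hp h2 ow, fun _ hl h1 _ hy => J_of H K hl h1 hy⟩

end Crest.Agent.T15.Q
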