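import Crest.Agent.T15.Sel_78
import Crest.Agent.T15.TopH_88

/-!
# Row 15, block R (helper78): `RT.Glob` and `RT.Sel` in the words of `TopH_88`
-/

set_option autoImplicit false

noncomputable section

namespace Crest.Agent.T15.Sel

open Matrix Module IsLocalRing NumberField
open Crest.Agent.T15.Ps Crest.Agent.T15.C Crest.Agent.T15.Top Crest.Agent.T15.Pat
open Crest.Agent.R018.Placesx484

/-- **BLOCK Fl**: the local bound at `3` -/
def L3Stmt (X : Lc) : Prop :=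
  ∀ (k : Type) [Field k] [Finite k] [CharP k 3] (ρ : Gam →* M2 k), Hyp ρ → Loc ρ X.P →
    L3 X.w X.G X.r ρ X.P

/-- the bound with a linear form gives the dependence of two classes -/
theorem dep_of_lin {k : Type} [Field k] {ρ : Gam →* M2 k} {D K : Subgroup Gam}
    (h : ∀ (V : Type) [AddCommGroup V] [Module k V] (c : V →ₗ[k] (Gam → M2 k)), (∀ v, Cls ρ (c v)) →
      (∀ v, Triv ρ (c v) K) → ∃ l : V →ₗ[k] k, ∀ v, l v = 0 → Triv ρ (c v) D)
    {c c' : Gam → M2 k} (hc : Cls ρ c) (hc' : Cls ρ c') (h0 : Triv ρ c K) (h0' : Triv ρ c' K) :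
    ∃ a b : k, (a ≠ 0 ∨ b ≠ 0) ∧ Triv ρ (a • c + b • c') D := by
  let φ : (k × k) →ₗ[k] (Gam → M2 k) :=
    (LinearMap.toSpanSingleton k _ c).coprod (LinearMap.toSpanSingleton k _ c')
  have hφ : ∀ v g, φ v g = v.1 • c g + v.2 • c' g := fun _ _ => rfl
  obtain ⟨U, hU, hcU⟩ := hc.opn
  obtain ⟨U', hU', hcU'⟩ := hc'.opn
  obtain ⟨l, hl⟩ := h (k × k) φ (fun v =>
    { add := fun n n' hn hn' => by
        rw [hφ, hφ, hφ, hc.add n n' hn hn', hc'.add n n' hn hn', smul_add, smul_add]; abel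
      conj := fun g n hn => by
        rw [hφ, hφ, hc.conj g n hn, hc'.conj g n hn]
        simp only [mul_add, add_mul, mul_smul_comm, smul_mul_assoc]
      tr := fun n hn => by
        rw [hφ, trace_add, trace_smul, trace_smul, hc.tr n hn, hc'.tr n hn]; simp
      opn := ⟨U ⊓ U', hU.inter hU', fun n hn h1 => by
        rw [hφ, hcU n hn.1 h1, hcU' n hn.2 h1]; simp⟩ })
    fun v g hg h1 => by rw [hφ, h0 g hg h1, h0' g hg h1]; simp
  have : LinearMap.ker l ≠ ⊥ := LinearMap.ker_ne_bot_of_finrank_lt (by simp)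
  obtain ⟨v, hv, hv0⟩ := Submodule.exists_mem_ne_zero_of_ne_bot this
  exact ⟨v.1, v.2, by
    by_contra hc
    rw [not_or, not_not, not_not] at hc
    exact hv0 (Prod.ext hc.1 hc.2), hl v hv⟩

lemma bar_eq_mp {R k : Type*} [CommRing R] [CommRing k] [Algebra R k] (σ : Gam →* M2 R) :
    bar k σ = mp (algebraMap R k) σ := rfl

lemma bar_residue {O : Type*} [CommRing O] [IsLocalRing O] (ρ : Gam →* M2 O) :
    bar (ResidueField O) ρ = mp (residue O) ρ := rfl

lemma bar_Cn {O : Type} [CommRing O] (n : ℕ) (ρ : Gam →* M2 O) :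
    bar (Cn O n) ρ = mp (Ideal.Quotient.mk (Ideal.span {(3 : O) ^ n})) ρ := rfl

lemma opn_of_op {M : Type*} [Monoid M] {f : Gam →* M} (h : Op f) : RT.Opn f := opn_of_isOpen h

lemma op_of_opn {M : Type*} [Monoid M] {f : Gam →* M} (h : RT.Opn f) : Op f := isOpen_ker h

/-- complex conjugation -/
theorem exists_cc : ∃ c : Gam, c * c = 1 ∧ ∀ (ζ : Om) (n : ℕ), n ≠ 0 → ζ ^ n = 1 → c ζ = ζ⁻¹ := by
  let φ : Om →ₐ[ℚ] ℂ := IsAlgClosed.lift
  obtain ⟨σ, hσ⟩ := ComplexEmbedding.exists_comp_symm_eq_of_comp_eq (k := ℚ) (φ : Om →+* ℂ)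
    (ComplexEmbedding.conjugate (φ : Om →+* ℂ)) (Subsingleton.elim _ _)
  have hc : ComplexEmbedding.IsConj (φ : Om →+* ℂ) σ.symm := hσ.symm
  refine ⟨σ.symm, AlgEquiv.ext (ComplexEmbedding.isConj_apply_apply hc), fun ζ n hn h => ?_⟩
  apply (φ : Om →+* ℂ).injective
  rw [hc.eq, map_inv₀, Complex.inv_eq_conj (Complex.norm_eq_one_of_pow_eq_one
    (by rw [← map_pow, h, map_one]) hn)]
  rfl

lemma irr_of_hyp {k : Type} [Field k] {ρ : Gam →* M2 k} (h : Hyp ρ) : Irr ρ := fun v hv => by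
  have h1 : ∀ A : M2 k, A *ᵥ v ∈ Submodule.span k {v} := fun A => by
    have hA : A ∈ Submodule.span k (ρ '' {g | g om = om}) := h.span ▸ Submodule.mem_top
    induction hA using Submodule.span_induction with
    | mem x hx =>
      obtain ⟨g, -, rfl⟩ := hx
      obtain ⟨t, ht⟩ := hv g
      exact Submodule.mem_span_singleton.2 ⟨t, ht.symm⟩
    | zero => simp
    | add x y _ _ hx hy => rw [add_mulVec]; exact add_mem hx hy
    | smul a x _ hx => rw [smul_mulVec]; exact Submodule.smul_mem _ _ hx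
  obtain ⟨a, ha⟩ := Submodule.mem_span_singleton.1 (h1 !![0, 1; 0, 0])
  obtain ⟨b, hb⟩ := Submodule.mem_span_singleton.1 (h1 !![0, 0; 1, 0])
  have a0 := congrFun ha 0
  have a1 := congrFun ha 1
  have b0 := congrFun hb 0
  have b1 := congrFun hb 1
  simp [mulVec, dotProduct, Fin.sum_univ_two] at a0 a1 b0 b1
  have h2 : v 1 = 0 := a1.elim (fun h => by rw [← a0, h, zero_mul]) id
  have h3 : v 0 = 0 := b0.elim (fun h => by rw [← b1, h, zero_mul]) id
  ext i; fin_cases i <;> simp [h2, h3]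

section coef
variable (O : Type) [CommRing O] [IsDomain O] [IsDiscreteValuationRing O] [hO : Coef O]

lemma cpt_coef : Cpt (maximalIdeal O) :=
  haveI := hO.cpl
  haveI : Finite (O ⧸ maximalIdeal O) := hO.fin
  cpt_of _

lemma charP_coef : CharP (ResidueField O) 3 :=
  (CharP.charP_iff_prime_eq_zero Nat.prime_three).2 (by
    rw [← map_natCast (residue O), residue_eq_zero_iff]; exact_mod_cast hO.h3)

lemma span_three_le (n : ℕ) : Ideal.span {(3 : O) ^ n} ≤ maximalIdeal O ^ n :=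
  (Ideal.span_singleton_le_iff_mem _).2 (Ideal.pow_mem_pow hO.h3 n)

lemma ker_Cn (n : ℕ) : RingHom.ker (algebraMap O (Cn O n)) ≤ maximalIdeal O ^ n := by
  rw [Ideal.Quotient.algebraMap_eq, Ideal.mk_ker]; exact span_three_le O n

lemma finite_Cn (n : ℕ) : Finite (Cn O n) := by
  have := hO.cz
  obtain ⟨m, hm⟩ : ∃ m, maximalIdeal O ^ m ≤ Ideal.span {(3 : O) ^ n} := by
    obtain ⟨ϖ, hϖ⟩ := IsDiscreteValuationRing.exists_irreducible O
    obtain ⟨m, hm⟩ := IsDiscreteValuationRing.associated_pow_irreducible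
      (pow_ne_zero n (by norm_num : (3 : O) ≠ 0)) hϖ
    exact ⟨m, by
      rw [hϖ.maximalIdeal_eq, Ideal.span_singleton_pow, Ideal.span_singleton_le_span_singleton]
      exact hm.dvd⟩
  have := (cpt_coef O).fin m
  exact Finite.of_surjective _ (Ideal.Quotient.factor_surjective hm)

variable {O}

lemma eq_of_forall_three {a b : O} (h : ∀ n, a - b ∈ Ideal.span {(3 : O) ^ n}) : a = b :=
  sub_eq_zero.1 ((cpt_coef O).eq_zero fun n => span_three_le O n (h n))

lemma det_cc {ρ : Gam →* M2 O} (h : DetCyc ρ) : ∃ c : Gam, c * c = 1 ∧ (ρ c).det = -1 := by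
  obtain ⟨c, h1, h2⟩ := exists_cc
  refine ⟨c, h1, eq_of_forall_three fun n => ?_⟩
  have : NeZero ((3 ^ n : ℕ) : Om) := ⟨by norm_num⟩
  obtain ⟨ζ, hζ⟩ := HasEnoughRootsOfUnity.exists_primitiveRoot Om (3 ^ n)
  have hp : 1 ≤ 3 ^ n := Nat.one_le_pow _ _ three_pos
  have h3 := h c n (3 ^ n - 1) ζ hζ (by
    rw [h2 ζ _ (by omega) hζ.pow_eq_one]
    exact (eq_inv_of_mul_eq_one_left (by rw [← pow_succ, Nat.sub_add_cancel hp, hζ.pow_eq_one])).symm)
  have h4 := add_mem h3 (Ideal.mem_span_singleton_self ((3 : O) ^ n))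
  rw [Nat.cast_sub hp] at h4
  convert h4 using 1
  push_cast; ring

/-- **the global hypotheses of `R = T`** -/
theorem glob_top {X : Lc} {ρ : Gam →* M2 O} {N : ℕ} (hR : Res (mp (residue O) ρ) N)
    (hL : Lift X ρ) {Λ : Type} {Pl : Λ → Place Om} (hPl : ∀ l, (Pl l).rchar ∣ N) :
    RT.Glob 3 ρ Pl where
  prime := Nat.prime_three
  odd := by norm_num
  pmem := by exact_mod_cast hO.h3
  cpt := cpt_coef O
  irr := irr_of_hyp hR.hyp
  conjc := det_cc hL.det
  rchar l h := hR.three (h ▸ hPl l)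
  tame l g hg h := hL.min _ (fun h => hR.three (h ▸ hPl l)) g hg h
  reg l := by
    obtain ⟨g, hg, h⟩ := hR.ram _ (hPl l)
    refine ⟨g, hg, (residue_ne_zero_iff_isUnit _).1 ?_⟩
    rw [disc, trace_mp] at h
    rw [map_sub, map_pow, map_mul, map_ofNat, RingHom.map_det]
    exact h

/-- **the Selmer bound** for `C = O / 3^n` -/
theorem sel_top {X : Lc} (h3 : L3Stmt X) {ρ : Gam →* M2 O} {N : ℕ} (hR : Res (mp (residue O) ρ) N)
    (hL : Lift X ρ) {Λ : Type} {Pl : Λ → Place Om}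
    (hPl : ∀ l : ℕ, l.Prime → l ∣ N → ∃ j, (Pl j).rchar = l) (n : ℕ) {H : Type} [AddCommGroup H]
    [Module O H] [Finite H] {ρH : Gam →* Module.End O H} {Δ : Type} [CommGroup Δ] {δ : Gam →* Δ}
    {Q : Finset ℕ} {r : ℕ} (hB : Bound (mp (residue O) ρ) Q r) (hQ : 3 ∉ Q)
    (hδ : ∀ P : Plc, P.rchar ∉ Q → ∀ g ∈ In P, δ g = 1)
    (hH : ∀ P : Plc, ¬ P.rchar ∣ 3 * N → P.rchar ∉ Q → ∀ g ∈ In P, ρH g = 1)
    (hfl : X.Fl fun g (x : H) => ρH g x) : RT.Sel r ρ Pl (Cn O n) ρH δ := by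
  have := charP_coef O
  have := finite_Cn O n
  have := hO.fin
  refine sel_of hR.hyp.idx hB X.h3 (h3 _ _ hR.hyp (hR.loc _ X.h3))
    (fun g => hδ _ (X.h3 ▸ hQ) _ (X.r_mem g)) hfl (hL.flat n) fun P h1 h2 => ?_
  by_cases h : P.rchar ∣ N
  · exact Or.inl (hPl _ P.rchar_prime h)
  · have h4 : ¬ P.rchar ∣ 3 * N := fun h4 => ((P.rchar_prime.dvd_mul).1 h4).elim
      (fun h5 => h1 ((Nat.prime_dvd_prime_iff_eq P.rchar_prime Nat.prime_three).1 h5)) h
    refine Or.inr fun g hg => ⟨hδ P h2 g hg, hH P h4 h2 g hg, ?_⟩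
    show (algebraMap O (Cn O n)).mapMatrix (ρ g) = 1
    rw [hL.min P h1 g hg (hR.unr P h4 g hg), map_one]

end coef

end Crest.Agent.T15.Sel

end
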