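import Crest.Agent.T15.RDef_20
import Crest.Agent.T15.SelT_78
import Crest.Agent.T15.HkF4_62

/-!
# Row 15, block R (helper78): a Taylor-Wiles module `TLev` gives a level `RT.LevE`
-/

set_option autoImplicit false

noncomputable section

namespace Crest.Agent.T15.R

open Matrix IsLocalRing Function NumberField
open Crest.Agent.T15.Ps Crest.Agent.T15.Pat Crest.Agent.T15.Hk Crest.Agent.T15.Eig
open Crest.Agent.T15.C (Gam Om In De)
open Crest.Agent.T15.Top

/-- a commuting family generates a commutative ring -/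
lemma exists_commAlg {O E κ : Type} [CommRing O] [Ring E] [Algebra O E] (s : κ → E)
    (h : ∀ i j, Commute (s i) (s j)) :
    ∃ (A : Type) (_ : CommRing A) (_ : Algebra O A) (ac : A →ₐ[O] E) (s' : κ → A),
      Injective ac ∧ (∀ i, ac (s' i) = s i) ∧ Algebra.adjoin O (Set.range s') = ⊤ := by
  let _ : CommRing (Algebra.adjoin O (Set.range s)) :=
    { (inferInstance : Ring (Algebra.adjoin O (Set.range s))) with
      mul_comm := fun x y => Subtype.ext (Algebra.commute_of_mem_adjoin_of_forall_mem_commute y.2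
        fun b hb => (Algebra.commute_of_mem_adjoin_of_forall_mem_commute x.2
          fun a ha => by
            obtain ⟨i, rfl⟩ := ha
            obtain ⟨j, rfl⟩ := hb
            exact h j i).symm) }
  refine ⟨Algebra.adjoin O (Set.range s), inferInstance, inferInstance, Subalgebra.val _,
    fun i => ⟨s i, Algebra.subset_adjoin ⟨i, rfl⟩⟩, Subtype.val_injective, fun _ => rfl, ?_⟩
  apply Subalgebra.map_injective (f := (Algebra.adjoin O (Set.range s)).val) Subtype.val_injective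
  rw [AlgHom.map_adjoin, ← Set.range_comp, Algebra.map_top, Subalgebra.range_val]
  rfl

/-- Frobenius on roots of unity -/
lemma frob_root' {P : Plc} {s : Gam} (h : IsFr P s) {m : ℕ} (hm : ¬ P.rchar ∣ m) {ζ : Om}
    (hζ : ζ ^ m = 1) : s ζ = ζ ^ P.rchar := by
  have hm0 : 0 < m := Nat.pos_of_ne_zero fun h0 => hm (h0 ▸ dvd_zero _)
  let z : 𝓞 Om := ⟨ζ, IsIntegral.of_pow hm0 (hζ ▸ isIntegral_one)⟩
  have hz : z ^ m = 1 := by
    apply RingOfIntegers.ext; push_cast; exact hζ
  have := P.isMaximal.isPrime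
  have h4 : s • z = z ^ P.rchar := T27.root_eq_of_sub_mem_79 P.ideal (q := m) (a := 1)
    (by rw [← smul_pow', hz, smul_one]) (by rw [pow_right_comm, hz, one_pow])
    (fun h => hm ((P.natCast_mem_iff m).1 h)) ((Ideal.ne_top_iff_one _).1 this.ne_top) (h z)
  exact congrArg (fun w : 𝓞 Om => (w : Om)) h4

/-- the determinant of Frobenius -/
lemma det_frob {O : Type} [CommRing O] [IsDomain O] [IsDiscreteValuationRing O] [Coef O]
    {ρ : Gam →* M2 O} (h : DetCyc ρ) {P : Plc} {s : Gam} (h3 : P.rchar ≠ 3) (hs : IsFr P s) :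
    (ρ s).det = P.rchar := Sel.eq_of_forall_three fun n => by
  have : NeZero ((3 ^ n : ℕ) : Om) := ⟨by norm_num⟩
  obtain ⟨ζ, hζ⟩ := HasEnoughRootsOfUnity.exists_primitiveRoot Om (3 ^ n)
  exact h s n _ ζ hζ (frob_root' hs (fun hd => h3 ((Nat.prime_dvd_prime_iff_eq P.rchar_prime
    Nat.prime_three).1 (P.rchar_prime.dvd_of_dvd_pow hd))) hζ.pow_eq_one)

lemma Gd.ne_three {L p : ℕ} (h : Gd L p) : p ≠ 3 := fun e => h.2 (e ▸ dvd_mul_right 3 L)

variable {G : Type} [Group G]

/-- the size of `Hom(Γ, C)` -/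
lemma exists_card_le (Γ : Subgroup G) [Group.FG Γ] : ∃ s : ℕ, ∀ (C : Type) [AddCommGroup C]
    [Finite C], Nat.card (HH Γ C) ≤ Nat.card C ^ s := by
  obtain ⟨S, hS, hf⟩ := Group.fg_iff.1 (inferInstance : Group.FG Γ)
  have := hf.to_subtype
  refine ⟨Nat.card S, fun C _ _ => ?_⟩
  rw [← Nat.card_fun]
  refine Nat.card_le_card_of_injective (fun (φ : HH Γ C) (s : S) => φ (Additive.ofMul s.1))
    fun φ ψ h => ?_
  refine AddMonoidHom.toMultiplicativeRight.injective (MonoidHom.eq_of_eqOn_dense hS fun s hs => ?_)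
  exact congrArg Multiplicative.ofAdd (congrFun h ⟨s, hs⟩)

/-- Chebotarev: a good Frobenius element in every class of an open normal subgroup -/
lemma cheb_good {L r : ℕ} (hL : 0 < L) (q : Fin r → ℕ) (U : Subgroup Gam) [U.Normal]
    (hU : IsOpen (U : Set Gam)) (g : Gam) : ∃ (P : Plc) (s : Gam), Gd L P.rchar ∧
      (∀ i, P.rchar ≠ q i) ∧ IsFr P s ∧ g⁻¹ * s ∈ U := by
  obtain ⟨P, s, h1, -, h2, -, h3⟩ := Cheb.cheb_inf U hU g (3 * L + ∑ i, q i)
  refine ⟨P, s, ⟨P.rchar_prime, fun h => ?_⟩, fun i h => ?_, h2, h3⟩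
  · have := Nat.le_of_dvd (by omega) h; omega
  · have := Finset.single_le_sum (f := q) (fun _ _ => Nat.zero_le _) (Finset.mem_univ i); omega

lemma eq_of_mem_ker {M : Type*} [Monoid M] {f : Gam →* M} {g s : Gam} (h : g⁻¹ * s ∈ f.ker) :
    f s = f g := by
  rw [← mul_inv_cancel_left g s, map_mul, show f (g⁻¹ * s) = 1 from h, mul_one]

/-- **`TLev` gives a level of the abstract `R = T` theorem** -/
theorem levE_of {X : Lc} {O : Type} [CommRing O] [IsDomain O] [IsDiscreteValuationRing O] [Coef O]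
    {ρ : Gam →* M2 O} {N L : ℕ} {a : ℕ → O} (hR : Res (mp (residue O) ρ) N) (hL : Lift X ρ)
    (ha : IsTr ρ (3 * L) a) (hL0 : 0 < L) (hLN : ∀ l : ℕ, l.Prime → (l ∣ L ↔ l ∣ N))
    {Λ : Type} {Pl : Λ → Plc} (hPl : ∀ l : ℕ, l.Prime → l ∣ N → ∃ j, (Pl j).rchar = l)
    (hPl3 : ∀ j, (Pl j).rchar ≠ 3) (h3 : L3Out X) {n r : ℕ} {q : Fin r → ℕ}
    (hB : Sel.Bound (mp (residue O) ρ) (Finset.univ.image q) r) (hq : ∀ i, Gd L (q i))
    {Γ : Subgroup G} [Group.FG Γ] [IsFreeGroup Γ] {c : ℕ → Corr ℤ Γ Γ} {s : ℕ}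
    (hs : Nat.card (HH Γ (Cn O (n + 1))) ≤ Nat.card (Cn O (n + 1)) ^ s)
    {v₀ : HH Γ O} {γ : Additive Γ} (hv : v₀ γ = 1) {b : ℕ → O}
    (hb : ∀ p, Gd L p → b p - a p ∈ maximalIdeal O ∧ T O (c p) v₀ = b p • v₀)
    {σ : Gam →* M2 (Cn O (n + 1))} (hσo : Op σ)
    (hσ : IsTr σ (3 * L) fun l => algebraMap O _ (b l))
    (hσI : ∀ P : Plc, P.rchar ≠ 3 → ∀ g ∈ In P, mp (residue O) ρ g = 1 → σ g = 1)
    {fr : {p // Gd L p} → Gam} (hfr : ∀ i, ∃ P : Plc, P.rchar = i.1 ∧ IsFr P (fr i))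
    {p : FreeAlgebra ℤ {p // Gd L p}}
    (hp : p ∈ Algebra.adjoin ℤ (FreeAlgebra.ι ℤ '' {i | ∀ j, i.1 ≠ q j}))
    (hW : W ℚ (fun i : {p // Gd L p} => c i.1) p = 0)
    {Δ : Type} [CommGroup Δ] [Fintype Δ] {del : Fin r → Δ} {δ : Gam →* Δ}
    {H : Type} [AddCommGroup H] [Module O H] [Module (Cn O (n + 1)) H]
    [IsScalarTower O (Cn O (n + 1)) H] {ρH : Gam →* Module.End O H}
    {Tp : ℕ → Module.End O H} {dia : Δ →* Module.End O H} {kap : H →+ HH Γ (Cn O (n + 1))}
    {lam : HH Γ (Cn O (n + 1)) →ₗ[Cn O (n + 1)] H}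
    (Y : TLev X c L a n q del δ ρH Tp dia kap lam) :
    RT.LevE (maximalIdeal O) 3 n r 1 s ρ Pl
      (FreeAlgebra.lift ℤ (fun i => (MvPolynomial.X (fr i) : MvPolynomial Gam O)) p) := by
  have := (inferInstance : Coef O).cz
  have hCfin := Sel.finite_Cn O (n + 1)
  have hsurj : Surjective (algebraMap O (Cn O (n + 1))) := Ideal.Quotient.mk_surjective
  have hCnt : Nontrivial (Cn O (n + 1)) := Ideal.Quotient.nontrivial_iff.2 fun h =>
    (maximalIdeal.isMaximal O).ne_top (eq_top_iff.2 (h ▸ (Sel.span_three_le O (n + 1)).trans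
      (Ideal.pow_le_self n.succ_ne_zero)))
  have hsm : ∀ {o o' : O}, algebraMap O (Cn O (n + 1)) o = algebraMap O (Cn O (n + 1)) o' →
      ∀ x : H, o • x = o' • x := fun {o o'} h x => by
    rw [← algebraMap_smul (Cn O (n + 1)) o, h, algebraMap_smul]
  have hlin : ∀ (f : Module.End O H) (z : Cn O (n + 1)) (x : H), f (z • x) = z • f x :=
    fun f z x => by
      obtain ⟨o, rfl⟩ := hsurj z
      rw [algebraMap_smul, algebraMap_smul, map_smul]
  have : Finite (HH Γ (Cn O (n + 1))) := fin_HH _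
  obtain ⟨d, hd, m, hm1, hm2⟩ := Y.free
  have hHfin : Finite H := by
    have : Module.Finite (Cn O (n + 1)) H :=
      ⟨hm2 ▸ Submodule.fg_span (Set.finite_range _)⟩
    exact Module.finite_of_finite (Cn O (n + 1))
  let t : Gam → Module.End O H := fun g => ρH g + (ρ g).det • (dia (δ g) * ρH g⁻¹)
  have tfr : ∀ (P : Plc) (s : Gam), Gd L P.rchar → (∀ i, P.rchar ≠ q i) → IsFr P s →
      t s = Tp P.rchar := fun P s h1 h2 h4 => by
    rw [← Y.es P s h1 h2 h4, ← det_frob hL.det h1.ne_three h4]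
  have cheb : ∀ g, ∃ p, Gd L p ∧ (∀ i, p ≠ q i) ∧ t g = Tp p ∧
      algebraMap O (Cn O (n + 1)) (ρ g).trace = algebraMap O _ (a p) ∧
      (σ g).trace = algebraMap O _ (b p) := fun g => by
    obtain ⟨P, s, h1, h2, h4, ⟨⟨u1, u2⟩, u3⟩, u4⟩ := cheb_good hL0 q
      (ρH.ker ⊓ δ.ker ⊓ (bar (Cn O (n + 1)) ρ).ker ⊓ σ.ker)
      (((Y.opnH.inter Y.opnδ).inter (hL.op (n + 1))).inter hσo) g
    have e1 := eq_of_mem_ker u1
    have e3 := eq_of_mem_ker u3
    have e5 : ρH s⁻¹ = ρH g⁻¹ := by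
      rw [← mul_one (ρH s⁻¹), ← map_one ρH, ← mul_inv_cancel g, map_mul, ← e1, ← mul_assoc,
        ← map_mul, inv_mul_cancel, map_one, one_mul]
    refine ⟨P.rchar, h1, h2, ?_, ?_, ?_⟩
    · rw [← tfr P s h1 h2 h4]
      simp only [t, e1, eq_of_mem_ker u2, e5]
      congr 1
      refine LinearMap.ext fun x => hsm ?_ _
      rw [RingHom.map_det, RingHom.map_det]
      exact congrArg Matrix.det e3.symm
    · rw [← trace_bar, ← e3, trace_bar, ha P s h1.2 h4]
    · rw [← eq_of_mem_ker u4, hσ P s h1.2 h4]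
  have hdd : ∀ x y, Commute (dia x) (dia y) := fun x y => (Commute.all x y).map dia
  have htρ : ∀ g k, Commute (ρH k) (t g) := fun g k => by
    obtain ⟨p, h1, h2, h4, -⟩ := cheb g
    rw [h4]; exact Y.cgT k p h1 h2
  have htd : ∀ g x, Commute (dia x) (t g) := fun g x =>
    (Y.cgD g x).symm.add_right (((hdd x _).mul_right (Y.cgD _ x).symm).smul_right _)
  have htt : ∀ g k, Commute (t g) (t k) := fun g k =>
    (htρ g k).symm.add_right (((htd g _).symm.mul_right (htρ g _).symm).smul_right _)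
  obtain ⟨A, _, _, ac, e, hac, he, hgen⟩ := exists_commAlg (O := O) (Sum.elim t dia) (by
    rintro (g | x) (k | y)
    exacts [htt g k, (htd g y).symm, htd k x, hdd x y])
  let dia' : Δ →* A :=
    { toFun := fun x => e (Sum.inr x)
      map_one' := hac (by rw [he, map_one]; exact map_one dia)
      map_mul' := fun x y => hac (by rw [map_mul, he, he, he]; exact map_mul dia x y) }
  have hd' : ∀ x, ac (dia' x) = dia x := fun x => he _
  have ht' : ∀ g, ac (e (Sum.inl g)) = t g := fun g => he _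
  -- the eigenvector
  let v₁ : HH Γ (Cn O (n + 1)) := (algebraMap O (Cn O (n + 1))).toAddMonoidHom.comp v₀
  have hv₁ : ∀ p, Gd L p → T _ (c p) v₁ = algebraMap O (Cn O (n + 1)) (b p) • v₁ :=
    fun p hp => eig_map _ (hb p hp).2
  have hprim : ∀ z : Cn O (n + 1), z • lam v₁ = 0 → z = 0 := fun z hz => by
    have h1 := Y.lam0 (z • v₁) b (fun p hp => ⟨(hb p hp).1, by
      rw [smul_comm, ← hv₁ p hp]
      exact T_nat (c p) (DistribSMul.toAddMonoidHom _ z) v₁⟩) (by rw [map_smul, hz])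
    simpa [v₁, hv] using DFunLike.congr_fun h1 γ
  let _ : Module A H := Module.compHom H ac.toRingHom
  have hA : ∀ (s : A) (x : H), s • x = ac s x := fun _ _ => rfl
  have : IsScalarTower O A H := ⟨fun o s x => by rw [hA, hA, map_smul]; rfl⟩
  have : SMulCommClass A (Cn O (n + 1)) H := ⟨fun s z x => hlin _ z x⟩
  obtain ⟨θ, hθ, hθv⟩ := exists_char hgen hprim
    (b := Sum.elim (fun g => (σ g).trace) fun _ => 1) (by
      rintro (g | x)
      · obtain ⟨p, h1, h2, h4, -, h5⟩ := cheb g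
        rw [hA, ht', h4, Y.lamT p h1 h2, hv₁ p h1, map_smul, Sum.elim_inl, h5]
      · rw [hA, he, Sum.elim_inr, Sum.elim_inr, Y.lamD, one_smul])
  have hQ : ∀ {l : ℕ}, l ∉ Finset.univ.image q → ∀ i, l ≠ q i := fun h i e =>
    h (Finset.mem_image.2 ⟨i, Finset.mem_univ _, e.symm⟩)
  have hGd : ∀ {P : Plc}, Gd L P.rchar ↔ ¬ P.rchar ∣ 3 * N := fun {P} => by
    rw [Gd, and_iff_right P.rchar_prime, P.rchar_prime.dvd_mul, P.rchar_prime.dvd_mul,
      hLN _ P.rchar_prime]
  refine ⟨d, Cn O (n + 1), Cn O (n + 1), Δ, H, A, hd,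
    RT.nonempty_of_span hm2 (v := lam v₁) fun h => one_ne_zero (hprim 1 (by rw [h, smul_zero])),
    inferInstance, inferInstance, inferInstance, inferInstance, inferInstance, inferInstance,
    inferInstance, inferInstance, inferInstance, inferInstance, inferInstance,
    algebraMap O (Cn O (n + 1)), del, δ, ρH, ac, dia', fun g => e (Sum.inl g), θ.toRingHom,
    RT.card_le_of_kap (a := fun x => (dia x).toAddMonoidHom) (fun x => hlin _) hm1 kap
      Y.kap0 hs, hsurj,
    (Sel.ker_Cn O (n + 1)).trans (Ideal.pow_le_pow_right n.le_succ), ?_, ?_⟩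
  · refine
      { finC := hCfin
        surj := hsurj
        ker := Sel.ker_Cn O (n + 1)
        twg := Y.twg
        free := ⟨m, by simpa only [hd'] using hm1, by simpa only [hd'] using hm2⟩
        comm := fun g s => ?_
        opnH := Sel.opn_of_isOpen Y.opnH
        opnδ := Sel.opn_of_isOpen Y.opnδ
        opnρ := Sel.opn_of_op (hL.op (n + 1))
        ch := fun g => by rw [hd', ht']
        res := fun g => ?_
        tw := fun i => ?_
        thO := fun o => θ.commutes o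
        thD := fun x => hθ (Sum.inr x)
        thK := fun s hs => by rw [(map_eq_zero_iff ac hac).1 hs, map_zero]
        thI := fun l g hg h1 => (hθ (Sum.inl g)).trans (by
          rw [Sum.elim_inl, hσI _ (hPl3 l) g hg h1]; simp)
        sel := Sel.sel_top h3 hR hL hPl (n + 1) hB (fun h => ?_)
          (fun P h g hg => Y.unrδ P (hQ h) hg) (fun P h1 h2 g hg => Y.unrH P (hGd.2 h1) (hQ h2) hg)
          Y.flat }
    · refine Algebra.commute_of_mem_adjoin_of_forall_mem_commute (R := O)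
        (s := Set.range (Sum.elim t dia)) ?_ ?_
      · have h1 : ac s ∈ (Algebra.adjoin O (Set.range e)).map ac := ⟨s, hgen ▸ trivial, rfl⟩
        rwa [AlgHom.map_adjoin, ← Set.range_comp, show ac ∘ e = _ from funext he] at h1
      · rintro _ ⟨k | y, rfl⟩
        exacts [htρ k g, Y.cgD g y]
    · obtain ⟨p, h1, h2, h4, h5, -⟩ := cheb g
      have h6 : algebraMap O (Module.End O H) (ρ g).trace = algebraMap O _ (a p) :=
        LinearMap.ext (hsm h5)
      rw [map_sub, ht', AlgHom.commutes, h4, h6]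
      exact Y.res p h1 h2
    · obtain ⟨P, hP, τ, hτ, h1, h2⟩ := Y.tw i
      have h4 : ρ τ = 1 := hL.min P (hP ▸ (hq i).ne_three) τ hτ
        (hR.unr P (hGd.1 (hP ▸ hq i)) τ hτ)
      refine ⟨τ, h1, h4, ?_⟩
      have h5 : ρH τ * ρH τ⁻¹ = 1 := by rw [← map_mul, mul_inv_cancel, map_one]
      have h6 := congrArg (· * ρH τ⁻¹) h2
      simp only [mul_assoc, sub_mul, h5, zero_mul, mul_sub, mul_one, one_mul] at h6
      rw [← mul_assoc, (Y.cgD τ _).eq, mul_assoc, h5, mul_one] at h6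
      rw [pow_one, map_sub, map_sub, map_one, hd', ht']
      simp only [t, h4, det_one, one_smul, h1]
      rw [← h6]; abel
    · obtain ⟨i, -, hi⟩ := Finset.mem_image.1 h
      exact (hq i).ne_three hi
  · have h1 : W (Cn O (n + 1)) (fun i : {p // Gd L p} => c i.1) p = 0 := LinearMap.ext fun ψ => by
      obtain ⟨φ, rfl⟩ := comp_surj (f := (algebraMap O (Cn O (n + 1))).toAddMonoidHom) hsurj ψ
      rw [W_nat, kills_of_rat _ hW]; simp
    have h2 : ∀ x, kap (ac (MvPolynomial.aeval (fun g => e (Sum.inl g)) (FreeAlgebra.lift ℤ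
        (fun i => (MvPolynomial.X (fr i) : MvPolynomial Gam O)) p)) x) =
        W (Cn O (n + 1)) (fun i : {p // Gd L p} => c i.1) p (kap x) := by
      clear hW h1
      induction hp using Algebra.adjoin_induction with
      | mem y hy =>
        obtain ⟨i, hi, rfl⟩ := hy
        obtain ⟨P, hP, hf⟩ := hfr i
        intro x
        rw [FreeAlgebra.lift_ι_apply, MvPolynomial.aeval_X, ht', W_ι,
          tfr P _ (hP ▸ i.2) (hP ▸ hi) hf, hP, Y.kapT _ i.2 hi]
      | algebraMap z => intro x; simp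
      | add y z _ _ hy hz => intro x; simp only [map_add, LinearMap.add_apply, hy, hz]
      | mul y z _ _ hy hz => intro x; simp only [map_mul, Module.End.mul_apply, hy, hz]
    refine LinearMap.ext fun x => ?_
    simp only [map_mul, hd', LinearMap.sum_apply, Module.End.mul_apply, LinearMap.zero_apply]
    exact Y.kap0 _ (by rw [h2, h1, LinearMap.zero_apply])

end Crest.Agent.T15.R

end
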