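import Crest.Agent.T15.RG_20
import Crest.Agent.T15.RL_78
import Crest.Agent.T15.RT_3

/-!
# Row 15, block R (helper20): the assembly
-/

set_option autoImplicit false

noncomputable section

namespace Crest.Agent.T15.R

open Matrix IsLocalRing Function NumberField
open Crest.Agent.T15.Ps Crest.Agent.T15.Pat Crest.Agent.T15.Hk
open Crest.Agent.T15.C (Gam Om In De Hyp IsEig TWStmt)
open Crest.Agent.T15.Top (Lc Plc IsFr Coef Cn Mod Loc mp DetCyc IsTr Res Lift Op ThetaStmt ModStmt)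
open Crest.Agent.R018.Placesx484

/-- a non-commutative polynomial only involves finitely many variables -/
theorem exists_supp {ι : Type*} (f : ι → ℕ) (p : FreeAlgebra ℤ ι) : ∃ B : ℕ, ∀ Q : Set ℕ,
    (∀ q ∈ Q, B < q) → p ∈ Algebra.adjoin ℤ (FreeAlgebra.ι ℤ '' {i | f i ∉ Q}) := by
  induction p using FreeAlgebra.induction with
  | grade0 r => exact ⟨0, fun Q _ => Subalgebra.algebraMap_mem _ r⟩
  | grade1 i => exact ⟨f i, fun Q hQ => Algebra.subset_adjoin ⟨i, fun h => (hQ _ h).false, rfl⟩⟩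
  | mul p q hp hq =>
    obtain ⟨B, hB⟩ := hp
    obtain ⟨B', hB'⟩ := hq
    exact ⟨B + B', fun Q hQ => mul_mem (hB Q fun q h => by have := hQ q h; omega)
      (hB' Q fun q h => by have := hQ q h; omega)⟩
  | add p q hp hq =>
    obtain ⟨B, hB⟩ := hp
    obtain ⟨B', hB'⟩ := hq
    exact ⟨B + B', fun Q hQ => add_mem (hB Q fun q h => by have := hQ q h; omega)
      (hB' Q fun q h => by have := hQ q h; omega)⟩

theorem lift_map' {ι R S F : Type*} [CommRing R] [CommRing S] [Algebra ℤ R] [Algebra ℤ S]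
    [FunLike F R S] [RingHomClass F R S] (f : F) (a : ι → R) (p : FreeAlgebra ℤ ι) :
    f (FreeAlgebra.lift ℤ a p) = FreeAlgebra.lift ℤ (fun i => f (a i)) p := by
  induction p using FreeAlgebra.induction with
  | grade0 r => rw [AlgHom.commutes, AlgHom.commutes, eq_intCast, eq_intCast, map_intCast]
  | grade1 i => simp
  | mul p q hp hq => simp [hp, hq]
  | add p q hp hq => simp [hp, hq]

theorem isTr_congr {R : Type*} [CommRing R] {ρ : Gam →* M2 R} {N L : ℕ} {a : ℕ → R}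
    (h : IsTr ρ (3 * N) a) (hd : N ∣ L) : IsTr ρ (3 * L) a := fun P g hP =>
  h P g fun hh => hP (hh.trans (Nat.mul_dvd_mul_left 3 hd))

/-- **block R** -/
theorem rStmt : RStmt := by
  intro X G _ 𝓛 hRT hTW hθ hL3 hT hE
  obtain ⟨e, hθ⟩ := hθ
  refine ⟨1, e, fun O _ _ _ hO N ρ a hi hR hD hl hTr => ?_⟩
  obtain ⟨i, hi⟩ := hi
  have := hO.cz
  have := hO.fin
  have := charP_res (O := O)
  obtain ⟨L, θ, hL0, hLe, h16, hNL, hLN, hθE, hθT, hσ⟩ := hθ _ _ N hR.pos hD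
  have h4 : 4 ∣ L := (by norm_num : 4 ∣ 16).trans h16
  obtain ⟨hG, hT⟩ := hT L hL0 h4 fun h => hR.three (hLN 3 Nat.prime_three h)
  have hTr' := isTr_congr hTr hNL
  have hne := nEis hl.det hR.hyp hL0.ne' hTr'
  have := hG.fg
  have := hG.free
  set c : {p // Gd L p} → Corr ℤ (𝓛.Γ L) (𝓛.Γ L) := fun p => 𝓛.c L p.1 with hc
  have hcomm : ∀ p p', T ℚ (c p) * T ℚ (c p') = T ℚ (c p') * T ℚ (c p) := fun p p' =>
    hG.comm _ _ p.2 p'.2
  refine ⟨L, hL0, by rw [one_mul]; exact_mod_cast hLe, hNL, hLN, fun j => ?_⟩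
  suffices key : ∀ p, Eig.W ℚ c p = 0 → FreeAlgebra.lift ℤ (fun p : {p // Gd L p} => a p.1) p = 0 by
    obtain ⟨φ, h0, hφ⟩ := Eig.last_step c hcomm (A := ℚ) (RingHom.id O) injective_id j
      (fun p => a p.1) key
    obtain ⟨p, hp, hB, h1, hu⟩ := hne L (3 * L) hL0.ne'
    refine (hE L _ hL0 h4).2 ⟨φ, h0, fun p hp => hφ ⟨p, hp⟩⟩ ⟨p, ⟨hp, fun h => ?_⟩, h1, fun h => ?_⟩
    · have := Nat.le_of_dvd (by omega) h; omega
    · refine (hu.map j).ne_zero ?_
      rw [map_sub, map_sub, h, map_natCast, map_one]; ring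
  intro p hp
  obtain ⟨φ, h0, hφ⟩ := (hE L _ hL0 h4).1 hθE
  obtain ⟨v₀, γ, hv1, hv⟩ := Eig.theta_point c hcomm (Int.castRingHom ℂ) Int.cast_injective
    (Int.castRingHom O) (b₀ := fun p => θ p.1) h0 fun p => hφ p.1 p.2
  have hba : ∀ p, Gd L p → (θ p : O) - a p ∈ maximalIdeal O := fun p hp => by
    obtain ⟨P, s, rfl, hs⟩ := exists_fr hp.1
    rw [← residue_eq_zero_iff, map_sub, map_intCast, ← hTr' P s hp.2 hs, ← Top.trace_mp,
      isTr_congr hθT hNL P s hp.2 hs, sub_self]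
  obtain ⟨Pl, hPl, hGl⟩ := exists_glob hR hl
  choose Pf fr hPf hfr using fun p : {p // Gd L p} => exists_fr p.2.1
  obtain ⟨r, hQ⟩ := Sel.tw_bound hTW hR.hyp
  obtain ⟨B, hB⟩ := exists_supp (fun p : {p // Gd L p} => p.1) p
  obtain ⟨s, hs⟩ := exists_card_le (𝓛.Γ L)
  have main := RT.rt_ex hRT (s := s) (r := r) (e := 1)
    hGl (cpt (O := O))
    (P := FreeAlgebra.lift ℤ (fun i => (MvPolynomial.X (fr i) : MvPolynomial Gam O)) p) fun n => by
    obtain ⟨Q, hr, hQ, hBd⟩ := hQ (n + 1) (B + 3 * L)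
    let q : Fin r → ℕ := fun i => Q.orderEmbOfFin hr i
    have hqQ : ∀ i, q i ∈ Q := fun i => Q.orderEmbOfFin_mem hr i
    have hQq : ∀ x ∈ Q, ∃ i, q i = x := fun x hx => by
      have : x ∈ Set.range (Q.orderEmbOfFin hr) := by rw [Finset.range_orderEmbOfFin]; exact hx
      exact this
    have hgd : ∀ i, Gd L (q i) := fun i => ⟨(hQ _ (hqQ i)).1, fun h => by
      have := Nat.le_of_dvd (by omega) h
      have := (hQ _ (hqQ i)).2.1
      omega⟩
    obtain ⟨Δ, _, _, del, δ, H, _, _, _, _, ρH, Tp, dia, kap, lam, hLev⟩ :=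
      hT O a hne n r q (Q.orderEmbOfFin hr).injective fun i =>
        tWa hl.det hR hTr' (hgd i) (hQ _ (hqQ i)).2.2.1 fun P s hP hs =>
          ((hQ _ (hqQ i)).2.2.2 P hP).2 s (hP ▸ hs)
    have := finite_Cn (O := O) (n + 1)
    obtain ⟨σ, hσ1, hσ2, hσ3⟩ := hσ (Cn O (n + 1)) (Ideal.Quotient.mk _ i)
      (by rw [← map_pow, hi, map_neg, map_one]) ⟨n + 1, by
        rw [← map_ofNat (Ideal.Quotient.mk (Ideal.span {(3 : O) ^ (n + 1)})), ← map_pow,
          Ideal.Quotient.eq_zero_iff_mem]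
        exact Ideal.mem_span_singleton_self _⟩
    have hp' := hB Q fun x hx => by have := (hQ x hx).2.1; omega
    have hQe : Finset.univ.image q = Q := Finset.ext fun x => by
      simp only [Finset.mem_image, Finset.mem_univ, true_and]
      exact ⟨fun ⟨i, hi⟩ => hi ▸ hqQ i, hQq x⟩
    have hsub : {i : {p // Gd L p} | i.1 ∉ (Q : Set ℕ)} ⊆ {i | ∀ j, i.1 ≠ q j} :=
      fun i hi j h => hi (by rw [h]; exact hqQ j)
    exact levE_of hR hl hTr' hL0 (fun l hl => ⟨hLN l hl, fun h => h.trans hNL⟩)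
      (fun l hl h => ⟨⟨l, Nat.mem_primeFactors.2 ⟨hl, h, hR.pos.ne'⟩⟩, hPl _⟩) hGl.rchar hL3
      (hQe ▸ hBd) hgd (hs _) hv1 (b := fun l => (θ l : O)) (fun p hp => ⟨hba p hp, hv ⟨p, hp⟩⟩) hσ1
      (by simpa only [map_intCast] using isTr_congr hσ2 hNL) hσ3 (fun i => ⟨Pf i, hPf i, hfr i⟩)
      (Algebra.adjoin_mono (Set.image_mono hsub) hp') hp hLev
  have e := lift_map' (MvPolynomial.aeval (R := O) fun g : Gam => (ρ g).trace)
    (fun i => (MvPolynomial.X (fr i) : MvPolynomial Gam O)) p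
  rw [main] at e
  rw [e]
  congr 2
  funext i
  rw [MvPolynomial.aeval_X, hTr' (Pf i) (fr i) (hPf i ▸ i.2.2) (hfr i), hPf]

end Crest.Agent.T15.R

end
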