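import Crest.Agent.T15.Tan_28

/-!
# Row 15, block R (helper28): generators relative to given elements

If the derivations killing `u j` form a space of dimension `≤ r`, then `R = O[x₁, …, x_r, u]`.
-/

set_option autoImplicit false

noncomputable section

namespace Crest.Agent.T15.Ps

open IsLocalRing TensorProduct Module

/-- derivations killing the elements `u j` -/
def Dk (O : Type*) {R : Type*} (k : Type*) [CommRing O] [CommRing R] [CommRing k] [Algebra O R]
    [Algebra R k] [Algebra O k] {κ : Type*} (u : κ → R) : Submodule k (Derivation O R k) where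
  carrier := {D | ∀ j, D (u j) = 0}
  add_mem' ha hb j := by simp [ha j, hb j]
  zero_mem' j := rfl
  smul_mem' a D h j := by simp [h j]

variable {O R : Type*} [CommRing O] [IsLocalRing O] [CommRing R] [Algebra O R]
  [Algebra R (ResidueField O)] [IsScalarTower O R (ResidueField O)]

theorem finite_der [Module.Finite O R] :
    Module.Finite (ResidueField O) (Derivation O R (ResidueField O)) := by
  let E : Derivation O R (ResidueField O) →ₗ[ResidueField O]
      Dual (ResidueField O) (ResidueField O ⊗[O] R) :=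
    { toFun := fun D => LinearMap.liftBaseChangeEquiv (ResidueField O) D.toLinearMap
      map_add' := fun D D' => by rw [← map_add]; rfl
      map_smul' := fun a D => by rw [RingHom.id_apply, ← map_smul]; rfl }
  refine Module.Finite.of_injective E fun D D' h => ?_
  have := (LinearMap.liftBaseChangeEquiv (ResidueField O)).injective h
  exact Derivation.ext fun y => DFunLike.congr_fun this y

theorem exists_cot_gens_rel [Module.Finite O R] {κ : Type*} (u : κ → R) {r : ℕ}
    (hr : finrank (ResidueField O) (Dk O (ResidueField O) u) ≤ r) :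
    ∃ x : Fin r → R, (∀ i, algebraMap R (ResidueField O) (x i) = 0) ∧
      ∀ y : R, ∃ a ∈ Algebra.adjoin O (Set.range x ∪ Set.range u),
        y - a ∈ RingHom.ker (algebraMap R (ResidueField O)) ^ 2 := by
  classical
  set m := RingHom.ker (algebraMap R (ResidueField O)) with hm
  set J : Submodule O R := (m ^ 2).restrictScalars O ⊔ Submodule.span O (insert 1 (Set.range u))
    with hJ
  have h1 : (1 : R) ∈ J := Submodule.mem_sup_right (Submodule.subset_span (Set.mem_insert _ _))
  have h1u : ∀ j, u j ∈ J := fun j =>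
    Submodule.mem_sup_right (Submodule.subset_span (Set.mem_insert_of_mem _ ⟨j, rfl⟩))
  have h2 : ∀ x ∈ m ^ 2, x ∈ J := fun x hx => Submodule.mem_sup_left hx
  let F : Dual (ResidueField O) (ResidueField O ⊗[O] (R ⧸ J)) →ₗ[ResidueField O]
      Dk O (ResidueField O) u :=
    { toFun := fun l => ⟨derOf
        (((LinearMap.liftBaseChangeEquiv (ResidueField O)).symm l).comp J.mkQ)
        (by simp [(Submodule.Quotient.mk_eq_zero J).2 h1])
        (fun x hx => by simp [(Submodule.Quotient.mk_eq_zero J).2 (h2 x hx)]), fun j => by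
          change l (1 ⊗ₜ J.mkQ (u j)) = 0
          simp [(Submodule.Quotient.mk_eq_zero J).2 (h1u j)]⟩
      map_add' := fun l l' => by ext y; rfl
      map_smul' := fun a l => by ext y; rfl }
  have hF : Function.Injective F := (injective_iff_map_eq_zero _).2 fun l hl => by
    have h3 : (LinearMap.liftBaseChangeEquiv (ResidueField O)).symm l = 0 := by
      refine Submodule.linearMap_qext _ (LinearMap.ext fun y => ?_)
      exact DFunLike.congr_fun (congrArg Subtype.val hl) y
    exact (LinearEquiv.map_eq_zero_iff _).1 h3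
  have hfin := finite_der (O := O) (R := R)
  have hle := (LinearMap.finrank_le_finrank_of_injective hF).trans hr
  rw [Subspace.dual_finrank_eq] at hle
  set s := finrank (ResidueField O) (ResidueField O ⊗[O] (R ⧸ J)) with hs
  let b := Module.finBasis (ResidueField O) (ResidueField O ⊗[O] (R ⧸ J))
  have hw : ∀ i, ∃ y : R, algebraMap R (ResidueField O) y = 0 ∧
      (1 : ResidueField O) ⊗ₜ[O] J.mkQ y = b i := fun i => by
    obtain ⟨w, hw⟩ := TensorProduct.mk_surjective O (R ⧸ J) (ResidueField O)
      Ideal.Quotient.mk_surjective (b i)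
    obtain ⟨y, rfl⟩ := J.mkQ_surjective w
    obtain ⟨o, ho⟩ := exists_sub_mem_ker (O := O) y
    refine ⟨_, ho, ?_⟩
    have : J.mkQ (algebraMap O R o) = 0 := (Submodule.Quotient.mk_eq_zero J).2 (by
      rw [Algebra.algebraMap_eq_smul_one]; exact J.smul_mem _ h1)
    rw [map_sub, this, sub_zero]
    exact hw
  choose y hy0 hy using hw
  have hspan := span_eq_top_of_tmul_eq_basis (fun i => J.mkQ (y i)) b hy
  refine ⟨fun i => if h : (i : ℕ) < s then y ⟨i, h⟩ else 0, fun i => ?_, fun z => ?_⟩
  · dsimp only; split_ifs <;> simp [hy0]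
  set A := Algebra.adjoin O
    ((Set.range fun i : Fin r => if h : (i : ℕ) < s then y ⟨i, h⟩ else 0) ∪ Set.range u)
  have hyA : ∀ i, y i ∈ A := fun i =>
    Algebra.subset_adjoin (Or.inl ⟨⟨i, lt_of_lt_of_le i.2 hle⟩, dif_pos i.2⟩)
  obtain ⟨c, hc⟩ := (Submodule.mem_span_range_iff_exists_fun O).1
    (hspan ▸ Submodule.mem_top : J.mkQ z ∈ Submodule.span O (Set.range fun i => J.mkQ (y i)))
  have h3 : z - ∑ i, c i • y i ∈ J := by
    rw [← Submodule.Quotient.eq J]
    change J.mkQ z = J.mkQ _
    rw [← hc, map_sum]; simp only [map_smul]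
  obtain ⟨p, hp, v, hv, huv⟩ := Submodule.mem_sup.1 h3
  have hvA : v ∈ A := by
    refine (Submodule.span_le (p := Subalgebra.toSubmodule A)).2 ?_ hv
    rintro _ (rfl | h)
    · exact A.one_mem
    · exact Algebra.subset_adjoin (Or.inr h)
  refine ⟨∑ i, c i • y i + v, A.add_mem (A.sum_mem fun i _ => A.smul_mem (hyA i) _) hvA, ?_⟩
  have : z - (∑ i, c i • y i + v) = p := by rw [← sub_sub, ← huv]; simp
  rw [this]; exact hp

theorem exists_gens_rel' [Module.Finite O R] {κ : Type*} (u : κ → R) {r N : ℕ}
    (hN : RingHom.ker (algebraMap R (ResidueField O)) ^ N ≤ (maximalIdeal O).map (algebraMap O R))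
    (hr : finrank (ResidueField O) (Dk O (ResidueField O) u) ≤ r) :
    ∃ x : Fin r → R, (∀ i, algebraMap R (ResidueField O) (x i) = 0) ∧
      Algebra.adjoin O (Set.range x ∪ Set.range u) = ⊤ := by
  obtain ⟨x, h0, h1⟩ := exists_cot_gens_rel u hr
  refine ⟨x, h0, ?_⟩
  have h2 := exists_sub_mem_pow (Algebra.adjoin O (Set.range x ∪ Set.range u)).toSubring _ h1 N
  have h3 : (⊤ : Submodule O R) ≤
      Subalgebra.toSubmodule (Algebra.adjoin O (Set.range x ∪ Set.range u)) := by
    refine Submodule.le_of_le_smul_of_le_jacobson_bot (I := maximalIdeal O) Module.Finite.fg_top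
      (jacobson_eq_maximalIdeal _ bot_ne_top).ge fun y _ => ?_
    obtain ⟨a, ha, h4⟩ := h2 y
    refine Submodule.mem_sup.2 ⟨a, ha, y - a, ?_, by ring⟩
    rw [Ideal.smul_top_eq_map]
    exact hN h4
  exact top_le_iff.1 fun y _ => h3 Submodule.mem_top

lemma ker_eq_maximalIdeal [IsLocalRing R] :
    RingHom.ker (algebraMap R (ResidueField O)) = maximalIdeal R :=
  eq_maximalIdeal (RingHom.ker_isMaximal_of_surjective _ fun z => by
    obtain ⟨o, rfl⟩ := residue_surjective z
    exact ⟨algebraMap O R o, (IsScalarTower.algebraMap_apply O R _ o).symm⟩)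

omit [Algebra R (ResidueField O)] [IsScalarTower O R (ResidueField O)] in
lemma exists_pow_le [Module.Finite O R] [IsLocalRing R] :
    ∃ N, maximalIdeal R ^ N ≤ (maximalIdeal O).map (algebraMap O R) := by
  have : IsArtinianRing (R ⧸ (maximalIdeal O).map (algebraMap O R)) := by
    let _ := Ideal.Quotient.field (maximalIdeal O)
    have : Module.Finite (O ⧸ maximalIdeal O) (R ⧸ (maximalIdeal O).map (algebraMap O R)) :=
      Module.Finite.of_restrictScalars_finite O _ _
    exact IsArtinianRing.of_finite (O ⧸ maximalIdeal O) _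
  exact exists_maximalIdeal_pow_le_of_isArtinianRing_quotient _

/-- **generators relative to `u`** -/
theorem exists_gens_rel [Module.Finite O R] [IsLocalRing R] {κ : Type*} (u : κ → R) {r : ℕ}
    (hr : finrank (ResidueField O) (Dk O (ResidueField O) u) ≤ r) :
    ∃ x : Fin r → R, (∀ i, x i ∈ maximalIdeal R) ∧
      Algebra.adjoin O (Set.range x ∪ Set.range u) = ⊤ := by
  obtain ⟨N, hN⟩ := exists_pow_le (O := O) (R := R)
  obtain ⟨x, h0, h1⟩ := exists_gens_rel' u (ker_eq_maximalIdeal (O := O) (R := R) ▸ hN) hr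
  exact ⟨x, fun i => ker_eq_maximalIdeal (O := O) (R := R) ▸ h0 i, h1⟩

end Crest.Agent.T15.Ps

end
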