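import Crest.Agent.T15.Blr_78
import Crest.Agent.T15.Tan_28

/-!
# Row 15, block R (helper78): the trace ring at finite level

`H` is a faithful `A`-module with a commuting action of `G` and the Cayley–Hamilton identity,
`ρ : G → M₂(C)` a second representation with the same residual representation.  After a twist by
`χ` both have determinant `ψ`.  The ring `trRing ⊆ A × C` generated by the pairs of traces is
local and carries `σ : G → M₂(trRing)`, which embeds in a power of `H × C²`.
-/

set_option autoImplicit false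

noncomputable section

namespace Crest.Agent.T15.Blr

open Matrix Crest.Agent.T15.Ps

variable {G : Type*} [Group G] (O : Type*) [CommRing O] {A C : Type*} [CommRing A] [CommRing C]
  [Algebra O A] [Algebra O C] {H : Type*} [AddCommGroup H] [Module O H] [Module A H]
  [IsScalarTower O A H]

/-- matrices acting on column vectors -/
def act (ρ : G →* M2 C) : G →* Module.End O (Fin 2 → C) where
  toFun g := (ρ g).mulVecLin.restrictScalars O
  map_one' := LinearMap.ext fun v => by simp
  map_mul' g k := LinearMap.ext fun v => by simp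

@[simp] lemma act_apply (ρ : G →* M2 C) (g : G) (v : Fin 2 → C) : act O ρ g v = ρ g *ᵥ v := rfl

variable {O}

/-- twist of an action by a character -/
def tw (χ : G →* A) (ρH : G →* Module.End O H) (hc : ∀ g (a : A) v, ρH g (a • v) = a • ρH g v) :
    G →* Module.End O H where
  toFun g := Algebra.lsmul O O H (χ g) * ρH g
  map_one' := by simp
  map_mul' g k := by
    ext1 v
    simp only [map_mul, Module.End.mul_apply, Algebra.lsmul_coe, hc]

@[simp] lemma tw_apply (χ : G →* A) (ρH : G →* Module.End O H)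
    (hc : ∀ g (a : A) v, ρH g (a • v) = a • ρH g v) (g : G) (v : H) :
    tw χ ρH hc g v = χ g • ρH g v := rfl

/-- product of two actions -/
def prodAct {H' : Type*} [AddCommGroup H'] [Module O H'] (ρ₁ : G →* Module.End O H)
    (ρ₂ : G →* Module.End O H') : G →* Module.End O (H × H') where
  toFun g := (ρ₁ g).prodMap (ρ₂ g)
  map_one' := by ext1 <;> simp
  map_mul' g k := by simp [LinearMap.prodMap_mul]

omit [Module A H] [IsScalarTower O A H] in
@[simp] lemma prodAct_apply {H' : Type*} [AddCommGroup H'] [Module O H'] (ρ₁ : G →* Module.End O H)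
    (ρ₂ : G →* Module.End O H') (g : G) (v : H × H') :
    prodAct ρ₁ ρ₂ g v = (ρ₁ g v.1, ρ₂ g v.2) := rfl

/-- a character of odd order has an inverse square root -/
lemma exists_sqrt_inv {M : Type*} [CommMonoid M] (δ : G →* M) {m : ℕ} (hm : Odd m)
    (h : ∀ g, δ g ^ m = 1) : ∃ χ : G →* M, (∀ g, χ g = δ g ^ (m / 2)) ∧
      (∀ g, χ g ^ 2 * δ g = 1) ∧ ∀ g, χ g ^ m = 1 := by
  obtain ⟨a, rfl⟩ := hm
  have e : (2 * a + 1) / 2 = a := by omega
  refine ⟨(powMonoidHom a).comp δ, fun g => by rw [e]; rfl, fun g => ?_, fun g => ?_⟩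
  · rw [← h g, MonoidHom.comp_apply, powMonoidHom_apply, ← pow_mul, pow_succ, mul_comm a]
  · rw [MonoidHom.comp_apply, powMonoidHom_apply, ← pow_mul, mul_comm, pow_mul, h, one_pow]

variable (O) in
/-- the trace ring -/
def trRing (t : G → A) (ρ : G →* M2 C) : Subalgebra O (A × C) :=
  Algebra.adjoin O (Set.range fun g => (t g, (ρ g).trace))

variable {t : G → A} {ρ : G →* M2 C}

variable (O t ρ) in
/-- the generators -/
def trT (g : G) : trRing O t ρ := ⟨(t g, (ρ g).trace), Algebra.subset_adjoin ⟨g, rfl⟩⟩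
variable (O t ρ) in
/-- the map to the Hecke side -/
def trAl : trRing O t ρ →ₐ[O] A := (AlgHom.fst O A C).comp (trRing O t ρ).val
variable (O t ρ) in
/-- the point -/
def trX : trRing O t ρ →ₐ[O] C := (AlgHom.snd O A C).comp (trRing O t ρ).val

@[simp] lemma trAl_trT (g : G) : trAl O t ρ (trT O t ρ g) = t g := rfl
@[simp] lemma trX_trT (g : G) : trX O t ρ (trT O t ρ g) = (ρ g).trace := rfl

lemma tr_ext {r s : trRing O t ρ} (h1 : trAl O t ρ r = trAl O t ρ s)
    (h2 : trX O t ρ r = trX O t ρ s) : r = s := Subtype.ext (Prod.ext h1 h2)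

lemma adjoin_trT : Algebra.adjoin O (Set.range (trT O t ρ)) = ⊤ := by
  apply Subalgebra.map_injective (f := (trRing O t ρ).val) Subtype.val_injective
  rw [AlgHom.map_adjoin, ← Set.range_comp, Algebra.map_top, Subalgebra.range_val]
  rfl

lemma range_trAl : (trAl O t ρ).range = Algebra.adjoin O (Set.range t) := by
  rw [← Algebra.map_top, ← adjoin_trT, AlgHom.map_adjoin, ← Set.range_comp]
  rfl

lemma tr_nil {r : trRing O t ρ} (h1 : IsNilpotent (trAl O t ρ r))
    (h2 : IsNilpotent (trX O t ρ r)) : IsNilpotent r := by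
  obtain ⟨m, hm⟩ := h1
  obtain ⟨n, hn⟩ := h2
  refine ⟨m + n, tr_ext ?_ ?_⟩
  · rw [map_pow, pow_add, hm, zero_mul, map_zero]
  · rw [map_pow, pow_add, hn, mul_zero, map_zero]

instance trFinite [IsNoetherianRing O] [Module.Finite O A] [Module.Finite O C] :
    Module.Finite O (trRing O t ρ) :=
  Module.Finite.of_injective (trRing O t ρ).val.toLinearMap Subtype.val_injective

section loc
variable {k : Type*} [Field k] [Algebra O k] (πC : C →ₐ[O] k)
  (hnil : ∀ g, ∃ a : O, IsNilpotent (t g - algebraMap O A a) ∧ algebraMap O k a = πC (ρ g).trace)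
include hnil

lemma tr_approx (r : trRing O t ρ) :
    ∃ a : O, IsNilpotent (trAl O t ρ r - algebraMap O A a) ∧
      algebraMap O k a = πC (trX O t ρ r) := by
  have hr : r ∈ Algebra.adjoin O (Set.range (trT O t ρ)) := by rw [adjoin_trT]; trivial
  induction hr using Algebra.adjoin_induction with
  | mem x hx => obtain ⟨g, rfl⟩ := hx; exact hnil g
  | algebraMap a => exact ⟨a, by simp, by simp⟩
  | add x y _ _ hx hy =>
    obtain ⟨a, ha, ha'⟩ := hx
    obtain ⟨b, hb, hb'⟩ := hy
    refine ⟨a + b, ?_, by simp [ha', hb']⟩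
    have := (Commute.all _ _).isNilpotent_add ha hb
    convert this using 1
    simp only [map_add]; ring
  | mul x y _ _ hx hy =>
    obtain ⟨a, ha, ha'⟩ := hx
    obtain ⟨b, hb, hb'⟩ := hy
    refine ⟨a * b, ?_, by simp [ha', hb']⟩
    have := (Commute.all _ _).isNilpotent_add
      ((Commute.all _ (trAl O t ρ y)).isNilpotent_mul_right ha)
      ((Commute.all (algebraMap O A a) _).isNilpotent_mul_left hb)
    convert this using 1
    simp only [map_mul]; ring

variable (hA : ∀ a : O, algebraMap O k a = 0 → IsNilpotent (algebraMap O A a))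
  (hC : ∀ z, πC z = 0 → IsNilpotent z)
include hA hC

/-- the kernel of the residue map is nil -/
lemma tr_nil_of (r : trRing O t ρ) (hr : πC (trX O t ρ r) = 0) : IsNilpotent r := by
  obtain ⟨a, ha, ha'⟩ := tr_approx πC hnil r
  refine tr_nil ?_ (hC _ hr)
  simpa using (Commute.all _ _).isNilpotent_add ha (hA a (ha'.trans hr))

lemma tr_isLocalHom [IsLocalHom (algebraMap O k)] :
    IsLocalHom (πC.comp (trX O t ρ)).toRingHom := by
  refine ⟨fun r hr => ?_⟩
  obtain ⟨a, -, ha'⟩ := tr_approx πC hnil r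
  have h1 : IsUnit a := isUnit_of_map_unit (algebraMap O k) a (ha' ▸ hr)
  have h2 := tr_nil_of πC hnil hA hC (r - algebraMap O _ a) (by simp [ha'])
  simpa using h2.isUnit_add_right_of_commute (h1.map (algebraMap O _)) (Commute.all _ _)

lemma tr_isLocalRing [IsLocalHom (algebraMap O k)] : IsLocalRing (trRing O t ρ) :=
  haveI := tr_isLocalHom πC hnil hA hC
  RingHom.domain_isLocalRing (πC.comp (trX O t ρ)).toRingHom

end loc

variable (O H t ρ) in
/-- the trace ring acts on `H × C²` -/
def trAct : trRing O t ρ →ₐ[O] Module.End O (H × (Fin 2 → C)) :=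
  (LinearMap.prodMapAlgHom O H (Fin 2 → C)).comp
    (((Algebra.lsmul O O H).comp (trAl O t ρ)).prod
      ((Algebra.lsmul O O (Fin 2 → C)).comp (trX O t ρ)))

lemma trAct_apply (r : trRing O t ρ) (v : H × (Fin 2 → C)) :
    trAct O H t ρ r v = (trAl O t ρ r • v.1, trX O t ρ r • v.2) := rfl

lemma ch_mat {d : C} {M M' : M2 C} (h : M * M' = 1) (hd : M.det = d) :
    M + d • M' = M.trace • (1 : M2 C) := by
  have h1 : d • M' = M.adjugate := by
    rw [← one_mul M', ← smul_mul_assoc, ← hd, ← adjugate_mul, mul_assoc, h, mul_one]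
  rw [h1, adjugate_fin_two, trace_fin_two]
  ext i j
  fin_cases i <;> fin_cases j <;> simp [add_comm]

/-- **the representation over the trace ring** -/
theorem trace_ring {k : Type*} [Field k] [Algebra O k] [IsLocalHom (algebraMap O k)]
    (ρH : G →* Module.End O H) (hfaith : ∀ a : A, (∀ v : H, a • v = 0) → a = 0)
    (hc : ∀ g (a : A) v, ρH g (a • v) = a • ρH g v) (ψ : G →* O)
    (hCH : ∀ g v, ρH g v + ψ g • ρH g⁻¹ v = t g • v)
    (hdet : ∀ g, (ρ g).det = algebraMap O C (ψ g)) (πC : C →ₐ[O] k)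
    (hnil : ∀ g, ∃ a : O, IsNilpotent (t g - algebraMap O A a) ∧ algebraMap O k a = πC (ρ g).trace)
    (hA : ∀ a : O, algebraMap O k a = 0 → IsNilpotent (algebraMap O A a))
    (hC : ∀ z, πC z = 0 → IsNilpotent z) {ρ₀ : G →* M2 k} (hirr : Irr ρ₀)
    (hρ₀ : ∀ g, πC (ρ g).trace = (ρ₀ g).trace) {h : O} (h2 : 2 * h = 1) {c : G} (hcc : c * c = 1)
    (hψ : ψ c = -1) :
    ∃ (σ : G →* M2 (trRing O t ρ)) (P : GL (Fin 2) k)
      (j : H × (Fin 2 → C) → (Fin 2 → trRing O t ρ) →ₗ[O] H × (Fin 2 → C)),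
      (∀ g, (σ g).trace = trT O t ρ g) ∧ (∀ g, (σ g).det = algebraMap O _ (ψ g)) ∧
      σ c = !![1, 0; 0, -1] ∧ (∀ g g', σ g = σ g' ↔ ρH g = ρH g' ∧ ρ g = ρ g') ∧
      (∀ g, (σ g).map (πC.comp (trX O t ρ)) = conj ρ₀ P g) ∧
      (∀ v g w, j v (σ g *ᵥ w) = prodAct ρH (act O ρ) g (j v w)) ∧
      (∀ v s w, j v (s • w) = trAct O H t ρ s (j v w)) ∧
      (∀ S : Set (H × (Fin 2 → C)), Submodule.span O S = ⊤ → ∀ w, (∀ v ∈ S, j v w = 0) → w = 0) := by
  have := tr_isLocalHom πC hnil hA hC
  obtain ⟨σ, P, j, h1, h3, h4, h5, h6, h7, h8, h9, -⟩ := blr_mod (πC.comp (trX O t ρ)).toRingHom hirr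
    (prodAct ρH (act O ρ)) (trAct O H t ρ) (by
      rw [injective_iff_map_eq_zero]
      intro r hr
      refine tr_ext ?_ ?_
      · rw [map_zero]
        exact hfaith _ fun v => congrArg Prod.fst (LinearMap.congr_fun hr (v, 0))
      · have := congrFun (congrArg Prod.snd (LinearMap.congr_fun hr (0, fun _ => 1))) 0
        simpa [trAct_apply] using this)
    (fun s g => LinearMap.ext fun v => by simp [trAct_apply, hc, mulVec_smul])
    ((algebraMap O (trRing O t ρ)).toMonoidHom.comp ψ) (trT O t ρ) (fun g => by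
      refine LinearMap.ext fun v => Prod.ext ?_ ?_
      · simpa [trAct_apply] using hCH g v.1
      · have := congrArg (· *ᵥ v.2) (ch_mat (M := ρ g) (M' := ρ g⁻¹)
          (by rw [← map_mul, mul_inv_cancel, map_one]) (hdet g))
        simpa [trAct_apply, add_mulVec, smul_mulVec] using this)
    hρ₀ (h := algebraMap O _ h) (by
      simpa only [map_mul, map_ofNat, map_one] using congrArg (algebraMap O (trRing O t ρ)) h2) hcc
    (by simp [hψ])
  refine ⟨σ, P, j, h1, h3, h4, fun g g' => ?_, h6, h7, h8, h9⟩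
  rw [h5]
  constructor
  · intro e
    refine ⟨LinearMap.ext fun v => congrArg Prod.fst (LinearMap.congr_fun e (v, 0)), ?_⟩
    refine Matrix.ext_of_mulVec_single fun i => ?_
    exact congrArg Prod.snd (LinearMap.congr_fun e (0, Pi.single i 1))
  · rintro ⟨e1, e2⟩
    exact LinearMap.ext fun v => by simp [e1, e2]

/-- the twisted Cayley–Hamilton identity -/
lemma tw_ch (ρH : G →* Module.End O H) (hc : ∀ g (a : A) v, ρH g (a • v) = a • ρH g v)
    (D χ : G →* A) (t : G → A) (hCH : ∀ g v, ρH g v + D g • ρH g⁻¹ v = t g • v) (ψ : G →* O)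
    (hχ : ∀ g, χ g ^ 2 * D g = algebraMap O A (ψ g)) (g : G) (v : H) :
    tw χ ρH hc g v + ψ g • tw χ ρH hc g⁻¹ v = (χ g * t g) • v := by
  have e : χ g * χ g⁻¹ = 1 := by rw [← map_mul, mul_inv_cancel, map_one]
  rw [tw_apply, tw_apply, mul_smul, ← hCH, smul_add, ← algebraMap_smul A (ψ g), ← hχ, smul_smul,
    smul_smul]
  congr 2
  linear_combination χ g * D g * e

lemma tw_comm (ρH : G →* Module.End O H) (hc : ∀ g (a : A) v, ρH g (a • v) = a • ρH g v)
    (χ : G →* A) (g : G) (a : A) (v : H) : tw χ ρH hc g (a • v) = a • tw χ ρH hc g v := by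
  rw [tw_apply, tw_apply, hc, smul_comm]

/-! ### the `p`-torsion quotient seen by the tangent space -/

section torsion
variable {R X : Type*} [CommRing R] [Algebra O R] [AddCommGroup X] [Module O X]

/-- If `g` acts trivially on `N / pN`, `N` the image of `R²` in `X^κ`, then `σ g ≡ 1 mod p`. -/
lemma cong_of_trivial {κ : Type*} (σ : G →* M2 R) (τ : G →* Module.End O X)
    (j : κ → (Fin 2 → R) →ₗ[O] X) (hj : ∀ i g w, j i (σ g *ᵥ w) = τ g (j i w))
    (hinj : ∀ w, (∀ i, j i w = 0) → w = 0) (p : ℕ) (g : G) :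
    (∀ w, ∃ w', ∀ i, τ g (j i w) - j i w = p • j i w') ↔ ∃ M : M2 R, σ g = 1 + p • M := by
  constructor
  · intro H
    choose f hf using H
    refine ⟨Matrix.of fun a b => f (Pi.single b 1) a, ?_⟩
    ext a b
    have h1 : σ g *ᵥ Pi.single b 1 - Pi.single b 1 - p • f (Pi.single b 1) = 0 :=
      hinj _ fun i => by rw [map_sub, map_sub, map_nsmul, hj, hf, sub_self]
    have h2 := congrFun h1 a
    simp only [mulVec_single_one, Pi.sub_apply, col_apply, Pi.smul_apply, Pi.zero_apply] at h2
    rw [Matrix.add_apply, Matrix.smul_apply, of_apply, one_apply, ← Pi.single_apply]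
    linear_combination h2
  · rintro ⟨M, hM⟩ w
    refine ⟨M *ᵥ w, fun i => ?_⟩
    rw [← hj, hM, add_mulVec, one_mulVec, map_add, add_sub_cancel_left, smul_mulVec, map_nsmul]

variable {k : Type*} [CommRing k] [Algebra R k] [Algebra O k]

lemma bar_eq_one_of_cong (σ : G →* M2 R) {p : ℕ} (hp : (p : k) = 0) {g : G} {M : M2 R}
    (h : σ g = 1 + p • M) : bar k σ g = 1 := by
  ext a b
  rw [bar_apply, h, map_apply, Matrix.add_apply, Matrix.smul_apply, map_add, map_nsmul,
    nsmul_eq_mul, hp, zero_mul, add_zero, one_apply, one_apply]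
  split_ifs <;> simp

lemma phi_eq_zero_of_cong (σ : G →* M2 R) (D : Derivation O R k) {p : ℕ} (hp : (p : k) = 0) {g : G}
    {M : M2 R} (h : σ g = 1 + p • M) : phi σ D g = 0 := by
  ext a b
  rw [phi, h, map_apply, Matrix.add_apply, Matrix.smul_apply, map_add, map_nsmul, nsmul_eq_mul, hp,
    zero_mul, add_zero, one_apply]
  split_ifs <;> simp

end torsion

end Crest.Agent.T15.Blr

end
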