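import Crest.Agent.T15.Inert_3
import Crest.Agent.T15.Tr_78
import Crest.Agent.T15.Tan2_28
import Crest.Agent.T15.PatD_43
import Crest.Agent.T15.PatI_3

/-!
# Row 15, block R (helper3): statement of the abstract `R = T` theorem

`G = Gal(E/F)`, `ρ : G → GL₂(O)`.  `Glob` collects the hypotheses on `ρ`, `Lev` the data of one
Taylor-Wiles level, `Sel` the bound for the tangent space.
-/

set_option autoImplicit false

noncomputable section

namespace Crest.Agent.T15.RT

open Matrix IsLocalRing Function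
open Crest.Agent.T15.Ps Crest.Agent.T15.Pat Crest.Agent.T15.Blr
open Crest.Agent.R018.Placesx484

variable {F E : Type} [Field F] [Field E] [Algebra F E]

/-- open kernel -/
def Opn {M : Type*} [Monoid M] (f : (E ≃ₐ[F] E) →* M) : Prop :=
  ∃ L : IntermediateField F E, FiniteDimensional F L ∧ ∀ g : E ≃ₐ[F] E, (∀ x ∈ L, g x = x) → f g = 1

/-- the inertia group of a place -/
abbrev In (F : Type) {E : Type} [Field F] [Field E] [Algebra F E] (P : Place E) :
    Subgroup (E ≃ₐ[F] E) := P.ideal.inertia (E ≃ₐ[F] E)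

variable {O : Type} [CommRing O] [IsLocalRing O]

/-- hypotheses on the representation `ρ` (`bar k ρ` is its reduction, `Pl l` one place above each
prime of the level) -/
structure Glob [CharZero E] (p : ℕ) (ρ : (E ≃ₐ[F] E) →* M2 O) {Λ : Type} (Pl : Λ → Place E) : Prop where
  prime : p.Prime
  odd : p ≠ 2
  pmem : (p : O) ∈ maximalIdeal O
  cpt : Cpt (maximalIdeal O)
  irr : Irr (bar (ResidueField O) ρ)
  conjc : ∃ c, c * c = 1 ∧ (ρ c).det = -1
  rchar : ∀ l, (Pl l).rchar ≠ p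
  /-- the image of inertia has order prime to `p` -/
  tame : ∀ l, ∀ g ∈ In F (Pl l), bar (ResidueField O) ρ g = 1 → ρ g = 1
  /-- inertia is not scalar -/
  reg : ∀ l, ∃ s ∈ In F (Pl l), IsUnit ((ρ s).trace ^ 2 - 4 * (ρ s).det)

/-- **Selmer bound.**  `σ` is any lift of `ρbar` with determinant `det ρ` over a finite local ring
generated by its traces such that `R²` embeds into a power of `H × C²`, equivariantly for `ker δ`.
The tangent vectors that are unramified (over the field of `ρbar`) at the places `Pl l` span a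
space of dimension at most `r`. -/
def Sel (r : ℕ) (ρ : (E ≃ₐ[F] E) →* M2 O) {Λ : Type} (Pl : Λ → Place E) (C : Type) [CommRing C]
    [Algebra O C] {H : Type} [AddCommGroup H] [Module O H] (ρH : (E ≃ₐ[F] E) →* Module.End O H)
    {Δ : Type} [CommGroup Δ] (δ : (E ≃ₐ[F] E) →* Δ) : Prop :=
  ∀ (R : Type) [CommRing R] [IsLocalRing R] [Finite R] [Algebra O R] [Algebra R (ResidueField O)]
    [IsScalarTower O R (ResidueField O)] (σ : (E ≃ₐ[F] E) →* M2 R) (P : GL (Fin 2) (ResidueField O))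
    (j : H × (Fin 2 → C) → (Fin 2 → R) →ₗ[O] H × (Fin 2 → C)),
    (∀ g, bar (ResidueField O) σ g = conj (bar (ResidueField O) ρ) P g) →
    (∀ g, (σ g).det = algebraMap O R (ρ g).det) →
    Algebra.adjoin O (Set.range fun g => (σ g).trace) = ⊤ → Opn σ →
    (∀ v g w, δ g = 1 → j v (σ g *ᵥ w) = prodAct ρH (act O (bar C ρ)) g (j v w)) →
    (∀ w, (∀ v, j v w = 0) → w = 0) →
    ∀ W : Submodule (ResidueField O) (Derivation O R (ResidueField O)),
      (∀ D ∈ W, ∀ l, ∀ g ∈ In F (Pl l), bar (ResidueField O) ρ g = 1 → phi σ D g = 0) →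
      Module.finrank (ResidueField O) W ≤ r

/-- **the data at level `n`**: `C = O/I`, `H` a `C`-module with commuting actions of `G` and of the
commutative ring `A` (traces `t g`, diamonds `dia`), free over `C[Δ]`; `θ` a point of its support
with values in a quotient `C'` of `O'` -/
structure Lev (p n r e : ℕ) (ρ : (E ≃ₐ[F] E) →* M2 O) {Λ : Type} (Pl : Λ → Place E) (d : Type)
    {O' : Type} [CommRing O'] [Algebra O O'] (C : Type) [CommRing C] [Algebra O C]
    {C' : Type} [CommRing C'] (q' : O' →+* C') {Δ : Type} [CommGroup Δ] (del : Fin r → Δ)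
    (δ : (E ≃ₐ[F] E) →* Δ) {H : Type} [AddCommGroup H] [Module O H] [Module C H]
    (ρH : (E ≃ₐ[F] E) →* Module.End O H) {A : Type} [CommRing A] [Algebra O A]
    (ac : A →ₐ[O] Module.End O H) (dia : Δ →* A) (t : (E ≃ₐ[F] E) → A) (θ : A →+* C') : Prop where
  finC : Finite C
  surj : Surjective (algebraMap O C)
  ker : RingHom.ker (algebraMap O C) ≤ maximalIdeal O ^ (n + 1)
  twg : TWg p n del
  free : ∃ m : d → H, LinearIndependent C (fun q : Δ × d => ac (dia q.1) (m q.2)) ∧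
    Submodule.span C (Set.range fun q : Δ × d => ac (dia q.1) (m q.2)) = ⊤
  comm : ∀ g a, ρH g * ac a = ac a * ρH g
  opnH : Opn ρH
  opnδ : Opn δ
  opnρ : Opn (bar C ρ)
  /-- Eichler-Shimura (at every `g`, by Chebotarev) -/
  ch : ∀ g, ρH g + (ρ g).det • (ac (dia (δ g)) * ρH g⁻¹) = ac (t g)
  res : ∀ g, IsNilpotent (ac (t g - algebraMap O A (ρ g).trace))
  /-- inertia at the Taylor-Wiles primes -/
  tw : ∀ i, ∃ τ, δ τ = del i ∧ ρ τ = 1 ∧ ac (t τ - 1 - dia (del i)) ^ e = 0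
  thO : ∀ a, θ (algebraMap O A a) = q' (algebraMap O O' a)
  thD : ∀ x, θ (dia x) = 1
  thK : ∀ a, ac a = 0 → θ a = 0
  thI : ∀ l, ∀ g ∈ In F (Pl l), bar (ResidueField O) ρ g = 1 → θ (t g) = 2
  sel : Sel r ρ Pl C ρH δ

/-- **abstract `R = T`**: a polynomial in the traces that is killed by the norm of `Δ n` at every
level vanishes at `ρ` -/
def RTStmt : Prop :=
  ∀ (F E : Type) [Field F] [NumberField F] [Field E] [CharZero E] [IsAlgClosed E]
    [Algebra.IsAlgebraic ℚ E] [Algebra F E] [IsGalois F E]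
    (O : Type) [CommRing O] [IsDomain O] [IsLocalRing O] [IsNoetherianRing O]
    (O' : Type) [CommRing O'] [IsDomain O'] [CharZero O'] [Algebra O O'] (J' : Ideal O')
    (p r e : ℕ) (ρ : (E ≃ₐ[F] E) →* M2 O) (Λ : Type) [Finite Λ] (Pl : Λ → Place E)
    (d : Type) [Finite d] [Nonempty d]
    (C C' Δ H A : ℕ → Type) [∀ n, CommRing (C n)] [∀ n, Algebra O (C n)] [∀ n, CommRing (C' n)]
    [∀ n, CommGroup (Δ n)] [∀ n, Fintype (Δ n)] [∀ n, AddCommGroup (H n)] [∀ n, Module O (H n)]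
    [∀ n, Module (C n) (H n)] [∀ n, IsScalarTower O (C n) (H n)] [∀ n, CommRing (A n)]
    [∀ n, Algebra O (A n)] (q' : ∀ n, O' →+* C' n) (del : ∀ n, Fin r → Δ n)
    (δ : ∀ n, (E ≃ₐ[F] E) →* Δ n) (ρH : ∀ n, (E ≃ₐ[F] E) →* Module.End O (H n))
    (ac : ∀ n, A n →ₐ[O] Module.End O (H n)) (dia : ∀ n, Δ n →* A n)
    (t : ∀ n, (E ≃ₐ[F] E) → A n) (θ : ∀ n, A n →+* C' n),
    Glob p ρ Pl → Sys J' q' →
    (∀ n, Lev p n r e ρ Pl d (C n) (q' n) (del n) (δ n) (ρH n) (ac n) (dia n) (t n) (θ n)) →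
    ∀ P : MvPolynomial (E ≃ₐ[F] E) O,
      (∀ n, ∑ x, ac n (dia n x * MvPolynomial.aeval (t n) P) = 0) →
      MvPolynomial.aeval (fun g => (ρ g).trace) P = 0

end Crest.Agent.T15.RT

end
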