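import Crest.Agent.T15.RTDef_3

/-!
# Row 15, block R (helper3): proof of the abstract `R = T` theorem, part a (modules)

A free module over the group ring in matrices, and the norm element.
-/

set_option autoImplicit false
set_option linter.unusedSectionVars false

noncomputable section

namespace Crest.Agent.T15.RT

open IsLocalRing Function
open Crest.Agent.T15.Pat

section nil

variable {O A : Type*} [CommRing O] [IsLocalRing O] [CommRing A] [Algebra O A] [Finite A]

lemma nil_of_mem {a : O} (h : a ∈ maximalIdeal O) : IsNilpotent (algebraMap O A a) :=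
  ⟨Nat.card A, by
    rw [← map_pow]; exact pow_le_ker (algebraMap O A) (Ideal.pow_mem_pow h _)⟩

lemma nil_of_tn {a : A} (h : TN O a) : IsNilpotent a := by
  obtain ⟨N, hN⟩ := h
  refine ⟨N * Nat.card A, ?_⟩
  have h1 := Ideal.pow_mem_pow hN (Nat.card A)
  rw [← Ideal.map_pow, (Ideal.map_eq_bot_iff_le_ker _).2 (pow_le_ker (algebraMap O A))] at h1
  rw [pow_mul]; exact h1

lemma two_unit {p : ℕ} (hp : p.Prime) (h2 : p ≠ 2) (hpm : (p : O) ∈ maximalIdeal O) :
    ∃ h : O, 2 * h = 1 := by
  obtain ⟨k, hk⟩ := hp.odd_of_ne_two h2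
  refine IsUnit.exists_right_inv ?_
  by_contra h
  have h1 : (2 : O) ∈ maximalIdeal O := h
  have h3 := sub_mem hpm (Ideal.mul_mem_right (k : O) _ h1)
  rw [hk] at h3
  push_cast at h3
  rw [add_sub_cancel_left] at h3
  exact (maximalIdeal.isMaximal O).ne_top ((Ideal.eq_top_iff_one _).2 h3)

end nil

section mod

variable {O C Δ H A d : Type*} [CommRing O] [CommRing C] [Algebra O C] [CommGroup Δ] [Fintype Δ]
  [AddCommGroup H] [Module O H] [Module C H] [IsScalarTower O C H] [CommRing A] [Algebra O A]
  [Fintype d] [DecidableEq d]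

/-- a faithful module that is free over the group ring, in matrices -/
theorem exists_phi (surj : Surjective (algebraMap O C)) (ac : A →ₐ[O] Module.End O H)
    (hac : Injective ac) (dia : Δ →* A) (m : d → H)
    (hli : LinearIndependent C (fun q : Δ × d => ac (dia q.1) (m q.2)))
    (hsp : Submodule.span C (Set.range fun q : Δ × d => ac (dia q.1) (m q.2)) = ⊤) :
    ∃ (φ : A →+* Matrix d d (MonoidAlgebra C Δ)) (L : MonoidAlgebra C Δ →+* A), Injective φ ∧
      (∀ x, L (MonoidAlgebra.of C Δ x) = dia x) ∧
      (∀ a, L (algebraMap O _ a) = algebraMap O A a) ∧ ∀ b, φ (L b) = Matrix.scalar d b := by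
  have hk : RingHom.ker (algebraMap O C) ≤ RingHom.ker (algebraMap O A) := fun a ha => by
    refine hac (LinearMap.ext fun v => ?_)
    rw [AlgHom.commutes, map_zero, Module.algebraMap_end_apply, ← algebraMap_smul C a v,
      RingHom.mem_ker.1 ha, zero_smul, LinearMap.zero_apply]
  let ι : C →+* A := RingHom.liftOfSurjective _ surj ⟨algebraMap O A, hk⟩
  have hι : ∀ a, ι (algebraMap O C a) = algebraMap O A a := fun a =>
    RingHom.liftOfRightInverse_comp_apply _ _ _ _ a
  let _ : Algebra C A := ι.toAlgebra
  have hιv : ∀ (c : C) (v : H), ac (algebraMap C A c) v = c • v := fun c v => by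
    obtain ⟨a, rfl⟩ := surj c
    change ac (ι _) v = _
    rw [hι, AlgHom.commutes, Module.algebraMap_end_apply, algebraMap_smul]
  let L : MonoidAlgebra C Δ →ₐ[C] A := MonoidAlgebra.lift C A Δ dia
  have hL : ∀ (b : MonoidAlgebra C Δ) (v : H),
      ac (L b) v = ∑ x, b.coeff x • ac (dia x) v := fun b v => by
    rw [MonoidAlgebra.lift_apply, Finsupp.sum_fintype _ _ (fun _ => by rw [zero_smul]), map_sum,
      LinearMap.sum_apply]
    refine Finset.sum_congr rfl fun x _ => ?_
    rw [Algebra.smul_def, map_mul, Module.End.mul_apply, hιv]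
  let _ : Module A H := Module.compHom H ac.toRingHom
  let _ : Module (MonoidAlgebra C Δ) H := Module.compHom H L.toRingHom
  have hsm : ∀ (b : MonoidAlgebra C Δ) (v : H), b • v = ac (L b) v := fun _ _ => rfl
  have hsA : ∀ (a : A) (v : H), a • v = ac a v := fun _ _ => rfl
  have : SMulCommClass A (MonoidAlgebra C Δ) H := ⟨fun a b v => by
    rw [hsm, hsm, hsA, hsA, ← Module.End.mul_apply, ← Module.End.mul_apply, ← map_mul, ← map_mul,
      mul_comm]⟩
  have h1 : LinearIndependent (MonoidAlgebra C Δ) m := by
    rw [Fintype.linearIndependent_iff] at hli ⊢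
    intro g hg i
    have := hli (fun q => (g q.2).coeff q.1) (by
      rw [← hg, Fintype.sum_prod_type_right]
      exact Finset.sum_congr rfl fun j _ => by rw [hsm, hL])
    ext x
    exact this (x, i)
  have h2 : ⊤ ≤ Submodule.span (MonoidAlgebra C Δ) (Set.range m) := by
    intro v hv
    clear hv
    have hv : v ∈ Submodule.span C (Set.range fun q : Δ × d => ac (dia q.1) (m q.2)) := by
      rw [hsp]; trivial
    induction hv using Submodule.span_induction with
    | mem v hv =>
      obtain ⟨q, rfl⟩ := hv
      have := Submodule.smul_mem (Submodule.span (MonoidAlgebra C Δ) (Set.range m))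
        (MonoidAlgebra.of C Δ q.1) (Submodule.subset_span ⟨q.2, rfl⟩)
      rwa [hsm, MonoidAlgebra.lift_of] at this
    | zero => exact zero_mem _
    | add a b _ _ ha hb => exact add_mem ha hb
    | smul c a _ ha =>
      have := Submodule.smul_mem _ (algebraMap C (MonoidAlgebra C Δ) c) ha
      rwa [hsm, AlgHom.commutes, hιv] at this
  let b := Module.Basis.mk h1 h2
  refine ⟨(LinearMap.toMatrixAlgEquiv b).toRingEquiv.toRingHom.comp
    (Module.toModuleEnd (MonoidAlgebra C Δ) H), L.toRingHom, ?_, fun x => ?_, fun a => ?_,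
    fun β => ?_⟩
  · refine (LinearMap.toMatrixAlgEquiv b).injective.comp fun a a' h => hac ?_
    exact LinearMap.ext fun v => LinearMap.congr_fun h v
  · exact MonoidAlgebra.lift_of _ _
  · rw [IsScalarTower.algebraMap_apply O C (MonoidAlgebra C Δ)]
    exact (L.commutes _).trans (hι a)
  · exact (LinearMap.toMatrixAlgEquiv b).commutes β

end mod

section norm

variable {O C Δ ι : Type*} [CommRing O] [IsLocalRing O] [IsNoetherianRing O] [CommRing C]
  [Algebra O C] [Module.Finite O C] [CommGroup Δ] [Fintype Δ] [Fintype ι] {p n : ℕ} {del : ι → Δ}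

/-- the annihilator of the norm is the augmentation ideal -/
theorem mem_of_norm (h : TWg p n del) (hO : Cpt (maximalIdeal O)) (hp : p.Prime)
    (hpm : (p : O) ∈ maximalIdeal O) (surj : Surjective (algebraMap O C))
    {β : MonoidAlgebra C Δ} (hβ : (∑ x, MonoidAlgebra.of C Δ x) * β = 0) :
    β ∈ (RingHom.ker (MvPowerSeries.constantCoeff (σ := ι) (R := O))).map (h.gr C hO hp hpm) := by
  classical
  let dg : MonoidAlgebra C Δ →ₐ[C] C := MonoidAlgebra.lift C C Δ 1
  have h1 : ∀ b : MonoidAlgebra C Δ,
      (∑ x, MonoidAlgebra.of C Δ x) * b = dg b • ∑ x, MonoidAlgebra.of C Δ x := fun b => by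
    induction b using MonoidAlgebra.induction_on with
    | of g =>
      rw [MonoidAlgebra.lift_of, MonoidHom.one_apply, one_smul, Finset.sum_mul]
      simp only [← map_mul]
      exact Fintype.sum_equiv (Equiv.mulRight g) _ _ fun _ => rfl
    | add x y hx hy => rw [mul_add, hx, hy, map_add, add_smul]
    | smul c x hx => rw [mul_smul_comm, hx, map_smul, smul_eq_mul, mul_smul]
  have h2 : dg β = 0 := by
    rw [h1] at hβ
    have := congrArg (fun b : MonoidAlgebra C Δ => b.coeff 1) hβ
    simpa [Finsupp.single_apply] using this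
  obtain ⟨f, rfl⟩ := h.gr_surjective C hO hp hpm surj β
  have h3 : dg.toRingHom.comp (h.gr C hO hp hpm) =
      (algebraMap O C).comp MvPowerSeries.constantCoeff :=
    mv_ext_zero (fun a => by
      rw [RingHom.comp_apply, TWg.gr_C, IsScalarTower.algebraMap_apply O C (MonoidAlgebra C Δ)]
      exact (dg.commutes _).trans (by simp)) (fun i => by simp [dg]) fun i => by simp
  have h4 : algebraMap O C (MvPowerSeries.constantCoeff f) = 0 :=
    (RingHom.congr_fun h3 f).symm.trans h2
  have h5 : h.gr C hO hp hpm f =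
      h.gr C hO hp hpm (f - MvPowerSeries.C (MvPowerSeries.constantCoeff f)) := by
    rw [map_sub, TWg.gr_C, IsScalarTower.algebraMap_apply O C (MonoidAlgebra C Δ), h4, map_zero,
      sub_zero]
  rw [h5]
  exact Ideal.mem_map_of_mem _ (by simp [RingHom.mem_ker])

end norm

end Crest.Agent.T15.RT

end
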