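import Crest.Agent.T15.RTa_3

/-!
# Row 15, block R (helper3): proof of the abstract `R = T` theorem, part b (the trace ring)

Generators of the trace ring at one level, from the Selmer bound.
-/

set_option autoImplicit false
set_option linter.unusedSectionVars false

noncomputable section

namespace Crest.Agent.T15.RT

open Matrix IsLocalRing Function
open Crest.Agent.T15.Ps Crest.Agent.T15.Pat Crest.Agent.T15.Blr Crest.Agent.T15.Inert
open Crest.Agent.R018.Placesx484

lemma exp_twg {p n : ℕ} {ι Δ : Type*} [Fintype ι] [CommGroup Δ] {del : ι → Δ} (h : TWg p n del) :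
    ∃ M : ℕ, ∀ x : Δ, x ^ p ^ M = 1 := by
  choose m hm using h.ord
  refine ⟨∑ i, m i, fun x => ?_⟩
  obtain ⟨k, rfl⟩ := h.gen x
  rw [← Finset.prod_pow]
  refine Finset.prod_eq_one fun i _ => ?_
  obtain ⟨c, hc⟩ := pow_dvd_pow p
    (Finset.single_le_sum (f := m) (fun _ _ => Nat.zero_le _) (Finset.mem_univ i))
  rw [← pow_mul, mul_comm, pow_mul, hc, pow_mul, hm, one_pow, one_pow]

variable {F E : Type} [Field F] [NumberField F] [Field E] [CharZero E] [IsAlgClosed E]
  [Algebra.IsAlgebraic ℚ E] [Algebra F E] [IsGalois F E]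
  {O : Type} [CommRing O] [IsLocalRing O] [IsNoetherianRing O]
  {O' : Type} [CommRing O'] [Algebra O O'] {p n r e : ℕ} {ρ : (E ≃ₐ[F] E) →* M2 O} {Λ : Type}
  {Pl : Λ → Place E} {d C C' Δ H A : Type} [CommRing C] [Algebra O C] [CommRing C'] [CommGroup Δ]
  [AddCommGroup H] [Module O H] [Module C H] [CommRing A] [Algebra O A] {q' : O' →+* C'}
  {del : Fin r → Δ} {δ : (E ≃ₐ[F] E) →* Δ} {ρH : (E ≃ₐ[F] E) →* Module.End O H}
  {ac : A →ₐ[O] Module.End O H} {dia : Δ →* A} {t : (E ≃ₐ[F] E) → A} {θ : A →+* C'}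

set_option maxHeartbeats 800000 in
/-- generators of the trace ring -/
theorem gal_step (hG : Glob p ρ Pl) (hL : Lev p n r e ρ Pl d C q' del δ ρH ac dia t θ)
    (hac : Injective ac) [Finite A] (sq : Δ →* Δ) (hsq : ∀ x, sq x ^ 2 * x = 1) :
    ∃ (u v : Λ × Bool → trRing O (fun g => dia (sq (δ g)) * t g) (bar C ρ))
      (xs : Fin r → trRing O (fun g => dia (sq (δ g)) * t g) (bar C ρ)),
      Algebra.adjoin O (Set.range xs ∪ Set.range u) = ⊤ ∧ (∀ i, IsNilpotent (xs i)) ∧
      (∀ j, (u j * v j) ^ 2 = 0) ∧ (∀ j, trX O _ _ (u j) = 0) ∧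
      ∀ j, θ (trAl O _ _ (v j)) = ((Pl j.1).qv F : C') ^ 2 - 1 := by
  classical
  have hfC := hL.finC
  have hp : Fact p.Prime := ⟨hG.prime⟩
  let k := ResidueField O
  obtain ⟨M, hM⟩ := exp_twg hL.twg
  let _ : Module A H := Module.compHom H ac.toRingHom
  have hsA : ∀ (a : A) (v : H), a • v = ac a v := fun _ _ => rfl
  have : IsScalarTower O A H := ⟨fun a b v => by
    rw [hsA, hsA, map_smul, LinearMap.smul_apply]⟩
  have hc : ∀ g (a : A) v, ρH g (a • v) = a • ρH g v := fun g a v =>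
    LinearMap.congr_fun (hL.comm g a) v
  let χ : (E ≃ₐ[F] E) →* A := dia.comp (sq.comp δ)
  let ψ : (E ≃ₐ[F] E) →* O := detMonoidHom.comp ρ
  let D : (E ≃ₐ[F] E) →* A := ((algebraMap O A).toMonoidHom.comp ψ) * dia.comp δ
  have hχ : ∀ g, χ g ^ 2 * D g = algebraMap O A (ψ g) := fun g => by
    change dia (sq (δ g)) ^ 2 * (algebraMap O A (ψ g) * dia (δ g)) = _
    rw [mul_left_comm, ← map_pow, ← map_mul, hsq, map_one, mul_one]
  have hCH : ∀ g v, ρH g v + D g • ρH g⁻¹ v = t g • v := fun g v => by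
    have := LinearMap.congr_fun (hL.ch g) v
    rw [hsA, hsA, ← this]
    change _ + ac (algebraMap O A (ψ g) * dia (δ g)) _ = _
    rw [map_mul, AlgHom.commutes]
    rfl
  have hk : ∀ a : O, algebraMap O k a = 0 ↔ a ∈ maximalIdeal O := fun a => residue_eq_zero_iff a
  let πC : C →ₐ[O] k := AlgHom.liftOfSurjective (Algebra.ofId O C) hL.surj (Algebra.ofId O k)
    fun a ha => (hk a).2 (Ideal.pow_le_self (Nat.succ_ne_zero n) (hL.ker ha))
  have hA : ∀ a : O, algebraMap O k a = 0 → IsNilpotent (algebraMap O A a) := fun a ha =>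
    nil_of_mem ((hk a).1 ha)
  have hC : ∀ z, πC z = 0 → IsNilpotent z := fun z hz => by
    obtain ⟨a, rfl⟩ := hL.surj z
    exact nil_of_mem ((hk a).1 (by rwa [AlgHom.commutes] at hz))
  have hnil : ∀ g, ∃ a : O, IsNilpotent (dia (sq (δ g)) * t g - algebraMap O A a) ∧
      algebraMap O k a = πC (bar C ρ g).trace := fun g => by
    refine ⟨(ρ g).trace, ?_, by rw [trace_bar, AlgHom.commutes]⟩
    have h1 : IsNilpotent (t g - algebraMap O A (ρ g).trace) := by
      obtain ⟨N, hN⟩ := hL.res g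
      exact ⟨N, hac (by rw [map_pow, hN, map_zero])⟩
    have h2 : IsNilpotent (dia (sq (δ g)) - 1) := nil_of_tn (O := O)
      (TN.sub_one hG.prime hG.pmem (m := M) (by rw [← map_pow, hM, map_one]))
    have := (Commute.all _ _).isNilpotent_add
      ((Commute.all (dia (sq (δ g))) _).isNilpotent_mul_left h1)
      ((Commute.all _ (algebraMap O A (ρ g).trace)).isNilpotent_mul_right h2)
    convert this using 1
    ring
  obtain ⟨h, h2⟩ := two_unit hG.prime hG.odd hG.pmem
  obtain ⟨c, hcc, hdc⟩ := hG.conjc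
  have hloc : IsLocalHom (algebraMap O k) := inferInstanceAs (IsLocalHom (residue O))
  obtain ⟨σ, P, j, s1, s2, -, s4, s5, s6, -, s8⟩ := trace_ring (k := k)
    (t := fun g => dia (sq (δ g)) * t g) (ρ := bar C ρ) (tw χ ρH hc)
    (fun a ha => hac (LinearMap.ext fun v => by rw [map_zero]; exact ha v)) (tw_comm ρH hc χ) ψ
    (tw_ch ρH hc D χ t hCH ψ hχ) (fun g => ((algebraMap O C).map_det (ρ g)).symm) πC hnil hA hC
    hG.irr (fun g => by rw [trace_bar, trace_bar, AlgHom.commutes]) h2 hcc hdc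
  let R := trRing O (fun g => dia (sq (δ g)) * t g) (bar C ρ)
  have hRl : IsLocalRing R := tr_isLocalRing πC hnil hA hC
  let _ : Algebra R k := (πC.comp (trX O _ _)).toRingHom.toAlgebra
  have : IsScalarTower O R k := IsScalarTower.of_algebraMap_eq fun a =>
    ((πC.comp (trX O _ _)).commutes a).symm
  have hbar : ∀ g, bar k σ g = Ps.conj (bar k ρ) P g := s5
  have hbar1 : ∀ g, bar k ρ g = 1 → bar k σ g = 1 := fun g hg => by
    rw [hbar, conj_apply, hg]; simp
  have hopn : Opn σ := by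
    obtain ⟨L1, f1, g1⟩ := hL.opnH
    obtain ⟨L2, f2, g2⟩ := hL.opnδ
    obtain ⟨L3, f3, g3⟩ := hL.opnρ
    refine ⟨L1 ⊔ L2 ⊔ L3, inferInstance, fun g hg => ?_⟩
    rw [← map_one σ, s4, map_one, map_one]
    refine ⟨LinearMap.ext fun v => ?_, g3 g fun x hx => hg x (le_sup_right (a := L1 ⊔ L2) hx)⟩
    have e1 := g1 g fun x hx => hg x ((le_sup_left.trans le_sup_left : L1 ≤ L1 ⊔ L2 ⊔ L3) hx)
    have e2 := g2 g fun x hx => hg x ((le_sup_right.trans le_sup_left : L2 ≤ L1 ⊔ L2 ⊔ L3) hx)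
    rw [tw_apply, e1]
    change dia (sq (δ g)) • v = v
    rw [e2, map_one, map_one, one_smul]
  have hmax := ker_eq_maximalIdeal (O := O) (R := R)
  have hpR : (p : R) ∈ maximalIdeal R := by
    rw [← hmax, RingHom.mem_ker, map_natCast, ← map_natCast (algebraMap O k), hk]; exact hG.pmem
  choose τ t1 t2 t3 t4 φ t5 using fun l => exists_tau (Pl l) (hG.rchar l) hpR σ hopn (bar k ρ).ker
    fun g hg a b => by
      rw [← hmax, RingHom.mem_ker]
      have := congrFun (congrFun (hbar1 g hg) a) b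
      rw [bar_apply, map_apply] at this
      rw [Matrix.sub_apply, map_sub, this, one_apply, one_apply]
      split_ifs <;> simp
  choose s a1 a2 using hG.reg
  have hρτ : ∀ l, ρ (τ l) = 1 := fun l => hG.tame l _ (t1 l) (t2 l)
  have hdτ : ∀ l, (σ (τ l)).det = 1 := fun l => by
    rw [s2]; change algebraMap O R (ρ (τ l)).det = 1; rw [hρτ, det_one, map_one]
  have hF : ∀ l, σ (φ l)⁻¹ * σ (φ l) = 1 := fun l => by rw [← map_mul, inv_mul_cancel, map_one]
  let u : Λ × Bool → R := fun j => if j.2 then u₂ (σ (s j.1)) (σ (τ j.1)) else u₁ (σ (τ j.1))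
  have h2k : (2 : k) ≠ 0 := fun h0 => by
    have := congrArg (algebraMap O k) h2
    rw [map_mul, map_ofNat, h0, zero_mul, map_one] at this
    exact zero_ne_one this
  have hr := hL.sel R σ P j hbar s2 (by simp only [s1]; exact adjoin_trT) hopn (fun v g w hg => by
    rw [s6]
    refine Prod.ext ?_ rfl
    change dia (sq (δ g)) • ρH g _ = ρH g _
    rw [hg, map_one, map_one, one_smul]) (fun w hw => s8 Set.univ Submodule.span_univ w
      fun v _ => hw v) (Dk O k u) fun Dv hD l g hg hg1 => by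
    obtain ⟨m, hm⟩ := t3 l g hg hg1
    rw [phi_congr σ Dv hm]
    refine phi_pow_eq_zero σ Dv (phi_eq_zero σ Dv h2k (hbar1 _ (t2 l)) ?_ (t4 l _ (a1 l))
      (hD (l, false)) (hD (l, true))) m
    rw [hbar, Ps.trace_conj, Ps.det_conj', trace_bar]
    have := ((a2 l).map (algebraMap O k)).ne_zero
    rwa [map_sub, map_pow, map_mul, map_ofNat, RingHom.map_det] at this
  obtain ⟨xs, x1, x2⟩ := exists_gens_rel u hr
  have hX : ∀ g, trX O _ _ (σ g).trace = algebraMap O C (ρ g).trace := fun g => by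
    rw [s1, trX_trT, trace_bar]
  refine ⟨u, fun j => vv ((Pl j.1).qv F) (σ (τ j.1)), xs, x2, fun i => ?_, ?_, ?_, fun j => ?_⟩
  · exact ⟨_, pow_le_ker (RingHom.id R) (Ideal.pow_mem_pow (x1 i) _)⟩
  · rintro ⟨l, _ | _⟩
    · change (u₁ _ * _) ^ 2 = 0
      rw [u₁_mul (hdτ l) (hF l) (t5 l), zero_pow two_ne_zero]
    · exact u₂_mul (hdτ l) (hF l) (t5 l) (t4 l _ (a1 l))
  · rintro ⟨l, _ | _⟩
    · change trX O _ _ (u₁ _) = 0
      rw [u₁, map_sub, hX, hρτ, map_ofNat]; simp [map_ofNat]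
    · change trX O _ _ (u₂ _ _) = 0
      rw [u₂, ← map_mul σ, map_sub, map_mul (trX O _ _), map_mul (trX O _ _), hX, hX, hX,
        map_mul ρ, hρτ, map_ofNat]
      simp [map_ofNat, mul_comm]
  · let al : R →ₐ[O] A := trAl O _ _
    refine map_vv (θ.comp al.toRingHom) _ ?_
    rw [s1]
    change θ (dia _ * t _) = 2
    rw [map_mul, hL.thD, hL.thI _ _ (t1 _) (t2 _), one_mul]

end Crest.Agent.T15.RT

end
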