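import Crest.Agent.T15.RatZ_42
import Crest.Agent.T15.Omq_82
import Crest.Agent.T15.FrmP_90
import Crest.Agent.T15.Mat_16
import Crest.Agent.T15.VsC_48
import Crest.Agent.T15.HonC_54
import Crest.Agent.T15.HonZ_74
import Crest.Agent.T15.EbD_64
import Crest.Agent.T15.Bad_93

/-!
# Row 15, block Ht (helper42): the leaves RAT and HONDA, closed
-/

set_option autoImplicit false
set_option linter.all false

namespace Crest.Agent.T15.RatZ

open Crest.Agent.T15.Hon

theorem frmStmt : Ht.FrmStmt :=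
  Ht.frmStmt_of (fun _ _ _ h Ω _ _ _ d => Ht.exists_Lam Ht.matStmt h Ω d) Ht.plS90

theorem triStmt : TriStmt := tri_of Vs.vsStmt frmStmt congStmt

/-- **leaf RAT** -/
theorem ratStmt : Ht.RatStmt := ratStmt_of Vs.vsStmt Ht.omStmt frmStmt congStmt

/-- **leaf HONDA** -/
theorem hondaStmt : Ht.HondaStmt :=
  hondaStmt_of badStmt Ht.omStmt triStmt fun _ _ _ _ P M Q e _ => Ht.ebStmt P M Q e

end Crest.Agent.T15.RatZ
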