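import Crest.Agent.T15.RbU_26
import Crest.Agent.T15.TopH_88

/-!
# Row 15: the residual representation `E_D[3]` from explicit points, algebra (helper26)
-/

set_option autoImplicit false
set_option linter.dupNamespace false

namespace Crest.Agent.T15.Tor

open Matrix Crest.Agent.T15.Ps Crest.Agent.T15.C

variable {k : Type} [Field k]

/-- `ρ` is the action on the points of order three of `y² = x³ - D x`; `U` is `(x,y) ↦ (-x, i y)` -/
structure Tor (D : ℤ) (ρ : Gam →* M2 k) (i : Om) (U : M2 k) (X Y : (Fin 2 → k) → Om) : Prop where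
  card : Nat.card k = 3
  hD : D ≠ 0
  hi : i ^ 2 = -1
  eq : ∀ v, v ≠ 0 → Y v ^ 2 = X v ^ 3 - D * X v
  div : ∀ v, v ≠ 0 → 3 * X v ^ 4 - 6 * D * X v ^ 2 - D ^ 2 = 0
  inj : ∀ v w, v ≠ 0 → w ≠ 0 → X v = X w → Y v = Y w → v = w
  gX : ∀ g v, v ≠ 0 → X (ρ g *ᵥ v) = g (X v)
  gY : ∀ g v, v ≠ 0 → Y (ρ g *ᵥ v) = g (Y v)
  nX : ∀ v, v ≠ 0 → X (-v) = X v
  nY : ∀ v, v ≠ 0 → Y (-v) = -Y v
  U0 : ∀ v, v ≠ 0 → U *ᵥ v ≠ 0
  uX : ∀ v, v ≠ 0 → X (U *ᵥ v) = -X v
  uY : ∀ v, v ≠ 0 → Y (U *ᵥ v) = i * Y v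

lemma tri (hk : Nat.card k = 3) (a : k) : a = 0 ∨ a = 1 ∨ a = -1 := by
  have : Finite k := Nat.finite_of_card_ne_zero (by omega)
  have := Fintype.ofFinite k
  have h := FiniteField.pow_card a
  rw [← Nat.card_eq_fintype_card, hk] at h
  have h2 : a * ((a - 1) * (a + 1)) = 0 := by linear_combination h
  rcases mul_eq_zero.1 h2 with h | h
  · exact Or.inl h
  · rcases mul_eq_zero.1 h with h | h
    · exact Or.inr (Or.inl (sub_eq_zero.1 h))
    · exact Or.inr (Or.inr (eq_neg_of_add_eq_zero_left h))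

lemma three_eq (hk : Nat.card k = 3) : (3 : k) = 0 := by
  have : Finite k := Nat.finite_of_card_ne_zero (by omega)
  have := Fintype.ofFinite k
  have h := FiniteField.cast_card_eq_zero k
  rw [← Nat.card_eq_fintype_card, hk] at h
  exact_mod_cast h

lemma two_ne (hk : Nat.card k = 3) : (2 : k) ≠ 0 := fun h =>
  one_ne_zero (α := k) (by linear_combination three_eq hk - h)

lemma sq_add_sq (hk : Nat.card k = 3) {a b : k} (h : a ^ 2 + b ^ 2 = 0) : a = 0 ∧ b = 0 := by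
  have h2 := two_ne hk
  have h1 : (1 : k) ≠ 0 := one_ne_zero
  rcases tri hk a with rfl | rfl | rfl <;> rcases tri hk b with rfl | rfl | rfl <;>
    first
    | exact ⟨rfl, rfl⟩
    | exact absurd (by linear_combination h) h1
    | exact absurd (by linear_combination h) h2

lemma mat_ext {A B : M2 k} (h : ∀ v, v ≠ 0 → A *ᵥ v = B *ᵥ v) : A = B := by
  ext a b
  have := congrFun (h (Pi.single b 1) (by simp)) a
  simpa using this

lemma rho_ne (ρ : Gam →* M2 k) (g : Gam) {v : Fin 2 → k} (hv : v ≠ 0) : ρ g *ᵥ v ≠ 0 := fun h => by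
  apply hv
  have : ρ g⁻¹ *ᵥ (ρ g *ᵥ v) = v := by rw [mulVec_mulVec, ← map_mul]; simp
  rw [← this, h, mulVec_zero]

lemma cayley (A : M2 k) : A * A = A.trace • A - A.det • (1 : M2 k) := by
  ext a b
  fin_cases a <;> fin_cases b <;> simp [trace_fin_two, det_fin_two, mul_apply, Fin.sum_univ_two] <;>
    ring

lemma pm {x y : Om} (h : x ^ 2 = y ^ 2) : x = y ∨ x = -y := sq_eq_sq_iff_eq_or_eq_neg.1 h

lemma map_i {i : Om} (hi : i ^ 2 = -1) (g : Gam) : g i = i ∨ g i = -i :=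
  pm (by rw [← map_pow, hi, map_neg, map_one])

lemma i_ne {i : Om} (hi : i ^ 2 = -1) : -i ≠ i := fun h => by
  have h0 : i = 0 := by linear_combination -(1 / 2) * h
  rw [h0] at hi; norm_num at hi

namespace Tor

variable {D : ℤ} {ρ : Gam →* M2 k} {i : Om} {U : M2 k} {X Y : (Fin 2 → k) → Om}
  (h : Tor D ρ i U X Y)
include h

lemma D_ne : (D : Om) ≠ 0 := by exact_mod_cast h.hD

lemma X_ne {v : Fin 2 → k} (hv : v ≠ 0) : X v ≠ 0 := fun h0 => by
  have := h.div v hv
  rw [h0] at this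
  exact pow_ne_zero 2 h.D_ne (by linear_combination -this)

lemma UU : U * U = -1 := mat_ext fun v hv => by
  rw [← mulVec_mulVec, neg_mulVec, one_mulVec]
  refine h.inj _ _ (h.U0 _ (h.U0 v hv)) (neg_ne_zero.2 hv) ?_ ?_
  · rw [h.uX _ (h.U0 v hv), h.uX v hv, h.nX v hv, neg_neg]
  · rw [h.uY _ (h.U0 v hv), h.uY v hv, h.nY v hv]; linear_combination Y v * h.hi

lemma UUv (v : Fin 2 → k) : U *ᵥ (U *ᵥ v) = -v := by
  rw [mulVec_mulVec, h.UU, neg_mulVec, one_mulVec]

lemma comm {g : Gam} (hg : g i = i) : ρ g * U = U * ρ g := mat_ext fun v hv => by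
  rw [← mulVec_mulVec, ← mulVec_mulVec]
  refine h.inj _ _ (rho_ne ρ g (h.U0 v hv)) (h.U0 _ (rho_ne ρ g hv)) ?_ ?_
  · rw [h.gX g _ (h.U0 v hv), h.uX v hv, h.uX _ (rho_ne ρ g hv), h.gX g v hv, map_neg]
  · rw [h.gY g _ (h.U0 v hv), h.uY v hv, h.uY _ (rho_ne ρ g hv), h.gY g v hv, map_mul, hg]

lemma anti {g : Gam} (hg : g i = -i) : ρ g * U = -(U * ρ g) := mat_ext fun v hv => by
  have h1 := h.U0 _ (rho_ne ρ g hv)
  rw [neg_mulVec, ← mulVec_mulVec, ← mulVec_mulVec]
  refine h.inj _ _ (rho_ne ρ g (h.U0 v hv)) (neg_ne_zero.2 h1) ?_ ?_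
  · rw [h.gX g _ (h.U0 v hv), h.uX v hv, h.nX _ h1, h.uX _ (rho_ne ρ g hv), h.gX g v hv, map_neg]
  · rw [h.gY g _ (h.U0 v hv), h.uY v hv, h.nY _ h1, h.uY _ (rho_ne ρ g hv), h.gY g v hv, map_mul,
      hg, neg_mul]

lemma indep {v : Fin 2 → k} (hv : v ≠ 0) {a b : k} (e : a • v + b • U *ᵥ v = 0) :
    a = 0 ∧ b = 0 := by
  have e2 : a • U *ᵥ v - b • v = 0 := by
    have : U *ᵥ (a • v + b • U *ᵥ v) = 0 := by rw [e, mulVec_zero]
    rwa [mulVec_add, mulVec_smul, mulVec_smul, h.UUv, smul_neg, ← sub_eq_add_neg] at this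
  have e3 : (a ^ 2 + b ^ 2) • v = 0 := by
    have : (a ^ 2 + b ^ 2) • v = a • (a • v + b • U *ᵥ v) - b • (a • U *ᵥ v - b • v) := by module
    rw [this, e, e2]; simp
  exact sq_add_sq h.card ((smul_eq_zero.1 e3).resolve_right hv)

lemma indep' {v : Fin 2 → k} (hv : v ≠ 0) {a b c d : k}
    (e : a • v + b • U *ᵥ v = c • v + d • U *ᵥ v) : a = c ∧ b = d := by
  have := h.indep hv (a := a - c) (b := b - d) (by
    rw [sub_smul, sub_smul, ← sub_eq_zero.2 e]; abel)
  exact ⟨sub_eq_zero.1 this.1, sub_eq_zero.1 this.2⟩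

lemma cramer {v : Fin 2 → k} (hv : v ≠ 0) (w : Fin 2 → k) : ∃ a b : k, w = a • v + b • U *ᵥ v := by
  obtain ⟨u, hu⟩ : ∃ u, u = U *ᵥ v := ⟨_, rfl⟩
  have hd : v 0 * u 1 - v 1 * u 0 ≠ 0 := by
    intro hd
    have h0 := h.indep hv (a := u 0) (b := -v 0) (by
      rw [← hu]; ext j; fin_cases j <;> simp <;>
        first | ring1 | linear_combination hd | linear_combination -hd)
    have h1 := h.indep hv (a := u 1) (b := -v 1) (by
      rw [← hu]; ext j; fin_cases j <;> simp <;>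
        first | ring1 | linear_combination hd | linear_combination -hd)
    apply hv
    ext j; fin_cases j
    · simpa using h0.2
    · simpa using h1.2
  obtain ⟨r, hr⟩ : ∃ r, r * (v 0 * u 1 - v 1 * u 0) = 1 := ⟨_, inv_mul_cancel₀ hd⟩
  refine ⟨(w 0 * u 1 - w 1 * u 0) * r, (v 0 * w 1 - v 1 * w 0) * r, ?_⟩
  rw [← hu]
  ext j; fin_cases j <;> simp
  · linear_combination -w 0 * hr
  · linear_combination -w 1 * hr

omit h in
lemma e_ne : (Pi.single 0 1 : Fin 2 → k) ≠ 0 := by simp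

lemma tr_det : U.trace = 0 ∧ U.det = 1 := by
  have h1 := congrArg (· *ᵥ (Pi.single 0 1 : Fin 2 → k)) (cayley U)
  simp only [h.UU, neg_mulVec, one_mulVec, sub_mulVec, smul_mulVec] at h1
  have := h.indep (e_ne (k := k)) (a := 1 - U.det) (b := U.trace) (by
    have h2 : ∀ x y : Fin 2 → k, -x = U.trace • y - U.det • x →
        (1 - U.det) • x + U.trace • y = 0 := fun x y e => by
      rw [sub_smul, one_smul, eq_add_of_sub_eq e.symm]; abel
    exact h2 _ _ h1)
  exact ⟨this.2, (sub_eq_zero.1 this.1).symm⟩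

lemma comm_eq {A : M2 k} (hA : A * U = U * A) {v : Fin 2 → k} (hv : v ≠ 0) {a b : k}
    (e : A *ᵥ v = a • v + b • U *ᵥ v) : A = a • (1 : M2 k) + b • U := mat_ext fun w _ => by
  obtain ⟨c, d, rfl⟩ := h.cramer hv w
  have e2 : A *ᵥ (U *ᵥ v) = a • U *ᵥ v - b • v := by
    rw [mulVec_mulVec, hA, ← mulVec_mulVec, e, mulVec_add, mulVec_smul, mulVec_smul, h.UUv]
    module
  simp only [mulVec_add, mulVec_smul, add_mulVec, smul_mulVec, one_mulVec, e, e2, h.UUv]
  module

lemma det_comb (a b : k) : (a • (1 : M2 k) + b • U).det = a ^ 2 + b ^ 2 := by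
  have h1 := h.tr_det.1
  have h2 := h.tr_det.2
  rw [trace_fin_two] at h1
  rw [det_fin_two] at h2 ⊢
  simp
  linear_combination a * b * h1 + b ^ 2 * h2

lemma det_anti {A : M2 k} (hA : A * U = -(U * A)) {v : Fin 2 → k} (hv : v ≠ 0) {a b : k}
    (e : A *ᵥ v = a • v + b • U *ᵥ v) : A.det = -(a ^ 2 + b ^ 2) := by
  have t0 : A.trace = 0 := by
    have e1 : U * A * U = A := by
      rw [mul_assoc, hA, mul_neg, ← mul_assoc, h.UU]; simp
    have e2 : (U * A * U).trace = -A.trace := by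
      rw [trace_mul_comm, ← mul_assoc, h.UU]; simp
    rw [e1] at e2
    exact (mul_eq_zero.1 (by linear_combination e2 : 2 * A.trace = 0)).resolve_left (two_ne h.card)
  have e2 : A *ᵥ (U *ᵥ v) = b • v - a • U *ᵥ v := by
    rw [mulVec_mulVec, hA, neg_mulVec, ← mulVec_mulVec, e, mulVec_add, mulVec_smul, mulVec_smul,
      h.UUv]
    module
  have e3 : (A * A) *ᵥ v = (a ^ 2 + b ^ 2) • v := by
    rw [← mulVec_mulVec, e, mulVec_add, mulVec_smul, mulVec_smul, e, e2]
    module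
  rw [cayley, t0, zero_smul, zero_sub, neg_mulVec, smul_mulVec, one_mulVec, ← neg_smul] at e3
  have := smul_left_injective k hv e3
  linear_combination -this

lemma orbit {v w : Fin 2 → k} (hv : v ≠ 0) (hw : w ≠ 0) (e : X w ^ 2 = X v ^ 2) :
    (X w = X v ∧ (w = v ∨ w = -v)) ∨ (X w = -X v ∧ (w = U *ᵥ v ∨ w = -(U *ᵥ v))) := by
  have hU := h.U0 v hv
  rcases pm e with e1 | e1
  · refine Or.inl ⟨e1, ?_⟩
    rcases pm (x := Y w) (y := Y v) (by rw [h.eq w hw, h.eq v hv, e1]) with e2 | e2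
    · exact Or.inl (h.inj _ _ hw hv e1 e2)
    · exact Or.inr (h.inj _ _ hw (neg_ne_zero.2 hv) (by rw [h.nX v hv, e1]) (by rw [h.nY v hv, e2]))
  · refine Or.inr ⟨e1, ?_⟩
    rcases pm (x := Y w) (y := i * Y v) (by
      rw [mul_pow, h.hi, h.eq w hw, h.eq v hv, e1]; ring) with e2 | e2
    · exact Or.inl (h.inj _ _ hw hU (by rw [h.uX v hv, e1]) (by rw [h.uY v hv, e2]))
    · exact Or.inr (h.inj _ _ hw (neg_ne_zero.2 hU) (by rw [h.nX _ hU, h.uX v hv, e1])
        (by rw [h.nY _ hU, h.uY v hv, e2]))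

/-- `s = ± 2 √3` with `X² = D (1 + s/3)` -/
lemma exists_s {v : Fin 2 → k} (hv : v ≠ 0) : ∃ s : Om, s ^ 2 = 12 ∧ X v ^ 2 = D * (1 + s / 3) := by
  have hD := h.D_ne
  refine ⟨(3 * X v ^ 2 - 3 * D) / D, ?_, by field_simp; ring⟩
  rw [div_pow, div_eq_iff (pow_ne_zero 2 hD)]
  linear_combination 3 * h.div v hv

lemma norm_iff {g : Gam} {v : Fin 2 → k} (hv : v ≠ 0) {a b : k}
    (e : ρ g *ᵥ v = a • v + b • U *ᵥ v) :
    (g (X v ^ 2) = X v ^ 2 ∧ a ^ 2 + b ^ 2 = 1) ∨ (g (X v ^ 2) ≠ X v ^ 2 ∧ a ^ 2 + b ^ 2 = -1) := by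
  have hw := rho_ne ρ g hv
  have hU := h.U0 v hv
  rw [map_pow, ← h.gX g v hv]
  by_cases c : X (ρ g *ᵥ v) ^ 2 = X v ^ 2
  · refine Or.inl ⟨c, ?_⟩
    rcases h.orbit hv hw c with ⟨-, e1 | e1⟩ | ⟨-, e1 | e1⟩ <;> rw [e] at e1
    · obtain ⟨rfl, rfl⟩ := h.indep' hv (c := 1) (d := 0) (by rw [e1]; simp); ring
    · obtain ⟨rfl, rfl⟩ := h.indep' hv (c := -1) (d := 0) (by rw [e1]; simp); ring
    · obtain ⟨rfl, rfl⟩ := h.indep' hv (c := 0) (d := 1) (by rw [e1]; simp); ring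
    · obtain ⟨rfl, rfl⟩ := h.indep' hv (c := 0) (d := -1) (by rw [e1]; simp); ring
  · refine Or.inr ⟨c, ?_⟩
    have h3 := three_eq h.card
    rw [e] at c hw
    rcases tri h.card a with rfl | rfl | rfl <;> rcases tri h.card b with rfl | rfl | rfl <;>
      first
      | linear_combination h3
      | (refine absurd ?_ hw; simp only [zero_smul, add_zero]; done)
      | (refine absurd ?_ c
         simp only [zero_smul, one_smul, neg_smul, add_zero, zero_add, h.nX v hv, h.nX _ hU,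
          h.uX v hv, neg_sq])

open Classical in
/-- the determinant is the cyclotomic character modulo three -/
theorem det_eq (g : Gam) : (ρ g).det = if g om = om then 1 else -1 := by
  have hv := e_ne (k := k)
  obtain ⟨s, hs, hX⟩ := h.exists_s hv
  obtain ⟨a, b, e⟩ := h.cramer hv (ρ g *ᵥ Pi.single 0 1)
  have ho : om ^ 2 + om + 1 = 0 := by
    have := om_spec.geom_sum_eq_zero (by norm_num)
    simp [Finset.sum_range_succ] at this
    linear_combination this
  have hD := h.D_ne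
  have hi0 : i ≠ 0 := by rintro rfl; exact absurd h.hi (by norm_num)
  have hs0 : s ≠ 0 := by rintro rfl; norm_num at hs
  have k1 : g om = om ↔ g s * g i = s * i := by
    rw [← map_mul]
    rcases pm (x := s * i) (y := 2 * (2 * om + 1)) (by
      rw [mul_pow, hs, h.hi]; linear_combination -16 * ho) with e1 | e1 <;> rw [e1] <;>
      simp only [map_neg, map_mul, map_add, map_ofNat, map_one] <;>
      exact ⟨fun e2 => by rw [e2], fun e2 => by
        first | linear_combination (1 / 4) * e2 | linear_combination -(1 / 4) * e2⟩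
  have k2 : g (X (Pi.single 0 1) ^ 2) = X (Pi.single 0 1) ^ 2 ↔ g s = s := by
    rw [hX]
    simp only [map_mul, map_add, map_div₀, map_ofNat, map_one, map_intCast]
    exact ⟨fun e2 => by have := mul_left_cancel₀ hD e2; linear_combination 3 * this,
      fun e2 => by rw [e2]⟩
  have k3 : g s = s ∨ g s = -s := pm (by rw [← map_pow, hs, map_ofNat])
  have k4 : ¬ (-(s * i) = s * i) := fun e2 =>
    mul_ne_zero hs0 hi0 (by linear_combination -(1 / 2) * e2)
  have hn := h.norm_iff hv e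
  rw [k2, Ne, k2] at hn
  rcases map_i h.hi g with e1 | e1
  · rw [h.comm_eq (h.comm e1) hv e, h.det_comb]
    rcases hn with ⟨e2, e3⟩ | ⟨e2, e3⟩
    · rw [if_pos (k1.2 (by rw [e1, e2])), e3]
    · rw [if_neg (fun e4 => k4 (by
        have := k1.1 e4
        rw [e1, k3.resolve_left e2] at this; linear_combination this)), e3]
  · rw [h.det_anti (h.anti e1) hv e]
    rcases hn with ⟨e2, e3⟩ | ⟨e2, e3⟩
    · rw [if_neg (fun e4 => k4 (by have := k1.1 e4; rw [e1, e2] at this; linear_combination this)),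
        e3]
    · rw [if_pos (k1.2 (by rw [e1, k3.resolve_left e2]; ring)), e3, neg_neg]

lemma eq_U {g : Gam} (hg : g i = i) {v : Fin 2 → k} (hv : v ≠ 0) (e : g (X v) = -X v) :
    ρ g = U ∨ ρ g = -U := by
  rw [← h.gX g v hv] at e
  rcases h.orbit hv (rho_ne ρ g hv) (by rw [e]; ring) with ⟨e1, -⟩ | ⟨-, e1 | e1⟩
  · exact absurd (by linear_combination (1 / 2) * (e - e1)) (h.X_ne hv)
  · exact Or.inl (by simpa using h.comm_eq (h.comm hg) hv (a := 0) (b := 1) (by simpa using e1))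
  · exact Or.inr (by simpa using h.comm_eq (h.comm hg) hv (a := 0) (b := -1) (by simpa using e1))

lemma disc_ne {A : M2 k} (e : A = U ∨ A = -U) : Top.disc A ≠ 0 := by
  have h1 := h.tr_det.1
  have h2 := h.tr_det.2
  have h3 : (4 : k) ≠ 0 := by
    rw [show (4 : k) = 2 * 2 by norm_num]; exact mul_ne_zero (two_ne h.card) (two_ne h.card)
  unfold Top.disc
  rcases e with rfl | rfl
  · rw [h1, h2]; simpa using h3
  · rw [trace_neg, det_neg, h1, h2]; simpa using h3

lemma span_top {H : Subgroup Gam} {c t : Gam} (hc : c ∈ H) (ht : t ∈ H) (hci : c i = -i)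
    (e : ρ t = U ∨ ρ t = -U) : Submodule.span k (ρ '' (H : Set Gam)) = ⊤ := by
  set W := Submodule.span k (ρ '' (H : Set Gam)) with hW
  have mem : ∀ g ∈ H, ρ g ∈ W := fun g hg => Submodule.subset_span ⟨g, hg, rfl⟩
  have m1 : ∀ g ∈ H, U * ρ g ∈ W := fun g hg => by
    have := mem _ (H.mul_mem ht hg)
    rw [map_mul] at this
    rcases e with e | e <;> rw [e] at this
    · exact this
    · rw [neg_mul] at this; exact (neg_mem_iff).1 this
  have key : ∀ A : M2 k, A * U = U * A → ∀ g ∈ H, A * ρ g ∈ W := fun A hA g hg => by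
    obtain ⟨a, b, e1⟩ := h.cramer (e_ne (k := k)) (A *ᵥ Pi.single 0 1)
    rw [h.comm_eq hA e_ne e1, add_mul, smul_mul_assoc, smul_mul_assoc, one_mul]
    exact W.add_mem (W.smul_mem _ (mem g hg)) (W.smul_mem _ (m1 g hg))
  have UU' : ∀ A : M2 k, U * (U * A) = -A := fun A => by rw [← mul_assoc, h.UU]; simp
  have hc' : c⁻¹ i = -i := by
    have : c⁻¹ (c i) = i := by rw [← AlgEquiv.mul_apply]; simp
    rw [hci, map_neg] at this
    linear_combination -this
  rw [eq_top_iff]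
  intro M _
  have p1 := key (M - U * M * U) (by
    simp only [sub_mul, mul_sub, mul_assoc, h.UU, UU']; simp; abel) 1 H.one_mem
  have p2 := key ((M + U * M * U) * ρ c⁻¹) (by
    rw [mul_assoc, h.anti hc']
    simp only [add_mul, mul_add, mul_neg, mul_assoc, UU']
    abel) c hc
  rw [map_one, mul_one] at p1
  rw [mul_assoc, ← map_mul, inv_mul_cancel, map_one, mul_one] at p2
  have p3 := W.smul_mem (2 : k)⁻¹ (W.add_mem p1 p2)
  have e3 : M - U * M * U + (M + U * M * U) = (2 : k) • M := by rw [two_smul]; abel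
  rwa [e3, smul_smul, inv_mul_cancel₀ (two_ne h.card), one_smul] at p3

theorem op : Top.Op ρ := by
  have : Finite k := Nat.finite_of_card_ne_zero (by rw [h.card]; norm_num)
  have e : {g : Gam | ρ g = 1} = ⋂ v : {v : Fin 2 → k // v ≠ 0},
      ((MulAction.stabilizer Gam (X v) : Set Gam) ∩ (MulAction.stabilizer Gam (Y v) : Set Gam)) := by
    ext g
    simp only [Set.mem_setOf_eq, Set.mem_iInter, Set.mem_inter_iff, SetLike.mem_coe,
      MulAction.mem_stabilizer_iff, AlgEquiv.smul_def]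
    constructor
    · intro hg v
      rw [← h.gX g v v.2, ← h.gY g v v.2, hg, one_mulVec]
      exact ⟨rfl, rfl⟩
    · intro hg
      refine mat_ext fun v hv => ?_
      rw [one_mulVec]
      exact h.inj _ _ (rho_ne ρ g hv) hv ((h.gX g v hv).trans (hg ⟨v, hv⟩).1)
        ((h.gY g v hv).trans (hg ⟨v, hv⟩).2)
  unfold Top.Op
  rw [e]
  exact isOpen_iInter_of_finite fun v =>
    (stabilizer_isOpen_of_isIntegral _).inter (stabilizer_isOpen_of_isIntegral _)

theorem detCyc : Top.DetCyc ρ := by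
  intro g n a ζ hζ hg
  rcases n with _ | n
  · simp
  have h3 := three_eq h.card
  have hw : IsPrimitiveRoot (ζ ^ 3 ^ n) 3 := hζ.pow (by positivity) (pow_succ 3 n)
  obtain ⟨j, -, hj⟩ := hw.eq_pow_of_pow_eq_one om_spec.pow_eq_one
  have e : g om = om ^ (a % 3) := by
    rw [← pow_eq_pow_mod a om_spec.pow_eq_one, ← hj, map_pow, map_pow, hg]
    simp only [← pow_mul]
    congr 1; ring
  have ea : (a : k) = ((a % 3 : ℕ) : k) := by
    conv_lhs => rw [← Nat.mod_add_div a 3]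
    push_cast; rw [h3]; ring
  have h1 : om ≠ 1 := om_spec.ne_one (by norm_num)
  have h0 : om ≠ 0 := om_spec.ne_zero (by norm_num)
  have : (ρ g).det - a = 0 := by
    rw [h.det_eq, ea]
    have : a % 3 = 0 ∨ a % 3 = 1 ∨ a % 3 = 2 := by omega
    rcases this with e1 | e1 | e1 <;> rw [e1] at e ⊢
    · rw [pow_zero] at e
      exact absurd (g.injective (e.trans (map_one g).symm)) h1
    · rw [if_pos (by rw [e, pow_one])]; simp
    · rw [if_neg (fun e2 => h1 (mul_left_cancel₀ h0 (by rw [← sq, ← e, e2, mul_one])))]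
      push_cast; linear_combination -h3
  rw [this]; exact Ideal.zero_mem _

end Tor

end Crest.Agent.T15.Tor
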