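import Crest.Agent.T15.RbA_26

/-!
# Row 15: the residual representation `E_D[3]` from explicit points, inertia groups (helper26)
-/

set_option autoImplicit false
set_option linter.dupNamespace false

namespace Crest.Agent.T15.Tor

open Matrix Crest.Agent.T15.Ps Crest.Agent.T15.C Crest.Agent.R018.Placesx484

lemma v_eq_one_of_pow (P : Place Om) {x : Om} {n : ℕ} (hn : n ≠ 0) (h : P.v x ^ n = 1) :
    P.v x = 1 := (pow_eq_one_iff_of_nonneg zero_le hn).1 h

lemma v_eq_one_of_mul (P : Place Om) {x y : Om} (hx : P.v x ≤ 1) (hy : P.v y ≤ 1)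
    (h : P.v (x * y) = 1) : P.v x = 1 := by
  rw [map_mul] at h
  refine le_antisymm hx (not_lt.1 fun h1 => ?_)
  exact (mul_lt_one_of_nonneg_of_lt_one_left zero_le h1 hy).ne h

lemma v_ofNat (P : Place Om) {n : ℕ} (hn : ¬ P.rchar ∣ n) : P.v (n : Om) = 1 :=
  (P.v_natCast_eq_one_iff n).2 hn

lemma not_dvd_of_ne (P : Place Om) {l : ℕ} (hl : l.Prime) (h : P.rchar ≠ l) (n : ℕ) :
    ¬ P.rchar ∣ l ^ n := fun h1 =>
  h ((Nat.prime_dvd_prime_iff_eq P.rchar_prime hl).1 (P.rchar_prime.dvd_of_dvd_pow h1))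

lemma exists_split (P : Place Om) {D : ℤ} (hD : D ≠ 0) :
    ∃ D' : ℤ, D = (P.rchar : ℤ) ^ padicValInt P.rchar D * D' ∧ ¬ (P.rchar : ℤ) ∣ D' := by
  have := Fact.mk P.rchar_prime
  obtain ⟨D', h⟩ := padicValInt_dvd (p := P.rchar) D
  refine ⟨D', h, fun ⟨c, hc⟩ => ?_⟩
  have h1 : (P.rchar : ℤ) ^ (padicValInt P.rchar D + 1) ∣ D := ⟨c, by
    conv_lhs => rw [h, hc]
    ring⟩
  rcases (padicValInt_dvd_iff _ _).1 h1 with h2 | h2
  · exact hD h2
  · omega

lemma inv_i {i : Om} {c : Gam} (hci : c i = -i) : c⁻¹ i = -i := by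
  have : c⁻¹ (c i) = i := by rw [← AlgEquiv.mul_apply]; simp
  rw [hci, map_neg] at this
  linear_combination -this

/-- inertia at `2` moves `i` -/
lemma exists_c (P : Place Om) (h2 : P.rchar = 2) {i : Om} (hi : i ^ 2 = -1) :
    ∃ c ∈ In P, c i = -i := by
  by_contra hc
  push Not at hc
  have vi : P.v i = 1 := v_eq_one_of_pow P (n := 2) two_ne_zero (by rw [← map_pow, hi]; simp)
  refine not_odd P (y := 1 + i) (fun g hg => ?_) 0 ?_
  · rw [map_add, map_one, (map_i hi g).resolve_right (hc g hg)]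
  · rw [← map_pow, show (1 + i) ^ 2 = 2 * i by linear_combination hi, map_mul, vi, h2]
    simp

/-- `-D √-3` is not a square in the maximal unramified extension at `2` -/
lemma not_sq_two (P : Place Om) (h2 : P.rchar = 2) {D : ℤ} (hD : D ≠ 0) {o w : Om}
    (ho : o ^ 2 + o + 1 = 0) (hw : w ^ 2 = -D * (2 * o + 1)) (hf : ∀ g ∈ In P, g w = w) : False := by
  obtain ⟨D', e, hD'⟩ := exists_split P hD
  have v3 : P.v (3 : Om) = 1 := v_ofNat P (n := 3) (by rw [h2]; norm_num)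
  have vd : P.v (2 * o + 1) = 1 := v_eq_one_of_pow P (n := 2) two_ne_zero (by
    rw [← map_pow, show (2 * o + 1) ^ 2 = -3 by linear_combination 4 * ho, Valuation.map_neg, v3])
  have vo : P.v o = 1 := v_eq_one_of_pow P (n := 3) three_ne_zero (by
    rw [← map_pow, show o ^ 3 = 1 by linear_combination (o - 1) * ho, map_one])
  have vD := v_int_eq P hD'
  generalize padicValInt P.rchar D = j at e
  have eD : (D : Om) = (P.rchar : Om) ^ j * D' := by exact_mod_cast congrArg (Int.cast : ℤ → Om) e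
  rcases Nat.even_or_odd' j with ⟨m, rfl | rfl⟩
  · have hp := v_rchar_pos P
    have hl := v_rchar_lt P
    have hu := fun x hx => unr P (x := x) hx
    rw [h2] at hp hl hu eD hD'
    push_cast at hp hl hu eD hD'
    obtain ⟨u, hu'⟩ : ∃ u, u = w / 2 ^ m := ⟨_, rfl⟩
    have u2 : u ^ 2 = -D' * (2 * o + 1) := by
      rw [hu', div_pow, hw, eD, ← pow_mul, mul_comm m 2]; field_simp
    obtain ⟨c, hc⟩ : ∃ c : ℤ, D' = 2 * c - 1 := ⟨(D' + 1) / 2, by omega⟩
    have hc' : (D' : Om) = 2 * c - 1 := by exact_mod_cast congrArg (Int.cast : ℤ → Om) hc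
    have le1 : ∀ x : Om, P.v x = 1 → P.v (c + D' * x) ≤ 1 := fun x hx =>
      P.v.map_add_le (v_int_le P c) (by rw [map_mul, vD, hx, one_mul])
    have vc : P.v (c + D' * o) = 1 := by
      refine v_eq_one_of_mul P (le1 o vo) (le1 (o ^ 2) (by rw [map_pow, vo, one_pow])) ?_
      have e1 : (c + D' * o) * (c + D' * o ^ 2) = ((c ^ 2 - c * D' + D' ^ 2 : ℤ) : Om) := by
        push_cast
        linear_combination (c * D' + D' ^ 2 * (o - 1)) * ho
      rw [e1]
      refine v_int_eq P ?_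
      rw [h2, hc]
      push_cast
      intro h3
      have h4 : c ^ 2 - c * (2 * c - 1) + (2 * c - 1) ^ 2 =
          2 * (2 * c ^ 2 - 2 * c) - c * (c - 1) + 1 := by ring
      have h5 : (2 : ℤ) ∣ c * (c - 1) := (Int.even_mul_pred_self c).two_dvd
      rw [h4] at h3
      have := (dvd_add_right (dvd_sub (dvd_mul_right 2 _) h5)).1 h3
      omega
    have e2 : (u - 1) * (u + 1) = -(2 * (c + D' * o)) := by linear_combination u2 - hc'
    have e3 : P.v (u - 1) * P.v (u + 1) = P.v 2 := by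
      rw [← map_mul, e2, Valuation.map_neg, map_mul, vc, mul_one]
    have lt1 : P.v (u - 1) < 1 := by
      by_contra h3
      have h4 : P.v 2 < P.v (u - 1) := lt_of_lt_of_le hl (not_lt.1 h3)
      have h5 : P.v (u + 1) = P.v (u - 1) := by
        rw [show u + 1 = u - 1 + 2 by ring]; exact P.v.map_add_eq_of_lt_left h4
      rw [h5] at e3
      exact absurd (one_le_mul_of_one_le_of_one_le (not_lt.1 h3) (not_lt.1 h3))
        (by rw [e3]; exact not_le.2 hl)
    have le2 : P.v (u - 1) ≤ P.v 2 := hu _ (fun g hg => by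
      rw [hu', map_sub, map_div₀, map_pow, map_ofNat, map_one, hf g hg]) lt1
    have le3 : P.v (u + 1) ≤ P.v 2 := by
      rw [show u + 1 = u - 1 + 2 by ring]; exact P.v.map_add_le le2 le_rfl
    have h6 : P.v 2 ≤ P.v 2 * P.v 2 := by
      conv_lhs => rw [← e3]
      exact mul_le_mul' le2 le3
    exact absurd (mul_lt_mul_of_pos_left hl hp) (by rw [mul_one]; exact not_lt.2 h6)
  · refine not_odd P hf m ?_
    rw [← map_pow, hw, eD, map_mul, Valuation.map_neg, map_mul, map_pow, vD, vd, mul_one, mul_one]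

variable {k : Type} [Field k]

namespace Tor

variable {D : ℤ} {ρ : Gam →* M2 k} {i : Om} {U : M2 k} {X Y : (Fin 2 → k) → Om}
  (h : Tor D ρ i U X Y)
include h

/-- away from `6` inertia acts through a fourth root of `D` -/
lemma scale (P : Place Om) (h2 : P.rchar ≠ 2) (h3 : P.rchar ≠ 3) {g : Gam} (hg : g ∈ In P)
    {π : Om} (hπ : π ^ 4 = D) {v : Fin 2 → k} (hv : v ≠ 0) :
    g (X v / π ^ 2) = X v / π ^ 2 ∧ g (Y v / π ^ 3) = Y v / π ^ 3 := by
  obtain ⟨s, hs, hX⟩ := h.exists_s hv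
  have hD := h.D_ne
  have hπ0 : π ≠ 0 := by rintro rfl; apply hD; rw [← hπ]; simp
  have n2 := not_dvd_of_ne P Nat.prime_two h2
  have v2 : P.v (2 : Om) = 1 := v_ofNat P (n := 2) (by simpa using n2 1)
  have v3 : P.v (3 : Om) = 1 := v_ofNat P (n := 3)
    (by simpa using not_dvd_of_ne P Nat.prime_three h3 1)
  have vs : P.v s = 1 := v_eq_one_of_pow P (n := 2) two_ne_zero (by
    rw [← map_pow, hs, show (12 : Om) = 2 * 2 * 3 by norm_num, map_mul, map_mul, v2, v3]; simp)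
  have hs0 : s ≠ 0 := by rintro rfl; norm_num at hs
  have gs : g s = s := fix_unit P hg (n := 2) (by simpa using n2 1) vs (by rw [hs, map_ofNat])
  have vs3 : P.v (s / 3) = 1 := by rw [map_div₀, vs, v3, div_one]
  have vt : P.v (1 + s / 3) = 1 := v_eq_one_of_mul P (y := 1 - s / 3)
    (P.v.map_add_le (by simp) vs3.le) (P.v.map_sub_le (by simp) vs3.le) (by
      rw [show (1 + s / 3) * (1 - s / 3) = -(1 / 3) by linear_combination -(1 / 9) * hs,
        Valuation.map_neg, map_div₀, v3]; simp)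
  have hY := h.eq v hv
  have e1 : (Y v / π ^ 3) ^ 2 = X v / π ^ 2 * (s / 3) := by
    rw [div_pow, hY, ← hπ] at *
    field_simp
    linear_combination X v * 3 * hX
  have e0 : (X v / π ^ 2) ^ 2 = 1 + s / 3 := by
    rw [div_pow, hX, ← hπ]; field_simp
  have e2 : (Y v / π ^ 3) ^ 4 = (1 + s / 3) * (s / 3) ^ 2 := by
    rw [show 4 = 2 * 2 by rfl, pow_mul, e1, mul_pow, e0]
  have gη : g (Y v / π ^ 3) = Y v / π ^ 3 := fix_unit P hg (n := 4) (by simpa using n2 2)
    (v_eq_one_of_pow P (n := 4) (by norm_num) (by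
      rw [← map_pow, e2, map_mul, map_pow, vt, vs3]; simp))
    (by rw [e2]; simp only [map_mul, map_add, map_pow, map_div₀, map_one, map_ofNat, gs])
  refine ⟨?_, gη⟩
  have e3 := congrArg g e1
  rw [map_pow, gη, e1, map_mul, map_div₀ g s, map_ofNat, gs] at e3
  exact (mul_right_cancel₀ (div_ne_zero hs0 (by norm_num)) e3).symm

theorem unram (P : Place Om) (h2 : P.rchar ≠ 2) (h3 : P.rchar ≠ 3)
    (h4 : 4 ∣ padicValInt P.rchar D) {g : Gam} (hg : g ∈ In P) : ρ g = 1 := by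
  obtain ⟨π, hπ⟩ := IsAlgClosed.exists_pow_nat_eq (D : Om) (n := 4) (by norm_num)
  have hπ0 : π ≠ 0 := by rintro rfl; apply h.D_ne; rw [← hπ]; simp
  obtain ⟨D', e, hD'⟩ := exists_split P h.hD
  obtain ⟨j, hj⟩ := h4
  rw [hj] at e
  have eD : (D : Om) = (P.rchar : Om) ^ (4 * j) * D' := by
    exact_mod_cast congrArg (Int.cast : ℤ → Om) e
  have hp : (P.rchar : Om) ≠ 0 := Nat.cast_ne_zero.2 P.rchar_prime.ne_zero
  have e1 : (π / (P.rchar : Om) ^ j) ^ 4 = D' := by
    rw [div_pow, hπ, eD, ← pow_mul, mul_comm j 4]; field_simp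
  have e2 := fix_unit P hg (u := π / (P.rchar : Om) ^ j) (n := 4)
    (by simpa using not_dvd_of_ne P Nat.prime_two h2 2)
    (v_eq_one_of_pow P (n := 4) (by norm_num) (by rw [← map_pow, e1, v_int_eq P hD']))
    (by rw [e1, map_intCast])
  rw [map_div₀, map_pow, map_natCast, div_left_inj' (pow_ne_zero _ hp)] at e2
  refine mat_ext fun v hv => ?_
  obtain ⟨e3, e4⟩ := h.scale P h2 h3 hg hπ hv
  rw [map_div₀, map_pow, e2, div_left_inj' (pow_ne_zero _ hπ0)] at e3 e4
  rw [one_mulVec]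
  exact h.inj _ _ (rho_ne ρ g hv) hv ((h.gX g v hv).trans e3) ((h.gY g v hv).trans e4)

theorem ram_odd (P : Place Om) (h2 : P.rchar ≠ 2) (h3 : P.rchar ≠ 3)
    (ho : Odd (padicValInt P.rchar D)) : ∃ g ∈ In P, ρ g = U ∨ ρ g = -U := by
  obtain ⟨π, hπ⟩ := IsAlgClosed.exists_pow_nat_eq (D : Om) (n := 4) (by norm_num)
  have hπ0 : π ≠ 0 := by rintro rfl; apply h.D_ne; rw [← hπ]; simp
  obtain ⟨D', e, hD'⟩ := exists_split P h.hD
  obtain ⟨j, hj⟩ := ho
  rw [hj] at e
  have eD : (D : Om) = (P.rchar : Om) ^ (2 * j + 1) * D' := by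
    exact_mod_cast congrArg (Int.cast : ℤ → Om) e
  have e0 : (π ^ 2) ^ 2 = D := by rw [← hπ]; ring
  obtain ⟨g, hg, hne⟩ : ∃ g ∈ In P, g (π ^ 2) ≠ π ^ 2 := by
    by_contra hc
    push Not at hc
    exact not_odd P hc j (by rw [← map_pow, e0, eD, map_mul, map_pow, v_int_eq P hD', mul_one])
  have e1 : g (π ^ 2) = -π ^ 2 :=
    (pm (by rw [← map_pow, e0, map_intCast])).resolve_left hne
  have gi : g i = i := P.inertia_root hg (n := 4)
    (by simpa using not_dvd_of_ne P Nat.prime_two h2 2)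
    (by rw [show 4 = 2 * 2 by rfl, pow_mul, h.hi]; norm_num)
  refine ⟨g, hg, h.eq_U gi e_ne ?_⟩
  have e3 := (h.scale P h2 h3 hg hπ (e_ne (k := k))).1
  rw [map_div₀, e1, div_neg, neg_eq_iff_eq_neg, ← neg_div,
    div_left_inj' (pow_ne_zero _ hπ0)] at e3
  exact e3

/-- inertia at `2` contains `± U` -/
theorem ram_two (P : Place Om) (h2 : P.rchar = 2) : ∃ g ∈ In P, ρ g = U ∨ ρ g = -U := by
  obtain ⟨c, hc, hci⟩ := exists_c P h2 h.hi
  have hv := e_ne (k := k)
  obtain ⟨s, hs, hX⟩ := h.exists_s hv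
  by_contra hcon
  have hD := h.D_ne
  obtain ⟨x, hx⟩ : ∃ x, x = X (Pi.single 0 1) := ⟨_, rfl⟩
  rw [← hx] at hX
  have hi0 : i ≠ 0 := by rintro rfl; exact absurd h.hi (by norm_num)
  have fo : ∀ o : Om, o ^ 2 + o + 1 = 0 → ∀ g ∈ In P, g o = o := fun o ho g hg =>
    P.inertia_root hg (n := 3) (by rw [h2]; norm_num) (by linear_combination (o - 1) * ho)
  have fsi : ∀ g ∈ In P, g s * g i = s * i := fun g hg => by
    have := fo ((s * i / 2 - 1) / 2) (by linear_combination (i ^ 2 / 16) * hs + (3 / 4) * h.hi) g hg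
    simp only [map_div₀, map_sub, map_mul, map_ofNat, map_one] at this
    linear_combination 4 * this
  have f1 : ∀ g ∈ In P, g i = i → g x = x := fun g hg gi => by
    have gs : g s = s := mul_right_cancel₀ hi0 (by rw [← fsi g hg, gi])
    rcases pm (x := g x) (y := x) (by
      rw [← map_pow, hX]; simp only [map_mul, map_add, map_div₀, map_one, map_ofNat,
        map_intCast, gs]) with e | e
    · exact e
    · exact absurd ⟨g, hg, h.eq_U gi hv (hx ▸ e)⟩ hcon
  have cs : c s = -s := mul_right_cancel₀ hi0 (by rw [neg_mul, ← fsi c hc, hci]; ring)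
  have hX' : c x ^ 2 = D * (1 - s / 3) := by
    rw [← map_pow, hX]
    simp only [map_mul, map_add, map_div₀, map_one, map_ofNat, map_intCast, cs]; ring
  have ci' := inv_i hci
  have fz : ∀ g ∈ In P, g (x + c x) = x + c x := fun g hg => by
    rw [map_add]
    rcases map_i h.hi g with gi | gi
    · have e1 := f1 (c⁻¹ * g * c) ((In P).mul_mem ((In P).mul_mem ((In P).inv_mem hc) hg) hc) (by
        rw [AlgEquiv.mul_apply, AlgEquiv.mul_apply, hci, map_neg, gi, map_neg, ci', neg_neg])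
      have e2 : g (c x) = c ((c⁻¹ * g * c) x) := by
        rw [← AlgEquiv.mul_apply, ← AlgEquiv.mul_apply]; congr 1; group
      rw [f1 g hg gi, e2, e1]
    · have e1 := f1 (c⁻¹ * g) ((In P).mul_mem ((In P).inv_mem hc) hg) (by
        rw [AlgEquiv.mul_apply, gi, map_neg, ci', neg_neg])
      have e2 : g x = c ((c⁻¹ * g) x) := by
        rw [← AlgEquiv.mul_apply]; congr 1; group
      have e3 := f1 (g * c) ((In P).mul_mem hg hc) (by
        rw [AlgEquiv.mul_apply, hci, map_neg, gi, neg_neg])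
      rw [AlgEquiv.mul_apply] at e3
      rw [e2, e1, e3, add_comm]
  obtain ⟨r, hr⟩ : ∃ r, x * c x = D * r := ⟨x * c x / D, by field_simp⟩
  have r2 : r ^ 2 = -1 / 3 := mul_left_cancel₀ (pow_ne_zero 2 hD) (by
    rw [← mul_pow, ← hr, mul_pow, hX, hX']; linear_combination -(D ^ 2 / 9) * hs)
  obtain ⟨o, ho⟩ : ∃ o : Om, 2 * o + 1 = -3 * r := ⟨(-3 * r - 1) / 2, by ring⟩
  have ho2 : o ^ 2 + o + 1 = 0 := by
    linear_combination (1 / 4) * (2 * o + 1 - 3 * r) * ho + (9 / 4) * r2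
  have z2 : (x + c x) ^ 2 = 2 * D * (1 + r) := by linear_combination hX + hX' + 2 * hr
  refine not_sq_two P h2 h.hD ho2 (w := (x + c x) * (2 * o + 1) * o ^ 2 / 2) ?_ fun g hg => ?_
  · have e : r = -(2 * o + 1) / 3 := by linear_combination (1 / 3) * ho
    rw [div_pow, mul_pow, mul_pow, z2, e]
    linear_combination (D * (-(4 / 3) * o ^ 5 + (4 / 3) * o ^ 4 + o ^ 3 - 2 * o ^ 2 + o + 1) : Om) * ho2
  · rw [map_div₀, map_mul, map_mul, fz g hg]
    simp only [map_mul, map_add, map_pow, map_one, map_ofNat, fo o ho2 g hg]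

/-- **(Q8)** -/
theorem span_two (P : Place Om) (h2 : P.rchar = 2) :
    Submodule.span k (ρ '' (In P : Set Gam)) = ⊤ := by
  obtain ⟨c, hc, hci⟩ := exists_c P h2 h.hi
  obtain ⟨t, ht, e⟩ := h.ram_two P h2
  exact h.span_top hc ht hci e

/-- **the residual package** -/
theorem res0 {N : ℕ} (pos : 0 < N) (two : 2 ∣ N) (three : ¬ 3 ∣ N)
    (hodd : ∀ l : ℕ, l.Prime → l ≠ 2 → l ∣ N → Odd (padicValInt l D))
    (hunr : ∀ l : ℕ, l.Prime → l ≠ 3 → ¬ l ∣ N → 4 ∣ padicValInt l D) : Top.Res0 ρ N where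
  pos := pos
  two := two
  three := three
  card := h.card
  op := h.op
  det := h.detCyc
  cm := ⟨i, U, h.hi, h.UU, fun g => ⟨h.comm, fun e => h.anti ((map_i h.hi g).resolve_left e)⟩⟩
  unr := fun P hP g hg => by
    have h3 : P.rchar ≠ 3 := fun e => hP (e ▸ dvd_mul_right 3 N)
    have hN : ¬ P.rchar ∣ N := fun e => hP (e.mul_left 3)
    exact h.unram P (fun e => hN (e ▸ two)) h3 (hunr _ P.rchar_prime h3 hN) hg
  ram := fun P hP => by
    by_cases h2 : P.rchar = 2
    · obtain ⟨g, hg, e⟩ := h.ram_two P h2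
      exact ⟨g, hg, h.disc_ne e⟩
    · obtain ⟨g, hg, e⟩ := h.ram_odd P h2 (fun e => three (e ▸ hP)) (hodd _ P.rchar_prime h2 hP)
      exact ⟨g, hg, h.disc_ne e⟩

end Tor

end Crest.Agent.T15.Tor
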