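import Crest.Agent.R018.TameF_31
import Crest.Agent.T15.CDef_7

/-!
# Row 15: the fixed field of inertia is unramified (any place), units and their roots (helper26)
-/

set_option autoImplicit false

namespace Crest.Agent.T15.Tor

open Crest.Agent.R018 Crest.Agent.R018.Placesx484 Crest.Agent.R018.Placesx484.Place
open Crest.Agent.R018.Tamex31 Crest.Agent.R018.Selmerx380 NumberField IsDedekindDomain
open Crest.Agent.T15.C

lemma v_le_iff_ord {L : Type*} [Field L] [NumberField L] (Q : Place L) (x : Lˣ) :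
    Q.v (x : L) ≤ 1 ↔ 0 ≤ ord (𝓞 L) (hos Q) x := by
  rw [numberField_val_iff]
  change (hos Q).valuation L (x : L) ≤ 1 ↔ _
  rw [valuation_eq_exp, ← WithZero.exp_zero, WithZero.exp_le_exp]
  omega

lemma v_lt_iff_ord {L : Type*} [Field L] [NumberField L] (Q : Place L) (x : Lˣ) :
    Q.v (x : L) < 1 ↔ 0 < ord (𝓞 L) (hos Q) x := by
  have h := v_le_iff_ord Q x⁻¹
  rw [ord_inv, Units.val_inv_eq_inv_val, map_inv₀,
    inv_le_one₀ (zero_lt_iff.2 ((map_ne_zero _).2 x.ne_zero))] at h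
  rw [← not_le, h]
  omega

lemma card_inertia {K L : Type*} [Field K] [NumberField K] [Field L] [NumberField L]
    [Algebra K L] [IsGalois K L] (Q : Place L) (a : Kˣ) :
    ord (𝓞 L) (hos Q) (LogDefsx575.inc K L a) =
      (Nat.card (Q.ideal.inertia (L ≃ₐ[K] L)) : ℤ) * ord (𝓞 K) (hos (Q.res K)) a := by
  have hlies := hos_liesOver (K := K) Q
  have hpr1 : (hos Q).asIdeal.IsPrime := (hos Q).isPrime
  have hpr2 : (hos (Q.res K)).asIdeal.IsPrime := (hos (Q.res K)).isPrime
  have hfinq : Finite (𝓞 K ⧸ (hos (Q.res K)).asIdeal) :=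
    Ideal.finiteQuotientOfFreeOfNeBot _ (Q.res K).ne_bot
  have hmax : (hos (Q.res K)).asIdeal.IsMaximal := (hos (Q.res K)).isMaximal
  have hcardI : Nat.card (Q.ideal.inertia (L ≃ₐ[K] L)) =
      (hos (Q.res K)).asIdeal.ramificationIdxIn (𝓞 L) :=
    Ideal.card_inertia_eq_ramificationIdxIn (G := L ≃ₐ[K] L) (hos (Q.res K)).asIdeal (hos Q).asIdeal
  rw [hcardI]
  exact KerClx793.ord_over_inc (hos (Q.res K)) (hos Q) hlies a

theorem unr_fin {K L : Type*} [Field K] [NumberField K] [Field L] [NumberField L]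
    [Algebra K L] [IsGalois K L] (Q : Place L) :
    ∃ ϖ : K, Q.v (algebraMap K L ϖ) < 1 ∧ ∀ x : L,
      (∀ τ ∈ Q.ideal.inertia (L ≃ₐ[K] L), τ x = x) → Q.v x < 1 → Q.v x ≤ Q.v (algebraMap K L ϖ) := by
  classical
  obtain ⟨ϖ, hϖ⟩ := exists_ord_eq_one (K := K) (hos (Q.res K))
  set I := Q.ideal.inertia (L ≃ₐ[K] L) with hI
  have h1 := card_inertia Q ϖ
  rw [hϖ, mul_one, ← hI] at h1
  have hpos : 0 < Nat.card I := Nat.card_pos
  refine ⟨ϖ, (v_lt_iff_ord Q (LogDefsx575.inc K L ϖ)).2 (by rw [h1]; exact_mod_cast hpos),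
    fun x hx hlt => ?_⟩
  by_cases hx0 : x = 0
  · rw [hx0, map_zero]; exact zero_le
  let F := IntermediateField.fixedField I
  have hxF : x ∈ F := fun τ => hx τ τ.2
  have hnf : NumberField F := { to_finiteDimensional := FiniteDimensional.trans ℚ K F }
  let y : Fˣ := Units.mk0 ⟨x, hxF⟩ (fun h => hx0 (congrArg Subtype.val h))
  have h2 := card_inertia (K := F) Q y
  have h3 : 0 < ord (𝓞 L) (hos Q) (LogDefsx575.inc F L y) := (v_lt_iff_ord Q _).1 hlt
  have h4 : Nat.card I ≤ Nat.card (Q.ideal.inertia (L ≃ₐ[F] L)) := by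
    let j : I → Q.ideal.inertia (L ≃ₐ[F] L) := fun τ =>
      ⟨{ (τ : L ≃ₐ[K] L).toRingEquiv with commutes' := fun a => a.2 τ }, fun z => τ.2 z⟩
    refine Nat.card_le_card_of_injective j fun a b h => ?_
    apply Subtype.ext
    ext z
    exact congrArg (fun s : Q.ideal.inertia (L ≃ₐ[F] L) => (s : L ≃ₐ[F] L) z) h
  have h5 : 0 < ord (𝓞 F) (hos (Q.res F)) y := by
    rw [h2] at h3
    by_contra h6
    push Not at h6
    have : (0 : ℤ) ≤ Nat.card (Q.ideal.inertia (L ≃ₐ[F] L)) := Nat.cast_nonneg _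
    nlinarith
  have h6 : (Nat.card I : ℤ) ≤ ord (𝓞 L) (hos Q) (LogDefsx575.inc F L y) := by
    rw [h2]
    have : (Nat.card I : ℤ) ≤ Nat.card (Q.ideal.inertia (L ≃ₐ[F] L)) := by exact_mod_cast h4
    nlinarith
  have h7 := (v_le_iff_ord Q (LogDefsx575.inc F L y / LogDefsx575.inc K L ϖ)).2 (by
    rw [ord_div, h1]; omega)
  rw [Units.val_div_eq_div_val, map_div₀,
    div_le_one₀ (zero_lt_iff.2 ((map_ne_zero _).2 (Units.ne_zero _)))] at h7
  exact h7

lemma v_int_le (P : Place Om) (n : ℤ) : P.v (n : Om) ≤ 1 := by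
  have := P.v_natCast_le_one n.natAbs
  rcases Int.natAbs_eq n with h | h <;> rw [h]
  · simpa using this
  · simpa using this

lemma v_int_eq (P : Place Om) {n : ℤ} (h : ¬ (P.rchar : ℤ) ∣ n) : P.v (n : Om) = 1 := by
  have := (P.v_natCast_eq_one_iff n.natAbs).2 (fun h1 => h (Int.natCast_dvd.2 h1))
  rcases Int.natAbs_eq n with h | h <;> rw [h]
  · simpa using this
  · simpa using this

lemma v_rchar_lt (P : Place Om) : P.v (P.rchar : Om) < 1 :=
  lt_of_le_of_ne (P.v_natCast_le_one _) fun h => (P.v_natCast_eq_one_iff _).1 h dvd_rfl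

lemma v_rchar_pos (P : Place Om) : 0 < P.v (P.rchar : Om) :=
  zero_lt_iff.2 ((map_ne_zero _).2 (Nat.cast_ne_zero.2 P.rchar_prime.ne_zero))

lemma v_rat_le (P : Place Om) (q : ℚ) (h : P.v (q : Om) < 1) :
    P.v (q : Om) ≤ P.v (P.rchar : Om) := by
  have e : (q : Om) * (q.den : Om) = (q.num : Om) := by exact_mod_cast q.mul_den_eq_num
  have e' := congrArg P.v e
  rw [map_mul] at e'
  have h1 : (P.rchar : ℤ) ∣ q.num := by
    by_contra h2
    rw [v_int_eq P h2] at e'
    have := mul_lt_one_of_nonneg_of_lt_one_left zero_le h (P.v_natCast_le_one q.den)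
    exact this.ne e'
  have h2 : ¬ P.rchar ∣ q.den := fun h2 => P.rchar_prime.one_lt.ne'
    (Nat.eq_one_of_dvd_coprimes q.reduced (Int.natCast_dvd.1 h1) h2)
  rw [(P.v_natCast_eq_one_iff _).2 h2, mul_one] at e'
  obtain ⟨m, hm⟩ := h1
  rw [e', hm]
  push_cast
  rw [map_mul]
  exact mul_le_of_le_one_right' (v_int_le P m)

/-- **the fixed field of inertia has the value group of `ℚ`** -/
theorem unr (P : Place Om) {x : Om} (hx : ∀ g ∈ In P, g x = x) (h : P.v x < 1) :
    P.v x ≤ P.v (P.rchar : Om) := by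
  let L0 : IntermediateField ℚ Om := IntermediateField.adjoin ℚ {x}
  have hfd0 : FiniteDimensional ℚ L0 :=
    IntermediateField.adjoin.finiteDimensional (Algebra.IsIntegral.isIntegral x)
  let L := IntermediateField.normalClosure ℚ L0 Om
  have hxL : x ∈ L := IntermediateField.le_normalClosure L0
    (IntermediateField.mem_adjoin_simple_self ℚ x)
  have hnf : NumberField L := { to_finiteDimensional := inferInstance }
  have hno : Normal ℚ L := normalClosure.normal ℚ L0 Om
  have hgal : IsGalois ℚ L := ⟨⟩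
  obtain ⟨ϖ, h1, h2⟩ := unr_fin (K := ℚ) (P.res L)
  have h3 := h2 ⟨x, hxL⟩ (fun τ hτ => by
    obtain ⟨g, hg, hgL⟩ := exists_inertia_lift (E := Om) P τ hτ
    apply Subtype.ext
    exact (hgL ⟨x, hxL⟩).symm.trans (hx g hg)) ((v_res_lt_one_iff L P _).2 h)
  have h4 : P.v (ϖ : Om) < 1 := by
    have := (v_res_lt_one_iff L P _).1 h1
    simpa using this
  refine le_trans ?_ (v_rat_le P ϖ h4)
  by_cases h0 : ϖ = 0
  · subst h0
    rw [map_zero, map_zero, le_zero_iff, map_eq_zero] at h3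
    have : x = 0 := congrArg Subtype.val h3
    simp [this]
  · have h5 : (algebraMap ℚ L ϖ) ≠ 0 := (map_ne_zero _).2 h0
    rw [← div_le_one₀ (zero_lt_iff.2 ((map_ne_zero _).2 h5)), ← map_div₀, v_res_le_one_iff,
      map_div₀, map_div₀] at h3
    have h6 : algebraMap L Om (algebraMap ℚ L ϖ) = (ϖ : Om) := by simp
    rw [h6, div_le_one₀ (zero_lt_iff.2 ((map_ne_zero _).2 (by exact_mod_cast h0)))] at h3
    exact h3

/-- an element fixed by inertia whose square has odd order does not exist -/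
theorem not_odd (P : Place Om) {y : Om} (hy : ∀ g ∈ In P, g y = y) (k : ℕ)
    (h : P.v y ^ 2 = P.v (P.rchar : Om) ^ (2 * k + 1)) : False := by
  have hp := v_rchar_pos P
  have hl := v_rchar_lt P
  have h1 : P.v (y / (P.rchar : Om) ^ k) ^ 2 = P.v (P.rchar : Om) := by
    rw [map_div₀, map_pow, div_pow, h, ← pow_mul, div_eq_iff (pow_pos hp _).ne', pow_succ,
      mul_comm 2 k, mul_comm]
  have h2 : P.v (y / (P.rchar : Om) ^ k) < 1 := by
    by_contra h3
    exact absurd (one_le_pow₀ (not_lt.1 h3) (n := 2)) (by rw [h1]; exact not_le.2 hl)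
  have h3 := unr P (x := y / (P.rchar : Om) ^ k) (fun g hg => by
    rw [map_div₀, map_pow, map_natCast, hy g hg]) h2
  have h4 : P.v (P.rchar : Om) ≤ P.v (P.rchar : Om) ^ 2 := by
    conv_lhs => rw [← h1]
    exact pow_le_pow_left₀ zero_le h3 2
  rw [sq] at h4
  exact absurd (mul_lt_mul_of_pos_left hl hp) (by rw [mul_one]; exact not_lt.2 h4)

/-- inertia fixes a unit as soon as it fixes a power of order prime to the residue characteristic -/
theorem fix_unit (P : Place Om) {g : Gam} (hg : g ∈ In P) {u : Om} {n : ℕ} (hn : ¬ P.rchar ∣ n)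
    (hu : P.v u = 1) (h : g (u ^ n) = u ^ n) : g u = u := by
  have hu0 : u ≠ 0 := by rintro rfl; simp at hu
  have h1 : (g u / u) ^ n = 1 := by rw [div_pow, ← map_pow, h, div_self (pow_ne_zero _ hu0)]
  have h2 : P.v (g u / u - 1) < 1 := by
    have h3 := P.v_smul_sub_lt_one hg u hu.le
    have e : g u / u - 1 = (g • u - u) / u := by
      change _ = (g u - u) / u
      field_simp
    rw [e, map_div₀, hu, div_one]
    exact h3
  have h3 := root_eq_one (A := P.val) (val_natCast_eq_one P hn) h1 h2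
  rwa [div_eq_one_iff_eq hu0] at h3

end Crest.Agent.T15.Tor
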