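import Crest.Agent.T15.RhoA_86

/-!
# Row 15, block F (helper86): the two-dimensional representation of a QM module, II

`ρ σ = m (x_σ^*) U σ`; determinant, trace, the quadratic relation on `T`, the columns.
-/

set_option autoImplicit false
set_option linter.unusedSimpArgs false

noncomputable section

namespace Crest.Agent.T15.Rho

open scoped Quaternion
open Matrix

variable {α : ℤ_[3]}

/-- coefficients: a `ℤ₃`-algebra with square roots of `α` and `3` -/
structure Cf (α : ℤ_[3]) (A : Type*) [CommRing A] where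
  φ : ℤ_[3] →+* A
  s2 : A
  s3 : A
  hs2 : s2 ^ 2 = φ α
  hs3 : s3 ^ 2 = 3

section mat

variable {A B : Type*} [CommRing A] [CommRing B]

/-- change of coefficients -/
def Cf.map (c : Cf α A) (f : A →+* B) : Cf α B where
  φ := f.comp c.φ
  s2 := f c.s2
  s3 := f c.s3
  hs2 := by rw [← map_pow, c.hs2]; rfl
  hs3 := by rw [← map_pow, c.hs3, map_ofNat]

/-- the splitting `ℍ → M₂(A)` -/
def Cf.m (c : Cf α A) (x : H α) : Matrix (Fin 2) (Fin 2) A :=
  !![c.φ x.re + c.φ x.imI * c.s2, (c.φ x.imJ + c.φ x.imK * c.s2) * c.s3;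
    (c.φ x.imJ - c.φ x.imK * c.s2) * c.s3, c.φ x.re - c.φ x.imI * c.s2]

variable (c : Cf α A)

lemma Cf.m_one : c.m 1 = 1 := by
  ext i j; fin_cases i <;> fin_cases j <;> simp [Cf.m]

lemma Cf.m_add (x y : H α) : c.m (x + y) = c.m x + c.m y := by
  ext i j; fin_cases i <;> fin_cases j <;> simp [Cf.m] <;> ring

lemma Cf.m_smul (a : ℤ_[3]) (x : H α) : c.m (a • x) = c.φ a • c.m x := by
  ext i j; fin_cases i <;> fin_cases j <;> simp [Cf.m] <;> ring

lemma Cf.m_mul (x y : H α) : c.m (x * y) = c.m x * c.m y := by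
  have h2 := c.hs2
  have h3 := c.hs3
  ext i j
  fin_cases i <;> fin_cases j <;> simp [Cf.m, Matrix.mul_apply, Fin.sum_univ_two, map_ofNat] <;>
    rw [← h2] <;> (try rw [← h3]) <;> ring

lemma Cf.det_m (x : H α) : (c.m x).det = c.φ (nr x) := by
  have h2 := c.hs2
  have h3 := c.hs3
  simp only [Cf.m, nr, det_fin_two_of, map_add, map_sub, map_mul, map_pow, map_ofNat]
  rw [← h2, ← h3]; ring

lemma Cf.m_map (f : A →+* B) (x : H α) : (c.map f).m x = (c.m x).map f := by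
  ext i j; fin_cases i <;> fin_cases j <;> simp [Cf.m, Cf.map]

variable (A) in
/-- signed permutation matrices -/
def Um (e a b : ℤˣ) : Matrix (Fin 2) (Fin 2) A :=
  if a = 1 then !![((e : ℤ) : A), 0; 0, ((e * b : ℤˣ) : ℤ)] else !![0, ((e : ℤ) : A); ((e * b : ℤˣ) : ℤ), 0]

lemma neg_one_ne : (-1 : ℤˣ) ≠ 1 := by decide

@[simp] lemma Um_one : Um A 1 1 1 = 1 := by
  ext i j; fin_cases i <;> fin_cases j <;> simp [Um]

lemma Um_mul_m (e a b : ℤˣ) (x : H α) : Um A e a b * c.m x = c.m (cj a b x) * Um A e a b := by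
  rcases Int.units_eq_one_or a with rfl | rfl <;> rcases Int.units_eq_one_or b with rfl | rfl <;>
    ext i j <;> fin_cases i <;> fin_cases j <;>
    simp [Um, Cf.m, cj, Matrix.mul_apply, Fin.sum_univ_two] <;> ring

lemma Um_mul (e a b e' a' b' : ℤˣ) : Um A e a b * Um A e' a' b' =
    Um A (e * e' * if a = 1 then 1 else b') (a * a') (b * b') := by
  rcases Int.units_eq_one_or a with rfl | rfl <;> rcases Int.units_eq_one_or b with rfl | rfl <;>
    rcases Int.units_eq_one_or a' with rfl | rfl <;> rcases Int.units_eq_one_or b' with rfl | rfl <;>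
    ext i j <;> fin_cases i <;> fin_cases j <;>
    simp [Um, Matrix.mul_apply, Fin.sum_univ_two]

lemma det_Um (e a b : ℤˣ) : (Um A e a b).det = ((a * b : ℤˣ) : ℤ) := by
  rcases Int.units_eq_one_or a with rfl | rfl <;> rcases Int.units_eq_one_or b with rfl | rfl <;>
    rcases Int.units_eq_one_or e with rfl | rfl <;> simp [Um, det_fin_two_of]

lemma Um_map (f : A →+* B) (e a b : ℤˣ) : (Um A e a b).map f = Um B e a b := by
  unfold Um
  split_ifs <;> ext i j <;> fin_cases i <;> fin_cases j <;> simp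

end mat

variable {G : Type*} [Group G] {T : Type*} [AddCommGroup T] [Module ℤ_[3] T]

/-- a generator of `T` over `ℍ` and a lift of `(χa, χb)` to the dihedral group -/
structure Fr (Q : QM α G T) where
  t : T
  ht : Function.Bijective (Q.orb t)
  ε : G → ℤˣ
  hε : ∀ σ τ, ε (σ * τ) = ε σ * ε τ * if Q.χa σ = 1 then 1 else Q.χb τ

namespace Fr

variable {Q : QM α G T} (F : Fr Q)

lemma ε_one : F.ε 1 = 1 := by
  have := F.hε 1 1
  simpa using this

/-- twist by a quadratic character -/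
def twist (χ : G →* ℤˣ) : Fr Q where
  t := F.t
  ht := F.ht
  ε σ := χ σ * F.ε σ
  hε σ τ := by rw [F.hε, map_mul]; ac_rfl

/-- the coordinate -/
def co : T →ₗ[ℤ_[3]] H α := (LinearEquiv.ofBijective (Q.orb F.t) F.ht).symm

lemma ι_co (u : T) : Q.ι (F.co u) F.t = u :=
  (LinearEquiv.ofBijective (Q.orb F.t) F.ht).apply_symm_apply u

lemma co_ι (h : H α) : F.co (Q.ι h F.t) = h :=
  (LinearEquiv.ofBijective (Q.orb F.t) F.ht).symm_apply_apply h

lemma co_t : F.co F.t = 1 := by simpa using F.co_ι 1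

/-- the cocycle -/
def x (σ : G) : H α := F.co (Q.act σ F.t)

lemma co_act (σ : G) (u : T) : F.co (Q.act σ u) = cj (Q.χa σ) (Q.χb σ) (F.co u) * F.x σ := by
  conv_lhs => rw [← F.ι_co u, Q.act_ι, ← F.ι_co (Q.act σ F.t), ← Module.End.mul_apply, ← map_mul,
    co_ι]
  rfl

lemma x_mul (σ τ : G) : F.x (σ * τ) = cj (Q.χa σ) (Q.χb σ) (F.x τ) * F.x σ := by
  rw [x, map_mul, Module.End.mul_apply, co_act]; rfl

lemma x_one : F.x 1 = 1 := by simp [x, co_t]

variable {A B : Type*} [CommRing A] [CommRing B] (c : Cf α A)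

/-- **the representation** -/
def ρ : G →* Matrix (Fin 2) (Fin 2) A where
  toFun σ := c.m (star (F.x σ)) * Um A (F.ε σ) (Q.χa σ) (Q.χb σ)
  map_one' := by simp [x_one, ε_one, c.m_one]
  map_mul' σ τ := by
    rw [x_mul, star_mul, c.m_mul, ← cj_star, F.hε, map_mul, map_mul, ← Um_mul, mul_assoc, mul_assoc,
      ← mul_assoc (c.m (cj _ _ _)), ← Um_mul_m, mul_assoc]

lemma ρ_apply (σ : G) : F.ρ c σ = c.m (star (F.x σ)) * Um A (F.ε σ) (Q.χa σ) (Q.χb σ) := rfl

lemma ρ_map (f : A →+* B) (σ : G) : F.ρ (c.map f) σ = (F.ρ c σ).map f := by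
  rw [ρ_apply, ρ_apply, Matrix.map_mul, Um_map, Cf.m_map]

lemma ρ_twist (χ : G →* ℤˣ) (σ : G) : (F.twist χ).ρ c σ = χ σ • F.ρ c σ := by
  have : Um A (χ σ * F.ε σ) (Q.χa σ) (Q.χb σ) = χ σ • Um A (F.ε σ) (Q.χa σ) (Q.χb σ) := by
    unfold Um
    rcases Int.units_eq_one_or (χ σ) with h | h <;> rw [h] <;> split_ifs <;> simp
  rw [ρ_apply, ρ_apply, ← mul_smul_comm, ← this]; rfl

/-- `T → M₂(A)`; its columns are equivariant maps `T → A²` on the kernel of `U` -/
def M (u : T) : Matrix (Fin 2) (Fin 2) A := c.m (star (F.co u))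

lemma M_t : F.M c F.t = 1 := by rw [M, co_t, star_one, c.m_one]

lemma M_add (u v : T) : F.M c (u + v) = F.M c u + F.M c v := by
  rw [M, map_add, star_add, c.m_add]; rfl

lemma M_smul (a : ℤ_[3]) (u : T) : F.M c (a • u) = c.φ a • F.M c u := by
  rw [M, map_smul, QuaternionAlgebra.star_smul', c.m_smul]; rfl

lemma M_act (σ : G) (u : T) :
    F.M c (Q.act σ u) * Um A (F.ε σ) (Q.χa σ) (Q.χb σ) = F.ρ c σ * F.M c u := by
  rw [M, co_act, star_mul, c.m_mul, ← cj_star, mul_assoc, ← Um_mul_m, ← mul_assoc]; rfl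

lemma M_act' {σ : G} (he : F.ε σ = 1) (ha : Q.χa σ = 1) (hb : Q.χb σ = 1) (u : T) :
    F.M c (Q.act σ u) = F.ρ c σ * F.M c u := by
  rw [← M_act, he, ha, hb, Um_one, mul_one]

/-- the kernel of `ρ` at level `n` -/
lemma ρ_eq_one {σ : G} (he : F.ε σ = 1) (ha : Q.χa σ = 1) (hb : Q.χb σ = 1) {a : ℤ_[3]}
    (h0 : c.φ a = 0) (h : ∃ u, Q.act σ F.t = F.t + a • u) : F.ρ c σ = 1 := by
  obtain ⟨u, hu⟩ := h
  have := F.M_act' c he ha hb F.t
  rw [M_t, mul_one, hu, M_add, M_smul, h0, zero_smul, add_zero, M_t] at this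
  exact this.symm

/-- an element acting by a sign -/
lemma ρ_eq_sign {σ : G} (ha : Q.χa σ = 1) (hb : Q.χb σ = 1) {s : ℤˣ}
    (h : Q.act σ F.t = s • F.t) : F.ρ c σ = (s * F.ε σ) • 1 := by
  have hx : F.x σ = s • 1 := by rw [x, h, ← co_t F]; exact map_zsmul F.co _ _
  rw [ρ_apply, hx, ha, hb]
  rcases Int.units_eq_one_or s with rfl | rfl <;> rcases Int.units_eq_one_or (F.ε σ) with h | h <;>
    rw [h] <;> ext i j <;> fin_cases i <;> fin_cases j <;> simp [Um, Cf.m]

/-- **`A²` is a quotient of a power of `T / a`** -/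
theorem exists_quot [Fintype A] {V : Type*} [AddCommGroup V] (π : T →+ V) (hπ : Function.Surjective π)
    {a : ℤ_[3]} (h0 : c.φ a = 0) (hk : ∀ u, π u = 0 → ∃ u', u = a • u') :
    ∃ q : (A × Fin 2 → V) →+ (Fin 2 → A), Function.Surjective q ∧
      ∀ (σ : G) (s : V → V), F.ε σ = 1 → Q.χa σ = 1 → Q.χb σ = 1 → (∀ u, π (Q.act σ u) = s (π u)) →
        ∀ f, q (fun i => s (f i)) = F.ρ c σ *ᵥ q f := by
  classical
  let M' : T →+ Matrix (Fin 2) (Fin 2) A := AddMonoidHom.mk' (F.M c) (F.M_add c)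
  have hker : π.ker ≤ M'.ker := fun u hu => by
    obtain ⟨u', rfl⟩ := hk u hu
    exact show F.M c _ = 0 by rw [M_smul, h0, zero_smul]
  let N : V →+ Matrix (Fin 2) (Fin 2) A := π.liftOfSurjective hπ ⟨M', hker⟩
  have hN : ∀ u, N (π u) = F.M c u := fun u => π.liftOfRightInverse_comp_apply _ _ _ u
  refine ⟨AddMonoidHom.mk' (fun f => ∑ i : A × Fin 2, N (f i) *ᵥ Pi.single i.2 i.1) fun f g => ?_,
    fun w => ⟨Pi.single (w 0, 0) (π F.t) + Pi.single (w 1, 1) (π F.t), ?_⟩,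
    fun σ s he ha hb hs f => ?_⟩
  · simp only [Pi.add_apply, map_add, Matrix.add_mulVec, Finset.sum_add_distrib]
  · rw [map_add]
    simp only [AddMonoidHom.mk'_apply]
    rw [Finset.sum_eq_single (w 0, 0)
        (fun b _ hb => by rw [Pi.single_eq_of_ne hb, map_zero, zero_mulVec]) (by simp),
      Finset.sum_eq_single (w 1, 1)
        (fun b _ hb => by rw [Pi.single_eq_of_ne hb, map_zero, zero_mulVec]) (by simp)]
    simp only [Pi.single_eq_same, hN, M_t, one_mulVec]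
    ext i; fin_cases i <;> simp
  · simp only [AddMonoidHom.mk'_apply, Matrix.mulVec_sum]
    refine Finset.sum_congr rfl fun i _ => ?_
    obtain ⟨u, hu⟩ := hπ (f i)
    rw [← hu, ← hs, hN, hN, F.M_act' c he ha hb, mulVec_mulVec]

/-! ### determinant -/

lemma e_ι (h : H α) (u v : T) :
    Q.e (Q.ι h u) v = Q.e u (Q.ι ⟨h.re, Q.η • h.imI, h.imJ, -(Q.η • h.imK)⟩ v) := by
  simp only [Q.ι_apply, map_add, map_smul, LinearMap.add_apply, LinearMap.smul_apply, Q.ad2, Q.ad3,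
    Q.h23, map_neg]
  rcases Int.units_eq_one_or Q.η with h | h <;> simp [h]

lemma e_swap (u v : T) : Q.e u v = -Q.e v u := by
  have := Q.alt (u + v)
  simp only [map_add, LinearMap.add_apply, Q.alt] at this
  linear_combination this

lemma e_self (z : H α) (u : T) : Q.e u (Q.ι z u) =
    if Q.η = 1 then z.imK * Q.e u (Q.j2 (Q.j3 u)) else z.imI * Q.e u (Q.j2 u) := by
  have h2 : (2 : ℤ_[3]) ≠ 0 := by norm_num
  have h3 : Q.e u (Q.j3 u) = 0 := mul_left_cancel₀ h2 (by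
    have := e_swap (Q := Q) u (Q.j3 u); rw [Q.ad3] at this; linear_combination this)
  simp only [Q.ι_apply, map_add, map_smul, Q.alt, h3, smul_eq_mul]
  rcases Int.units_eq_one_or Q.η with h | h
  · have : Q.e u (Q.j2 u) = 0 := mul_left_cancel₀ h2 (by
      have := e_swap (Q := Q) u (Q.j2 u); rw [Q.ad2, h, one_smul] at this; linear_combination this)
    simp [h, this]
  · have : Q.e u (Q.j2 (Q.j3 u)) = 0 := mul_left_cancel₀ h2 (by
      have := e_swap (Q := Q) u (Q.j2 (Q.j3 u))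
      rw [Q.ad2, Q.ad3, Q.h23, h] at this
      simp only [map_neg, Units.neg_smul, one_smul, neg_neg] at this
      linear_combination this)
    simp [h, this]

theorem nr_x (σ : G) :
    nr (F.x σ) = (if Q.η = 1 then Q.χa σ * Q.χb σ else Q.χa σ) • (Q.cyc σ : ℤ_[3]) := by
  have hne : (if Q.η = 1 then Q.e F.t (Q.j2 (Q.j3 F.t)) else Q.e F.t (Q.j2 F.t)) ≠ 0 := by
    intro h0
    refine Q.ne (LinearMap.ext₂ fun u v => ?_)
    rw [← F.ι_co u, ← F.ι_co v, e_ι, ← Module.End.mul_apply, ← map_mul, e_self]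
    split_ifs at h0 ⊢ <;> simp [h0]
  have key : ∀ h : H α, Q.cyc σ * Q.e F.t (Q.ι h F.t) = Q.e F.t (Q.ι
      (⟨(F.x σ).re, Q.η • (F.x σ).imI, (F.x σ).imJ, -(Q.η • (F.x σ).imK)⟩ *
        (cj (Q.χa σ) (Q.χb σ) h * F.x σ)) F.t) := fun h => by
    rw [← Q.he σ, ← F.ι_co (Q.act σ (Q.ι h F.t)), co_act, co_ι, ← F.ι_co (Q.act σ F.t), e_ι,
      ← Module.End.mul_apply, ← map_mul, ← x]
  refine mul_right_cancel₀ hne ?_
  rcases Int.units_eq_one_or Q.η with h | h
  · have := key ⟨0, 0, 0, 1⟩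
    rw [e_self, e_self] at this
    rcases Int.units_eq_one_or (Q.χa σ) with ha | ha <;>
      rcases Int.units_eq_one_or (Q.χb σ) with hb | hb <;>
      simp [h, ha, hb, cj, -mul_eq_mul_right_iff] at this ⊢ <;> unfold nr <;>
      first | linear_combination this | linear_combination -this
  · have := key ⟨0, 1, 0, 0⟩
    rw [e_self, e_self] at this
    rcases Int.units_eq_one_or (Q.χa σ) with ha | ha <;>
      rcases Int.units_eq_one_or (Q.χb σ) with hb | hb <;>
      simp [h, ha, hb, cj, -mul_eq_mul_right_iff] at this ⊢ <;> unfold nr <;>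
      first | linear_combination this | linear_combination -this

/-- **the determinant** -/
theorem det_ρ {σ : G} (h : Q.η = 1 ∨ Q.χb σ = 1) : (F.ρ c σ).det = c.φ (Q.cyc σ) := by
  rw [ρ_apply, det_mul, c.det_m, nr_star, nr_x, det_Um]
  rcases Int.units_eq_one_or Q.η with hη | hη <;>
    rcases Int.units_eq_one_or (Q.χa σ) with ha | ha <;>
    rcases Int.units_eq_one_or (Q.χb σ) with hb | hb <;> simp_all

/-! ### trace -/

/-- the endomorphism attached to `σ` -/
def bb (Q : QM α G T) (σ : G) : Module.End ℤ_[3] T :=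
  if Q.χa σ = 1 then (if Q.χb σ = 1 then 1 else Q.j2) else (if Q.χb σ = 1 then Q.j3 else Q.j2 * Q.j3)

/-- its square root of the degree -/
def ββ (Q : QM α G T) (c : Cf α A) (σ : G) : A :=
  if Q.χa σ = 1 then (if Q.χb σ = 1 then 1 else -c.s2) else (if Q.χb σ = 1 then -c.s3 else c.s2 * c.s3)

/-- the `3`-adic integer `tr ρ σ / (ε β)` -/
def cc (σ : G) : ℤ_[3] :=
  2 * if Q.χa σ = 1 then (if Q.χb σ = 1 then (F.x σ).re else (F.x σ).imI)
    else (if Q.χb σ = 1 then (F.x σ).imJ else (F.x σ).imK)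

theorem trace_ρ (σ : G) : (F.ρ c σ).trace = F.ε σ • (c.φ (F.cc σ) * ββ Q c σ) := by
  rw [ρ_apply, cc, ββ]
  rcases Int.units_eq_one_or (F.ε σ) with he | he <;>
    rcases Int.units_eq_one_or (Q.χa σ) with ha | ha <;>
    rcases Int.units_eq_one_or (Q.χb σ) with hb | hb <;>
    simp [he, ha, hb, Um, Cf.m, trace_fin_two, map_ofNat] <;> ring

lemma co_ι' (h : H α) (u : T) : F.co (Q.ι h u) = h * F.co u := by
  conv_lhs => rw [← F.ι_co u, ← Module.End.mul_apply, ← map_mul, co_ι]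

lemma co_inj {u v : T} (h : F.co u = F.co v) : u = v := by rw [← F.ι_co u, h, ι_co]

/-- **the quadratic relation on `T`** -/
theorem quad {σ : G} (h : Q.η = 1 ∨ Q.χb σ = 1) (u : T) :
    Q.act σ (Q.act σ u) + (if Q.χa σ = -1 ∧ Q.χb σ = -1 then -(Q.cyc σ : ℤ_[3]) else Q.cyc σ) • u =
      F.cc σ • bb Q σ (Q.act σ u) := by
  have hn := F.nr_x σ
  have h2 : ∀ v, Q.j2 v = Q.ι ⟨0, 1, 0, 0⟩ v := fun v => by simp [Q.ι_apply]
  have h3 : ∀ v, Q.j3 v = Q.ι ⟨0, 0, 1, 0⟩ v := fun v => by simp [Q.ι_apply]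
  replace hn : (Q.cyc σ : ℤ_[3]) = (if Q.η = 1 then Q.χa σ * Q.χb σ else Q.χa σ) • nr (F.x σ) := by
    rw [hn, smul_smul, Int.units_mul_self, one_smul]
  refine F.co_inj ?_
  rw [hn]
  rcases Int.units_eq_one_or Q.η with hη | hη <;>
    rcases Int.units_eq_one_or (Q.χa σ) with ha | ha <;>
    rcases Int.units_eq_one_or (Q.χb σ) with hb | hb <;>
    first
    | exact absurd h (by rw [hη, hb]; decide)
    | (simp only [bb, cc, hη, ha, hb, neg_one_ne, neg_one_ne.symm, if_true, if_false, map_add,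
        map_smul, Module.End.mul_apply, Module.End.one_apply, h2, h3, co_ι', co_act, and_self,
        and_true, and_false]
       ext <;> simp [cj, nr] <;> ring)

end Fr

end Crest.Agent.T15.Rho
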