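import Crest.Agent.T15.RhoA_86

/-!
# Row 15, block F (helper86): the coefficient ring `ℤ₃[√3]`
-/

set_option autoImplicit false

noncomputable section

namespace Crest.Agent.T15.Rho

open IsLocalRing QuadraticAlgebra

/-- `ℤ₃[√3]` -/
abbrev O3 : Type := QuadraticAlgebra ℤ_[3] 3 0

namespace O3

/-- `√3` -/
def s3 : O3 := ⟨0, 1⟩

lemma s3_sq : s3 ^ 2 = 3 := by
  rw [← map_ofNat (algebraMap ℤ_[3] O3) 3]
  ext <;> simp [s3, sq]

lemma norm_eq (z : O3) : norm z = z.re ^ 2 - 3 * z.im ^ 2 := by rw [norm_def]; ring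

lemma eq_zero {z : O3} (h : norm z = 0) : z = 0 := by
  have := eq_zero_of_nr (α := 2) (x := ⟨z.re, 0, z.im, 0⟩) (by rw [norm_eq] at h; simpa [nr] using h)
  ext
  · simpa using congrArg QuaternionAlgebra.re this
  · simpa using congrArg QuaternionAlgebra.imJ this

instance : NoZeroDivisors O3 where
  eq_zero_or_eq_zero_of_mul_eq_zero {a b} h := by
    have : norm a * norm b = 0 := by rw [← map_mul, h, QuadraticAlgebra.norm_zero]
    exact (mul_eq_zero.1 this).imp eq_zero eq_zero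

instance : IsDomain O3 := NoZeroDivisors.to_isDomain _

/-- reduction modulo `√3` -/
def res : O3 →+* ZMod 3 where
  toFun z := r3 z.re
  map_one' := by simp
  map_zero' := by simp
  map_add' z w := by simp
  map_mul' z w := by
    have : r3 3 = 0 := r3_eq_zero.2 dvd_rfl
    simp [this]

lemma res_apply (z : O3) : res z = r3 z.re := rfl

lemma isUnit_iff_res {z : O3} : IsUnit z ↔ res z ≠ 0 := by
  have : r3 3 = 0 := r3_eq_zero.2 dvd_rfl
  rw [isUnit_iff_norm_isUnit, isUnit_iff, norm_eq, res_apply]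
  simp [this]

instance : IsLocalRing O3 := of_isUnit_or_isUnit_one_sub_self fun a => by
  rw [isUnit_iff_res, isUnit_iff_res, map_sub, map_one]
  generalize res a = u
  revert u; decide

lemma mem_max {z : O3} : z ∈ maximalIdeal O3 ↔ res z = 0 := by
  rw [mem_maximalIdeal, mem_nonunits_iff, isUnit_iff_res, not_not]

lemma max_eq : maximalIdeal O3 = Ideal.span {s3} := by
  ext z
  rw [mem_max, res_apply, r3_eq_zero, Ideal.mem_span_singleton]
  constructor
  · rintro ⟨a, ha⟩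
    exact ⟨⟨z.im, a⟩, by ext <;> simp [s3, ha]⟩
  · rintro ⟨w, rfl⟩
    exact ⟨w.im, by simp [s3]⟩

instance : IsNoetherianRing O3 := IsNoetherianRing.of_finite ℤ_[3] O3

lemma s3_ne : s3 ≠ 0 := fun h => by simpa [s3] using congrArg QuadraticAlgebra.im h

instance : IsDiscreteValuationRing O3 :=
  ((IsDiscreteValuationRing.TFAE O3 (isField_iff_maximalIdeal_eq.not.2 (by
    rw [max_eq, Ideal.span_singleton_eq_bot]; exact s3_ne))).out 0 4).2
    (show (maximalIdeal O3).IsPrincipal from max_eq ▸ ⟨s3, rfl⟩)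

lemma three_pow_dvd {n : ℕ} {z : O3} :
    (3 : O3) ^ n ∣ z ↔ (3 : ℤ_[3]) ^ n ∣ z.re ∧ (3 : ℤ_[3]) ^ n ∣ z.im := by
  have : (3 : O3) ^ n = algebraMap ℤ_[3] O3 (3 ^ n) := by rw [map_pow, map_ofNat]
  rw [this]
  constructor
  · rintro ⟨w, rfl⟩
    exact ⟨⟨w.re, by simp [-map_pow]⟩, ⟨w.im, by simp [-map_pow]⟩⟩
  · rintro ⟨⟨a, ha⟩, ⟨b, hb⟩⟩
    exact ⟨⟨a, b⟩, by ext <;> simp [-map_pow, ha, hb]⟩

instance : IsAdicComplete (maximalIdeal O3) O3 where
  prec' f hf := by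
    have h1 : ∀ (n : ℕ) (x y : O3), x ≡ y [SMOD (maximalIdeal O3 ^ n • ⊤ : Submodule O3 O3)] ↔
        s3 ^ n ∣ x - y := fun n x y => by
      rw [SModEq.sub_mem, max_eq, Ideal.span_singleton_pow, smul_eq_mul, Ideal.mul_top,
        Ideal.mem_span_singleton]
    have h2 : ∀ (n : ℕ) (x y : ℤ_[3]),
        x ≡ y [SMOD (maximalIdeal ℤ_[3] ^ n • ⊤ : Submodule ℤ_[3] ℤ_[3])] ↔ (3 : ℤ_[3]) ^ n ∣ x - y :=
      fun n x y => by
        rw [SModEq.sub_mem, PadicInt.maximalIdeal_eq_span_p, Ideal.span_singleton_pow, smul_eq_mul,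
          Ideal.mul_top, Ideal.mem_span_singleton]; rfl
    have h3 : ∀ {m n : ℕ}, m ≤ n → (3 : O3) ^ m ∣ f (2 * m) - f (2 * n) := fun {m n} h => by
      rw [← s3_sq, ← pow_mul, ← h1]; exact hf (by omega)
    obtain ⟨a, ha⟩ := IsPrecomplete.prec' (I := maximalIdeal ℤ_[3]) (fun n => (f (2 * n)).re)
      fun h => (h2 _ _ _).2 (three_pow_dvd.1 (h3 h)).1
    obtain ⟨b, hb⟩ := IsPrecomplete.prec' (I := maximalIdeal ℤ_[3]) (fun n => (f (2 * n)).im)
      fun h => (h2 _ _ _).2 (three_pow_dvd.1 (h3 h)).2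
    refine ⟨⟨a, b⟩, fun n => (hf (show n ≤ 2 * n by omega)).trans ((h1 _ _ _).2 ?_)⟩
    refine (pow_dvd_pow s3 (show n ≤ 2 * n by omega)).trans ?_
    rw [pow_mul, s3_sq, three_pow_dvd]
    exact ⟨(h2 _ _ _).1 (ha n), (h2 _ _ _).1 (hb n)⟩

lemma res_surj : Function.Surjective res := ZMod.ringHom_surjective _

/-- the residue field is `𝔽₃` -/
def resEquiv : ResidueField O3 ≃+* ZMod 3 :=
  (Ideal.quotEquivOfEq (by ext z; rw [mem_max, RingHom.mem_ker])).trans
    (RingHom.quotientKerEquivOfSurjective res_surj)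

lemma card_res : Nat.card (ResidueField O3) = 3 := by
  rw [Nat.card_congr resEquiv.toEquiv, Nat.card_zmod]

instance : Finite (ResidueField O3) := Finite.of_equiv _ resEquiv.symm.toEquiv

lemma three_mem : (3 : O3) ∈ maximalIdeal O3 := by rw [mem_max, map_ofNat]; rfl

lemma s3_mem : s3 ∈ maximalIdeal O3 := by rw [max_eq]; exact Ideal.subset_span rfl

end O3

end Crest.Agent.T15.Rho
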