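import Crest.Agent.T15.RhoB_86
import Crest.Agent.T15.RhoO_86

/-!
# Row 15, block F (helper86): the representation over `ℤ₃[√3]` when `G` commutes with `j₃`
-/

set_option autoImplicit false
set_option linter.unusedSimpArgs false

noncomputable section

namespace Crest.Agent.T15.Rho

open Matrix

variable {α : ℤ_[3]}

/-- coefficients: a `ℤ₃`-algebra with a square root of `3` -/
structure C3 (A : Type*) [CommRing A] where
  φ : ℤ_[3] →+* A
  s : A
  hs : s ^ 2 = 3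

/-- the universal coefficients -/
def O3.c3 : C3 O3 := ⟨algebraMap _ _, O3.s3, O3.s3_sq⟩

section mat

variable {A B : Type*} [CommRing A] [CommRing B]

/-- change of coefficients -/
def C3.map (c : C3 A) (f : A →+* B) : C3 B where
  φ := f.comp c.φ
  s := f c.s
  hs := by rw [← map_pow, c.hs, map_ofNat]

/-- right multiplication in the basis `1, i` over `ℤ₃[j]` -/
def C3.m (c : C3 A) (x : H α) : Matrix (Fin 2) (Fin 2) A :=
  !![c.φ x.re + c.φ x.imJ * c.s, c.φ α * (c.φ x.imI + c.φ x.imK * c.s);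
    c.φ x.imI - c.φ x.imK * c.s, c.φ x.re - c.φ x.imJ * c.s]

variable (c : C3 A)

lemma C3.m_one : c.m (1 : H α) = 1 := by
  ext i j; fin_cases i <;> fin_cases j <;> simp [C3.m]

lemma C3.m_add (x y : H α) : c.m (x + y) = c.m x + c.m y := by
  ext i j; fin_cases i <;> fin_cases j <;> simp [C3.m] <;> ring

lemma C3.m_smul (a : ℤ_[3]) (x : H α) : c.m (a • x) = c.φ a • c.m x := by
  ext i j; fin_cases i <;> fin_cases j <;> simp [C3.m] <;> ring

lemma C3.m_mul (x y : H α) : c.m (x * y) = c.m y * c.m x := by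
  have h3 := c.hs
  ext i j
  fin_cases i <;> fin_cases j <;> simp [C3.m, Matrix.mul_apply, Fin.sum_univ_two, map_ofNat] <;>
    rw [← h3] <;> ring

lemma C3.det_m (x : H α) : (c.m x).det = c.φ (nr x) := by
  have h3 := c.hs
  simp only [C3.m, nr, det_fin_two_of, map_add, map_sub, map_mul, map_pow, map_ofNat]
  rw [← h3]; ring

lemma C3.m_map (f : A →+* B) (x : H α) : (c.map f).m x = (c.m x).map f := by
  ext i j; fin_cases i <;> fin_cases j <;> simp [C3.m, C3.map]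

lemma Um_mul_m3 (a : ℤˣ) (x : H α) : Um A 1 1 a * c.m x = c.m (cj a 1 x) * Um A 1 1 a := by
  rcases Int.units_eq_one_or a with rfl | rfl <;> ext i j <;> fin_cases i <;> fin_cases j <;>
    simp [Um, C3.m, cj, Matrix.mul_apply, Fin.sum_univ_two] <;> ring

end mat

variable {G : Type*} [Group G] {T : Type*} [AddCommGroup T] [Module ℤ_[3] T]

/-- a frame exists when `G` commutes with `j₃` -/
theorem exists_fr [Fact (r3 α = 2)] [Module.Free ℤ_[3] T] [Module.Finite ℤ_[3] T] (Q : QM α G T)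
    (hb : ∀ σ, Q.χb σ = 1) (hr : Module.finrank ℤ_[3] T = 4) : ∃ F : Fr Q, ∀ σ, F.ε σ = 1 := by
  obtain ⟨t, ht⟩ := Q.exists_gen hr
  exact ⟨⟨t, ht, fun _ => 1, fun σ τ => by simp [hb]⟩, fun _ => rfl⟩

namespace Fr

variable {Q : QM α G T} (F : Fr Q) (hb : ∀ σ, Q.χb σ = 1)
variable {A B : Type*} [CommRing A] [CommRing B] (c : C3 A)

/-- **the representation** -/
def ρ0 : G →* Matrix (Fin 2) (Fin 2) A where
  toFun σ := c.m (F.x σ) * Um A 1 1 (Q.χa σ)
  map_one' := by simp [x_one, c.m_one]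
  map_mul' σ τ := by
    have : Um A 1 1 (Q.χa σ * Q.χa τ) = Um A 1 1 (Q.χa σ) * Um A 1 1 (Q.χa τ) := by
      rw [Um_mul]; simp
    rw [x_mul, hb, c.m_mul, map_mul, this, mul_assoc, mul_assoc, ← mul_assoc (c.m (cj _ _ _)),
      ← Um_mul_m3, mul_assoc]

lemma ρ0_apply (σ : G) : F.ρ0 hb c σ = c.m (F.x σ) * Um A 1 1 (Q.χa σ) := rfl

lemma ρ0_map (f : A →+* B) (σ : G) : F.ρ0 hb (c.map f) σ = (F.ρ0 hb c σ).map f := by
  rw [ρ0_apply, ρ0_apply, Matrix.map_mul, Um_map, C3.m_map]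

theorem det_ρ0 (hη : Q.η = -1) (σ : G) : (F.ρ0 hb c σ).det = c.φ (Q.cyc σ) := by
  rw [ρ0_apply, det_mul, c.det_m, nr_x, det_Um, hη, if_neg neg_one_ne]
  rcases Int.units_eq_one_or (Q.χa σ) with ha | ha <;> simp [ha]

theorem trace_ρ0 (σ : G) :
    (F.ρ0 hb c σ).trace = c.φ (F.cc σ) * if Q.χa σ = 1 then 1 else c.s := by
  rw [ρ0_apply, cc, hb]
  rcases Int.units_eq_one_or (Q.χa σ) with ha | ha <;>
    simp [ha, Um, C3.m, trace_fin_two, map_ofNat] <;> ring

include hb in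
/-- the quadratic relation on `T` -/
theorem quad0 (σ : G) (u : T) :
    Q.act σ (Q.act σ u) + (Q.cyc σ : ℤ_[3]) • u =
      F.cc σ • (if Q.χa σ = 1 then Q.act σ u else Q.j3 (Q.act σ u)) := by
  have := F.quad (σ := σ) (Or.inr (hb σ)) u
  rw [hb, if_neg (fun h => neg_one_ne h.2.symm), bb, hb] at this
  rw [this]
  by_cases h : Q.χa σ = 1 <;> simp [h]

/-- the coordinates `T → A²` -/
def vec : T →+ (Fin 2 → A) :=
  AddMonoidHom.mk' (fun u => c.m (F.co u) *ᵥ ![1, 0]) fun u v => by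
    rw [map_add, c.m_add, add_mulVec]

lemma vec_apply (u : T) : F.vec c u =
    ![c.φ (F.co u).re + c.φ (F.co u).imJ * c.s, c.φ (F.co u).imI - c.φ (F.co u).imK * c.s] := by
  ext i; fin_cases i <;> simp [vec, C3.m]

lemma vec_act (σ : G) (u : T) : F.vec c (Q.act σ u) = F.ρ0 hb c σ *ᵥ F.vec c u := by
  have h : Um A 1 1 (Q.χa σ) *ᵥ ![1, 0] = ![1, 0] := by ext i; fin_cases i <;> simp [Um]
  simp only [vec, AddMonoidHom.mk'_apply]
  rw [co_act, hb, c.m_mul, ρ0_apply, mulVec_mulVec, mul_assoc, Um_mul_m3, ← mul_assoc,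
    ← mulVec_mulVec _ _ (Um A 1 1 _), h]

lemma vec_smul (a : ℤ_[3]) (u : T) : F.vec c (a • u) = c.φ a • F.vec c u := by
  simp only [vec, AddMonoidHom.mk'_apply]
  rw [map_smul, c.m_smul, smul_mulVec]

lemma co_j2 (u : T) : F.co (Q.j2 u) = ⟨0, 1, 0, 0⟩ * F.co u := by
  rw [← co_ι']; simp [Q.ι_apply]

lemma co_j3 (u : T) : F.co (Q.j3 u) = ⟨0, 0, 1, 0⟩ * F.co u := by
  rw [← co_ι']; simp [Q.ι_apply]

lemma vec_j3 (u : T) : F.vec c (Q.j3 u) = c.s • F.vec c u := by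
  have h3 := c.hs
  rw [vec_apply, vec_apply, co_j3]
  ext i; fin_cases i <;> simp [map_ofNat] <;> rw [← h3] <;> ring

lemma vec_t : F.vec c F.t = ![1, 0] := by rw [vec_apply, co_t]; simp

lemma vec_j2t : F.vec c (Q.j2 F.t) = ![0, 1] := by rw [vec_apply, co_j2, co_t]; simp

lemma vec_map (f : A →+* B) (u : T) : F.vec (c.map f) u = f ∘ F.vec c u := by
  rw [vec_apply, vec_apply]; ext i; fin_cases i <;> simp [C3.map]

/-- over `ℤ₃[√3]` the coordinates are a bijection -/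
theorem vec_bij : Function.Bijective (F.vec O3.c3) := by
  have h : ∀ u, F.vec O3.c3 u =
      ![⟨(F.co u).re, (F.co u).imJ⟩, ⟨(F.co u).imI, -(F.co u).imK⟩] := fun u => by
    rw [vec_apply]; ext i <;> fin_cases i <;> simp [O3.c3, O3.s3]
  refine ⟨fun u v huv => F.co_inj ?_, fun w => ⟨Q.ι ⟨(w 0).re, (w 1).re, (w 0).im, -(w 1).im⟩ F.t, ?_⟩⟩
  · rw [h, h] at huv
    have h0 := congrFun huv 0
    have h1 := congrFun huv 1
    simp only [cons_val_zero, cons_val_one, QuadraticAlgebra.mk.injEq, neg_inj] at h0 h1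
    ext <;> tauto
  · rw [h, co_ι]; ext i <;> fin_cases i <;> simp

lemma ρ0_ext {σ : G} {X : Matrix (Fin 2) (Fin 2) A}
    (h : ∀ u, F.vec c (Q.act σ u) = X *ᵥ F.vec c u) : F.ρ0 hb c σ = X := by
  have h1 := h F.t
  have h2 := h (Q.j2 F.t)
  rw [F.vec_act hb, vec_t] at h1
  rw [F.vec_act hb, vec_j2t] at h2
  ext i j
  fin_cases j
  · simpa [mulVec, dotProduct, Fin.sum_univ_two] using congrFun h1 i
  · simpa [mulVec, dotProduct, Fin.sum_univ_two] using congrFun h2 i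

lemma ρ0_eq_one {σ : G} {a : ℤ_[3]} (h0 : c.φ a = 0) (h : ∀ u, ∃ v, Q.act σ u = u + a • v) :
    F.ρ0 hb c σ = 1 := F.ρ0_ext hb c fun u => by
  obtain ⟨v, hv⟩ := h u
  rw [hv, map_add, vec_smul, h0, zero_smul, add_zero, one_mulVec]

lemma ρ0_eq_one' {σ : G} (h : Q.act σ = 1) : F.ρ0 hb c σ = 1 :=
  F.ρ0_ext hb c fun u => by rw [h, one_mulVec]; rfl

lemma ρ0_eq_neg {σ : G} (h : Q.act σ = -1) : F.ρ0 hb c σ = -1 :=
  F.ρ0_ext hb c fun u => by rw [h, neg_mulVec, one_mulVec, ← map_neg]; rfl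

/-- **`A²` is a quotient of a power of `T / a`** -/
theorem exists_quot0 [Fintype A] {V : Type*} [AddCommGroup V] (π : T →+ V)
    (hπ : Function.Surjective π) {a : ℤ_[3]} (h0 : c.φ a = 0) (hk : ∀ u, π u = 0 → ∃ u', u = a • u') :
    ∃ q : (A × Fin 2 → V) →+ (Fin 2 → A), Function.Surjective q ∧
      ∀ (σ : G) (s : V → V), (∀ u, π (Q.act σ u) = s (π u)) →
        ∀ f, q (fun i => s (f i)) = F.ρ0 hb c σ *ᵥ q f := by
  classical
  have hker : π.ker ≤ (F.vec c).ker := fun u hu => by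
    obtain ⟨u', rfl⟩ := hk u hu
    exact show F.vec c _ = 0 by rw [vec_smul, h0, zero_smul]
  let N : V →+ (Fin 2 → A) := π.liftOfSurjective hπ ⟨F.vec c, hker⟩
  have hN : ∀ u, N (π u) = F.vec c u := fun u => π.liftOfRightInverse_comp_apply _ _ _ u
  refine ⟨AddMonoidHom.mk' (fun f => ∑ i : A × Fin 2, i.1 • N (f i)) fun f g => ?_,
    fun w => ⟨Pi.single (w 0, 0) (π F.t) + Pi.single (w 1, 1) (π (Q.j2 F.t)), ?_⟩,
    fun σ s hs f => ?_⟩
  · simp only [Pi.add_apply, map_add, smul_add, Finset.sum_add_distrib]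
  · rw [map_add]
    simp only [AddMonoidHom.mk'_apply]
    rw [Finset.sum_eq_single (w 0, 0)
        (fun b _ hb => by rw [Pi.single_eq_of_ne hb, map_zero, smul_zero]) (by simp),
      Finset.sum_eq_single (w 1, 1)
        (fun b _ hb => by rw [Pi.single_eq_of_ne hb, map_zero, smul_zero]) (by simp)]
    simp only [Pi.single_eq_same, hN, vec_t, vec_j2t]
    ext i; fin_cases i <;> simp
  · simp only [AddMonoidHom.mk'_apply, Matrix.mulVec_sum]
    refine Finset.sum_congr rfl fun i _ => ?_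
    obtain ⟨u, hu⟩ := hπ (f i)
    rw [← hu, ← hs, hN, hN, F.vec_act hb, mulVec_smul]

/-- modulo `√3` the representation normalises `J = !![0, α; 1, 0]` -/
theorem ρ0_mul_J (hs : c.s = 0) (σ : G) :
    F.ρ0 hb c σ * !![0, c.φ α; 1, 0] = Q.χa σ • (!![0, c.φ α; 1, 0] * F.ρ0 hb c σ) := by
  rw [ρ0_apply]
  rcases Int.units_eq_one_or (Q.χa σ) with ha | ha <;> ext i j <;> fin_cases i <;> fin_cases j <;>
    simp [ha, hs, Um, C3.m, Matrix.mul_apply, Fin.sum_univ_two, mul_comm]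

end Fr

/-- a matrix congruent to `1` whose order is a unit is `1` -/
theorem eq_one_of_pow {O : Type*} [CommRing O] [IsLocalRing O] {X : Matrix (Fin 2) (Fin 2) O} {m : ℕ}
    (hm : IsUnit (m : O)) (hX : X.map (IsLocalRing.residue O) = 1) (h : X ^ m = 1) : X = 1 := by
  have h1 : (∑ i ∈ Finset.range m, X ^ i) * (X - 1) = 0 := by rw [geom_sum_mul, h, sub_self]
  have h2 : IsUnit (∑ i ∈ Finset.range m, X ^ i) := by
    rw [Matrix.isUnit_iff_isUnit_det, ← IsLocalRing.residue_ne_zero_iff_isUnit, RingHom.map_det,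
      map_sum]
    simp only [map_pow, RingHom.mapMatrix_apply, hX, one_pow, Finset.sum_const, Finset.card_range]
    rw [← Nat.cast_smul_eq_nsmul (IsLocalRing.ResidueField O), det_smul, det_one, mul_one]
    exact pow_ne_zero _ (by simpa using (hm.map (IsLocalRing.residue O)).ne_zero)
  exact sub_eq_zero.1 (h2.mul_right_eq_zero.1 h1)

end Crest.Agent.T15.Rho
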