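import Mathlib
import Crest.Agent.T15.MoB_29
import Crest.Agent.T15.NfB_2
import Crest.Agent.T15.CtE_92

/-!
# Row 15, block F (helper29): the cluster shapes of `w² = c z (z² - a₁)(z² - a₂)(z² - a₃)`

`Cx` the context (a valued algebraically closed field, an automorphism `e` trivial on residues,
`e z = z`, `e w = ε w`); `good`, `one_two`, `two_one`, `chain`, `star`.
-/

set_option autoImplicit false
set_option linter.all false

namespace Crest.Agent.T15.Rt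

open Polynomial
open scoped NNReal
open Crest.Agent.R013.RR7_948 Crest.Agent.R013.RR8_948 Crest.Agent.R013.RR9_948
open Crest.Agent.R013.RR11_948 Crest.Agent.R013.PicD_398
open Crest.Agent.R013.GR3_921 Crest.Agent.R013.GR4_921 Crest.Agent.R013.Frob1_914
open Crest.Agent.T15.Hy Crest.Agent.T15.Nf Crest.Agent.T15.Mo

theorem nos : NOS := by
  intro C K k _ _ _ _ _ _ _ _ _ _ _ vC ρC p hp hpv ι _ W hW κ _ _ ρ hred g hg hs e he n hn y hy
  haveI := Fact.mk hp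
  exact Ct.nos hred hW hg p hpv hs e (fun i x hx => he i x hx.le) hn hy

/-! ### `ε x / s x ≡ 1` -/

section U

variable {C : Type*} [Field C] (vC : Valuation C ℝ≥0) (s : C ≃+* C)

/-- `ε x ≡ s x` multiplicatively -/
def U (ε x : C) : Prop := vC (ε * x / s x - 1) < 1

variable {vC s}

theorem v_one_of {x : C} (h : vC (x - 1) < 1) : vC x = 1 := by
  have : x = 1 + (x - 1) := by ring
  rw [this, Valuation.map_add_eq_of_lt_left _ (by simpa using h), map_one]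

theorem near_mul {x y : C} (hx : vC (x - 1) < 1) (hy : vC (y - 1) < 1) : vC (x * y - 1) < 1 := by
  have : x * y - 1 = x * (y - 1) + (x - 1) := by ring
  rw [this]
  refine lt_of_le_of_lt (Valuation.map_add _ _ _) (max_lt ?_ hx)
  rwa [map_mul, v_one_of hx, one_mul]

theorem near_inv {x : C} (hx : vC (x - 1) < 1) : vC (x⁻¹ - 1) < 1 := by
  have h1 := v_one_of hx
  have h0 : x ≠ 0 := by rintro rfl; simp at h1
  have : x⁻¹ - 1 = -(x⁻¹ * (x - 1)) := by field_simp; ring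
  rwa [this, Valuation.map_neg, map_mul, map_inv₀, h1, inv_one, one_mul]

theorem U.mul {ε ε' x y : C} (hx : U vC s ε x) (hy : U vC s ε' y) : U vC s (ε * ε') (x * y) := by
  have := near_mul hx hy
  unfold U
  convert this using 3
  rw [map_mul]; ring

theorem U.inv {ε x : C} (hx : U vC s ε x) : U vC s ε⁻¹ x⁻¹ := by
  have := near_inv hx
  unfold U
  convert this using 3
  rw [map_inv₀]; ring

theorem U.fix {x : C} (h0 : x ≠ 0) (h : s x = x) : U vC s 1 x := by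
  unfold U; rw [h, one_mul, div_self h0]; simp

theorem U.one : U vC s 1 1 := U.fix one_ne_zero (map_one s)

theorem U.pow {x : C} (hx : U vC s 1 x) (n : ℕ) : U vC s 1 (x ^ n) := by
  induction n with
  | zero => simpa using U.one
  | succ n ih => simpa [pow_succ] using ih.mul hx

theorem U.zpow {x : C} (hx : U vC s 1 x) (n : ℤ) : U vC s 1 (x ^ n) := by
  cases n with
  | ofNat n => simpa using hx.pow n
  | negSucc n => simpa using (hx.pow (n + 1)).inv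

theorem U.ne {ε x : C} (hx : U vC s ε x) : x ≠ 0 := by
  rintro rfl
  simp [U] at hx

theorem U.unit (hs : ∀ c, vC c ≤ 1 → vC (s c - c) < 1) {x : C} (h : vC x = 1) : U vC s 1 x := by
  have h0 : x ≠ 0 := by rintro rfl; simp at h
  have h1 : vC (s x / x - 1) < 1 := by
    have : s x / x - 1 = (s x - x) / x := by field_simp
    rw [this, map_div₀, h, div_one]; exact hs x h.le
  have := near_inv h1
  unfold U
  rwa [one_mul, ← inv_div]

theorem U.of_val (hs : ∀ c, vC c ≤ 1 → vC (s c - c) < 1) {ε x y : C} (hy : U vC s ε y)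
    (h : vC x = vC y) : U vC s ε x := by
  have h0 := hy.ne
  have h1 : vC (x / y) = 1 := by rw [map_div₀, h, div_self (by simpa using h0)]
  have := (U.unit hs h1).mul hy
  rwa [one_mul, div_mul_cancel₀ _ h0] at this

theorem U.of_pow (hs : ∀ c, vC c ≤ 1 → vC (s c - c) < 1) {ε x y : C} (hy : U vC s ε y) {n : ℕ}
    (hn : n ≠ 0) (h : vC x ^ n = vC y ^ n) : U vC s ε x :=
  hy.of_val hs (pow_left_injective hn h)

/-- a square root of a fixed element is fixed if it is `U` -/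
theorem U.fixed (h2 : vC 2 = 1) {x : C} (hx : U vC s 1 x) (h : s x = x ∨ s x = -x) : s x = x := by
  rcases h with h | h
  · exact h
  · exfalso
    have h0 := hx.ne
    unfold U at hx
    rw [h, one_mul, div_neg, div_self h0, show (-1 - 1 : C) = -2 by norm_num, Valuation.map_neg,
      h2] at hx
    exact lt_irrefl _ hx

end U

/-! ### factors -/

section fac

variable {C k : Type*} [Field C] [Field k] {vC : Valuation C ℝ≥0} {ρC : C → k}

/-- `(π X)² - a = s f`, `f ≡ q` -/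
def Fac (vC : Valuation C ℝ≥0) (ρC : C → k) (π a s : C) (q : k[X]) : Prop :=
  ∃ f : C[X], (Polynomial.C π * X) ^ 2 - Polynomial.C a = Polynomial.C s * f ∧ Rd vC ρC f q

variable (hr : IsRes vC ρC)
include hr

theorem fac_on {π a : C} (hπ : π ≠ 0) (h : vC (a / π ^ 2) ≤ 1) :
    Fac vC ρC π a (π ^ 2) (X ^ 2 - Polynomial.C (ρC (a / π ^ 2))) := by
  refine ⟨X ^ 2 - Polynomial.C (a / π ^ 2), ?_, ((Rd.X hr).pow hr 2).sub hr (Rd.cst hr h)⟩
  rw [mul_sub, ← C_mul, mul_div_cancel₀ _ (pow_ne_zero 2 hπ), mul_pow, C_pow]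

theorem fac_in {π a : C} (hπ : π ≠ 0) (h : vC a < vC π ^ 2) : Fac vC ρC π a (π ^ 2) (X ^ 2) := by
  have h1 : vC (a / π ^ 2) < 1 := by
    rw [map_div₀, map_pow]
    exact (div_lt_one₀ (pow_pos (pos_iff_ne_zero.mpr (by simpa using hπ)) 2)).mpr h
  have := fac_on hr hπ h1.le
  rwa [(hr.zero_iff _ h1.le).mpr h1, C_0, sub_zero] at this

theorem fac_eq {π a : C} (hπ : π ≠ 0) (h : vC (a / π ^ 2 - 1) < 1) :
    Fac vC ρC π a (π ^ 2) (X ^ 2 - Polynomial.C 1) := by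
  have h1 := v_one_of h
  have := fac_on hr hπ h1.le
  rwa [(hr.eq_iff h1.le (by simp)).mpr h, hr.one] at this

theorem fac_self {π a : C} (hπ : π ≠ 0) (h : π ^ 2 = a) :
    Fac vC ρC π a (π ^ 2) (X ^ 2 - Polynomial.C 1) :=
  fac_eq hr hπ (by rw [← h, div_self (pow_ne_zero 2 hπ)]; simp)

theorem fac_out {π a : C} (h : vC π ^ 2 < vC a) : Fac vC ρC π a (-a) 1 := by
  have h0 : a ≠ 0 := by rintro rfl; simp at h
  have h1 : vC (π ^ 2 / a) < 1 := by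
    rw [map_div₀, map_pow]
    exact (div_lt_one₀ (pos_iff_ne_zero.mpr (by simpa using h0))).mpr h
  refine ⟨1 - Polynomial.C (π ^ 2 / a) * X ^ 2, ?_, ?_⟩
  · rw [mul_sub, ← mul_assoc, ← C_mul, neg_mul, mul_div_cancel₀ _ h0, mul_pow, C_neg, C_neg, C_pow]
    ring
  · simpa using (Rd.one hr).sub hr ((Rd.cst_lt hr h1).mul hr ((Rd.X hr).pow hr 2))

theorem ch0 {c a1 a2 a3 π γ s1 s2 s3 : C} {q1 q2 q3 G H : k[X]} (hπ : π ≠ 0) (hγ : γ ≠ 0)
    (f1 : Fac vC ρC π a1 s1 q1) (f2 : Fac vC ρC π a2 s2 q2) (f3 : Fac vC ρC π a3 s3 q3)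
    (hg : γ ^ 2 = c * π * s1 * s2 * s3) (hq : X * q1 * q2 * q3 = G ^ 2 * H) (G0 : G ≠ 0)
    (sep : H.Separable) (pos : 0 < H.natDegree) : Ch vC ρC (Fm c a1 a2 a3) 0 π γ G H := by
  obtain ⟨g1, e1, r1⟩ := f1
  obtain ⟨g2, e2, r2⟩ := f2
  obtain ⟨g3, e3, r3⟩ := f3
  refine Ch.mk' (F1 := X * g1 * g2 * g3) hπ hγ ?_
    (((((Rd.X hr).mul hr r1).mul hr r2).mul hr r3).congr rfl hq) G0 sep pos
  simp only [Fm, mul_comp, sub_comp, pow_comp, X_comp, C_comp, C_0, zero_add]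
  rw [e1, e2, e3, hg]
  simp only [C_mul]
  ring

end fac

section sep

variable {k : Type*} [Field k]

theorem sepX : (X : k[X]).Separable := separable_X

theorem copX {a : k} (h : a ≠ 0) : IsCoprime (X : k[X]) (X ^ 2 - C a) := by
  simpa using cop_X (one_ne_zero) h

theorem sepQ (h2 : (2 : k) ≠ 0) {a : k} (h : a ≠ 0) : (X ^ 2 - C a : k[X]).Separable :=
  separable_X_pow_sub_C a (by exact_mod_cast h2) h

theorem sep3 (h2 : (2 : k) ≠ 0) {a : k} (h : a ≠ 0) : (X * (X ^ 2 - C a) : k[X]).Separable :=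
  sepX.mul (sepQ h2 h) (copX h)

theorem sep5 (h2 : (2 : k) ≠ 0) {a b : k} (ha : a ≠ 0) (hb : b ≠ 0) (h : a ≠ b) :
    (X * (X ^ 2 - C a) * (X ^ 2 - C b) : k[X]).Separable :=
  (sep3 h2 ha).mul (sepQ h2 hb) ((copX hb).mul_left (cop_sq h))

theorem deg3 (a : k) : (X * (X ^ 2 - C a) : k[X]).natDegree = 3 := by
  rw [natDegree_mul X_ne_zero (X_pow_sub_C_ne_zero two_pos a), natDegree_X, natDegree_X_pow_sub_C]
  rfl

theorem deg5 (a b : k) : (X * (X ^ 2 - C a) * (X ^ 2 - C b) : k[X]).natDegree = 5 := by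
  rw [natDegree_mul (mul_ne_zero X_ne_zero (X_pow_sub_C_ne_zero two_pos a))
    (X_pow_sub_C_ne_zero two_pos b), deg3, natDegree_X_pow_sub_C]
  rfl

theorem sepT {τ : k} (h0 : τ ≠ 0) (h1 : τ ≠ 1) : (X * (X - C 1) * (X - C τ) : k[X]).Separable := by
  have c : ∀ a b : k, a ≠ b → IsCoprime (X - C a : k[X]) (X - C b) := fun a b h =>
    isCoprime_X_sub_C_of_isUnit_sub (sub_ne_zero.mpr h).isUnit
  have c0 : ∀ b : k, b ≠ 0 → IsCoprime (X : k[X]) (X - C b) := fun b h => by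
    simpa using c 0 b h.symm
  exact (sepX.mul separable_X_sub_C (c0 1 one_ne_zero)).mul separable_X_sub_C
    ((c0 τ h0).mul_left (c 1 τ h1.symm))

theorem degT (τ : k) : (X * (X - C 1) * (X - C τ) : k[X]).natDegree = 3 := by
  rw [natDegree_mul (mul_ne_zero X_ne_zero (X_sub_C_ne_zero 1)) (X_sub_C_ne_zero τ),
    natDegree_mul X_ne_zero (X_sub_C_ne_zero 1), natDegree_X, natDegree_X_sub_C, natDegree_X_sub_C]

theorem Fm_swap12 (c a1 a2 a3 : k) : Fm c a1 a2 a3 = Fm c a2 a1 a3 := by unfold Fm; ring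
theorem Fm_swap23 (c a1 a2 a3 : k) : Fm c a1 a2 a3 = Fm c a1 a3 a2 := by unfold Fm; ring
theorem Fm_rot (c a1 a2 a3 : k) : Fm c a1 a2 a3 = Fm c a3 a1 a2 := by unfold Fm; ring

end sep

/-! ### the context -/

variable {C K k : Type} [Field C] [IsAlgClosed C] [CharZero C] [Field K]
  [Algebra C K] [Algebra (RatFunc C) K] [IsScalarTower C (RatFunc C) K]
  [FiniteDimensional (RatFunc C) K] [Algebra.IsSeparable (RatFunc C) K] [Field k] [IsAlgClosed k]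

/-- a valuation with odd residue characteristic, `s` trivial on the residue field -/
structure Vx (vC : Valuation C ℝ≥0) (ρC : C → k) (s : C ≃+* C) : Prop where
  hr : IsRes vC ρC
  two : vC 2 = 1
  pr : ∃ p : ℕ, p.Prime ∧ vC p < 1
  hs : ∀ c, vC c ≤ 1 → vC (s c - c) < 1

/-- `e` acts trivially on the torsion of order prime to the residue characteristic -/
def Triv (vC : Valuation C ℝ≥0) (e : SI C K C K) : Prop :=
  ∀ n : ℕ, vC n = 1 → ∀ y : Pic C K, n • y = 0 → e.pic y = y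

variable {vC : Valuation C ℝ≥0} {ρC : C → k} {e : SI C K C K} {c a1 a2 a3 ε : C} {z w : K}

theorem Vx.two' {s : C ≃+* C} (h : Vx vC ρC s) : (2 : k) ≠ 0 := by
  have h1 : ρC 2 = 2 := by
    rw [← one_add_one_eq_two, h.hr.add _ _ (by simp) (by simp), h.hr.one, one_add_one_eq_two]
  rw [← h1, h.hr.ne_zero_iff h.two.le]; exact h.two

theorem Vx.charts (h : Vx vC ρC e.s) (hc : c ≠ 0) (hy : Hyp (Fm c a1 a2 a3) z w) (hz : e.f z = z)
    (hw : e.f w = algebraMap C K ε * w) {ι : Type} [Fintype ι] {a π γ : ι → C} {G H : ι → k[X]}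
    (ch : ∀ i, Ch vC ρC (Fm c a1 a2 a3) (a i) (π i) (γ i) (G i) (H i))
    (hne : ∀ i j, i ≠ j → vC (π i) ≠ vC (π j) ∨ vC (π i) < vC (a i - a j))
    (hg : 3 ≤ ∑ i, ((H i).natDegree - 1) / 2) (ha : ∀ i, e.s (a i) = a i)
    (h3 : ∀ i, U vC e.s 1 (π i)) (h5 : ∀ i, U vC e.s ε (γ i)) : Triv vC e := by
  obtain ⟨p, hp, hpv⟩ := h.pr
  intro n hn y hy0
  refine nos_of_charts nos h.hr h.two' hp hpv hy ch hne (by rw [natDegree_Fm hc]; exact hg) e h.hs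
    (α := 1) (β := 0) (ε := ε) (by simpa using hz) hw h3 (fun i => by simp [ha i]) h5 hn hy0

theorem sqrt_ex (a : C) : ∃ x : C, x ^ 2 = a := IsAlgClosed.exists_pow_nat_eq a two_pos

theorem ne_of_sq {x a : C} (h : x ^ 2 = a) (ha : a ≠ 0) : x ≠ 0 := by
  rintro rfl; exact ha (by rw [← h]; ring)

theorem v_pos {x : C} (h : x ≠ 0) : 0 < vC x := pos_iff_ne_zero.mpr (by simpa using h)

/-- the residue of a ratio of two elements of the same size -/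
theorem Vx.ratio {s : C ≃+* C} (h : Vx vC ρC s) {a b : C} (hb : b ≠ 0) (h1 : vC a = vC b) :
    vC (a / b) = 1 ∧ ρC (a / b) ≠ 0 := by
  have : vC (a / b) = 1 := by rw [map_div₀, h1, div_self (v_pos hb).ne']
  exact ⟨this, (h.hr.ne_zero_iff this.le).mpr this⟩

theorem Vx.ratio_ne {s : C ≃+* C} (h : Vx vC ρC s) {a a' b : C} (hb : b ≠ 0) (h1 : vC a = vC b)
    (h2 : vC a' = vC b) (h3 : vC (a - a') = vC b) : ρC (a / b) ≠ ρC (a' / b) := by
  rw [ne_eq, h.hr.eq_iff (h.ratio hb h1).1.le (h.ratio hb h2).1.le, ← sub_div, map_div₀, h3,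
    div_self (v_pos hb).ne']
  exact lt_irrefl _

theorem Vx.ratio_one {s : C ≃+* C} (h : Vx vC ρC s) {a b : C} (hb : b ≠ 0) (h1 : vC a = vC b)
    (h3 : vC (b - a) = vC b) : (1 : k) ≠ ρC (a / b) := by
  have := h.ratio_ne hb rfl h1 h3
  rwa [div_self hb, h.hr.one] at this

/-- good reduction -/
theorem Vx.good (h : Vx vC ρC e.s) (hc : c ≠ 0) (hy : Hyp (Fm c a1 a2 a3) z w) (hz : e.f z = z)
    (hw : e.f w = algebraMap C K ε * w) (h1 : vC a1 = 1) (h2 : vC a2 = 1) (h3 : vC a3 = 1)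
    (h12 : vC (a1 - a2) = 1) (h13 : vC (a1 - a3) = 1) (h23 : vC (a2 - a3) = 1)
    (hγ : ∀ γ, vC γ ^ 2 = vC c → U vC e.s ε γ) : Triv vC e := by
  obtain ⟨γ, hg⟩ := sqrt_ex c
  have r : ∀ a, vC a = 1 → ρC (a / 1 ^ 2) ≠ 0 := fun a ha => (h.ratio (by simp) (by simpa)).2
  have r' : ∀ a b, vC a = 1 → vC b = 1 → vC (a - b) = 1 → ρC (a / 1 ^ 2) ≠ ρC (b / 1 ^ 2) :=
    fun a b ha hb hab => h.ratio_ne (by simp) (by simpa) (by simpa) (by simpa)
  have ch : Ch vC ρC (Fm c a1 a2 a3) 0 1 γ 1 (Fm 1 (ρC (a1 / 1 ^ 2)) (ρC (a2 / 1 ^ 2))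
      (ρC (a3 / 1 ^ 2))) :=
    ch0 h.hr one_ne_zero (ne_of_sq hg hc) (fac_on h.hr one_ne_zero (by simp [h1]))
      (fac_on h.hr one_ne_zero (by simp [h2])) (fac_on h.hr one_ne_zero (by simp [h3]))
      (by rw [hg]; ring) (by simp [Fm]) one_ne_zero
      (sep_Fm h.two' one_ne_zero (r _ h1) (r _ h2) (r _ h3) (r' _ _ h1 h2 h12) (r' _ _ h1 h3 h13)
        (r' _ _ h2 h3 h23)) (by rw [natDegree_Fm one_ne_zero]; norm_num)
  refine h.charts hc hy hz hw (ι := Unit) (fun _ => ch) (fun i j hij => absurd rfl hij) ?_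
    (fun _ => map_zero _) (fun _ => U.one) (fun _ => hγ γ (by rw [← map_pow, hg]))
  simp [natDegree_Fm]

/-- `|a₁| < |a₂| = |a₃|` -/
theorem Vx.one_two (h : Vx vC ρC e.s) (hc : c ≠ 0) (hy : Hyp (Fm c a1 a2 a3) z w) (hz : e.f z = z)
    (hw : e.f w = algebraMap C K ε * w) (h0 : a1 ≠ 0) (h1 : vC a1 < vC a2) (h2 : vC a3 = vC a2)
    (h23 : vC (a2 - a3) = vC a2)
    (u1 : ∀ π, vC π ^ 2 = vC a1 → U vC e.s 1 π) (u2 : ∀ π, vC π ^ 2 = vC a2 → U vC e.s 1 π)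
    (g1 : ∀ γ, vC γ ^ 4 = vC c ^ 2 * vC a1 ^ 3 * vC a2 ^ 4 → U vC e.s ε γ)
    (g2 : ∀ γ, vC γ ^ 4 = vC c ^ 2 * vC a2 ^ 7 → U vC e.s ε γ) : Triv vC e := by
  have n2 : a2 ≠ 0 := by rintro rfl; simp at h1
  have n3 : a3 ≠ 0 := by rintro rfl; exact (v_pos n2).ne (by simpa using h2)
  obtain ⟨π1, hp1⟩ := sqrt_ex a1
  obtain ⟨π2, hp2⟩ := sqrt_ex a2
  have m1 := ne_of_sq hp1 h0
  have m2 := ne_of_sq hp2 n2
  have v1 : vC π1 ^ 2 = vC a1 := by rw [← map_pow, hp1]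
  have v2 : vC π2 ^ 2 = vC a2 := by rw [← map_pow, hp2]
  obtain ⟨γ1, hg1⟩ := sqrt_ex (c * π1 * π1 ^ 2 * -a2 * -a3)
  obtain ⟨γ2, hg2⟩ := sqrt_ex (c * π2 * π2 ^ 2 * π2 ^ 2 * π2 ^ 2)
  have r3 := h.ratio n2 h2
  have c1 : Ch vC ρC (Fm c a1 a2 a3) 0 π1 γ1 1 (X * (X ^ 2 - Polynomial.C 1)) :=
    ch0 h.hr m1 (ne_of_sq hg1 (by simp [hc, m1, n2, n3])) (fac_self h.hr m1 hp1)
      (fac_out h.hr (by rwa [v1])) (fac_out h.hr (by rwa [v1, h2])) hg1 (by ring) one_ne_zero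
      (sep3 h.two' one_ne_zero) (by rw [deg3]; norm_num)
  have c2 : Ch vC ρC (Fm c a1 a2 a3) 0 π2 γ2 X
      (X * (X ^ 2 - Polynomial.C 1) * (X ^ 2 - Polynomial.C (ρC (a3 / π2 ^ 2)))) :=
    ch0 h.hr m2 (ne_of_sq hg2 (by simp [hc, m2])) (fac_in h.hr m2 (by rwa [v2]))
      (fac_self h.hr m2 hp2) (fac_on h.hr m2 (by rw [hp2]; exact r3.1.le)) hg2 (by ring) X_ne_zero
      (sep5 h.two' one_ne_zero (by rw [hp2]; exact r3.2)
        (by rw [hp2]; exact h.ratio_one n2 h2 h23)) (by rw [deg5]; norm_num)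
  have ne : vC π1 ≠ vC π2 := fun h0 => h1.ne (by rw [← v1, ← v2, h0])
  refine h.charts hc hy hz hw (ι := Fin 2) (a := ![0, 0]) (π := ![π1, π2]) (γ := ![γ1, γ2])
    (G := ![1, X]) (H := ![_, _]) (Fin.forall_fin_two.mpr ⟨c1, c2⟩) ?_ ?_
    (Fin.forall_fin_two.mpr ⟨map_zero _, map_zero _⟩) (Fin.forall_fin_two.mpr ⟨u1 _ v1, u2 _ v2⟩)
    (Fin.forall_fin_two.mpr ⟨g1 _ ?_, g2 _ ?_⟩)
  · simp [Fin.forall_fin_two, ne, ne.symm]
  · rw [Fin.sum_univ_two]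
    simp only [Matrix.cons_val_zero, Matrix.cons_val_one, deg3, deg5]
    norm_num
  · show vC γ1 ^ 4 = _
    rw [show 4 = 2 * 2 from rfl, pow_mul, ← map_pow, hg1]
    simp only [map_mul, map_pow, Valuation.map_neg, h2, ← v1]; ring
  · show vC γ2 ^ 4 = _
    rw [show 4 = 2 * 2 from rfl, pow_mul, ← map_pow, hg2]
    simp only [map_mul, map_pow, ← v2]; ring

/-- `|a₁| = |a₂| < |a₃|` -/
theorem Vx.two_one (h : Vx vC ρC e.s) (hc : c ≠ 0) (hy : Hyp (Fm c a1 a2 a3) z w) (hz : e.f z = z)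
    (hw : e.f w = algebraMap C K ε * w) (h0 : a1 ≠ 0) (h1 : vC a1 < vC a3) (h2 : vC a2 = vC a1)
    (h12 : vC (a1 - a2) = vC a1)
    (u1 : ∀ π, vC π ^ 2 = vC a1 → U vC e.s 1 π) (u2 : ∀ π, vC π ^ 2 = vC a3 → U vC e.s 1 π)
    (g1 : ∀ γ, vC γ ^ 4 = vC c ^ 2 * vC a1 ^ 5 * vC a3 ^ 2 → U vC e.s ε γ)
    (g2 : ∀ γ, vC γ ^ 4 = vC c ^ 2 * vC a3 ^ 7 → U vC e.s ε γ) : Triv vC e := by
  have n3 : a3 ≠ 0 := by rintro rfl; simp at h1
  obtain ⟨π1, hp1⟩ := sqrt_ex a1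
  obtain ⟨π2, hp2⟩ := sqrt_ex a3
  have m1 := ne_of_sq hp1 h0
  have m2 := ne_of_sq hp2 n3
  have v1 : vC π1 ^ 2 = vC a1 := by rw [← map_pow, hp1]
  have v2 : vC π2 ^ 2 = vC a3 := by rw [← map_pow, hp2]
  obtain ⟨γ1, hg1⟩ := sqrt_ex (c * π1 * π1 ^ 2 * π1 ^ 2 * -a3)
  obtain ⟨γ2, hg2⟩ := sqrt_ex (c * π2 * π2 ^ 2 * π2 ^ 2 * π2 ^ 2)
  have r2 := h.ratio h0 h2
  have c1 : Ch vC ρC (Fm c a1 a2 a3) 0 π1 γ1 1
      (X * (X ^ 2 - Polynomial.C 1) * (X ^ 2 - Polynomial.C (ρC (a2 / π1 ^ 2)))) :=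
    ch0 h.hr m1 (ne_of_sq hg1 (by simp [hc, m1, n3])) (fac_self h.hr m1 hp1)
      (fac_on h.hr m1 (by rw [hp1]; exact r2.1.le)) (fac_out h.hr (by rwa [v1])) hg1 (by ring)
      one_ne_zero (sep5 h.two' one_ne_zero (by rw [hp1]; exact r2.2)
        (by rw [hp1]; exact h.ratio_one h0 h2 h12)) (by rw [deg5]; norm_num)
  have c2 : Ch vC ρC (Fm c a1 a2 a3) 0 π2 γ2 (X ^ 2) (X * (X ^ 2 - Polynomial.C 1)) :=
    ch0 h.hr m2 (ne_of_sq hg2 (by simp [hc, m2])) (fac_in h.hr m2 (by rwa [v2]))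
      (fac_in h.hr m2 (by rwa [v2, h2])) (fac_self h.hr m2 hp2) hg2 (by ring)
      (pow_ne_zero 2 X_ne_zero) (sep3 h.two' one_ne_zero) (by rw [deg3]; norm_num)
  have ne : vC π1 ≠ vC π2 := fun h0 => h1.ne (by rw [← v1, ← v2, h0])
  refine h.charts hc hy hz hw (ι := Fin 2) (a := ![0, 0]) (π := ![π1, π2]) (γ := ![γ1, γ2])
    (G := ![1, X ^ 2]) (H := ![_, _]) (Fin.forall_fin_two.mpr ⟨c1, c2⟩) ?_ ?_
    (Fin.forall_fin_two.mpr ⟨map_zero _, map_zero _⟩) (Fin.forall_fin_two.mpr ⟨u1 _ v1, u2 _ v2⟩)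
    (Fin.forall_fin_two.mpr ⟨g1 _ ?_, g2 _ ?_⟩)
  · simp [Fin.forall_fin_two, ne, ne.symm]
  · rw [Fin.sum_univ_two]
    simp only [Matrix.cons_val_zero, Matrix.cons_val_one, deg3, deg5]
    norm_num
  · show vC γ1 ^ 4 = _
    rw [show 4 = 2 * 2 from rfl, pow_mul, ← map_pow, hg1]
    simp only [map_mul, map_pow, Valuation.map_neg, ← v1]; ring
  · show vC γ2 ^ 4 = _
    rw [show 4 = 2 * 2 from rfl, pow_mul, ← map_pow, hg2]
    simp only [map_mul, map_pow, ← v2]; ring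

theorem forall3 {p : Fin 3 → Prop} (h0 : p 0) (h1 : p 1) (h2 : p 2) : ∀ i, p i := by
  intro i; fin_cases i <;> assumption

/-- `|a₁| < |a₂| < |a₃|` -/
theorem Vx.chain (h : Vx vC ρC e.s) (hc : c ≠ 0) (hy : Hyp (Fm c a1 a2 a3) z w) (hz : e.f z = z)
    (hw : e.f w = algebraMap C K ε * w) (h0 : a1 ≠ 0) (h1 : vC a1 < vC a2) (h2 : vC a2 < vC a3)
    (u1 : ∀ π, vC π ^ 2 = vC a1 → U vC e.s 1 π) (u2 : ∀ π, vC π ^ 2 = vC a2 → U vC e.s 1 π)
    (u3 : ∀ π, vC π ^ 2 = vC a3 → U vC e.s 1 π)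
    (g1 : ∀ γ, vC γ ^ 4 = vC c ^ 2 * vC a1 ^ 3 * vC a2 ^ 2 * vC a3 ^ 2 → U vC e.s ε γ)
    (g2 : ∀ γ, vC γ ^ 4 = vC c ^ 2 * vC a2 ^ 5 * vC a3 ^ 2 → U vC e.s ε γ)
    (g3 : ∀ γ, vC γ ^ 4 = vC c ^ 2 * vC a3 ^ 7 → U vC e.s ε γ) : Triv vC e := by
  have n2 : a2 ≠ 0 := by rintro rfl; simp at h1
  have n3 : a3 ≠ 0 := by rintro rfl; simp at h2
  obtain ⟨π1, hp1⟩ := sqrt_ex a1
  obtain ⟨π2, hp2⟩ := sqrt_ex a2
  obtain ⟨π3, hp3⟩ := sqrt_ex a3
  have m1 := ne_of_sq hp1 h0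
  have m2 := ne_of_sq hp2 n2
  have m3 := ne_of_sq hp3 n3
  have v1 : vC π1 ^ 2 = vC a1 := by rw [← map_pow, hp1]
  have v2 : vC π2 ^ 2 = vC a2 := by rw [← map_pow, hp2]
  have v3 : vC π3 ^ 2 = vC a3 := by rw [← map_pow, hp3]
  obtain ⟨γ1, hg1⟩ := sqrt_ex (c * π1 * π1 ^ 2 * -a2 * -a3)
  obtain ⟨γ2, hg2⟩ := sqrt_ex (c * π2 * π2 ^ 2 * π2 ^ 2 * -a3)
  obtain ⟨γ3, hg3⟩ := sqrt_ex (c * π3 * π3 ^ 2 * π3 ^ 2 * π3 ^ 2)
  have h13 := h1.trans h2
  have S := sep3 h.two' (one_ne_zero (α := k))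
  have Dg : 0 < (X * (X ^ 2 - Polynomial.C 1) : k[X]).natDegree := by rw [deg3]; norm_num
  have c1 : Ch vC ρC (Fm c a1 a2 a3) 0 π1 γ1 1 (X * (X ^ 2 - Polynomial.C 1)) :=
    ch0 h.hr m1 (ne_of_sq hg1 (by simp [hc, m1, n2, n3])) (fac_self h.hr m1 hp1)
      (fac_out h.hr (by rwa [v1])) (fac_out h.hr (by rwa [v1])) hg1 (by ring) one_ne_zero S Dg
  have c2 : Ch vC ρC (Fm c a1 a2 a3) 0 π2 γ2 X (X * (X ^ 2 - Polynomial.C 1)) :=
    ch0 h.hr m2 (ne_of_sq hg2 (by simp [hc, m2, n3])) (fac_in h.hr m2 (by rwa [v2]))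
      (fac_self h.hr m2 hp2) (fac_out h.hr (by rwa [v2])) hg2 (by ring) X_ne_zero S Dg
  have c3 : Ch vC ρC (Fm c a1 a2 a3) 0 π3 γ3 (X ^ 2) (X * (X ^ 2 - Polynomial.C 1)) :=
    ch0 h.hr m3 (ne_of_sq hg3 (by simp [hc, m3])) (fac_in h.hr m3 (by rwa [v3]))
      (fac_in h.hr m3 (by rwa [v3])) (fac_self h.hr m3 hp3) hg3 (by ring)
      (pow_ne_zero 2 X_ne_zero) S Dg
  have e12 : vC π1 ≠ vC π2 := fun h0 => h1.ne (by rw [← v1, ← v2, h0])
  have e13 : vC π1 ≠ vC π3 := fun h0 => h13.ne (by rw [← v1, ← v3, h0])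
  have e23 : vC π2 ≠ vC π3 := fun h0 => h2.ne (by rw [← v2, ← v3, h0])
  refine h.charts hc hy hz hw (ι := Fin 3) (a := fun _ => 0) (π := ![π1, π2, π3])
    (γ := ![γ1, γ2, γ3]) (G := ![1, X, X ^ 2]) (H := fun _ => X * (X ^ 2 - Polynomial.C 1))
    (forall3 c1 c2 c3) ?_ ?_ (fun _ => map_zero _) (forall3 (u1 _ v1) (u2 _ v2) (u3 _ v3))
    (forall3 (g1 _ ?_) (g2 _ ?_) (g3 _ ?_))
  · exact forall3 (forall3 (fun h => absurd rfl h) (fun _ => Or.inl e12) (fun _ => Or.inl e13))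
      (forall3 (fun _ => Or.inl e12.symm) (fun h => absurd rfl h) (fun _ => Or.inl e23))
      (forall3 (fun _ => Or.inl e13.symm) (fun _ => Or.inl e23.symm) (fun h => absurd rfl h))
  · simp only [deg3]; simp
  · show vC γ1 ^ 4 = _
    rw [show 4 = 2 * 2 from rfl, pow_mul, ← map_pow, hg1]
    simp only [map_mul, map_pow, Valuation.map_neg, ← v1]; ring
  · show vC γ2 ^ 4 = _
    rw [show 4 = 2 * 2 from rfl, pow_mul, ← map_pow, hg2]
    simp only [map_mul, map_pow, Valuation.map_neg, ← v2]; ring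
  · show vC γ3 ^ 4 = _
    rw [show 4 = 2 * 2 from rfl, pow_mul, ← map_pow, hg3]
    simp only [map_mul, map_pow, ← v3]; ring

/-- the outer chart of the star -/
theorem Vx.outer {s : C ≃+* C} (h : Vx vC ρC s) (hc : c ≠ 0) {r1 r2 r3 : C} (e1 : r1 ^ 2 = a1)
    (e2 : r2 ^ 2 = a2) (e3 : r3 ^ 2 = a3) (h1 : vC r1 = 1) (h0 : r2 - r1 ≠ 0)
    (h21 : vC (r2 - r1) < 1) (h31 : vC (r3 - r1) = vC (r2 - r1))
    (h32 : vC (r2 - r3) = vC (r2 - r1)) :
    ∃ (γ : C) (τ : k), vC γ ^ 2 = vC c * vC (r2 - r1) ^ 3 ∧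
      Ch vC ρC (Fm c a1 a2 a3) r1 (r2 - r1) γ 1 (X * (X - Polynomial.C 1) * (X - Polynomial.C τ)) := by
  have hr := h.hr
  set π := r2 - r1 with hπ
  have n1 : r1 ≠ 0 := by rintro rfl; simp at h1
  have n2 : (2 : C) * r1 ≠ 0 := mul_ne_zero two_ne_zero n1
  have v2 : vC (2 * r1) = 1 := by rw [map_mul, h.two, h1, one_mul]
  obtain ⟨γ, hg⟩ := sqrt_ex (c * r1 * π ^ 3 * (2 * r1) ^ 3)
  have rt := h.ratio h0 h31
  have rt1 : (1 : k) ≠ ρC ((r3 - r1) / π) :=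
    h.ratio_one h0 h31 (by rw [← h32]; congr 1; rw [hπ]; ring)
  have L : ∀ b d : C, vC b < 1 → vC d = 1 →
      Rd vC ρC (1 + Polynomial.C (b / d) + Polynomial.C (π / d) * X) 1 := fun b d hb hd => by
    simpa using ((Rd.one hr).add hr (Rd.cst_lt hr (c := b / d) (by rwa [map_div₀, hd, div_one]))).add
      hr ((Rd.cst_lt hr (c := π / d) (by rwa [map_div₀, hd, div_one])).mul hr (Rd.X hr))
  refine ⟨γ, ρC ((r3 - r1) / π), ?_, Ch.mk' (F1 := (1 + Polynomial.C (0 / r1) +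
    Polynomial.C (π / r1) * X) * (X * (X - Polynomial.C 1) * (X - Polynomial.C ((r3 - r1) / π))) *
      (1 + Polynomial.C (0 / (2 * r1)) + Polynomial.C (π / (2 * r1)) * X) *
      (1 + Polynomial.C (π / (2 * r1)) + Polynomial.C (π / (2 * r1)) * X) *
      (1 + Polynomial.C ((r3 - r1) / (2 * r1)) + Polynomial.C (π / (2 * r1)) * X)) h0
      (ne_of_sq hg (by simp [hc, n1, h0])) ?_ ?_ one_ne_zero (sepT rt.2 rt1.symm)
      (by rw [degT]; norm_num)⟩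
  · rw [← map_pow, hg]
    simp only [map_mul, map_pow, h1, h.two]; ring
  · apply Polynomial.funext
    intro x
    have e4 : r2 = r1 + π := by rw [hπ]; ring
    clear_value π
    simp only [Fm, eval_comp, eval_mul, eval_add, eval_sub, eval_pow, eval_C, eval_X, eval_one, hg,
      ← e1, ← e2, ← e3, e4]
    field_simp
    ring
  · have := (((((L 0 r1 (by simp) h1).mul hr (((Rd.X hr).mul hr ((Rd.X hr).sub hr
      (Rd.cst' hr (c := 1) (by simp) hr.one))).mul hr ((Rd.X hr).sub hr (Rd.cst hr rt.1.le)))).mul hr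
      (L 0 _ (by simp) v2)).mul hr (L π _ h21 v2)).mul hr (L (r3 - r1) _ (by rwa [h31]) v2))
    exact this.congr rfl (by ring)

theorem Vx.near_sqrt {s : C ≃+* C} (h : Vx vC ρC s) {r a : C} (h1 : vC r = 1)
    (h2 : vC (a - r ^ 2) < 1) : ∃ x, x ^ 2 = a ∧ vC (x - r) < 1 ∧ vC (x + r) = 1 := by
  have key : ∀ x : C, vC (x - r) < 1 → vC (x + r) = 1 := fun x hx => by
    have : x + r = 2 * r + (x - r) := by ring
    rw [this, Valuation.map_add_eq_of_lt_left _ (by rwa [map_mul, h.two, h1, one_mul]), map_mul,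
      h.two, h1, one_mul]
  obtain ⟨x, hx⟩ := sqrt_ex a
  by_cases h3 : vC (x - r) < 1
  · exact ⟨x, hx, h3, key x h3⟩
  · have h4 : vC (-x - r) < 1 := by
      have e : a - r ^ 2 = -((x - r) * (-x - r)) := by rw [← hx]; ring
      rw [e, Valuation.map_neg, map_mul] at h2
      by_contra h5
      exact absurd h2 (not_lt.mpr (one_le_mul (not_lt.mp h3) (not_lt.mp h5)))
    exact ⟨-x, by rw [neg_sq, hx], h4, key _ h4⟩

/-- `a₁ ≡ a₂ ≡ a₃` units -/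
theorem Vx.star (h : Vx vC ρC e.s) (hc : c ≠ 0) (hy : Hyp (Fm c a1 a2 a3) z w) (hz : e.f z = z)
    (hw : e.f w = algebraMap C K ε * w) (h1 : vC a1 = 1) (hf : e.s a1 = a1) {R : ℝ≥0}
    (R0 : R ≠ 0) (R1 : R < 1) (h12 : vC (a1 - a2) = R) (h13 : vC (a3 - a1) = R)
    (h23 : vC (a3 - a2) = R) (u1 : ∀ π, vC π = R → U vC e.s 1 π)
    (g1 : ∀ γ, vC γ ^ 2 = vC c → U vC e.s ε γ)
    (g2 : ∀ γ, vC γ ^ 2 = vC c * R ^ 3 → U vC e.s ε γ) : Triv vC e := by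
  obtain ⟨r1, e1⟩ := sqrt_ex a1
  have n1 : a1 ≠ 0 := by rintro rfl; simp at h1
  have m1 := ne_of_sq e1 n1
  have v1 : vC r1 = 1 := by
    have : vC r1 ^ 2 = 1 := by rw [← map_pow, e1, h1]
    exact pow_left_injective two_ne_zero (by simpa using this)
  have h21 : vC (a2 - a1) = R := by rw [Valuation.map_sub_swap, h12]
  obtain ⟨r2, e2, l2, s2⟩ := h.near_sqrt (a := a2) v1 (by rwa [e1, h21])
  obtain ⟨r3, e3, l3, s3⟩ := h.near_sqrt (a := a3) v1 (by rwa [e1, h13])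
  have k2 : vC (r2 - r1) = R := by
    rw [← h21, ← e2, ← e1, sq_sub_sq, map_mul, s2, one_mul]
  have k3 : vC (r3 - r1) = R := by
    rw [← h13, ← e3, ← e1, sq_sub_sq, map_mul, s3, one_mul]
  have k4 : vC (r2 - r3) = R := by
    have : vC (r3 + r2) = 1 := by
      rw [show r3 + r2 = (r3 + r1) + (r2 - r1) by ring,
        Valuation.map_add_eq_of_lt_left _ (by rwa [s3]), s3]
    rw [Valuation.map_sub_swap, ← h23, ← e3, ← e2, sq_sub_sq, map_mul, this, one_mul]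
  have n21 : r2 - r1 ≠ 0 := fun h0 => R0 (by rw [← k2, h0, map_zero])
  obtain ⟨γ1, τ1, w1, c1⟩ := h.outer hc e1 e2 e3 v1 n21 l2 (by rw [k3, k2]) (by rw [k4, k2])
  have ng : ∀ x y : C, vC (-x - -y) = vC (x - y) := fun x y => by
    rw [show -x - -y = -(x - y) by ring, Valuation.map_neg]
  obtain ⟨γ2, τ2, w2, c2⟩ := h.outer (r1 := -r1) (r2 := -r2) (r3 := -r3) hc (by rw [neg_sq, e1])
    (by rw [neg_sq, e2]) (by rw [neg_sq, e3]) (by rw [Valuation.map_neg, v1])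
    (fun h0 => n21 (by linear_combination -h0)) (by rwa [ng]) (by rw [ng, ng, k3, k2])
    (by rw [ng, ng, k4, k2])
  obtain ⟨γ0, hg0⟩ := sqrt_ex (c * r1 * r1 ^ 2 * r1 ^ 2 * r1 ^ 2)
  have fe : ∀ a, vC (a - a1) < 1 → vC (a / r1 ^ 2 - 1) < 1 := fun a ha => by
    rw [e1, show a / a1 - 1 = (a - a1) / a1 by field_simp, map_div₀, h1, div_one]; exact ha
  have c0 : Ch vC ρC (Fm c a1 a2 a3) 0 r1 γ0 (X ^ 2 - Polynomial.C 1)
      (X * (X ^ 2 - Polynomial.C 1)) :=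
    ch0 h.hr m1 (ne_of_sq hg0 (by simp [hc, m1])) (fac_self h.hr m1 e1)
      (fac_eq h.hr m1 (fe _ (by rwa [h21]))) (fac_eq h.hr m1 (fe _ (by rwa [h13]))) hg0 (by ring)
      (X_pow_sub_C_ne_zero two_pos 1) (sep3 h.two' one_ne_zero) (by rw [deg3]; norm_num)
  have f1 : e.s r1 = r1 := (U.unit h.hs v1).fixed h.two
    (sq_eq_sq_iff_eq_or_eq_neg.mp (by rw [← map_pow, e1, hf]))
  have k2' : vC (-r2 - -r1) = R := by rw [ng, k2]
  have q1 : vC r1 ≠ vC (r2 - r1) := by rw [v1, k2]; exact R1.ne'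
  have q2 : vC r1 ≠ vC (-r2 - -r1) := by rw [v1, k2']; exact R1.ne'
  have q3 : vC (r1 - -r1) = 1 := by
    rw [show r1 - -r1 = 2 * r1 by ring, map_mul, h.two, v1, one_mul]
  refine h.charts hc hy hz hw (ι := Fin 3) (a := ![0, r1, -r1]) (π := ![r1, r2 - r1, -r2 - -r1])
    (γ := ![γ0, γ1, γ2]) (G := ![_, _, _]) (H := ![_, _, _])
    (forall3 c0 c1 c2) ?_ ?_ (forall3 (map_zero _) f1 (by show e.s (-r1) = -r1; rw [map_neg, f1]))
    (forall3 (U.unit h.hs v1) (u1 _ k2) (u1 _ k2'))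
    (forall3 (g1 _ ?_) (g2 _ (by rw [← k2]; exact w1)) (g2 _ (by rw [← k2']; exact w2)))
  · refine forall3 (forall3 (fun h => absurd rfl h) (fun _ => Or.inl q1) (fun _ => Or.inl q2))
      (forall3 (fun _ => Or.inl q1.symm) (fun h => absurd rfl h) (fun _ => Or.inr ?_))
      (forall3 (fun _ => Or.inl q2.symm) (fun _ => Or.inr ?_) (fun h => absurd rfl h))
    · show vC (r2 - r1) < vC (r1 - -r1)
      rw [q3, k2]; exact R1
    · show vC (-r2 - -r1) < vC (-r1 - r1)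
      rw [Valuation.map_sub_swap _ (-r1), q3, k2']; exact R1
  · rw [Fin.sum_univ_three]
    show 3 ≤ ((X * (X ^ 2 - Polynomial.C 1) : k[X]).natDegree - 1) / 2 +
      ((X * (X - Polynomial.C 1) * (X - Polynomial.C τ1) : k[X]).natDegree - 1) / 2 +
      ((X * (X - Polynomial.C 1) * (X - Polynomial.C τ2) : k[X]).natDegree - 1) / 2
    rw [deg3, degT, degT]
  · show vC γ0 ^ 2 = _
    rw [← map_pow, hg0]
    simp only [map_mul, map_pow, v1]; ring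

end Crest.Agent.T15.Rt
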