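import Mathlib
import Crest.Agent.T15.RtA_29
import Crest.Agent.T15.RtV_22
import Crest.Agent.T15.NfC_2

/-!
# Row 15, block F (helper29): the action of inertia on the prime-to-`p` torsion of `Pic Y`

`Rt.table`, `Rt.table_neg`.
-/

set_option autoImplicit false
set_option linter.all false

namespace Crest.Agent.T15.Rt

open Polynomial
open scoped NNReal
open Crest.Agent.R013.RR7_948 Crest.Agent.R013.RR8_948 Crest.Agent.R013.RR9_948
open Crest.Agent.R013.RR11_948 Crest.Agent.R013.PicD_398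
open Crest.Agent.R013.GR3_921 Crest.Agent.R013.GR4_921 Crest.Agent.R013.Frob1_914
open Crest.Agent.T15.Hy Crest.Agent.T15.Nf Crest.Agent.T15.Mo

section one

variable {C : Type*} [Field C] {v : Valuation C ℝ≥0} {P : Par C}

theorem unit_of {x u y c d : C} (e : x = c * u + y * d) (hc : v c = 1) (hu : v u = 1) (hy : v y < 1)
    (hd : v d ≤ 1) : v x = 1 := by
  rw [e]; exact add_small (by rw [map_mul, hc, hu, one_mul]) (vlt hy hd)

/-- at most one of the six forms is not a unit -/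
theorem Itg.one (h : Itg v P) (three : v 3 = 1) (cop : v P.p1 = 1 ∨ v P.p2 = 1) :
    (v P.p1 < 1 ∧ v P.p2 = 1 ∧ v P.p3 = 1 ∧ v P.d1 = 1 ∧ v P.d2 = 1 ∧ v P.d3 = 1) ∨
    (v P.d1 < 1 ∧ v P.p1 = 1 ∧ v P.p2 = 1 ∧ v P.p3 = 1 ∧ v P.d2 = 1 ∧ v P.d3 = 1) ∨
    (v P.p1 = 1 ∧ v P.d1 = 1 ∧
      ((v P.p2 = 1 ∧ v P.p3 = 1 ∧ (v P.d2 = 1 ∨ v P.d3 = 1)) ∨
        (v P.p2 * v P.p3 < 1 ∧ (v P.p2 = 1 ∨ v P.p3 = 1) ∧ v P.d2 = 1 ∧ v P.d3 = 1))) := by
  have s := P.sum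
  have o : v (1 : C) = 1 := map_one v
  have m1 : v (-1 : C) = 1 := by simp
  have two := h.two
  have m2 : v (-2 : C) = 1 := by rwa [Valuation.map_neg]
  have m3 : v (-3 : C) = 1 := by rwa [Valuation.map_neg]
  rcases h.p1.lt_or_eq with h1 | h1
  · have h2 := cop.resolve_left h1.ne
    exact Or.inl ⟨h1, h2, unit_of (by linear_combination s) m1 h2 h1 m1.le,
      unit_of (by unfold Par.d1; linear_combination -s) two h2 h1 o.le,
      unit_of (by unfold Par.d2; linear_combination s) m1 h2 h1 m2.le,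
      unit_of (by unfold Par.d3; ring) m1 h2 h1 o.le⟩
  rcases h.p2.lt_or_eq with h2 | h2
  · have h3 : v P.p3 = 1 := unit_of (by linear_combination s) m1 h1 h2 m1.le
    exact Or.inr (Or.inr ⟨h1, unit_of (by unfold Par.d1; linear_combination -s) o h1 h2 two.le,
      Or.inr ⟨by rwa [h3, mul_one], Or.inr h3,
        unit_of (by unfold Par.d2; linear_combination s) m2 h1 h2 m1.le,
        unit_of (by unfold Par.d3; ring) o h1 h2 m1.le⟩⟩)
  rcases h.p3.lt_or_eq with h3 | h3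
  · exact Or.inr (Or.inr ⟨h1, unit_of (by unfold Par.d1; ring) o h2 h3 m1.le,
      Or.inr ⟨by rwa [h2, one_mul], Or.inl h2,
        unit_of (by unfold Par.d2; ring) m1 h1 h3 o.le,
        unit_of (by unfold Par.d3; linear_combination s) m2 h2 h3 m1.le⟩⟩)
  rcases h.d1.lt_or_eq with k1 | k1
  · exact Or.inr (Or.inl ⟨k1, h1, h2, h3,
      unit_of (by unfold Par.d1 Par.d2; linear_combination -s) three h2 k1 m2.le,
      unit_of (by unfold Par.d1 Par.d3; linear_combination s) m3 h2 k1 o.le⟩)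
  refine Or.inr (Or.inr ⟨h1, k1, Or.inl ⟨h2, h3, ?_⟩⟩)
  rcases h.d2.lt_or_eq with k2 | k2
  · exact Or.inr (unit_of (by unfold Par.d2 Par.d3; linear_combination -s) three h1 k2 o.le)
  · exact Or.inl k2

end one

variable {C K k : Type} [Field C] [IsAlgClosed C] [CharZero C] [Field K]
  [Algebra C K] [Algebra (RatFunc C) K] [IsScalarTower C (RatFunc C) K]
  [FiniteDimensional (RatFunc C) K] [Algebra.IsSeparable (RatFunc C) K] [Field k] [IsAlgClosed k]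
  {vC : Valuation C ℝ≥0} {ρC : C → k} {P : Par C}

/-- the arithmetic data: integral coprime parameters, a fourth root `δ` of the twisting parameter -/
structure Dt (vC : Valuation C ℝ≥0) (s : C ≃+* C) (P : Par C) (ε δ : C) : Prop where
  p1 : vC P.p1 ≤ 1
  p2 : vC P.p2 ≤ 1
  cop : vC P.p1 = 1 ∨ vC P.p2 = 1
  three : vC 3 = 1
  fix : P.Fix s
  sq : ε * ε = 1
  hδ : vC δ ^ 4 * vC P.t ^ 2 = vC P.p1 * vC P.p2 * vC P.p3 * (vC P.d1 * vC P.d2 * vC P.d3)
  hu : U vC s ε δ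

namespace Dt

variable {s : C ≃+* C} {ε δ : C} (d : Dt vC s P ε δ)
include d

theorem uθ : U vC s 1 (δ * δ * P.t) := by
  have := (d.hu.mul d.hu).mul (U.fix P.ht d.fix.t)
  rwa [d.sq, one_mul] at this

theorem vθ : vC (δ * δ * P.t) ^ 2 =
    vC P.p1 * vC P.p2 * vC P.p3 * (vC P.d1 * vC P.d2 * vC P.d3) := by
  rw [← d.hδ, map_mul, map_mul]; ring

theorem uγ (m n : ℕ) : U vC s ε ((δ * δ * P.t) ^ m * (δ * δ * P.t)⁻¹ ^ n * δ⁻¹) := by
  have h1 : U vC s 1 (δ * δ * P.t)⁻¹ := by simpa using d.uθ.inv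
  have := ((d.uθ.pow m).mul (h1.pow n)).mul d.hu.inv
  rwa [one_mul, one_mul, ← eq_inv_of_mul_eq_one_left d.sq] at this

theorem uπ (m n : ℕ) : U vC s 1 ((δ * δ * P.t) ^ m * (δ * δ * P.t)⁻¹ ^ n) := by
  have h1 : U vC s 1 (δ * δ * P.t)⁻¹ := by simpa using d.uθ.inv
  simpa using (d.uθ.pow m).mul (h1.pow n)

/-- the normalised data -/
theorem ex (h : Vx vC ρC s) : ∃ T D : ℝ≥0, T ≠ 0 ∧ D ≠ 0 ∧ vC P.t = T / D ^ 2 ∧
    T ^ 2 = vC P.p1 * vC P.p2 * vC P.p3 * (vC P.d1 * vC P.d2 * vC P.d3) ∧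
    (∀ (r m n : ℕ) (π : C), r ≠ 0 → vC π ^ r = (T ^ m / T ^ n) ^ r → U vC s 1 π) ∧
    ∀ (r m n : ℕ) (γ : C), r ≠ 0 → vC γ ^ r = (T ^ m / T ^ n / D) ^ r → U vC s ε γ := by
  have hD : vC δ ≠ 0 := by simpa using d.hu.ne
  refine ⟨vC (δ * δ * P.t), vC δ, by simpa using d.uθ.ne, hD, ?_, d.vθ, fun r m n π hr hp => ?_,
    fun r m n γ hr hp => ?_⟩
  · rw [map_mul, map_mul]; field_simp
  · refine (d.uπ m n).of_pow h.hs hr ?_
    rw [hp, map_mul _ (_ ^ m), map_pow, map_pow, map_inv₀, inv_pow, div_eq_mul_inv]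
  · refine (d.uγ m n).of_pow h.hs hr ?_
    rw [hp, map_mul _ _ δ⁻¹, map_mul _ (_ ^ m), map_pow, map_pow, map_inv₀, map_inv₀, inv_pow,
      div_eq_mul_inv, div_eq_mul_inv]

theorem itg (h : Vx vC ρC s) : Itg vC P := ⟨h.two, d.p1, d.p2⟩

/-- inertia fixes `al` and `be` -/
theorem albe (h : Vx vC ρC s) : s P.al = P.al ∧ s P.be = P.be := by
  obtain ⟨T, D, T0, D0, ht, hT, uP, -⟩ := d.ex h
  have fa : ∀ m : ℕ, vC P.p2 ^ 3 * vC P.d2 = (T ^ m / T ^ 0) ^ 2 → s P.al = P.al := fun m hm =>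
    (uP 2 m 0 _ two_ne_zero (by rw [Itg.al_sq, hm])).fixed h.two
      (Par.Fix.al (s := (s : C →+* C)) d.fix)
  have fb : ∀ m : ℕ, vC P.p3 ^ 3 * vC P.d3 = (T ^ m / T ^ 0) ^ 2 → s P.be = P.be := fun m hm =>
    (uP 2 m 0 _ two_ne_zero (by rw [Itg.be_sq, hm])).fixed h.two
      (Par.Fix.be (s := (s : C →+* C)) d.fix)
  rcases (d.itg h).one d.three d.cop with ⟨-, h2, h3, k1, k2, k3⟩ | ⟨-, h1, h2, h3, k2, k3⟩ |
    ⟨h1, k1, ⟨h2, h3, k2 | k3⟩ | ⟨-, h2 | h3, k2, k3⟩⟩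
  · exact ⟨fa 0 (by simp [h2, k2]), fb 0 (by simp [h3, k3])⟩
  · exact ⟨fa 0 (by simp [h2, k2]), fb 0 (by simp [h3, k3])⟩
  · exact ⟨fa 0 (by simp [h2, k2]), fb 1 (by simpa [h1, h2, h3, k1, k2] using hT.symm)⟩
  · exact ⟨fa 1 (by simpa [h1, h2, h3, k1, k3] using hT.symm), fb 0 (by simp [h3, k3])⟩
  · have : vC P.p3 = T ^ 2 := by simpa [h1, h2, k1, k2, k3] using hT.symm
    exact ⟨fa 0 (by simp [h2, k2]), fb 3 (by rw [this, k3]; field_simp)⟩
  · have : vC P.p2 = T ^ 2 := by simpa [h1, h3, k1, k2, k3] using hT.symm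
    exact ⟨fa 3 (by rw [this, k2]; field_simp), fb 0 (by simp [h3, k3])⟩

end Dt

variable {e : SI C K C K} {ε δ : C} {z w : K}

theorem Dt.core (d : Dt vC e.s P ε δ) (h : Vx vC ρC e.s) (hy : Hyp P.F z w) (hz : e.f z = z)
    (hw : e.f w = algebraMap C K ε * w) : Triv vC e := by
  obtain ⟨T, D, T0, D0, ht, hT, uP, uG⟩ := d.ex h
  have I := d.itg h
  have hc : P.c ≠ 0 := P.c_ne
  have y0 : Hyp (Fm P.c P.a1 P.a2 P.a3) z w := hy
  have y1 : Hyp (Fm P.c P.a3 P.a1 P.a2) z w := Fm_rot P.c P.a1 P.a2 P.a3 ▸ y0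
  have y2 : Hyp (Fm P.c P.a2 P.a3 P.a1) z w := (Fm_rot P.c P.a2 P.a3 P.a1).symm ▸ y0
  have y3 : Hyp (Fm P.c P.a2 P.a1 P.a3) z w := Fm_swap12 P.c P.a1 P.a2 P.a3 ▸ y0
  have lt1 : ∀ {x : ℝ≥0}, x ≠ 0 → x < 1 → x < x⁻¹ := fun h0 h1 =>
    h1.trans ((one_lt_inv₀ (pos_iff_ne_zero.mpr h0)).mpr h1)
  have T2 : T ^ 2 ≠ 0 := pow_ne_zero 2 T0
  rcases I.one d.three d.cop with ⟨h1, h2, h3, k1, k2, k3⟩ | ⟨k1, h1, h2, h3, k2, k3⟩ |
    ⟨h1, k1, hh⟩
  · have q : vC P.p1 = T ^ 2 := by simpa [h2, h3, k1, k2, k3] using hT.symm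
    obtain ⟨v1, v2, hh⟩ := I.row1 h1 h2
    rw [q] at h1 v1 v2 hh
    have l3 : (T ^ 2) ^ 3 < T ^ 2 := by
      simpa using pow_lt_pow_right_of_lt_one₀ (pos_iff_ne_zero.mpr T2) h1 (show 1 < 3 by norm_num)
    rw [ht] at hh
    rcases hh with ⟨v3, vc⟩ | ⟨v3, vc⟩
    · refine h.chain hc y1 hz hw P.a3_ne (by rwa [v3, v1])
        (by rw [v1, v2]; exact lt1 T2 h1)
        (fun π hp => uP 2 3 0 π two_ne_zero (by rw [hp, v3]; field_simp))
        (fun π hp => uP 2 1 0 π two_ne_zero (by rw [hp, v1]; field_simp))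
        (fun π hp => uP 2 0 1 π two_ne_zero (by rw [hp, v2]; field_simp))
        (fun π hp => uG 4 6 0 π four_ne_zero (by rw [hp, v1, v2, v3, vc]; field_simp))
        (fun π hp => uG 4 3 0 π four_ne_zero (by rw [hp, v1, v2, vc]; field_simp))
        (fun π hp => uG 4 0 2 π four_ne_zero (by rw [hp, v2, vc]; field_simp))
    · refine h.chain hc hy hz hw P.a1_ne (by rw [v1, v2]; exact lt1 T2 h1)
        (by rw [v2, v3]; exact (inv_lt_inv₀ (by positivity) (by positivity)).mpr l3)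
        (fun π hp => uP 2 1 0 π two_ne_zero (by rw [hp, v1]; field_simp))
        (fun π hp => uP 2 0 1 π two_ne_zero (by rw [hp, v2]; field_simp))
        (fun π hp => uP 2 0 3 π two_ne_zero (by rw [hp, v3]; field_simp))
        (fun π hp => uG 4 0 0 π four_ne_zero (by rw [hp, v1, v2, v3, vc]; field_simp))
        (fun π hp => uG 4 0 3 π four_ne_zero (by rw [hp, v2, v3, vc]; field_simp))
        (fun π hp => uG 4 0 8 π four_ne_zero (by rw [hp, v3, vc]; field_simp))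
  · have q : vC P.d1 = T ^ 2 := by simpa [h1, h2, h3, k2, k3] using hT.symm
    obtain ⟨v1, v2, hh⟩ := I.rowd d.three k1 h2
    rw [q] at k1 v1 v2 hh
    rw [ht] at hh
    rcases hh with ⟨v3, v32, vc⟩ | ⟨v3, v31, vc⟩
    · refine h.two_one hc y2 hz hw P.a2_ne
        (by rw [v1, v2]; exact lt1 T2 k1) (by rw [v2, v3])
        (by rw [Valuation.map_sub_swap, v32, v2])
        (fun π hp => uP 2 1 0 π two_ne_zero (by rw [hp, v2]; field_simp))
        (fun π hp => uP 2 0 1 π two_ne_zero (by rw [hp, v1]; field_simp))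
        (fun π hp => uG 4 2 0 π four_ne_zero (by rw [hp, v1, v2, vc]; field_simp))
        (fun π hp => uG 4 0 3 π four_ne_zero (by rw [hp, v1, vc]; field_simp))
    · refine h.one_two hc y3 hz hw P.a2_ne
        (by rw [v1, v2]; exact lt1 T2 k1) (by rw [v1, v3])
        (by rw [Valuation.map_sub_swap, v31, v1])
        (fun π hp => uP 2 1 0 π two_ne_zero (by rw [hp, v2]; field_simp))
        (fun π hp => uP 2 0 1 π two_ne_zero (by rw [hp, v1]; field_simp))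
        (fun π hp => uG 4 3 0 π four_ne_zero (by rw [hp, v1, v2, vc]; field_simp))
        (fun π hp => uG 4 0 0 π four_ne_zero (by rw [hp, v1, vc]; field_simp))
  · obtain ⟨v1, v2, v3, v12, v31, v32, vc⟩ := I.row0 h1 k1
    have vc' : vC P.c = (D ^ 2)⁻¹ := by
      rw [h1, k1, one_mul, one_mul] at hT
      rw [← hT, ht] at vc
      refine eq_of_sq (mul_right_cancel₀ T2 ?_)
      rw [vc]; field_simp
    have g1 : ∀ γ, vC γ ^ 2 = vC P.c → U vC e.s ε γ := fun γ hp =>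
      uG 2 0 0 γ two_ne_zero (by rw [hp, vc']; field_simp)
    rcases hh with ⟨h2, h3, -⟩ | ⟨R1, -, k2, k3⟩
    · rw [h2, h3, one_mul] at v12 v31 v32
      exact h.good hc hy hz hw v1 v2 v3 v12 (by rwa [Valuation.map_sub_swap])
        (by rwa [Valuation.map_sub_swap]) g1
    · have q : vC P.p2 * vC P.p3 = T ^ 2 := by simpa [h1, k1, k2, k3] using hT.symm
      rw [q] at v12 v31 v32 R1
      exact h.star hc hy hz hw v1 (Par.Fix.a1 (s := (e.s : C →+* C)) d.fix) T2 R1 v12 v31 v32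
        (fun π hp => uP 1 2 0 π one_ne_zero (by rw [hp]; field_simp)) g1
        (fun π hp => uG 2 3 0 π two_ne_zero (by rw [hp, vc']; field_simp))

variable {A B2 u : K}

/-- inertia with `δ ↦ δ` acts trivially -/
theorem table (hY : IsY P A B2 u) (h : Vx vC ρC e.s) (d : Dt vC e.s P 1 δ) (hA : e.f A = A)
    (hB : e.f B2 = B2) (hu : e.f u = u) {n : ℕ} (hn : vC n = 1) {y : Pic C K} (hy0 : n • y = 0) :
    e.pic y = y := by
  obtain ⟨hz, hw⟩ := hY.act_pp (hY.act_SI e d.fix hA hB hu) (d.albe h).1 (d.albe h).2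
  exact d.core h hY.hyp hz (by simpa using hw) n hn y hy0

/-- inertia with `δ ↦ -δ` acts as `-1` -/
theorem table_neg (hY : IsY P A B2 u) (h : Vx vC ρC e.s) (d : Dt vC e.s P (-1) δ) (hA : e.f A = A)
    (hB : e.f B2 = B2) (hu : e.f u = u) {n : ℕ} (hn : vC n = 1) {y : Pic C K} (hy0 : n • y = 0) :
    e.pic y = -y := by
  obtain ⟨hz, hw⟩ := hY.act_pp (hY.act_SI e d.fix hA hB hu) (d.albe h).1 (d.albe h).2
  have hy := hY.hyp
  have hn0 : n ≠ 0 := by rintro rfl; simp at hn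
  have hs : (hy.siota.trans e).s = e.s := RingEquiv.ext fun _ => rfl
  have h1 := Dt.core (e := hy.siota.trans e) (hs.symm ▸ d) (hs.symm ▸ h) hy
    (by show e.f (hy.iota _) = _; rw [hy.iota_x]; exact hz)
    (by show e.f (hy.iota _) = _; rw [hy.iota_w, map_neg]; simpa using hw) n hn y hy0
  rw [SI.pic_trans, iota_pic hy (by rw [P.natDegree_F hY.two]; decide) (degPic_of_tors hn0 hy0),
    map_neg] at h1
  exact neg_eq_iff_eq_neg.mp h1

end Crest.Agent.T15.Rt
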