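import Crest.Agent.T15.RTDef_3

/-!
# Row 15, block R (helper78): the abstract `R = T` theorem with levels of bounded rank
-/

set_option autoImplicit false

noncomputable section

namespace Crest.Agent.T15.RT

open Matrix IsLocalRing Function
open Crest.Agent.T15.Ps Crest.Agent.T15.Pat Crest.Agent.T15.Blr
open Crest.Agent.R018.Placesx484

lemma twg_mono {p n n' : ℕ} {ι Δ : Type*} [Fintype ι] [CommGroup Δ] {δ : ι → Δ} (h : TWg p n' δ)
    (hn : n ≤ n') : TWg p n δ :=
  ⟨h.gen, fun k k' hk i => (h.rel k k' hk i).of_dvd (pow_dvd_pow p hn), h.ord⟩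

section lev
variable {F E : Type} [Field F] [Field E] [Algebra F E] {O : Type} [CommRing O] [IsLocalRing O]
  {p n r e : ℕ} {ρ : (E ≃ₐ[F] E) →* M2 O} {Λ : Type} {Pl : Λ → Place E} {d : Type}
  {O' : Type} [CommRing O'] [Algebra O O'] {C : Type} [CommRing C] [Algebra O C]
  {C' : Type} [CommRing C'] {q' : O' →+* C'} {Δ : Type} [CommGroup Δ] {del : Fin r → Δ}
  {δ : (E ≃ₐ[F] E) →* Δ} {H : Type} [AddCommGroup H] [Module O H] [Module C H]
  {ρH : (E ≃ₐ[F] E) →* Module.End O H} {A : Type} [CommRing A] [Algebra O A]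
  {ac : A →ₐ[O] Module.End O H} {dia : Δ →* A} {t : (E ≃ₐ[F] E) → A} {θ : A →+* C'}

/-- lower the level and rename the basis -/
theorem Lev.mono (h : Lev p n r e ρ Pl d C q' del δ ρH ac dia t θ) {n' : ℕ} (hn : n' ≤ n)
    {d' : Type} (σ : d' ≃ d) : Lev p n' r e ρ Pl d' C q' del δ ρH ac dia t θ :=
  { h with
    ker := h.ker.trans (Ideal.pow_le_pow_right (by omega))
    twg := twg_mono h.twg hn
    free := by
      obtain ⟨m, h1, h2⟩ := h.free
      refine ⟨m ∘ σ, h1.comp (Prod.map id σ) (Function.injective_id.prodMap σ.injective), ?_⟩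
      rw [← h2]
      congr 1
      exact (Function.surjective_id.prodMap σ.surjective).range_comp
        fun q : Δ × d => ac (dia q.1) (m q.2) }

end lev

section rank
variable {C Δ H d Y : Type*} [CommRing C] [Fintype Δ] [AddCommGroup H] [Module C H]
  [AddCommGroup Y]

/-- the rank over the group ring is bounded through a map that detects the norm -/
theorem card_le_of_kap [Finite C] [Nontrivial C] [Nonempty Δ] [Finite d] [Finite Y] {a : Δ → H →+ H}
    (ha : ∀ x (c : C) v, a x (c • v) = c • a x v) {m : d → H}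
    (hm : LinearIndependent C fun q : Δ × d => a q.1 (m q.2)) (kap : H →+ Y)
    (hk : ∀ v, kap v = 0 → ∑ x, a x v = 0) {s : ℕ} (hs : Nat.card Y ≤ Nat.card C ^ s) :
    Nat.card d ≤ s := by
  classical
  have := Fintype.ofFinite d
  have hinj : Injective fun c : d → C => kap (∑ i, c i • m i) := fun c c' h => by
    have h1 := hk (∑ i, (c i - c' i) • m i) (by
      simp only [sub_smul, Finset.sum_sub_distrib, map_sub]; exact sub_eq_zero.2 h)
    simp only [map_sum, ha] at h1
    have h2 := Fintype.linearIndependent_iff.1 hm (fun q => c q.2 - c' q.2)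
      (by rw [Fintype.sum_prod_type]; exact h1)
    exact funext fun i => sub_eq_zero.1 (h2 (Classical.arbitrary Δ, i))
  have h3 := (Nat.card_le_card_of_injective _ hinj).trans hs
  rw [Nat.card_fun] at h3
  exact (Nat.pow_le_pow_iff_right Finite.one_lt_card).1 h3

omit [Fintype Δ] in
lemma nonempty_of_span {f : Δ × d → H} (h : Submodule.span C (Set.range f) = ⊤) {v : H}
    (hv : v ≠ 0) : Nonempty d := by
  by_contra h0
  have : IsEmpty d := not_nonempty_iff.1 h0
  rw [Set.range_eq_empty, Submodule.span_empty] at h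
  exact hv ((Submodule.mem_bot C).1 (h ▸ Submodule.mem_top))

end rank

/-- the data of one level, with the relation `P` -/
def LevE {F E : Type} [Field F] [Field E] [Algebra F E] {O : Type} [CommRing O] [IsLocalRing O]
    {O' : Type} [CommRing O'] [Algebra O O'] (J' : Ideal O') (p n r e s : ℕ)
    (ρ : (E ≃ₐ[F] E) →* M2 O) {Λ : Type} (Pl : Λ → Place E) (P : MvPolynomial (E ≃ₐ[F] E) O) :
    Prop :=
  ∃ (d C C' Δ H A : Type) (_ : Finite d) (_ : Nonempty d) (_ : CommRing C) (_ : Algebra O C)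
    (_ : CommRing C') (_ : CommGroup Δ) (_ : Fintype Δ) (_ : AddCommGroup H) (_ : Module O H)
    (_ : Module C H) (_ : IsScalarTower O C H) (_ : CommRing A) (_ : Algebra O A)
    (q' : O' →+* C') (del : Fin r → Δ) (δ : (E ≃ₐ[F] E) →* Δ)
    (ρH : (E ≃ₐ[F] E) →* Module.End O H) (ac : A →ₐ[O] Module.End O H) (dia : Δ →* A)
    (t : (E ≃ₐ[F] E) → A) (θ : A →+* C'),
    Nat.card d ≤ s ∧ Surjective q' ∧ RingHom.ker q' ≤ J' ^ n ∧
      Lev p n r e ρ Pl d C q' del δ ρH ac dia t θ ∧
      ∑ x, ac (dia x * MvPolynomial.aeval t P) = 0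

/-- **`R = T` from levels of bounded rank** -/
theorem rt_ex (h : RTStmt) {F E : Type} [Field F] [NumberField F] [Field E] [CharZero E]
    [IsAlgClosed E] [Algebra.IsAlgebraic ℚ E] [Algebra F E] [IsGalois F E]
    {O : Type} [CommRing O] [IsDomain O] [IsLocalRing O] [IsNoetherianRing O]
    {O' : Type} [CommRing O'] [IsDomain O'] [CharZero O'] [Algebra O O'] {J' : Ideal O'}
    {p r e s : ℕ} {ρ : (E ≃ₐ[F] E) →* M2 O} {Λ : Type} [Finite Λ] {Pl : Λ → Place E}
    (hG : Glob p ρ Pl) (hJ : Cpt J') {P : MvPolynomial (E ≃ₐ[F] E) O}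
    (hL : ∀ n, LevE J' p n r e s ρ Pl P) : MvPolynomial.aeval (fun g => (ρ g).trace) P = 0 := by
  choose d C C' Δ H A i1 i2 i3 i4 i5 i6 i7 i8 i9 i10 i11 i12 i13 q' del δ ρH ac dia t θ
    h1 h2 h3 h4 h5 using hL
  obtain ⟨k, hk⟩ := Finite.exists_infinite_fiber
    fun n => (⟨Nat.card (d n), Nat.lt_succ_of_le (h1 n)⟩ : Fin (s + 1))
  have hinf := Set.infinite_coe_iff.1 hk
  choose f hf hlt using fun n => hinf.exists_gt n
  have hc : ∀ n, Nat.card (d (f n)) = k := fun n => congrArg Fin.val (hf n)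
  have hne : Nonempty (Fin k) := Fin.pos_iff_nonempty.1 (hc 0 ▸ Nat.card_pos)
  exact h F E O O' J' p r e ρ Λ Pl (Fin k) (fun n => C (f n)) (fun n => C' (f n))
    (fun n => Δ (f n)) (fun n => H (f n)) (fun n => A (f n)) (fun n => q' (f n))
    (fun n => del (f n)) (fun n => δ (f n)) (fun n => ρH (f n)) (fun n => ac (f n))
    (fun n => dia (f n)) (fun n => t (f n)) (fun n => θ (f n)) hG
    ⟨hJ, fun n => h2 _, fun n => (h3 _).trans (Ideal.pow_le_pow_right (hlt n).le)⟩
    (fun n => (h4 (f n)).mono (hlt n).le (Finite.equivFinOfCardEq (hc n)).symm) P fun n => h5 _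

end Crest.Agent.T15.RT

end
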