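import Mathlib
import Crest.Agent.T15.NfC_2
import Crest.Agent.T15.MoB_29

/-!
# Row 15, block F (helper26): the rows GOOD and STAR of the reduction table

`tab_good`, `tab_star` for `F = c X (X² - a₁) (X² - a₂) (X² - a₃)`.
-/

set_option autoImplicit false
set_option linter.all false

namespace Crest.Agent.T15.Rt

open Polynomial
open scoped NNReal
open Crest.Agent.R013.GR4_921
open Crest.Agent.T15.Nf Crest.Agent.T15.Mo

section ch

variable {C k : Type*} [Field C] [Field k] {vC : Valuation C ℝ≥0} {ρC : C → k}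

theorem v_sqrt26 {γ u ϖ : C} {m : ℤ} (h : γ ^ 2 = u) (hu : vC u = vC ϖ ^ (2 * m)) :
    vC γ = vC ϖ ^ m := by
  apply (pow_left_inj₀ zero_le zero_le two_ne_zero).mp
  rw [← map_pow, h, hu, mul_comm, zpow_mul]
  norm_cast

theorem rd_sq26 (hr : IsRes vC ρC) {a : C} (ha : vC a ≤ 1) :
    Rd vC ρC (X ^ 2 - Polynomial.C a) (X ^ 2 - Polynomial.C (ρC a)) :=
  ((Rd.X hr).pow hr 2).sub hr (Rd.cst hr ha)

theorem comp_unit26 {c γ : C} (a1 a2 a3 : C) (hγ : γ ^ 2 = c) :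
    (Fm c a1 a2 a3).comp (Polynomial.C 0 + Polynomial.C 1 * X) = Polynomial.C (γ ^ 2) *
      (X * (X ^ 2 - Polynomial.C a1) * (X ^ 2 - Polynomial.C a2) * (X ^ 2 - Polynomial.C a3)) := by
  rw [hγ, map_zero, map_one, zero_add, one_mul, comp_X, Fm]
  ring

/-- the unit disc, good reduction -/
theorem ch_good (hr : IsRes vC ρC) (h2 : (2 : k) ≠ 0) {c a1 a2 a3 γ : C} (hc : c ≠ 0)
    (hγ : γ ^ 2 = c) (h1 : vC a1 = 1) (h2' : vC a2 = 1) (h3 : vC a3 = 1)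
    (h12 : vC (a1 - a2) = 1) (h13 : vC (a1 - a3) = 1) (h23 : vC (a2 - a3) = 1) :
    Ch vC ρC (Fm c a1 a2 a3) 0 1 γ 1 (Fm 1 (ρC a1) (ρC a2) (ρC a3)) := by
  have ne : ∀ {a b : C}, vC a = 1 → vC b = 1 → vC (a - b) = 1 → ρC a ≠ ρC b := by
    intro a b ha hb hab h
    rw [hr.eq_iff ha.le hb.le, hab] at h
    exact lt_irrefl _ h
  refine Ch.mk' one_ne_zero (by rintro rfl; exact hc (by simpa using hγ.symm))
    (comp_unit26 a1 a2 a3 hγ) ?_ one_ne_zero ?_ ?_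
  · refine ((((Rd.X hr).mul hr (rd_sq26 hr h1.le)).mul hr (rd_sq26 hr h2'.le)).mul hr
      (rd_sq26 hr h3.le)).congr rfl ?_
    simp [Fm]
  · exact sep_Fm h2 one_ne_zero ((hr.ne_zero_iff h1.le).mpr h1) ((hr.ne_zero_iff h2'.le).mpr h2')
      ((hr.ne_zero_iff h3.le).mpr h3) (ne h1 h2' h12) (ne h1 h3 h13) (ne h2' h3 h23)
  · rw [natDegree_Fm one_ne_zero]; norm_num

theorem deg_mid26 (a : k) : (X * (X ^ 2 - Polynomial.C a) : k[X]).natDegree = 3 := by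
  rw [natDegree_mul X_ne_zero (X_pow_sub_C_ne_zero two_pos a), natDegree_X, natDegree_X_pow_sub_C]
  rfl

/-- the unit disc, three congruent `a_i` -/
theorem ch_mid (hr : IsRes vC ρC) (h2 : (2 : k) ≠ 0) {c a1 a2 a3 γ : C} (hc : c ≠ 0)
    (hγ : γ ^ 2 = c) (h1 : vC a1 = 1) (h12 : vC (a1 - a2) < 1) (h13 : vC (a1 - a3) < 1) :
    Ch vC ρC (Fm c a1 a2 a3) 0 1 γ (X ^ 2 - Polynomial.C (ρC a1))
      (X * (X ^ 2 - Polynomial.C (ρC a1))) := by
  have le : ∀ {b : C}, vC (a1 - b) < 1 → vC b ≤ 1 := by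
    intro b hb
    have : b = a1 - (a1 - b) := by ring
    rw [this]
    exact (Valuation.map_sub _ _ _).trans (max_le h1.le hb.le)
  have e2 : ρC a1 = ρC a2 := (hr.eq_iff h1.le (le h12)).mpr h12
  have e3 : ρC a1 = ρC a3 := (hr.eq_iff h1.le (le h13)).mpr h13
  have h0 : ρC a1 ≠ 0 := (hr.ne_zero_iff h1.le).mpr h1
  refine Ch.mk' one_ne_zero (by rintro rfl; exact hc (by simpa using hγ.symm))
    (comp_unit26 a1 a2 a3 hγ) ?_ (X_pow_sub_C_ne_zero two_pos _) ?_ ?_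
  · refine ((((Rd.X hr).mul hr (rd_sq26 hr h1.le)).mul hr (rd_sq26 hr (le h12))).mul hr
      (rd_sq26 hr (le h13))).congr rfl ?_
    rw [← e2, ← e3]
    ring
  · have := cop_X (c := (1 : k)) one_ne_zero h0
    rw [map_one, one_mul] at this
    exact separable_X.mul (separable_X_pow_sub_C _ (by exact_mod_cast h2) h0) this
  · rw [deg_mid26]; norm_num

theorem deg_side26 (t : k) :
    ((X - Polynomial.C 0) * (X - Polynomial.C 1) * (X - Polynomial.C t) : k[X]).natDegree = 3 := by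
  rw [natDegree_mul (mul_ne_zero (X_sub_C_ne_zero _) (X_sub_C_ne_zero _)) (X_sub_C_ne_zero _),
    natDegree_mul (X_sub_C_ne_zero _) (X_sub_C_ne_zero _)]
  simp only [natDegree_X_sub_C]

/-- the small disc around a square root of `a₁` -/
theorem ch_side (hr : IsRes vC ρC) (h2 : (2 : k) ≠ 0) (hv2 : vC 2 = 1) {c a1 a2 a3 r γ : C}
    (hc : c ≠ 0) (hr2 : r ^ 2 = a1) (hγ : γ ^ 2 = c * r * (a2 - a1) ^ 3) (h1 : vC r = 1)
    (h0 : a2 - a1 ≠ 0) (h12 : vC (a2 - a1) < 1) (h13 : vC (a3 - a1) = vC (a2 - a1))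
    (h23 : vC (a3 - a2) = vC (a2 - a1)) :
    Ch vC ρC (Fm c a1 a2 a3) r ((a2 - a1) / (2 * r)) γ 1
      ((X - Polynomial.C 0) * (X - Polynomial.C 1) *
        (X - Polynomial.C (ρC ((a3 - a1) / (a2 - a1))))) := by
  have hr0 : r ≠ 0 := by rintro rfl; simp at h1
  have h20 : (2 : C) ≠ 0 := by intro h; rw [h] at hv2; simp at hv2
  obtain ⟨p, hp⟩ : ∃ p, a2 - a1 = p := ⟨_, rfl⟩
  obtain ⟨t, ht⟩ : ∃ t, (a3 - a1) / p = t := ⟨_, rfl⟩
  rw [hp] at h0 h12 h13 h23 hγ ⊢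
  rw [ht]
  have hvp : vC p ≠ 0 := by simpa using h0
  have ea2 : a2 = r ^ 2 + p := by rw [hr2, ← hp]; ring
  have ea3 : a3 = r ^ 2 + p * t := by rw [hr2, ← ht]; field_simp; ring
  have vt : vC t = 1 := by rw [← ht, map_div₀, h13, div_self hvp]
  have vt1 : vC (t - 1) = 1 := by
    have : t - 1 = (a3 - a2) / p := by rw [ea2, ea3]; field_simp; ring
    rw [this, map_div₀, h23, div_self hvp]
  obtain ⟨q, hq⟩ : ∃ q, p / (4 * r ^ 2) = q := ⟨_, rfl⟩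
  have vq : vC q < 1 := by
    rw [← hq, show (4 : C) = 2 * 2 by norm_num]
    simpa [hv2, h1] using h12
  have ep : p = 4 * r ^ 2 * q := by
    rw [← hq]
    have : (4 : C) ≠ 0 := by rw [show (4 : C) = 2 * 2 by norm_num]; exact mul_ne_zero h20 h20
    field_simp
  have eπ : p / (2 * r) = 2 * r * q := by rw [ep]; field_simp; ring
  have rq : Rd vC ρC (Polynomial.C q * X ^ 2) 0 := by
    simpa using (Rd.cst_lt hr vq).mul hr ((Rd.X hr).pow hr 2)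
  have rl : ∀ {s : C}, vC s ≤ 1 → Rd vC ρC (X - Polynomial.C s + Polynomial.C q * X ^ 2)
      (X - Polynomial.C (ρC s)) := fun hs => by
    simpa using ((Rd.X hr).sub hr (Rd.cst hr hs)).add hr rq
  have r0 : Rd vC ρC (1 + 2 * (Polynomial.C q * X)) 1 := by
    simpa using (Rd.one hr).add hr ((Rd.natCast hr 2).mul hr ((Rd.cst_lt hr vq).mul hr (Rd.X hr)))
  have t0 : ρC t ≠ 0 := (hr.ne_zero_iff vt.le).mpr vt
  have t1 : ρC t ≠ 1 := by
    intro h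
    rw [← hr.one, hr.eq_iff vt.le (by simp), vt1] at h
    exact lt_irrefl _ h
  refine Ch.mk' (F1 := (1 + 2 * (Polynomial.C q * X)) *
      ((X - Polynomial.C 0 + Polynomial.C q * X ^ 2) * (X - Polynomial.C 1 + Polynomial.C q * X ^ 2) *
        (X - Polynomial.C t + Polynomial.C q * X ^ 2)))
    (div_ne_zero h0 (mul_ne_zero h20 hr0)) ?_ ?_ ?_ one_ne_zero ?_ ?_
  · rintro rfl
    exact mul_ne_zero (mul_ne_zero hc hr0) (pow_ne_zero 3 h0) (by simpa using hγ.symm)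
  · rw [hγ, eπ, ← hr2, ea2, ea3, ep]
    simp only [Fm, mul_comp, sub_comp, pow_comp, X_comp, C_comp]
    simp only [map_mul, map_add, map_pow, map_ofNat, map_one, map_zero]
    ring
  · refine (r0.mul hr (((rl (s := 0) (by simp)).mul hr (rl (s := 1) (by simp))).mul hr
      (rl vt.le))).congr rfl ?_
    rw [hr.zero, hr.one, one_pow]
  · refine (separable_X_sub_C.mul separable_X_sub_C ?_).mul separable_X_sub_C ?_
    · exact isCoprime_X_sub_C_of_isUnit_sub (by simp)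
    · exact (isCoprime_X_sub_C_of_isUnit_sub (by simpa using t0)).mul_left
        (isCoprime_X_sub_C_of_isUnit_sub (isUnit_iff_ne_zero.mpr (sub_ne_zero.mpr t1.symm)))
  · rw [deg_side26]; norm_num

end ch

variable {C k : Type} [Field C] [IsAlgClosed C] [Field k] {vC : Valuation C ℝ≥0} {ρC : C → k}

/-- GOOD row -/
theorem tab_good (hr : IsRes vC ρC) (h2 : (2 : k) ≠ 0) {c a1 a2 a3 ϖ : C} (h0 : ϖ ≠ 0) {m : ℤ}
    (h1 : vC a1 = 1) (h2' : vC a2 = 1) (h3 : vC a3 = 1)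
    (h12 : vC (a1 - a2) = 1) (h13 : vC (a1 - a3) = 1) (h23 : vC (a2 - a3) = 1)
    (hc : vC c = vC ϖ ^ (2 * m)) :
    Tab vC ρC (Fm c a1 a2 a3) ϖ fun j m' => j = 0 ∧ m' = m := by
  have hv : vC ϖ ≠ 0 := by simpa using h0
  have hc0 : c ≠ 0 := by
    rintro rfl
    exact zpow_ne_zero _ hv (by simpa using hc.symm)
  obtain ⟨γ, hγ⟩ := IsAlgClosed.exists_pow_nat_eq c two_pos
  refine ⟨Unit, inferInstance, fun _ => 0, fun _ => 1, fun _ => γ, fun _ => 1,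
    fun _ => Fm 1 (ρC a1) (ρC a2) (ρC a3), fun _ => 0, fun _ => m,
    fun _ => ch_good hr h2 hc0 hγ h1 h2' h3 h12 h13 h23, fun i i' h => absurd rfl h, ?_,
    fun _ => ⟨Or.inl rfl, by simp, v_sqrt26 hγ hc, rfl, rfl⟩⟩
  simp [natDegree_Fm hc0, natDegree_Fm (one_ne_zero : (1 : k) ≠ 0)]

/-- STAR row -/
theorem tab_star (hr : IsRes vC ρC) (h2 : (2 : k) ≠ 0) {c a1 a2 a3 ϖ : C} (h0 : ϖ ≠ 0) {j m : ℤ}
    (h1 : vC a1 = 1) (hq : ∃ q : ℚ, a1 = q) (hlt : vC (a1 - a2) < 1)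
    (h12 : vC (a1 - a2) = vC ϖ ^ (2 * j)) (h13 : vC (a1 - a3) = vC ϖ ^ (2 * j))
    (h23 : vC (a2 - a3) = vC ϖ ^ (2 * j)) (hc : vC c = vC ϖ ^ (2 * m)) :
    Tab vC ρC (Fm c a1 a2 a3) ϖ fun j' m' =>
      (j' = 0 ∧ m' = m) ∨ (j' = 2 * j ∧ m' = m + 3 * j) := by
  have hv : vC ϖ ≠ 0 := by simpa using h0
  have hv2 := v_two hr h2
  have hc0 : c ≠ 0 := by
    rintro rfl
    exact zpow_ne_zero _ hv (by simpa using hc.symm)
  have hp : vC (a2 - a1) = vC ϖ ^ (2 * j) := by rw [Valuation.map_sub_swap, h12]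
  have hp1 : vC (a2 - a1) < 1 := by rwa [Valuation.map_sub_swap]
  have hp0 : a2 - a1 ≠ 0 := by
    intro h
    rw [h, map_zero] at hp
    exact zpow_ne_zero _ hv hp.symm
  obtain ⟨q, hq⟩ := hq
  obtain ⟨γ, hγ⟩ := IsAlgClosed.exists_pow_nat_eq c two_pos
  obtain ⟨r, hr2⟩ := IsAlgClosed.exists_pow_nat_eq a1 two_pos
  have hr2' : (-r) ^ 2 = a1 := by rw [neg_sq, hr2]
  obtain ⟨γ1, hγ1⟩ := IsAlgClosed.exists_pow_nat_eq (c * r * (a2 - a1) ^ 3) two_pos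
  obtain ⟨γ2, hγ2⟩ := IsAlgClosed.exists_pow_nat_eq (c * -r * (a2 - a1) ^ 3) two_pos
  have vr : vC r = 1 := by
    rw [← hr2, map_pow] at h1
    exact (pow_eq_one_iff_of_nonneg zero_le two_ne_zero).mp h1
  have vr' : vC (-r) = 1 := by rwa [Valuation.map_neg]
  have c0 := ch_mid hr h2 hc0 hγ h1 hlt (a3 := a3) (by rwa [h13, ← h12])
  have h31 : vC (a3 - a1) = vC (a2 - a1) := by rw [Valuation.map_sub_swap, h13, hp]
  have h32 : vC (a3 - a2) = vC (a2 - a1) := by rw [Valuation.map_sub_swap, h23, hp]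
  have c1 := ch_side hr h2 hv2 hc0 hr2 hγ1 vr hp0 hp1 h31 h32
  have c2 := ch_side hr h2 hv2 hc0 hr2' hγ2 vr' hp0 hp1 h31 h32
  have vπ : ∀ {s : C}, vC s = 1 → vC ((a2 - a1) / (2 * s)) = vC (a2 - a1) := fun hs => by
    rw [map_div₀, map_mul, hv2, hs, one_mul, div_one]
  have vγ : ∀ {s g : C}, vC s = 1 → g ^ 2 = c * s * (a2 - a1) ^ 3 → vC g = vC ϖ ^ (m + 3 * j) :=
    fun hs hg => v_sqrt26 hg (by
      rw [map_mul, map_mul, map_pow, hs, mul_one, hc, hp, ← zpow_natCast, ← zpow_mul,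
        ← zpow_add₀ hv]
      congr 1
      push_cast
      ring)
  have d1 : vC (r - -r) = 1 := by rw [sub_neg_eq_add, ← two_mul, map_mul, hv2, vr, one_mul]
  have d2 : vC (-r - r) = 1 := by rw [Valuation.map_sub_swap, d1]
  refine ⟨Fin 3, inferInstance, ![0, r, -r], ![1, (a2 - a1) / (2 * r), (a2 - a1) / (2 * -r)],
    ![γ, γ1, γ2], ![X ^ 2 - Polynomial.C (ρC a1), 1, 1],
    ![X * (X ^ 2 - Polynomial.C (ρC a1)),
      (X - Polynomial.C 0) * (X - Polynomial.C 1) * (X - Polynomial.C (ρC ((a3 - a1) / (a2 - a1)))),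
      (X - Polynomial.C 0) * (X - Polynomial.C 1) * (X - Polynomial.C (ρC ((a3 - a1) / (a2 - a1))))],
    ![0, 2 * j, 2 * j], ![m, m + 3 * j, m + 3 * j], fun i => ?_, fun i i' h => ?_, ?_, fun i => ?_⟩
  · fin_cases i
    exacts [c0, c1, c2]
  · have n1 : vC (1 : C) ≠ vC (a2 - a1) := by rw [map_one]; exact hp1.ne'
    fin_cases i <;> fin_cases i'
    · exact absurd rfl h
    · exact Or.inl (by show vC 1 ≠ vC (_ / _); rw [vπ vr]; exact n1)
    · exact Or.inl (by show vC 1 ≠ vC (_ / _); rw [vπ vr']; exact n1)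
    · exact Or.inl (by show vC (_ / _) ≠ vC 1; rw [vπ vr]; exact n1.symm)
    · exact absurd rfl h
    · exact Or.inr (by show vC (_ / _) < vC (r - -r); rw [vπ vr, d1]; exact hp1)
    · exact Or.inl (by show vC (_ / _) ≠ vC 1; rw [vπ vr']; exact n1.symm)
    · exact Or.inr (by show vC (_ / _) < vC (-r - r); rw [vπ vr', d2]; exact hp1)
    · exact absurd rfl h
  · rw [natDegree_Fm hc0, Fin.sum_univ_three]
    show _ ≤ ((X * (X ^ 2 - Polynomial.C (ρC a1))).natDegree - 1) / 2 +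
      (((X - Polynomial.C 0) * (X - Polynomial.C 1) *
        (X - Polynomial.C (ρC ((a3 - a1) / (a2 - a1))))).natDegree - 1) / 2 +
      (((X - Polynomial.C 0) * (X - Polynomial.C 1) *
        (X - Polynomial.C (ρC ((a3 - a1) / (a2 - a1))))).natDegree - 1) / 2
    rw [deg_mid26, deg_side26]
  · fin_cases i
    · exact ⟨Or.inl rfl, by simp, v_sqrt26 hγ hc, Or.inl ⟨rfl, rfl⟩⟩
    · exact ⟨Or.inr ⟨vr, q, hr2.trans hq⟩, (vπ vr).trans hp, vγ vr hγ1, Or.inr ⟨rfl, rfl⟩⟩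
    · exact ⟨Or.inr ⟨vr', q, hr2'.trans hq⟩, (vπ vr').trans hp, vγ vr' hγ2, Or.inr ⟨rfl, rfl⟩⟩

end Crest.Agent.T15.Rt
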