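import Crest.Agent.T15.Sc3_89

/-!
# Row 15, block Ht: the scalar bound in the normal form `y^2 = c z (z^2-a1)(z^2-a2)(z^2-a3)`

* `scal_z` : one valued differential field;
* `scal_ext` : the valuation lives only on a subfield `K` (it is extended by Chevalley);
* `scal_mum` : Mumford form, everything in `K`.
-/

set_option autoImplicit false

namespace Crest.Agent.T15.Sc3

open Polynomial

/-- `c^2 (a1 - a2)^2 a3` -/
def T1 {L : Type*} [CommRing L] (c a1 a2 a3 : L) : L := c ^ 2 * (a1 - a2) ^ 2 * a3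
/-- `c^2 (a1 - a2) (a1 - a3) (a2 - a3)` -/
def T2 {L : Type*} [CommRing L] (c a1 a2 a3 : L) : L := c ^ 2 * ((a1 - a2) * (a1 - a3) * (a2 - a3))

theorem map_T1 {K L : Type*} [CommRing K] [CommRing L] (f : K →+* L) (c a1 a2 a3 : K) :
    f (T1 c a1 a2 a3) = T1 (f c) (f a1) (f a2) (f a3) := by simp [T1]

theorem map_T2 {K L : Type*} [CommRing K] [CommRing L] (f : K →+* L) (c a1 a2 a3 : K) :
    f (T2 c a1 a2 a3) = T2 (f c) (f a1) (f a2) (f a3) := by simp [T2]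

section one

variable {C L Γ : Type*} [CommRing C] [Field L] [Algebra C L]
  [LinearOrderedCommGroupWithZero Γ] (w : Valuation L Γ) (D : Derivation C L L)

theorem pairb {x a b : L} (ha : w x ≤ w a) (hb : w x ≤ w b) : w x * w (a - b) ≤ w a * w b := by
  rcases le_total (w a) (w b) with h | h
  · exact mul_le_mul' ha (w_sub_le w h le_rfl)
  · rw [mul_comm (w a)]; exact mul_le_mul' hb (w_sub_le w le_rfl h)

/-- **(CT)** in the coordinate `Z = z^2` -/
theorem ctz {Z a1 a2 a3 x y c : L}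
    (hy : y ^ 4 = c ^ 2 * (Z * (Z - a1) ^ 2 * (Z - a2) ^ 2 * (Z - a3) ^ 2))
    (h0 : w x ≤ w Z) (h1 : w x ≤ w (Z - a1)) (h2 : w x ≤ w (Z - a2)) (h3 : w x ≤ w (Z - a3)) :
    w (x / y) ^ 4 * w (T1 c a1 a2 a3) ≤ 1 ∧ w (x / y) ^ 4 * w (T2 c a1 a2 a3) ≤ 1 := by
  rcases eq_or_ne y 0 with rfl | hy0
  · simp
  have py : 0 < w y ^ 4 := pow_pos (zero_lt_iff.2 ((Valuation.ne_zero_iff w).2 hy0)) 4
  have red : ∀ t : Γ, w x ^ 4 * t ≤ w Z * w (Z - a1) ^ 2 * w (Z - a2) ^ 2 * w (Z - a3) ^ 2 →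
      w (x / y) ^ 4 * (w c ^ 2 * t) ≤ 1 := by
    intro t ht
    rw [map_div₀, div_pow, div_mul_eq_mul_div, div_le_iff₀ py, one_mul, ← map_pow w y, hy,
      mul_left_comm]
    simpa only [map_mul, map_pow] using mul_le_mul_right ht (w c ^ 2)
  have p12 := pairb w h2 h1
  have p13 := pairb w h3 h1
  have p23 := pairb w h3 h2
  have p03 := pairb w h0 h3
  rw [sub_sub_sub_cancel_left] at p12 p13 p23
  rw [sub_sub_cancel] at p03
  constructor
  · have := mul_le_mul' (mul_le_mul' p12 p12) (mul_le_mul' p03 h3)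
    rw [T1, mul_assoc, map_mul, map_mul, map_pow, map_pow]
    apply red
    generalize w (a1 - a2) = u at this ⊢
    generalize w (Z - a1) = u1 at this ⊢
    generalize w (Z - a2) = u2 at this ⊢
    generalize w (Z - a3) = u3 at this ⊢
    calc _ = w x * u * (w x * u) * (w x * w a3 * w x) := by
          simp only [pow_succ, pow_zero, one_mul]; ac_rfl
      _ ≤ _ := this
      _ = _ := by simp only [pow_succ, pow_zero, one_mul]; ac_rfl
  · have := mul_le_mul' (mul_le_mul' p12 p13) (mul_le_mul' p23 h0)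
    rw [T2, map_mul, map_mul, map_mul, map_pow]
    apply red
    generalize w (a1 - a2) = u at this ⊢
    generalize w (a1 - a3) = u' at this ⊢
    generalize w (a2 - a3) = u'' at this ⊢
    generalize w (Z - a1) = u1 at this ⊢
    generalize w (Z - a2) = u2 at this ⊢
    generalize w (Z - a3) = u3 at this ⊢
    calc _ = w x * u * (w x * u') * (w x * u'' * w x) := by
          simp only [pow_succ, pow_zero, one_mul]; ac_rfl
      _ ≤ _ := this
      _ = _ := by simp only [pow_succ, pow_zero, one_mul]; ac_rfl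

variable {K0 : Subfield L}

theorem Sym3.sq {z1 z2 z3 : L} (h : Sym3 K0 z1 z2 z3) : Sym3 K0 (z1 ^ 2) (z2 ^ 2) (z3 ^ 2) := by
  refine ⟨?_, ?_, ?_⟩
  · convert K0.sub_mem (K0.mul_mem h.e1 h.e1) (K0.add_mem h.e2 h.e2) using 1; ring
  · convert K0.sub_mem (K0.mul_mem h.e2 h.e2)
      (K0.add_mem (K0.mul_mem h.e1 h.e3) (K0.mul_mem h.e1 h.e3)) using 1; ring
  · convert K0.mul_mem h.e3 h.e3 using 1; ring

variable [CharZero L]

theorem scal_z_one (H : ∀ h ∈ K0, w (D h) ≤ w h) {c a1 a2 a3 z1 z2 z3 y : L}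
    (k1 : a1 ∈ K0) (k2 : a2 ∈ K0) (k3 : a3 ∈ K0) (d1 : D a1 = 0) (d2 : D a2 = 0) (d3 : D a3 = 0)
    (h : Sym3 K0 z1 z2 z3)
    (hy : y ^ 2 = c * z1 * (z1 ^ 2 - a1) * (z1 ^ 2 - a2) * (z1 ^ 2 - a3)) :
    w (1944 * (z1 * D z1 / y)) ^ 4 * w (T1 c a1 a2 a3) ≤ 1 ∧
      w (1944 * (z1 * D z1 / y)) ^ 4 * w (T2 c a1 a2 a3) ≤ 1 := by
  have e : 1944 * (z1 * D z1 / y) = 972 * D (z1 ^ 2) / y := by
    rw [Derivation.leibniz_pow]; simp only [smul_eq_mul, nsmul_eq_mul]; push_cast; ring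
  rw [e]
  refine ctz w (Z := z1 ^ 2) ?_ (log3_zero w D H h.sq) (log3 w D H h.sq k1 d1)
    (log3 w D H h.sq k2 d2) (log3 w D H h.sq k3 d3)
  calc y ^ 4 = (y ^ 2) ^ 2 := by ring
    _ = _ := by rw [hy]; ring

/-- **scalar bound, normal form**, `g = ∑ z_i D z_i / y_i` -/
theorem scal_z (H : ∀ h ∈ K0, w (D h) ≤ w h) {c a1 a2 a3 z1 z2 z3 y1 y2 y3 : L}
    (k1 : a1 ∈ K0) (k2 : a2 ∈ K0) (k3 : a3 ∈ K0) (d1 : D a1 = 0) (d2 : D a2 = 0) (d3 : D a3 = 0)
    (h : Sym3 K0 z1 z2 z3)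
    (h1 : y1 ^ 2 = c * z1 * (z1 ^ 2 - a1) * (z1 ^ 2 - a2) * (z1 ^ 2 - a3))
    (h2 : y2 ^ 2 = c * z2 * (z2 ^ 2 - a1) * (z2 ^ 2 - a2) * (z2 ^ 2 - a3))
    (h3 : y3 ^ 2 = c * z3 * (z3 ^ 2 - a1) * (z3 ^ 2 - a2) * (z3 ^ 2 - a3)) :
    w (1944 * (z1 * D z1 / y1 + z2 * D z2 / y2 + z3 * D z3 / y3)) ^ 4 * w (T1 c a1 a2 a3) ≤ 1 ∧
    w (1944 * (z1 * D z1 / y1 + z2 * D z2 / y2 + z3 * D z3 / y3)) ^ 4 * w (T2 c a1 a2 a3) ≤ 1 := by
  have s1 := scal_z_one w D H k1 k2 k3 d1 d2 d3 h h1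
  have s2 := scal_z_one w D H k1 k2 k3 d1 d2 d3 h.rot h2
  have s3 := scal_z_one w D H k1 k2 k3 d1 d2 d3 h.rot.rot h3
  rw [mul_add, mul_add]
  exact ⟨sum3_le w s1.1 s2.1 s3.1, sum3_le w s1.2 s2.2 s3.2⟩

end one

/-- Chevalley: a valuation extends (up to equivalence) along any field embedding -/
theorem exists_ext {K L Γ : Type*} [Field K] [Field L] [LinearOrderedCommGroupWithZero Γ]
    (w : Valuation K Γ) (f : K →+* L) :
    ∃ B : ValuationSubring L, ∀ x y, B.valuation (f x) ≤ B.valuation (f y) ↔ w x ≤ w y := by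
  obtain ⟨B, hB, hl⟩ := IsLocalRing.exists_factor_valuationRing
    (f.comp w.valuationSubring.subtype)
  refine ⟨B, (Valuation.isEquiv_iff_val_le_one (v := B.valuation.comap f) (v' := w)).2 ?_⟩
  intro x
  rw [Valuation.comap_apply, B.valuation_le_one_iff]
  refine ⟨fun hx => ?_, fun hx => hB ⟨x, hx⟩⟩
  by_contra hn
  have hx0 : x ≠ 0 := by rintro rfl; simp at hn
  have hi : w x⁻¹ ≤ 1 := by
    rw [map_inv₀]; exact inv_le_one_of_one_le₀ (not_le.1 hn).le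
  have hu : IsUnit ((f.comp w.valuationSubring.subtype).codRestrict B.toSubring hB ⟨x⁻¹, hi⟩) := by
    refine IsUnit.of_mul_eq_one ⟨f x, hx⟩ (Subtype.ext ?_)
    change f x⁻¹ * f x = 1
    rw [← map_mul, inv_mul_cancel₀ hx0, map_one]
  obtain ⟨u, hu'⟩ := (hl.1 _ hu).exists_right_inv
  have e : x⁻¹ * (u : K) = 1 := congrArg Subtype.val hu'
  have : (u : K) = x := by field_simp at e; exact e
  exact hn (this ▸ u.2)

section ext

variable {C K L Γ : Type*} [CommRing C] [Field K] [Field L] [CharZero L] [Algebra C L]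
  [LinearOrderedCommGroupWithZero Γ]

/-- **scalar bound, valuation on a subfield only.** `f : K →+* L`, `D` a derivation of `L` which
restricts to a map `D0` of `K` that does not increase `w`. -/
theorem scal_ext (w : Valuation K Γ) (f : K →+* L) (D : Derivation C L L) (D0 : K → K)
    (hD : ∀ h, D (f h) = f (D0 h)) (H : ∀ h, w (D0 h) ≤ w h) {c a1 a2 a3 e1 e2 e3 g : K}
    (d1 : D0 a1 = 0) (d2 : D0 a2 = 0) (d3 : D0 a3 = 0) {z1 z2 z3 y1 y2 y3 : L}
    (he1 : z1 + z2 + z3 = f e1) (he2 : z1 * z2 + z1 * z3 + z2 * z3 = f e2)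
    (he3 : z1 * z2 * z3 = f e3)
    (h1 : y1 ^ 2 = f c * z1 * (z1 ^ 2 - f a1) * (z1 ^ 2 - f a2) * (z1 ^ 2 - f a3))
    (h2 : y2 ^ 2 = f c * z2 * (z2 ^ 2 - f a1) * (z2 ^ 2 - f a2) * (z2 ^ 2 - f a3))
    (h3 : y3 ^ 2 = f c * z3 * (z3 ^ 2 - f a1) * (z3 ^ 2 - f a2) * (z3 ^ 2 - f a3))
    (hg : z1 * D z1 / y1 + z2 * D z2 / y2 + z3 * D z3 / y3 = f g) :
    w ((1944 * g) ^ 4 * T1 c a1 a2 a3) ≤ 1 ∧ w ((1944 * g) ^ 4 * T2 c a1 a2 a3) ≤ 1 := by
  obtain ⟨B, hB⟩ := exists_ext w f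
  have m : ∀ x, f x ∈ f.fieldRange := fun x => ⟨x, rfl⟩
  have H' : ∀ h ∈ f.fieldRange, B.valuation (D h) ≤ B.valuation h := by
    rintro _ ⟨h, rfl⟩
    rw [hD]; exact (hB _ _).2 (H h)
  have S : Sym3 f.fieldRange z1 z2 z3 := ⟨he1 ▸ m _, he2 ▸ m _, he3 ▸ m _⟩
  obtain ⟨r1, r2⟩ := scal_z B.valuation D H' (m a1) (m a2) (m a3) (by rw [hD, d1, map_zero])
    (by rw [hD, d2, map_zero]) (by rw [hD, d3, map_zero]) S h1 h2 h3
  rw [hg, ← map_pow, ← map_mul] at r1 r2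
  have t : ∀ T : K, B.valuation ((1944 * f g) ^ 4 * f T) ≤ 1 → w ((1944 * g) ^ 4 * T) ≤ 1 := by
    intro T hT
    rw [← w.map_one]
    refine (hB _ _).1 ?_
    rw [map_one, map_one]
    convert hT using 2
    simp [map_ofNat]
  exact ⟨t _ (by rwa [map_T1]), t _ (by rwa [map_T2])⟩

end ext

section mum

variable {C K Γ : Type*} [CommRing C] [Field K] [CharZero K] [Algebra C K]
  [LinearOrderedCommGroupWithZero Γ]

/-- **scalar bound, Mumford form.** `U = X^3 + u2 X^2 + u1 X + u0`, `U ∣ F - V^2`, and the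
Abel-Jacobi equation `∑ x_i^k D x_i / y_i = g_k` written as
`U ∣ U^D + V (g0 X^2 + (g1 + u2 g0) X + (g2 + u2 g1 + u1 g0))`. -/
theorem scal_mum (w : Valuation K Γ) (D : Derivation C K K) (H : ∀ h, w (D h) ≤ w h)
    {c a1 a2 a3 u0 u1 u2 g0 g1 g2 : K} (d1 : D a1 = 0) (d2 : D a2 = 0) (d3 : D a3 = 0)
    {U V : K[X]} (hU : U = X ^ 3 + Polynomial.C u2 * X ^ 2 + Polynomial.C u1 * X + Polynomial.C u0)
    (hsep : U.Separable) (hcop : IsCoprime U V)
    (hF : U ∣ Polynomial.C c * X * (X ^ 2 - Polynomial.C a1) * (X ^ 2 - Polynomial.C a2) *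
      (X ^ 2 - Polynomial.C a3) - V ^ 2)
    (hode : U ∣ Polynomial.C (D u2) * X ^ 2 + Polynomial.C (D u1) * X + Polynomial.C (D u0) +
      V * (Polynomial.C g0 * X ^ 2 + Polynomial.C (g1 + u2 * g0) * X +
        Polynomial.C (g2 + u2 * g1 + u1 * g0))) :
    w ((1944 * g1) ^ 4 * T1 c a1 a2 a3) ≤ 1 ∧ w ((1944 * g1) ^ 4 * T2 c a1 a2 a3) ≤ 1 := by
  let P : Cubic K := ⟨1, u2, u1, u0⟩
  have hP : P.toPoly = U := by simp [P, Cubic.toPoly, hU]
  let L := U.SplittingField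
  let f := algebraMap K L
  have : CharZero L := charZero_of_injective_algebraMap f.injective
  let _ : Differential K := ⟨D.restrictScalars ℤ⟩
  let _ : Differential L := Differential.differentialFiniteDimensional K L
  have : DifferentialAlgebra K L := Differential.differentialAlgebraFiniteDimensional
  have hD : ∀ h : K, (Differential.deriv (f h) : L) = f (D h) := fun h =>
    DifferentialAlgebra.deriv_algebraMap h
  have hs : (P.toPoly.map f).Splits := by rw [hP]; exact SplittingField.splits U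
  have ha : P.a ≠ 0 := one_ne_zero
  obtain ⟨z1, z2, z3, hr⟩ := (Cubic.splits_iff_roots_eq_three ha).1 hs
  have b2 : f u2 = -(z1 + z2 + z3) := by simpa [P] using Cubic.b_eq_three_roots ha hr
  have b1 : f u1 = z1 * z2 + z1 * z3 + z2 * z3 := by simpa [P] using Cubic.c_eq_three_roots ha hr
  have b0 : f u0 = -(z1 * z2 * z3) := by simpa [P] using Cubic.d_eq_three_roots ha hr
  have key : ∀ z : L, z ^ 3 + f u2 * z ^ 2 + f u1 * z + f u0 = 0 →
      (aeval z V) ^ 2 = f c * z * (z ^ 2 - f a1) * (z ^ 2 - f a2) * (z ^ 2 - f a3) ∧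
      3 * z ^ 2 + 2 * f u2 * z + f u1 ≠ 0 ∧
      z * Differential.deriv z / aeval z V = z * (f g0 * z ^ 2 + (f g1 + f u2 * f g0) * z +
        (f g2 + f u2 * f g1 + f u1 * f g0)) / (3 * z ^ 2 + 2 * f u2 * z + f u1) := by
    intro z hz
    have hUz : aeval z U = 0 := by simpa [hU] using hz
    have zero : ∀ Q : K[X], U ∣ Q → aeval z Q = 0 := by
      rintro _ ⟨Q, rfl⟩; rw [map_mul, hUz, zero_mul]
    have ne : ∀ Q : K[X], IsCoprime U Q → aeval z Q ≠ 0 := by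
      rintro Q ⟨a, b, hab⟩ h0
      have := congrArg (aeval z) hab
      simp [hUz, h0] at this
    have n1 := ne V hcop
    have n2 : 3 * z ^ 2 + 2 * f u2 * z + f u1 ≠ 0 := by
      convert ne _ hsep using 1
      simp [hU, f, map_ofNat]; ring
    have q1 := zero _ hF
    have q2 := zero _ hode
    simp only [map_sub, map_mul, map_add, map_pow, aeval_C, aeval_X] at q1 q2
    have q3 := congrArg (Differential.deriv : L → L) hz
    simp only [map_add, Derivation.leibniz, Derivation.leibniz_pow, hD, smul_eq_mul, nsmul_eq_mul,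
      map_zero] at q3
    refine ⟨by linear_combination -q1, n2, ?_⟩
    rw [div_eq_div_iff n1 n2]
    push_cast at q3
    linear_combination z * q3 - z * q2
  obtain ⟨s1, n1, t1⟩ := key z1 (by rw [b2, b1, b0]; ring)
  obtain ⟨s2, n2, t2⟩ := key z2 (by rw [b2, b1, b0]; ring)
  obtain ⟨s3, n3, t3⟩ := key z3 (by rw [b2, b1, b0]; ring)
  refine scal_ext w f (Differential.deriv : Derivation ℤ L L) D hD H d1 d2 d3 (e1 := -u2) (e2 := u1)
    (e3 := -u0) (by rw [map_neg, b2, neg_neg]) b1.symm (by rw [map_neg, b0, neg_neg]) s1 s2 s3 ?_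
  rw [t1, t2, t3]
  have m1 : 3 * z1 ^ 2 + 2 * f u2 * z1 + f u1 = (z1 - z2) * (z1 - z3) := by rw [b2, b1]; ring
  have m2 : 3 * z2 ^ 2 + 2 * f u2 * z2 + f u1 = -((z1 - z2) * (z2 - z3)) := by rw [b2, b1]; ring
  have m3 : 3 * z3 ^ 2 + 2 * f u2 * z3 + f u1 = (z1 - z3) * (z2 - z3) := by rw [b2, b1]; ring
  rw [m1] at n1
  rw [m3] at n3
  have o1 := left_ne_zero_of_mul n1
  have o2 := right_ne_zero_of_mul n1
  have o3 := right_ne_zero_of_mul n3
  rw [m1, m2, m3, b2, b1]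
  generalize f g0 = G0
  generalize f g1 = G1
  generalize f g2 = G2
  have o4 : -((z1 - z2) * (z2 - z3)) ≠ 0 := neg_ne_zero.2 (mul_ne_zero o1 o3)
  rw [div_add_div _ _ n1 o4, div_add_div _ _ (mul_ne_zero n1 o4) n3,
    div_eq_iff (mul_ne_zero (mul_ne_zero n1 o4) n3)]
  ring

end mum

end Crest.Agent.T15.Sc3
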