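import Mathlib

/-!
# Row 15, block Ht: the scalar part for the genus three family (helper89)

* `log3` : a derivation that does not increase the valuation on a subfield `K0` satisfies
  `w (972 * D z) ≤ w (z - e)` for every root `z` of a cubic over `K0` and every constant `e`.
* `ct` : the two line "cluster table".
* `scal`, `scal_x` : the bound for `∑ D s_i / W_i` on `d W^4 = (s^2 - 4 lam) Q(s)^2`.
-/

set_option autoImplicit false

namespace Crest.Agent.T15.Sc3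

variable {C L Γ : Type*} [CommRing C] [Field L] [Algebra C L]
  [LinearOrderedCommGroupWithZero Γ] (w : Valuation L Γ) (D : Derivation C L L)

theorem w_nat_le (n : ℕ) : w (n : L) ≤ 1 := by
  induction n with
  | zero => simp
  | succ n ih =>
    push_cast
    exact (w.map_add _ _).trans (max_le ih (by simp))

theorem w_ofNat_mul_le (n : ℕ) (x : L) {M : Γ} (h : w x ≤ M) : w ((n : L) * x) ≤ M := by
  rw [map_mul]
  exact (mul_le_of_le_one_left' (w_nat_le w n)).trans h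

theorem D_nat (n : ℕ) (x : L) : D ((n : L) * x) = (n : L) * D x := by
  rw [← nsmul_eq_mul, map_nsmul, nsmul_eq_mul]

theorem w_sub_le {x y : L} {M : Γ} (hx : w x ≤ M) (hy : w y ≤ M) : w (x - y) ≤ M :=
  (w.map_sub _ _).trans (max_le hx hy)

theorem w_add_le {x y : L} {M : Γ} (hx : w x ≤ M) (hy : w y ≤ M) : w (x + y) ≤ M :=
  (w.map_add _ _).trans (max_le hx hy)

variable [CharZero L] {K0 : Subfield L}

theorem w_three_ne : w (3 : L) ≠ 0 := by
  rw [Valuation.ne_zero_iff]; norm_num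

/-- centred cubic, `y3` the far root -/
theorem core (H : ∀ h ∈ K0, w (D h) ≤ w h) {y1 y2 y3 : L} (hs : y1 + y2 + y3 = 0)
    (hp : y1 * y2 + y1 * y3 + y2 * y3 ∈ K0) (hq : y1 * y2 * y3 ∈ K0) {M : Γ}
    (h1 : w y1 ≤ M) (h2 : w y2 ≤ M) (h3 : w y3 ≤ M)
    (f1 : w 3 * M ≤ w (y3 - y1)) (f2 : w 3 * M ≤ w (y3 - y2)) :
    w (324 * D y1) ≤ M ∧ w (324 * D y2) ≤ M ∧ w (324 * D y3) ≤ M := by
  rcases eq_or_ne M 0 with rfl | hM
  · have e1 : y1 = 0 := by simpa using h1
    have e2 : y2 = 0 := by simpa using h2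
    have e3 : y3 = 0 := by simpa using h3
    simp [e1, e2, e3]
  have hM0 : 0 < M := zero_lt_iff.2 hM
  set p := y1 * y2 + y1 * y3 + y2 * y3 with hpd
  set q := y1 * y2 * y3 with hqd
  have e2 : y2 = -y1 - y3 := by linear_combination hs
  have wp : w p ≤ M * M := by
    refine w_add_le w (w_add_le w ?_ ?_) ?_ <;> rw [map_mul] <;> exact mul_le_mul' ‹_› ‹_›
  have wq : w q ≤ M * M * M := by
    rw [hqd, map_mul, map_mul]; exact mul_le_mul' (mul_le_mul' h1 h2) h3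
  set n := (y3 - y1) * (y3 - y2) with hn
  have n_eq : n = 3 * (y3 * y3) + p := by rw [hn, hpd, e2]; ring
  have wn : w 3 * M * (w 3 * M) ≤ w n := by rw [hn, map_mul]; exact mul_le_mul' f1 f2
  have hn0 : w n ≠ 0 := by
    refine ne_of_gt (lt_of_lt_of_le ?_ wn)
    have := zero_lt_iff.2 (w_three_ne w)
    positivity
  -- (a)
  have cub : y3 * y3 * y3 + p * y3 - q = 0 := by rw [hpd, hqd, e2]; ring
  have dcub : n * D y3 = D q - y3 * D p := by
    have := congrArg D cub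
    simp only [map_sub, map_add, Derivation.leibniz, smul_eq_mul, map_zero] at this
    rw [n_eq]; linear_combination this
  have a1 : w n * w (D y3) ≤ M * M * M := by
    rw [← map_mul, dcub]
    refine w_sub_le w ((H q hq).trans wq) ?_
    rw [map_mul, mul_comm]
    exact mul_le_mul' ((H p hp).trans wp) h3
  have a2 : w (9 * D y3) ≤ M := by
    have : M * M * w (9 * D y3) ≤ M * M * M := by
      refine le_trans ?_ ((mul_le_mul_left wn _).trans a1)
      have : (9 : L) = 3 * 3 := by norm_num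
      rw [this, map_mul, map_mul]
      exact le_of_eq (by ac_rfl)
    exact le_of_mul_le_mul_left this (by positivity)
  -- (b)
  have dn : D n = 6 * (y3 * D y3) + D p := by
    rw [n_eq, map_add]
    have := D_nat D 3 (y3 * y3)
    push_cast at this
    rw [this, Derivation.leibniz, smul_eq_mul]; ring
  have b1 : w (9 * D n) ≤ M * M := by
    have : 9 * D n = (6 : ℕ) * (y3 * (9 * D y3)) + (9 : ℕ) * D p := by rw [dn]; push_cast; ring
    rw [this]
    refine w_add_le w (w_ofNat_mul_le w _ _ ?_) (w_ofNat_mul_le w _ _ ((H p hp).trans wp))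
    rw [map_mul]; exact mul_le_mul' h3 a2
  have b2 : w (81 * D n) ≤ w n := by
    refine le_trans ?_ wn
    have : 81 * D n = 3 * 3 * (9 * D n) := by ring
    rw [this, map_mul, map_mul]
    exact (mul_le_mul_right b1 _).trans (le_of_eq (by ac_rfl))
  -- (c)
  set δ := y1 - y2 with hδ
  have wδ : w δ ≤ M := w_sub_le w h1 h2
  have c1 : w (162 * D δ) ≤ w δ := by
    rcases eq_or_ne δ 0 with h0 | h0
    · simp [h0]
    have disc : (δ * n) * (δ * n) = -(4 * (p * p * p)) - 27 * (q * q) := by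
      rw [hδ, hn, hpd, hqd, e2]; ring
    have hK : (δ * n) * (δ * n) ∈ K0 := by
      rw [disc]
      have h4 : (4 : L) ∈ K0 := by exact_mod_cast natCast_mem K0 4
      have h27 : (27 : L) ∈ K0 := by exact_mod_cast natCast_mem K0 27
      exact K0.sub_mem (K0.neg_mem (K0.mul_mem h4 (K0.mul_mem (K0.mul_mem hp hp) hp)))
        (K0.mul_mem h27 (K0.mul_mem hq hq))
    have hδn : w (δ * n) ≠ 0 := by
      rw [map_mul]; exact mul_ne_zero ((Valuation.ne_zero_iff w).2 h0) hn0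
    have c2 : w (2 * D (δ * n)) ≤ w (δ * n) := by
      have := H _ hK
      have e : D ((δ * n) * (δ * n)) = (δ * n) * (2 * D (δ * n)) := by
        rw [Derivation.leibniz D (δ * n) (δ * n), smul_eq_mul]; ring
      rw [e, map_mul w (δ * n), map_mul w (δ * n)] at this
      exact le_of_mul_le_mul_left this (zero_lt_iff.2 hδn)
    have e : (162 * D δ) * n = (81 : ℕ) * (2 * D (δ * n)) - (2 : ℕ) * (δ * (81 * D n)) := by
      rw [Derivation.leibniz, smul_eq_mul, smul_eq_mul]; push_cast; ring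
    have c3 : w (162 * D δ) * w n ≤ w δ * w n := by
      rw [← map_mul, e, ← map_mul]
      refine w_sub_le w (w_ofNat_mul_le w _ _ c2) (w_ofNat_mul_le w _ _ ?_)
      rw [map_mul, map_mul w δ]; exact mul_le_mul_right b2 _
    exact le_of_mul_le_mul_right c3 (zero_lt_iff.2 hn0)
  have c4 : w (162 * D δ) ≤ M := c1.trans wδ
  have d3 : w (162 * D y3) ≤ M := by
    have : 162 * D y3 = (18 : ℕ) * (9 * D y3) := by push_cast; ring
    rw [this]; exact w_ofNat_mul_le w _ _ a2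
  have s0 : D y1 + D y2 + D y3 = 0 := by rw [← map_add, ← map_add, hs, map_zero]
  have s1 : D δ = D y1 - D y2 := by rw [hδ, map_sub]
  refine ⟨?_, ?_, ?_⟩
  · have : 324 * D y1 = 162 * D δ - 162 * D y3 := by rw [s1]; linear_combination 162 * s0
    rw [this]; exact w_sub_le w c4 d3
  · have : 324 * D y2 = -(162 * D δ) - 162 * D y3 := by rw [s1]; linear_combination 162 * s0
    rw [this]; exact w_sub_le w (by rwa [Valuation.map_neg]) d3
  · have : 324 * D y3 = (2 : ℕ) * (162 * D y3) := by push_cast; ring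
    rw [this]; exact w_ofNat_mul_le w _ _ d3

/-- centred cubic -/
theorem centred (H : ∀ h ∈ K0, w (D h) ≤ w h) {y1 y2 y3 : L} (hs : y1 + y2 + y3 = 0)
    (hp : y1 * y2 + y1 * y3 + y2 * y3 ∈ K0) (hq : y1 * y2 * y3 ∈ K0) {M : Γ}
    (h1 : w y1 ≤ M) (h2 : w y2 ≤ M) (h3 : w y3 ≤ M) : w (324 * D y1) ≤ M := by
  set N := max (max (w y1) (w y2)) (w y3) with hN
  have hNM : N ≤ M := max_le (max_le h1 h2) h3
  refine le_trans ?_ hNM
  have g1 : w y1 ≤ N := (le_max_left _ _).trans (le_max_left _ _)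
  have g2 : w y2 ≤ N := (le_max_right _ _).trans (le_max_left _ _)
  have g3 : w y3 ≤ N := le_max_right _ _
  have h30 : 0 < w (3 : L) := zero_lt_iff.2 (w_three_ne w)
  have key : ¬ (w (y1 - y2) < w 3 * N ∧ w (y2 - y3) < w 3 * N ∧ w (y3 - y1) < w 3 * N) := by
    rintro ⟨a, b, c⟩
    have t : ∀ y u v : L, 3 * y = u - v → w u < w 3 * N → w v < w 3 * N → w y < N := by
      intro y u v e hu hv
      have : w 3 * w y < w 3 * N := by
        rw [← map_mul, e]; exact (w.map_sub _ _).trans_lt (max_lt hu hv)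
      exact lt_of_mul_lt_mul_left this h30.le
    have l1 := t y1 _ _ (by linear_combination hs) a c
    have l2 := t y2 _ _ (by linear_combination hs) b a
    have l3 := t y3 _ _ (by linear_combination hs) c b
    exact absurd (max_lt (max_lt l1 l2) l3) (lt_irrefl _)
  have tri : ∀ a b c : L, a + b + c = 0 → w a < w 3 * N → w b < w 3 * N → w c < w 3 * N := by
    intro a b c e ha hb
    have : c = -(a + b) := by linear_combination e
    rw [this, Valuation.map_neg]; exact (w.map_add _ _).trans_lt (max_lt ha hb)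
  have sw : ∀ a b : L, w (a - b) = w (b - a) := fun a b => Valuation.map_sub_swap w a b
  by_cases a : w (y1 - y2) < w 3 * N
  · have b : ¬ w (y2 - y3) < w 3 * N := fun b => key ⟨a, b, tri _ _ _ (by ring) a b⟩
    have c : ¬ w (y3 - y1) < w 3 * N := fun c => key ⟨a, tri _ _ _ (by ring) c a, c⟩
    exact (core w D H hs hp hq g1 g2 g3 (not_lt.1 c) (by rw [sw]; exact not_lt.1 b)).1
  by_cases b : w (y2 - y3) < w 3 * N
  · have c : ¬ w (y3 - y1) < w 3 * N := fun c => a (tri _ _ _ (by ring) b c)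
    exact (core w D H (y1 := y2) (y2 := y3) (y3 := y1) (by linear_combination hs)
      (by convert hp using 1; ring) (by convert hq using 1; ring) g2 g3 g1 (not_lt.1 a)
      (by rw [sw]; exact not_lt.1 c)).2.2
  · exact (core w D H (y1 := y3) (y2 := y1) (y3 := y2) (by linear_combination hs)
      (by convert hp using 1; ring) (by convert hq using 1; ring) g3 g1 g2 (not_lt.1 b)
      (by rw [sw]; exact not_lt.1 a)).2.1

/-- the three elementary symmetric functions lie in `K0` -/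
structure Sym3 (K0 : Subfield L) (z1 z2 z3 : L) : Prop where
  e1 : z1 + z2 + z3 ∈ K0
  e2 : z1 * z2 + z1 * z3 + z2 * z3 ∈ K0
  e3 : z1 * z2 * z3 ∈ K0

omit [CharZero L] in
theorem Sym3.rot {z1 z2 z3 : L} (h : Sym3 K0 z1 z2 z3) : Sym3 K0 z2 z3 z1 :=
  ⟨by convert h.e1 using 1; ring, by convert h.e2 using 1; ring, by convert h.e3 using 1; ring⟩

omit [CharZero L] in
theorem Sym3.swap {z1 z2 z3 : L} (h : Sym3 K0 z1 z2 z3) : Sym3 K0 z1 z3 z2 :=
  ⟨by convert h.e1 using 1; ring, by convert h.e2 using 1; ring, by convert h.e3 using 1; ring⟩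

omit [CharZero L] in
theorem Sym3.sub {z1 z2 z3 e : L} (h : Sym3 K0 z1 z2 z3) (he : e ∈ K0) :
    Sym3 K0 (z1 - e) (z2 - e) (z3 - e) := by
  refine ⟨?_, ?_, ?_⟩
  · convert K0.sub_mem h.e1 (K0.add_mem (K0.add_mem he he) he) using 1; ring
  · convert K0.add_mem (K0.sub_mem h.e2 (K0.mul_mem (K0.add_mem he he) h.e1))
      (K0.mul_mem (K0.add_mem (K0.add_mem he he) he) he) using 1; ring
  · convert K0.sub_mem (K0.add_mem (K0.sub_mem h.e3 (K0.mul_mem he h.e2))
      (K0.mul_mem (K0.mul_mem he he) h.e1)) (K0.mul_mem (K0.mul_mem he he) he) using 1; ring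

omit [CharZero L] in
theorem Sym3.inv {z1 z2 z3 : L} (h : Sym3 K0 z1 z2 z3) (n1 : z1 ≠ 0) (n2 : z2 ≠ 0) (n3 : z3 ≠ 0) :
    Sym3 K0 z1⁻¹ z2⁻¹ z3⁻¹ := by
  refine ⟨?_, ?_, ?_⟩
  · convert K0.div_mem h.e2 h.e3 using 1; field_simp; ring
  · convert K0.div_mem h.e1 h.e3 using 1; field_simp; ring
  · convert K0.inv_mem h.e3 using 1; field_simp

/-- bound by the maximum -/
theorem maxb (H : ∀ h ∈ K0, w (D h) ≤ w h) {z1 z2 z3 : L} (h : Sym3 K0 z1 z2 z3) {M : Γ}
    (h1 : w z1 ≤ M) (h2 : w z2 ≤ M) (h3 : w z3 ≤ M) : w (972 * D z1) ≤ M := by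
  set e := z1 + z2 + z3 with he
  have we : w e ≤ M := w_add_le w (w_add_le w h1 h2) h3
  have t : ∀ z : L, w z ≤ M → w (3 * z - e) ≤ M := fun z hz =>
    w_sub_le w (by exact_mod_cast w_ofNat_mul_le w 3 z hz) we
  have h3K : (3 : L) ∈ K0 := by exact_mod_cast natCast_mem K0 3
  have hS : Sym3 K0 (3 * z1) (3 * z2) (3 * z3) := by
    refine ⟨?_, ?_, ?_⟩
    · convert K0.mul_mem h3K h.e1 using 1; ring
    · convert K0.mul_mem (K0.mul_mem h3K h3K) h.e2 using 1; ring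
    · convert K0.mul_mem (K0.mul_mem (K0.mul_mem h3K h3K) h3K) h.e3 using 1; ring
  have hT := hS.sub h.e1
  have c := centred w D H (y1 := 3 * z1 - e) (y2 := 3 * z2 - e) (y3 := 3 * z3 - e)
    (by rw [he]; ring) hT.e2 hT.e3 (t _ h1) (t _ h2) (t _ h3)
  have d : D (3 * z1 - e) = 3 * D z1 - D e := by
    rw [map_sub]; congr 1; exact_mod_cast D_nat D 3 z1
  have : 972 * D z1 = 324 * D (3 * z1 - e) + (324 : ℕ) * D e := by rw [d]; push_cast; ring
  rw [this]
  exact w_add_le w c (w_ofNat_mul_le w _ _ ((H e h.e1).trans we))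

theorem minb (H : ∀ h ∈ K0, w (D h) ≤ w h) {z1 z2 z3 : L} (h : Sym3 K0 z1 z2 z3)
    (n1 : z1 ≠ 0) (h2 : w z1 ≤ w z2) (h3 : w z1 ≤ w z3) : w (972 * D z1) ≤ w z1 := by
  have p1 : 0 < w z1 := zero_lt_iff.2 ((Valuation.ne_zero_iff w).2 n1)
  have n2 : z2 ≠ 0 := (Valuation.ne_zero_iff w).1 (p1.trans_le h2).ne'
  have n3 : z3 ≠ 0 := (Valuation.ne_zero_iff w).1 (p1.trans_le h3).ne'
  have m := maxb w D H (h.inv n1 n2 n3) (M := w z1⁻¹) le_rfl
    (by rw [map_inv₀, map_inv₀]; exact inv_anti₀ p1 h2)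
    (by rw [map_inv₀, map_inv₀]; exact inv_anti₀ p1 h3)
  have e : 972 * D z1 = -(z1 * z1 * (972 * D z1⁻¹)) := by
    rw [Derivation.leibniz_inv, smul_eq_mul]; field_simp
  rw [e, Valuation.map_neg, map_mul]
  refine (mul_le_mul_right m _).trans (le_of_eq ?_)
  rw [← map_mul]; congr 1; field_simp

omit [CharZero L] in
theorem midb (H : ∀ h ∈ K0, w (D h) ≤ w h) {z1 z2 z3 : L} (h : Sym3 K0 z1 z2 z3)
    (n2 : z2 ≠ 0) (n3 : z3 ≠ 0) (h2 : w (972 * D z2) ≤ w z2) (h3 : w (972 * D z3) ≤ w z3) :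
    w (972 * D z1) ≤ w z1 := by
  have e : (972 * D z1) * (z2 * z3) = (972 : ℕ) * D (z1 * z2 * z3) - z1 * (972 * D z2) * z3 -
      z1 * z2 * (972 * D z3) := by
    simp only [Derivation.leibniz, smul_eq_mul]; push_cast; ring
  have : w (972 * D z1) * w (z2 * z3) ≤ w z1 * w (z2 * z3) := by
    rw [← map_mul, e, ← map_mul, ← mul_assoc z1 z2 z3]
    refine w_sub_le w (w_sub_le w (w_ofNat_mul_le w _ _ (H _ h.e3)) ?_) ?_
    · rw [map_mul w (z1 * _), map_mul w z1, map_mul w (z1 * z2), map_mul w z1]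
      exact mul_le_mul_left (mul_le_mul_right h2 _) _
    · rw [map_mul w (z1 * z2), map_mul w (z1 * z2)]
      exact mul_le_mul_right h3 _
  exact le_of_mul_le_mul_right this
    (zero_lt_iff.2 ((Valuation.ne_zero_iff w).2 (mul_ne_zero n2 n3)))

theorem log3_ne (H : ∀ h ∈ K0, w (D h) ≤ w h) {z1 z2 z3 : L} (h : Sym3 K0 z1 z2 z3)
    (n1 : z1 ≠ 0) (n2 : z2 ≠ 0) (n3 : z3 ≠ 0) : w (972 * D z1) ≤ w z1 := by
  rcases le_total (w z1) (w z2) with a | a <;> rcases le_total (w z1) (w z3) with b | b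
  · exact minb w D H h n1 a b
  · exact midb w D H h n2 n3 (maxb w D H h.rot le_rfl (b.trans a) a)
      (minb w D H h.rot.rot n3 b (b.trans a))
  · exact midb w D H h n2 n3 (minb w D H h.rot n2 (a.trans b) a)
      (maxb w D H h.rot.rot le_rfl b (a.trans b))
  · exact maxb w D H h le_rfl a b

theorem log3_zero (H : ∀ h ∈ K0, w (D h) ≤ w h) {z1 z2 z3 : L} (h : Sym3 K0 z1 z2 z3) :
    w (972 * D z1) ≤ w z1 := by
  have rep : ∀ a b : L, Sym3 K0 a b 0 → Sym3 K0 a b 1 := fun a b s =>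
    ⟨by convert K0.add_mem s.e1 K0.one_mem using 1; ring,
      by convert K0.add_mem s.e1 s.e2 using 1; ring, by convert s.e2 using 1; ring⟩
  rcases eq_or_ne z1 0 with rfl | n1
  · simp
  rcases eq_or_ne z2 0 with rfl | n2 <;> rcases eq_or_ne z3 0 with rfl | n3
  · exact log3_ne w D H (rep _ _ (rep _ _ h).swap) n1 one_ne_zero one_ne_zero
  · exact log3_ne w D H (rep _ _ h.swap) n1 n3 one_ne_zero
  · exact log3_ne w D H (rep _ _ h) n1 n2 one_ne_zero
  · exact log3_ne w D H h n1 n2 n3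

/-- **(LOG3)** -/
theorem log3 (H : ∀ h ∈ K0, w (D h) ≤ w h) {z1 z2 z3 e : L} (h : Sym3 K0 z1 z2 z3)
    (he : e ∈ K0) (hD : D e = 0) : w (972 * D z1) ≤ w (z1 - e) := by
  have := log3_zero w D H (h.sub he)
  rwa [map_sub, hD, sub_zero] at this

omit [CharZero L] in
/-- **(CT)** -/
theorem ct {a a' b b' x W d : L} (hW : d * W ^ 4 = a * a' * b ^ 2 * b' ^ 2)
    (ha : w x ≤ w a) (ha' : w x ≤ w a') (hb : w x ≤ w b) (hb' : w x ≤ w b') :
    w (x / W) ^ 4 * w ((b - b') ^ 2) ≤ w d ∧ w (x / W) ^ 4 * w ((b - b') * (a - a')) ≤ w d := by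
  rcases eq_or_ne W 0 with rfl | hW0
  · simp
  have pW : 0 < w W ^ 4 := pow_pos (zero_lt_iff.2 ((Valuation.ne_zero_iff w).2 hW0)) 4
  have red : ∀ t : Γ, w x ^ 4 * t ≤ w a * w a' * w b ^ 2 * w b' ^ 2 → w (x / W) ^ 4 * t ≤ w d := by
    intro t ht
    rw [map_div₀, div_pow, div_mul_eq_mul_div, div_le_iff₀ pW, ← map_pow, ← map_pow w W,
      ← map_mul, hW]
    simpa only [map_mul, map_pow] using ht
  have B : w x * w (b - b') ≤ w b * w b' := by
    rcases le_total (w b) (w b') with h | h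
    · exact mul_le_mul' hb (w_sub_le w h le_rfl)
    · rw [mul_comm (w b)]; exact mul_le_mul' hb' (w_sub_le w le_rfl h)
  have A : w x * w (a - a') ≤ w a * w a' := by
    rcases le_total (w a) (w a') with h | h
    · exact mul_le_mul' ha (w_sub_le w h le_rfl)
    · rw [mul_comm (w a)]; exact mul_le_mul' ha' (w_sub_le w le_rfl h)
  constructor
  · apply red
    have := mul_le_mul' (mul_le_mul' ha ha') (mul_le_mul' B B)
    rw [map_pow]
    generalize w (b - b') = u at this ⊢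
    calc _ = w x * w x * (w x * u * (w x * u)) := by
          simp only [pow_succ, pow_zero, one_mul]; ac_rfl
      _ ≤ _ := this
      _ = _ := by simp only [pow_succ, pow_zero, one_mul]; ac_rfl
  · apply red
    have := mul_le_mul' A (mul_le_mul' B (mul_le_mul' hb hb'))
    rw [map_mul]
    generalize w (b - b') = u at this ⊢
    generalize w (a - a') = u' at this ⊢
    calc _ = w x * u' * (w x * u * (w x * w x)) := by
          simp only [pow_succ, pow_zero, one_mul]; ac_rfl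
      _ ≤ _ := this
      _ = _ := by simp only [pow_succ, pow_zero, one_mul]; ac_rfl

/-- `lam = r^3 (2 - r) / (2 r - 1)` -/
def lam (r : L) : L := r ^ 3 * (2 - r) / (2 * r - 1)
/-- `s0 = -2 r (r - 2)` -/
def s0 (r : L) : L := -2 * r * (r - 2)
/-- `s1 = 2 (r - 1)^2 / r` -/
def s1 (r : L) : L := 2 * (r - 1) ^ 2 / r
/-- `Q (s) = (s - s0)^2 - lam s1^2` -/
def QQ (r s : L) : L := (s - s0 r) ^ 2 - lam r * s1 r ^ 2
/-- `G = r (r - 2) (r - 1)^2 / (2 r - 1)` -/
def GG (r : L) : L := r * (r - 2) * (r - 1) ^ 2 / (2 * r - 1)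

omit [CharZero L] in
theorem max_sq_le (r : L) : max 1 (w r) ^ 2 ≤ max (w ((r - 1) ^ 2)) (w r) := by
  rw [map_pow]
  rcases lt_trichotomy (w r) 1 with h | h | h
  · have : w (r - 1) = 1 := by
      rw [Valuation.map_sub_swap, w.map_sub_eq_of_lt_left (by simpa using h), map_one]
    rw [this, max_eq_left h.le]; exact le_max_left _ _
  · rw [h, max_self, one_pow]; exact le_max_right _ _
  · have : w (r - 1) = w r := w.map_sub_eq_of_lt_left (by simpa using h)
    rw [this, max_eq_right h.le]; exact le_max_left _ _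

/-- one point -/
theorem scal_one (H : ∀ h ∈ K0, w (D h) ≤ w h) {r k d z1 z2 z3 W : L} (hr : r ≠ 0)
    (rK : r ∈ K0) (kK : k ∈ K0) (Dr : D r = 0) (Dk : D k = 0) (hk : k ^ 2 = lam r)
    (h : Sym3 K0 z1 z2 z3) (hW : d * W ^ 4 = (z1 ^ 2 - 4 * lam r) * QQ r z1 ^ 2) :
    w (972 * D z1 / W) ^ 4 * (w (16 * GG r) * max 1 (w r) ^ 2) ≤ w d := by
  have h2K : (2 : L) ∈ K0 := by exact_mod_cast natCast_mem K0 2
  have D2 : D (2 : L) = 0 := by exact_mod_cast D.map_natCast 2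
  have s0K : s0 r ∈ K0 := K0.mul_mem (K0.mul_mem (K0.neg_mem h2K) rK) (K0.sub_mem rK h2K)
  have s1K : s1 r ∈ K0 :=
    K0.div_mem (K0.mul_mem h2K (K0.pow_mem (K0.sub_mem rK K0.one_mem) 2)) rK
  have Ds0 : D (s0 r) = 0 := by simp [s0, Derivation.leibniz, Dr, D2]
  have Ds1 : D (s1 r) = 0 := by
    simp [s1, div_eq_mul_inv, Derivation.leibniz, Derivation.leibniz_inv,
      Derivation.leibniz_pow, Dr, D2]
  have l1 := log3 w D H h (K0.mul_mem h2K kK) (by simp [Derivation.leibniz, Dk, D2])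
  have l2 := log3 w D H h (K0.neg_mem (K0.mul_mem h2K kK)) (by simp [Derivation.leibniz, Dk, D2])
  have l3 := log3 w D H h (K0.add_mem s0K (K0.mul_mem kK s1K))
    (by simp [Derivation.leibniz, Dk, Ds0, Ds1])
  have l4 := log3 w D H h (K0.sub_mem s0K (K0.mul_mem kK s1K))
    (by simp [Derivation.leibniz, Dk, Ds0, Ds1])
  obtain ⟨c1, c2⟩ := ct w (W := W) (d := d) (by rw [hW, QQ, ← hk]; ring) l1 l2 l3 l4
  have e1 : (z1 - (s0 r + k * s1 r) - (z1 - (s0 r - k * s1 r))) ^ 2 =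
      -(16 * GG r * (r - 1) ^ 2) := by
    have : (z1 - (s0 r + k * s1 r) - (z1 - (s0 r - k * s1 r))) ^ 2 = 4 * k ^ 2 * s1 r ^ 2 := by ring
    rw [this, hk, lam, s1, GG]; field_simp; ring
  have e2 : (z1 - (s0 r + k * s1 r) - (z1 - (s0 r - k * s1 r))) *
      (z1 - 2 * k - (z1 - -(2 * k))) = -(16 * GG r * r) := by
    have : (z1 - (s0 r + k * s1 r) - (z1 - (s0 r - k * s1 r))) *
      (z1 - 2 * k - (z1 - -(2 * k))) = 8 * k ^ 2 * s1 r := by ring
    rw [this, hk, lam, s1, GG]; field_simp; ring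
  rw [e1, Valuation.map_neg, map_mul] at c1
  rw [e2, Valuation.map_neg, map_mul] at c2
  refine (mul_le_mul_right (mul_le_mul_right (max_sq_le w r) _) _).trans ?_
  rcases le_total (w ((r - 1) ^ 2)) (w r) with m | m
  · rwa [max_eq_right m]
  · rwa [max_eq_left m]

omit [CharZero L] in
theorem sum3_le {a b c : L} {t M : Γ} (ha : w a ^ 4 * t ≤ M) (hb : w b ^ 4 * t ≤ M)
    (hc : w c ^ 4 * t ≤ M) : w (a + b + c) ^ 4 * t ≤ M := by
  have two : ∀ x y : L, w x ^ 4 * t ≤ M → w y ^ 4 * t ≤ M → w (x + y) ^ 4 * t ≤ M := by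
    intro x y hx hy
    rcases le_total (w x) (w y) with h | h
    · exact (mul_le_mul_left (pow_le_pow_left' (w_add_le w h le_rfl) 4) _).trans hy
    · exact (mul_le_mul_left (pow_le_pow_left' (w_add_le w le_rfl h) 4) _).trans hx
  exact two _ _ (two _ _ ha hb) hc

/-- **scalar bound, `s`-model** `d W^4 = (s^2 - 4 lam) Q(s)^2`, `g = ∑ D s_i / W_i`. -/
theorem scal (H : ∀ h ∈ K0, w (D h) ≤ w h) {r k d z1 z2 z3 W1 W2 W3 : L} (hr : r ≠ 0)
    (rK : r ∈ K0) (kK : k ∈ K0) (Dr : D r = 0) (Dk : D k = 0) (hk : k ^ 2 = lam r)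
    (h : Sym3 K0 z1 z2 z3) (h1 : d * W1 ^ 4 = (z1 ^ 2 - 4 * lam r) * QQ r z1 ^ 2)
    (h2 : d * W2 ^ 4 = (z2 ^ 2 - 4 * lam r) * QQ r z2 ^ 2)
    (h3 : d * W3 ^ 4 = (z3 ^ 2 - 4 * lam r) * QQ r z3 ^ 2) :
    w (972 * (D z1 / W1 + D z2 / W2 + D z3 / W3)) ^ 4 * (w (16 * GG r) * max 1 (w r) ^ 2) ≤ w d := by
  have : 972 * (D z1 / W1 + D z2 / W2 + D z3 / W3) =
      972 * D z1 / W1 + 972 * D z2 / W2 + 972 * D z3 / W3 := by ring
  rw [this]
  exact sum3_le w (scal_one w D H hr rK kK Dr Dk hk h h1)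
    (scal_one w D H hr rK kK Dr Dk hk h.rot h2) (scal_one w D H hr rK kK Dr Dk hk h.rot.rot h3)

/-- the septic `F (x) = x (x^2 - lam) x^2 Q (x + lam / x)` -/
def FF (r x : L) : L :=
  x * (x ^ 2 - lam r) * ((x ^ 2 - s0 r * x + lam r) ^ 2 - lam r * s1 r ^ 2 * x ^ 2)

omit [CharZero L] in
theorem Sym3.joukowski {z1 z2 z3 l : L} (h : Sym3 K0 z1 z2 z3) (hl : l ∈ K0) (n1 : z1 ≠ 0)
    (n2 : z2 ≠ 0) (n3 : z3 ≠ 0) : Sym3 K0 (z1 + l / z1) (z2 + l / z2) (z3 + l / z3) := by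
  obtain ⟨a, b, c⟩ := h
  set e1 := z1 + z2 + z3 with h1
  set e2 := z1 * z2 + z1 * z3 + z2 * z3 with h2
  set e3 := z1 * z2 * z3 with h3
  have h2K : (2 : L) ∈ K0 := by exact_mod_cast natCast_mem K0 2
  have h3K : (3 : L) ∈ K0 := by exact_mod_cast natCast_mem K0 3
  refine ⟨?_, ?_, ?_⟩
  · have : z1 + l / z1 + (z2 + l / z2) + (z3 + l / z3) = e1 + l * e2 / e3 := by
      rw [h1, h2, h3]; field_simp; ring
    rw [this]; exact K0.add_mem a (K0.div_mem (K0.mul_mem hl b) c)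
  · have : (z1 + l / z1) * (z2 + l / z2) + (z1 + l / z1) * (z3 + l / z3) +
        (z2 + l / z2) * (z3 + l / z3) = e2 + l * ((e1 * e2 - 3 * e3) / e3) + l * l * e1 / e3 := by
      rw [h1, h2, h3]; field_simp; ring
    rw [this]
    exact K0.add_mem (K0.add_mem b (K0.mul_mem hl (K0.div_mem
      (K0.sub_mem (K0.mul_mem a b) (K0.mul_mem h3K c)) c)))
      (K0.div_mem (K0.mul_mem (K0.mul_mem hl hl) a) c)
  · have : (z1 + l / z1) * (z2 + l / z2) * (z3 + l / z3) =
        e3 + l * ((e2 * e2 - 2 * (e1 * e3)) / e3) + l * l * ((e1 * e1 - 2 * e2) / e3) +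
          l * l * l / e3 := by
      rw [h1, h2, h3]; field_simp; ring
    rw [this]
    exact K0.add_mem (K0.add_mem (K0.add_mem c (K0.mul_mem hl (K0.div_mem
      (K0.sub_mem (K0.mul_mem b b) (K0.mul_mem h2K (K0.mul_mem a c))) c)))
      (K0.mul_mem (K0.mul_mem hl hl) (K0.div_mem
        (K0.sub_mem (K0.mul_mem a a) (K0.mul_mem h2K b)) c)))
      (K0.div_mem (K0.mul_mem (K0.mul_mem hl hl) hl) c)

/-- **scalar bound, `x`-model** `c y^2 = F (x)`, `g = ∑ (x_i^2 - lam) D x_i / y_i`. -/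
theorem scal_x (H : ∀ h ∈ K0, w (D h) ≤ w h) {r k c x1 x2 x3 y1 y2 y3 : L} (hr : r ≠ 0)
    (rK : r ∈ K0) (kK : k ∈ K0) (Dr : D r = 0) (Dk : D k = 0) (hk : k ^ 2 = lam r)
    (h : Sym3 K0 x1 x2 x3) (n1 : x1 ≠ 0) (n2 : x2 ≠ 0) (n3 : x3 ≠ 0)
    (h1 : c * y1 ^ 2 = FF r x1) (h2 : c * y2 ^ 2 = FF r x2) (h3 : c * y3 ^ 2 = FF r x3) :
    w (972 * ((x1 ^ 2 - lam r) * D x1 / y1 + (x2 ^ 2 - lam r) * D x2 / y2 +
      (x3 ^ 2 - lam r) * D x3 / y3)) ^ 4 * (w (16 * GG r) * max 1 (w r) ^ 2) ≤ w (c ^ 2) := by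
  have lK : lam r ∈ K0 := hk ▸ K0.pow_mem kK 2
  have Dl : D (lam r) = 0 := by rw [← hk]; simp [Derivation.leibniz_pow, Dk]
  have cv : ∀ x y : L, x ≠ 0 → c * y ^ 2 = FF r x →
      c ^ 2 * (y / x ^ 2) ^ 4 = ((x + lam r / x) ^ 2 - 4 * lam r) * QQ r (x + lam r / x) ^ 2 := by
    intro x y hx e
    have : c ^ 2 * (y / x ^ 2) ^ 4 = (c * y ^ 2) ^ 2 / x ^ 8 := by field_simp
    rw [this, e, FF, QQ]; field_simp; ring
  have dv : ∀ x y : L, x ≠ 0 →
      (x ^ 2 - lam r) * D x / y = D (x + lam r / x) / (y / x ^ 2) := by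
    intro x y hx
    rw [map_add, div_eq_mul_inv (lam r), Derivation.leibniz, Derivation.leibniz_inv, Dl]
    simp only [smul_eq_mul]
    rcases eq_or_ne y 0 with rfl | hy
    · simp
    field_simp; ring
  rw [dv _ _ n1, dv _ _ n2, dv _ _ n3]
  exact scal w D H hr rK kK Dr Dk hk (h.joukowski lK n1 n2 n3) (cv _ _ n1 h1) (cv _ _ n2 h2)
    (cv _ _ n3 h3)

end Crest.Agent.T15.Sc3
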