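import Crest.Agent.T15.SmA_96
import Crest.Agent.R007.RatDesc

/-!
# Row 15 (helper96): rationality of the eigenvalues at every prime not dividing `6 N`

`ratsm`: a system of eigenvalues all of whose conjugates occur in `S₂(Γ₀(N))` and that lies in
`ℚ · √3 ^ [l ≡ 3 mod 4]` at almost all primes comes from a pair of cusp forms with integer
coefficients of level `3456 N³`.
-/

set_option autoImplicit false

noncomputable section

namespace Crest.Agent.T15.Sm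

/-- the Hecke operator on sequences -/
def T {R : Type*} [Semiring R] (l : ℕ) (c : ℕ → R) (n : ℕ) : R :=
  c (l * n) + if l ∣ n then (l : R) * c (n / l) else 0

/-- the recursion at the primes not dividing `M` -/
def Rec (M : ℕ) (a r : ℕ → ℂ) : Prop := ∀ l : ℕ, l.Prime → ¬ l ∣ M → ∀ n, T l r n = a l * r n

/-- normalised and depleted -/
structure Nf (M : ℕ) (a r : ℕ → ℂ) : Prop where
  one : r 1 = 1
  sup : ∀ n, ¬ n.Coprime M → r n = 0
  eig : Rec M a r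

/-- `Top.Mod` in the words of this file -/
def Md (N : ℕ) (a : ℕ → ℂ) : Prop := ∃ c, Cf N c ∧ c ≠ 0 ∧ Rec (3 * N) a c

variable {M N : ℕ} {a a' r r' : ℕ → ℂ}

lemma Rec.mono (h : Rec M a r) {M' : ℕ} (hM : M ∣ M') : Rec M' a r :=
  fun l hl hd => h l hl fun h' => hd (h'.trans hM)

/-- induction along the recursion -/
lemma rec_ind {P : ℕ → Prop} {D : ℕ → Prop} (h1 : ∀ n, (∀ l : ℕ, l.Prime → l ∣ n → l ∣ M) → D n → P n)
    (hD : ∀ n k, k ∣ n → D n → D k)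
    (h2 : ∀ l n, l.Prime → ¬ l ∣ M → P n → (l ∣ n → P (n / l)) → P (l * n)) (n : ℕ) (h0 : n ≠ 0)
    (hn : D n) : P n := by
  induction n using Nat.strong_induction_on with
  | _ n ih =>
    by_cases h : ∀ l : ℕ, l.Prime → l ∣ n → l ∣ M
    · exact h1 n h hn
    push Not at h
    obtain ⟨l, hl, ⟨m, rfl⟩, hM⟩ := h
    have hm : m ≠ 0 := right_ne_zero_of_mul h0
    have hlt : m < l * m := lt_mul_left (Nat.pos_of_ne_zero hm) hl.one_lt
    refine h2 l m hl hM (ih m hlt hm (hD _ _ (dvd_mul_left m l) hn)) fun hd => ?_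
    exact ih _ ((Nat.div_le_self m l).trans_lt hlt)
      (Nat.div_pos (Nat.le_of_dvd (Nat.pos_of_ne_zero hm) hd) hl.pos).ne'
      (hD _ _ ((Nat.div_dvd_of_dvd hd).mul_left l) hn)

lemma eq_one_of {n : ℕ} (h : ∀ l : ℕ, l.Prime → l ∣ n → l ∣ M) (hc : n.Coprime M) : n = 1 :=
  Nat.eq_one_iff_not_exists_prime_dvd.2 fun l hl hd =>
    hl.one_lt.ne' (Nat.eq_one_of_dvd_coprimes hc hd (h l hl hd))

lemma Rec.step (h : Rec M a r) {l : ℕ} (hl : l.Prime) (hd : ¬ l ∣ M) (n : ℕ) :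
    r (l * n) = a l * r n - if l ∣ n then (l : ℂ) * r (n / l) else 0 :=
  eq_sub_of_add_eq (h l hl hd n)

lemma Rec.unique (h : Rec M a r) (h' : Rec M a' r') (h1 : r 1 = r' 1)
    (ha : ∀ l : ℕ, l.Prime → ¬ l ∣ M → a l = a' l) {n : ℕ} (h0 : n ≠ 0) (hn : n.Coprime M) :
    r n = r' n := by
  refine rec_ind (M := M) (P := fun n => r n = r' n) (D := fun n => n.Coprime M)
    (fun n h hc => eq_one_of h hc ▸ h1) (fun n k hk hn => hn.coprime_dvd_left hk)
    (fun l n hl hd e1 e2 => ?_) n h0 hn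
  rw [h.step hl hd, h'.step hl hd, e1, ha l hl hd]
  split_ifs with h3
  · rw [e2 h3]
  · rfl

lemma Nf.mem (h : Nf M a r) (hM : M ≠ 1) (S : Subring ℂ)
    (ha : ∀ l : ℕ, l.Prime → ¬ l ∣ M → a l ∈ S) (n : ℕ) : r n ∈ S := by
  by_cases hn : n.Coprime M
  · refine rec_ind (M := M) (P := fun n => r n ∈ S) (D := fun n => n.Coprime M)
      (fun n h' hc => ?_) (fun n k hk hn => hn.coprime_dvd_left hk)
      (fun l n hl hd e1 e2 => ?_) n (by rintro rfl; exact hM (by simpa using hn)) hn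
    · rw [eq_one_of h' hc, h.one]; exact S.one_mem
    · rw [h.eig.step hl hd]
      refine S.sub_mem (S.mul_mem (ha l hl hd) e1) ?_
      split_ifs with h3
      · exact S.mul_mem (natCast_mem S l) (e2 h3)
      · exact S.zero_mem
  · rw [h.sup n hn]; exact S.zero_mem

lemma Nf.unique (h : Nf M a r) (h' : Nf M a r') (hM : M ≠ 1) : r = r' := funext fun n => by
  by_cases hn : n.Coprime M
  · exact h.eig.unique h'.eig (h.one.trans h'.one.symm) (fun _ _ _ => rfl)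
      (by rintro rfl; exact hM (by simpa using hn)) hn
  · rw [h.sup n hn, h'.sup n hn]

lemma Nf.map (h : Nf M a r) (s : ℂ →+* ℂ) : Nf M (fun l => s (a l)) fun n => s (r n) :=
  ⟨by rw [h.one, map_one], fun n hn => by rw [h.sup n hn, map_zero], fun l hl hd n => by
    have := congr_arg s (h.eig l hl hd n)
    simpa [T, apply_ite s] using this⟩

lemma Nf.val (h : Nf M a r) {l : ℕ} (hl : l.Prime) (hd : ¬ l ∣ M) : a l = r l := by
  have := h.eig l hl hd 1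
  simpa [T, h.one, hl.one_lt.ne'] using this.symm

/-- multiplication by a function that transforms nicely -/
lemma T_mul' {R : Type*} [CommSemiring R] {l : ℕ} (u v c : ℕ → R) (n : ℕ)
    (h : ∀ k, c (l * k) ≠ 0 ∨ c k ≠ 0 → u (l * k) = v k ∧ v (l * k) = u k) :
    T l (fun n => u n * c n) n = v n * T l c n := by
  unfold T
  beta_reduce
  have e1 : u (l * n) * c (l * n) = v n * c (l * n) := by
    by_cases h2 : c (l * n) = 0
    · rw [h2, mul_zero, mul_zero]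
    · rw [(h n (Or.inl h2)).1]
  rw [e1, mul_add]
  congr 1
  split_ifs with h2
  · obtain ⟨k, rfl⟩ := h2
    rcases Nat.eq_zero_or_pos l with rfl | hl
    · simp
    rw [Nat.mul_div_cancel_left k hl]
    by_cases h3 : c k = 0
    · rw [h3]; simp
    · rw [(h k (Or.inr h3)).2]; ring
  · simp

/-- **normalisation** -/
theorem Md.nf (h : Md N a) (hN : N ≠ 0) {M : ℕ} (hM : M ≠ 0) (h3 : 3 * N ∣ M) :
    ∃ r, Cf (M * M ^ 2) r ∧ Nf M a r := by
  obtain ⟨c, hc, h0, hr⟩ := h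
  have hr := hr.mono h3
  obtain ⟨d, hd0, hd, hcd⟩ : ∃ d, d ≠ 0 ∧ (∀ p : ℕ, p.Prime → p ∣ d → p ∣ M) ∧ c d ≠ 0 := by
    by_contra hne
    push Not at hne
    refine h0 (hc.eq_zero_of_dvd (p := N + 1) (by omega) (by simp) fun n hn => ?_)
    refine rec_ind (M := M) (P := fun n => n ≠ 0 → c n = 0) (D := fun _ => True)
      (fun n h' _ h1 => hne n h1 h') (fun _ _ _ _ => trivial) (fun l n hl hd e1 e2 h1 => ?_) n
      (by rintro rfl; simp at hn) trivial (by rintro rfl; simp at hn)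
    have hn0 : n ≠ 0 := right_ne_zero_of_mul h1
    rw [hr.step hl hd, e1 hn0]
    split_ifs with h3
    · rw [e2 h3 (Nat.div_pos (Nat.le_of_dvd (Nat.pos_of_ne_zero hn0) h3) hl.pos).ne']; simp
    · simp
  have h1 := (((hc.mono ((dvd_mul_left N 3).trans h3)).U' hd0 hd).smul (c d)⁻¹).deplete hM
  refine ⟨_, h1, by simp [hcd], fun n hn => if_neg hn, fun l hl hl' n => ?_⟩
  have hco : l.Coprime M := hl.coprime_iff_not_dvd.2 hl'
  have hld : l.Coprime d := hl.coprime_iff_not_dvd.2 fun h' => hl' (hd l hl h')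
  have h2 := T_mul' (l := l) (fun n => if n.Coprime M then (c d)⁻¹ else 0)
    (fun n => if n.Coprime M then (c d)⁻¹ else 0) (fun n => c (d * n)) n fun k _ => by
      simp only [Nat.coprime_mul_iff_left, eq_true hco, true_and, and_self]
  have h4 : T l (fun n => c (d * n)) n = a l * c (d * n) := by
    rw [← hr l hl hl' (d * n)]
    unfold T
    rw [mul_left_comm]
    congr 1
    by_cases h5 : l ∣ n
    · rw [if_pos h5, if_pos (h5.mul_left d), Nat.mul_div_assoc d h5]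
    · rw [if_neg h5, if_neg fun h6 => h5 (hld.dvd_of_dvd_mul_left h6)]
  simp only [ite_mul, zero_mul] at h2
  simp only [Pi.smul_apply, smul_eq_mul]
  rw [h2, h4]
  split_ifs
  · ring
  · simp

lemma mod4 {l k : ℕ} (hl : l % 2 = 1) (hk : k % 2 = 1) :
    (l % 4 = 1 ∧ (l * k) % 4 = k % 4 ∧ (k % 4 = 1 ∨ k % 4 = 3)) ∨
    (l % 4 = 3 ∧ ((l * k) % 4 = 3 ∧ k % 4 = 1 ∨ (l * k) % 4 = 1 ∧ k % 4 = 3)) := by
  rw [Nat.mul_mod]
  rcases (by omega : l % 4 = 1 ∨ l % 4 = 3) with h | h <;>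
    rcases (by omega : k % 4 = 1 ∨ k % 4 = 3) with h' | h' <;> simp [h, h']

lemma Nf.odd (h : Nf M a r) (h2 : 2 ∣ M) {n : ℕ} (hn : r n ≠ 0) : n % 2 = 1 := by
  by_contra hne
  exact hn (h.sup n fun hc => by
    have := Nat.eq_one_of_dvd_coprimes hc (by omega : 2 ∣ n) h2
    omega)

lemma odd_of_not_dvd {l : ℕ} (hl : l.Prime) (h2 : 2 ∣ M) (hd : ¬ l ∣ M) : l % 2 = 1 :=
  hl.eq_two_or_odd.resolve_left fun h => hd (h ▸ h2)

lemma Nf.odd' (h : Nf M a r) (h2 : 2 ∣ M) {l k : ℕ} (hk : r (l * k) ≠ 0 ∨ r k ≠ 0) :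
    k % 2 = 1 := by
  rcases hk with hk | hk
  · exact Nat.odd_iff.1 (Nat.odd_mul.1 (Nat.odd_iff.2 (h.odd h2 hk))).2
  · exact h.odd h2 hk

/-- functions of the class modulo four -/
theorem Cf.mod4 (h : Cf N r) (x y : ℂ) :
    Cf (N * 4 ^ 2) fun n => (if n % 4 = 3 then x else y) * r n := by
  have hu : ∀ u : (ZMod 4)ˣ, (u : ZMod 4) ^ 2 = 1 := by decide
  have := h.twist (m := 4) (by norm_num) (fun k => if k = 3 then x else y) fun u n => by
    rw [hu, one_mul]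
  convert this using 4 with n
  rw [show (3 : ZMod 4) = ((3 : ℕ) : ZMod 4) from rfl, ZMod.natCast_eq_natCast_iff']

lemma rat_of_fixed {x : ℂ} (h : ∀ s : ℂ ≃+* ℂ, s x = x) : ∃ q : ℚ, x = q := by
  obtain ⟨q, hq⟩ := R007.RatAlg.mem_of_fixed (Rat.castHom ℂ).fieldRange x fun s _ => h s
  exact ⟨q, hq.symm⟩

lemma int_of_rat {q : ℚ} (h : IsIntegral ℤ (q : ℂ)) : ∃ z : ℤ, q = z := by
  obtain ⟨z, hz⟩ := IsIntegrallyClosed.isIntegral_iff.1
    ((isIntegral_algebraMap_iff (algebraMap ℚ ℂ).injective).1 h)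
  exact ⟨z, hz.symm⟩

lemma int_of_rat3 {q : ℚ} {s : ℂ} (hs : s ^ 2 = 3) (h : IsIntegral ℤ (q * s)) : ∃ z : ℤ, q = z := by
  have h1 : IsIntegral ℤ s := IsIntegral.of_pow two_pos (by
    rw [hs]; exact_mod_cast isIntegral_algebraMap (R := ℤ) (A := ℂ) (x := 3))
  obtain ⟨w, hw⟩ := int_of_rat (q := 3 * q) (by
    rw [show ((3 * q : ℚ) : ℂ) = q * s * s by push_cast; linear_combination (-q : ℂ) * hs]
    exact h.mul h1)
  obtain ⟨z, hz⟩ := int_of_rat (q := 3 * q ^ 2) (by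
    rw [show ((3 * q ^ 2 : ℚ) : ℂ) = (q * s) ^ 2 by
      push_cast; linear_combination (-q ^ 2 : ℂ) * hs]
    exact h.pow 2)
  have h2 : w ^ 2 = 3 * z := by
    have : (w : ℚ) ^ 2 = 3 * z := by rw [← hw, ← hz]; ring
    exact_mod_cast this
  obtain ⟨k, rfl⟩ := Int.prime_three.dvd_of_dvd_pow (h2 ▸ dvd_mul_right 3 z)
  exact ⟨k, by push_cast at hw; linarith⟩

/-- the pair of cusp forms with integer coefficients, `f = g₁ + s g₃` -/
structure Pair (M L : ℕ) (a : ℕ → ℂ) (s : ℂ) (c1 c3 : ℕ → ℤ) : Prop where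
  one : c1 1 = 1
  sup1 : ∀ n, c1 n ≠ 0 → n % 4 = 1 ∧ n.Coprime M
  sup3 : ∀ n, c3 n ≠ 0 → n % 4 = 3 ∧ n.Coprime M
  cf1 : Cf L fun n => c1 n
  cf3 : Cf L fun n => c3 n
  a1 : ∀ l : ℕ, l.Prime → ¬ l ∣ M → l % 4 = 1 → a l = c1 l
  a3 : ∀ l : ℕ, l.Prime → ¬ l ∣ M → l % 4 = 3 → a l = c3 l * s
  rec1 : ∀ l : ℕ, l.Prime → ¬ l ∣ M → l % 4 = 1 → ∀ n,
    T l c1 n = c1 l * c1 n ∧ T l c3 n = c1 l * c3 n
  rec3 : ∀ l : ℕ, l.Prime → ¬ l ∣ M → l % 4 = 3 → ∀ n,
    T l c1 n = 3 * c3 l * c3 n ∧ T l c3 n = c3 l * c1 n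

lemma T_cast (l : ℕ) (c : ℕ → ℤ) (n : ℕ) : ((T l c n : ℤ) : ℂ) = T l (fun n => (c n : ℂ)) n := by
  simp [T]

/-- conjugation acts by a twist -/
theorem conj_eq {B L : ℕ} (hB : B ≠ 0) (hM : 2 ∣ M) (hL : ∀ p : ℕ, p.Prime → p ∣ L → p ∣ M)
    (h : Nf M a r) (hc : Cf L r) (σ : ℂ →+* ℂ) (hσ : Cf L fun n => σ (r n)) {e : ℂ} (he : e * e = 1)
    (ha : ∀ l : ℕ, l.Prime → ¬ l ∣ M * B → σ (a l) = (if l % 4 = 3 then e else 1) * a l) (n : ℕ) :
    σ (r n) = (if n % 4 = 3 then e else 1) * r n := by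
  have h1 := ((hσ.mono (dvd_mul_right L (4 ^ 2))).sub (hc.mod4 e 1)).eq_zero
    (B.primeFactors.filter fun p => ¬ p ∣ M) (fun p hp => ?_) fun n hn => ?_
  · exact sub_eq_zero.1 (congr_fun h1 n)
  · obtain ⟨h2, h3⟩ := Finset.mem_filter.1 hp
    have hp := Nat.prime_of_mem_primeFactors h2
    refine ⟨hp, fun h4 => h3 ?_⟩
    rcases hp.dvd_mul.1 h4 with h5 | h5
    · exact hL p hp h5
    · exact (hp.dvd_of_dvd_pow (show p ∣ 2 ^ 4 from h5)).trans hM
  · by_cases hc : n.Coprime M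
    · have hnB : n.Coprime (M * B) := Nat.Coprime.symm <| Nat.coprime_of_dvd fun p hp h2 h3 => by
        have h4 : ¬ p ∣ M := fun h4 => hp.one_lt.ne' (Nat.eq_one_of_dvd_coprimes hc h3 h4)
        exact hn p (Finset.mem_filter.2 ⟨Nat.mem_primeFactors.2
          ⟨hp, (hp.dvd_mul.1 h2).resolve_left h4, hB⟩, h4⟩) h3
      have hR : Rec M (fun l => (if l % 4 = 3 then e else 1) * a l)
          fun n => (if n % 4 = 3 then e else 1) * r n := fun l hl hd n => by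
        rw [T_mul' (fun n => if n % 4 = 3 then e else 1)
          (fun n => (if l % 4 = 3 then e else 1) * if n % 4 = 3 then e else 1) r n fun k hk => ?_,
          h.eig l hl hd n]
        · ring
        · rcases mod4 (odd_of_not_dvd hl hM hd) (h.odd' hM hk) with
            ⟨h1, h2, h3 | h3⟩ | ⟨h1, ⟨h2, h3⟩ | ⟨h2, h3⟩⟩ <;> simp [h1, h2, h3, he]
      exact sub_eq_zero.2 (((h.map σ).eig.mono (dvd_mul_right M B)).unique
        (hR.mono (dvd_mul_right M B)) (by simp [h.one]) ha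
        (by rintro rfl; rw [Nat.coprime_zero_left] at hc; omega) hnB)
    · simp [h.sup n hc]

/-- **RATSM** -/
theorem ratsm {B : ℕ} (hN : N ≠ 0) (hB : B ≠ 0) {s : ℂ} (hs : s ^ 2 = 3)
    (hM : ∀ σ : ℂ ≃+* ℂ, Md N fun l => σ (a l))
    (hI : ∀ l : ℕ, l.Prime → ¬ l ∣ 3 * N → IsIntegral ℤ (a l))
    (h1 : ∀ l : ℕ, l.Prime → ¬ l ∣ B → l % 4 = 1 → ∃ q : ℚ, a l = q)
    (h3 : ∀ l : ℕ, l.Prime → ¬ l ∣ B → l % 4 = 3 → ∃ q : ℚ, a l = q * s) :
    ∃ c1 c3, Pair (6 * N) (3456 * N ^ 3) a s c1 c3 := by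
  have hM0 : 6 * N ≠ 0 := by omega
  have hd : 3 * N ∣ 6 * N := ⟨2, by ring⟩
  have h2 : 2 ∣ 6 * N := by omega
  have hs0 : s ≠ 0 := by rintro rfl; norm_num at hs
  obtain ⟨r, hc, hr⟩ := (hM (RingEquiv.refl ℂ)).nf hN hM0 hd
  replace hr : Nf (6 * N) a r := hr
  have key (σ : ℂ ≃+* ℂ) : ∃ e : ℂ, e * e = 1 ∧ σ s = e * s ∧
      ∀ n, σ (r n) = (if n % 4 = 3 then e else 1) * r n := by
    obtain ⟨e, he, hes⟩ : ∃ e : ℂ, e * e = 1 ∧ σ s = e * s := by
      have : σ s ^ 2 = s ^ 2 := by rw [← map_pow, hs, map_ofNat]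
      rcases sq_eq_sq_iff_eq_or_eq_neg.1 this with h | h
      · exact ⟨1, by simp, by simpa using h⟩
      · exact ⟨-1, by simp, by simpa using h⟩
    obtain ⟨r', hc', hr'⟩ := (hM σ).nf hN hM0 hd
    rw [hr'.unique (hr.map σ) (by omega)] at hc'
    refine ⟨e, he, hes, conj_eq hB h2 (fun p hp h => ?_) hr hc σ hc' he fun l hl hl' => ?_⟩
    · exact hp.dvd_of_dvd_pow (n := 3) (by convert h using 1; ring)
    · have h4 := odd_of_not_dvd hl (h2.mul_right B) hl'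
      have h5 : ¬ l ∣ B := fun h => hl' (h.mul_left _)
      split_ifs with h6
      · obtain ⟨q, hq⟩ := h3 l hl h5 h6
        rw [hq, map_mul, map_ratCast]
        exact (congr_arg _ hes).trans (by ring)
      · obtain ⟨q, hq⟩ := h1 l hl h5 (by omega)
        rw [hq, map_ratCast, one_mul]
  have hint (n : ℕ) : IsIntegral ℤ (r n) :=
    hr.mem (by omega) (integralClosure ℤ ℂ).toSubring
      (fun l hl hl' => hI l hl fun h => hl' (h.trans hd)) n
  have hg (n : ℕ) : ∃ g : ℤ, r n = g * if n % 4 = 3 then s else 1 := by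
    split_ifs with h
    · obtain ⟨q, hq⟩ := rat_of_fixed (x := r n / s) fun σ => by
        obtain ⟨e, he, hes, h4⟩ := key σ
        rw [map_div₀, h4, hes, if_pos h, mul_div_mul_left _ _ (left_ne_zero_of_mul_eq_one he)]
      have h5 : r n = q * s := by rw [← hq]; field_simp
      obtain ⟨z, rfl⟩ := int_of_rat3 hs (h5 ▸ hint n)
      exact ⟨z, by simpa using h5⟩
    · obtain ⟨q, hq⟩ := rat_of_fixed (x := r n) fun σ => by
        obtain ⟨e, -, -, h4⟩ := key σ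
        rw [h4, if_neg h, one_mul]
      obtain ⟨z, rfl⟩ := int_of_rat (hq ▸ hint n)
      exact ⟨z, by simpa using hq⟩
  choose g hg using hg
  have e1 (n : ℕ) : ((if n % 4 = 3 then 0 else g n : ℤ) : ℂ) =
      (if n % 4 = 3 then 0 else 1) * r n := by
    rw [hg]; split_ifs <;> simp
  have e3 (n : ℕ) : ((if n % 4 = 3 then g n else 0 : ℤ) : ℂ) =
      (if n % 4 = 3 then s⁻¹ else 0) * r n := by
    rw [hg]; split_ifs
    · field_simp
    · simp
  have hne {n : ℕ} (h : g n ≠ 0) : r n ≠ 0 := by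
    rw [hg]
    exact mul_ne_zero (Int.cast_ne_zero.2 h) (by split_ifs <;> simp [hs0])
  have hco {n : ℕ} (h : g n ≠ 0) : n.Coprime (6 * N) := by
    by_contra h'
    exact hne h (hr.sup n h')
  have hL : 6 * N * (6 * N) ^ 2 * 4 ^ 2 = 3456 * N ^ 3 := by ring
  refine ⟨fun n => if n % 4 = 3 then 0 else g n, fun n => if n % 4 = 3 then g n else 0, ?_,
    fun n hn => ?_, fun n hn => ?_, ?_, ?_, fun l hl hl' h => ?_, fun l hl hl' h => ?_,
    fun l hl hl' h n => ⟨?_, ?_⟩, fun l hl hl' h n => ⟨?_, ?_⟩⟩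
  · have := hg 1
    rw [hr.one] at this
    exact_mod_cast (by simpa using this.symm : (g 1 : ℂ) = 1)
  · split_ifs at hn with h
    · exact absurd rfl hn
    · have := hr.odd h2 (hne hn)
      exact ⟨by omega, hco hn⟩
  · split_ifs at hn with h
    · exact ⟨h, hco hn⟩
    · exact absurd rfl hn
  · simpa only [e1, hL] using hc.mod4 0 1
  · simpa only [e3, hL] using hc.mod4 s⁻¹ 0
  · rw [hr.val hl hl', hg]; simp [h]
  · rw [hr.val hl hl', hg]; simp [h]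
  all_goals
    apply Int.cast_injective (α := ℂ)
    rw [T_cast]
    simp only [Int.cast_mul, Int.cast_ofNat, e1, e3]
  · rw [T_mul' _ (fun n => if n % 4 = 3 then 0 else 1) r n fun k hk => ?_, hr.eig l hl hl',
      hr.val hl hl']
    · simp [h]
    · rcases mod4 (odd_of_not_dvd hl h2 hl') (hr.odd' h2 hk) with
        ⟨h1, h2, h3 | h3⟩ | ⟨h1, ⟨h2, h3⟩ | ⟨h2, h3⟩⟩ <;> simp_all
  · rw [T_mul' _ (fun n => if n % 4 = 3 then s⁻¹ else 0) r n fun k hk => ?_, hr.eig l hl hl',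
      hr.val hl hl']
    · simp [h]; split_ifs
      · ring
      · simp
    · rcases mod4 (odd_of_not_dvd hl h2 hl') (hr.odd' h2 hk) with
        ⟨h1, h2, h3 | h3⟩ | ⟨h1, ⟨h2, h3⟩ | ⟨h2, h3⟩⟩ <;> simp_all
  · rw [T_mul' _ (fun n => if n % 4 = 3 then 1 else 0) r n fun k hk => ?_, hr.eig l hl hl',
      hr.val hl hl']
    · simp only [h, if_true]
      split_ifs
      · field_simp; rw [hs]
      · simp
    · rcases mod4 (odd_of_not_dvd hl h2 hl') (hr.odd' h2 hk) with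
        ⟨h1, h2, h3 | h3⟩ | ⟨h1, ⟨h2, h3⟩ | ⟨h2, h3⟩⟩ <;> simp_all
  · rw [T_mul' _ (fun n => if n % 4 = 3 then 0 else s⁻¹) r n fun k hk => ?_, hr.eig l hl hl',
      hr.val hl hl']
    · simp only [h, if_true]
      split_ifs
      · simp
      · ring
    · rcases mod4 (odd_of_not_dvd hl h2 hl') (hr.odd' h2 hk) with
        ⟨h1, h2, h3 | h3⟩ | ⟨h1, ⟨h2, h3⟩ | ⟨h2, h3⟩⟩ <;> simp_all

end Crest.Agent.T15.Sm
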