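import Crest.Agent.T15.MumB_4
import Crest.Agent.T15.AxB_14
import Crest.Agent.T15.BrA_37

/-!
# Row 15, block Ht, STAB part A (helper17)

Uniqueness for the formal Abel equations, conjugate germs `Cj`, the Mumford coordinates of
`c + ex (Ψ q)` and `s c + ex (Ψ q)` are conjugate (`form`), good base classes (`exists_good`).
-/

set_option autoImplicit false
set_option linter.unusedSectionVars false
set_option linter.unusedVariables false

open Polynomial Filter Topology Set
open Crest.Agent.T15.AlgM Crest.Agent.T15.Mum Crest.Agent.T15.Ax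

noncomputable section

namespace Crest.Agent.T15.Stab

section formal

variable {K : Type*} [Field K] [CharZero K]

lemma dvd_succ {n : ℕ} {f : PowerSeries K} (h0 : PowerSeries.constantCoeff f = 0)
    (h : PowerSeries.X ^ n ∣ PowerSeries.derivative K f) : PowerSeries.X ^ (n + 1) ∣ f := by
  rw [PowerSeries.X_pow_dvd_iff] at h ⊢
  intro m hm
  rcases m with _ | m
  · simpa using h0
  · have := h m (by omega)
    rw [PowerSeries.coeff_derivative] at this
    exact (mul_eq_zero.1 this).resolve_right (by exact_mod_cast Nat.succ_ne_zero m)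

/-- uniqueness for the formal Abel equations -/
theorem formal_unique {g : ℕ} (H : (PowerSeries K)[X]) {x w e x' w' e' : Fin g → PowerSeries K}
    (hx : ∀ j, PowerSeries.derivative K (x j) = e j * w j)
    (hx' : ∀ j, PowerSeries.derivative K (x' j) = e' j * w' j)
    (hw : ∀ j, PowerSeries.derivative K (w j) = e j * H.eval (x j))
    (hw' : ∀ j, PowerSeries.derivative K (w' j) = e' j * H.eval (x' j))
    (hs : ∀ k : Fin g, ∑ j, x j ^ (k : ℕ) * e j = ∑ j, x' j ^ (k : ℕ) * e' j)
    (x0 : ∀ j, PowerSeries.constantCoeff (x j) = PowerSeries.constantCoeff (x' j))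
    (w0 : ∀ j, PowerSeries.constantCoeff (w j) = PowerSeries.constantCoeff (w' j))
    (hi : Function.Injective fun j => PowerSeries.constantCoeff (x j)) : x = x' ∧ w = w' := by
  set V : Matrix (Fin g) (Fin g) (PowerSeries K) := (Matrix.vandermonde x).transpose with hV
  have hu : IsUnit V.det := by
    rw [PowerSeries.isUnit_iff_constantCoeff, hV, Matrix.det_transpose, RingHom.map_det]
    have : (PowerSeries.constantCoeff (R := K)).mapMatrix (Matrix.vandermonde x) =
        Matrix.vandermonde fun j => PowerSeries.constantCoeff (x j) := by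
      ext i j; simp
    rw [this]
    exact (Matrix.det_vandermonde_ne_zero_iff.2 hi).isUnit
  have key : ∀ n : ℕ, ∀ j, PowerSeries.X ^ n ∣ x j - x' j ∧ PowerSeries.X ^ n ∣ w j - w' j := by
    intro n
    induction n with
    | zero => intro j; simp
    | succ n ih =>
      have h1 : ∀ k, PowerSeries.X ^ n ∣ (V.mulVec (e - e')) k := by
        intro k
        have e1 : (V.mulVec (e - e')) k = ∑ j, -((x j ^ (k : ℕ) - x' j ^ (k : ℕ)) * e' j) := by
          have := hs k
          simp only [hV, Matrix.mulVec, dotProduct, Matrix.transpose_apply, Matrix.vandermonde_apply,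
            Pi.sub_apply, mul_sub, sub_mul, neg_sub, Finset.sum_sub_distrib]
          rw [this]
        rw [e1]
        exact Finset.dvd_sum fun j _ =>
          (((ih j).1.trans (sub_dvd_pow_sub_pow _ _ _)).mul_right _).neg_right
      have h2 : ∀ j, PowerSeries.X ^ n ∣ e j - e' j := by
        intro j
        have e2 : e - e' = V⁻¹.mulVec (V.mulVec (e - e')) := by
          rw [Matrix.mulVec_mulVec, Matrix.nonsing_inv_mul _ hu, Matrix.one_mulVec]
        have e3 : e j - e' j = ∑ k, V⁻¹ j k * (V.mulVec (e - e')) k := congrFun e2 j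
        rw [e3]
        exact Finset.dvd_sum fun k _ => (h1 k).mul_left _
      intro j
      refine ⟨dvd_succ (by rw [map_sub, x0, sub_self]) ?_, dvd_succ (by rw [map_sub, w0, sub_self]) ?_⟩
      · rw [map_sub, hx, hx', show e j * w j - e' j * w' j =
          e j * (w j - w' j) + (e j - e' j) * w' j by ring]
        exact dvd_add ((ih j).2.mul_left _) ((h2 j).mul_right _)
      · rw [map_sub, hw, hw', show e j * H.eval (x j) - e' j * H.eval (x' j) =
          e j * (H.eval (x j) - H.eval (x' j)) + (e j - e' j) * H.eval (x' j) by ring]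
        exact dvd_add (((ih j).1.trans (sub_dvd_eval_sub _ _ _)).mul_left _) ((h2 j).mul_right _)
  have z : ∀ f : PowerSeries K, (∀ n : ℕ, PowerSeries.X ^ n ∣ f) → f = 0 := fun f hf => by
    ext n
    exact PowerSeries.X_pow_dvd_iff.1 (hf (n + 1)) n (by omega)
  exact ⟨funext fun j => sub_eq_zero.1 (z _ fun n => (key n j).1),
    funext fun j => sub_eq_zero.1 (z _ fun n => (key n j).2)⟩

lemma map_derivative (s : K →+* K) (f : PowerSeries K) :
    PowerSeries.map s (PowerSeries.derivative K f) =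
      PowerSeries.derivative K (PowerSeries.map s f) := by
  ext n
  simp [PowerSeries.coeff_derivative]

end formal

lemma tay_deriv (f : ℂ → ℂ) : tay (deriv f) = PowerSeries.derivative ℂ (tay f) := by
  ext n
  rw [PowerSeries.coeff_derivative, coeff_tay, coeff_tay, iteratedDeriv_succ', Nat.factorial_succ]
  have h1 : ((n : ℂ) + 1) ≠ 0 := by exact_mod_cast Nat.succ_ne_zero n
  have h2 : (n.factorial : ℂ) ≠ 0 := by exact_mod_cast n.factorial_ne_zero
  push_cast
  field_simp

lemma tay_eval {f : ℂ → ℂ} (hf : AnalyticAt ℂ f 0) (p : ℂ[X]) :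
    tay (fun q => p.eval (f q)) = (p.map (PowerSeries.C (R := ℂ))).eval (tay f) := by
  induction p using Polynomial.induction_on' with
  | add p q hp hq =>
    have h := tay_add ((an_eval p (f 0)).fun_comp hf) ((an_eval q (f 0)).fun_comp hf)
    rw [Polynomial.map_add, eval_add, ← hp, ← hq, ← h]
    congr 1
    funext z
    simp
  | monomial n a =>
    have h := tay_mul (analyticAt_const (v := a)) (hf.pow n)
    rw [tay_const, tay_pow hf] at h
    rw [Polynomial.map_monomial, eval_monomial, ← h]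
    congr 1
    funext z
    simp

/-- conjugate germs -/
structure Cj (s : ℂ →+* ℂ) (f f' : ℂ → ℂ) : Prop where
  an : AnalyticAt ℂ f 0
  an' : AnalyticAt ℂ f' 0
  eq : tay f' = PowerSeries.map s (tay f)

section Cj

variable {s : ℂ →+* ℂ} {f f' h h' : ℂ → ℂ}

lemma Cj.const (s : ℂ →+* ℂ) (c : ℂ) : Cj s (fun _ => c) fun _ => s c :=
  ⟨analyticAt_const, analyticAt_const, by rw [tay_const, tay_const, PowerSeries.map_C]⟩

lemma Cj.const' {c c' : ℂ} (e : s c = c') : Cj s (fun _ => c) fun _ => c' := e ▸ Cj.const s c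

lemma Cj.add (a : Cj s f f') (b : Cj s h h') : Cj s (fun q => f q + h q) fun q => f' q + h' q :=
  ⟨a.an.add b.an, a.an'.add b.an', by
    have e1 := tay_add a.an b.an
    have e2 := tay_add a.an' b.an'
    refine e2.trans (Eq.trans ?_ (congrArg _ e1.symm))
    rw [map_add, a.eq, b.eq]⟩

lemma Cj.mul (a : Cj s f f') (b : Cj s h h') : Cj s (fun q => f q * h q) fun q => f' q * h' q :=
  ⟨a.an.mul b.an, a.an'.mul b.an', by
    have e1 := tay_mul a.an b.an
    have e2 := tay_mul a.an' b.an'
    refine e2.trans (Eq.trans ?_ (congrArg _ e1.symm))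
    rw [map_mul, a.eq, b.eq]⟩

lemma Cj.congr (a : Cj s f f') (e : f =ᶠ[𝓝 0] h) (e' : f' =ᶠ[𝓝 0] h') : Cj s h h' :=
  ⟨a.an.congr e, a.an'.congr e', by rw [← tay_congr e, ← tay_congr e', a.eq]⟩

lemma Cj.sub (a : Cj s f f') (b : Cj s h h') : Cj s (fun q => f q - h q) fun q => f' q - h' q :=
  (a.add ((Cj.const s (-1)).mul b)).congr (Eventually.of_forall fun q => by simp [sub_eq_add_neg])
    (Eventually.of_forall fun q => by simp [sub_eq_add_neg])

lemma Cj.zero (a : Cj s f f') : f' 0 = s (f 0) := by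
  rw [← constantCoeff_tay f', ← constantCoeff_tay f, a.eq, ← PowerSeries.coeff_zero_eq_constantCoeff_apply,
    PowerSeries.coeff_map, PowerSeries.coeff_zero_eq_constantCoeff_apply]

lemma tay_inv_mul (hf : AnalyticAt ℂ f 0) (h0 : f 0 ≠ 0) : tay (fun q => (f q)⁻¹) * tay f = 1 := by
  have e := tay_mul (hf.inv h0) hf
  refine Eq.trans e.symm (Eq.trans (tay_congr ?_) tay_one)
  filter_upwards [hf.continuousAt.eventually_ne h0] with q hq
  simp [hq]

lemma Cj.inv (a : Cj s f f') (h0 : f 0 ≠ 0) : Cj s (fun q => (f q)⁻¹) fun q => (f' q)⁻¹ := by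
  have h0' : f' 0 ≠ 0 := by rw [a.zero]; exact (map_ne_zero s).2 h0
  refine ⟨a.an.inv h0, a.an'.inv h0', ?_⟩
  have e1 := congrArg (PowerSeries.map s) (tay_inv_mul a.an h0)
  rw [map_mul, map_one, ← a.eq] at e1
  have e2 := tay_inv_mul a.an' h0'
  have hn : tay f' ≠ 0 := right_ne_zero_of_mul_eq_one e2
  exact mul_right_cancel₀ hn (e2.trans e1.symm)

lemma Cj.sum {ι : Type*} (t : Finset ι) {f f' : ι → ℂ → ℂ} (a : ∀ i ∈ t, Cj s (f i) (f' i)) :
    Cj s (fun q => ∑ i ∈ t, f i q) fun q => ∑ i ∈ t, f' i q := by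
  classical
  induction t using Finset.induction_on with
  | empty => simpa using Cj.const s 0
  | insert i t hi ih =>
    simp only [Finset.sum_insert hi]
    exact (a i (by simp)).add (ih fun j hj => a j (by simp [hj]))

lemma Cj.prod {ι : Type*} (t : Finset ι) {f f' : ι → ℂ → ℂ} (a : ∀ i ∈ t, Cj s (f i) (f' i)) :
    Cj s (fun q => ∏ i ∈ t, f i q) fun q => ∏ i ∈ t, f' i q := by
  classical
  induction t using Finset.induction_on with
  | empty => simpa using Cj.const s 1
  | insert i t hi ih =>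
    simp only [Finset.prod_insert hi]
    exact (a i (by simp)).mul (ih fun j hj => a j (by simp [hj]))

/-- conjugate families of polynomials -/
def CjP (s : ℂ →+* ℂ) (P P' : ℂ → ℂ[X]) : Prop :=
  ∀ n, Cj s (fun q => (P q).coeff n) fun q => (P' q).coeff n

variable {P P' Q Q' : ℂ → ℂ[X]}

lemma CjP.C (a : Cj s f f') : CjP s (fun q => C (f q)) fun q => C (f' q) := fun n => by
  simp only [coeff_C]
  split_ifs
  exacts [a, Cj.const' (map_zero s)]

lemma CjP.X (s : ℂ →+* ℂ) : CjP s (fun _ => X) fun _ => X := fun n =>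
  Cj.const' (by rw [coeff_X]; split_ifs <;> simp)

lemma CjP.add (a : CjP s P P') (b : CjP s Q Q') :
    CjP s (fun q => P q + Q q) fun q => P' q + Q' q := fun n => by
  simpa only [coeff_add] using (a n).add (b n)

lemma CjP.sub (a : CjP s P P') (b : CjP s Q Q') :
    CjP s (fun q => P q - Q q) fun q => P' q - Q' q := fun n => by
  simpa only [coeff_sub] using (a n).sub (b n)

lemma CjP.mul (a : CjP s P P') (b : CjP s Q Q') :
    CjP s (fun q => P q * Q q) fun q => P' q * Q' q := fun n => by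
  simp only [coeff_mul]
  exact Cj.sum _ fun c _ => (a c.1).mul (b c.2)

lemma CjP.sum {ι : Type*} (t : Finset ι) {P P' : ι → ℂ → ℂ[X]} (a : ∀ i ∈ t, CjP s (P i) (P' i)) :
    CjP s (fun q => ∑ i ∈ t, P i q) fun q => ∑ i ∈ t, P' i q := fun n => by
  simp only [finsetSum_coeff]
  exact Cj.sum _ fun i hi => a i hi n

lemma CjP.prod {ι : Type*} (t : Finset ι) {P P' : ι → ℂ → ℂ[X]} (a : ∀ i ∈ t, CjP s (P i) (P' i)) :
    CjP s (fun q => ∏ i ∈ t, P i q) fun q => ∏ i ∈ t, P' i q := by
  classical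
  induction t using Finset.induction_on with
  | empty => simpa using CjP.C (Cj.const s 1)
  | insert i t hi ih =>
    simp only [Finset.prod_insert hi]
    exact (a i (by simp)).mul (ih fun j hj => a j (by simp [hj]))

lemma CjP.congr (a : CjP s P P') (e : ∀ᶠ q in 𝓝 0, P q = Q q) (e' : ∀ᶠ q in 𝓝 0, P' q = Q' q) :
    CjP s Q Q' := fun n =>
  (a n).congr (e.mono fun q hq => by simp only [hq]) (e'.mono fun q hq => by simp only [hq])

lemma CjP.interp {g : ℕ} {x w x' w' : Fin g → ℂ → ℂ} (hx : ∀ j, Cj s (x j) (x' j))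
    (hw : ∀ j, Cj s (w j) (w' j)) (hi : Function.Injective fun j => x j 0) :
    CjP s (fun q => Lagrange.interpolate Finset.univ (fun j => x j q) fun j => w j q)
      fun q => Lagrange.interpolate Finset.univ (fun j => x' j q) fun j => w' j q := by
  simp only [Lagrange.interpolate_apply, Lagrange.basis, Lagrange.basisDivisor]
  refine CjP.sum _ fun i _ => (CjP.C (hw i)).mul (CjP.prod _ fun j hj => ?_)
  refine (CjP.C (((hx i).sub (hx j)).inv ?_)).mul ((CjP.X s).sub (CjP.C (hx j)))
  exact sub_ne_zero.2 fun e => (Finset.mem_erase.1 hj).1 (hi e).symm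

end Cj

section charts

variable {A : Type*} [AddCommGroup A] {F : ℂ[X]} {g : ℕ} {cl : ℂ × ℂ → A}
  {ex : (Fin g → ℂ) →+ A}

lemma an_eta (c : Ch F g) : AnalyticAt ℂ c.η 0 := by
  have h1 : AnalyticAt ℂ (fun τ => c.α * c.w τ + c.β * F.derivative.eval (c.x τ) / 2) 0 :=
    (analyticAt_const.mul c.anw).add
      ((analyticAt_const.mul ((an_eval _ _).fun_comp c.anx)).div_const (c := (2 : ℂ)))
  refine (h1.inv (right_ne_zero_of_mul_eq_one c.ev.self_of_nhds.2.2.2.2.1)).congr ?_
  filter_upwards [c.ev] with τ hτ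
  exact (eq_inv_of_mul_eq_one_left hτ.2.2.2.2.1).symm

lemma locInv_of (hE : IsExp F g cl ex) (c : Fin g → Ch F g) {ψ : (Fin g → ℂ) → Fin g → ℂ}
    (hψ : AnalyticAt ℂ ψ 0) (ψ0 : ψ 0 = 0) (hs : ∀ᶠ z in 𝓝 0, sab c (ψ z) = z) :
    LocInv F g cl ex (fun j z => (c j).x (ψ z j)) fun j z => (c j).w (ψ z j) := by
  have a : ∀ j, AnalyticAt ℂ (fun z => ψ z j) 0 := analyticAt_pi_iff.1 hψ
  have z0 : ∀ j, ψ 0 j = 0 := fun j => by rw [ψ0]; rfl
  have t : ∀ j, Tendsto (fun z => ψ z j) (𝓝 0) (𝓝 0) := fun j => by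
    simpa only [ContinuousAt, z0] using (a j).continuousAt
  refine ⟨fun j => AnalyticAt.fun_comp (by rw [z0]; exact (c j).anx) (a j),
    fun j => AnalyticAt.fun_comp (by rw [z0]; exact (c j).anw) (a j),
    fun j => ((t j).eventually (c j).ev).mono fun z hz => hz.1, ?_⟩
  filter_upwards [hs, eventually_all.2 fun j => (t j).eventually (hE (c j))] with z h1 h2
  simp only [Ch.pt] at h2
  simp only [h2, z0, Finset.sum_add_distrib]
  rw [← map_sum]
  exact congrArg _ (congrArg ex h1)

/-- `g` points of the curve with distinct abscissae -/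
structure Gp (F : ℂ[X]) {g : ℕ} (P : Fin g → ℂ × ℂ) : Prop where
  on : ∀ j, (P j).2 ^ 2 = F.eval (P j).1
  inj : Function.Injective fun j => (P j).1

lemma exists_locInv (hc : Cls F g cl) (hE : IsExp F g cl ex) {P : Fin g → ℂ × ℂ} (hP : Gp F P) :
    ∃ x w : Fin g → (Fin g → ℂ) → ℂ, LocInv F g cl ex x w ∧ ∀ j, (x j 0, w j 0) = P j := by
  choose c hx hw using fun j => exists_ch hc.sep.squarefree g (hP.on j)
  obtain ⟨ψ, hψ, ψ0, hs, -⟩ := vinv c (by simpa only [hx] using hP.inj)
  refine ⟨_, _, locInv_of hE c hψ ψ0 hs, fun j => ?_⟩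
  simp only [ψ0, Pi.zero_apply, hx, hw]

/-- the local solution of the Abel equations along `Ψ` -/
lemma exists_sol (hc : Cls F g cl) (hE : IsExp F g cl ex) {P : Fin g → ℂ × ℂ} (hP : Gp F P)
    {Ψ : ℂ → Fin g → ℂ} (hΨ : AnalyticAt ℂ Ψ 0) (Ψ0 : Ψ 0 = 0) :
    ∃ x w e : Fin g → ℂ → ℂ, (∀ j, AnalyticAt ℂ (x j) 0) ∧ (∀ j, AnalyticAt ℂ (w j) 0) ∧
      (∀ j, x j 0 = (P j).1) ∧ (∀ j, w j 0 = (P j).2) ∧
      (∀ j, PowerSeries.derivative ℂ (tay (x j)) = tay (e j) * tay (w j)) ∧
      (∀ j, PowerSeries.derivative ℂ (tay (w j)) = tay (e j) *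
        ((C 2⁻¹ * F.derivative).map (PowerSeries.C (R := ℂ))).eval (tay (x j))) ∧
      (∀ k : Fin g, ∑ j, tay (x j) ^ (k : ℕ) * tay (e j) =
        PowerSeries.derivative ℂ (tay fun q => Ψ q k)) ∧
      ∀ᶠ q in 𝓝 (0 : ℂ), mum F g cl (∑ j, cl (P j) + ex (Ψ q)) =
        (∏ j, (X - Polynomial.C (x j q)),
          Lagrange.interpolate Finset.univ (fun j => x j q) fun j => w j q) := by
  choose c hx hw using fun j => exists_ch hc.sep.squarefree g (hP.on j)
  obtain ⟨ψ, hψ, ψ0, hs, -⟩ := vinv c (by simpa only [hx] using hP.inj)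
  have L := locInv_of hE c hψ ψ0 hs
  have tΨ : Tendsto Ψ (𝓝 0) (𝓝 0) := by simpa only [ContinuousAt, Ψ0] using hΨ.continuousAt
  set σ : Fin g → ℂ → ℂ := fun j q => ψ (Ψ q) j with hσ
  have σ0 : ∀ j, σ j 0 = 0 := fun j => by simp only [hσ, Ψ0, ψ0, Pi.zero_apply]
  have aσ : ∀ j, AnalyticAt ℂ (σ j) 0 := fun j =>
    AnalyticAt.fun_comp (g := fun z => ψ z j) (by rw [Ψ0]; exact analyticAt_pi_iff.1 hψ j) hΨ
  have tσ : ∀ j, Tendsto (σ j) (𝓝 0) (𝓝 0) := fun j => by
    simpa only [ContinuousAt, σ0] using (aσ j).continuousAt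
  have ax : ∀ j, AnalyticAt ℂ (fun q => (c j).x (σ j q)) 0 := fun j =>
    AnalyticAt.fun_comp (by rw [σ0]; exact (c j).anx) (aσ j)
  have aw : ∀ j, AnalyticAt ℂ (fun q => (c j).w (σ j q)) 0 := fun j =>
    AnalyticAt.fun_comp (by rw [σ0]; exact (c j).anw) (aσ j)
  have ae : ∀ j, AnalyticAt ℂ (fun q => (c j).η (σ j q) * deriv (σ j) q) 0 := fun j =>
    (AnalyticAt.fun_comp (by rw [σ0]; exact an_eta (c j)) (aσ j)).mul (aσ j).deriv
  have dσ : ∀ j, ∀ᶠ q in 𝓝 (0 : ℂ), HasDerivAt (σ j) (deriv (σ j) q) q := fun j =>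
    (aσ j).eventually_analyticAt.mono fun q hq => hq.differentiableAt.hasDerivAt
  refine ⟨fun j q => (c j).x (σ j q), fun j q => (c j).w (σ j q),
    fun j q => (c j).η (σ j q) * deriv (σ j) q, ax, aw, fun j => by simp only [σ0, hx],
    fun j => by simp only [σ0, hw], fun j => ?_, fun j => ?_, fun k => ?_, ?_⟩
  · rw [← tay_deriv, ← tay_mul (ae j) (aw j)]
    refine tay_congr ?_
    filter_upwards [dσ j, (tσ j).eventually (c j).ev] with q h1 h2
    have := (h2.2.1.comp q h1).deriv
    refine Eq.trans this ?_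
    simp only [Pi.mul_apply]; ring
  · rw [← tay_deriv, ← tay_eval (ax j), ← tay_mul (ae j) ((an_eval _ _).fun_comp (ax j))]
    refine tay_congr ?_
    filter_upwards [dσ j, (tσ j).eventually (c j).ev] with q h1 h2
    have := (h2.2.2.1.comp q h1).deriv
    refine Eq.trans this ?_
    simp only [Pi.mul_apply, eval_mul, eval_C]; ring
  · have e1 : ∀ j, tay (fun q => (c j).x (σ j q)) ^ (k : ℕ) *
        tay (fun q => (c j).η (σ j q) * deriv (σ j) q) =
        tay ((fun q => (c j).x (σ j q)) ^ (k : ℕ) * fun q => (c j).η (σ j q) * deriv (σ j) q) :=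
      fun j => by rw [tay_mul ((ax j).pow _) (ae j), tay_pow (ax j)]
    simp only [e1]
    rw [← tay_sum _ fun j _ => ((ax j).pow _).mul (ae j), ← tay_deriv]
    refine tay_congr ?_
    have e2 : (fun q => Ψ q k) =ᶠ[𝓝 0] fun q => ∑ j, (c j).ab (σ j q) k :=
      (tΨ.eventually hs).mono fun q hq => by
        have := congrFun hq k
        simp only [sab, Finset.sum_apply] at this
        exact this.symm
    filter_upwards [e2.deriv, eventually_all.2 dσ,
      eventually_all.2 fun j => (tσ j).eventually (c j).ev] with q h0 h1 h2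
    rw [h0]
    have h3 : HasDerivAt (fun q => ∑ j, (c j).ab (σ j q) k)
        (∑ j, ((c j).x (σ j q) ^ (k : ℕ) * (c j).η (σ j q)) * deriv (σ j) q) q :=
      HasDerivAt.fun_sum fun j _ => (hasDerivAt_pi.1 (h2 j).2.2.2.1 k).comp q (h1 j)
    rw [h3.deriv]
    simp only [Finset.sum_apply, Pi.mul_apply, Pi.pow_apply, mul_assoc]
  · have hi : Function.Injective fun j => (c j).x (ψ 0 j) := by
      simpa only [ψ0, Pi.zero_apply, hx] using hP.inj
    filter_upwards [tΨ.eventually (L.mum_near hc hi)] with q hq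
    simpa only [ψ0, Pi.zero_apply, hx, hw] using hq.2

lemma Gp.map {s : ℂ →+* ℂ} (hF : F.map s = F) {P : Fin g → ℂ × ℂ} (hP : Gp F P) :
    Gp F fun j => (s (P j).1, s (P j).2) :=
  ⟨fun j => by
    have := congrArg s (hP.on j)
    rwa [map_pow, ← eval₂_at_apply, ← eval_map, hF] at this, s.injective.comp hP.inj⟩

/-- **the Mumford coordinates at conjugate base points are conjugate** -/
theorem form (hc : Cls F g cl) (hE : IsExp F g cl ex) {s : ℂ →+* ℂ} (hF : F.map s = F)
    {P : Fin g → ℂ × ℂ} (hP : Gp F P) {Ψ : ℂ → Fin g → ℂ} (hΨ : AnalyticAt ℂ Ψ 0) (Ψ0 : Ψ 0 = 0)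
    (hs : ∀ k, PowerSeries.map s (tay fun q => Ψ q k) = tay fun q => Ψ q k) :
    CjP s (fun q => (mum F g cl (∑ j, cl (P j) + ex (Ψ q))).1)
        (fun q => (mum F g cl (∑ j, cl (s (P j).1, s (P j).2) + ex (Ψ q))).1) ∧
      CjP s (fun q => (mum F g cl (∑ j, cl (P j) + ex (Ψ q))).2)
        (fun q => (mum F g cl (∑ j, cl (s (P j).1, s (P j).2) + ex (Ψ q))).2) := by
  obtain ⟨x, w, e, ax, aw, x0, w0, dx, dw, ds, hm⟩ := exists_sol hc hE hP hΨ Ψ0
  obtain ⟨x', w', e', ax', aw', x0', w0', dx', dw', ds', hm'⟩ := exists_sol hc hE (hP.map hF) hΨ Ψ0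
  set H := (C 2⁻¹ * F.derivative).map (PowerSeries.C (R := ℂ)) with hH
  have hHs : H.map (PowerSeries.map s) = H := by
    have e1 : (PowerSeries.map s).comp (PowerSeries.C (R := ℂ)) = (PowerSeries.C (R := ℂ)).comp s := by
      ext1 a; simp
    have e2 : (C 2⁻¹ * F.derivative).map s = C 2⁻¹ * F.derivative := by
      rw [Polynomial.map_mul, map_C, ← derivative_map, hF, map_inv₀, map_ofNat]
    rw [hH, Polynomial.map_map, e1, ← Polynomial.map_map, e2]
  have c0 : ∀ f : PowerSeries ℂ, PowerSeries.constantCoeff (PowerSeries.map s f) =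
      s (PowerSeries.constantCoeff f) := fun f => by
    rw [← PowerSeries.coeff_zero_eq_constantCoeff_apply, PowerSeries.coeff_map,
      PowerSeries.coeff_zero_eq_constantCoeff_apply]
  have key := formal_unique H (x := fun j => tay (x' j)) (w := fun j => tay (w' j))
    (e := fun j => tay (e' j)) (x' := fun j => PowerSeries.map s (tay (x j)))
    (w' := fun j => PowerSeries.map s (tay (w j))) (e' := fun j => PowerSeries.map s (tay (e j)))
    dx' (fun j => by rw [← map_derivative, dx, map_mul]) dw'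
    (fun j => by
      rw [← map_derivative, dw, map_mul, ← eval₂_at_apply, ← eval_map, hHs])
    (fun k => by
      rw [ds', ← hs k, ← map_derivative, ← ds k, map_sum]
      simp only [map_mul, map_pow])
    (fun j => by rw [c0, constantCoeff_tay, constantCoeff_tay, x0, x0'])
    (fun j => by rw [c0, constantCoeff_tay, constantCoeff_tay, w0, w0'])
    (by simpa only [constantCoeff_tay, x0'] using (hP.map hF).inj)
  have cx : ∀ j, Cj s (x j) (x' j) := fun j => ⟨ax j, ax' j, congrFun key.1 j⟩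
  have cw : ∀ j, Cj s (w j) (w' j) := fun j => ⟨aw j, aw' j, congrFun key.2 j⟩
  exact ⟨(CjP.prod Finset.univ fun j _ => (CjP.X s).sub (CjP.C (cx j))).congr
      (hm.mono fun q hq => by rw [hq]) (hm'.mono fun q hq => by rw [hq]),
    (CjP.interp cx cw (by simpa only [x0] using hP.inj)).congr
      (hm.mono fun q hq => by rw [hq]) (hm'.mono fun q hq => by rw [hq])⟩

/-- good classes -/
def Good (F : ℂ[X]) (g : ℕ) (cl : ℂ × ℂ → A) (b : A) : Prop :=
  ∃ P : Fin g → ℂ × ℂ, Gp F P ∧ b = ∑ j, cl (P j)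

lemma Good.isSum {b : A} (h : Good F g cl b) : IsSum F cl b := by
  obtain ⟨P, hP, rfl⟩ := h
  exact IsSum.sum hP.on

lemma exists_gp (F : ℂ[X]) (g : ℕ) : ∃ P : Fin g → ℂ × ℂ, Gp F P := by
  choose w hw using fun j : Fin g => IsAlgClosed.exists_pow_nat_eq (F.eval ((j : ℕ) : ℂ)) two_pos
  exact ⟨fun j => (((j : ℕ) : ℂ), w j), hw, fun i j h => Fin.ext (Nat.cast_injective (R := ℂ) h)⟩

lemma good_of (hc : Cls F g cl) {b : A} (hb : IsSum F cl b) (h1 : (mum F g cl b).1.natDegree = g)
    (h2 : (mum F g cl b).1.Separable) : Good F g cl b := by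
  classical
  obtain ⟨r, e⟩ := hc.mum_spec hb
  set u := (mum F g cl b).1
  set v := (mum F g cl b).2
  have hn : u.roots.Nodup := nodup_roots h2
  have hcard : u.roots.toFinset.card = g := by
    rw [Multiset.toFinset_card_of_nodup hn, ← h1]
    exact (IsAlgClosed.splits u).natDegree_eq_card_roots.symm
  set ε := (u.roots.toFinset.equivFinOfCardEq hcard).symm
  refine ⟨fun j => ((ε j : ℂ), v.eval (ε j : ℂ)), ⟨fun j => ?_, fun i j h => ε.injective
    (Subtype.ext h)⟩, ?_⟩
  · exact pts_on r.dvd _ (Multiset.mem_map.2 ⟨_, Multiset.mem_toFinset.1 (ε j).2, rfl⟩)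
  · rw [← e, Phi, pts, Multiset.map_map,
      Equiv.sum_comp ε fun a : u.roots.toFinset => cl ((a : ℂ), v.eval (a : ℂ)),
      Finset.sum_coe_sort u.roots.toFinset fun a => cl (a, v.eval a), Finset.sum,
      Multiset.toFinset_val, hn.dedup]
    rfl

lemma mero_res {U : ℂ → ℂ[X]} {t₀ : ℂ} (h : ∀ n, MeromorphicAt (fun t => (U t).coeff n) t₀)
    (m n : ℕ) : MeromorphicAt (fun t => resultant (U t) (derivative (U t)) m n) t₀ := by
  simp only [resultant, Matrix.det_apply']
  refine MeromorphicAt.fun_sum fun σ _ => (MeromorphicAt.const _ _).fun_mul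
    (MeromorphicAt.fun_prod fun i _ => ?_)
  induction i using Fin.addCases with
  | left i =>
    simp only [sylvester, Matrix.of_apply, Fin.addCases_left, coeff_derivative]
    split_ifs
    exacts [(h _).fun_mul (MeromorphicAt.const _ _), MeromorphicAt.const _ _]
  | right i =>
    simp only [sylvester, Matrix.of_apply, Fin.addCases_right]
    split_ifs
    exacts [h _, MeromorphicAt.const _ _]

/-- along a line through a good class almost every class is good -/
lemma Good.line (hc : Cls F g cl) (hE : IsExp F g cl ex) {b : A} (hb : Good F g cl b)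
    (v : Fin g → ℂ) : ∀ᶠ t : ℂ in cocountable, Good F g cl (b + ex (t • v)) := by
  obtain ⟨P, hP, rfl⟩ := hb
  obtain ⟨x, w, L, hxw⟩ := exists_locInv hc hE hP
  have hS : IsSum F cl (∑ j, cl (P j)) := IsSum.sum hP.on
  have an : ∀ t₀ : ℂ, AnalyticAt ℂ (fun t : ℂ => t • v) t₀ := fun t₀ =>
    analyticAt_id.smul analyticAt_const
  set U : ℂ → ℂ[X] := fun t => (mum F g cl (∑ j, cl (P j) + ex (t • v))).1 with hU
  have mU : ∀ t₀ n, MeromorphicAt (fun t => (U t).coeff n) t₀ := fun t₀ n => (L.fam hc hS (an t₀) n).1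
  have hi : Function.Injective fun j => x j 0 := by
    have : (fun j => x j 0) = fun j => (P j).1 := funext fun j => by rw [← hxw j]
    rw [this]; exact hP.inj
  have td : Tendsto (fun t : ℂ => t • v) (𝓝 0) (𝓝 0) := by
    simpa only [ContinuousAt, zero_smul] using (an 0).continuousAt
  have res : ∀ t, (U t).natDegree = g → resultant (U t) (derivative (U t)) g (g - 1) =
      resultant (U t) (derivative (U t)) := fun t ht => by
    rw [natDegree_derivative, ht]
  have near : ∀ᶠ t in 𝓝 (0 : ℂ), (U t).coeff g - 1 = 0 ∧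
      resultant (U t) (derivative (U t)) g (g - 1) ≠ 0 := by
    filter_upwards [td.eventually (L.mum_near hc hi)] with t ht
    have e : U t = ∏ j, (X - C (x j (t • v))) := by
      have := congrArg Prod.fst ht.2
      simpa only [hxw] using this
    have hm : (U t).Monic := e ▸ monic_prod_of_monic _ _ fun j _ => monic_X_sub_C _
    have hd : (U t).natDegree = g := by
      rw [e, natDegree_prod_of_monic _ _ fun j _ => monic_X_sub_C _]; simp
    refine ⟨by rw [← hd, sub_eq_zero]; exact hm, ?_⟩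
    rw [res t hd]
    refine resultant_ne_zero _ _ ?_
    rw [e]
    exact separable_prod_X_sub_C_iff.2 ht.1
  have h1 := Br.zero_ae (S := univ) isPreconnected_univ (U := fun t => (U t).coeff g - 1)
    (fun t _ => (mU t g).fun_sub (MeromorphicAt.const _ _)) (mem_univ 0)
    (nhdsWithin_le_nhds (near.mono fun t ht => ht.1))
  have h2 := Br.ne_ae (S := univ) isPreconnected_univ
    (U := fun t => resultant (U t) (derivative (U t)) g (g - 1))
    (fun t _ => mero_res (mU t) _ _) (mem_univ 0) fun h => by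
      obtain ⟨t, ht⟩ := (h.and (nhdsWithin_le_nhds near)).exists
      exact ht.2.2 ht.1
  filter_upwards [h1, h2] with t a1 a2
  have hs := hS.add (L.isSum hc (t • v))
  have hd : (U t).natDegree = g := le_antisymm (hc.mum_spec hs).1.deg
    (le_natDegree_of_ne_zero (by rw [sub_eq_zero.1 (a1 (mem_univ t))]; exact one_ne_zero))
  refine good_of hc hs hd ?_
  have a3 := a2 (mem_univ t)
  rw [res t hd] at a3
  by_contra hn
  exact a3 (resultant_eq_zero_iff.2 ⟨Or.inl (hc.mum_spec hs).1.monic.ne_zero, hn⟩)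

lemma co_exists {p : ℂ → Prop} (h : ∀ᶠ t in cocountable, p t) : ∃ t, p t := by
  by_contra hn
  push Not at hn
  exact not_countable_complex ((Br.ev_co.mp h).mono fun x _ => hn x)

/-- **a base class all of whose translates by a finite set are good** -/
theorem exists_good (hc : Cls F g cl) (hE : IsExp F g cl ex) (S : Finset (Fin g → ℂ)) :
    ∃ c, IsSum F cl c ∧ ∀ t ∈ S, Good F g cl (c + ex t) := by
  classical
  obtain ⟨P, hP⟩ := exists_gp F g
  obtain ⟨x, w, L, -⟩ := exists_locInv hc hE hP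
  have h0 : Good F g cl (∑ j, cl (P j)) := ⟨P, hP, rfl⟩
  suffices h : ∃ z, ∀ t ∈ S, Good F g cl (∑ j, cl (P j) + ex z + ex t) by
    obtain ⟨z, hz⟩ := h
    exact ⟨_, h0.isSum.add (L.isSum hc z), hz⟩
  induction S using Finset.induction_on with
  | empty => exact ⟨0, by simp⟩
  | insert t' S _ ih =>
    obtain ⟨z, hz⟩ := ih
    have a1 := (eventually_all_finset S).2 fun t ht => (hz t ht).line hc hE (-t' - z)
    have a2 := Br.ev_co_inj (f := fun l : ℂ => l - 1) (fun a b h => by simpa using h)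
      (h0.line hc hE (-t' - z))
    obtain ⟨l, b1, b2⟩ := co_exists (a1.and a2)
    refine ⟨z + l • (-t' - z), fun t ht => ?_⟩
    rcases Finset.mem_insert.1 ht with rfl | ht
    · convert b2 using 1
      rw [add_assoc, ← map_add]
      congr 2
      module
    · convert b1 t ht using 1
      rw [map_add]; abel

end charts

end Crest.Agent.T15.Stab
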