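import Crest.Agent.T15.Tw_73
import Crest.Agent.T15.HkTO_62
import Crest.Agent.T15.TFl_71
import Crest.Agent.T15.CgJ_84
import Crest.Agent.T15.EscO_12
import Crest.Agent.T15.TopD_88

/-!
# Row 15, block T (helper10): the contracts `TOut` and `EscOut` for the system `Hk.lv`
-/

set_option autoImplicit false

noncomputable section

namespace Crest.Agent.T15.TD

open Crest.Agent.T15.Hk Crest.Agent.T15.Lv

theorem injStmt (hI : Cg.IgStmt) (hD : Cg.DvdStmt) : InjStmt :=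
  fun ι M _ hM h4 hH _ _ P hP =>
    have : NeZero M := ⟨hM⟩
    Cg.inj_plc hD hI h4 (fun _ hu => (mem_H0 h4).1 (hH hu)) ι P (fun h => hP (h.mul_left _))
      fun h => hP (h.mul_right _)

theorem flatStmt (hI : Cg.IgStmt) (hD : Cg.DvdStmt) : FlatStmt :=
  fun _ _ _ Λ M _ hM h4 hH h3 _ _ _ _ _ _ _ _ _ hm hj hp hu =>
    have : NeZero M := ⟨hM⟩
    TFl.flat_par hI hD Λ h4 hH h3 hm hj hp hu

theorem tOut_of (hA : ActStmt) (hC : CyStmt) (hI : Cg.IgStmt) (hD : Cg.DvdStmt) :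
    Top.AllX fun X => R.TOut X lv := fun ι P h3 Λ =>
  Hk.tOut_of (galStmt hA (injStmt hI hD) (flatStmt hI hD) hC (twStmt hA (injStmt hI hD)) ι P h3 Λ)

theorem escOut_of (hS : EscO.EsSurj) : R.EscOut lv :=
  EscO.escOut_of hS H0 (fun _ h _ => mem_H0 h) lv.c fun _ _ hp => Tc_val le_rfl hp

end Crest.Agent.T15.TD

end
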