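import Crest.Agent.T15.TAll_10
import Crest.Agent.T15.Cy_10
import Crest.Agent.T15.BetAct_91
import Crest.Agent.T15.BetDvd_91
import Crest.Agent.T15.Ig_61
import Crest.Agent.T15.EscY_12

/-!
# Row 15, block T (helper10): `TOut` and `EscOut`, unconditionally
-/

set_option autoImplicit false

noncomputable section

namespace Crest.Agent.T15.TD

theorem actStmt : ActStmt := fun ι _ _ hM h4 hH n _ O A _ _ _ _ hm =>
  Bet.exists_act ι hM h4 (fun _ hu => (Hk.mem_H0 h4).1 (hH hu)) n O A hm

/-- **block T** -/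
theorem tOut : Top.AllX fun X => R.TOut X Hk.lv :=
  tOut_of actStmt cyStmt Ig.igStmt Bet.dvdStmt

/-- **block ESC** -/
theorem escOut : R.EscOut Hk.lv := escOut_of EscO.esSurj

end Crest.Agent.T15.TD

end
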