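import Mathlib
import Crest.Agent.T15.FDef_67
import Crest.Agent.T15.Gal_31
import Crest.Agent.T15.Rk5_31

/-!
# Row 15 (helper31): the leaf `FA.TaStmt`
-/

set_option autoImplicit false

namespace Crest.Agent.T15.FA

theorem taStmt_31 : TaStmt := fun P M => Rk.ta M.hyp31 (P.natDegree_F two_ne_zero)

end Crest.Agent.T15.FA
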