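import Crest.Agent.T15.ExB_49
import Crest.Agent.R018.TameF_31

/-!
# Row 15, block C (helper25): the tame reciprocity law over a field with enough roots of unity
-/

set_option autoImplicit false

noncomputable section

open NumberField IsDedekindDomain WithZero
open scoped Pointwise

namespace Crest.Agent.T15.Tame

open Crest.Agent.T15.Art Crest.Agent.T15.Ex Crest.Agent.R018.Placesx484
  Crest.Agent.R018.Selmerx380

section basic

variable {F E : Type*} [Field F] [NumberField F] [Field E] [CharZero E] [Algebra.IsAlgebraic ℚ E]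
  [Algebra F E] [IsGalois F E]

theorem isF_val {P : Place E} {φ : E ≃ₐ[F] E} (h : IsF P φ) {x : E} (hx : P.v x ≤ 1) :
    P.v (φ x - x ^ P.qv F) < 1 := by
  obtain ⟨a, s, hs, e⟩ := (P.v_le_one_iff x).1 hx
  have h1 : P.v (algebraMap (𝓞 E) E s) = 1 :=
    le_antisymm (P.v_int_le_one s) (not_lt.1 fun h => hs ((P.v_int_lt_one_iff s).1 h))
  have h2 : P.v (φ (algebraMap (𝓞 E) E s)) = 1 := (Place.v_smul_eq φ P h.smul_eq _).trans h1
  have ha := (P.v_int_lt_one_iff _).2 (h a)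
  have hs' := (P.v_int_lt_one_iff _).2 (h s)
  rw [map_sub, Place.smul_coe, map_pow, AlgEquiv.smul_def] at ha hs'
  have e2 : (φ x - x ^ P.qv F) * φ (algebraMap (𝓞 E) E s) =
      (φ (algebraMap (𝓞 E) E a) - algebraMap (𝓞 E) E a ^ P.qv F) -
        x ^ P.qv F * (φ (algebraMap (𝓞 E) E s) - algebraMap (𝓞 E) E s ^ P.qv F) := by
    rw [← e, map_mul, mul_pow]; ring
  have h3 := congrArg P.v e2
  rw [map_mul, h2, mul_one] at h3
  rw [h3]
  refine P.v.map_sub_lt ha ?_
  rw [map_mul, map_pow]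
  exact (mul_le_of_le_one_left' (pow_le_one' hx _)).trans_lt hs'

theorem isF_unit {P : Place E} {φ : E ≃ₐ[F] E} (h : IsF P φ) {x : E} (hx : P.v x = 1) :
    P.v (φ x / x - x ^ (P.qv F - 1)) < 1 := by
  have hx0 : x ≠ 0 := by rintro rfl; simp at hx
  have e : φ x / x - x ^ (P.qv F - 1) = (φ x - x ^ P.qv F) / x := by
    rw [← pow_sub_one_mul (Place.one_lt_qv (F := F) P).ne_bot x]
    field_simp
  rw [e, map_div₀, hx, div_one]
  exact isF_val h hx.le

omit [Algebra.IsAlgebraic ℚ E] [CharZero E] in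
theorem v_pow_sub {Γ : Type*} [LinearOrderedCommGroupWithZero Γ] (v : Valuation E Γ) {x y : E}
    (hx : v x ≤ 1) (hy : v y ≤ 1) (h : v (x - y) < 1) (k : ℕ) : v (x ^ k - y ^ k) < 1 := by
  induction k with
  | zero => simp
  | succ k ih =>
    have e : x ^ (k + 1) - y ^ (k + 1) = x * (x ^ k - y ^ k) + (x - y) * y ^ k := by ring
    rw [e]
    refine v.map_add_lt ?_ ?_
    · rw [map_mul]; exact (mul_le_of_le_one_left' hx).trans_lt ih
    · rw [map_mul, map_pow]; exact (mul_le_of_le_one_right' (pow_le_one' hy _)).trans_lt h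

omit [IsGalois F E] in
theorem val_nat_iff (P : Place E) (m : ℕ) :
    (pr F P).valuation F (m : F) = 1 ↔ ¬ P.rchar ∣ m := by
  rw [← P.v_natCast_eq_one_iff, ← map_natCast (algebraMap F E)]
  exact (v_equiv (K := F) P).eq_one_iff_eq_one.symm

variable {n : ℕ} {ζ : F}

theorem dvd_qv (hζ : IsPrimitiveRoot ζ (n + 1)) {P : Place E} (hP : ¬ P.rchar ∣ n + 1) :
    n + 1 ∣ P.qv F - 1 := by
  obtain ⟨φ, hφ⟩ := exists_isF (K := F) P
  have hζ' := hζ.map_of_injective (algebraMap F E).injective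
  have h := Place.frob_root P hφ hP hζ'.pow_eq_one
  rw [AlgEquiv.smul_def, AlgEquiv.commutes,
    ← pow_sub_one_mul (Place.one_lt_qv (F := F) P).ne_bot] at h
  exact hζ'.dvd_of_pow_eq_one _ (mul_eq_right₀ (hζ'.ne_zero n.succ_ne_zero) |>.1 h.symm)

theorem ord_of_big (w : Pr F) {b : Fˣ} {x : Fˣ} (hb : (b : F) = 1 - x)
    (h : 1 < w.valuation F (x : F)) : ord (𝓞 F) w b = ord (𝓞 F) w x := by
  have : w.valuation F (b : F) = w.valuation F (x : F) := by
    rw [hb, Valuation.map_sub_eq_of_lt_right _ (by rwa [map_one])]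
  rwa [valuation_eq_exp, valuation_eq_exp, exp_inj, neg_inj] at this

/-- the Steinberg relation -/
theorem stein (hζ : IsPrimitiveRoot ζ (n + 1)) {a : Fˣ} {r : E} (hr0 : r ≠ 0)
    (hr : r ^ (n + 1) = algebraMap F E a) {T : Finset (Pr F)} {f : Pr F → Eˣ}
    (h1 : ∀ w ∈ T, f w = 1) (hav : Av T f (kum hζ hr0 hr))
    (hp : ∀ w, w ∉ T → w.valuation F ((n + 1 : ℕ) : F) = 1)
    (ha : ∀ w, w ∉ T → w.valuation F (a : F) = 1) {b c : Fˣ}
    (hb : (b : F) = 1 - (c ^ (n + 1) * a : Fˣ)) : ev f b = 1 := by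
  refine finprod_eq_one_of_forall_eq_one fun w => ?_
  by_cases hw : w ∈ T
  · rw [h1 w hw, one_zpow]
  obtain ⟨P, rfl⟩ := exists_pr (E := E) w
  obtain ⟨φ, hφ⟩ := exists_isF (K := F) P
  rw [← hav P hw φ hφ]
  rcases lt_trichotomy ((pr F P).valuation F ((c ^ (n + 1) * a : Fˣ) : F)) 1 with h | h | h
  · rw [(ord_eq_zero_iff _ _).2 (by rw [hb, Valuation.map_one_sub_of_lt _ h]), zpow_zero]
  · by_cases h2 : (pr F P).valuation F (b : F) = 1
    · rw [(ord_eq_zero_iff _ _).2 h2, zpow_zero]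
    have h3 : (pr F P).valuation F (b : F) < 1 :=
      lt_of_le_of_ne (by rw [hb]; exact Valuation.map_sub_le _ (by simp) h.le) h2
    have hP := (val_nat_iff P _).1 (hp _ hw)
    have hx : (algebraMap F E c * r) ^ (n + 1) = algebraMap F E ((c ^ (n + 1) * a : Fˣ) : F) := by
      rw [mul_pow, hr]; simp
    have hx1 : P.v (algebraMap F E c * r) = 1 :=
      Place.pow_eq_one_aux n.succ_ne_zero (by rw [← map_pow, hx, v_eq_one P h])
    have h4 : P.v ((algebraMap F E c * r) ^ (n + 1) - 1) < 1 := by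
      have := (v_lt_iff P (b : F) 1).2 (by rwa [map_one])
      rwa [map_one, map_one, hb, map_sub, map_one, ← hx, Valuation.map_sub_swap] at this
    obtain ⟨k, hk⟩ := dvd_qv (F := F) hζ hP
    have h5 := v_pow_sub P.v (by rw [map_pow, hx1, one_pow]) (by simp) h4 k
    have h6 := isF_unit hφ hx1
    rw [map_mul, AlgEquiv.commutes, mul_div_mul_left _ _ (by simp), hk, pow_mul] at h6
    have h7 := P.v.map_add_lt h6 h5
    rw [sub_add_sub_cancel, one_pow] at h7
    have h8 : kum hζ hr0 hr φ = 1 :=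
      Units.ext (P.root_eq_of_sub hP (quot_pow hr0 hr φ) (one_pow _) h7)
    rw [h8, one_zpow]
  · rw [ord_of_big _ hb h, ord_mul, ord_pow, (ord_eq_zero_iff _ _).2 (ha _ hw), add_zero, zpow_mul,
      zpow_natCast, kum_pow, one_zpow]

omit [IsGalois F E] in
theorem ev_update {A : Type*} [CommGroup A] [DecidableEq (Pr F)] (f : Pr F → A) (w : Pr F)
    (b : Fˣ) : ev f b = ev (Function.update f w 1) b * f w ^ ord (𝓞 F) w b := by
  have h : ev (fun v => if v = w then f w else 1) b = f w ^ ord (𝓞 F) w b := by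
    rw [ev_apply, finprod_eq_single _ w fun v hv => by simp [hv]]
    simp
  rw [← h, ← ev_mul]
  congr 2
  funext v
  by_cases hv : v = w
  · simp [hv]
  · simp [hv]

omit [NumberField F] [CharZero E] [Algebra.IsAlgebraic ℚ E] in
theorem inertia_le_of {A : Type*} [CommGroup A] {ξ : (E ≃ₐ[F] E) →* A} {P Q : Place E}
    (h : P.ideal.inertia (E ≃ₐ[F] E) ≤ ξ.ker) (hQ : pr F Q = pr F P) :
    Q.ideal.inertia (E ≃ₐ[F] E) ≤ ξ.ker := fun t ht => by
  obtain ⟨g, rfl⟩ := Place.exists_smul_eq_of_res_eq (M := F) _ _ (pr_eq_iff.1 hQ.symm)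
  have h1 : g⁻¹ * t * g ∈ P.ideal.inertia (E ≃ₐ[F] E) := fun x => by
    have := (Place.mem_smul_ideal g P _).1 (ht (g • x))
    rw [smul_sub, inv_smul_smul, ← mul_smul, ← mul_smul] at this
    exact this
  have h2 := h h1
  rwa [MonoidHom.mem_ker, map_mul, map_mul, map_inv, inv_mul_cancel_comm] at h2

end basic

section main

variable {F E : Type} [Field F] [NumberField F] [IsTotallyComplex F] [Field E] [CharZero E]
  [Algebra.IsAlgebraic ℚ E] [Algebra F E] [IsGalois F E] {n : ℕ} {ζ : F}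

omit [IsTotallyComplex F] in
theorem exists_aux (S : Finset (Pr F)) (w : Pr F) (hw : w ∉ S) {π : Fˣ} (hπ : ord (𝓞 F) w π = 1)
    (u : Fˣ) (n : ℕ) {M : F} (hM : M ≠ 0) : ∃ c : Fˣ, ord (𝓞 F) w c = -2 ∧ ∀ v ∈ S,
      v.valuation F ((c ^ (n + 1) * π : Fˣ) : F) < v.valuation F M ∧
      v.valuation F ((c ^ (n + 1) * (π * u) : Fˣ) : F) < v.valuation F M := by
  classical
  have h0 : ∀ v : Pr F, min (v.valuation F (M / π)) (v.valuation F (M / (π * u : Fˣ))) ≠ 0 :=
    fun v => by simp [hM]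
  choose m hm using fun v => T24.Asa.exists_exp_le (h0 v)
  obtain ⟨x, hx, -⟩ := T24.Asa.approx_fin (insert w S)
    (fun v => if v = w then ((π ^ 2)⁻¹ : Fˣ) else 0) (S.sup m + 1)
  have h1 : w.valuation F x = exp (2 : ℤ) := by
    have h := hx w (Finset.mem_insert_self _ _)
    rw [if_pos rfl] at h
    have h2 : w.valuation F (((π ^ 2)⁻¹ : Fˣ) : F) = exp (2 : ℤ) := by
      rw [valuation_eq_exp, ord_inv, ord_pow, hπ]; rfl
    rw [← h2]
    refine Valuation.map_eq_of_sub_lt _ (h.trans_lt ?_)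
    rw [h2, exp_lt_exp]
    omega
  have hx0 : x ≠ 0 := by rintro rfl; simp at h1; exact exp_ne_zero h1.symm
  refine ⟨Units.mk0 x hx0, ?_, fun v hv => ?_⟩
  · have := valuation_eq_exp (R := 𝓞 F) w (Units.mk0 x hx0)
    rw [Units.val_mk0, h1, exp_inj] at this
    omega
  · have h := hx v (Finset.mem_insert_of_mem hv)
    rw [if_neg (ne_of_mem_of_not_mem hv hw), sub_zero] at h
    have hle := Finset.le_sup (f := m) hv
    have h2 : v.valuation F x ^ (n + 1) < exp (-(m v : ℤ)) := by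
      refine (pow_le_of_le_one zero_le (h.trans (T24.Asa.exp_neg_le_one _)) n.succ_ne_zero).trans_lt
        (h.trans_lt ?_)
      rw [exp_lt_exp]
      omega
    have key : ∀ a : Fˣ, exp (-(m v : ℤ)) ≤ v.valuation F (M / a) →
        v.valuation F ((Units.mk0 x hx0 ^ (n + 1) * a : Fˣ) : F) < v.valuation F M := fun a ha => by
      have h3 := h2.trans_le ha
      rw [map_div₀, lt_div_iff₀ (zero_lt_iff.2 (by simp))] at h3
      simpa using h3
    exact ⟨key _ ((hm v).trans (min_le_left _ _)), key _ ((hm v).trans (min_le_right _ _))⟩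

theorem tame_kum (hA : ArtStmt) (hζ : IsPrimitiveRoot ζ (n + 1)) {ψ : (E ≃ₐ[F] E) →* Eˣ}
    (ho : IsOpen (ψ.ker : Set (E ≃ₐ[F] E))) {N : ℕ} (hN : N ≠ 0) (hψ : ∀ g, ψ g ^ N = 1)
    {T : Finset (Pr F)} {f : Pr F → Eˣ} (h1 : ∀ w ∈ T, f w = 1) (hav : Av T f ψ) {P : Place E}
    (hPN : ¬ P.rchar ∣ N) (hPn : ¬ P.rchar ∣ n + 1) {π : Fˣ}
    (hπ : ord (𝓞 F) (pr F P) π = 1) {y : E} (hy0 : y ≠ 0) (hy : y ^ (n + 1) = algebraMap F E π)
    {m : ℕ} (hm : ∀ t ∈ P.ideal.inertia (E ≃ₐ[F] E), ψ t * kum hζ hy0 hy t ^ m = 1) {u : Fˣ}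
    (hu : (pr F P).valuation F (u : F) = 1)
    (hu' : ∀ w ∈ T, w ≠ pr F P → w.valuation F ((u : F) - 1) < w.valuation F (N : F) ^ 2)
    {x : E} (hx0 : x ≠ 0) (hx : x ^ (n + 1) = algebraMap F E u) {φ : E ≃ₐ[F] E} (hφ : IsF P φ) :
    ev f u * kum hζ hx0 hx φ ^ m = 1 := by
  classical
  set w₀ := pr F P with hw₀
  have hn0 : ((n + 1 : ℕ) : F) ≠ 0 := by exact_mod_cast n.succ_ne_zero
  obtain ⟨S, hS⟩ := exists_supp π
  obtain ⟨S', hS'⟩ := exists_supp u
  obtain ⟨S'', hS''⟩ := exists_supp (Units.mk0 _ hn0)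
  set R := (T ∪ S ∪ S' ∪ S'').erase w₀ with hR
  have hw0 : w₀ ∉ R := Finset.notMem_erase _ _
  have hmem : ∀ w, w ∉ R → w ≠ w₀ → w ∉ T ∧ w.valuation F (π : F) = 1 ∧ w.valuation F (u : F) = 1 ∧
      w.valuation F ((n + 1 : ℕ) : F) = 1 := fun w hw hne => by
    simp only [hR, Finset.mem_erase, Finset.mem_union, not_and, not_or] at hw
    obtain ⟨⟨⟨a, b⟩, c⟩, d⟩ := hw hne
    exact ⟨a, (ord_eq_zero_iff _ _).1 (by_contra fun h => b (hS w h)),
      (ord_eq_zero_iff _ _).1 (by_contra fun h => c (hS' w h)),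
      (ord_eq_zero_iff w (Units.mk0 _ hn0)).1 (by_contra fun h => d (hS'' w h))⟩
  have hmem' : ∀ w, w ∉ insert w₀ R → w ∉ R ∧ w ≠ w₀ := fun w hw =>
    ⟨fun h => hw (Finset.mem_insert_of_mem h), fun h => hw (h ▸ Finset.mem_insert_self _ _)⟩
  have hpR : ∀ w, w ∉ R → w.valuation F ((n + 1 : ℕ) : F) = 1 := fun w hw => by
    by_cases h : w = w₀
    · rw [h]; exact (val_nat_iff P _).2 hPn
    · exact (hmem w hw h).2.2.2
  have huR : ∀ w, w ∉ R → w.valuation F (u : F) = 1 := fun w hw => by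
    by_cases h : w = w₀
    · rw [h]; exact hu
    · exact (hmem w hw h).2.2.1
  have hπR : ∀ w, w ∉ insert w₀ R → w.valuation F (π : F) = 1 := fun w hw =>
    (hmem w (hmem' w hw).1 (hmem' w hw).2).2.1
  have hM0 : N * (n + 1) ≠ 0 := mul_ne_zero hN n.succ_ne_zero
  obtain ⟨c, hc, hcR⟩ := exists_aux R w₀ hw0 hπ u n (M := ((N * (n + 1) : ℕ) : F) ^ 2)
    (pow_ne_zero _ (by exact_mod_cast hM0))
  simp only [map_pow] at hcR
  have hM1 : ∀ w : Pr F, w.valuation F ((N * (n + 1) : ℕ) : F) ^ 2 ≤ 1 := fun w =>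
    pow_le_one' (val_nat_le w _) _
  have o0 : ord (𝓞 F) w₀ (c ^ (n + 1) * π) = 1 + (n + 1 : ℕ) * (-2) := by
    rw [ord_mul, ord_pow, hc, hπ, add_comm]
  have o1 : ord (𝓞 F) w₀ (c ^ (n + 1) * (π * u)) = 1 + (n + 1 : ℕ) * (-2) := by
    rw [← mul_assoc, ord_mul, o0, (ord_eq_zero_iff _ _).2 hu, add_zero]
  have big : ∀ a : Fˣ, ord (𝓞 F) w₀ a = 1 + (n + 1 : ℕ) * (-2) → 1 < w₀.valuation F (a : F) :=
    fun a ha => by
      rw [valuation_eq_exp, ha, ← exp_zero, exp_lt_exp]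
      push_cast
      omega
  have hb : ∀ a : Fˣ, 1 < w₀.valuation F (a : F) → ∃ b : Fˣ, (b : F) = 1 - a := fun a ha =>
    ⟨Units.mk0 (1 - a) fun h => by rw [← sub_eq_zero.1 h, map_one] at ha; exact ha.false, rfl⟩
  obtain ⟨b₀, hb₀⟩ := hb _ (big _ o0)
  obtain ⟨b₁, hb₁⟩ := hb _ (big _ o1)
  have v0 : ∀ w ∈ R, w.valuation F (b₀ : F) = 1 := fun w hw => by
    rw [hb₀, Valuation.map_one_sub_of_lt _ ((hcR w hw).1.trans_le (hM1 w))]
  have d1 : ∀ w ∈ R, w.valuation F ((b₁ : F) - 1) < w.valuation F ((N * (n + 1) : ℕ) : F) ^ 2 :=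
    fun w hw => by rw [hb₁, sub_sub_cancel_left, Valuation.map_neg]; exact (hcR w hw).2
  have d2 : ∀ w ∈ R, w.valuation F (((b₁ / b₀ : Fˣ) : F) - 1) <
      w.valuation F ((N * (n + 1) : ℕ) : F) ^ 2 := fun w hw => by
    rw [Units.val_div_eq_div_val, div_sub_one b₀.ne_zero, map_div₀, v0 w hw, div_one, hb₀, hb₁,
      sub_sub_sub_cancel_left]
    exact Valuation.map_sub_lt _ (hcR w hw).1 (hcR w hw).2
  have d3 : ∀ w ∈ insert w₀ R, ord (𝓞 F) w (b₁ / b₀) = 0 := fun w hw => by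
    rcases Finset.mem_insert.1 hw with rfl | hw
    · rw [ord_div, ord_of_big _ hb₀ (big _ o0), ord_of_big _ hb₁ (big _ o1), o0, o1, sub_self]
    · refine (ord_eq_zero_iff _ _).2 ?_
      simpa using Valuation.map_one_add_of_lt _ ((d2 w hw).trans_le (hM1 w))
  obtain ⟨fπ, hπ1, hπa, hπp⟩ := kum_av hζ (S := insert w₀ R) (fun w hw => hpR w (hmem' w hw).1)
    hπR hy0 hy
  obtain ⟨fu, hu1, hua, hup⟩ := kum_av hζ hpR huR hx0 hx
  have hyx : (y * x) ^ (n + 1) = algebraMap F E (π * u : Fˣ) := by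
    rw [mul_pow, hx, hy, Units.val_mul, map_mul]
  have s0 := stein hζ hy0 hy hπ1 hπa (fun w hw => hpR w (hmem' w hw).1) hπR hb₀
  have s1 := stein hζ (mul_ne_zero hy0 hx0) hyx (T := insert w₀ R)
    (f := fun w => fπ w * Function.update fu w₀ 1 w) (fun w hw => by
      rw [hπ1 w hw, one_mul]
      by_cases h : w = w₀
      · simp [h]
      · rw [Function.update_of_ne h, hu1 w ((Finset.mem_insert.1 hw).resolve_left h)])
    (fun Q hQ s hs => by
      beta_reduce
      rw [Function.update_of_ne (hmem' _ hQ).2, ← hπa Q hQ s hs, ← hua Q (hmem' _ hQ).1 s hs]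
      ext
      change s (y * x) / (y * x) = s y / y * (s x / x)
      rw [map_mul, mul_div_mul_comm])
    (fun w hw => hpR w (hmem' w hw).1)
    (fun w hw => by rw [Units.val_mul, map_mul, hπR w hw, huR w (hmem' w hw).1, one_mul]) hb₁
  have s2 := artin_av hA (kum_opn hζ hx0 hx) n.succ_ne_zero (kum_pow hζ hx0 hx) hu1 hua b₁
    fun w hw => (d1 w hw).trans_le (pow_le_pow_left' (mul_comm N _ ▸ val_mul_le w _ N) _)
  rw [ev_update fu w₀, ord_of_big _ hb₁ (big _ o1), o1, zpow_add, zpow_one, zpow_mul, zpow_natCast,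
    hup, one_zpow, mul_one, ← hua P hw0 φ hφ] at s2
  have s3 : ev fπ (b₁ / b₀) = kum hζ hx0 hx φ := by
    rw [ev_mul] at s1
    rw [map_div, s0, div_one, eq_inv_of_mul_eq_one_left s1, eq_inv_of_mul_eq_one_right s2]
  obtain ⟨f', hf1, hf'⟩ := exists_av R (ψ * kum hζ hy0 hy ^ m) fun Q hQ => by
    by_cases h : pr F Q = w₀
    · exact inertia_le_of (fun t ht => hm t ht) h
    · intro t ht
      rw [MonoidHom.mem_ker, MonoidHom.mul_apply, MonoidHom.pow_apply,
        hav.inertia_le (hmem _ hQ h).1 ht, hπa.inertia_le (by simp [hQ, h]) ht, one_pow, one_mul]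
  have s4 := artin_av hA (opn_mul ho (Subgroup.isOpen_mono (fun g hg => by
      rw [MonoidHom.mem_ker, MonoidHom.pow_apply, hg, one_pow]) (kum_opn hζ hy0 hy))) hM0
    (fun g => by
      rw [MonoidHom.mul_apply, MonoidHom.pow_apply, mul_pow, pow_mul, hψ, one_pow, one_mul,
        ← pow_mul, ← mul_assoc, mul_comm, pow_mul, kum_pow, one_pow]) hf1 hf' _ d2
  have s5 : ev f' (b₁ / b₀) = ev f (b₁ / b₀) * ev fπ (b₁ / b₀) ^ m := by
    rw [← powMonoidHom_apply, map_ev, ← ev_mul]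
    refine ev_congr fun w hw => ?_
    have hw' : w ∉ insert w₀ R := fun h => hw (d3 w h)
    obtain ⟨Q, rfl⟩ := exists_pr (E := E) w
    obtain ⟨s, hs⟩ := exists_isF (K := F) Q
    rw [← hf' Q (hmem' _ hw').1 s hs, ← hπa Q hw' s hs,
      ← hav Q (hmem _ (hmem' _ hw').1 (hmem' _ hw').2).1 s hs]
    rfl
  have s6 := artin_av hA ho hN hψ h1 hav (b₁ / b₀ / u) fun w hw => by
    by_cases h : w = w₀
    · subst h
      have e : ((b₁ / b₀ / u : Fˣ) : F) - 1 = (1 - u) / (b₀ * u) := by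
        rw [Units.val_div_eq_div_val, Units.val_div_eq_div_val, div_div,
          div_sub_one (mul_ne_zero b₀.ne_zero u.ne_zero), hb₀, hb₁]
        congr 1
        push_cast
        ring
      rw [e, (val_nat_iff P _).2 hPN, one_pow, map_div₀, map_mul, hu, mul_one,
        div_lt_one₀ (zero_lt_iff.2 (by simp))]
      refine (Valuation.map_sub_le _ (by simp) hu.le).trans_lt (big _ ?_)
      rw [ord_of_big _ hb₀ (big _ o0), o0]
    · have h2 := hu' w hw h
      have h3 : w.valuation F (u : F) = 1 := by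
        simpa using Valuation.map_one_add_of_lt _ (h2.trans_le (pow_le_one' (val_nat_le w _) _))
      rw [Units.val_div_eq_div_val, div_sub_one u.ne_zero, map_div₀, h3, div_one,
        ← sub_sub_sub_cancel_right _ _ 1]
      exact Valuation.map_sub_lt _ ((d2 w (by simp [hR, hw, h])).trans_le
        (pow_le_pow_left' (val_mul_le w N _) _)) h2
  rw [map_div, div_eq_one] at s6
  rw [← s6, ← s3, ← s5, s4]

end main

end Crest.Agent.T15.Tame
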