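import Crest.Agent.T15.CDef_7
import Crest.Agent.R018.TameP_31

/-!
# Row 15, block T (helper73): inertia elements with prescribed cyclotomic character
-/

set_option autoImplicit false

namespace Crest.Agent.T15.Tw73

open NumberField Crest.Agent.R018.Placesx484
open Crest.Agent.T15.C (Om Gam In)

theorem exists_root (n : ℕ) (hn : n ≠ 0) : ∃ ζ : Om, IsPrimitiveRoot ζ n := by
  have : NeZero ((n : ℕ) : Om) := ⟨by exact_mod_cast hn⟩
  exact HasEnoughRootsOfUnity.exists_primitiveRoot Om n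

/-- `ℚ(ζ_q)` is totally ramified at `q` -/
theorem exists_tau_q (P : Place Om) {q : ℕ} (hP : P.rchar = q) (v : (ZMod q)ˣ) :
    ∃ τ ∈ In P, ∀ ζ : Om, ζ ^ q = 1 → τ ζ = ζ ^ (v : ZMod q).val := by
  have hq : q.Prime := hP ▸ P.rchar_prime
  have : NeZero q := ⟨hq.ne_zero⟩
  obtain ⟨z, hz⟩ := exists_root q hq.ne_zero
  let K : IntermediateField ℚ Om := IntermediateField.adjoin ℚ {z}
  have hK : IsCyclotomicExtension {q} ℚ K := hz.intermediateField_adjoin_isCyclotomicExtension ℚ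
  have : NumberField K := IsCyclotomicExtension.numberField {q} ℚ K
  have : IsGalois ℚ K := IsCyclotomicExtension.isGalois {q} ℚ K
  let y : K := ⟨z, IntermediateField.mem_adjoin_simple_self ℚ z⟩
  have hy : IsPrimitiveRoot y q := IsPrimitiveRoot.coe_submonoidClass_iff.1 hz
  let σ := (IsCyclotomicExtension.Rat.galEquivZMod q K).symm v
  have h1 : ∀ x : 𝓞 K, x ^ q = 1 → x - 1 ∈ (P.res K).ideal := fun x hx => by
    have hm : ((q : ℕ) : 𝓞 K) ∈ (P.res K).ideal :=
      ((P.res K).natCast_mem_iff q).2 (by rw [Place.rchar_res, hP])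
    have := (P.res K).isPrime
    have := Fact.mk hq
    have hc : CharP (𝓞 K ⧸ (P.res K).ideal) q :=
      (CharP.charP_iff_prime_eq_zero hq).2 (by
        rw [← map_natCast (Ideal.Quotient.mk (P.res K).ideal), Ideal.Quotient.eq_zero_iff_mem]
        exact hm)
    rw [← Ideal.Quotient.eq_zero_iff_mem, map_sub, map_one, ← pow_eq_zero_iff hq.ne_zero,
      sub_pow_char, ← map_pow, hx, map_one, one_pow, sub_self]
  have hσ : σ ∈ (P.res K).ideal.inertia (K ≃ₐ[ℚ] K) := fun x => by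
    have hx : x ∈ Algebra.adjoin ℤ {hy.toInteger} := by
      rw [IsCyclotomicExtension.Rat.adjoin_singleton_eq_top hy]; trivial
    have hyq : hy.toInteger ^ q = 1 := hy.toInteger_isPrimitiveRoot.pow_eq_one
    induction hx using Algebra.adjoin_induction with
    | mem x hx =>
      rw [Set.mem_singleton_iff.1 hx]
      have := sub_mem (h1 (σ • hy.toInteger) (by rw [← smul_pow', hyq, smul_one])) (h1 _ hyq)
      rwa [sub_sub_sub_cancel_right] at this
    | algebraMap r =>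
      rw [eq_intCast, show σ • (r : 𝓞 K) = r from
        map_intCast (MulSemiringAction.toRingHom _ (𝓞 K) σ) r, sub_self]
      exact zero_mem _
    | add x y _ _ hx hy =>
      have := add_mem hx hy
      rwa [← add_sub_add_comm, ← smul_add] at this
    | mul x y _ _ hx hy =>
      have := add_mem (Ideal.mul_mem_right (σ • y) _ hx) (Ideal.mul_mem_left _ x hy)
      rwa [show (σ • x - x) * σ • y + x * (σ • y - y) = σ • (x * y) - x * y by
        rw [smul_mul']; ring] at this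
  obtain ⟨τ, hτ, e⟩ := R018.Tamex31.exists_inertia_lift P σ hσ
  refine ⟨τ, hτ, fun ζ hζ => ?_⟩
  obtain ⟨i, -, rfl⟩ := hz.eq_pow_of_pow_eq_one hζ
  have h2 := e y
  rw [IsCyclotomicExtension.Rat.galEquivZMod_apply_of_pow_eq q K σ hy.pow_eq_one,
    MulEquiv.apply_symm_apply, map_pow] at h2
  rw [map_pow, pow_right_comm]
  exact congrArg (· ^ i) h2

/-- an inertia element at `q` which acts on the roots of unity of order `M q` by a given unit
congruent to `1` modulo `M` -/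
theorem exists_tau (P : Place Om) {q M N : ℕ} (hP : P.rchar = q) (hM : ¬ q ∣ M) (e : N = M * q)
    (hd : M ∣ N) (u : (ZMod N)ˣ) (hu : ZMod.unitsMap hd u = 1) :
    ∃ τ ∈ In P, ∀ ζ : Om, ζ ^ N = 1 → τ ζ = ζ ^ (u : ZMod N).val := by
  have hq : q.Prime := hP ▸ P.rchar_prime
  have hM0 : M ≠ 0 := by rintro rfl; exact hM (dvd_zero _)
  have : NeZero q := ⟨hq.ne_zero⟩
  have : NeZero M := ⟨hM0⟩
  have : NeZero N := ⟨e ▸ mul_ne_zero hM0 hq.ne_zero⟩
  have hqd : q ∣ N := e ▸ dvd_mul_left _ _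
  obtain ⟨τ, hτ, h⟩ := exists_tau_q P hP (ZMod.unitsMap hqd u)
  refine ⟨τ, hτ, fun ζ hζ => ?_⟩
  have h0 : ζ ≠ 0 := by rintro rfl; simp [NeZero.ne N] at hζ
  have a1 : (ζ ^ q) ^ M = 1 := by rw [← pow_mul, mul_comm, ← e, hζ]
  have a2 : (ζ ^ M) ^ q = 1 := by rw [← pow_mul, ← e, hζ]
  have b1 : τ ζ ^ q = (ζ ^ (u : ZMod N).val) ^ q := by
    have h1 : τ (ζ ^ q) = ζ ^ q := P.inertia_root hτ (hP ▸ hM) a1
    have h2 : (u : ZMod N).val ≡ 1 [MOD M] := by
      have := congrArg (fun x : (ZMod M)ˣ => (x : ZMod M)) hu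
      rw [← ZMod.natCast_eq_natCast_iff, Nat.cast_one, ZMod.natCast_val]
      simpa only [ZMod.unitsMap_val, Units.val_one] using this
    rw [← map_pow, h1, pow_right_comm, pow_eq_pow_of_modEq h2 a1, pow_one]
  have b2 : τ ζ ^ M = (ζ ^ (u : ZMod N).val) ^ M := by
    rw [← map_pow, h _ a2, pow_right_comm ζ _ M]
    refine pow_eq_pow_of_modEq ?_ a2
    rw [← ZMod.natCast_eq_natCast_iff, ZMod.natCast_val, ZMod.natCast_val, ZMod.cast_id',
      ZMod.unitsMap_val, id]
  have h1 : ζ ^ (u : ZMod N).val ≠ 0 := pow_ne_zero _ h0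
  rw [← div_eq_one_iff_eq h1]
  rw [← div_eq_one_iff_eq (pow_ne_zero _ h1), ← div_pow] at b1 b2
  have := pow_gcd_eq_one.2 ⟨b1, b2⟩
  rwa [(Nat.Prime.coprime_iff_not_dvd hq).2 hM, pow_one] at this

end Crest.Agent.T15.Tw73
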