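import Mathlib
import Crest.Agent.R272.Poi_307

/-!
# Row 15, block C (helper59): binary theta series with a linear harmonic factor, analytic part

`ff σ z = z e(σ |z|²)`; lattices `Lt` in `ℂ` with their dual for `bf z w = 2 Re (z w̄)`;
Poisson summation `poisson`; the series `Z L φ h τ = ∑ φ x ff τ (h + x)` is holomorphic on the
upper half plane and tends to `0` at `i∞`.
-/

set_option autoImplicit false

noncomputable section

open MeasureTheory Complex Filter Topology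
open scoped Real
open Crest.Agent.R272.Poi307

namespace Crest.Agent.T15.Th

/-- `e(z) = exp (2 π i z)` -/
def ee (z : ℂ) : ℂ := cexp (2 * π * I * z)

theorem ee_add (z w : ℂ) : ee (z + w) = ee z * ee w := by
  unfold ee; rw [mul_add, Complex.exp_add]

theorem ee_int (n : ℤ) : ee n = 1 := by
  unfold ee
  rw [show 2 * π * I * (n : ℂ) = n * (2 * π * I) by ring]
  exact Complex.exp_int_mul_two_pi_mul_I n

theorem ee_zero : ee 0 = 1 := by simp [ee]

theorem ee_add_int (z : ℂ) (n : ℤ) : ee (z + n) = ee z := by rw [ee_add, ee_int, mul_one]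

theorem norm_ee (z : ℂ) : ‖ee z‖ = Real.exp (-(2 * π * z.im)) := by
  unfold ee
  rw [Complex.norm_exp]
  congr 1
  simp

theorem norm_ee_real (r : ℝ) : ‖ee r‖ = 1 := by
  rw [norm_ee]; simp

/-- the bilinear form `2 Re (z w̄)` -/
def bf (z w : ℂ) : ℝ := 2 * (z.re * w.re + z.im * w.im)

theorem normSq_add' (z w : ℂ) : normSq (z + w) = normSq z + bf z w + normSq w := by
  simp only [normSq_apply, bf, add_re, add_im]; ring

theorem bf_add_left (z z' w : ℂ) : bf (z + z') w = bf z w + bf z' w := by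
  simp only [bf, add_re, add_im]; ring

theorem bf_add_right (z w w' : ℂ) : bf z (w + w') = bf z w + bf z w' := by
  simp only [bf, add_re, add_im]; ring

theorem bf_mul_left (r : ℝ) (z w : ℂ) : bf (r * z) w = r * bf z w := by
  simp only [bf, re_ofReal_mul, im_ofReal_mul]; ring

theorem bf_mul_right (r : ℝ) (z w : ℂ) : bf z (r * w) = r * bf z w := by
  simp only [bf, re_ofReal_mul, im_ofReal_mul]; ring

theorem bf_comm (z w : ℂ) : bf z w = bf w z := by
  simp only [bf]; ring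

theorem bf_self (z : ℂ) : bf z z = 2 * normSq z := by
  simp only [bf, normSq_apply]

theorem abs_bf_le (z w : ℂ) : |bf z w| ≤ 2 * ‖z‖ * ‖w‖ := by
  have h : bf z w = 2 * (z * (starRingEnd ℂ) w).re := by simp [bf]
  rw [h, abs_mul, abs_two, mul_assoc]
  refine mul_le_mul_of_nonneg_left ((abs_re_le_norm _).trans ?_) zero_le_two
  rw [norm_mul, RCLike.norm_conj]

/-- the Gaussian with a linear factor -/
def ff (σ z : ℂ) : ℂ := z * ee (σ * normSq z)

theorem norm_ff (σ z : ℂ) : ‖ff σ z‖ = ‖z‖ * Real.exp (-(2 * π * σ.im) * ‖z‖ ^ 2) := by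
  unfold ff
  rw [norm_mul, norm_ee, normSq_eq_norm_sq]
  congr 2
  rw [mul_comm σ, im_ofReal_mul]
  ring

theorem continuous_ff (σ : ℂ) : Continuous (ff σ) := by
  unfold ff ee
  fun_prop

theorem ff_scale (σ : ℂ) (r : ℝ) (z : ℂ) : ff σ (r * z) = r * ff (σ * r ^ 2) z := by
  unfold ff
  rw [map_mul, normSq_ofReal]
  push_cast
  rw [show σ * (r * r * (normSq z : ℂ)) = σ * r ^ 2 * normSq z by ring]
  ring

theorem ff_add (σ σ' z : ℂ) : ff (σ + σ') z = ee (σ * normSq z) * ff σ' z := by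
  unfold ff
  rw [add_mul, ee_add]
  ring

/-! ### the Fourier transform -/

theorem integrable_g0 {b : ℂ} (hb : b.re < 0) (c : ℂ) :
    Integrable fun x : ℝ => cexp (b * x ^ 2 + c * x) := by
  simpa using integrable_cexp_quadratic' hb c 0

theorem integrable_g1 {b : ℂ} (hb : b.re < 0) (c : ℂ) :
    Integrable fun x : ℝ => (x : ℂ) * cexp (b * x ^ 2 + c * x) := by
  refine ((integrable_g0 hb (c + 1)).norm.add (integrable_g0 hb (c - 1)).norm).mono'
    (Continuous.aestronglyMeasurable (by fun_prop)) (Eventually.of_forall fun x => ?_)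
  have h1 : (b * x ^ 2 + (c + 1) * x).re = (b * x ^ 2 + c * x).re + x := by
    rw [show b * x ^ 2 + (c + 1) * x = b * x ^ 2 + c * x + x by ring, add_re, ofReal_re]
  have h2 : (b * x ^ 2 + (c - 1) * x).re = (b * x ^ 2 + c * x).re + -x := by
    rw [show b * x ^ 2 + (c - 1) * x = b * x ^ 2 + c * x - x by ring, sub_re, ofReal_re]; ring
  simp only [Pi.add_apply, norm_mul, Complex.norm_exp, h1, h2, Real.exp_add, norm_real,
    Real.norm_eq_abs]
  have h3 : |x| ≤ Real.exp x + Real.exp (-x) := by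
    have := Real.add_one_le_exp x
    have := Real.add_one_le_exp (-x)
    have := Real.exp_pos x
    have := Real.exp_pos (-x)
    rw [abs_le]; constructor <;> linarith
  have := Real.exp_pos (b * x ^ 2 + c * x).re
  nlinarith

theorem integral_g0 {b : ℂ} (hb : b.re < 0) (c : ℂ) :
    ∫ x : ℝ, cexp (b * x ^ 2 + c * x) = (π / -b) ^ (1 / 2 : ℂ) * cexp (-(c ^ 2 / (4 * b))) := by
  simpa using integral_cexp_quadratic hb c 0

theorem integral_g1 {b : ℂ} (hb : b.re < 0) (c : ℂ) :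
    ∫ x : ℝ, (x : ℂ) * cexp (b * x ^ 2 + c * x) =
      -c / (2 * b) * ∫ x : ℝ, cexp (b * x ^ 2 + c * x) := by
  have hb0 : b ≠ 0 := fun h => by simp [h] at hb
  have h := integral_eq_zero_of_hasDerivAt_of_integrable
    (f := fun x : ℝ => cexp (b * x ^ 2 + c * x))
    (f' := fun x : ℝ => 2 * b * ((x : ℂ) * cexp (b * x ^ 2 + c * x)) + c * cexp (b * x ^ 2 + c * x))
    (fun x => by
      have h1 : HasDerivAt (fun z : ℂ => cexp (b * z ^ 2 + c * z))
          (cexp (b * x ^ 2 + c * x) * (b * (2 * x) + c)) (x : ℂ) := by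
        refine HasDerivAt.cexp (HasDerivAt.add ?_ ?_)
        · simpa using (hasDerivAt_pow 2 (x : ℂ)).const_mul b
        · simpa using (hasDerivAt_id (x : ℂ)).const_mul c
      refine h1.comp_ofReal.congr_deriv ?_
      ring)
    (((integrable_g1 hb c).const_mul _).add ((integrable_g0 hb c).const_mul _))
    (integrable_g0 hb c)
  rw [integral_add ((integrable_g1 hb c).const_mul _) ((integrable_g0 hb c).const_mul _),
    integral_const_mul, integral_const_mul] at h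
  generalize (∫ x : ℝ, (x : ℂ) * cexp (b * x ^ 2 + c * x)) = A at h ⊢
  generalize (∫ x : ℝ, cexp (b * x ^ 2 + c * x)) = B at h ⊢
  field_simp
  linear_combination h

/-- the Fourier transform of `ff σ` -/
theorem fourier_ff {σ : ℂ} (hσ : 0 < σ.im) (κ : ℂ) :
    ∫ v : Fin 2 → ℝ, ee (-bf (v 0 + v 1 * I) κ) * ff σ (v 0 + v 1 * I) =
      I / (2 * σ ^ 2) * ff (-1 / σ) κ := by
  have hσ0 : σ ≠ 0 := fun h => by simp [h] at hσ
  have hπ : (π : ℂ) ≠ 0 := ofReal_ne_zero.2 Real.pi_ne_zero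
  set b : ℂ := 2 * π * I * σ with hbdef
  have hb : b.re < 0 := by
    have : b.re = -(2 * π * σ.im) := by simp [hbdef]
    rw [this]
    have := Real.pi_pos
    have : 0 < 2 * π * σ.im := by positivity
    linarith
  set c0 : ℂ := -(4 * π * I * κ.re) with hc0
  set c1 : ℂ := -(4 * π * I * κ.im) with hc1
  have e1 : ∀ v : Fin 2 → ℝ, ee (-bf (v 0 + v 1 * I) κ) * ff σ (v 0 + v 1 * I) =
      (fun p : ℝ × ℝ => ((p.1 : ℂ) * cexp (b * p.1 ^ 2 + c0 * p.1)) * cexp (b * p.2 ^ 2 + c1 * p.2)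
        + I * (cexp (b * p.1 ^ 2 + c0 * p.1) * ((p.2 : ℂ) * cexp (b * p.2 ^ 2 + c1 * p.2))))
        (MeasurableEquiv.finTwoArrow v) := by
    intro v
    have h0 : (MeasurableEquiv.finTwoArrow v : ℝ × ℝ) = (v 0, v 1) := rfl
    rw [h0]
    have h1 : ee (-bf (v 0 + v 1 * I) κ) * ee (σ * normSq (v 0 + v 1 * I)) =
        cexp (b * (v 0) ^ 2 + c0 * v 0) * cexp (b * (v 1) ^ 2 + c1 * v 1) := by
      rw [← ee_add, ← Complex.exp_add, ee, normSq_add_mul_I]
      congr 1
      simp only [bf, add_re, ofReal_re, mul_re, I_re, mul_zero, ofReal_im, I_im, mul_one, sub_self,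
        add_zero, add_im, mul_im, zero_add, hbdef, hc0, hc1]
      push_cast
      ring
    unfold ff
    linear_combination ((v 0 : ℂ) + v 1 * I) * h1
  rw [funext e1, (volume_preserving_finTwoArrow ℝ).integral_comp'
    (fun p : ℝ × ℝ => ((p.1 : ℂ) * cexp (b * p.1 ^ 2 + c0 * p.1)) * cexp (b * p.2 ^ 2 + c1 * p.2)
      + I * (cexp (b * p.1 ^ 2 + c0 * p.1) * ((p.2 : ℂ) * cexp (b * p.2 ^ 2 + c1 * p.2)))),
    Measure.volume_eq_prod,
    integral_add ((integrable_g1 hb c0).mul_prod (integrable_g0 hb c1))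
      (((integrable_g0 hb c0).mul_prod (integrable_g1 hb c1)).const_mul _), integral_const_mul,
    integral_prod_mul (fun x : ℝ => (x : ℂ) * cexp (b * x ^ 2 + c0 * x))
      (fun x : ℝ => cexp (b * x ^ 2 + c1 * x)),
    integral_prod_mul (fun x : ℝ => cexp (b * x ^ 2 + c0 * x))
      (fun x : ℝ => (x : ℂ) * cexp (b * x ^ 2 + c1 * x)),
    integral_g1 hb, integral_g1 hb, integral_g0 hb, integral_g0 hb]
  have hb0 : b ≠ 0 := fun h => by simp [h] at hb
  have h2 : (π / -b) ^ (1 / 2 : ℂ) * (π / -b) ^ (1 / 2 : ℂ) = π / -b := by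
    rw [← cpow_add _ _ (div_ne_zero hπ (neg_ne_zero.2 hb0))]
    norm_num
  have h3 : cexp (-(c0 ^ 2 / (4 * b))) * cexp (-(c1 ^ 2 / (4 * b))) =
      ee (-1 / σ * normSq κ) := by
    rw [← Complex.exp_add, ee, normSq_apply]
    congr 1
    rw [hc0, hc1, hbdef]
    push_cast
    field_simp
    ring_nf
  have h4 : -c0 / (2 * b) + I * (-c1 / (2 * b)) = κ / σ := by
    conv_rhs => rw [← re_add_im κ]
    rw [hc0, hc1, hbdef]
    field_simp
    ring
  have h5 : (π : ℂ) / -b = I / (2 * σ) := by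
    rw [hbdef]
    field_simp
    rw [I_sq]
  unfold ff
  calc _ = (-c0 / (2 * b) + I * (-c1 / (2 * b))) * ((π / -b) ^ (1 / 2 : ℂ) * (π / -b) ^ (1 / 2 : ℂ))
        * (cexp (-(c0 ^ 2 / (4 * b))) * cexp (-(c1 ^ 2 / (4 * b)))) := by ring
    _ = _ := by
      rw [h2, h3, h4, h5]
      field_simp

/-! ### lattices -/

/-- a lattice in `ℂ` with a basis -/
structure Lt where
  w0 : ℂ
  w1 : ℂ
  hδ : w0.re * w1.im - w0.im * w1.re ≠ 0

namespace Lt

variable (L : Lt)

/-- the oriented covolume -/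
def δ : ℝ := L.w0.re * L.w1.im - L.w0.im * L.w1.re

theorem δ_ne : L.δ ≠ 0 := L.hδ

/-- real coordinates -/
def lr (v : Fin 2 → ℝ) : ℂ := v 0 * L.w0 + v 1 * L.w1

/-- the lattice points -/
def l (x : Fin 2 → ℤ) : ℂ := x 0 * L.w0 + x 1 * L.w1

theorem lr_ic (x : Fin 2 → ℤ) : L.lr (ic x) = L.l x := by simp [lr, l]

theorem lr_add (v w : Fin 2 → ℝ) : L.lr (v + w) = L.lr v + L.lr w := by
  simp only [lr, Pi.add_apply]; push_cast; ring

theorem l_add (v w : Fin 2 → ℤ) : L.l (v + w) = L.l v + L.l w := by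
  simp only [l, Pi.add_apply]; push_cast; ring

theorem l_smul (n : ℤ) (v : Fin 2 → ℤ) : L.l (n • v) = n * L.l v := by
  simp only [l, Pi.smul_apply, smul_eq_mul]; push_cast; ring

theorem continuous_lr : Continuous L.lr := by
  unfold lr; fun_prop

/-- the dual lattice -/
def dual : Lt where
  w0 := ((2 * L.δ)⁻¹ : ℝ) * (-I * L.w1)
  w1 := ((2 * L.δ)⁻¹ : ℝ) * (I * L.w0)
  hδ := by
    have h := L.δ_ne
    have : (((2 * L.δ)⁻¹ : ℝ) * (-I * L.w1)).re * (((2 * L.δ)⁻¹ : ℝ) * (I * L.w0)).im -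
        (((2 * L.δ)⁻¹ : ℝ) * (-I * L.w1)).im * (((2 * L.δ)⁻¹ : ℝ) * (I * L.w0)).re =
        (2 * L.δ)⁻¹ ^ 2 * L.δ := by
      simp only [re_ofReal_mul, im_ofReal_mul]
      simp [δ]
      ring
    rw [this]
    positivity

theorem bf_lr_dual (v k : Fin 2 → ℝ) : bf (L.lr v) (L.dual.lr k) = v 0 * k 0 + v 1 * k 1 := by
  have h := L.δ_ne
  have e : L.dual.lr k = ((2 * L.δ)⁻¹ : ℝ) * (k 0 * (-I * L.w1) + k 1 * (I * L.w0)) := by
    simp only [lr, dual]; ring
  rw [e, bf_mul_right, inv_mul_eq_iff_eq_mul₀ (by positivity)]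
  simp [bf, lr, δ]
  ring

theorem bf_l_dual (x k : Fin 2 → ℤ) :
    bf (L.l x) (L.dual.l k) = ((x 0 * k 0 + x 1 * k 1 : ℤ) : ℝ) := by
  rw [← lr_ic, ← lr_ic, bf_lr_dual]; simp

/-- the coordinates of a complex number -/
def co (z : ℂ) : Fin 2 → ℝ := ![bf z L.dual.w0, bf z L.dual.w1]

theorem lr_co (z : ℂ) : L.lr (L.co z) = z := by
  have h := L.δ_ne
  have e : L.lr (L.co z) = ((2 * L.δ)⁻¹ : ℝ) *
      (bf z (-I * L.w1) * L.w0 + bf z (I * L.w0) * L.w1) := by
    simp only [lr, co, dual, bf_mul_right, Matrix.cons_val_zero, Matrix.cons_val_one]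
    push_cast; ring
  have h2 : (bf z (-I * L.w1) * L.w0 + bf z (I * L.w0) * L.w1 : ℂ) = ((2 * L.δ : ℝ) : ℂ) * z := by
    apply Complex.ext
    · simp only [add_re, re_ofReal_mul]; simp [bf, δ]; ring
    · simp only [add_im, im_ofReal_mul]; simp [bf, δ]; ring
  rw [e, h2, ← mul_assoc, ← ofReal_mul, inv_mul_cancel₀ (by positivity), ofReal_one, one_mul]

theorem co_lr (v : Fin 2 → ℝ) : L.co (L.lr v) = v := by
  have h0 : L.dual.w0 = L.dual.lr ![1, 0] := by simp [lr]
  have h1 : L.dual.w1 = L.dual.lr ![0, 1] := by simp [lr]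
  funext i
  fin_cases i
  · simp [co, h0, bf_lr_dual]
  · simp [co, h1, bf_lr_dual]

theorem exists_norm_le : ∃ K : ℝ, 1 ≤ K ∧ ∀ v, ‖v‖ ≤ K * ‖L.lr v‖ := by
  refine ⟨2 * ‖L.dual.w0‖ + 2 * ‖L.dual.w1‖ + 1, by
    have := norm_nonneg L.dual.w0; have := norm_nonneg L.dual.w1; linarith, fun v => ?_⟩
  have h0 := abs_bf_le (L.lr v) L.dual.w0
  have h1 := abs_bf_le (L.lr v) L.dual.w1
  have := norm_nonneg L.dual.w0
  have := norm_nonneg L.dual.w1
  have := norm_nonneg (L.lr v)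
  conv_lhs => rw [← L.co_lr v]
  rw [pi_norm_le_iff_of_nonneg (by positivity)]
  intro i
  fin_cases i
  · simp only [co, Fin.zero_eta, Matrix.cons_val_zero, Real.norm_eq_abs]
    nlinarith [mul_nonneg (norm_nonneg L.dual.w1) (norm_nonneg (L.lr v))]
  · simp only [co, Fin.mk_one, Matrix.cons_val_one, Matrix.cons_val_zero, Real.norm_eq_abs]
    nlinarith [mul_nonneg (norm_nonneg L.dual.w0) (norm_nonneg (L.lr v))]

theorem exists_dec {σ : ℂ} (hσ : 0 < σ.im) :
    ∃ C : ℝ, 0 ≤ C ∧ Dec C 3 (fun v => ff σ (L.lr v)) := by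
  obtain ⟨K, hK, h⟩ := L.exists_norm_le
  have hπ := Real.pi_pos
  set a : ℝ := 2 * π * σ.im with ha
  have ha0 : 0 < a := by positivity
  refine ⟨K ^ 3 * (24 * Real.exp (1 + 1 / (4 * a))), by positivity, fun v => ?_⟩
  rw [inv_pow, ← div_eq_mul_inv, le_div_iff₀ (by positivity), norm_ff]
  set t := ‖L.lr v‖ with ht
  have ht0 : 0 ≤ t := norm_nonneg _
  have h1 : 1 + ‖v‖ ≤ K * (1 + t) := by have := h v; linarith
  have h2 := Real.pow_div_factorial_le_exp (x := 1 + t) (by positivity) 4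
  rw [div_le_iff₀ (by positivity)] at h2
  have h3 : Real.exp (-a * t ^ 2) * Real.exp (1 + t) ≤ Real.exp (1 + 1 / (4 * a)) := by
    rw [← Real.exp_add]
    refine Real.exp_le_exp.2 ?_
    have : 0 ≤ a * (t - 1 / (2 * a)) ^ 2 := by positivity
    have e : a * (t - 1 / (2 * a)) ^ 2 = a * t ^ 2 - t + 1 / (4 * a) := by
      field_simp; ring
    rw [e] at this
    linarith
  calc t * Real.exp (-a * t ^ 2) * (1 + ‖v‖) ^ 3
      ≤ (1 + t) * Real.exp (-a * t ^ 2) * (K * (1 + t)) ^ 3 := by gcongr; linarith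
    _ = K ^ 3 * (Real.exp (-a * t ^ 2) * (1 + t) ^ 4) := by ring
    _ ≤ K ^ 3 * (Real.exp (-a * t ^ 2) * (Real.exp (1 + t) * (Nat.factorial 4 : ℕ))) := by gcongr
    _ = K ^ 3 * (24 * (Real.exp (-a * t ^ 2) * Real.exp (1 + t))) := by
        simp only [Nat.factorial]; push_cast; ring
    _ ≤ _ := by gcongr

theorem summable_ff {σ : ℂ} (hσ : 0 < σ.im) (h : ℂ) :
    Summable fun x : Fin 2 → ℤ => ‖ff σ (h + L.l x)‖ := by
  obtain ⟨C, hC, hD⟩ := L.exists_dec hσ
  have := (summable_shift hC (by simp) hD (L.co h)).norm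
  simpa only [lr_add, lr_co, lr_ic] using this

theorem integral_lr (F : ℂ → ℂ) :
    ∫ v : Fin 2 → ℝ, F (L.lr v) = (|L.δ|⁻¹ : ℝ) * ∫ v : Fin 2 → ℝ, F (v 0 + v 1 * I) := by
  set A : Matrix (Fin 2) (Fin 2) ℝ := !![L.w0.re, L.w1.re; L.w0.im, L.w1.im] with hA
  have hdet : A.det = L.δ := by
    rw [hA, Matrix.det_fin_two_of, δ]; ring
  have hne : A.det ≠ 0 := hdet ▸ L.δ_ne
  have h := Real.map_matrix_volume_pi_eq_smul_volume_pi hne
  have hemb : MeasurableEmbedding (Matrix.toLin' A) :=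
    (Matrix.toLinearEquiv' A (Matrix.invertibleOfIsUnitDet A (Ne.isUnit hne))
      ).toContinuousLinearEquiv.toHomeomorph.measurableEmbedding
  have e : ∀ v : Fin 2 → ℝ, L.lr v = (Matrix.toLin' A v) 0 + (Matrix.toLin' A v) 1 * I := by
    intro v
    apply Complex.ext <;>
      simp [lr, hA, Matrix.toLin'_apply, Matrix.mulVec, dotProduct, Fin.sum_univ_two, mul_comm]
  have := hemb.integral_map (μ := volume) (fun v : Fin 2 → ℝ => F (v 0 + v 1 * I))
  rw [h, integral_smul_measure, ENNReal.toReal_ofReal (abs_nonneg _), hdet, abs_inv] at this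
  simp_rw [e]
  rw [← this, real_smul]

/-- the constant of the Poisson formula -/
def cst : ℂ := (|L.δ|⁻¹ : ℝ) * (I / 2)

/-- **Poisson summation.** -/
theorem poisson {σ : ℂ} (hσ : 0 < σ.im) (h : ℂ) :
    ∑' x : Fin 2 → ℤ, ff σ (h + L.l x) =
      L.cst / σ ^ 2 * ∑' k : Fin 2 → ℤ, ee (bf h (L.dual.l k)) * ff (-1 / σ) (L.dual.l k) := by
  have hσ0 : σ ≠ 0 := fun h => by simp [h] at hσ
  have hσ' : 0 < (-1 / σ).im := by
    rw [neg_div, one_div, neg_im, inv_im, neg_div, neg_neg]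
    exact div_pos hσ (normSq_pos.2 hσ0)
  obtain ⟨C, hC, hD⟩ := L.exists_dec hσ
  have hch : ∀ (k : Fin 2 → ℤ) (v : Fin 2 → ℝ), ch k v = ee (bf (L.lr v) (L.dual.l k)) := by
    intro k v
    rw [← lr_ic, bf_lr_dual, ch, ee, dot, Fin.sum_univ_two]
    simp only [ic_apply]
    congr 2
    push_cast; ring
  have hF : ∀ k : Fin 2 → ℤ, FTp (fun v => ff σ (L.lr v)) k =
      L.cst / σ ^ 2 * ff (-1 / σ) (L.dual.l k) := by
    intro k
    have e : ∀ v, ch (-k) v * ff σ (L.lr v) =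
        (fun z => ee (-bf z (L.dual.l k)) * ff σ z) (L.lr v) := by
      intro v
      have : L.dual.l (-k) = ((-1 : ℝ) : ℂ) * L.dual.l k := by simp [l]; ring
      rw [hch, this, bf_mul_right]
      simp
    rw [FTp, funext e, L.integral_lr (fun z => ee (-bf z (L.dual.l k)) * ff σ z), fourier_ff hσ, cst]
    field_simp
  have hs : Summable (FTp (fun v => ff σ (L.lr v))) := by
    rw [funext hF]
    have := (L.dual.summable_ff hσ' 0).of_norm
    simp only [zero_add] at this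
    exact this.mul_left _
  have key := (poisson_pi (g := fun v => ff σ (L.lr v)) ((continuous_ff σ).comp L.continuous_lr) hC
    (by simp) hD hs (L.co h)).tsum_eq
  simp only [lr_add, lr_co, lr_ic] at key
  rw [← key, ← tsum_mul_left]
  refine tsum_congr fun k => ?_
  rw [hF, hch, lr_co]
  ring

/-! ### series with bounded coefficients -/

/-- theta series with coefficients -/
def Z (φ : (Fin 2 → ℤ) → ℂ) (h τ : ℂ) : ℂ := ∑' x : Fin 2 → ℤ, φ x * ff τ (h + L.l x)

theorem norm_term_le {φ : (Fin 2 → ℤ) → ℂ} {C : ℝ} (hφ : ∀ x, ‖φ x‖ ≤ C) (h : ℂ) {y : ℝ} {τ : ℂ}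
    (hτ : y ≤ τ.im) (x : Fin 2 → ℤ) :
    ‖φ x * ff τ (h + L.l x)‖ ≤ C * ‖ff (y * I) (h + L.l x)‖ := by
  rw [norm_mul]
  refine mul_le_mul (hφ x) ?_ (norm_nonneg _) ((norm_nonneg _).trans (hφ x))
  rw [norm_ff, norm_ff]
  have : ((y : ℂ) * I).im = y := by simp
  rw [this]
  have := Real.pi_pos
  gcongr

theorem summable_Z {φ : (Fin 2 → ℤ) → ℂ} {C : ℝ} (hφ : ∀ x, ‖φ x‖ ≤ C) (h : ℂ) {τ : ℂ}
    (hτ : 0 < τ.im) : Summable fun x => φ x * ff τ (h + L.l x) :=
  Summable.of_norm_bounded ((L.summable_ff (σ := τ.im * I) (by simpa using hτ) h).mul_left C)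
    (L.norm_term_le hφ h le_rfl)

theorem differentiableOn_Z {φ : (Fin 2 → ℤ) → ℂ} {C : ℝ} (hφ : ∀ x, ‖φ x‖ ≤ C) (h : ℂ) :
    DifferentiableOn ℂ (L.Z φ h) {τ | 0 < τ.im} := by
  intro z hz
  have hz' : 0 < z.im := hz
  have hU : IsOpen {w : ℂ | z.im / 2 < w.im} := isOpen_lt continuous_const Complex.continuous_im
  have h1 : DifferentiableOn ℂ (L.Z φ h) {w : ℂ | z.im / 2 < w.im} := by
    refine differentiableOn_tsum_of_summable_norm
      ((L.summable_ff (σ := ((z.im / 2 : ℝ) : ℂ) * I) (by simpa using hz') h).mul_left C)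
      (fun x => ?_) hU fun x w hw => L.norm_term_le hφ h (le_of_lt hw) x
    refine Differentiable.differentiableOn ?_
    unfold ff ee
    fun_prop
  exact (h1.differentiableAt (hU.mem_nhds (show z.im / 2 < z.im by linarith))).differentiableWithinAt

theorem isZero_Z {φ : (Fin 2 → ℤ) → ℂ} {C : ℝ} (hφ : ∀ x, ‖φ x‖ ≤ C) (h : ℂ) :
    UpperHalfPlane.IsZeroAtImInfty fun τ : UpperHalfPlane => L.Z φ h τ := by
  have him : Tendsto (fun τ : UpperHalfPlane => (τ : ℂ).im) UpperHalfPlane.atImInfty atTop :=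
    tendsto_comap
  have := tendsto_tsum_of_dominated_convergence (𝓕 := UpperHalfPlane.atImInfty)
    (f := fun (τ : UpperHalfPlane) (x : Fin 2 → ℤ) => φ x * ff τ (h + L.l x)) (g := fun _ => 0)
    ((L.summable_ff (σ := ((1 : ℝ) : ℂ) * I) (by simp) h).mul_left C) (fun x => ?_)
    ((him.eventually_ge_atTop 1).mono fun τ hτ x => L.norm_term_le hφ h hτ x)
  · rw [tsum_zero] at this
    exact this
  · rw [tendsto_zero_iff_norm_tendsto_zero]
    simp only [norm_mul, norm_ff]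
    rcases eq_or_ne (h + L.l x) 0 with h0 | h0
    · simp [h0]
    · have h1 : 0 < 2 * π * ‖h + L.l x‖ ^ 2 := by
        have := Real.pi_pos
        have := norm_pos_iff.2 h0
        positivity
      have h2 := Real.tendsto_exp_neg_atTop_nhds_zero.comp (him.const_mul_atTop h1)
      have h3 := (h2.const_mul ‖h + L.l x‖).const_mul ‖φ x‖
      simp only [mul_zero] at h3
      refine h3.congr fun τ => ?_
      simp only [Function.comp]
      congr 3
      ring

end Lt

end Crest.Agent.T15.Th
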