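import Crest.Agent.T15.ThA_59

/-!
# Row 15, block C (helper59): binary theta series, the transformation law

`Tz L h τ = ∑_{x ∈ L} ff τ (h + x)`; `gen_law` (any matrix with `c > 0`), `law0` (`N ∣ c`, `d > 0`,
with the Gauss sum `G0`), `G0_prime` (its value for a prime), `isZero_slash`.
-/

set_option autoImplicit false

noncomputable section

open Complex Filter Topology
open scoped Real MatrixGroups ModularForm

namespace Crest.Agent.T15.Th

/-! ### residues modulo `c` -/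

/-- lift of a residue vector -/
def lf {c : ℕ} (r : Fin 2 → ZMod c) : Fin 2 → ℤ := fun i => ((r i).val : ℤ)

/-- division with remainder -/
def spl (c : ℕ) [NeZero c] : (Fin 2 → ZMod c) × (Fin 2 → ℤ) ≃ (Fin 2 → ℤ) where
  toFun p := lf p.1 + (c : ℤ) • p.2
  invFun x := (fun i => (x i : ZMod c), fun i => x i / c)
  left_inv p := by
    have hc : (c : ℤ) ≠ 0 := by exact_mod_cast NeZero.ne c
    refine Prod.ext (funext fun i => ?_) (funext fun i => ?_)
    · simp [lf]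
    · simp only [lf, Pi.add_apply, Pi.smul_apply, smul_eq_mul]
      rw [Int.add_mul_ediv_left _ _ hc, Int.ediv_eq_zero_of_lt (Int.natCast_nonneg _)
        (by exact_mod_cast ZMod.val_lt _), zero_add]
  right_inv x := by
    funext i
    simp only [lf, Pi.add_apply, Pi.smul_apply, smul_eq_mul, ZMod.val_intCast]
    exact Int.emod_add_mul_ediv _ _

theorem tsum_spl (c : ℕ) [NeZero c] {F : (Fin 2 → ℤ) → ℂ} (hF : Summable F) :
    ∑' x, F x = ∑ r : Fin 2 → ZMod c, ∑' y : Fin 2 → ℤ, F (lf r + (c : ℤ) • y) := by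
  rw [← (spl c).tsum_eq]
  exact (((spl c).summable_iff.2 hF).tsum_prod).trans (tsum_fintype _)

theorem sum_shift (c : ℕ) [NeZero c] {F : (Fin 2 → ℤ) → ℂ} (hF : ∀ x y, F (x + (c : ℤ) • y) = F x)
    (t : Fin 2 → ℤ) : ∑ r : Fin 2 → ZMod c, F (lf r) = ∑ r : Fin 2 → ZMod c, F (lf r + t) := by
  rw [← Equiv.sum_comp (Equiv.addRight (fun i => (t i : ZMod c)))]
  refine Finset.sum_congr rfl fun r _ => ?_
  have h := (spl c).apply_symm_apply (lf r + t)
  rw [← h]
  refine ((hF _ _).trans ?_).symm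
  congr 2
  funext i
  simp [spl, lf]

theorem im_moeb {a b c d : ℤ} (h : a * d - b * c = 1) {τ : ℂ} (hτ : 0 < τ.im) :
    c * τ + d ≠ 0 ∧ 0 < ((a * τ + b) / (c * τ + d)).im := by
  have h0 : c * τ + d ≠ 0 := by
    intro h0
    have h1 := congrArg im h0
    simp only [add_im, mul_im, intCast_re, intCast_im, zero_mul, add_zero, zero_im,
      mul_eq_zero, hτ.ne', or_false, Int.cast_eq_zero] at h1
    subst h1
    have h2 : d = 0 := by simpa using h0
    subst h2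
    simp at h
  refine ⟨h0, ?_⟩
  have h1 : ((a : ℝ) * d - b * c) = 1 := by exact_mod_cast h
  rw [div_im, ← sub_div]
  refine div_pos ?_ (normSq_pos.2 h0)
  simp only [add_im, mul_im, intCast_re, intCast_im, zero_mul, add_zero, add_re, mul_re, sub_zero]
  have : (a : ℝ) * τ.im * (c * τ.re + d) - (a * τ.re + b) * (c * τ.im) = (a * d - b * c) * τ.im := by
    ring
  rw [this, h1, one_mul]
  exact hτ

namespace Lt

variable (L : Lt)

/-- theta series of a coset -/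
def Tz (h τ : ℂ) : ℂ := ∑' x : Fin 2 → ℤ, ff τ (h + L.l x)

/-- the quadratic form is integral -/
def Int : Prop := ∀ x, ∃ n : ℤ, normSq (L.l x) = n

/-- `h` lies in the dual lattice -/
def Dl (h : ℂ) : Prop := ∀ x, ∃ n : ℤ, bf h (L.l x) = n

/-- level -/
def Lev (N : ℤ) : Prop := ∀ k, ∃ n : ℤ, N * normSq (L.dual.l k) = n

variable {L}

theorem Int.dl (hI : L.Int) (x : Fin 2 → ℤ) : L.Dl (L.l x) := by
  intro y
  obtain ⟨n1, h1⟩ := hI x
  obtain ⟨n2, h2⟩ := hI y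
  obtain ⟨n3, h3⟩ := hI (x + y)
  rw [l_add, normSq_add', h1, h2] at h3
  exact ⟨n3 - n1 - n2, by push_cast; linarith⟩

theorem Dl.add {h h' : ℂ} (h1 : L.Dl h) (h2 : L.Dl h') : L.Dl (h + h') := by
  intro y
  obtain ⟨n1, e1⟩ := h1 y
  obtain ⟨n2, e2⟩ := h2 y
  exact ⟨n1 + n2, by rw [bf_add_left, e1, e2]; push_cast; rfl⟩

theorem Dl.mul {h : ℂ} (h1 : L.Dl h) (a : ℤ) : L.Dl (a * h) := by
  intro y
  obtain ⟨n1, e1⟩ := h1 y
  exact ⟨a * n1, by rw [← ofReal_intCast, bf_mul_left, e1]; push_cast; rfl⟩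

theorem Dl.exists {h : ℂ} (h1 : L.Dl h) : ∃ k, h = L.dual.l k := by
  obtain ⟨n0, e0⟩ := h1 ![1, 0]
  obtain ⟨n1, e1⟩ := h1 ![0, 1]
  refine ⟨![n0, n1], ?_⟩
  have f0 := L.bf_l_dual ![1, 0] ![n0, n1]
  have f1 := L.bf_l_dual ![0, 1] ![n0, n1]
  generalize L.dual.l ![n0, n1] = κ at f0 f1
  simp only [l, Matrix.cons_val_zero, Matrix.cons_val_one, Int.cast_one, one_mul, Int.cast_zero,
    zero_mul, add_zero, zero_add, bf] at e0 e1 f0 f1
  have hδ := L.hδ
  apply Complex.ext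
  · apply mul_right_cancel₀ hδ
    linear_combination (L.w1.im / 2) * (e0 - f0) - (L.w0.im / 2) * (e1 - f1)
  · apply mul_right_cancel₀ hδ
    linear_combination (L.w0.re / 2) * (e1 - f1) - (L.w1.re / 2) * (e0 - f0)

theorem Lev.mem {N : ℤ} (hN : L.Lev N) {c : ℤ} (hc : N ∣ c) (k : Fin 2 → ℤ) :
    ∃ t, c * L.dual.l k = L.l t := by
  obtain ⟨c, rfl⟩ := hc
  have key : ∀ k', ∃ n : ℤ, bf (N * L.dual.l k) (L.dual.l k') = n := by
    intro k'
    obtain ⟨n1, h1⟩ := hN k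
    obtain ⟨n2, h2⟩ := hN k'
    obtain ⟨n3, h3⟩ := hN (k + k')
    rw [l_add, normSq_add'] at h3
    exact ⟨n3 - n1 - n2, by rw [← ofReal_intCast, bf_mul_left]; push_cast; linarith⟩
  obtain ⟨n0, e0⟩ := key ![1, 0]
  obtain ⟨n1, e1⟩ := key ![0, 1]
  refine ⟨c • ![n0, n1], ?_⟩
  have e := L.lr_co (N * L.dual.l k)
  simp only [l, Matrix.cons_val_zero, Matrix.cons_val_one, Int.cast_one, one_mul, Int.cast_zero,
    zero_mul, add_zero, zero_add] at e0 e1
  rw [l_smul]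
  push_cast
  rw [mul_comm (N : ℂ), mul_assoc, ← e]
  simp only [lr, co, l, Matrix.cons_val_zero, Matrix.cons_val_one, e0, e1, ofReal_intCast]

theorem Tz_eq_Z (h τ : ℂ) : L.Tz h τ = L.Z (fun _ => 1) h τ := by simp [Tz, Z]

theorem Tz_add_l (h τ : ℂ) (t : Fin 2 → ℤ) : L.Tz (h + L.l t) τ = L.Tz h τ := by
  unfold Tz
  rw [← (Equiv.addLeft t).tsum_eq (fun x => ff τ (h + L.l x))]
  simp only [Equiv.coe_addLeft, l_add, add_assoc]

theorem Tz_add_int (hI : L.Int) {h : ℂ} (hh : L.Dl h) {m : ℤ} (hm : normSq h = m) (τ : ℂ) (k : ℤ) :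
    L.Tz h (τ + k) = L.Tz h τ := by
  refine tsum_congr fun x => ?_
  obtain ⟨n1, e1⟩ := hI x
  obtain ⟨n2, e2⟩ := hh x
  rw [add_comm τ, ff_add, normSq_add', e1, e2, hm]
  have : (k : ℂ) * (((m : ℝ) + (n2 : ℝ) + (n1 : ℝ) : ℝ) : ℂ) = ((k * (m + n2 + n1) : ℤ) : ℂ) := by
    push_cast; ring
  rw [this, ee_int, one_mul]

variable (L)

/-- the summand of the finite sum in the transformation law -/
def ph (a d : ℤ) (c : ℕ) (g κ : ℂ) : ℂ := ee (((a * normSq g + bf g κ + d * normSq κ) / c : ℝ) : ℂ)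

/-- the coefficients in the transformation law -/
def Ph (a d : ℤ) (c : ℕ) [NeZero c] (h : ℂ) (k : Fin 2 → ℤ) : ℂ :=
  ∑ r : Fin 2 → ZMod c, ph a d c (h + L.l (lf r)) (L.dual.l k)

theorem norm_Ph (a d : ℤ) (c : ℕ) [NeZero c] (h : ℂ) (k : Fin 2 → ℤ) :
    ‖L.Ph a d c h k‖ ≤ Fintype.card (Fin 2 → ZMod c) := by
  refine (norm_sum_le _ _).trans ?_
  simp only [ph, norm_ee_real, Finset.sum_const, Finset.card_univ, nsmul_eq_mul, mul_one, le_refl]

variable {L}

/-- transformation under a matrix with positive lower left entry -/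
theorem gen_law (hI : L.Int) {h : ℂ} (hh : L.Dl h) {a b d : ℤ} {c : ℕ} [NeZero c]
    (hdet : a * d - b * c = 1) {τ : ℂ} (hτ : 0 < τ.im) :
    L.Tz h ((a * τ + b) / (c * τ + d)) =
      L.cst * (c * τ + d) ^ 2 / c * L.dual.Z (L.Ph a d c h) 0 τ := by
  obtain ⟨h0, h1⟩ := im_moeb hdet hτ
  rw [Int.cast_natCast] at h0 h1
  have hc : (c : ℂ) ≠ 0 := by exact_mod_cast NeZero.ne c
  have hcR : (c : ℝ) ≠ 0 := by exact_mod_cast NeZero.ne c
  have hdetC : (a : ℂ) * d - b * c = 1 := by exact_mod_cast hdet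
  set σ : ℂ := -1 / (c * (c * τ + d)) with hσ
  have e1 : (a * τ + b) / (c * τ + d) = a / c + σ := by
    have h2 : (a * τ + b : ℂ) = (a * (c * τ + d) - 1) / c := by
      rw [eq_div_iff hc]; linear_combination -hdetC
    rw [hσ, h2]
    generalize (c : ℂ) * τ + d = u at h0
    field_simp
    ring
  have hσ1 : 0 < σ.im := by
    have : (a / c + σ : ℂ).im = σ.im := by
      rw [add_im, ← ofReal_intCast, ← ofReal_natCast, ← ofReal_div, ofReal_im, zero_add]
    rwa [e1, this] at h1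
  have hσ2 : 0 < (σ * (c : ℝ) ^ 2).im := by
    rw [← ofReal_pow, im_mul_ofReal]
    positivity
  have e2 : -1 / (σ * (c : ℝ) ^ 2) = d / c + τ := by
    rw [hσ]; push_cast; field_simp; ring
  have e3 : ∀ (g : ℂ), L.Dl g → ∑' y : Fin 2 → ℤ, ff (a / c + σ) (g + L.l ((c : ℤ) • y)) =
      L.cst * (c * τ + d) ^ 2 / c *
        ∑' k : Fin 2 → ℤ, ph a d c g (L.dual.l k) * ff τ (0 + L.dual.l k) := by
    intro g hg
    have f1 : ∀ y : Fin 2 → ℤ, ff (a / c + σ) (g + L.l ((c : ℤ) • y)) =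
        ee (a / c * normSq g) * c * ff (σ * (c : ℝ) ^ 2) (((c : ℝ)⁻¹ : ℝ) * g + L.l y) := by
      intro y
      obtain ⟨n1, g1⟩ := hI y
      obtain ⟨n2, g2⟩ := hg y
      have g3 : g + L.l ((c : ℤ) • y) = (c : ℝ) * (((c : ℝ)⁻¹ : ℝ) * g + L.l y) := by
        rw [l_smul]; push_cast; field_simp
      have g4 : ee (a / c * normSq (g + L.l ((c : ℤ) • y))) = ee (a / c * normSq g) := by
        rw [l_smul, ← ofReal_intCast (c : ℤ), normSq_add', bf_mul_right, map_mul, normSq_ofReal,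
          g1, g2, ← ee_add_int (a / c * normSq g) (a * n2 + a * c * n1)]
        congr 1
        push_cast
        field_simp
        ring
      rw [ff_add, g4, g3, ff_scale]
      push_cast
      ring
    simp_rw [f1]
    rw [tsum_mul_left, L.poisson hσ2, e2, ← tsum_mul_left, ← tsum_mul_left, ← tsum_mul_left]
    refine tsum_congr fun k => ?_
    have g5 : ph a d c g (L.dual.l k) = ee (a / c * normSq g) *
        ee (bf (((c : ℝ)⁻¹ : ℝ) * g) (L.dual.l k)) * ee (d / c * normSq (L.dual.l k)) := by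
      rw [← ee_add, ← ee_add, ph, bf_mul_left]
      congr 1
      push_cast
      field_simp
    rw [ff_add, g5, zero_add, hσ]
    push_cast
    field_simp
  rw [e1, Tz, tsum_spl c (L.summable_ff (e1 ▸ h1) h).of_norm]
  simp_rw [l_add, ← add_assoc, fun r : Fin 2 → ZMod c => e3 _ (hh.add (hI.dl (lf r)))]
  rw [← Finset.mul_sum, Z, ← Summable.tsum_finsetSum fun r _ =>
    L.dual.summable_Z (C := 1) (fun k => by rw [ph, norm_ee_real]) 0 hτ]
  simp only [Ph, Finset.sum_mul]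

/-- the Gauss sum of the lattice -/
def G0 (L : Lt) (b : ℤ) (d : ℕ) [NeZero d] : ℂ :=
  ∑ r : Fin 2 → ZMod d, ee ((b * normSq (L.l (lf r)) / d : ℝ) : ℂ)

theorem ph_per (hI : L.Int) {g : ℂ} (hg : L.Dl g) (a d : ℤ) (c : ℕ) [NeZero c] (k y : Fin 2 → ℤ) :
    ph a d c (g + L.l ((c : ℤ) • y)) (L.dual.l k) = ph a d c g (L.dual.l k) := by
  have hc : (c : ℂ) ≠ 0 := by exact_mod_cast NeZero.ne c
  obtain ⟨n1, g1⟩ := hI y
  obtain ⟨n2, g2⟩ := hg y
  rw [ph, ph, l_smul, ← ofReal_intCast (c : ℤ), normSq_add', bf_mul_right, map_mul, normSq_ofReal,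
    g1, g2, bf_add_left, bf_mul_left, bf_l_dual,
    ← ee_add_int (((a * normSq g + bf g (L.dual.l k) + d * normSq (L.dual.l k)) / c : ℝ) : ℂ)
      (a * n2 + a * c * n1 + (y 0 * k 0 + y 1 * k 1))]
  congr 1
  push_cast
  field_simp
  ring

theorem Ph_eq (hI : L.Int) {N : ℤ} (hN : L.Lev N) {h : ℂ} (hh : L.Dl h) {m : ℤ} (hm : normSq h = m)
    {a b c : ℤ} {d : ℕ} [NeZero d] (hdet : a * d - b * c = 1) (hc : N ∣ c) (k : Fin 2 → ℤ) :
    L.Ph b (-c) d h k = L.G0 b d * ee (bf (a * h) (L.dual.l k)) := by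
  have hd : (d : ℂ) ≠ 0 := by exact_mod_cast NeZero.ne d
  have hdetC : (a : ℂ) * d - b * c = 1 := by exact_mod_cast hdet
  obtain ⟨t, ht⟩ := hN.mem hc k
  obtain ⟨k0, hk0⟩ := hh.exists
  obtain ⟨t0, ht0⟩ := hN.mem (hc.mul_left b) k0
  rw [← hk0] at ht0
  obtain ⟨n0, hn0⟩ : ∃ n : ℤ, c * normSq (L.dual.l k) = n := by
    obtain ⟨c, rfl⟩ := hc
    obtain ⟨n, hn⟩ := hN k
    exact ⟨c * n, by push_cast; rw [← hn]; ring⟩
  have hn0C : (c : ℂ) * normSq (L.dual.l k) = n0 := by exact_mod_cast hn0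
  -- first shift
  have s1 : L.Ph b (-c) d h k = (∑ r : Fin 2 → ZMod d, ph b 0 d (h + L.l (lf r)) (L.dual.l 0)) *
      ee (bf (a * h) (L.dual.l k)) := by
    rw [Ph, sum_shift d (F := fun x => ph b (-c) d (h + L.l x) (L.dual.l k))
      (fun x y => by rw [l_add, ← add_assoc, ph_per hI (hh.add (hI.dl x))]) t, Finset.sum_mul]
    refine Finset.sum_congr rfl fun r _ => ?_
    have l0 : L.dual.l 0 = 0 := by simp [l]
    have b0 : ∀ z, bf z 0 = 0 := fun z => by simp [bf]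
    rw [l_add, ← add_assoc, ← ht, ph, ph, ← ee_add, ← ofReal_intCast c, ← ofReal_intCast a,
      normSq_add' _ (_ * _), bf_mul_right, map_mul, normSq_ofReal, bf_add_left _ (_ * _),
      bf_mul_left, bf_self, bf_mul_left, l0, b0, bf_add_left, bf_l_dual,
      ← ee_add_int (_ + _) (a * (lf r 0 * k 0 + lf r 1 * k 1) + a * n0)]
    congr 1
    push_cast
    rw [← hn0C]
    field_simp
    linear_combination (-(bf h (L.dual.l k) : ℂ) - (lf r 0 * k 0 + lf r 1 * k 1) -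
      c * normSq (L.dual.l k)) * hdetC
  rw [s1]
  congr 1
  rw [sum_shift d (F := fun x => ph b 0 d (h + L.l x) (L.dual.l 0))
    (fun x y => by rw [l_add, ← add_assoc, ph_per hI (hh.add (hI.dl x))]) t0, G0]
  refine Finset.sum_congr rfl fun r _ => ?_
  have l0 : L.dual.l 0 = 0 := by simp [l]
  have b0 : ∀ z, bf z 0 = 0 := fun z => by simp [bf]
  have e : h + L.l (lf r + t0) = ((a * d : ℝ) : ℂ) * h + L.l (lf r) := by
    rw [l_add, ← ht0]; push_cast; linear_combination (-h) * hdetC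
  obtain ⟨n2, g2⟩ := hh (lf r)
  rw [e, ph, l0, b0, normSq_add', bf_mul_left, map_mul, normSq_ofReal, hm, g2,
    ← ee_add_int ((b * normSq (L.l (lf r)) / d : ℝ) : ℂ) (b * a * a * d * m + a * b * n2)]
  congr 1
  push_cast
  field_simp
  ring

/-- transformation under `Γ₀(N)`, positive lower right entry -/
theorem law0 (hI : L.Int) {N : ℤ} (hN : L.Lev N) {h : ℂ} (hh : L.Dl h) {m : ℤ} (hm : normSq h = m)
    {a b c : ℤ} {d : ℕ} [NeZero d] (hdet : a * d - b * c = 1) (hc : N ∣ c) {τ : ℂ}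
    (hτ : 0 < τ.im) :
    L.Tz h ((a * τ + b) / (c * τ + d)) = (c * τ + d) ^ 2 * (L.G0 b d / d) * L.Tz (a * h) τ := by
  have hτ0 : τ ≠ 0 := fun h => by simp [h] at hτ
  have hd : (d : ℂ) ≠ 0 := by exact_mod_cast NeZero.ne d
  have hτ' : 0 < (-1 / τ).im := by
    rw [neg_div, one_div, neg_im, inv_im, neg_div, neg_neg]
    exact div_pos hτ (normSq_pos.2 hτ0)
  obtain ⟨h0, -⟩ := im_moeb hdet hτ
  rw [Int.cast_natCast] at h0
  have key := gen_law hI hh (a := b) (b := -a) (d := -c) (c := d) (by linarith) hτ'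
  have e0 : (d : ℂ) * (-1 / τ) + ((-c : ℤ) : ℂ) = -(c * τ + d) / τ := by
    push_cast; field_simp; ring
  have e1 : (b * (-1 / τ) + ((-a : ℤ) : ℂ)) / (d * (-1 / τ) + ((-c : ℤ) : ℂ)) =
      (a * τ + b) / (c * τ + d) := by
    rw [e0]; push_cast; field_simp; ring
  rw [e1, e0] at key
  rw [key, Tz, L.poisson hτ, Z]
  simp_rw [Ph_eq hI hN hh hm hdet hc, zero_add, mul_assoc (L.G0 b d), tsum_mul_left]
  field_simp

theorem isZero_slash (hI : L.Int) {h : ℂ} (hh : L.Dl h) (γ : SL(2, ℤ)) :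
    UpperHalfPlane.IsZeroAtImInfty
      ((fun τ : UpperHalfPlane => L.Tz h τ) ∣[(2 : ℤ)] γ) := by
  have hdet : γ 0 0 * γ 1 1 - γ 0 1 * γ 1 0 = 1 := by
    have := γ.det_coe
    rwa [Matrix.det_fin_two] at this
  have hsl : ∀ τ : UpperHalfPlane, ((fun τ : UpperHalfPlane => L.Tz h τ) ∣[(2 : ℤ)] γ) τ =
      L.Tz h ((γ 0 0 * (τ : ℂ) + γ 0 1) / (γ 1 0 * (τ : ℂ) + γ 1 1)) /
        (γ 1 0 * (τ : ℂ) + γ 1 1) ^ 2 := by
    intro τ
    rw [ModularForm.SL_slash_apply, UpperHalfPlane.coe_specialLinearGroup_apply,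
      ModularGroup.denom_apply, zpow_neg, div_eq_mul_inv _ (_ ^ 2)]
    simp
  rw [funext hsl]
  generalize γ 0 0 = a, γ 0 1 = b, γ 1 0 = c, γ 1 1 = d at hdet
  have pos : ∀ (a b d : ℤ) (c : ℕ), c ≠ 0 → a * d - b * c = 1 → UpperHalfPlane.IsZeroAtImInfty
      fun τ : UpperHalfPlane => L.Tz h ((a * (τ : ℂ) + b) / (c * (τ : ℂ) + d)) /
        (c * (τ : ℂ) + d) ^ 2 := by
    intro a b d c hc hdet
    have : NeZero c := ⟨hc⟩
    have h1 := (L.dual.isZero_Z (L.norm_Ph a d c h) 0).const_mul (L.cst / c)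
    rw [mul_zero] at h1
    refine h1.congr fun τ => ?_
    have h0 := (im_moeb hdet τ.im_pos).1
    rw [Int.cast_natCast] at h0
    rw [gen_law hI hh hdet τ.im_pos]
    field_simp
  rcases lt_trichotomy c 0 with hc | rfl | hc
  · obtain ⟨c, rfl⟩ := Int.exists_eq_neg_ofNat hc.le
    refine (pos (-a) (-b) (-d) c (by omega) (by linarith)).congr fun τ => ?_
    push_cast
    rw [show (c : ℂ) * τ + -d = -(-c * τ + d) by ring,
      show -(a : ℂ) * τ + -b = -(a * τ + b) by ring, neg_div_neg_eq, neg_sq]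
  · have had : a * d = 1 := by linarith
    have hd : (d : ℂ) ^ 2 = 1 := by
      rcases Int.eq_one_or_neg_one_of_mul_eq_one' had with h | h <;> simp [h.2]
    have hadC : (a : ℂ) * d = 1 := by exact_mod_cast had
    refine (L.isZero_Z (φ := fun x => ee (((b * d * normSq (h + L.l x) : ℝ)) : ℂ)) (C := 1)
      (fun x => by rw [norm_ee_real]) h).congr fun τ => ?_
    have hd0 : (d : ℂ) ≠ 0 := right_ne_zero_of_mul_eq_one hadC
    have e : ((a : ℂ) * τ + b) / d = b * d + τ := by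
      rw [div_eq_iff hd0]
      linear_combination (-(b : ℂ) - a * τ) * hd + (d * τ) * hadC
    simp only [Int.cast_zero, zero_mul, zero_add, hd, div_one, e, Tz, Z, ff_add]
    push_cast
    rfl
  · obtain ⟨c, rfl⟩ := Int.eq_ofNat_of_zero_le hc.le
    exact pos a b d c (by omega) hdet

end Lt

end Crest.Agent.T15.Th
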