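import Crest.Agent.T15.ThB_59

/-!
# Row 15, block C (helper59): binary theta series, the Gauss sum and the law under `Γ₀(N)`
-/

set_option autoImplicit false

noncomputable section

open Complex Filter Topology
open scoped Real MatrixGroups ModularForm NumberTheorySymbols

namespace Crest.Agent.T15.Th

section Gauss

variable {p : ℕ} [Fact p.Prime]

/-- the quadratic character with complex values -/
def qc (p : ℕ) [Fact p.Prime] : MulChar (ZMod p) ℂ :=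
  (quadraticChar (ZMod p)).ringHomComp (Int.castRingHom ℂ)

theorem qc_apply (x : ZMod p) : qc p x = (quadraticChar (ZMod p) x : ℤ) := rfl

theorem sum_sq (hp : p ≠ 2) {t : ZMod p} (ht : t ≠ 0) :
    ∑ x : ZMod p, ZMod.stdAddChar (t * x ^ 2) = qc p t * gaussSum (qc p) ZMod.stdAddChar := by
  have hchar : ringChar (ZMod p) ≠ 2 := by rwa [ZMod.ringChar_zmod_n]
  have h1 : ∑ x : ZMod p, ZMod.stdAddChar (t * x ^ 2) =
      ∑ y : ZMod p, (qc p y + 1) * ZMod.stdAddChar (t * y) := by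
    rw [← Finset.sum_fiberwise' Finset.univ (fun x : ZMod p => x ^ 2)
      (fun y => (ZMod.stdAddChar (t * y) : ℂ))]
    refine Finset.sum_congr rfl fun y _ => ?_
    rw [Finset.sum_const, nsmul_eq_mul]
    congr 1
    have := quadraticChar_card_sqrts hchar y
    rw [Set.toFinset_ofPred] at this
    rw [qc_apply]
    exact_mod_cast this
  have h2 : ∑ y : ZMod p, (ZMod.stdAddChar (t * y) : ℂ) = 0 := by
    have := AddChar.sum_mulShift t (ZMod.isPrimitive_stdAddChar p)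
    simp only [ht, if_false, Nat.cast_zero] at this
    simpa only [mul_comm] using this
  have h3 := gaussSum_mulShift (qc p) ZMod.stdAddChar (Units.mk0 t ht)
  have h4 : qc p t * qc p t = 1 := by
    rw [← map_mul, qc_apply, ← sq, quadraticChar_sq_one' ht]; simp
  rw [h1]
  simp_rw [add_mul, one_mul]
  rw [Finset.sum_add_distrib, h2, add_zero, ← h3, Units.val_mk0, ← mul_assoc, h4, one_mul]
  rfl

theorem sum_form (hp : p ≠ 2) {α β γ b : ZMod p} (hα : α ≠ 0) (hb : b ≠ 0)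
    (hD : β ^ 2 - 4 * α * γ ≠ 0) :
    ∑ r : Fin 2 → ZMod p, ZMod.stdAddChar (b * (α * r 0 ^ 2 + β * r 0 * r 1 + γ * r 1 ^ 2)) =
      p * qc p (β ^ 2 - 4 * α * γ) := by
  have hchar : ringChar (ZMod p) ≠ 2 := by rwa [ZMod.ringChar_zmod_n]
  have h2 : (2 : ZMod p) ≠ 0 := Ring.two_ne_zero hchar
  have h4 : (4 : ZMod p) ≠ 0 := by
    rw [show (4 : ZMod p) = 2 * 2 by norm_num]; exact mul_ne_zero h2 h2
  set D := β ^ 2 - 4 * α * γ with hDdef
  have e1 : ∑ r : Fin 2 → ZMod p,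
      (ZMod.stdAddChar (b * (α * r 0 ^ 2 + β * r 0 * r 1 + γ * r 1 ^ 2)) : ℂ) =
      ∑ y : ZMod p, ∑ x : ZMod p,
        (ZMod.stdAddChar (b * (α * x ^ 2 + β * x * y + γ * y ^ 2)) : ℂ) := by
    rw [Finset.sum_comm, ← Fintype.sum_prod_type', ← (finTwoArrowEquiv (ZMod p)).sum_comp]
    rfl
  have e2 : ∀ y : ZMod p, ∑ x : ZMod p,
      (ZMod.stdAddChar (b * (α * x ^ 2 + β * x * y + γ * y ^ 2)) : ℂ) =
      (qc p (b * α) * gaussSum (qc p) ZMod.stdAddChar) *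
        ZMod.stdAddChar ((-(b * α * D) * (2 * α)⁻¹ ^ 2) * y ^ 2) := by
    intro y
    rw [← sum_sq hp (mul_ne_zero hb hα), Finset.sum_mul,
      ← Equiv.sum_comp (Equiv.addRight (-(β * y / (2 * α))))]
    refine Finset.sum_congr rfl fun x _ => ?_
    rw [← AddChar.map_add_eq_mul]
    congr 1
    rw [hDdef, Equiv.coe_addRight]
    field_simp
    ring
  have hne : -(b * α * D) * (2 * α)⁻¹ ^ 2 ≠ 0 :=
    mul_ne_zero (neg_ne_zero.2 (mul_ne_zero (mul_ne_zero hb hα) hD))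
      (pow_ne_zero _ (inv_ne_zero (mul_ne_zero h2 hα)))
  have hq : qc p ≠ 1 := by
    rw [qc, ne_eq, MulChar.ringHomComp_eq_one_iff (RingHom.injective_int _)]
    exact quadraticChar_ne_one hchar
  have hg := gaussSum_sq hq ((quadraticChar_isQuadratic (ZMod p)).comp _)
    (ZMod.isPrimitive_stdAddChar p)
  rw [ZMod.card] at hg
  have h5 : qc p (b * α) * qc p (-(b * α * D) * (2 * α)⁻¹ ^ 2) * qc p (-1) = qc p D := by
    rw [← map_mul, ← map_mul, show b * α * (-(b * α * D) * (2 * α)⁻¹ ^ 2) * -1 =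
      D * (b * α * (2 * α)⁻¹) ^ 2 by ring, map_mul, qc_apply (_ ^ 2), quadraticChar_sq_one'
      (mul_ne_zero (mul_ne_zero hb hα) (inv_ne_zero (mul_ne_zero h2 hα)))]
    simp
  rw [e1]
  simp_rw [e2]
  rw [← Finset.mul_sum, sum_sq hp hne, ← h5]
  linear_combination (qc p (b * α) * qc p (-(b * α * D) * (2 * α)⁻¹ ^ 2)) * hg

end Gauss

namespace Lt

variable {L : Lt}

/-- the coefficients of the quadratic form -/
def Frm (L : Lt) (α β γ : ℤ) : Prop :=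
  ∀ x, normSq (L.l x) = ((α * x 0 ^ 2 + β * x 0 * x 1 + γ * x 1 ^ 2 : ℤ) : ℝ)

theorem Frm.int {α β γ : ℤ} (h : L.Frm α β γ) : L.Int := fun x => ⟨_, h x⟩

theorem Frm.pos {α β γ : ℤ} (h : L.Frm α β γ) : α ≠ 0 := by
  rintro rfl
  have h1 := h ![1, 0]
  simp only [l, Matrix.cons_val_zero, Matrix.cons_val_one, Int.cast_one, one_mul, Int.cast_zero,
    zero_mul, add_zero, mul_zero, ne_eq, OfNat.ofNat_ne_zero, not_false_eq_true, zero_pow,
    map_eq_zero] at h1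
  exact L.hδ (by simp [h1])

theorem G0_prime {α β γ : ℤ} (h : L.Frm α β γ) {p : ℕ} [Fact p.Prime] (hp : p ≠ 2) {b : ℤ}
    (hα : ¬ (p : ℤ) ∣ α) (hb : ¬ (p : ℤ) ∣ b) (hD : ¬ (p : ℤ) ∣ β ^ 2 - 4 * α * γ) :
    L.G0 b p = p * (J(β ^ 2 - 4 * α * γ | p) : ℤ) := by
  have := sum_form hp (α := (α : ZMod p)) (β := β) (γ := γ) (b := b)
    (by rwa [Ne, ZMod.intCast_zmod_eq_zero_iff_dvd]) (by rwa [Ne, ZMod.intCast_zmod_eq_zero_iff_dvd])
    (by rw [← ZMod.intCast_zmod_eq_zero_iff_dvd] at hD; exact_mod_cast hD)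
  rw [← jacobiSym.legendreSym.to_jacobiSym, legendreSym, ← qc_apply]
  push_cast
  rw [← this, G0]
  refine Finset.sum_congr rfl fun r _ => ?_
  have e := ZMod.stdAddChar_coe (N := p)
    (b * (α * lf r 0 ^ 2 + β * lf r 0 * lf r 1 + γ * lf r 1 ^ 2))
  have e0 : ∀ i, ((lf r i : ℤ) : ZMod p) = r i := fun i => by simp [lf]
  push_cast at e
  rw [e0, e0] at e
  rw [e, h, ee]
  congr 1
  push_cast
  ring

theorem law1 {α β γ D f N : ℤ} (h : L.Frm α β γ) (hD : β ^ 2 - 4 * α * γ = D * f ^ 2)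
    (hD0 : D ≠ 0) (hf : f ≠ 0) (hN : L.Lev N) (h4 : 4 * D ∣ N) {z : ℂ} (hz : L.Dl z) {m : ℤ}
    (hm : normSq z = m) {a b c d : ℤ} (hdet : a * d - b * c = 1) (hc : N ∣ c) (hc0 : c ≠ 0) {n : ℕ}
    (hn : (n : ℤ) ≡ d [ZMOD N]) {τ : ℂ} (hτ : 0 < τ.im) :
    L.Tz z ((a * τ + b) / (c * τ + d)) = (c * τ + d) ^ 2 * (J(D | n) : ℤ) * L.Tz (a * z) τ := by
  have hcop : IsCoprime d (c.natAbs : ℤ) := by
    rw [Int.natCast_natAbs, IsCoprime.abs_right_iff]
    exact ⟨a, -b, by linarith⟩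
  obtain ⟨p, hp1, hp2, hp3⟩ := Nat.forall_exists_prime_gt_and_zmodEq
    (2 + α.natAbs + (D * f ^ 2).natAbs) (Int.natAbs_ne_zero.2 hc0) hcop
  have : Fact p.Prime := ⟨hp2⟩
  rw [Int.natCast_natAbs, Int.modEq_abs] at hp3
  obtain ⟨k, hk⟩ := hp3.symm.dvd
  have hp : (p : ℤ) = d + c * k := by linarith
  have hdet' : a * p - (b + a * k) * c = 1 := by rw [hp]; linarith
  have hτ' : 0 < (τ - k).im := by simpa using hτ
  have key := law0 h.int hN hz hm hdet' hc hτ'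
  have hpC : (p : ℂ) = d + c * k := by exact_mod_cast hp
  have hp0 : (p : ℂ) ≠ 0 := by exact_mod_cast hp2.ne_zero
  have hnd : ∀ x : ℤ, x ≠ 0 → x.natAbs < p → ¬ (p : ℤ) ∣ x := fun x hx hlt hd =>
    absurd (Nat.le_of_dvd (Int.natAbs_pos.2 hx) (Int.natCast_dvd.1 hd)) (not_le.2 hlt)
  have hDf : ¬ (p : ℤ) ∣ D * f ^ 2 := hnd _ (mul_ne_zero hD0 (pow_ne_zero _ hf)) (by omega)
  have hb : ¬ (p : ℤ) ∣ b + a * k := by
    intro hd
    have : (p : ℤ) ∣ 1 := by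
      rw [← hdet']
      exact (dvd_mul_left _ _).sub (hd.mul_right _)
    exact hp2.one_lt.ne' (by exact_mod_cast Int.eq_one_of_dvd_one (Int.natCast_nonneg p) this)
  rw [G0_prime h (by omega) (hnd _ h.pos (by omega)) hb (hD ▸ hDf), hD, jacobiSym.mul_left,
    jacobiSym.sq_one' (by
      rw [Int.gcd_comm, ← Int.isCoprime_iff_gcd_eq_one]
      exact (Nat.prime_iff_prime_int.1 hp2).irreducible.coprime_iff_not_dvd.2
        fun hd => hDf ((hd.trans (dvd_pow_self f two_ne_zero)).mul_left _)), mul_one] at key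
  have hpo : Odd p := hp2.odd_of_ne_two (by omega)
  have hpn : (n : ℤ) ≡ p [ZMOD (4 * D)] :=
    (hn.of_dvd h4).trans (hp3.of_dvd (h4.trans hc)).symm
  have hpn' : n ≡ p [MOD (4 * D.natAbs)] := by
    rw [← Int.natCast_modEq_iff]
    push_cast
    rw [show (4 : ℤ) * |D| = |4 * D| by rw [abs_mul]; rfl, Int.modEq_abs]
    exact hpn
  have hno : Odd n := by
    have := hpn'.of_dvd (show 2 ∣ 4 * D.natAbs by omega)
    rw [Nat.odd_iff] at hpo ⊢
    rw [← hpo]; exact this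
  have hJ : J(D | p) = J(D | n) := by
    rw [jacobiSym.mod_right D hpo, jacobiSym.mod_right D hno, hpn']
  have hm' : normSq (a * z) = ((a * a * m : ℤ) : ℝ) := by
    rw [map_mul, hm, normSq_intCast]; push_cast; ring
  have hT := Tz_add_int h.int (hz.mul a) hm' (τ - k) k
  rw [sub_add_cancel] at hT
  have e1 : (c : ℂ) * (τ - k) + p = c * τ + d := by rw [hpC]; ring
  have e2 : (a : ℂ) * (τ - k) + ((b + a * k : ℤ) : ℂ) = a * τ + b := by push_cast; ring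
  rw [e1, e2, hJ, ← hT, mul_div_cancel_left₀ _ hp0] at key
  exact key

/-- **transformation law under `Γ₀(N)`** -/
theorem law {α β γ D f N : ℤ} (h : L.Frm α β γ) (hD : β ^ 2 - 4 * α * γ = D * f ^ 2)
    (hD0 : D ≠ 0) (hf : f ≠ 0) (hN : L.Lev N) (hN0 : N ≠ 0) (h4 : 4 * D ∣ N) {z : ℂ} (hz : L.Dl z)
    {m : ℤ} (hm : normSq z = m) {a b c d : ℤ} (hdet : a * d - b * c = 1) (hc : N ∣ c) {n : ℕ}
    (hn : (n : ℤ) ≡ d [ZMOD N]) {τ : ℂ} (hτ : 0 < τ.im) :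
    L.Tz z ((a * τ + b) / (c * τ + d)) = (c * τ + d) ^ 2 * (J(D | n) : ℤ) * L.Tz (a * z) τ := by
  rcases eq_or_ne c 0 with rfl | hc0
  swap
  · exact law1 h hD hD0 hf hN h4 hz hm hdet hc hc0 hn hτ
  have hd0 : d ≠ 0 := by rintro rfl; simp at hdet
  obtain ⟨h0, h1⟩ := im_moeb (a := 1) (b := 0) (c := N) (d := 1) (by ring) hτ
  have k1 := law1 h hD hD0 hf hN h4 hz hm (a := a - b * N) (b := b) (c := -(d * N)) (d := d)
    (by linarith) (dvd_neg.2 (dvd_mul_left _ _)) (neg_ne_zero.2 (mul_ne_zero hd0 hN0)) hn h1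
  have hm' : normSq (((a - b * N : ℤ) : ℂ) * z) = (((a - b * N) * (a - b * N) * m : ℤ) : ℝ) := by
    rw [map_mul, hm, normSq_intCast]; push_cast; ring
  have k2 := law1 h hD hD0 hf hN h4 (hz.mul (a - b * N)) hm' (a := 1) (b := 0) (c := N) (d := 1)
    (by ring) dvd_rfl hN0 (n := 1) rfl hτ
  obtain ⟨k0, hk0⟩ := hz.exists
  obtain ⟨t, ht⟩ := hN.mem (c := -(b * N)) (dvd_neg.2 (dvd_mul_left _ _)) k0
  have e0 : ((1 : ℤ) : ℂ) * (((a - b * N : ℤ) : ℂ) * z) = a * z + L.l t := by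
    rw [← ht, ← hk0]; push_cast; ring
  rw [e0, Tz_add_l, jacobiSym.one_right] at k2
  rw [k2] at k1
  simp only [Int.cast_one, Int.cast_zero, one_mul, add_zero, zero_mul, zero_add, mul_one]
    at k1 h0 ⊢
  have e1 : ((-(d * N) : ℤ) : ℂ) * (τ / (N * τ + 1)) + d = d / (N * τ + 1) := by
    push_cast; field_simp; ring
  have e2 : ((a - b * N : ℤ) : ℂ) * (τ / (N * τ + 1)) + b = (a * τ + b) / (N * τ + 1) := by
    push_cast; field_simp; ring
  rw [e1, e2, div_div_div_cancel_right₀ h0] at k1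
  rw [k1]
  field_simp

theorem law_slash {α β γ D f N : ℤ} (h : L.Frm α β γ) (hD : β ^ 2 - 4 * α * γ = D * f ^ 2)
    (hD0 : D ≠ 0) (hf : f ≠ 0) (hN : L.Lev N) (hN0 : N ≠ 0) (h4 : 4 * D ∣ N) {z : ℂ} (hz : L.Dl z)
    {m : ℤ} (hm : normSq z = m) (g : SL(2, ℤ)) (hc : N ∣ g 1 0) {n : ℕ}
    (hn : (n : ℤ) ≡ g 1 1 [ZMOD N]) (τ : UpperHalfPlane) :
    ((fun τ : UpperHalfPlane => L.Tz z τ) ∣[(2 : ℤ)] g) τ =
      (J(D | n) : ℤ) * L.Tz (g 0 0 * z) τ := by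
  have hdet : g 0 0 * g 1 1 - g 0 1 * g 1 0 = 1 := by
    have := g.det_coe
    rwa [Matrix.det_fin_two] at this
  have hsl : ((fun τ : UpperHalfPlane => L.Tz z τ) ∣[(2 : ℤ)] g) τ =
      L.Tz z ((g 0 0 * (τ : ℂ) + g 0 1) / (g 1 0 * (τ : ℂ) + g 1 1)) /
        (g 1 0 * (τ : ℂ) + g 1 1) ^ 2 := by
    rw [ModularForm.SL_slash_apply, UpperHalfPlane.coe_specialLinearGroup_apply,
      ModularGroup.denom_apply, zpow_neg, div_eq_mul_inv _ (_ ^ 2)]
    simp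
  have h0 := (im_moeb hdet τ.im_pos).1
  rw [hsl, law h hD hD0 hf hN hN0 h4 hz hm hdet hc hn τ.im_pos]
  field_simp

/-- the level of a form `f (α x² + β x y + γ y²)` divides `f (β² - 4 α γ)` -/
theorem Frm.lev {α β γ f : ℤ} (h : L.Frm (f * α) (f * β) (f * γ)) :
    L.Lev (f * (β ^ 2 - 4 * α * γ)) := by
  have h0 := h ![1, 0]
  have h1 := h ![0, 1]
  have h2 := h ![1, 1]
  simp only [l, Matrix.cons_val_zero, Matrix.cons_val_one, Int.cast_one, one_mul, Int.cast_zero,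
    zero_mul, add_zero, zero_add, normSq_apply, add_re, add_im] at h0 h1 h2
  push_cast at h0 h1 h2
  have hδ := L.δ_ne
  have hf : (f : ℝ) ≠ 0 := by
    have := h.pos
    exact_mod_cast left_ne_zero_of_mul this
  have hd : 4 * L.δ ^ 2 = -(f : ℝ) ^ 2 * (β ^ 2 - 4 * α * γ) := by
    have : 4 * L.δ ^ 2 = 4 * (L.w0.re * L.w0.re + L.w0.im * L.w0.im) *
        (L.w1.re * L.w1.re + L.w1.im * L.w1.im) -
        (((L.w0.re + L.w1.re) * (L.w0.re + L.w1.re) + (L.w0.im + L.w1.im) * (L.w0.im + L.w1.im)) -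
          (L.w0.re * L.w0.re + L.w0.im * L.w0.im) - (L.w1.re * L.w1.re + L.w1.im * L.w1.im)) ^ 2 := by
      rw [δ]; ring
    rw [this, h0, h1, h2]
    ring
  intro k
  refine ⟨-(γ * k 0 ^ 2 - β * k 0 * k 1 + α * k 1 ^ 2), ?_⟩
  have e : L.dual.l k = ((2 * L.δ)⁻¹ : ℝ) * (I * L.l ![k 1, -k 0]) := by
    simp only [l, dual, Matrix.cons_val_zero, Matrix.cons_val_one]; push_cast; ring
  rw [e, map_mul, map_mul, normSq_I, normSq_ofReal, h]
  simp only [Matrix.cons_val_zero, Matrix.cons_val_one]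
  push_cast
  field_simp
  linear_combination (γ * k 0 ^ 2 - β * k 0 * k 1 + α * k 1 ^ 2) * hd

end Lt

end Crest.Agent.T15.Th
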