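import Crest.Agent.T15.ThC_59

/-!
# Row 15, block C (helper59): imaginary quadratic fields, ideals as lattices

`IQ σ`: `M` is quadratic and `σ : M →+* ℂ` is not real.  For ideals `𝔞, 𝔪 ≠ 0` the lattice `𝔪 𝔞`
with the form `N(x) / N(𝔞)` has discriminant `D N(𝔪)²` and level dividing `D N(𝔪)`.
-/

set_option autoImplicit false

noncomputable section

open Complex Filter Topology NumberField Module Ideal
open scoped Real MatrixGroups ModularForm NumberTheorySymbols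

namespace Crest.Agent.T15.Th

variable {M : Type*} [Field M] [NumberField M]

/-- `M` is imaginary quadratic, embedded by `σ` -/
structure IQ (σ : M →+* ℂ) : Prop where
  two : finrank ℚ M = 2
  nre : ComplexEmbedding.conjugate σ ≠ σ

theorem IQ.of_totallyComplex [IsTotallyComplex M] (h : finrank ℚ M = 2) (σ : M →+* ℂ) : IQ σ :=
  ⟨h, fun e => IsTotallyComplex.complexEmbedding_not_isReal σ (ComplexEmbedding.isReal_iff.2 e)⟩

variable {σ : M →+* ℂ}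

theorem IQ.univ (H : IQ σ) [DecidableEq (M →ₐ[ℚ] ℂ)] : (Finset.univ : Finset (M →ₐ[ℚ] ℂ)) =
    {σ.toRatAlgHom, (ComplexEmbedding.conjugate σ).toRatAlgHom} ∧
    σ.toRatAlgHom ≠ (ComplexEmbedding.conjugate σ).toRatAlgHom := by
  have hne : σ.toRatAlgHom ≠ (ComplexEmbedding.conjugate σ).toRatAlgHom := fun e =>
    H.nre (RingHom.ext fun x => (DFunLike.congr_fun e x).symm)
  refine ⟨(Finset.eq_univ_of_card _ ?_).symm, hne⟩
  rw [Finset.card_pair hne, AlgHom.card, H.two]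

theorem IQ.norm (H : IQ σ) (x : 𝓞 M) : (absNorm (span {x}) : ℝ) = normSq (σ x) := by
  classical
  have h := Algebra.norm_eq_prod_embeddings ℚ ℂ (x : M)
  rw [H.univ.1, Finset.prod_pair H.univ.2, ← Algebra.coe_norm_int] at h
  have h2 : ((Algebra.norm ℤ x : ℤ) : ℂ) = (normSq (σ x) : ℂ) := by
    rw [← mul_conj]
    simpa using h
  have h3 : ((Algebra.norm ℤ x : ℤ) : ℝ) = normSq (σ x) := by exact_mod_cast h2
  rw [absNorm_span_singleton, Nat.cast_natAbs, Int.cast_abs, h3, abs_of_nonneg (normSq_nonneg _)]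

theorem IQ.trace (H : IQ σ) (x : 𝓞 M) : ((Algebra.trace ℤ (𝓞 M) x : ℤ) : ℝ) = 2 * (σ x).re := by
  classical
  have h := trace_eq_sum_embeddings ℂ (K := ℚ) (x := (x : M))
  rw [H.univ.1, Finset.sum_pair H.univ.2, ← Algebra.coe_trace_int] at h
  have h2 : ((Algebra.trace ℤ (𝓞 M) x : ℤ) : ℂ) = ((2 * (σ x).re : ℝ) : ℂ) := by
    rw [← add_conj]
    simpa using h
  exact_mod_cast h2

theorem IQ.rank (H : IQ σ) : finrank ℤ (𝓞 M) = 2 := by rw [RingOfIntegers.rank, H.two]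

/-- the oriented area -/
def dl (z w : ℂ) : ℝ := z.re * w.im - z.im * w.re

theorem IQ.discr_eq (H : IQ σ) (b : Basis (Fin 2) ℤ (𝓞 M)) :
    (discr M : ℝ) = -4 * dl (σ (b 0)) (σ (b 1)) ^ 2 := by
  rw [← discr_eq_discr M b, Algebra.discr_def, Matrix.det_fin_two]
  simp only [Algebra.traceMatrix_apply, Algebra.traceForm_apply]
  push_cast
  simp only [H.trace, dl, map_mul, RingOfIntegers.coe_eq_algebraMap, mul_re]
  ring

theorem IQ.exists_basis (H : IQ σ) {I : Ideal (𝓞 M)} (hI : I ≠ ⊥) :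
    ∃ b : Basis (Fin 2) ℤ I, -4 * dl (σ (b 0 : 𝓞 M)) (σ (b 1 : 𝓞 M)) ^ 2 =
      discr M * (absNorm I : ℝ) ^ 2 := by
  let b0 : Basis (Fin 2) ℤ (𝓞 M) := finBasisOfFinrankEq ℤ (𝓞 M) H.rank
  let b : Basis (Fin 2) ℤ I := I.selfBasis b0 hI
  refine ⟨b, ?_⟩
  have h1 := natAbs_det_basis_change b0 I b
  rw [Basis.det_apply, Matrix.det_fin_two] at h1
  simp only [Basis.toMatrix_apply, Function.comp] at h1
  have e : ∀ x : 𝓞 M, σ x = (b0.repr x 0 : ℝ) * σ (b0 0) + (b0.repr x 1 : ℝ) * σ (b0 1) := by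
    intro x
    conv_lhs => rw [← b0.sum_repr x]
    simp [Fin.sum_univ_two]
  rw [H.discr_eq b0, ← h1, Nat.cast_natAbs, Int.cast_abs, sq_abs, e (b 0), e (b 1)]
  simp only [dl, add_re, add_im, re_ofReal_mul, im_ofReal_mul]
  push_cast
  ring

theorem IQ.discr_neg (H : IQ σ) : discr M < 0 := by
  have h := H.discr_eq (finBasisOfFinrankEq ℤ (𝓞 M) H.rank)
  have h0 := discr_ne_zero M
  have : (discr M : ℝ) ≤ 0 := by
    rw [h]
    exact mul_nonpos_of_nonpos_of_nonneg (by norm_num) (sq_nonneg _)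
  exact lt_of_le_of_ne (by exact_mod_cast this) h0

namespace Lt

theorem normSq_l (L : Lt) (x : Fin 2 → ℤ) : normSq (L.l x) =
    normSq L.w0 * x 0 ^ 2 + bf L.w0 L.w1 * x 0 * x 1 + normSq L.w1 * x 1 ^ 2 := by
  rw [l, normSq_add', map_mul, map_mul, normSq_intCast, normSq_intCast, ← ofReal_intCast,
    ← ofReal_intCast, bf_mul_left, bf_mul_right]
  ring

theorem Lev.mul {L : Lt} {N N' : ℤ} (h : L.Lev N) (hN : N ∣ N') : L.Lev N' := by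
  obtain ⟨c, rfl⟩ := hN
  intro k
  obtain ⟨n, hn⟩ := h k
  exact ⟨c * n, by push_cast; rw [← hn]; ring⟩

end Lt

/-- the scaled embedding `x ↦ σ x / √(N 𝔞)` -/
def sc (σ : M →+* ℂ) (𝔞 : Ideal (𝓞 M)) (x : 𝓞 M) : ℂ := ((√(absNorm 𝔞 : ℝ))⁻¹ : ℝ) * σ x

theorem sc_add (𝔞 : Ideal (𝓞 M)) (x y : 𝓞 M) : sc σ 𝔞 (x + y) = sc σ 𝔞 x + sc σ 𝔞 y := by
  simp [sc, mul_add]

theorem sc_int (𝔞 : Ideal (𝓞 M)) (a : ℤ) (x : 𝓞 M) : sc σ 𝔞 (a * x) = a * sc σ 𝔞 x := by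
  simp [sc, mul_left_comm]

theorem absNorm_pos {𝔞 : Ideal (𝓞 M)} (h : 𝔞 ≠ ⊥) : (0 : ℝ) < absNorm 𝔞 := by
  exact_mod_cast Nat.pos_of_ne_zero (absNorm_eq_zero_iff.not.2 h)

theorem IQ.normSq_sc (H : IQ σ) (𝔞 : Ideal (𝓞 M)) (x : 𝓞 M) :
    normSq (sc σ 𝔞 x) = (absNorm (span {x}) : ℝ) / absNorm 𝔞 := by
  rw [sc, map_mul, normSq_ofReal, ← H.norm, ← mul_inv, Real.mul_self_sqrt (Nat.cast_nonneg _),
    div_eq_inv_mul]

theorem IQ.normSq_sc_mem (H : IQ σ) {𝔞 : Ideal (𝓞 M)} (ha : 𝔞 ≠ ⊥) {𝔪 : Ideal (𝓞 M)} {x : 𝓞 M}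
    (hx : x ∈ 𝔪 * 𝔞) : ∃ n : ℤ, normSq (sc σ 𝔞 x) = absNorm 𝔪 * n := by
  obtain ⟨n, hn⟩ := absNorm_dvd_absNorm_of_le ((span_singleton_le_iff_mem _).2 hx)
  refine ⟨n, ?_⟩
  have := absNorm_pos ha
  rw [H.normSq_sc, hn, map_mul]
  push_cast
  field_simp

theorem IQ.int_sc (H : IQ σ) {𝔞 : Ideal (𝓞 M)} (ha : 𝔞 ≠ ⊥) {x : 𝓞 M}
    (hx : x ∈ 𝔞) : ∃ n : ℤ, normSq (sc σ 𝔞 x) = n := by
  simpa using H.normSq_sc_mem ha (𝔪 := 1) (x := x) (by simpa using hx)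

/-- the lattice of `𝔪 𝔞` -/
theorem IQ.exists_lt (H : IQ σ) {𝔞 𝔪 : Ideal (𝓞 M)} (ha : 𝔞 ≠ ⊥) (hm : 𝔪 ≠ ⊥) :
    ∃ (L : Lt) (e : (Fin 2 → ℤ) ≃ (𝔪 * 𝔞 : Ideal (𝓞 M))) (α β γ : ℤ),
      (∀ y, L.l y = sc σ 𝔞 (e y)) ∧
      L.Frm (absNorm 𝔪 * α) (absNorm 𝔪 * β) (absNorm 𝔪 * γ) ∧
      β ^ 2 - 4 * α * γ = discr M := by
  obtain ⟨b, hb⟩ := H.exists_basis (I := 𝔪 * 𝔞) (mul_ne_zero hm ha)
  have hA := absNorm_pos ha
  have hf := absNorm_pos hm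
  have hD : (discr M : ℝ) ≠ 0 := by exact_mod_cast discr_ne_zero M
  have hs : ((√(absNorm 𝔞 : ℝ))⁻¹) ^ 2 = (absNorm 𝔞 : ℝ)⁻¹ := by
    rw [inv_pow, Real.sq_sqrt hA.le]
  have hδ : dl (sc σ 𝔞 (b 0)) (sc σ 𝔞 (b 1)) =
      (absNorm 𝔞 : ℝ)⁻¹ * dl (σ (b 0 : 𝓞 M)) (σ (b 1 : 𝓞 M)) := by
    simp only [dl, sc, re_ofReal_mul, im_ofReal_mul, ← hs]; ring
  have hδ2 : -4 * dl (sc σ 𝔞 (b 0)) (sc σ 𝔞 (b 1)) ^ 2 = discr M * (absNorm 𝔪 : ℝ) ^ 2 := by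
    rw [map_mul] at hb
    push_cast at hb
    rw [hδ, mul_pow, mul_left_comm, hb]
    field_simp
  let L : Lt := ⟨sc σ 𝔞 (b 0), sc σ 𝔞 (b 1), fun h => by
    have : dl (sc σ 𝔞 (b 0)) (sc σ 𝔞 (b 1)) = 0 := h
    rw [this] at hδ2
    exact mul_ne_zero hD (pow_ne_zero 2 hf.ne') (by rw [← hδ2]; ring)⟩
  obtain ⟨α, hα⟩ := H.normSq_sc_mem ha (b 0).2
  obtain ⟨γ, hγ⟩ := H.normSq_sc_mem ha (b 1).2
  obtain ⟨s, hs⟩ := H.normSq_sc_mem ha (add_mem (b 0).2 (b 1).2)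
  rw [sc_add, normSq_add', hα, hγ] at hs
  have hβ : bf (sc σ 𝔞 (b 0)) (sc σ 𝔞 (b 1)) = absNorm 𝔪 * (s - α - γ) := by linarith
  refine ⟨L, b.equivFun.symm.toEquiv, α, s - α - γ, γ, fun y => ?_, fun y => ?_, ?_⟩
  · simp only [Lt.l, L, LinearEquiv.coe_toEquiv, Basis.equivFun_symm_apply, Fin.sum_univ_two,
      Submodule.coe_add, ← sc_int, ← sc_add]
    simp
  · rw [Lt.normSq_l]
    simp only [L, hα, hγ, hβ]
    push_cast
    ring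
  · have h1 : bf (sc σ 𝔞 (b 0)) (sc σ 𝔞 (b 1)) ^ 2 -
        4 * normSq (sc σ 𝔞 (b 0)) * normSq (sc σ 𝔞 (b 1)) =
        -4 * dl (sc σ 𝔞 (b 0)) (sc σ 𝔞 (b 1)) ^ 2 := by
      simp only [bf, normSq_apply, dl]; ring
    rw [hδ2, hα, hγ, hβ] at h1
    have h2 : ((s - α - γ) ^ 2 - 4 * α * γ : ℝ) = discr M :=
      mul_right_cancel₀ (pow_ne_zero 2 hf.ne') (by linear_combination h1)
    exact_mod_cast h2

/-- cosets of an ideal -/
def cosE (I : Ideal (𝓞 M)) : (𝓞 M ⧸ I) × I ≃ 𝓞 M :=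
  Equiv.ofBijective (fun p => p.1.out + p.2) ⟨by
    rintro ⟨q, y⟩ ⟨q', y'⟩ h
    have h1 : q = q' := by
      have := congrArg (Ideal.Quotient.mk I) h
      simpa [Ideal.Quotient.eq_zero_iff_mem.2 y.2, Ideal.Quotient.eq_zero_iff_mem.2 y'.2] using this
    subst h1
    exact Prod.ext rfl (Subtype.ext (add_left_cancel h)), fun x =>
    ⟨(Ideal.Quotient.mk I x, ⟨x - (Ideal.Quotient.mk I x).out,
      Ideal.Quotient.eq.1 (Ideal.Quotient.mk_out _).symm⟩), by simp⟩⟩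

/-- summation over the ring of integers by cosets of `𝔪 𝔞` -/
theorem hasSum_cosets {𝔞 𝔟 : Ideal (𝓞 M)} [Fintype (𝓞 M ⧸ 𝔟)] {L : Lt} {e : (Fin 2 → ℤ) ≃ 𝔟}
    (he : ∀ y, L.l y = sc σ 𝔞 (e y)) {φ : 𝓞 M → ℂ} (hφ : ∀ x, ∀ y ∈ 𝔟, φ (x + y) = φ x) {τ : ℂ}
    (hτ : 0 < τ.im) : HasSum (fun x => φ x * ff τ (sc σ 𝔞 x))
      (∑ q : 𝓞 M ⧸ 𝔟, φ q.out * L.Tz (sc σ 𝔞 q.out) τ) := by
  let E : (𝓞 M ⧸ 𝔟) × (Fin 2 → ℤ) ≃ 𝓞 M := (Equiv.prodCongr (Equiv.refl _) e).trans (cosE 𝔟)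
  have hE : ∀ q y, φ (E (q, y)) * ff τ (sc σ 𝔞 (E (q, y))) =
      φ q.out * ff τ (sc σ 𝔞 q.out + L.l y) := by
    intro q y
    have : E (q, y) = q.out + e y := rfl
    rw [this, hφ _ _ (e y).2, sc_add, he]
  have hs : Summable ((fun x => φ x * ff τ (sc σ 𝔞 x)) ∘ E) := by
    refine Summable.of_norm ((summable_prod_of_nonneg fun _ => norm_nonneg _).2
      ⟨fun q => ?_, Summable.of_finite⟩)
    simp only [Function.comp, hE, norm_mul]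
    exact (L.summable_ff hτ _).mul_left _
  rw [← E.hasSum_iff]
  convert hs.hasSum using 1
  rw [hs.tsum_prod, tsum_fintype]
  simp only [Function.comp, hE, tsum_mul_left, Lt.Tz]

theorem IQ.finite_units (H : IQ σ) : Finite (𝓞 M)ˣ := by
  obtain ⟨L, e, -, -, -, he, -⟩ := H.exists_lt (𝔞 := 1) (𝔪 := 1) one_ne_zero one_ne_zero
  have : Finite (𝓞 M ⧸ (1 * 1 : Ideal (𝓞 M))) :=
    Ideal.finiteQuotientOfFreeOfNeBot _ (mul_ne_zero one_ne_zero one_ne_zero)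
  let _ := Fintype.ofFinite (𝓞 M ⧸ (1 * 1 : Ideal (𝓞 M)))
  have h1 := (hasSum_cosets he (φ := fun _ => 1) (fun _ _ _ => rfl) (τ := I)
    (by simp)).summable.norm.comp_injective (Units.val_injective (α := 𝓞 M))
  refine Finite.of_summable_const (b := Real.exp (-(2 * π))) (Real.exp_pos _) (h1.congr fun u => ?_)
  have h2 : ‖sc σ 1 (u : 𝓞 M)‖ = 1 := by
    have := H.normSq_sc 1 (u : 𝓞 M)
    rw [span_singleton_eq_top.2 u.isUnit, normSq_eq_norm_sq] at this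
    simp only [absNorm_top, Nat.cast_one, one_eq_top, ne_eq, one_ne_zero, not_false_eq_true,
      div_self] at this
    exact (sq_eq_sq₀ (norm_nonneg _) zero_le_one).1 (by simpa using this)
  simp only [Function.comp, one_mul, norm_ff, h2, I_im, mul_one, one_pow]

end Crest.Agent.T15.Th
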