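import Crest.Agent.T15.ThD_59

/-!
# Row 15, block C (helper59): the theta series of a Hecke character is a cusp form of weight 2

`X : HC σ 𝔪` is a Hecke character of type `(1,0)`; `X.theta τ = ∑_I ψ(I) e(N(I) τ)`;
`X.slash` (law under `Γ₀(N)`, `D N(𝔪) ∣ N`, `4 D ∣ N`), `X.cf1 : CuspForm (Gamma1 N) 2`,
`X.cf0 : CuspForm (Gamma0 N) 2` (trivial nebentypus), `X.hasSum_q`, `X.qExpansion_cf`.
-/

set_option autoImplicit false
set_option linter.unusedSectionVars false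
set_option maxHeartbeats 400000

noncomputable section

open Complex Filter Topology NumberField Module Ideal
open scoped Real MatrixGroups ModularForm NumberTheorySymbols nonZeroDivisors

namespace Crest.Agent.T15.Th

/-- holomorphic, cuspidal, with multiplier `κ` on `Γ₀(N)` -/
structure Good (N : ℤ) (κ : ℕ → ℂ) (S : ℂ → ℂ) : Prop where
  diff : DifferentiableOn ℂ S {τ | 0 < τ.im}
  zero : ∀ g : SL(2, ℤ),
    UpperHalfPlane.IsZeroAtImInfty ((fun τ : UpperHalfPlane => S τ) ∣[(2 : ℤ)] g)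
  law : ∀ g : SL(2, ℤ), N ∣ g 1 0 → ∀ n : ℕ, (n : ℤ) ≡ g 1 1 [ZMOD N] → ∀ τ : UpperHalfPlane,
    ((fun τ : UpperHalfPlane => S τ) ∣[(2 : ℤ)] g) τ = κ n * S τ

theorem slash_sum {ι : Type*} (s : Finset ι) (c : ι → ℂ) (S : ι → ℂ → ℂ) (g : SL(2, ℤ))
    (τ : UpperHalfPlane) :
    ((fun τ : UpperHalfPlane => ∑ i ∈ s, c i * S i τ) ∣[(2 : ℤ)] g) τ =
      ∑ i ∈ s, c i * ((fun τ : UpperHalfPlane => S i τ) ∣[(2 : ℤ)] g) τ := by
  simp only [ModularForm.SL_slash_apply, Finset.sum_mul, mul_assoc]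

theorem zero_sum {ι : Type*} (s : Finset ι) (c : ι → ℂ) (S : ι → ℂ → ℂ) (g : SL(2, ℤ))
    (h : ∀ i ∈ s, UpperHalfPlane.IsZeroAtImInfty ((fun τ : UpperHalfPlane => S i τ) ∣[(2 : ℤ)] g)) :
    UpperHalfPlane.IsZeroAtImInfty
      ((fun τ : UpperHalfPlane => ∑ i ∈ s, c i * S i τ) ∣[(2 : ℤ)] g) := by
  rw [funext (slash_sum s c S g)]
  have := tendsto_finsetSum s fun i hi => (h i hi).const_mul (c i)
  simp only [mul_zero, Finset.sum_const_zero] at this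
  exact this

theorem Good.sum {N : ℤ} {κ : ℕ → ℂ} {ι : Type*} (s : Finset ι) (c : ι → ℂ) {S : ι → ℂ → ℂ}
    (h : ∀ i, Good N κ (S i)) : Good N κ fun τ => ∑ i ∈ s, c i * S i τ where
  diff := DifferentiableOn.fun_sum fun i _ => (h i).diff.const_mul _
  zero g := zero_sum s c S g fun i _ => (h i).zero g
  law g hg n hn τ := by
    rw [slash_sum, Finset.mul_sum]
    exact Finset.sum_congr rfl fun i _ => by rw [(h i).law g hg n hn, mul_left_comm]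

theorem Good.congr {N : ℤ} {κ : ℕ → ℂ} {S S' : ℂ → ℂ} (h : Good N κ S)
    (e : ∀ τ : ℂ, 0 < τ.im → S' τ = S τ) : Good N κ S' := by
  have e' : (fun τ : UpperHalfPlane => S' τ) = fun τ : UpperHalfPlane => S τ :=
    funext fun τ => e τ τ.im_pos
  exact ⟨h.diff.congr e, fun g => e' ▸ h.zero g, fun g hg n hn τ => by
    rw [e', h.law g hg n hn, e τ τ.im_pos]⟩

/-- the cusp form on a subgroup on which the function is invariant -/
def Good.cf {N : ℤ} {κ : ℕ → ℂ} {S : ℂ → ℂ} (h : Good N κ S) (Γ : Subgroup SL(2, ℤ))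
    [Γ.FiniteIndex] (hΓ : ∀ g ∈ Γ, (fun τ : UpperHalfPlane => S τ) ∣[(2 : ℤ)] g =
      fun τ : UpperHalfPlane => S τ) : CuspForm (Γ : Subgroup (GL (Fin 2) ℝ)) 2 where
  toFun τ := S τ
  slash_action_eq' := by
    rintro _ ⟨g, hg, rfl⟩
    exact hΓ g hg
  holo' := by
    rw [UpperHalfPlane.mdifferentiable_iff]
    refine h.diff.congr fun z hz => ?_
    simp [UpperHalfPlane.ofComplex_apply_of_im_pos hz]
  zero_at_cusps' hc := by
    rw [Subgroup.IsArithmetic.isCusp_iff_isCusp_SL2Z] at hc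
    rw [OnePoint.isZeroAt_iff_forall_SL2Z hc]
    exact fun γ _ => h.zero γ

variable {M : Type*} [Field M] [NumberField M]

/-- a Hecke character of infinity type `σ` and modulus `𝔪` -/
structure HC (σ : M →+* ℂ) (𝔪 : Ideal (𝓞 M)) where
  ψ : Ideal (𝓞 M) →* ℂ
  ε : (𝓞 M ⧸ 𝔪) →* ℂ
  span : ∀ x : 𝓞 M, ψ (span {x}) = σ x * ε (Ideal.Quotient.mk 𝔪 x)

/-- the level `4 |D| N(𝔪)` -/
def lev (𝔪 : Ideal (𝓞 M)) : ℕ := 4 * (discr M).natAbs * absNorm 𝔪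

theorem lev_ne_zero {𝔪 : Ideal (𝓞 M)} (hm : 𝔪 ≠ ⊥) : lev 𝔪 ≠ 0 :=
  mul_ne_zero (mul_ne_zero (by norm_num) (Int.natAbs_ne_zero.2 (discr_ne_zero M)))
    (absNorm_eq_zero_iff.not.2 hm)

/-- admissible levels: multiples of `D N(𝔪)` and of `4 D` -/
def Lv (𝔪 : Ideal (𝓞 M)) (N : ℕ) : Prop :=
  discr M * absNorm 𝔪 ∣ (N : ℤ) ∧ 4 * discr M ∣ (N : ℤ)

theorem lv_of_dvd {𝔪 : Ideal (𝓞 M)} {N : ℕ} (hN : lev 𝔪 ∣ N) : Lv 𝔪 N := by
  have hNZ : ((4 * |discr M| * absNorm 𝔪 : ℤ)) ∣ (N : ℤ) := by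
    have := Int.natCast_dvd_natCast.2 hN
    simpa [lev] using this
  exact ⟨(mul_dvd_mul_right ((self_dvd_abs _).mul_left _) _).trans hNZ,
    ((mul_dvd_mul_left _ (self_dvd_abs _)).mul_right _).trans hNZ⟩

theorem exists_rep {𝔪 : Ideal (𝓞 M)} (hm : 𝔪 ≠ ⊥) (c : ClassGroup (𝓞 M)) :
    ∃ 𝔞 : (Ideal (𝓞 M))⁰, ClassGroup.mk0 𝔞 = c ∧ 𝔪 ⊔ 𝔞.1 = ⊤ := by
  obtain ⟨⟨J, hJ⟩, hc⟩ := ClassGroup.mk0_surjective c⁻¹
  have hJ0 : J ≠ 0 := mem_nonZeroDivisors_iff_ne_zero.1 hJ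
  have key : ∀ a : 𝓞 M, a ≠ 0 → J * 𝔪 ⊔ Ideal.span {a} = J →
      ∃ 𝔞 : (Ideal (𝓞 M))⁰, ClassGroup.mk0 𝔞 = c ∧ 𝔪 ⊔ 𝔞.1 = ⊤ := by
    intro a ha h
    obtain ⟨𝔞, h𝔞⟩ : J ∣ Ideal.span {a} := dvd_iff_le.2 (le_sup_right.trans h.le)
    have h0 : 𝔞 ≠ 0 := by
      rintro rfl
      exact ha (span_singleton_eq_bot.1 (by simpa using h𝔞))
    refine ⟨⟨𝔞, mem_nonZeroDivisors_iff_ne_zero.2 h0⟩, ?_, ?_⟩
    · have h1 := (ClassGroup.mk0_eq_one_iff (mem_nonZeroDivisors_iff_ne_zero.2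
        (mul_ne_zero hJ0 h0))).2 (h𝔞 ▸ ⟨a, rfl⟩)
      have h2 : ClassGroup.mk0 ⟨J, hJ⟩ *
          ClassGroup.mk0 ⟨𝔞, mem_nonZeroDivisors_iff_ne_zero.2 h0⟩ = 1 := by
        rw [← map_mul]; exact h1
      rw [hc] at h2
      exact (inv_mul_eq_one.1 h2).symm
    · rw [h𝔞, ← Ideal.mul_sup] at h
      exact mul_left_cancel₀ hJ0 (by rw [h, mul_top])
  obtain ⟨a, ha⟩ := IsDedekindDomain.exists_sup_span_eq (I := J * 𝔪) (J := J) Ideal.mul_le_left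
    (mul_ne_zero hJ0 hm)
  rcases eq_or_ne a 0 with rfl | h0
  · obtain ⟨b, hb, hb0⟩ := Submodule.exists_mem_ne_zero_of_ne_bot hJ0
    refine key b hb0 ?_
    have : J * 𝔪 = J := by simpa using ha
    rw [this, sup_eq_left, span_singleton_le_iff_mem]
    exact hb
  · exact key a h0 ha

namespace HC

variable {σ : M →+* ℂ} {𝔪 : Ideal (𝓞 M)} (X : HC σ 𝔪)

theorem ψ_bot : X.ψ ⊥ = 0 := by
  have := X.span 0
  simpa using this

theorem ψ_ne_zero {𝔞 : Ideal (𝓞 M)} (ha : 𝔞 ≠ ⊥) (h : 𝔪 ⊔ 𝔞 = ⊤) : X.ψ 𝔞 ≠ 0 := by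
  have : ∃ x ∈ 𝔞, x ≠ 0 ∧ Ideal.Quotient.mk 𝔪 x = 1 := by
    obtain ⟨y, hy, x, hx, hxy⟩ := Submodule.mem_sup.1 ((eq_top_iff_one _).1 h)
    have h1 : Ideal.Quotient.mk 𝔪 x = 1 := by
      rw [← map_one (Ideal.Quotient.mk 𝔪), ← hxy, map_add, Ideal.Quotient.eq_zero_iff_mem.2 hy,
        zero_add]
    rcases eq_or_ne x 0 with rfl | h0
    · obtain ⟨b, hb, hb0⟩ := Submodule.exists_mem_ne_zero_of_ne_bot ha
      refine ⟨b, hb, hb0, ?_⟩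
      rw [map_zero] at h1
      rw [← mul_one (Ideal.Quotient.mk 𝔪 b), ← h1, mul_zero]
    · exact ⟨x, hx, h0, h1⟩
  obtain ⟨x, hx, h0, h1⟩ := this
  obtain ⟨𝔟, h𝔟⟩ : 𝔞 ∣ Ideal.span {x} := dvd_iff_le.2 ((span_singleton_le_iff_mem _).2 hx)
  have h2 := X.span x
  rw [h1, map_one, mul_one, h𝔟, map_mul] at h2
  refine left_ne_zero_of_mul (b := X.ψ 𝔟) ?_
  rw [h2]
  simpa using h0

/-- the theta series -/
def theta (τ : ℂ) : ℂ := ∑' I : Ideal (𝓞 M), X.ψ I * ee (absNorm I * τ)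

/-- the nebentypus -/
def neb (n : ℕ) : ℂ := (J(discr M | n) : ℤ) * X.ε n

open Classical in
theorem exists_S (H : IQ σ) (hm : 𝔪 ≠ ⊥) {N : ℕ} (hN0 : N ≠ 0) (hN : Lv 𝔪 N) {𝔞 : Ideal (𝓞 M)}
    (ha : 𝔞 ≠ ⊥) : ∃ S : ℂ → ℂ, Good N X.neb S ∧ ∀ τ : ℂ, 0 < τ.im →
      HasSum (fun x : 𝓞 M => (if x ∈ 𝔞 then X.ε (Ideal.Quotient.mk 𝔪 x) else 0) * ff τ (sc σ 𝔞 x))
        (S τ) := by
  obtain ⟨L, e, α, β, γ, he, hF, hD⟩ := H.exists_lt ha hm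
  have : Finite (𝓞 M ⧸ 𝔪 * 𝔞) := Ideal.finiteQuotientOfFreeOfNeBot _ (mul_ne_zero hm ha)
  let _ := Fintype.ofFinite (𝓞 M ⧸ 𝔪 * 𝔞)
  set φ : 𝓞 M → ℂ := fun x => if x ∈ 𝔞 then X.ε (Ideal.Quotient.mk 𝔪 x) else 0 with hφdef
  have hφ : ∀ x, ∀ y ∈ 𝔪 * 𝔞, φ (x + y) = φ x := by
    intro x y hy
    simp only [hφdef, 𝔞.add_mem_iff_left (mul_le_right hy), map_add,
      Ideal.Quotient.eq_zero_iff_mem.2 (mul_le_left hy), add_zero]
  have hDl : ∀ x ∈ 𝔞, L.Dl (sc σ 𝔞 x) := by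
    intro x hx y
    have hy : (e y : 𝓞 M) ∈ 𝔞 := mul_le_right (e y).2
    obtain ⟨n1, h1⟩ := H.int_sc ha hx
    obtain ⟨n2, h2⟩ := H.int_sc ha hy
    obtain ⟨n3, h3⟩ := H.int_sc ha (add_mem hx hy)
    rw [sc_add, normSq_add', h1, h2, ← he] at h3
    exact ⟨n3 - n1 - n2, by push_cast; linarith⟩
  have hT : ∀ (x : 𝓞 M) (τ : ℂ), L.Tz (sc σ 𝔞 (Ideal.Quotient.mk (𝔪 * 𝔞) x).out) τ =
      L.Tz (sc σ 𝔞 x) τ := by
    intro x τ
    have h1 : (Ideal.Quotient.mk (𝔪 * 𝔞) x).out - x ∈ 𝔪 * 𝔞 :=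
      Ideal.Quotient.eq.1 (Ideal.Quotient.mk_out _)
    rw [← Lt.Tz_add_l (sc σ 𝔞 x) τ (e.symm ⟨_, h1⟩), he, ← sc_add]
    simp
  let F : Finset (𝓞 M ⧸ 𝔪 * 𝔞) := Finset.univ.filter fun q => q.out ∈ 𝔞
  have hsum : ∀ G : (𝓞 M ⧸ 𝔪 * 𝔞) → ℂ, ∑ q, φ q.out * G q = ∑ q ∈ F, φ q.out * G q := by
    intro G
    rw [Finset.sum_filter]
    refine Finset.sum_congr rfl fun q _ => ?_
    split_ifs with h
    · rfl
    · simp [hφdef, h]
  have hf0 : (absNorm 𝔪 : ℤ) ≠ 0 := by exact_mod_cast absNorm_eq_zero_iff.not.2 hm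
  have hlev : L.Lev N := hF.lev.mul (by
    rw [hD, mul_comm]
    exact hN.1)
  have h4 : 4 * discr M ∣ (N : ℤ) := hN.2
  have hNm : ∀ c : ℤ, (N : ℤ) ∣ c → (c : 𝓞 M) ∈ 𝔪 := by
    intro c hc
    obtain ⟨k, rfl⟩ := ((dvd_mul_left _ _).trans hN.1).trans hc
    push_cast
    exact mul_mem_right _ _ (absNorm_mem 𝔪)
  refine ⟨fun τ => ∑ q ∈ F, φ q.out * L.Tz (sc σ 𝔞 q.out) τ, ⟨?_, fun g => ?_, ?_⟩, fun τ hτ => ?_⟩
  · refine DifferentiableOn.fun_sum fun q _ => DifferentiableOn.const_mul ?_ _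
    rw [funext (Lt.Tz_eq_Z (L := L) (sc σ 𝔞 q.out))]
    exact L.differentiableOn_Z (C := 1) (by simp) _
  · exact zero_sum F _ (fun q τ => L.Tz (sc σ 𝔞 q.out) τ) g fun q hq =>
      Lt.isZero_slash hF.int (hDl _ (Finset.mem_filter.1 hq).2) g
  · intro g hg n hn τ
    have hdet : g 0 0 * g 1 1 - g 0 1 * g 1 0 = 1 := by
      have := g.det_coe
      rwa [Matrix.det_fin_two] at this
    have hc : ((g 0 1 * g 1 0 : ℤ) : 𝓞 M) ∈ 𝔪 := hNm _ (hg.mul_left _)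
    have hn' : (n : 𝓞 M ⧸ 𝔪) = ((g 1 1 : ℤ) : 𝓞 M ⧸ 𝔪) := by
      have := Ideal.Quotient.eq_zero_iff_mem.2 (hNm _ hn.dvd)
      rw [map_intCast] at this
      push_cast at this
      exact (sub_eq_zero.1 this).symm
    have had : ((g 0 0 : ℤ) : 𝓞 M ⧸ 𝔪) * ((g 1 1 : ℤ) : 𝓞 M ⧸ 𝔪) = 1 := by
      have := Ideal.Quotient.eq_zero_iff_mem.2 hc
      rw [map_intCast] at this
      rw [← Int.cast_mul, eq_add_of_sub_eq hdet, Int.cast_add, this, Int.cast_one, add_zero]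
    have hmem : ∀ (a : ℤ), ∀ q ∈ F, (a : 𝓞 M ⧸ 𝔪 * 𝔞) * q ∈ F := by
      intro a q hq
      have h1 : ((a : 𝓞 M ⧸ 𝔪 * 𝔞) * q).out - a * q.out ∈ 𝔪 * 𝔞 :=
        Ideal.Quotient.eq.1 (by simp)
      have h2 := add_mem (mul_le_right h1) (mul_mem_left 𝔞 (a : 𝓞 M) (Finset.mem_filter.1 hq).2)
      rw [sub_add_cancel] at h2
      exact Finset.mem_filter.2 ⟨Finset.mem_univ _, h2⟩
    have hinv : ∀ q ∈ F, ((g 0 0 : ℤ) : 𝓞 M ⧸ 𝔪 * 𝔞) * ((g 1 1 : ℤ) * q) = q := by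
      intro q hq
      have h1 := Ideal.Quotient.eq_zero_iff_mem.2 (mul_mem_mul hc (Finset.mem_filter.1 hq).2)
      rw [map_mul, map_intCast, Ideal.Quotient.mk_out] at h1
      rw [← mul_assoc, ← Int.cast_mul, eq_add_of_sub_eq hdet, Int.cast_add, add_mul, h1,
        Int.cast_one, one_mul, add_zero]
    rw [slash_sum F _ (fun q τ => L.Tz (sc σ 𝔞 q.out) τ), Finset.mul_sum]
    refine Finset.sum_nbij' (fun q => ((g 0 0 : ℤ) : 𝓞 M ⧸ 𝔪 * 𝔞) * q)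
      (fun q => ((g 1 1 : ℤ) : 𝓞 M ⧸ 𝔪 * 𝔞) * q) (hmem _) (hmem _)
      (fun q hq => by rw [mul_left_comm]; exact hinv q hq) hinv fun q hq => ?_
    have hq' := (Finset.mem_filter.1 hq).2
    obtain ⟨m, hm'⟩ := H.int_sc ha hq'
    have e1 : ((g 0 0 : ℤ) : 𝓞 M ⧸ 𝔪 * 𝔞) * q = Ideal.Quotient.mk (𝔪 * 𝔞) (g 0 0 * q.out) := by
      simp
    have e2 : φ (Ideal.Quotient.mk (𝔪 * 𝔞) (g 0 0 * q.out)).out = φ (g 0 0 * q.out) := by
      have h1 : (Ideal.Quotient.mk (𝔪 * 𝔞) (g 0 0 * q.out)).out - g 0 0 * q.out ∈ 𝔪 * 𝔞 :=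
        Ideal.Quotient.eq.1 (Ideal.Quotient.mk_out _)
      rw [← hφ (g 0 0 * q.out) _ h1, add_sub_cancel]
    have e3 : φ q.out = X.ε n * φ (g 0 0 * q.out) := by
      simp only [hφdef, hq', mul_mem_left 𝔞 _ hq', if_true, map_mul (Ideal.Quotient.mk 𝔪),
        map_intCast]
      rw [← map_mul, hn', ← mul_assoc, mul_comm ((g 1 1 : ℤ) : 𝓞 M ⧸ 𝔪), had, one_mul]
    rw [Lt.law_slash hF (D := discr M) (f := absNorm 𝔪) (by rw [← hD]; ring) (discr_ne_zero M) hf0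
      hlev (by exact_mod_cast hN0) h4 (hDl _ hq') hm' g hg hn τ, e1, hT, e2, e3, sc_int, neb]
    ring
  · have := hasSum_cosets he hφ hτ
    rw [hsum] at this
    exact this

open Classical in
theorem hasSum_class (H : IQ σ) {𝔞 : Ideal (𝓞 M)} (ha : 𝔞 ≠ ⊥) {τ S : ℂ}
    (h : HasSum (fun x : 𝓞 M => (if x ∈ 𝔞 then X.ε (Ideal.Quotient.mk 𝔪 x) else 0) *
      ff τ (sc σ 𝔞 x)) S) :
    HasSum (fun I : Ideal (𝓞 M) => if (𝔞 * I).IsPrincipal then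
      (Nat.card (𝓞 M)ˣ * (((√(absNorm 𝔞 : ℝ))⁻¹ : ℝ) * X.ψ 𝔞)) * (X.ψ I * ee (absNorm I * τ))
        else 0) S := by
  have := H.finite_units
  let _ := Fintype.ofFinite (𝓞 M)ˣ
  let P := {I : Ideal (𝓞 M) // I ≠ ⊥ ∧ (𝔞 * I).IsPrincipal}
  have hgen : ∀ I : P, ∃ x : 𝓞 M, Ideal.span {x} = 𝔞 * I.1 := fun I =>
    ⟨_, I.2.2.span_singleton_generator⟩
  choose gen hgen using hgen
  let g : P × (𝓞 M)ˣ → 𝓞 M := fun p => gen p.1 * p.2
  have hg : ∀ p, Ideal.span {g p} = 𝔞 * p.1.1 := fun p => by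
    rw [← hgen, span_singleton_mul_right_unit p.2.isUnit]
  have hg0 : ∀ I : P, gen I ≠ 0 := fun I h0 => mul_ne_zero ha I.2.1 (by rw [← hgen, h0]; simp)
  have hinj : Function.Injective g := by
    rintro ⟨I, u⟩ ⟨I', u'⟩ e
    have h1 : I = I' := Subtype.ext (mul_left_cancel₀ ha (by
      rw [← hg (I, u), ← hg (I', u'), e]))
    subst h1
    exact Prod.ext rfl (Units.ext (mul_left_cancel₀ (hg0 I) e))
  have h1 := (hinj.hasSum_iff (fun x hx => ?_)).2 h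
  · have h2 : HasSum (fun I : P => (Nat.card (𝓞 M)ˣ * (((√(absNorm 𝔞 : ℝ))⁻¹ : ℝ) * X.ψ 𝔞)) *
        (X.ψ I.1 * ee (absNorm I.1 * τ))) S := by
      refine h1.prod_fiberwise fun I => ?_
      convert hasSum_fintype _ using 1
      rw [Finset.sum_congr rfl (g := fun _ => (((√(absNorm 𝔞 : ℝ))⁻¹ : ℝ) * X.ψ 𝔞) *
        (X.ψ I.1 * ee (absNorm I.1 * τ))), Finset.sum_const, Finset.card_univ, nsmul_eq_mul,
        Nat.card_eq_fintype_card, mul_assoc]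
      intro u _
      have hx : g (I, u) ∈ 𝔞 := mul_le_left (hg (I, u) ▸ mem_span_singleton_self _)
      have h3 := X.span (g (I, u))
      have hA : (absNorm 𝔞 : ℝ) ≠ 0 := (absNorm_pos ha).ne'
      rw [hg, map_mul] at h3
      simp only [Function.comp, hx, if_true, ff, H.normSq_sc, hg, map_mul, Nat.cast_mul,
        mul_div_cancel_left₀ _ hA, ofReal_natCast, mul_comm τ]
      rw [sc]
      linear_combination (-(((√(absNorm 𝔞 : ℝ))⁻¹ : ℝ) : ℂ) * ee (absNorm I.1 * τ)) * h3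
    refine (Subtype.val_injective.hasSum_iff (fun I hI => ?_)).1 (h2.congr_fun fun I => ?_)
    · split_ifs with h3
      · by_cases h0 : I = ⊥
        · rw [h0, ψ_bot]; ring
        · exact absurd ⟨⟨I, h0, h3⟩, rfl⟩ hI
      · rfl
    · simp only [Function.comp, I.2.2, if_true]
  · split_ifs with h2
    · rcases eq_or_ne x 0 with rfl | h0
      · simp [sc, ff]
      · obtain ⟨I, hI⟩ : 𝔞 ∣ Ideal.span {x} := dvd_iff_le.2 ((span_singleton_le_iff_mem _).2 h2)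
        have hI0 : I ≠ ⊥ := by
          rintro rfl
          exact h0 (span_singleton_eq_bot.1 (by simpa using hI))
        obtain ⟨u, hu⟩ := span_singleton_eq_span_singleton.1
          ((hgen ⟨I, hI0, hI ▸ ⟨x, rfl⟩⟩).trans hI.symm)
        exact absurd ⟨(⟨I, hI0, hI ▸ ⟨x, rfl⟩⟩, u), hu⟩ hx
    · exact zero_mul _

theorem main (H : IQ σ) (hm : 𝔪 ≠ ⊥) {N : ℕ} (hN0 : N ≠ 0) (hN : Lv 𝔪 N) :
    Good N X.neb X.theta ∧
      ∀ τ : ℂ, 0 < τ.im → Summable fun I : Ideal (𝓞 M) => X.ψ I * ee (absNorm I * τ) := by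
  classical
  choose 𝔞 h𝔞 hcop using exists_rep hm
  have h0 : ∀ c, (𝔞 c).1 ≠ ⊥ := fun c => mem_nonZeroDivisors_iff_ne_zero.1 (𝔞 c).2
  choose S hS hsum using fun c => X.exists_S H hm hN0 hN (h0 c)
  have := H.finite_units
  set w : ClassGroup (𝓞 M) → ℂ := fun c =>
    Nat.card (𝓞 M)ˣ * (((√(absNorm (𝔞 c).1 : ℝ))⁻¹ : ℝ) * X.ψ (𝔞 c).1) with hw
  have hw0 : ∀ c, w c ≠ 0 := fun c =>
    mul_ne_zero (by exact_mod_cast Nat.card_pos.ne') (mul_ne_zero (ofReal_ne_zero.2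
      (inv_ne_zero (Real.sqrt_pos.2 (absNorm_pos (h0 c))).ne')) (X.ψ_ne_zero (h0 c) (hcop c)))
  have key : ∀ τ : ℂ, 0 < τ.im → HasSum (fun I : Ideal (𝓞 M) => X.ψ I * ee (absNorm I * τ))
      (∑ c, (w c)⁻¹ * S c τ) := by
    intro τ hτ
    refine (hasSum_sum fun c _ =>
      (X.hasSum_class H (h0 c) (hsum c τ hτ)).mul_left (w c)⁻¹).congr_fun fun I => ?_
    rcases eq_or_ne I ⊥ with rfl | hI
    · simp [ψ_bot]
    · have hI' := mem_nonZeroDivisors_iff_ne_zero.2 hI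
      have hiff : ∀ c, ((𝔞 c).1 * I).IsPrincipal ↔ c = (ClassGroup.mk0 ⟨I, hI'⟩)⁻¹ := by
        intro c
        rw [← ClassGroup.mk0_eq_one_iff (mul_mem (𝔞 c).2 hI'), eq_inv_iff_mul_eq_one]
        conv_rhs => rw [← h𝔞 c, ← map_mul]
        rfl
      simp only [hiff, mul_ite, mul_zero, Finset.sum_ite_eq', Finset.mem_univ, if_true]
      exact (inv_mul_cancel_left₀ (hw0 _) _).symm
  exact ⟨(Good.sum Finset.univ _ hS).congr fun τ hτ => (key τ hτ).tsum_eq,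
    fun τ hτ => (key τ hτ).summable⟩

/-- **transformation law** under `Γ₀(N)` -/
theorem slash (H : IQ σ) (hm : 𝔪 ≠ ⊥) {N : ℕ} [NeZero N] (hN : Lv 𝔪 N) {g : SL(2, ℤ)}
    (hg : g ∈ CongruenceSubgroup.Gamma0 N) {n : ℕ} (hn : ((g 1 1 : ℤ) : ZMod N) = n) :
    (fun τ : UpperHalfPlane => X.theta τ) ∣[(2 : ℤ)] g =
      X.neb n • fun τ : UpperHalfPlane => X.theta τ := by
  funext τ
  refine (X.main H hm (NeZero.ne N) hN).1.law g ?_ n ?_ τ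
  · exact (ZMod.intCast_zmod_eq_zero_iff_dvd _ _).1 (CongruenceSubgroup.Gamma0_mem.1 hg)
  · rw [← ZMod.intCast_eq_intCast_iff, hn, Int.cast_natCast]

theorem neb_one : X.neb 1 = 1 := by simp [neb]

/-- the theta series as a cusp form on `Γ₁(N)` -/
def cf1 (H : IQ σ) (hm : 𝔪 ≠ ⊥) (N : ℕ) [NeZero N] (hN : Lv 𝔪 N) :
    CuspForm (CongruenceSubgroup.Gamma1 N : Subgroup (GL (Fin 2) ℝ)) 2 :=
  (X.main H hm (NeZero.ne N) hN).1.cf _ fun g hg => by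
    rw [X.slash H hm hN (CongruenceSubgroup.Gamma1_in_Gamma0 N hg) (n := 1)
      (by rw [Nat.cast_one]; exact ((CongruenceSubgroup.Gamma1_mem N g).1 hg).2.1), neb_one,
      one_smul]

/-- the theta series as a cusp form on `Γ₀(N)` when the nebentypus is trivial -/
def cf0 (H : IQ σ) (hm : 𝔪 ≠ ⊥) (N : ℕ) [NeZero N] (hN : Lv 𝔪 N)
    (hneb : ∀ n : ℕ, n.Coprime N → X.neb n = 1) :
    CuspForm (CongruenceSubgroup.Gamma0 N : Subgroup (GL (Fin 2) ℝ)) 2 :=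
  (X.main H hm (NeZero.ne N) hN).1.cf _ fun g hg => by
    have hdet : g 0 0 * g 1 1 - g 0 1 * g 1 0 = 1 := by
      have := g.det_coe
      rwa [Matrix.det_fin_two] at this
    have hu : IsUnit ((g 1 1 : ℤ) : ZMod N) := by
      refine IsUnit.of_mul_eq_one_right ((g 0 0 : ℤ) : ZMod N) ?_
      rw [← Int.cast_mul, eq_add_of_sub_eq hdet, Int.cast_add, Int.cast_mul,
        CongruenceSubgroup.Gamma0_mem.1 hg, mul_zero, add_zero, Int.cast_one]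
    rw [X.slash H hm hN hg (ZMod.natCast_zmod_val _).symm, hneb, one_smul]
    rw [← ZMod.isUnit_iff_coprime, ZMod.natCast_zmod_val]
    exact hu

theorem cf1_apply (H : IQ σ) (hm : 𝔪 ≠ ⊥) (N : ℕ) [NeZero N] (hN : Lv 𝔪 N)
    (τ : UpperHalfPlane) : X.cf1 H hm N hN τ = X.theta τ := rfl

theorem cf0_apply (H : IQ σ) (hm : 𝔪 ≠ ⊥) (N : ℕ) [NeZero N] (hN : Lv 𝔪 N)
    (hneb : ∀ n : ℕ, n.Coprime N → X.neb n = 1) (τ : UpperHalfPlane) :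
    X.cf0 H hm N hN hneb τ = X.theta τ := rfl

/-- the coefficients `a n = ∑_{N I = n} ψ I` -/
def a (n : ℕ) : ℂ := ∑ I ∈ (finite_setOfPred_absNorm_eq (S := 𝓞 M) n).toFinset, X.ψ I

theorem hasSum_q (H : IQ σ) (hm : 𝔪 ≠ ⊥) (τ : UpperHalfPlane) :
    HasSum (fun n : ℕ => X.a n • Function.Periodic.qParam 1 τ ^ n) (X.theta τ) := by
  have h := ((X.main H hm (lev_ne_zero hm) (lv_of_dvd dvd_rfl)).2 τ τ.im_pos).hasSum
  rw [← (Equiv.sigmaFiberEquiv fun I : Ideal (𝓞 M) => absNorm I).hasSum_iff] at h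
  refine h.sigma fun n => ?_
  have e : Function.Periodic.qParam 1 τ ^ n = ee (n * τ) := by
    rw [Function.Periodic.qParam, ee, ← Complex.exp_nat_mul]
    congr 1
    push_cast
    ring
  have : Finite {I : Ideal (𝓞 M) // absNorm I = n} := finite_setOfPred_absNorm_eq (S := 𝓞 M) n
  let _ := Fintype.ofFinite {I : Ideal (𝓞 M) // absNorm I = n}
  convert hasSum_fintype _ using 1
  rw [a, e, smul_eq_mul, Finset.sum_mul, Finset.sum_subtype (p := fun I => absNorm I = n)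
    (F := inferInstance) _ (fun I => by simp) (fun I => X.ψ I * ee (n * τ))]
  refine Finset.sum_congr rfl fun I _ => ?_
  simp [I.2]

/-- the `q`-expansion of any modular form given by the theta series -/
theorem qExpansion_eq (H : IQ σ) (hm : 𝔪 ≠ ⊥) {Γ : Subgroup (GL (Fin 2) ℝ)} {k : ℤ} {F : Type*}
    [FunLike F UpperHalfPlane ℂ] [ModularFormClass F Γ k] (hΓ : (1 : ℝ) ∈ Γ.strictPeriods) (f : F)
    (hf : ∀ τ : UpperHalfPlane, f τ = X.theta τ) (n : ℕ) :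
    (UpperHalfPlane.qExpansion 1 f).coeff n = X.a n :=
  (ModularFormClass.qExpansion_coeff_unique one_pos hΓ
    (fun τ => hf τ ▸ X.hasSum_q H hm τ) n).symm

end HC

end Crest.Agent.T15.Th
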