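import Crest.Agent.T15.ThE_59

/-!
# Row 15, block C (helper59): Hecke recursion of the coefficients, decomposition law

`ac ψ n = ∑_{N I = n} ψ I` for `ψ` with values in any commutative ring; `Dec` (the three types of
decomposition), `ac_rec`, `IQ.card_nf`, `HC.rec`.
-/

set_option autoImplicit false
set_option linter.unusedSectionVars false
set_option maxHeartbeats 400000

noncomputable section

open Complex NumberField Module Ideal
open scoped NumberTheorySymbols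

namespace Crest.Agent.T15.Th

variable {M : Type*} [Field M] [NumberField M]

variable (M) in
/-- the ideals of norm `n` -/
def nf (n : ℕ) : Finset (Ideal (𝓞 M)) := (finite_setOfPred_absNorm_eq (S := 𝓞 M) n).toFinset

theorem mem_nf {n : ℕ} {I : Ideal (𝓞 M)} : I ∈ nf M n ↔ absNorm I = n := by simp [nf]

section ac

variable {A B : Type*} [CommRing A] [CommRing B]

/-- the coefficients of the theta series -/
def ac (ψ : Ideal (𝓞 M) →* A) (n : ℕ) : A := ∑ I ∈ nf M n, ψ I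

theorem map_ac (f : A →+* B) (ψ : Ideal (𝓞 M) →* A) (n : ℕ) :
    f (ac ψ n) = ac ((f : A →* B).comp ψ) n := by
  simp [ac]

theorem ac_zero (ψ : Ideal (𝓞 M) →* A) : ac ψ 0 = ψ ⊥ := by
  have : nf M 0 = {⊥} := by ext I; simp [mem_nf, absNorm_eq_zero_iff]
  rw [ac, this, Finset.sum_singleton]

theorem ac_one (ψ : Ideal (𝓞 M) →* A) : ac ψ 1 = 1 := by
  have : nf M 1 = {1} := by ext I; simp [mem_nf, absNorm_eq_one_iff]
  rw [ac, this, Finset.sum_singleton, map_one]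

open Classical in
theorem sum_dvd (ψ : Ideal (𝓞 M) →* A) {J : Ideal (𝓞 M)} (hJ : J ≠ ⊥) (m : ℕ) :
    ∑ I ∈ (nf M m).filter (J ∣ ·), ψ I =
      if absNorm J ∣ m then ψ J * ac ψ (m / absNorm J) else 0 := by
  have hN : 0 < absNorm J := Nat.pos_of_ne_zero (absNorm_eq_zero_iff.not.2 hJ)
  split_ifs with h
  · obtain ⟨n, rfl⟩ := h
    rw [Nat.mul_div_cancel_left _ hN, ac, Finset.mul_sum]
    refine (Finset.sum_bij (fun I _ => J * I) (fun I hI => ?_) (fun I _ I' _ e => ?_)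
      (fun I hI => ?_) (fun I _ => (map_mul ψ _ _).symm)).symm
    · rw [Finset.mem_filter, mem_nf, map_mul, mem_nf.1 hI]
      exact ⟨rfl, dvd_mul_right _ _⟩
    · exact mul_left_cancel₀ hJ e
    · obtain ⟨h1, I', rfl⟩ := Finset.mem_filter.1 hI
      rw [mem_nf, map_mul] at h1
      exact ⟨I', mem_nf.2 (Nat.eq_of_mul_eq_mul_left hN h1), rfl⟩
  · refine Finset.sum_eq_zero fun I hI => absurd ?_ h
    obtain ⟨h1, h2⟩ := Finset.mem_filter.1 hI
    exact mem_nf.1 h1 ▸ map_dvd absNorm h2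

end ac

theorem absNorm_nat (h2 : finrank ℚ M = 2) (n : ℕ) : absNorm (span {(n : 𝓞 M)}) = n ^ 2 := by
  rw [absNorm_span_natCast, RingOfIntegers.rank, h2]

theorem max_of_norm {l : ℕ} (hl : l.Prime) {P : Ideal (𝓞 M)} (hP : absNorm P = l) : P.IsMaximal :=
  (isPrime_of_irreducible_absNorm (hP ▸ hl)).isMaximal
    (absNorm_eq_zero_iff.not.1 (hP ▸ hl.ne_zero))

theorem exists_max {l : ℕ} (hl : l.Prime) {I : Ideal (𝓞 M)} (h : l ∣ absNorm I) :
    ∃ P : Ideal (𝓞 M), P.IsMaximal ∧ (l : 𝓞 M) ∈ P ∧ P ∣ I := by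
  obtain ⟨P, h1, h2, h3⟩ := exists_isMaximal_dvd_of_dvd_absNorm' hl I h
  refine ⟨P, h1, ?_, h3⟩
  have : (l : ℤ) ∈ P.under ℤ := h2 ▸ mem_span_singleton_self _
  simpa [Ideal.mem_comap] using this

/-- decomposition of a prime in a quadratic field -/
theorem decomp (h2 : finrank ℚ M = 2) {l : ℕ} (hl : l.Prime) :
    (nf M l = ∅ ∧ (span {(l : 𝓞 M)}).IsMaximal) ∨
    ∃ P Q : Ideal (𝓞 M), absNorm P = l ∧ absNorm Q = l ∧ span {(l : 𝓞 M)} = P * Q ∧
      ∀ R : Ideal (𝓞 M), R.IsMaximal → (l : 𝓞 M) ∈ R → R = P ∨ R = Q := by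
  rcases (nf M l).eq_empty_or_nonempty with h | ⟨P, hP⟩
  · refine Or.inl ⟨h, ?_⟩
    obtain ⟨P, h1, -, Q, h3⟩ := exists_max hl (I := span {(l : 𝓞 M)})
      (by rw [absNorm_nat h2]; exact dvd_pow_self _ two_ne_zero)
    have h4 := congrArg absNorm h3
    rw [absNorm_nat h2, map_mul] at h4
    obtain ⟨i, hi, h5⟩ := (Nat.dvd_prime_pow hl).1 (Dvd.intro _ h4.symm)
    interval_cases i
    · exact absurd (absNorm_eq_one_iff.1 h5) h1.ne_top
    · have := mem_nf.2 (h5.trans (pow_one l))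
      rw [h] at this
      exact absurd this (Finset.notMem_empty _)
    · rw [h5] at h4
      have h6 : absNorm Q = 1 :=
        (Nat.eq_of_mul_eq_mul_left (pow_pos hl.pos 2) ((mul_one _).trans h4)).symm
      rw [h3, absNorm_eq_one_iff.1 h6, mul_top]
      exact h1
  · rw [mem_nf] at hP
    obtain ⟨Q, hQ⟩ : P ∣ span {(l : 𝓞 M)} :=
      dvd_iff_le.2 ((span_singleton_le_iff_mem _).2 (hP ▸ absNorm_mem P))
    have h4 := congrArg absNorm hQ
    rw [absNorm_nat h2, map_mul, hP, sq] at h4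
    have hQ' : absNorm Q = l := (Nat.eq_of_mul_eq_mul_left hl.pos h4).symm
    refine Or.inr ⟨P, Q, hP, hQ', hQ, fun R hR hl' => ?_⟩
    have h5 : P * Q ≤ R := hQ ▸ (span_singleton_le_iff_mem _).2 hl'
    rcases hR.isPrime.mul_le.1 h5 with h6 | h6
    · exact Or.inl ((max_of_norm hl hP).eq_of_le hR.ne_top h6).symm
    · exact Or.inr ((max_of_norm hl hQ').eq_of_le hR.ne_top h6).symm

open Classical in
theorem nf_eq {l : ℕ} (hl : l.Prime) {P Q : Ideal (𝓞 M)} (hP : absNorm P = l) (hQ : absNorm Q = l)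
    (h : ∀ R : Ideal (𝓞 M), R.IsMaximal → (l : 𝓞 M) ∈ R → R = P ∨ R = Q) : nf M l = {P, Q} := by
  ext R
  rw [mem_nf, Finset.mem_insert, Finset.mem_singleton]
  refine ⟨fun hR => h R (max_of_norm hl hR) (hR ▸ absNorm_mem R), ?_⟩
  rintro (rfl | rfl) <;> assumption

/-- **Hecke recursion** -/
theorem ac_rec {A : Type*} [CommRing A] (h2 : finrank ℚ M = 2) (ψ : Ideal (𝓞 M) →* A) {l : ℕ}
    (hl : l.Prime) (n : ℕ) :
    ac ψ (l * n) + (if l ∣ n then (((nf M l).card : A) - 1) * ψ (span {(l : 𝓞 M)}) * ac ψ (n / l)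
      else 0) = ac ψ l * ac ψ n := by
  classical
  have hl0 : span {(l : 𝓞 M)} ≠ ⊥ :=
    absNorm_eq_zero_iff.not.1 (by rw [absNorm_nat h2]; exact pow_ne_zero _ hl.ne_zero)
  have hsq := sum_dvd ψ hl0 (l * n)
  simp only [absNorm_nat h2, sq, Nat.mul_dvd_mul_iff_left hl.pos,
    Nat.mul_div_mul_left _ _ hl.pos] at hsq
  have hex : ∀ I ∈ nf M (l * n), ∃ P : Ideal (𝓞 M), P.IsMaximal ∧ (l : 𝓞 M) ∈ P ∧ P ∣ I :=
    fun I hI => exists_max hl (mem_nf.1 hI ▸ dvd_mul_right _ _)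
  rcases decomp h2 hl with ⟨h, hmax⟩ | ⟨P, Q, hP, hQ, hPQ, h⟩
  · rw [Finset.filter_true_of_mem fun I hI => by
      obtain ⟨P, h1, h3, h4⟩ := hex I hI
      rwa [hmax.eq_of_le h1.ne_top ((span_singleton_le_iff_mem _).2 h3)]] at hsq
    rw [ac, hsq, ac.eq_1 ψ l, h]
    split_ifs <;> simp
  · have hP0 : P ≠ ⊥ := absNorm_eq_zero_iff.not.1 (hP ▸ hl.ne_zero)
    have hQ0 : Q ≠ ⊥ := absNorm_eq_zero_iff.not.1 (hQ ▸ hl.ne_zero)
    have h1 := sum_dvd ψ hP0 (l * n)
    have h3 := sum_dvd ψ hQ0 (l * n)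
    rw [hP, if_pos (dvd_mul_right _ _), Nat.mul_div_cancel_left _ hl.pos] at h1
    rw [hQ, if_pos (dvd_mul_right _ _), Nat.mul_div_cancel_left _ hl.pos] at h3
    have hU : (nf M (l * n)).filter (P ∣ ·) ∪ (nf M (l * n)).filter (Q ∣ ·) = nf M (l * n) := by
      rw [← Finset.filter_or]
      refine Finset.filter_true_of_mem fun I hI => ?_
      obtain ⟨R, h4, h5, h6⟩ := hex I hI
      rcases h R h4 h5 with rfl | rfl
      · exact Or.inl h6
      · exact Or.inr h6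
    rw [ac.eq_1 ψ l, nf_eq hl hP hQ h]
    rcases eq_or_ne P Q with rfl | hne
    · rw [Finset.union_self] at hU
      rw [hU] at h1
      rw [ac, h1]
      simp
    · have hI : (nf M (l * n)).filter (P ∣ ·) ∩ (nf M (l * n)).filter (Q ∣ ·) =
          (nf M (l * n)).filter (span {(l : 𝓞 M)} ∣ ·) := by
        rw [← Finset.filter_and]
        refine Finset.filter_congr fun I _ => ?_
        have := max_of_norm hl hP
        have := max_of_norm hl hQ
        rw [hPQ]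
        exact ⟨fun h => (isCoprime_of_isMaximal hne).mul_dvd h.1 h.2,
          fun h => ⟨(dvd_mul_right _ _).trans h, (dvd_mul_left _ _).trans h⟩⟩
      have h4 := Finset.sum_union_inter (s₁ := (nf M (l * n)).filter (P ∣ ·))
        (s₂ := (nf M (l * n)).filter (Q ∣ ·)) (f := fun I => ψ I)
      rw [hU, hI, hsq, h1, h3] at h4
      rw [Finset.card_pair hne, Finset.sum_pair hne, add_mul, ← h4, ac]
      split_ifs
      · norm_num
      · rfl

variable {σ : M →+* ℂ}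

/-- an integral basis `1, θ` -/
theorem IQ.exists_theta (H : IQ σ) : ∃ (θ : 𝓞 M) (t n : ℤ), θ ^ 2 = t * θ - n ∧
    t ^ 2 - 4 * n = discr M ∧ (∀ x : 𝓞 M, ∃ a b : ℤ, x = a + b * θ) ∧
    ∀ a b : ℤ, (a : 𝓞 M) + b * θ = 0 → a = 0 ∧ b = 0 := by
  let b : Basis (Fin 2) ℤ (𝓞 M) := finBasisOfFinrankEq ℤ (𝓞 M) H.rank
  have e : ∀ x : 𝓞 M, ∃ u v : ℤ, x = u * b 0 + v * b 1 := fun x =>
    ⟨b.repr x 0, b.repr x 1, by
      conv_lhs => rw [← b.sum_repr x]
      simp [Fin.sum_univ_two]⟩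
  obtain ⟨u, v, huv⟩ := e 1
  have hcop : IsCoprime u v := by
    rw [Int.isCoprime_iff_gcd_eq_one]
    obtain ⟨u', hu'⟩ := Int.gcd_dvd_left u v
    obtain ⟨v', hv'⟩ := Int.gcd_dvd_right u v
    generalize Int.gcd u v = g at hu' hv'
    have h1 : (1 : 𝓞 M) ∈ span {(g : 𝓞 M)} := mem_span_singleton'.2
      ⟨u' * b 0 + v' * b 1, by rw [huv, hu', hv']; push_cast; ring⟩
    have h3 := absNorm_nat H.two g
    rw [(eq_top_iff_one _).2 h1, absNorm_top] at h3
    exact (Nat.pow_eq_one.1 h3.symm).resolve_right two_ne_zero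
  obtain ⟨r, s, hrs⟩ := hcop
  have hrs' : (r : 𝓞 M) * u + s * v = 1 := by exact_mod_cast congrArg (Int.cast : ℤ → 𝓞 M) hrs
  set θ : 𝓞 M := -s * b 0 + r * b 1 with hθ
  have hb0 : b 0 = r - v * θ := by
    rw [hθ]; linear_combination (-b 0) * hrs' - r * huv
  have hb1 : b 1 = s + u * θ := by
    rw [hθ]; linear_combination (-b 1) * hrs' - s * huv
  have e' : ∀ x : 𝓞 M, ∃ a b : ℤ, x = a + b * θ := by
    intro x
    obtain ⟨p, q, rfl⟩ := e x
    exact ⟨p * r + q * s, q * u - p * v, by rw [hb0, hb1]; push_cast; ring⟩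
  obtain ⟨n, t, hn⟩ := e' (θ ^ 2)
  have hD := H.discr_eq b
  have hrsR : (r : ℝ) * u + s * v = 1 := by exact_mod_cast hrs
  have hD2 : (discr M : ℝ) = -4 * (σ θ).im ^ 2 := by
    rw [hD, hb0, hb1]
    simp only [dl, RingOfIntegers.coe_eq_algebraMap, map_sub, map_add, map_mul, map_intCast,
      sub_re, add_re, mul_re, intCast_re, intCast_im, sub_im, add_im, mul_im]
    congr 2
    linear_combination (σ (algebraMap (𝓞 M) M θ)).im * hrsR
  have him : (σ θ).im ≠ 0 := by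
    intro h0
    rw [h0] at hD2
    have h1 : (discr M : ℝ) = 0 := by rw [hD2]; ring
    exact discr_ne_zero M (by exact_mod_cast h1)
  refine ⟨θ, t, -n, by rw [hn]; push_cast; ring, ?_, e', fun a c h => ?_⟩
  · have h1 := congrArg (fun x : 𝓞 M => σ x) hn
    simp only [RingOfIntegers.coe_eq_algebraMap, map_pow, map_add, map_mul, map_intCast] at h1 hD2 him
    generalize σ (algebraMap (𝓞 M) M θ) = z at h1 hD2 him
    have h3 := congrArg re h1
    have h4 := congrArg im h1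
    simp only [sq, mul_re, add_re, intCast_re, intCast_im, mul_im, add_im] at h3 h4
    have h5 : (t : ℝ) = 2 * z.re := mul_right_cancel₀ him (by linarith)
    have : ((t : ℝ) ^ 2 - 4 * (-n)) = discr M := by
      rw [hD2]; rw [h5] at h3 ⊢; linarith
    exact_mod_cast this
  · have h1 := congrArg (fun x : 𝓞 M => σ x) h
    simp only [RingOfIntegers.coe_eq_algebraMap, map_add, map_mul, map_intCast, map_zero] at h1 him
    have h4 := congrArg im h1
    simp only [add_im, intCast_im, mul_im, intCast_re, zero_mul, add_zero, zero_add, zero_im,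
      mul_eq_zero, him, or_false, Int.cast_eq_zero] at h4
    subst h4
    exact ⟨by simpa using h1, rfl⟩

theorem exists_int {l : ℕ} (hl : l.Prime) {P : Ideal (𝓞 M)} (hP : absNorm P = l) (x : 𝓞 M) :
    ∃ r : ℤ, x - r ∈ P := by
  have : Finite (𝓞 M ⧸ P) := (absNorm_ne_zero_iff P).1 (hP ▸ hl.ne_zero)
  let _ := Fintype.ofFinite (𝓞 M ⧸ P)
  have : NeZero l := ⟨hl.ne_zero⟩
  let e := ZMod.ringEquivOfPrime (𝓞 M ⧸ P) hl (by
    rw [← hP, absNorm_apply, Submodule.cardQuot_apply, Nat.card_eq_fintype_card])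
  obtain ⟨k, hk⟩ := e.surjective (Ideal.Quotient.mk P x)
  obtain ⟨r, rfl⟩ := ZMod.intCast_surjective k
  exact ⟨r, Ideal.Quotient.eq.1 (by rw [← hk, map_intCast, map_intCast])⟩

theorem int_mem {l : ℕ} (hl : l.Prime) {P : Ideal (𝓞 M)} (hP : P ≠ ⊤) (h : (l : 𝓞 M) ∈ P) {r : ℤ}
    (hr : (r : 𝓞 M) ∈ P) : (l : ℤ) ∣ r := by
  by_contra hn
  obtain ⟨a, b, hab⟩ := (Nat.prime_iff_prime_int.1 hl).irreducible.coprime_iff_not_dvd.2 hn
  refine hP ((eq_top_iff_one _).2 ?_)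
  have : (1 : 𝓞 M) = a * l + b * r := by exact_mod_cast congrArg (Int.cast : ℤ → 𝓞 M) hab.symm
  rw [this]
  exact add_mem (mul_mem_left _ _ h) (mul_mem_left _ _ hr)

/-- **decomposition law** -/
theorem IQ.card_nf (H : IQ σ) {l : ℕ} (hl : l.Prime) (hl2 : l ≠ 2) :
    ((nf M l).card : ℤ) = 1 + J(discr M | l) := by
  classical
  have := Fact.mk hl
  obtain ⟨θ, t, n, hθ, hD, hgen, huniq⟩ := H.exists_theta
  have hspan : ∀ a b : ℤ, (a : 𝓞 M) + b * θ ∈ span {(l : 𝓞 M)} → (l : ℤ) ∣ a ∧ (l : ℤ) ∣ b := by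
    intro a b h
    obtain ⟨y, hy⟩ := mem_span_singleton'.1 h
    obtain ⟨c, d, rfl⟩ := hgen y
    obtain ⟨h1, h2⟩ := huniq (a - l * c) (b - l * d) (by push_cast; linear_combination -hy)
    exact ⟨⟨c, by linarith⟩, ⟨d, by linarith⟩⟩
  have hl2' : ¬ (l : ℤ) ∣ 2 := fun h =>
    hl2 ((Nat.prime_dvd_prime_iff_eq hl Nat.prime_two).1 (by exact_mod_cast h))
  have hδ : ((-t : ℤ) + (2 : ℤ) * θ : 𝓞 M) ^ 2 = (discr M : ℤ) := by
    rw [← hD]; push_cast; linear_combination 4 * hθ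
  rw [← jacobiSym.legendreSym.to_jacobiSym]
  rcases decomp H.two hl with ⟨h, hmax⟩ | ⟨P, Q, hP, hQ, hPQ, h⟩
  · have : legendreSym l (discr M) = -1 := by
      rw [legendreSym.eq_neg_one_iff]
      rintro ⟨r, hr⟩
      obtain ⟨r, rfl⟩ := ZMod.intCast_surjective r
      rw [← Int.cast_mul, ZMod.intCast_eq_intCast_iff_dvd_sub] at hr
      obtain ⟨k, hk⟩ := hr
      have h1 : (((-t - r : ℤ) : 𝓞 M) + (2 : ℤ) * θ) * (((-t + r : ℤ) : 𝓞 M) + (2 : ℤ) * θ) ∈
          span {(l : 𝓞 M)} := by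
        refine mem_span_singleton'.2 ⟨-k, ?_⟩
        have hk' : (r : 𝓞 M) * r - (discr M : ℤ) = l * k := by
          exact_mod_cast congrArg (Int.cast : ℤ → 𝓞 M) hk
        push_cast at hδ hk' ⊢
        linear_combination hk' - hδ
      rcases hmax.isPrime.mem_or_mem h1 with h2 | h2
      · exact hl2' (hspan _ _ h2).2
      · exact hl2' (hspan _ _ h2).2
    rw [h, this]
    rfl
  · have hPm := max_of_norm hl hP
    have hQm := max_of_norm hl hQ
    obtain ⟨r, hr⟩ := exists_int hl hP θ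
    rw [nf_eq hl hP hQ h]
    rcases eq_or_ne P Q with rfl | hne
    · have h1 : (θ - r) * (θ - r) ∈ span {(l : 𝓞 M)} := hPQ ▸ mul_mem_mul hr hr
      have h2 : (θ - r) * (θ - r) = ((r ^ 2 - n : ℤ) : 𝓞 M) + (t - 2 * r : ℤ) * θ := by
        push_cast; linear_combination hθ
      obtain ⟨h3, h4⟩ := hspan _ _ (h2 ▸ h1)
      have h5 : (l : ℤ) ∣ discr M := by
        rw [← hD, show t ^ 2 - 4 * n = (t - 2 * r) * (t + 2 * r) + 4 * (r ^ 2 - n) by ring]
        exact (h4.mul_right _).add (h3.mul_left _)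
      rw [(legendreSym.eq_zero_iff l _).2 ((ZMod.intCast_zmod_eq_zero_iff_dvd _ _).2 h5)]
      simp
    · have hlP : (l : 𝓞 M) ∈ P := hP ▸ absNorm_mem P
      have hlQ : (l : 𝓞 M) ∈ Q := hQ ▸ absNorm_mem Q
      have h0 : ((discr M : ℤ) : ZMod l) ≠ 0 := by
        rw [Ne, ZMod.intCast_zmod_eq_zero_iff_dvd]
        rintro ⟨k, hk⟩
        have h1 : ((-t : ℤ) + (2 : ℤ) * θ : 𝓞 M) ^ 2 = l * k := by rw [hδ, hk]; push_cast; rfl
        have h2 := hPm.isPrime.mem_of_pow_mem 2 (h1 ▸ mul_mem_right _ _ hlP)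
        have h3 := hQm.isPrime.mem_of_pow_mem 2 (h1 ▸ mul_mem_right _ _ hlQ)
        have h4 : ((-t : ℤ) + (2 : ℤ) * θ : 𝓞 M) ∈ span {(l : 𝓞 M)} := by
          rw [hPQ, mul_eq_inf_of_isCoprime (isCoprime_of_isMaximal hne)]
          exact ⟨h2, h3⟩
        exact hl2' (hspan _ _ h4).2
      have h1 : legendreSym l (discr M) = 1 := by
        rw [legendreSym.eq_one_iff l h0]
        refine ⟨((2 * r - t : ℤ) : ZMod l), ?_⟩
        rw [← Int.cast_mul, ZMod.intCast_eq_intCast_iff_dvd_sub]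
        refine int_mem hl hPm.ne_top hlP ?_
        have : (((2 * r - t) * (2 * r - t) - discr M : ℤ) : 𝓞 M) =
            (θ - r) * (4 * (t - θ - r)) := by
          push_cast at hδ ⊢
          linear_combination hδ
        rw [this]
        exact mul_mem_right _ _ hr
      rw [Finset.card_pair hne, h1]
      rfl

/-- Hecke recursion with the Jacobi symbol -/
theorem IQ.ac_rec (H : IQ σ) {A : Type*} [CommRing A] (ψ : Ideal (𝓞 M) →* A) {l : ℕ}
    (hl : l.Prime) (hl2 : l ≠ 2) (n : ℕ) :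
    ac ψ (l * n) + (if l ∣ n then (J(discr M | l) : ℤ) * ψ (span {(l : 𝓞 M)}) * ac ψ (n / l)
      else 0) = ac ψ l * ac ψ n := by
  have h : ((nf M l).card : A) - 1 = (J(discr M | l) : ℤ) := by
    have := congrArg (Int.cast : ℤ → A) (H.card_nf hl hl2)
    push_cast at this
    rw [this]; ring
  rw [← h]
  exact Th.ac_rec H.two ψ hl n

namespace HC

variable {𝔪 : Ideal (𝓞 M)} (X : HC σ 𝔪)

theorem a_eq (n : ℕ) : X.a n = ac X.ψ n := rfl

theorem a_zero : X.a 0 = 0 := by rw [a_eq, ac_zero, ψ_bot]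

theorem a_one : X.a 1 = 1 := ac_one _

theorem a_rec (H : IQ σ) {l : ℕ} (hl : l.Prime) (hl2 : l ≠ 2) (n : ℕ) :
    X.a (l * n) + (if l ∣ n then X.neb l * l * X.a (n / l) else 0) = X.a l * X.a n := by
  have h := H.ac_rec X.ψ hl hl2 n
  rw [X.span] at h
  simp only [map_natCast] at h
  simp only [a_eq, neb, ← h]
  split_ifs <;> ring

end HC

end Crest.Agent.T15.Th
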