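import Crest.Agent.T15.TopD_88
import Crest.Agent.T15.Ext_41
import Crest.Agent.T15.Res_67
import Crest.Agent.T15.Dih_27
import Crest.Agent.T15.FlOut_23
import Crest.Agent.T15.Art_34
import Crest.Agent.T15.Tame_25
import Crest.Agent.T15.Qi_28
import Crest.Agent.T15.Eps_73
import Crest.Agent.T15.Xi_49
import Crest.Agent.T15.ThG_59
import Crest.Agent.T15.ModI_44
import Crest.Agent.T15.EqUE_16
import Crest.Agent.T15.TwSel_6
import Crest.Agent.T15.CUnr_25
import Crest.Agent.T15.QAll_33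
import Crest.Agent.T15.LkZ_47
import Crest.Agent.T15.Cert_15

/-!
# Row 15: the finished blocks plugged into the final glue (helper88)
-/

set_option autoImplicit false

noncomputable section

namespace Crest.Agent.T15.Top

theorem modI_88 : C.ModI :=
  C.modI (C.epsStmt_of (Tame.tameStmt Art.artin) Qi.qiStmt) Th.thStmt
    (Ex.xiStmt Art.artin Qi.qiStmt)

theorem final2 {Lk : LkT} {D : Nb} {G : Type} [Group G] {𝓛 : R.Lv G} (hA : PrAP.APStmt)
    (hF : AllX fun X => FStmt X Lk D) (hHt : HtStmt Lk) (hR : R.RStmt) (hZ : C.ZeroStmt)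
    (hT : AllX fun X => R.TOut X 𝓛) (hEsc : R.EscOut 𝓛) :
    ¬ ComputablePred Crest.NumberTheoryR.PolyCode.HasRatZero :=
  final (Cert.lglue_of hA T15.Lk.lkStmt) QAll.qStmt hF hHt embStmt extStmt Rb.resStmt
    (fun _ _ h3 L => Dih.dihStmt L h3) hR
    (TwAsm.twStmt_of EqU.eqStmt Tw.selStmt C.unrStmt hZ) modI_88
    (fun _ _ h3 L => FlTop.l3Out h3 L) hT hEsc

end Crest.Agent.T15.Top
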