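import Mathlib

/-!
# Row 15, block C: Kummer theory for the choice of Taylor–Wiles primes (helper6)

`N` is a subgroup of `Aut(E/F)`; "`K`" is the set of `N`-fixed elements of `E`.
-/

set_option autoImplicit false

noncomputable section

namespace Crest.Agent.T15.Tw

variable {F E : Type*} [Field F] [Field E] [Algebra F E] {p : ℕ} [hp : Fact p.Prime] {ζ : E}

/-- an additive map killing the common kernel of finitely many additive maps is in their span -/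
theorem dual_span {A ι : Type*} [AddCommGroup A] [Finite ι] (κ : ι → A →+ ZMod p) (l : A →+ ZMod p)
    (h : ∀ a, (∀ i, κ i a = 0) → l a = 0) : l ∈ AddSubmonoid.closure (Set.range κ) := by
  have := Fintype.ofFinite ι
  have key : ∀ (μ : A →+ ZMod p) (e : A →₀ ZMod p),
      Finsupp.linearCombination (ZMod p) μ e = μ (e.sum fun a c => c.val • a) := fun μ e => by
    simp [Finsupp.linearCombination_apply, Finsupp.sum, map_sum]
  have := mem_span_of_iInf_ker_le_ker (L := fun i => Finsupp.linearCombination (ZMod p) (κ i))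
    (K := Finsupp.linearCombination (ZMod p) l) fun e he => by
      simp only [Submodule.mem_iInf, LinearMap.mem_ker, key] at he ⊢
      exact h _ he
  obtain ⟨c, hc⟩ := (Submodule.mem_span_range_iff_exists_fun _).1 this
  have e : l = ∑ i, (c i).val • κ i := by
    ext a
    simpa [AddMonoidHom.finsetSum_apply] using (LinearMap.congr_fun hc (Finsupp.single a 1)).symm
  rw [e]
  exact sum_mem fun i _ => nsmul_mem (AddSubmonoid.subset_closure (Set.mem_range_self i)) _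

theorem finite_hom (A : Type*) [AddCommGroup A] [AddGroup.FG A] (B : Type*) [AddCommGroup B]
    [Finite B] : Finite (A →+ B) := by
  obtain ⟨S, hS, hf⟩ := AddGroup.fg_iff.1 (inferInstance : AddGroup.FG A)
  have := hf.to_subtype
  exact .of_injective (fun (f : A →+ B) (x : S) => f x) fun f g h =>
    AddMonoidHom.eq_of_eqOn_dense hS fun x hx => congrFun h ⟨x, hx⟩

theorem pw_add (hζ : IsPrimitiveRoot ζ p) (i j : ZMod p) : ζ ^ (i + j).val = ζ ^ i.val * ζ ^ j.val :=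
  (AddChar.zmodChar p hζ.pow_eq_one).map_add_eq_mul i j

theorem pw_cast (hζ : IsPrimitiveRoot ζ p) (m : ℕ) : ζ ^ (m : ZMod p).val = ζ ^ m :=
  AddChar.zmodChar_apply' hζ.pow_eq_one m

theorem pw_pow (hζ : IsPrimitiveRoot ζ p) (i : ZMod p) (m : ℕ) :
    (ζ ^ i.val) ^ m = ζ ^ ((m : ZMod p) * i).val := by
  rw [← pow_mul, ← pw_cast hζ]; simp [mul_comm]

theorem pw_inj (hζ : IsPrimitiveRoot ζ p) {i j : ZMod p} (h : ζ ^ i.val = ζ ^ j.val) : i = j :=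
  ZMod.val_injective p (hζ.pow_inj (ZMod.val_lt i) (ZMod.val_lt j) h)

theorem exists_pw (hζ : IsPrimitiveRoot ζ p) {u u' : E} (hu : u ≠ 0) (h : u' ^ p = u ^ p) :
    ∃ i : ZMod p, u' = ζ ^ i.val * u := by
  obtain ⟨i, -, hi⟩ := hζ.eq_pow_of_pow_eq_one (ξ := u' / u) (by
    rw [div_pow, h, div_self (pow_ne_zero _ hu)])
  exact ⟨i, by rw [pw_cast hζ, hi, div_mul_cancel₀ _ hu]⟩

variable {N : Subgroup (E ≃ₐ[F] E)} {n : ℕ} {ξ : E}

/-- an element of `K` which becomes a `p`-th power in `K(ξ)` lies in `⟨ζ⟩ K^p` -/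
theorem cyc (h2 : p ≠ 2) (hζ : IsPrimitiveRoot ζ p) (hξ : IsPrimitiveRoot ξ (p ^ (n + 2)))
    (hN : ∀ h ∈ N, h ζ = ζ) (h0 : ∃ γ ∈ N, γ (ξ ^ p ^ n) ≠ ξ ^ p ^ n) {b : E} (b0 : b ≠ 0)
    (hb : ∀ h ∈ N, h (b ^ p) = b ^ p) (hf : ∀ h ∈ N, h ξ = ξ → h b = b) :
    ∃ (j : ℕ) (c : E), (∀ h ∈ N, h c = c) ∧ b ^ p = ζ ^ j * c ^ p := by
  have := ZMod.isCyclic_units_of_prime_pow p hp.out h2 (n + 2)
  obtain ⟨⟨_, γ, hγ, rfl⟩, hg⟩ :=
    IsCyclic.exists_monoid_generator (α := N.map (hξ.autToPow F))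
  have fix : ∀ u : E, γ u = u → (∀ h ∈ N, h ξ = ξ → h u = u) → ∀ h ∈ N, h u = u := by
    intro u u1 u2 h hh
    obtain ⟨m, hm⟩ := hg ⟨_, h, hh, rfl⟩
    have hm' : hξ.autToPow F (γ ^ m) = hξ.autToPow F h := by
      rw [map_pow]; exact congrArg Subtype.val hm
    have e1 : (γ ^ m) ξ = h ξ := by rw [← hξ.autToPow_spec F (γ ^ m), hm', hξ.autToPow_spec F h]
    have e2 : (γ ^ m) u = u := by
      clear hm hm' e1
      induction m with
      | zero => rfl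
      | succ m ih => rw [pow_succ, AlgEquiv.mul_apply, u1, ih]
    have e3 := u2 (h⁻¹ * γ ^ m) (mul_mem (inv_mem hh) (pow_mem hγ m)) (by
      rw [AlgEquiv.mul_apply, e1]; exact h.symm_apply_apply ξ)
    rw [AlgEquiv.mul_apply, e2] at e3
    exact (congrArg h e3).symm.trans (h.apply_symm_apply u)
  obtain ⟨η, hη⟩ : ∃ η, η = ξ ^ p ^ n := ⟨_, rfl⟩
  rw [← hη] at h0
  have η0 : η ≠ 0 := hη ▸ pow_ne_zero _ (hξ.ne_zero (pow_ne_zero _ hp.out.ne_zero))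
  have ηH : ∀ h ∈ N, h ξ = ξ → h η = η := fun h _ e => by rw [hη, map_pow, e]
  obtain ⟨j, -, hj⟩ := hζ.eq_pow_of_pow_eq_one (ξ := η ^ p) (by
    rw [hη, ← pow_mul, ← pow_mul, ← hξ.pow_eq_one]; congr 1; ring)
  obtain ⟨i, hi⟩ := exists_pw hζ (u' := γ η) η0 (by rw [← map_pow, ← hj, map_pow, hN γ hγ])
  obtain ⟨k, hk⟩ := exists_pw hζ (u' := γ b) b0 (by rw [← map_pow, hb γ hγ])
  have i0 : i ≠ 0 := by
    rintro rfl
    obtain ⟨γ0, g1, g2⟩ := h0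
    exact g2 (fix η (by simpa using hi) ηH γ0 g1)
  have z0 : ζ ^ k.val ≠ 0 := pow_ne_zero _ (hζ.ne_zero hp.out.ne_zero)
  refine ⟨j * (k / i).val, b / η ^ (k / i).val, fix _ ?_ fun h hh e => ?_, ?_⟩
  · rw [map_div₀, map_pow, hi, hk, mul_pow, pw_pow hζ, ZMod.natCast_zmod_val, div_mul_cancel₀ _ i0,
      mul_div_mul_left _ _ z0]
  · rw [map_div₀, map_pow, ηH h hh e, hf h hh e]
  · rw [pow_mul, hj, div_pow, ← pow_mul, ← pow_mul, mul_comm p, mul_div_cancel₀ _ (pow_ne_zero _ η0)]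

/-- **Kummer theory over `K(ξ)`**: every character of `A` killing `⟨ζ⟩ K^p` is realised -/
theorem exists_h (h2 : p ≠ 2) (hζ : IsPrimitiveRoot ζ p) (hξ : IsPrimitiveRoot ξ (p ^ (n + 2)))
    (hN : ∀ h ∈ N, h ζ = ζ) (h0 : ∃ γ ∈ N, γ (ξ ^ p ^ n) ≠ ξ ^ p ^ n) (A : Subgroup Eˣ)
    [Group.FG A] (hA : ∀ a ∈ A, ∀ h ∈ N, h (a : E) = a) (rt : ∀ a ∈ A, ∃ b : E, b ^ p = a)
    (l : Additive A →+ ZMod p) (hl : ∀ (a : A) (j : ℕ) (c : E), (∀ h ∈ N, h c = c) →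
      ((a : Eˣ) : E) = ζ ^ j * c ^ p → l (.ofMul a) = 0) :
    ∃ h ∈ N, h ξ = ξ ∧ ∀ (a : A) (b : E), b ^ p = (a : Eˣ) → h b = ζ ^ (l (.ofMul a)).val * b := by
  have := finite_hom (Additive A) (ZMod p)
  let U : AddSubmonoid (Additive A →+ ZMod p) :=
    { carrier := {μ | ∃ h ∈ N, h ξ = ξ ∧
        ∀ (a : A) (b : E), b ^ p = (a : Eˣ) → h b = ζ ^ (μ (.ofMul a)).val * b}
      zero_mem' := ⟨1, one_mem _, rfl, fun a b _ => by simp⟩
      add_mem' := by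
        rintro μ ν ⟨h, h1, h2, h3⟩ ⟨g, g1, g2, g3⟩
        refine ⟨h * g, mul_mem h1 g1, by rw [AlgEquiv.mul_apply, g2, h2], fun a b hb => ?_⟩
        rw [AlgEquiv.mul_apply, g3 a b hb, map_mul, map_pow, hN h h1, h3 a b hb,
          AddMonoidHom.add_apply, pw_add hζ]
        ring }
  have b0 : ∀ (a : A) (b : E), b ^ p = (a : Eˣ) → b ≠ 0 := fun a b hb e =>
    (a : Eˣ).ne_zero (by rw [← hb, e, zero_pow hp.out.ne_zero])
  have ex : ∀ h ∈ N, h ξ = ξ → ∃ μ ∈ U, ∀ (a : A) (b : E), b ^ p = (a : Eˣ) →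
      h b = ζ ^ (μ (.ofMul a)).val * b := fun h hh e => by
    have : ∀ a : A, ∃ i : ZMod p, ∀ b : E, b ^ p = (a : Eˣ) → h b = ζ ^ i.val * b := fun a => by
      obtain ⟨b, hb⟩ := rt a a.2
      obtain ⟨i, hi⟩ := exists_pw hζ (u' := h b) (b0 a b hb) (by rw [← map_pow, hb, hA a a.2 h hh])
      refine ⟨i, fun b' hb' => ?_⟩
      obtain ⟨j, rfl⟩ := exists_pw hζ (u' := b') (b0 a b hb) (hb'.trans hb.symm)
      rw [map_mul, map_pow, hN h hh, hi]; ring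
    choose k hk using this
    have : ∀ (a : A) (b : E), b ^ p = (a : Eˣ) →
        h b = ζ ^ ((AddMonoidHom.mk' (fun a : Additive A => k a.toMul) fun a a' => by
          obtain ⟨b, hb⟩ := rt _ a.toMul.2
          obtain ⟨b', hb'⟩ := rt _ a'.toMul.2
          have e := hk (a.toMul * a'.toMul) (b * b') (by rw [mul_pow, hb, hb']; simp)
          rw [map_mul, hk _ b hb, hk _ b' hb', mul_mul_mul_comm, ← pw_add hζ] at e
          exact (pw_inj hζ (mul_right_cancel₀ (mul_ne_zero (b0 _ b hb) (b0 _ b' hb')) e)).symm)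
          (.ofMul a)).val * b := hk
    exact ⟨_, ⟨h, hh, e, this⟩, this⟩
  have := dual_span (fun μ : U => μ.1) l fun a ha => by
    obtain ⟨b, hb⟩ := rt _ a.toMul.2
    obtain ⟨j, c, c1, c2⟩ := cyc h2 hζ hξ hN h0 (b0 _ b hb) (by rw [hb]; exact hA _ a.toMul.2)
      fun h hh e => by
        obtain ⟨μ, m1, m2⟩ := ex h hh e
        have := ha ⟨μ, m1⟩
        rw [m2 _ b hb, ofMul_toMul, this]; simp
    exact hl a.toMul j c c1 (hb ▸ c2)
  exact (AddSubmonoid.closure_le (S := U)).2 (by rintro _ ⟨μ, rfl⟩; exact μ.2) this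

theorem pow_fix {s : E ≃ₐ[F] E} {u : E} (h : s u = u) (m : ℕ) : (s ^ m) u = u := by
  induction m with
  | zero => rfl
  | succ m ih => rw [pow_succ, AlgEquiv.mul_apply, h, ih]

theorem pow_root {s : E ≃ₐ[F] E} {u : E} {j : ℕ} (h : s u = u ^ j) (m : ℕ) : (s ^ m) u = u ^ j ^ m := by
  induction m with
  | zero => simp
  | succ m ih => rw [pow_succ, AlgEquiv.mul_apply, h, map_pow, ih, ← pow_mul, pow_succ]

theorem pow_eq_iff {m i j : ℕ} (h : IsPrimitiveRoot ξ m) (hm : m ≠ 0) :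
    ξ ^ i = ξ ^ j ↔ i ≡ j [MOD m] := by
  lift ξ to Eˣ using h.isUnit hm
  rw [← Units.val_pow_eq_pow_val, ← Units.val_pow_eq_pow_val, Units.val_inj, pow_eq_pow_iff_modEq,
    ← (IsPrimitiveRoot.coe_units_iff.1 h).eq_orderOf]

/-- a `p^k`-th power of an automorphism fixing `ζ_p` fixes `ζ_{p^(k+1)}` -/
theorem pow_fix_root (hζ : IsPrimitiveRoot ζ p) {k : ℕ} (hξ : IsPrimitiveRoot ξ (p ^ (k + 1)))
    {s : E ≃ₐ[F] E} (hs : s ζ = ζ) : (s ^ p ^ k) ξ = ξ := by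
  obtain ⟨j, -, hj⟩ := hξ.eq_pow_of_pow_eq_one (ξ := s ξ) (by rw [← map_pow, hξ.pow_eq_one, map_one])
  have h1 : IsPrimitiveRoot (ξ ^ p ^ k) p := hξ.pow (pow_pos hp.out.pos _) (pow_succ p k)
  obtain ⟨i, -, hi⟩ := hζ.eq_pow_of_pow_eq_one h1.pow_eq_one
  have h2 : (ξ ^ p ^ k) ^ j = (ξ ^ p ^ k) ^ 1 := by
    rw [← pow_mul, mul_comm, pow_mul, hj, ← map_pow, ← hi, map_pow, hs, pow_one]
  have h3 : j ≡ 1 [MOD p] := (pow_eq_iff h1 hp.out.ne_zero).1 h2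
  have h4 := dvd_sub_pow_of_dvd_sub (R := ℤ) (Nat.modEq_iff_dvd.1 h3.symm) k
  have h5 : j ^ p ^ k ≡ 1 [MOD p ^ (k + 1)] := (Nat.modEq_iff_dvd.2 (by simpa using h4)).symm
  rw [pow_root hj.symm]
  exact ((pow_eq_iff hξ (pow_ne_zero _ hp.out.ne_zero)).2 h5).trans (pow_one ξ)

/-- **the automorphism whose Frobenius class gives a Taylor–Wiles prime** -/
theorem exists_tau (h2 : p ≠ 2) (hζ : IsPrimitiveRoot ζ p) (hξ : IsPrimitiveRoot ξ (p ^ (n + 2)))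
    (hN : ∀ h ∈ N, h ζ = ζ) (h0 : ∃ γ ∈ N, γ (ξ ^ p ^ n) ≠ ξ ^ p ^ n) (A : Subgroup Eˣ)
    [Group.FG A] (hA : ∀ a ∈ A, ∀ h ∈ N, h (a : E) = a) (rt : ∀ a ∈ A, ∃ b : E, b ^ p = a)
    (l : Additive A →+ ZMod p) (hl : ∀ (a : A) (j : ℕ) (c : E), (∀ h ∈ N, h c = c) →
      ((a : Eˣ) : E) = ζ ^ j * c ^ p → l (.ofMul a) = 0)
    {s : E ≃ₐ[F] E} (hs : s ζ = ζ) {f : ℕ} (hf : ¬ p ∣ f) (hsf : s ^ f ∈ N)
    (hsl : ∀ a : A, ∃ a' : A, ((a' : Eˣ) : E) = s (a : Eˣ) ∧ l (.ofMul a') = l (.ofMul a)) :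
    ∃ τ : E ≃ₐ[F] E, τ * s⁻¹ ∈ N ∧ τ ξ = ξ ∧
      ∀ (a : A) (b : E), b ^ p = (a : Eˣ) → (τ ^ f) b = ζ ^ (l (.ofMul a)).val * b := by
  have f0 : (f : ZMod p) ≠ 0 := by rwa [Ne, ZMod.natCast_eq_zero_iff]
  obtain ⟨h, hh, e, H⟩ := exists_h h2 hζ hξ hN h0 A hA rt ((AddMonoidHom.mulLeft (f : ZMod p)⁻¹).comp l)
    fun a j c c1 c2 => by simp [hl a j c c1 c2]
  obtain ⟨m, m1, m2⟩ := Nat.chineseRemainder
    (((Nat.Prime.coprime_iff_not_dvd hp.out).2 hf).pow_left (n + 1)) 0 1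
  obtain ⟨u, rfl⟩ := Nat.modEq_zero_iff_dvd.1 m1
  set m := p ^ (n + 1) * u with hm
  have hP : ∀ (i : ℕ) (a : A), ∃ a' : A, ((a' : Eˣ) : E) = (s ^ i) (a : Eˣ) ∧
      l (.ofMul a') = l (.ofMul a) := fun i a => by
    induction i with
    | zero => exact ⟨a, rfl, rfl⟩
    | succ i ih =>
      obtain ⟨a1, e1, e2⟩ := ih
      obtain ⟨a2, e3, e4⟩ := hsl a1
      exact ⟨a2, by rw [e3, e1, pow_succ', AlgEquiv.mul_apply], e4.trans e2⟩
  refine ⟨h * s ^ m, ?_, ?_, fun a b hb => ?_⟩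
  · obtain ⟨d, hd⟩ := Nat.modEq_iff_dvd.1 m2.symm
    have : s ^ m * s⁻¹ = (s ^ f) ^ d := by
      rw [← zpow_natCast, ← zpow_natCast, ← zpow_mul, ← hd, ← zpow_sub_one]; simp
    rw [mul_assoc, this]
    exact mul_mem hh (zpow_mem hsf d)
  · rw [AlgEquiv.mul_apply, hm, pow_mul, pow_fix (pow_fix_root hζ hξ hs), e]
  · have b0 : b ≠ 0 := fun e => (a : Eˣ).ne_zero (by rw [← hb, e, zero_pow hp.out.ne_zero])
    have ind : ∀ i : ℕ, ((h * s ^ m) ^ i) b =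
        ζ ^ ((i : ZMod p) * ((f : ZMod p)⁻¹ * l (.ofMul a))).val * (s ^ (m * i)) b := fun i => by
      induction i with
      | zero => simp
      | succ i ih =>
        obtain ⟨a', e1, e2⟩ := hP (m * (i + 1)) a
        have e3 := H a' ((s ^ (m * (i + 1))) b) (by rw [← map_pow, hb, e1])
        rw [pow_succ', AlgEquiv.mul_apply, ih, AlgEquiv.mul_apply, map_mul, map_pow, pow_fix hs,
          ← AlgEquiv.mul_apply, ← pow_add, add_comm m, ← mul_add_one, map_mul, map_pow, hN h hh, e3,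
          ← mul_assoc, ← pw_add hζ]
        simp [e2, add_mul]
    obtain ⟨k, hk⟩ := exists_pw hζ (u' := (s ^ f) b) b0 (by rw [← map_pow, hb, hA a a.2 _ hsf])
    have e4 : ∀ i : ℕ, ((s ^ f) ^ i) b = (ζ ^ k.val) ^ i * b := fun i => by
      induction i with
      | zero => simp
      | succ i ih =>
        rw [pow_succ', AlgEquiv.mul_apply, ih, map_mul, map_pow, map_pow, pow_fix hs, hk]; ring
    rw [ind, mul_inv_cancel_left₀ f0, mul_comm m, pow_mul, e4, pw_pow hζ]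
    simp [hm]

end Crest.Agent.T15.Tw
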