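import Crest.Agent.T15.EqUA_16

/-!
# Row 15, block C: equivariant homomorphisms are spanned by averages of rank one maps (helper6)
-/

set_option autoImplicit false

noncomputable section

namespace Crest.Agent.T15.Tw

open Crest.Agent.T15.EqU

variable {k G M W : Type*} [Field k] [Group G] [Fintype G] [CommGroup M] [AddCommGroup W]
  [Module k W] {p : ℕ} [hp : Fact p.Prime] [CharP k p] {α : G →* Monoid.End M} {A B : Subgroup M}

/-- the action on a stable subgroup -/
def act (hA : St α A) (g : G) : Additive A →+ Additive A :=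
  MonoidHom.toAdditive (((α g : M →* M).comp A.subtype).codRestrict A fun x => hA g x x.2)

omit [Fintype G] in
theorem act_coe (hA : St α A) (g : G) (a : Additive A) :
    ((act hA g a).toMul : M) = α g (a.toMul : M) := rfl

omit [Fintype G] in
theorem act_mul (hA : St α A) (g h : G) (a : Additive A) :
    act hA (g * h) a = act hA g (act hA h a) :=
  Additive.toMul.injective (Subtype.ext (by simp only [act_coe, map_mul]; rfl))

omit [Fintype G] in
theorem act_one (hA : St α A) (a : Additive A) : act hA 1 a = a :=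
  Additive.toMul.injective (Subtype.ext (by simp only [act_coe, map_one]; rfl))

/-- the average `a ↦ ∑_g l(g⁻¹ a) g x` -/
def av (hA : St α A) (ρ : Representation k G W) (l : Additive A →+ ZMod p) :
    W →ₗ[k] (Additive A →+ W) where
  toFun x := AddMonoidHom.mk' (fun a => ∑ g, ZMod.castHom dvd_rfl k (l (act hA g⁻¹ a)) • ρ g x)
    fun a b => by simp [add_smul, Finset.sum_add_distrib]
  map_add' x y := by ext a; simp [Finset.sum_add_distrib]
  map_smul' c x := by ext a; simp [Finset.smul_sum, smul_comm c]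

variable {ρ : Representation k G W}

theorem av_apply (hA : St α A) (l : Additive A →+ ZMod p) (x : W) (a : Additive A) :
    av hA ρ l x a = ∑ g, ZMod.castHom dvd_rfl k (l (act hA g⁻¹ a)) • ρ g x := rfl

theorem av_apply' (hA : St α A) (l : Additive A →+ ZMod p) (x : W) (a : Additive A) :
    av hA ρ l x a = ∑ g, (l (act hA g⁻¹ a)).val • ρ g x := by
  simp only [av_apply, ZMod.castHom_apply, ← ZMod.natCast_val, Nat.cast_smul_eq_nsmul]

theorem av_mem (hA : St α A) (hB : St α B) {l : Additive A →+ ZMod p}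
    (hl : ∀ a : A, (a : M) ∈ B → l (.ofMul a) = 0) (x : W) : av hA ρ l x ∈ HG α ρ A B := by
  refine ⟨fun g a b h => ?_, fun a ha => ?_⟩
  · have : Additive.ofMul b = act hA g (.ofMul a) := Additive.toMul.injective (Subtype.ext h)
    rw [this, av_apply, av_apply, map_sum, ← Equiv.sum_comp (Equiv.mulLeft g)]
    simp [← act_mul]
  · exact Finset.sum_eq_zero fun g _ => by
      rw [show l (act hA g⁻¹ (.ofMul a)) = 0 from hl (act hA g⁻¹ (.ofMul a)).toMul (hB _ _ ha)]; simp

theorem av_comp (hA : St α A) (l : Additive A →+ ZMod p) {s : G} {x : W} (hx : ρ s x = x) :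
    av hA ρ (l.comp (act hA s)) x = av hA ρ l x := by
  refine AddMonoidHom.ext fun a => ?_
  rw [av_apply, av_apply, ← Equiv.sum_comp (Equiv.mulRight s)]
  simp [← act_mul, hx]

theorem av_sum {ι : Type*} (hA : St α A) (S : Finset ι) (l : ι → Additive A →+ ZMod p) (x : W) :
    av hA ρ (∑ i ∈ S, l i) x = ∑ i ∈ S, av hA ρ (l i) x := by
  refine AddMonoidHom.ext fun a => ?_
  simp only [av_apply, AddMonoidHom.finsetSum_apply, map_sum, Finset.sum_smul]
  exact Finset.sum_comm

/-- admissible data: `s ∈ Σ`, `x` fixed by `s`, `l` invariant under `s` and killing `B` -/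
def Adm (hA : St α A) (ρ : Representation k G W) (B : Subgroup M) (Sg : Set G)
    (s : G) (l : Additive A →+ ZMod p) (x : W) : Prop :=
  s ∈ Sg ∧ ρ s x = x ∧ (∀ a, l (act hA s a) = l a) ∧ ∀ a : A, (a : M) ∈ B → l (.ofMul a) = 0

theorem exists_coord' (W : Type*) [AddCommGroup W] [Finite W] [Module (ZMod p) W] :
    ∃ (m : ℕ) (c : Fin m → W →+ ZMod p) (b : Fin m → W), ∀ w, w = ∑ j, (c j w).val • b j := by
  have : Module.Finite (ZMod p) W := Module.Finite.of_finite
  let b := Module.finBasis (ZMod p) W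
  refine ⟨_, fun j => (b.coord j).toAddMonoidHom, b, fun w => (b.sum_repr w).symm.trans ?_⟩
  refine Finset.sum_congr rfl fun j _ => ?_
  rw [← Nat.cast_smul_eq_nsmul (ZMod p), ZMod.natCast_zmod_val]
  rfl

theorem exists_coord {W : Type*} [AddCommGroup W] [Finite W] (h : ∀ w : W, p • w = 0) :
    ∃ (m : ℕ) (c : Fin m → W →+ ZMod p) (b : Fin m → W), ∀ w, w = ∑ j, (c j w).val • b j :=
  @exists_coord' p _ W _ _ (AddCommGroup.zmodModule h)

theorem span_av [Finite W] (hG : ¬ p ∣ Nat.card G) (hA : St α A) (hB : St α B) {Sg : Set G}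
    (hW : Submodule.span k {x | ∃ s ∈ Sg, ρ s x = x} = ⊤) :
    Submodule.span k {φ | ∃ (s : G) (l : Additive A →+ ZMod p) (x : W), Adm hA ρ B Sg s l x ∧
      φ = av hA ρ l x} = HG α ρ A B := by
  refine le_antisymm (Submodule.span_le.2 ?_) fun φ hφ => ?_
  · rintro _ ⟨s, l, x, h, rfl⟩
    exact av_mem hA hB h.2.2.2 x
  have c0 : (Fintype.card G : k) ≠ 0 := by rwa [Ne, CharP.cast_eq_zero_iff k p, ← Nat.card_eq_fintype_card]
  set U := Submodule.span k {φ | ∃ (s : G) (l : Additive A →+ ZMod p) (x : W),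
    Adm hA ρ B Sg s l x ∧ φ = av hA ρ l x}
  have h1 : ∀ l : Additive A →+ ZMod p, (∀ a : A, (a : M) ∈ B → l (.ofMul a) = 0) →
      ∀ x, av hA ρ l x ∈ U := fun l hl x => by
    have : (⊤ : Submodule k W) ≤ U.comap (av hA ρ l) := by
      rw [← hW, Submodule.span_le]
      rintro x ⟨s, hs, hx⟩
      have hx' : ∀ i : ℕ, ρ (s ^ i) x = x := fun i => by
        induction i with
        | zero => simp
        | succ i ih => rw [pow_succ, map_mul, Module.End.mul_apply, hx, ih]
      have e : av hA ρ (∑ i ∈ Finset.range (Fintype.card G), l.comp (act hA (s ^ i))) x =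
          (Fintype.card G : k) • av hA ρ l x := by
        rw [av_sum, Finset.sum_congr rfl fun i _ => av_comp hA l (hx' i)]
        simp [Nat.cast_smul_eq_nsmul]
      refine (U.smul_mem_iff c0).1 (e ▸ Submodule.subset_span ⟨s, _, x, ⟨hs, hx, fun a => ?_,
        fun a ha => ?_⟩, rfl⟩)
      · have := Finset.sum_range_succ' (fun i => l (act hA (s ^ i) a)) (Fintype.card G)
        rw [Finset.sum_range_succ, pow_card_eq_one, pow_zero, add_left_inj] at this
        simp only [AddMonoidHom.finsetSum_apply, AddMonoidHom.comp_apply, ← act_mul, ← pow_succ, this]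
      · rw [AddMonoidHom.finsetSum_apply]
        exact Finset.sum_eq_zero fun i _ => hl (act hA (s ^ i) (.ofMul a)).toMul (hB _ _ ha)
    exact this trivial
  obtain ⟨m, c, b, hb⟩ := exists_coord (p := p) (W := W) fun w => by
    rw [← Nat.cast_smul_eq_nsmul k, CharP.cast_eq_zero, zero_smul]
  have e : (Fintype.card G : k) • φ =
      ∑ j, av hA ρ ((c j).comp φ) (b j) := by
    refine AddMonoidHom.ext fun a => ?_
    simp only [AddMonoidHom.finsetSum_apply, av_apply', AddMonoidHom.smul_apply]
    rw [Finset.sum_comm, Nat.cast_smul_eq_nsmul, ← Finset.card_univ, ← Finset.sum_const]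
    refine Finset.sum_congr rfl fun g _ => ?_
    have e1 := hφ.1 g (act hA g⁻¹ a).toMul a.toMul (by
      rw [← act_coe hA, ← act_mul, mul_inv_cancel, act_one])
    rw [ofMul_toMul, ofMul_toMul] at e1
    rw [e1, hb (φ (act hA g⁻¹ a)), map_sum]
    simp only [map_nsmul, AddMonoidHom.comp_apply]
  refine (U.smul_mem_iff c0).1 (e ▸ sum_mem fun j _ => h1 _ (fun a ha => ?_) _)
  simp [hφ.2 a ha]

/-- a basis of `Hom_G(A/B, W)` made of admissible averages -/
theorem exists_av_basis [Finite W] (hG : ¬ p ∣ Nat.card G) (hA : St α A) (hB : St α B) {Sg : Set G}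
    (hW : Submodule.span k {x | ∃ s ∈ Sg, ρ s x = x} = ⊤) [Module.Finite k (HG α ρ A B)] :
    ∃ (s : Fin (Module.finrank k (HG α ρ A B)) → G) (l : _ → Additive A →+ ZMod p) (x : _ → W),
      (∀ i, Adm hA ρ B Sg (s i) (l i) (x i)) ∧ (LinearIndependent k fun i => av hA ρ (l i) (x i)) ∧
      Submodule.span k (Set.range fun i => av hA ρ (l i) (x i)) = HG α ρ A B := by
  have e := span_av (p := p) hG hA hB hW
  have : Module.Finite k (Submodule.span k {φ | ∃ (s : G) (l : Additive A →+ ZMod p) (x : W),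
    Adm hA ρ B Sg s l x ∧ φ = av hA ρ l x}) := e ▸ inferInstance
  have := Submodule.exists_fun_fin_finrank_span_eq k {φ | ∃ (s : G) (l : Additive A →+ ZMod p)
    (x : W), Adm hA ρ B Sg s l x ∧ φ = av hA ρ l x}
  rw [e] at this
  obtain ⟨f, h1, h2, h3⟩ := this
  choose s l x h4 h5 using h1
  exact ⟨s, l, x, h4, funext h5 ▸ h3, funext h5 ▸ h2⟩

end Crest.Agent.T15.Tw
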