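import Crest.Agent.T15.TwiE_21
import Crest.Agent.T15.Tau_73

/-!
# Row 15, block T (helper73): the local identity at an auxiliary prime for a Galois element
-/

set_option autoImplicit false

noncomputable section

namespace Crest.Agent.T15.Tw73

open Function Finset NumberField Crest.Agent.R018.Placesx484
open Crest.Agent.T15.Mf Crest.Agent.T15.Lv Crest.Agent.T15.Bet Crest.Agent.T15.Hk
open Crest.Agent.T15.Cg Crest.Agent.R007
open Crest.Agent.T15.C (Gam Om In)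

theorem exists_plc {l : ℕ} (hl : l.Prime) : ∃ P : Place Om, P.rchar = l := by
  have hp : Prime ((l : ℕ) : 𝓞 ℚ) := by
    have := (MulEquiv.prime_iff Rat.ringOfIntegersEquiv.symm).2 (Nat.prime_iff_prime_int.1 hl)
    rwa [map_natCast] at this
  obtain ⟨P, hP⟩ := Place.exists_res_eq (E := Om) ℚ ⟨Ideal.span {((l : ℕ) : 𝓞 ℚ)},
    (Ideal.span_singleton_prime hp.ne_zero).2 hp, by simpa using hp.ne_zero⟩
  refine ⟨P, ?_⟩
  rw [← Place.rchar_res ℚ P, hP]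
  exact Place.rchar_eq_of_mem _ hl (Ideal.mem_span_singleton_self _)

theorem lft_zeta (ι : Om →+* ℂ) (P : Place Om) (g : MulAction.stabilizer Gam P) {M c : ℕ}
    (hM : M ≠ 0) (h : ∀ ζ : Om, ζ ^ M = 1 → g.1 ζ = ζ ^ c) :
    lft ι P g (Wp.zeta M) = Wp.zeta M ^ (c : ℤ) := by
  have : NeZero M := ⟨hM⟩
  obtain ⟨z, hz⟩ := exists_root M hM
  obtain ⟨k, -, e⟩ := (hz.map_of_injective ι.injective).eq_pow_of_pow_eq_one (Wp.zeta_pow M hM)
  rw [← e, ← map_pow, lft_iota, h _ (by rw [← pow_mul, mul_comm, pow_mul, hz.pow_eq_one, one_pow]),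
    map_pow, zpow_natCast]

variable {C : Type*} [CommRing C] [Finite C] {n r L : ℕ} {q : Fin r → ℕ} {Pr : ℕ → Prop}
  {a α : ℕ → C}

/-- **inertia at `q i`** on the localisation, for a Galois element with prescribed character -/
theorem tw_gal (ι : Om →+* ℂ) (h : Aux L q (3 ^ (n + 1))) (s : Sy L q Pr a α) (i : Fin r)
    (hm : ∀ c : C, 3 ^ (n + 1) • c = 0)
    {ρ₁ : Gam →* Module.End C (HH (Gq (LQ L q) (H1 L q (3 ^ (n + 1)))) C)}
    (a₁ : ∀ σ, ActK (3 ^ (n + 1)) (AddMonoidHom.id _) σ (ρ₁ (resA ι σ)))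
    {ρ₀ : Gam →* Module.End C (HH (Gq (LQ' L q i) (H0 (LQ' L q i))) C)}
    (a₀ : ∀ σ, ActK (3 ^ (n + 1)) (AddMonoidHom.id _) σ (ρ₀ (resA ι σ)))
    (hI : ∀ P : Place Om, ¬ P.rchar ∣ 3 ^ (n + 1) * LQ' L q i →
      Inj (vC ι P) (3 ^ (n + 1)) (Gq (LQ' L q i) (H0 _)) {φ | ParS (GH (LQ' L q i) (H0 _)) φ})
    (hE : ∀ x ∈ EL C Pr (aS ((univ.image q).erase (q i)) a α) (LQ' L q i) (H0 (LQ' L q i)),
      ParS (GH (LQ' L q i) (H0 _)) x) :
    ∃ P : Place Om, P.rchar = q i ∧ ∃ τ ∈ In P, ∃ u : (ZMod (LQ L q))ˣ,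
      chi L q (3 ^ (n + 1)) u = del _ i ∧
      (∀ ζ : Om, ζ ^ LQ L q = 1 → τ ζ = ζ ^ (u : ZMod (LQ L q)).val) ∧
      ∀ x ∈ EQ C L q (3 ^ (n + 1)) Pr a α,
        ρ₁ τ (ρ₁ τ x - h.dia C C (del _ i) x) = ρ₁ τ x - h.dia C C (del _ i) x := by
  have hq := h.prime i
  have hst := h.stp i
  have := h.neZero
  obtain ⟨P, hP⟩ := exists_plc hq
  obtain ⟨v, hv⟩ := chi1_surj hq (h.dvd i) (Multiplicative.ofAdd 1)
  obtain ⟨u, u1, u2⟩ := h.exists_unit i v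
  have hu : chi L q (3 ^ (n + 1)) u = del _ i := by rw [(h.chi_single i u2).2, u1, hv, del]
  obtain ⟨τ, hτ, hz⟩ := exists_tau P hP hst.ndvd hst.eq hst.dvd u u2
  obtain ⟨φ, -, hφ⟩ := Place.exists_frob (F := ℚ) P
  rw [R018.FDEx389.qv_rat, hP] at hφ
  have t1 : τ ∈ MulAction.stabilizer Gam P :=
    frob_mem P one_ne_zero fun x => by rw [pow_one]; exact hτ x
  have f1 : φ ∈ MulAction.stabilizer Gam P := frob_mem P hq.ne_zero hφ
  have h3 : 3 ≠ q i := fun e => by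
    have := (dvd_pow_self 3 n.succ_ne_zero).trans (h.dvd i)
    rw [← e] at this
    omega
  have h1 : (q i : C) - 1 = 0 := by
    obtain ⟨c, hc⟩ := h.dvd i
    rw [← Nat.cast_pred hq.pos, hc, Nat.cast_mul, ← nsmul_eq_mul, hm]
  have key := Twi.tw_EQ (v := vC ι P) h s i Nat.prime_three (isPGroup_Dl 3 (n + 1) r) h3 hm dvd_rfl
    (Twi.unit_of_Un (s.un i) (h1 ▸ IsNilpotent.zero)) (hP ▸ vC_rchar_lt_one ι P)
    (vC_lft ι P ⟨φ, f1⟩) (fun c hc => vC_lft_sub_pow ι P ⟨φ, f1⟩ _ hφ hc)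
    (fun c hc => vC_lft_sub ι P ⟨τ, t1⟩ hτ hc) (lft_zeta ι P ⟨τ, t1⟩ (NeZero.ne _) hz) (c := u)
    (by rw [Int.cast_natCast, ZMod.natCast_zmod_val]) (a₁ _) (a₀ _)
    (hI P fun hd => by
      rw [hP] at hd
      rcases hq.dvd_mul.1 hd with hd | hd
      · exact h3 ((Nat.prime_dvd_prime_iff_eq hq Nat.prime_three).1 (hq.dvd_of_dvd_pow hd)).symm
      · exact hst.ndvd hd)
    fun l x hx => (hE x hx).comp l
  rw [resA_lft, hu] at key
  exact ⟨P, hP, τ, hτ, u, hu, hz, key⟩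

/-- two actions on Kummer classes agree -/
theorem act_eq {N : ℕ} [NeZero N] {A V : Type*} [AddCommGroup A] [Finite A] [AddCommGroup V]
    {Γ : Subgroup GQ} {j : V →+ HH Γ A} (hm : ∀ c : A, N • c = 0)
    (hex : ∀ φ : HH Γ (ZMod N), ∃ f, IsK N Γ f φ) {σ : ℂ ≃+* ℂ} {u : V → V} {t : HH Γ A → HH Γ A}
    (hu : ActK N j σ u) (ht : ActK N (AddMonoidHom.id _) σ t) (x : V) : j (u x) = t (j x) :=
  Bc.HH_sep hm fun l => by
    obtain ⟨f, hf⟩ := hex (l.comp (j x))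
    exact (hu l x f hf).unique (ht l (j x) f hf)

end Crest.Agent.T15.Tw73

end
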