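import Mathlib
import Crest.Agent.T15.TwiB_21
import Crest.Agent.T15.CgD_84

/-!
# T15 / TwiC (helper21): the Gauss norm on modular functions, invariance properties

`W` is any valuation of `FF` with `IsG v qx W`.
-/

set_option autoImplicit false
set_option linter.all false

noncomputable section

namespace Crest.Agent.T15.Twi

open scoped NNReal MatrixGroups
open UpperHalfPlane ModularForm CongruenceSubgroup
open Crest.Agent.T15.Mf Crest.Agent.T15.Hs Crest.Agent.T15.Cg Crest.Agent.R007 Crest.Agent.R007.Rat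

variable {v : Valuation ℂ ℝ≥0} {W : Valuation FF ℝ≥0}

theorem v_le_of {c c' : ℂ} {a a' : HS ℂ} (ha : UnS v a) (ha' : IntS v a')
    (e : HahnSeries.C c * a = HahnSeries.C c' * a') : v c ≤ v c' := by
  obtain ⟨g, hg⟩ := ha.2
  have h := congrArg (fun z : HS ℂ => v (z.coeff g)) e
  simp only [HahnSeries.C_mul_eq_smul, HahnSeries.coeff_smul, smul_eq_mul, map_mul, hg,
    mul_one] at h
  rw [h]
  exact mul_le_of_le_one_right zero_le (ha' g)

theorem isG_val (h : IsG v qx W) {f : FF} {c : ℂ} {a b : HS ℂ} (ha : UnS v a) (hb : UnS v b)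
    (e : qx f * b = HahnSeries.C c * a) : W f = v c := by
  by_cases hf : f = 0
  · subst hf
    rw [map_zero, zero_mul, eq_comm, mul_eq_zero, or_iff_left ha.ne_zero] at e
    have : c = 0 := by simpa using e
    rw [this, map_zero, map_zero]
  obtain ⟨c', a', b', ha', hb', e', hw⟩ := h f hf
  have h1 : HahnSeries.C c * (a * b') = HahnSeries.C c' * (a' * b) := by
    linear_combination b * e' - b' * e
  rw [hw]
  exact le_antisymm (v_le_of (ha'.mul hb) (ha.mul hb').1 h1.symm)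
    (v_le_of (ha.mul hb') (ha'.mul hb).1 h1)

theorem W_const (h : IsG v qx W) (c : ℂ) : W (algebraMap ℂ FF c) = v c :=
  isG_val h UnS.one UnS.one (by rw [qx_algebraMap])

theorem W_gal (h : IsG v qx W) {σ : ℂ →+* ℂ} (hσ : ∀ c, v (σ c) = v c) (f : FF) :
    W (gal σ f) = W f := by
  by_cases hf : f = 0
  · rw [hf, map_zero]
  obtain ⟨c, a, b, ha, hb, e, hw⟩ := h f hf
  rw [hw, ← hσ c]
  refine isG_val h (a := hm σ a) (b := hm σ b) (ha.of_eq fun g => by rw [coeff_hm, hσ])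
    (hb.of_eq fun g => by rw [coeff_hm, hσ]) ?_
  rw [qx_gal, ← map_mul, e, map_mul, hm_C]

theorem v_ex (r b : ℚ) : v (ex r b) = 1 := by
  have h : ex r b ^ (r * b).den = 1 := by
    rw [ex, ← Complex.exp_nat_mul, ← Complex.exp_int_mul_two_pi_mul_I (r * b).num]
    congr 1
    have h1 : (((r * b).den : ℚ) : ℂ) * ((r * b : ℚ) : ℂ) = (((r * b).num : ℚ) : ℂ) := by
      rw [← Rat.cast_mul, Rat.den_mul_eq_num]
    push_cast at h1
    linear_combination (2 * Real.pi * Complex.I) * h1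
  have := congrArg v h
  rwa [map_pow, map_one, pow_eq_one_iff_left (r * b).den_ne_zero] at this

theorem unS_upper {a : HS ℂ} (ha : UnS v a) {s : ℚ} (hs : 0 < s) (b : ℚ) :
    UnS v (sc s (tw (ee b) a)) := by
  have h : ∀ g, v ((sc s (tw (ee b) a)).coeff g) = v (a.coeff (g / s)) := fun g => by
    rw [coeff_sc hs, coeff_tw, ee_apply, map_mul, v_ex, one_mul]
  obtain ⟨g, hg⟩ := ha.2
  exact ⟨fun g => (h g).trans_le (ha.1 _), s * g, by rw [h, mul_div_cancel_left₀ _ hs.ne', hg]⟩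

theorem W_upper (h : IsG v qx W) {g : GQ} (hg : (g : GL (Fin 2) ℚ) 1 0 = 0) (f : FF) :
    W (g⁻¹ • f) = W f := by
  by_cases hf : f = 0
  · rw [hf, smul_zero]
  obtain ⟨c, a, b, ha, hb, e, hw⟩ := h f hf
  rw [hw]
  refine isG_val h (unS_upper ha (upper_pos hg) ((g : GL (Fin 2) ℚ) 0 1 / (g : GL (Fin 2) ℚ) 1 1))
    (unS_upper hb (upper_pos hg) ((g : GL (Fin 2) ℚ) 0 1 / (g : GL (Fin 2) ℚ) 1 1)) ?_
  rw [qx_upper hg, ← map_mul, ← map_mul, e, map_mul, map_mul, tw_C, sc_C (upper_pos hg)]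

theorem tw_zero (y : HS ℂ) : tw (ee 0) y = y := by
  ext g
  rw [coeff_tw, ee_zero, MonoidHom.one_apply, one_mul]

theorem gal_diag (σ : ℂ →+* ℂ) {g : GQ} (h10 : (g : GL (Fin 2) ℚ) 1 0 = 0)
    (h01 : (g : GL (Fin 2) ℚ) 0 1 = 0) (f : FF) : gal σ (g⁻¹ • f) = g⁻¹ • gal σ f :=
  qx_injective (by
    rw [qx_gal, qx_upper h10, qx_upper h10, h01, zero_div, tw_zero, tw_zero,
      hm_sc _ (upper_pos h10), qx_gal])

theorem scal_smul {g : GQ} (h10 : (g : GL (Fin 2) ℚ) 1 0 = 0) (h01 : (g : GL (Fin 2) ℚ) 0 1 = 0)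
    (h : (g : GL (Fin 2) ℚ) 0 0 = (g : GL (Fin 2) ℚ) 1 1) (f : FF) : g⁻¹ • f = f :=
  qx_injective (by rw [qx_upper h10, h01, zero_div, tw_zero, h, div_self (upper_ne h10), sc_one])

theorem v_nat_le (n : ℕ) : v (n : ℂ) ≤ 1 := by
  induction n with
  | zero => simp
  | succ n ih =>
    rw [Nat.cast_succ]
    exact (Valuation.map_add _ _ _).trans (max_le ih (by simp))

theorem v_int_le (n : ℤ) : v (n : ℂ) ≤ 1 := by
  obtain ⟨m, rfl | rfl⟩ := n.eq_nat_or_neg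
  · exact_mod_cast v_nat_le m
  · rw [Int.cast_neg, Valuation.map_neg]; exact_mod_cast v_nat_le m

theorem v_nat_eq {q m : ℕ} (hv : v (q : ℂ) < 1) (h : Nat.Coprime m q) : v (m : ℂ) = 1 := by
  refine le_antisymm (v_nat_le m) (not_lt.mp fun hm => ?_)
  obtain ⟨a, b, e⟩ := Nat.isCoprime_iff_coprime.mpr h
  have e' : (a : ℂ) * m + (b : ℂ) * q = 1 := by exact_mod_cast congrArg (Int.cast : ℤ → ℂ) e
  have : v ((a : ℂ) * m + (b : ℂ) * q) < 1 := Valuation.map_add_lt _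
    (by rw [map_mul]; exact mul_lt_one_of_nonneg_of_lt_one_right (v_int_le a) zero_le hm)
    (by rw [map_mul]; exact mul_lt_one_of_nonneg_of_lt_one_right (v_int_le b) zero_le hv)
  rw [e', map_one] at this
  exact lt_irrefl _ this

theorem unS_e4 : UnS v (qf e4) := by
  have h : ∀ n : ℕ, (qf e4).coeff ((n : ℚ) / (1 : ℕ)) =
      (if n = 0 then 1 else 0) + ((240 * ArithmeticFunction.sigma 3 n : ℕ) : ℂ) := fun n => by
    rw [coeff_qf one_ne_zero isF_e4, qe_e4, map_add, PowerSeries.coeff_smul, psA,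
      PowerSeries.coeff_mk, PowerSeries.coeff_one, smul_eq_mul]
    push_cast
    rfl
  refine ⟨fun g => ?_, ((0 : ℕ) : ℚ) / (1 : ℕ), by rw [h]; simp⟩
  by_cases h0 : (qf e4).coeff g = 0
  · rw [h0, map_zero]; exact zero_le
  obtain ⟨n, rfl⟩ := lev_qf one_ne_zero isF_e4 g h0
  rw [h]
  refine (Valuation.map_add _ _ _).trans (max_le ?_ (v_nat_le _))
  split_ifs <;> simp

theorem W_quo_e4 (h : IsG v qx W) {g g' : GQ} (hg : (g : GL (Fin 2) ℚ) 1 0 = 0)
    (hg' : (g' : GL (Fin 2) ℚ) 1 0 = 0) :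
    W (quo (e4 ∣[(4 : ℤ)] rr g) (e4 ∣[(4 : ℤ)] rr g')) =
      v (jf 4 g UpperHalfPlane.I / jf 4 g' UpperHalfPlane.I) := by
  obtain ⟨M, hM, h1⟩ := exists_level 1 one_ne_zero g
  obtain ⟨M', hM', h2⟩ := exists_level 1 one_ne_zero g'
  have u2 := unS_upper (v := v) unS_e4 (upper_pos hg')
    ((g' : GL (Fin 2) ℚ) 0 1 / (g' : GL (Fin 2) ℚ) 1 1)
  refine isG_val h (unS_upper unS_e4 (upper_pos hg)
    ((g : GL (Fin 2) ℚ) 0 1 / (g : GL (Fin 2) ℚ) 1 1)) u2 ?_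
  have hC : (HahnSeries.C (jf 4 g' UpperHalfPlane.I) : HS ℂ) ≠ 0 := by simpa using jf_ne 4 g' _
  have h0 := u2.ne_zero
  rw [qx_quo (mul_ne_zero hM hM') (level_mul_left (h1 4 _ isF_e4))
    (level_mul_right (h2 4 _ isF_e4)), qf_slash_upper hg one_ne_zero isF_e4,
    qf_slash_upper hg' one_ne_zero isF_e4, map_div₀]
  field_simp

theorem jf_val {g : GQ} (h10 : (g : GL (Fin 2) ℚ) 1 0 = 0) :
    jf 4 g UpperHalfPlane.I =
      (((g : GL (Fin 2) ℚ) 0 0 : ℚ) : ℂ) ^ 3 / (((g : GL (Fin 2) ℚ) 1 1 : ℚ) : ℂ) := by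
  have h0 : (((g : GL (Fin 2) ℚ) 1 1 : ℚ) : ℂ) ≠ 0 := by exact_mod_cast upper_ne h10
  unfold jf
  rw [abs_of_pos (rr_pos g), rr_det, Matrix.GeneralLinearGroup.val_det_apply, Matrix.det_fin_two,
    denom, rr_apply, rr_apply, h10]
  push_cast
  norm_num
  field_simp

/-- the constants -/
def CC : Subfield FF := (algebraMap ℂ FF).fieldRange

theorem cst (h : IsG v qx W) {q : ℕ} (hq : q ≠ 0) (hv : v (q : ℂ) < 1) : Cst GQ W CC where
  fix := by rintro _ ⟨c, rfl⟩ g; exact smul_algebraMap_FF g c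
  val f hf := by
    obtain ⟨c, -, -, -, -, -, hw⟩ := h f hf
    exact ⟨_, ⟨c, rfl⟩, by rw [W_const h, hw]⟩
  nt := ⟨_, ⟨q, rfl⟩, by rw [W_const h]; exact pos_iff_ne_zero.mpr (by simpa using hq),
    by rwa [W_const h]⟩

theorem np_of_pr (h : IsG v qx W) {n : ℕ} (hn : 0 < n) (Γ : Subgroup GQ) {f : FF}
    (hf : Pr v (qx f)) : NP W Γ n f := by
  obtain ⟨c, hc, hw⟩ := h.of_pr qx_algebraMap hf
  obtain ⟨e, he⟩ := IsAlgClosed.exists_pow_nat_eq c hn
  refine ⟨algebraMap ℂ FF e, fun γ _ => smul_algebraMap_FF γ e, ?_⟩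
  rw [← map_pow, he, div_eq_mul_inv, ← map_inv₀]
  exact hw

end Crest.Agent.T15.Twi
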