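import Mathlib
import Crest.Agent.T15.TwiC_21
import Crest.Agent.T15.Lv_10

/-!
# T15 / TwiD (helper21): the data `Geo` for modular functions

`Lv3 L q Γ₁ Γ₀ Γ` : `Γ` has level `L`, `Γ₀ = Γ ∩ Γ₀(q)`, `Γ₁(L q) ≤ Γ₁ ≤ Γ₀` stable under `W_q`.
`geo` : the hypotheses of `twi` on the function side hold for `FF` with its Gauss norm.
-/

set_option autoImplicit false
set_option linter.all false
set_option maxHeartbeats 400000

noncomputable section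

namespace Crest.Agent.T15.Twi

open scoped NNReal MatrixGroups
open UpperHalfPlane ModularForm CongruenceSubgroup
open Crest.Agent.T15.Mf Crest.Agent.T15.Hs Crest.Agent.T15.Cg Crest.Agent.R007 Crest.Agent.R007.Rat
open Crest.Agent.T15.Lv

/-- three levels -/
structure Lv3 (L q : ℕ) (Γ₁ Γ₀ Γ : Subgroup SL(2, ℤ)) : Prop where
  dvd : ∀ γ ∈ Γ, ((γ 1 0 : ℤ) : ZMod L) = 0
  one : ∀ γ : SL(2, ℤ), ((γ 1 0 : ℤ) : ZMod L) = 0 → ((γ 1 1 : ℤ) : ZMod L) = 1 → γ ∈ Γ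
  zero : ∀ γ, γ ∈ Γ₀ ↔ γ ∈ Γ ∧ ((γ 1 0 : ℤ) : ZMod q) = 0
  le : Γ₁ ≤ Γ₀
  one₁ : ∀ γ ∈ Γ₀, ((γ 1 1 : ℤ) : ZMod L) = 1 → ((γ 1 1 : ℤ) : ZMod q) = 1 → γ ∈ Γ₁
  flip : ∀ γ ∈ Γ₁, ∀ δ ∈ Γ₀, ((δ 1 1 : ℤ) : ZMod L) = (γ 1 1 : ℤ) →
    ((δ 1 1 : ℤ) : ZMod q) = (γ 0 0 : ℤ) → δ ∈ Γ₁

theorem lv3_GH {L q M : ℕ} (hc : Nat.Coprime L q) (hM : M = L * q) {H : Subgroup (ZMod L)ˣ}
    {H₀ H₁ : Subgroup (ZMod M)ˣ}
    (h0 : ∀ u, u ∈ H₀ ↔ ZMod.unitsMap (hM ▸ dvd_mul_right L q : L ∣ M) u ∈ H) (hle : H₁ ≤ H₀)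
    (h1 : ∀ u ∈ H₁, ∀ u', ZMod.unitsMap (hM ▸ dvd_mul_right L q : L ∣ M) u' =
      ZMod.unitsMap (hM ▸ dvd_mul_right L q : L ∣ M) u →
      ZMod.unitsMap (hM ▸ dvd_mul_left q L : q ∣ M) (u' * u) = 1 → u' ∈ H₁) :
    Lv3 L q (GH M H₁) (GH M H₀) (GH L H) := by
  subst hM
  refine ⟨fun γ h => h.1, fun γ a b => GH_mono bot_le (mem_GH_bot.2 ⟨a, b⟩), fun γ => ⟨fun h =>
    ⟨GH_le _ (fun u hu => (h0 u).1 hu) h, ?_⟩, fun h => ?_⟩, GH_mono hle, ?_, ?_⟩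
  · simpa using congrArg (ZMod.castHom (dvd_mul_left q L) (ZMod q)) h.1
  · obtain ⟨⟨a, u, hu, hu'⟩, b⟩ := h
    have c : ((γ 1 0 : ℤ) : ZMod (L * q)) = 0 := by
      rw [ZMod.intCast_zmod_eq_zero_iff_dvd] at a b ⊢
      push_cast
      exact (Nat.isCoprime_iff_coprime.mpr hc).mul_dvd a b
    obtain ⟨-, w, -, hw⟩ := mem_GH_top.2 c
    refine ⟨c, w, (h0 w).2 ?_, hw⟩
    rwa [show ZMod.unitsMap (dvd_mul_right L q) w = u from Units.ext (by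
      rw [ZMod.unitsMap_val, hw, ZMod.cast_intCast (dvd_mul_right L q), hu'])]
  · rintro γ ⟨a, u, hu, hu'⟩ b c
    refine ⟨a, u, h1 1 (one_mem _) u (Units.ext ?_) (Units.ext ?_), hu'⟩
    · rw [map_one, ZMod.unitsMap_val, hu', ZMod.cast_intCast (dvd_mul_right L q), b, Units.val_one]
    · rw [mul_one, ZMod.unitsMap_val, hu', ZMod.cast_intCast (dvd_mul_left q L), c, Units.val_one]
  · rintro γ ⟨a, u, hu, hu'⟩ δ ⟨a', u', -, hu''⟩ b c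
    refine ⟨a', u', h1 u hu u' (Units.ext ?_) (Units.ext ?_), hu''⟩
    · rw [ZMod.unitsMap_val, ZMod.unitsMap_val, hu', hu'', ZMod.cast_intCast (dvd_mul_right L q),
        ZMod.cast_intCast (dvd_mul_right L q), b]
    · rw [map_mul, Units.val_mul, ZMod.unitsMap_val, ZMod.unitsMap_val, hu', hu'',
        ZMod.cast_intCast (dvd_mul_left q L), ZMod.cast_intCast (dvd_mul_left q L), c,
        Units.val_one]
      exact a_mul_d (by simpa using congrArg (ZMod.castHom (dvd_mul_left q L) (ZMod q)) a)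

theorem mem_Fx_map {Γ : Subgroup SL(2, ℤ)} {f : FF} :
    f ∈ Fx FF (Γ.map sq) ↔ ∀ γ ∈ Γ, γ • f = f :=
  ⟨fun h γ hγ => h _ ⟨γ, hγ, rfl⟩, fun h => by rintro _ ⟨γ, hγ, rfl⟩; exact h γ hγ⟩

theorem smul_congr {Γ : Subgroup SL(2, ℤ)} {f : FF} (hf : f ∈ Fx FF (Γ.map sq)) {γ δ : SL(2, ℤ)}
    (h : γ * δ ∈ Γ) : γ⁻¹ • f = δ • f := by
  rw [inv_smul_eq_iff, ← mul_smul, mem_Fx_map.1 hf _ h]

theorem cast_of {M N : ℕ} (h : N ∣ M) {a b : ℤ} (e : (a : ZMod M) = b) : (a : ZMod N) = b := by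
  simpa using congrArg (ZMod.castHom h (ZMod N)) e

theorem tw_dvd {M N : ℕ} (h : N ∣ M) {s : ℤ} {γ δ : SL(2, ℤ)} (e : Tw s M γ δ) : Tw s N γ δ := by
  obtain ⟨a, b, c, d⟩ := e
  refine ⟨cast_of h a, ?_, ?_, cast_of h d⟩
  · exact_mod_cast cast_of h (a := δ 0 1) (b := s * γ 0 1) (by exact_mod_cast b)
  · exact_mod_cast cast_of h (a := s * δ 1 0) (b := γ 1 0) (by exact_mod_cast c)

theorem dg_val {q : ℕ} (hq : 0 < q) : (dg q : GL (Fin 2) ℚ) 0 0 = q ∧ (dg q : GL (Fin 2) ℚ) 0 1 = 0 ∧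
    (dg q : GL (Fin 2) ℚ) 1 0 = 0 ∧ (dg q : GL (Fin 2) ℚ) 1 1 = 1 := by
  have h := gm_val (a := q) (b := 0) (c := 0) (d := 1) (by simpa using hq)
  refine ⟨?_, ?_, ?_, ?_⟩ <;> · rw [dg, h]; simp

theorem dg_conj {q : ℕ} (hq : 0 < q) {γ : SL(2, ℤ)} (h : ((γ 1 0 : ℤ) : ZMod q) = 0) :
    ∃ δ : SL(2, ℤ), dg q * Mf.sq γ = Mf.sq δ * dg q ∧ δ 0 0 = γ 0 0 ∧ δ 0 1 = q * γ 0 1 ∧
      q * δ 1 0 = γ 1 0 ∧ δ 1 1 = γ 1 1 := by
  obtain ⟨c, hc⟩ := (ZMod.intCast_zmod_eq_zero_iff_dvd _ _).1 h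
  have hd := det_eq γ
  have h1 : γ 0 0 * γ 1 1 - q * γ 0 1 * c = 1 := by rw [hc] at hd; linear_combination hd
  refine ⟨⟨!![γ 0 0, q * γ 0 1; c, γ 1 1], by rw [Matrix.det_fin_two_of]; exact h1⟩, ?_, rfl, rfl,
    hc.symm, rfl⟩
  have h2 : (0 : ℤ) < q * 1 - 0 * 0 := by simpa using hq
  rw [sq_eq_gm, sq_eq_gm, dg, gm_mul h2 (by rw [hd]; exact one_pos)]
  change _ = gm (γ 0 0) (q * γ 0 1) c (γ 1 1) * _
  rw [gm_mul (by rw [h1]; exact one_pos) h2, hc]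
  congr 1 <;> ring

namespace Lv3

variable {L q : ℕ} {Γ₁ Γ₀ Γ : Subgroup SL(2, ℤ)} (h : Lv3 L q Γ₁ Γ₀ Γ)
include h

theorem le₀ : Γ₀ ≤ Γ := fun γ hγ => ((h.zero γ).1 hγ).1

theorem sat {γ δ : SL(2, ℤ)} (hγ : γ ∈ Γ) (hc : ((δ 1 0 : ℤ) : ZMod L) = 0)
    (hd : ((δ 1 1 : ℤ) : ZMod L) = (γ 1 1 : ℤ)) : δ ∈ Γ := by
  have h1 := h.dvd γ hγ
  have h2 := a_mul_d h1
  obtain ⟨i1, i2, i3, i4⟩ := inv_apply γ
  have : δ * γ⁻¹ ∈ Γ := h.one _ (by rw [mul_apply, i1, i3]; push_cast; rw [hc, h1]; ring)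
    (by rw [mul_apply, i2, i4]; push_cast; rw [hc, hd]; linear_combination h2)
  simpa using mul_mem this hγ

theorem sat₁ {γ δ : SL(2, ℤ)} (hγ : γ ∈ Γ₁) (hδ : δ ∈ Γ₀)
    (hd' : ((δ 1 1 : ℤ) : ZMod L) = (γ 1 1 : ℤ))
    (hd : ((δ 1 1 : ℤ) : ZMod q) = (γ 1 1 : ℤ)) : δ ∈ Γ₁ := by
  obtain ⟨g1, h1⟩ := (h.zero γ).1 (h.le hγ)
  obtain ⟨g2, hc⟩ := (h.zero δ).1 hδ
  have h2 := a_mul_d h1
  have h3 := a_mul_d (h.dvd γ g1)
  obtain ⟨i1, i2, i3, i4⟩ := inv_apply γ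
  have : δ * γ⁻¹ ∈ Γ₁ := h.one₁ _ (mul_mem hδ (inv_mem (h.le hγ)))
    (by rw [mul_apply, i2, i4]; push_cast; rw [h.dvd δ g2, hd']; linear_combination h3)
    (by rw [mul_apply, i2, i4]; push_cast; rw [hc, hd]; linear_combination h2)
  simpa using mul_mem this hγ

theorem norm {γ δ : SL(2, ℤ)} (hγ : γ ∈ Γ₀) (hδ : δ ∈ Γ₁) : γ⁻¹ * δ * γ ∈ Γ₁ := by
  obtain ⟨g1, c1⟩ := (h.zero _).1 hγ
  obtain ⟨g2, c2⟩ := (h.zero _).1 (h.le hδ)
  obtain ⟨i1, i2, i3, i4⟩ := inv_apply γ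
  refine h.sat₁ hδ (mul_mem (mul_mem (inv_mem hγ) (h.le hδ)) hγ) ?_ ?_
  · rw [mul_apply, mul_apply, mul_apply, i3, i4]
    push_cast
    rw [h.dvd γ g1, h.dvd δ g2]
    linear_combination ((δ 1 1 : ℤ) : ZMod L) * a_mul_d (h.dvd γ g1)
  · rw [mul_apply, mul_apply, mul_apply, i3, i4]
    push_cast
    rw [c1, c2]
    linear_combination ((δ 1 1 : ℤ) : ZMod q) * a_mul_d c1

theorem gamma_le : Gamma (L * q) ≤ Γ₁ := fun γ hγ => by
  obtain ⟨-, -, c, d⟩ := Gamma_mem.1 hγ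
  have c' : ((γ 1 0 : ℤ) : ZMod (L * q)) = (0 : ℤ) := by simpa using c
  have d' : ((γ 1 1 : ℤ) : ZMod (L * q)) = (1 : ℤ) := by simpa using d
  refine h.one₁ _ ((h.zero γ).2 ⟨h.one _ ?_ ?_, ?_⟩) ?_ ?_
  · simpa using cast_of (dvd_mul_right L q) c'
  · simpa using cast_of (dvd_mul_right L q) d'
  · simpa using cast_of (dvd_mul_left q L) c'
  · simpa using cast_of (dvd_mul_right L q) d'
  · simpa using cast_of (dvd_mul_left q L) d'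

theorem tw_mem {s : ℤ} {γ δ : SL(2, ℤ)} (e : Tw s (L * q) γ δ) (hδ : δ ∈ Γ) : γ ∈ Γ := by
  obtain ⟨-, -, c, d⟩ := tw_dvd (dvd_mul_right L q) e
  exact h.sat hδ (by rw [← c, h.dvd δ hδ, mul_zero]) d.symm

theorem gal_mem (hM : 3 ≤ L * q) (σ : ℂ →+* ℂ) {f : FF} (hf : f ∈ Fx FF (Γ.map sq)) :
    gal σ f ∈ Fx FF (Γ.map sq) := mem_Fx_map.2 fun γ hγ => by
  haveI : NeZero (L * q) := ⟨by omega⟩
  obtain ⟨s, hs⟩ := exists_zpow_zeta σ (L * q)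
  obtain ⟨δ, e⟩ := exists_tw (isUnit_of_map_zeta hs) γ⁻¹
  have := gal_inv_smul hM hs (fun g hg => mem_Fx_map.1 hf g (h.le₀ (h.le (h.gamma_le hg)))) e
  rw [inv_inv, mem_Fx_map.1 hf _ (inv_mem (h.tw_mem e (inv_mem hγ)))] at this
  exact this.symm

theorem gal_comm (hM : 3 ≤ L * q) (σ : ℂ →+* ℂ) {γ : SL(2, ℤ)} (hγ : γ ∈ Γ₀) {f : FF}
    (hf : f ∈ Fx FF (Γ₁.map sq)) : gal σ (γ • f) = γ • gal σ f := by
  haveI : NeZero (L * q) := ⟨by omega⟩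
  obtain ⟨s, hs⟩ := exists_zpow_zeta σ (L * q)
  obtain ⟨δ, e⟩ := exists_tw (isUnit_of_map_zeta hs) γ⁻¹
  have := gal_inv_smul hM hs (fun g hg => mem_Fx_map.1 hf g (h.gamma_le hg)) e
  rw [inv_inv] at this
  rw [← this]
  congr 1
  obtain ⟨-, -, c, d⟩ := tw_dvd (dvd_mul_left q L) e
  have h1 := ((h.zero γ).1 hγ).2
  have h2 := a_mul_d h1
  obtain ⟨i1, i2, i3, i4⟩ := inv_apply γ
  have c' : ((δ 1 0 : ℤ) : ZMod q) = 0 := by rw [← c, i3]; push_cast; rw [h1]; ring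
  refine (smul_congr hf (h.one₁ _ (mul_mem ((h.zero δ).2
    ⟨h.tw_mem e (inv_mem (h.le₀ hγ)), c'⟩) hγ) ?_ ?_)).symm
  · obtain ⟨-, -, -, d'⟩ := tw_dvd (dvd_mul_right L q) e
    rw [mul_apply]; push_cast
    rw [h.dvd _ (h.tw_mem e (inv_mem (h.le₀ hγ))), ← d', i4]
    linear_combination a_mul_d (h.dvd _ (h.le₀ hγ))
  · rw [mul_apply]; push_cast; rw [c', ← d, i4]; linear_combination h2

theorem idx₀ (hM : L * q ≠ 0) : (Γ₀.map sq).relIndex (Γ.map sq) ≠ 0 := by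
  rw [Subgroup.relIndex_map_map_of_injective _ _ sq_injective]
  haveI : NeZero (L * q) := ⟨hM⟩
  haveI : Γ₀.FiniteIndex := Subgroup.finiteIndex_of_le (h.gamma_le.trans h.le)
  exact Subgroup.FiniteIndex.index_ne_zero (H := Γ₀.subgroupOf Γ)

theorem idx₁ (hM : L * q ≠ 0) : (Γ₁.map sq).relIndex (Γ₀.map sq) ≠ 0 := by
  rw [Subgroup.relIndex_map_map_of_injective _ _ sq_injective]
  haveI : NeZero (L * q) := ⟨hM⟩
  haveI : Γ₁.FiniteIndex := Subgroup.finiteIndex_of_le h.gamma_le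
  exact Subgroup.FiniteIndex.index_ne_zero (H := Γ₁.subgroupOf Γ₀)

end Lv3

theorem exists_W {L q : ℕ} (hc : Nat.Coprime L q) : ∃ w w' : SL(2, ℤ), ∃ u t : ℤ,
    u * q - t * L = 1 ∧ (w 0 0 = 1 ∧ w 0 1 = t ∧ w 1 0 = L ∧ w 1 1 = u * q) ∧
      (w' 0 0 = q ∧ w' 0 1 = t ∧ w' 1 0 = L ∧ w' 1 1 = u) := by
  obtain ⟨a, b, e⟩ := Nat.isCoprime_iff_coprime.mpr hc
  exact ⟨⟨!![1, -a; L, b * q], by rw [Matrix.det_fin_two_of]; linear_combination e⟩,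
    ⟨!![q, -a; L, b], by rw [Matrix.det_fin_two_of]; linear_combination e⟩, b, -a,
    by linear_combination e, ⟨rfl, rfl, rfl, rfl⟩, rfl, rfl, rfl, rfl⟩

theorem cast_L {L q : ℕ} {u t : ℤ} (e : u * q - t * L = 1) : (u : ZMod L) * q = 1 := by
  have := congrArg (Int.cast : ℤ → ZMod L) e
  push_cast at this
  rwa [ZMod.natCast_self, mul_zero, sub_zero] at this

theorem cast_q {L q : ℕ} {u t : ℤ} (e : u * q - t * L = 1) : (t : ZMod q) * L = -1 := by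
  have := congrArg (Int.cast : ℤ → ZMod q) e
  push_cast at this
  rw [ZMod.natCast_self, mul_zero] at this
  linear_combination -this

theorem zeta_dvd {L q : ℕ} (hL : L ≠ 0) (hq : q ≠ 0) : Wp.zeta (L * q) ^ L = Wp.zeta q := by
  have h1 : (L : ℂ) ≠ 0 := Nat.cast_ne_zero.2 hL
  have h2 : (q : ℂ) ≠ 0 := Nat.cast_ne_zero.2 hq
  rw [Wp.zeta, Wp.zeta, ← Complex.exp_nat_mul]
  congr 1
  push_cast
  field_simp

variable {v : Valuation ℂ ℝ≥0} {W : Valuation FF ℝ≥0}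

theorem root_eq_one {L : ℕ} (hL : v (L : ℂ) = 1) {z : ℂ} (hz : z ^ L = 1) (h : v (z - 1) < 1) :
    z = 1 := by
  by_contra h1
  have h2 : ∑ i ∈ Finset.range L, z ^ i = 0 := by
    have := mul_geom_sum z L
    rw [hz, sub_self, mul_eq_zero] at this
    exact this.resolve_left (sub_ne_zero.2 h1)
  have h3 : v (∑ i ∈ Finset.range L, (z ^ i - 1)) < 1 :=
    Valuation.map_sum_lt _ one_ne_zero fun i _ => P1.pow (W := v) h i
  rw [Finset.sum_sub_distrib, h2, Finset.sum_const, Finset.card_range, nsmul_one, zero_sub,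
    Valuation.map_neg, hL] at h3
  exact lt_irrefl _ h3

/-- inertia at `q` fixes the roots of unity of order prime to `q` -/
theorem exp_one {L q : ℕ} (hL : L ≠ 0) (hq : q ≠ 0) (hv : v (L : ℂ) = 1) {τ : ℂ →+* ℂ}
    (hτ : ∀ c, v c ≤ 1 → v (τ c - c) < 1) {s : ℤ}
    (hs : τ (Wp.zeta (L * q)) = Wp.zeta (L * q) ^ s) : (s : ZMod L) = 1 := by
  have h0 := Wp.zeta_ne_zero L
  have h1 : τ (Wp.zeta L) = Wp.zeta L ^ s := by
    rw [← zeta_dvd hq hL, mul_comm q, map_pow, hs, ← zpow_natCast, ← zpow_natCast, ← zpow_mul,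
      ← zpow_mul, mul_comm s]
  have h2 : v (Wp.zeta L) = 1 := val_root (Nat.pos_of_ne_zero hL) (by rw [Wp.zeta_pow L hL, map_one])
  have h3 : Wp.zeta L ^ (s - 1) = 1 := root_eq_one hv
    (by rw [← zpow_natCast, ← zpow_mul, mul_comm, zpow_mul, zpow_natCast, Wp.zeta_pow L hL, one_zpow])
    (by rw [zpow_sub₀ h0, zpow_one, ← h1]; exact P1.of_sub h2 (hτ _ h2.le))
  have := (ZMod.intCast_eq_intCast_iff_dvd_sub 1 s L).2
    (((Wp.isPrimitiveRoot_zeta hL).zpow_eq_one_iff_dvd _).1 h3)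
  rw [← this, Int.cast_one]

/-- the decomposition group of the Gauss norm lies in `Γ₀(q)` -/
theorem borel (hG : IsG v qx W) {L q : ℕ} {Γ₁ Γ₀ Γ : Subgroup SL(2, ℤ)} (h : Lv3 L q Γ₁ Γ₀ Γ)
    (hq : q.Prime) (hc : Nat.Coprime L q) (hv : v (q : ℂ) < 1) {γ : SL(2, ℤ)} (hγ : γ ∈ Γ)
    (hd : Dec W (Γ₀.map Mf.sq) (Mf.sq γ)) : γ ∈ Γ₀ := by
  haveI : Fact q.Prime := ⟨hq⟩
  by_contra hn
  have hc0 : ((γ 1 0 : ℤ) : ZMod q) ≠ 0 := fun h0 => hn ((h.zero γ).2 ⟨hγ, h0⟩)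
  obtain ⟨w, w', u, t, e, ⟨a1, a2, a3, a4⟩, b1, b2, b3, b4⟩ := exists_W hc
  obtain ⟨d1, d2, d3, d4⟩ := dg_val hq.pos
  obtain ⟨N, hN, hl⟩ := exists_level 1 one_ne_zero (dg q)
  have hF := hl 4 _ isF_e4
  have hE : IsF N 4 e4 := isF_e4.mono (one_dvd _)
  have hq0 : (q : ℂ) ≠ 0 := Nat.cast_ne_zero.2 hq.ne_zero
  have hvq : 0 < v (q : ℂ) := pos_iff_ne_zero.2 (by simpa using hq.ne_zero)
  set x := quo (e4 ∣[(4 : ℤ)] rr (dg q)) e4 with hx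
  have hxm : x ∈ Fx FF (Γ₀.map Mf.sq) := mem_Fx_map.2 fun δ hδ => by
    obtain ⟨δ', e1, -⟩ := dg_conj hq.pos ((h.zero _).1 (inv_mem hδ)).2
    rw [← inv_inv δ, hx, inv_sl_smul_quo hN hF hE, isF_e4.slash_one_level, ← slash_sq,
      ← SlashAction.slash_mul, ← map_mul, e1, map_mul, SlashAction.slash_mul, slash_sq,
      isF_e4.slash_one_level]
  have hW1 : W x < 1 := by
    have := W_quo_e4 hG d3 (g' := 1) rfl
    rw [map_one, SlashAction.slash_one, jf_val d3, jf_val (g := 1) rfl, d1, d4] at this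
    rw [hx, this]
    simp only [OneMemClass.coe_one, Units.val_one, Matrix.one_apply_eq, Rat.cast_one,
      Rat.cast_natCast, one_pow, div_one, map_pow]
    exact pow_lt_one₀ zero_le hv three_ne_zero
  have hqq : (0 : ℤ) < q * q - 0 * 0 := by simpa using hq.ne_zero
  have hz := gm_val hqq
  have hz10 : ((gm q 0 0 q : GQ) : GL (Fin 2) ℚ) 1 0 = 0 := by rw [hz]; simp
  have e2 : dg q * (Mf.sq w * dg q) = Mf.sq w' * gm q 0 0 q := by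
    have h2 : (0 : ℤ) < q * 1 - 0 * 0 := by simpa using hq.pos
    have h3 : (0 : ℤ) < 1 * (u * q) - t * L := by rw [one_mul, e]; exact one_pos
    rw [sq_eq_gm, sq_eq_gm, a1, a2, a3, a4, b1, b2, b3, b4, dg, ← mul_assoc, gm_mul h2 h3,
      gm_mul (by nlinarith [hq.pos]) h2, gm_mul (by rw [mul_comm, e]; exact one_pos) hqq]
    congr 1 <;> ring
  have hW2 : 1 < W (w⁻¹ • x) := by
    rw [← W_upper hG d3, sl_smul, map_inv, ← mul_smul, ← mul_inv_rev, hx, inv_smul_quo hN hF hE,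
      ← SlashAction.slash_mul, ← map_mul, e2, map_mul, map_mul, SlashAction.slash_mul,
      SlashAction.slash_mul, slash_sq, slash_sq, isF_e4.slash_one_level, isF_e4.slash_one_level,
      W_quo_e4 hG hz10 d3, jf_val hz10, jf_val d3, d1, d4, hz]
    simp only [Matrix.of_apply, Matrix.cons_val', Matrix.cons_val_zero, Matrix.cons_val_one,
      Matrix.cons_val_fin_one, Int.cast_natCast, Rat.cast_natCast, Rat.cast_one, div_one]
    rw [show (q : ℂ) ^ 3 / q / q ^ 3 = (q : ℂ)⁻¹ by field_simp, map_inv₀]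
    exact (one_lt_inv₀ hvq).2 hv
  obtain ⟨k, hk⟩ := ZMod.intCast_surjective (((γ 0 0 : ℤ) : ZMod q) / ((γ 1 0 : ℤ) : ZMod q))
  let T : SL(2, ℤ) := ⟨!![1, k; 0, 1], by rw [Matrix.det_fin_two_of]; ring⟩
  have hT : T ∈ Γ := h.one _ (by simp [T]) (by simp [T])
  have hw : w ∈ Γ := h.one _ (by rw [a3]; simp) (by rw [a4]; push_cast; exact cast_L e)
  have hδ : w * T⁻¹ * γ ∈ Γ₀ := by
    refine (h.zero _).2 ⟨mul_mem (mul_mem hw (inv_mem hT)) hγ, ?_⟩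
    obtain ⟨i1, i2, i3, i4⟩ := inv_apply T
    rw [mul_apply, mul_apply, mul_apply, i1, i2, i3, i4, a3, a4]
    simp only [T, Matrix.SpecialLinearGroup.coe_mk, Matrix.of_apply, Matrix.cons_val',
      Matrix.cons_val_zero, Matrix.cons_val_one, Matrix.cons_val_fin_one]
    push_cast
    rw [ZMod.natCast_self, hk]
    field_simp
    ring
  have h5 := hd x hxm
  rw [← sl_smul, ← smul_congr hxm (γ := w * T⁻¹) hδ, mul_inv_rev, inv_inv, mul_smul, sl_smul,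
    ← inv_inv (Mf.sq T), W_upper hG (by
      rw [← map_inv, sq_apply, (inv_apply T).2.2.1]; simp [T])] at h5
  rw [h5] at hW2
  exact lt_asymm hW1 hW2

/-- **the function side of the local statement at `q`** -/
theorem geo (hG : IsG v qx W) {L q : ℕ} {Γ₁ Γ₀ Γ : Subgroup SL(2, ℤ)} (h : Lv3 L q Γ₁ Γ₀ Γ)
    (hq : q.Prime) (hc : Nat.Coprime L q) (hM : 3 ≤ L * q) (hv : v (q : ℂ) < 1) {n : ℕ}
    (hn : 0 < n) {σ τ : ℂ ≃+* ℂ} (hσv : ∀ c, v (σ c) = v c)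
    (hσ : ∀ c, v c ≤ 1 → v (σ c - c ^ q) < 1) (hτ : ∀ c, v c ≤ 1 → v (τ c - c) < 1) {s : ℤ}
    (hs : τ (Wp.zeta (L * q)) = Wp.zeta (L * q) ^ s) {χ d : SL(2, ℤ)}
    (hχ0 : ((χ 1 0 : ℤ) : ZMod (L * q)) = 0) (hχ1 : ((χ 1 1 : ℤ) : ZMod (L * q)) = s)
    (hd : ((d 1 0 : ℤ) : ZMod L) = 0) (hd' : ((d 1 1 : ℤ) : ZMod L) = q)
    (hidx : Nat.Coprime ((Γ₁.map Mf.sq).relIndex (Γ₀.map Mf.sq)) q) :
    ∃ ω : GQ, Geo W CC n q (gal σ) (gal τ) (Γ₁.map Mf.sq) (Γ₀.map Mf.sq) (Γ.map Mf.sq) ω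
      (dg q)⁻¹ (Mf.sq d) (Mf.sq χ)⁻¹ := by
  have hM0 : L * q ≠ 0 := by omega
  haveI : NeZero (L * q) := ⟨hM0⟩
  obtain ⟨w, w', u, t, e, ⟨a1, a2, a3, a4⟩, b1, b2, b3, b4⟩ := exists_W hc
  obtain ⟨d1, d2, d3, d4⟩ := dg_val hq.pos
  have eL := cast_L e
  have eq := cast_q e
  have hw : w ∈ Γ := h.one _ (by rw [a3]; simp) (by rw [a4]; push_cast; exact eL)
  have hs1 : (s : ZMod L) = 1 :=
    exp_one (left_ne_zero_of_mul hM0) hq.ne_zero (v_nat_eq hv hc) (τ := (τ : ℂ →+* ℂ)) hτ hs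
  have hχ0' : ((χ 1 0 : ℤ) : ZMod (L * q)) = (0 : ℤ) := by simpa using hχ0
  have hχL : ((χ 1 1 : ℤ) : ZMod L) = 1 := (cast_of (dvd_mul_right L q) hχ1).trans hs1
  have hχ' : ((χ 1 1 : ℤ) : ZMod q) = s := cast_of (dvd_mul_left q L) hχ1
  have hχ : χ ∈ Γ₀ := (h.zero _).2 ⟨h.one _ (by simpa using cast_of (dvd_mul_right L q) hχ0') hχL,
    by simpa using cast_of (dvd_mul_left q L) hχ0'⟩
  have hnorm : ∀ γ ∈ Γ₀.map Mf.sq, ∀ δ ∈ Γ₁.map Mf.sq, γ⁻¹ * δ * γ ∈ Γ₁.map Mf.sq := by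
    rintro _ ⟨γ, hγ, rfl⟩ _ ⟨δ, hδ, rfl⟩
    exact ⟨_, h.norm hγ hδ, by simp⟩
  refine ⟨(Mf.sq w * dg q)⁻¹,
    { cst := cst hG hq.ne_zero hv
      pos := hn
      prim := ⟨algebraMap ℂ FF (Wp.zeta n),
        (Wp.isPrimitiveRoot_zeta hn.ne').map_of_injective (algebraMap ℂ FF).injective, ?_⟩
      le₁ := Subgroup.map_mono h.le
      le₀ := Subgroup.map_mono h.le₀
      fin₁ := h.idx₁ hM0
      fin₀ := h.idx₀ hM0
      norm := hnorm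
      unit := fun m hm => ?_
      borel := ?_
      iso := W_gal hG hσv
      mem := fun f hf => h.gal_mem hM _ hf
      comm := ?_
      inert := fun f hf => np_of_pr hG hn _ (pr_inertia hτ (hG.rep hf))
      τmem := fun f hf => mem_Fx_map.2 fun γ hγ => by
        rw [← h.gal_comm hM _ (h.le hγ) hf, mem_Fx_map.1 hf γ hγ]
      τχ := fun f hf => by
        rw [← map_inv, ← sl_smul, ← sl_smul, h.gal_comm hM _ (inv_mem hχ) hf]
      χmem := fun f hf => smul_mem_Fx (hnorm _ (inv_mem ⟨χ, hχ, rfl⟩)) hf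
      ωmem := fun f hf => smul_mem_Fx ?_ hf
      τω := fun f hf => ?_
      dmem := fun f hf => smul_mem_Fx ?_ hf
      ωα := fun f hf => by
        rw [mul_inv_rev, mul_smul, ← map_inv, ← sl_smul, mem_Fx_map.1 hf _ (inv_mem hw)]
      ωβ := fun f hf => ?_
      frob := fun f hf => ?_ }⟩
  · rw [gal_algebraMap, ← map_pow, ← map_sub, W_const hG]
    refine hσ _ (le_of_eq ?_)
    have := congrArg v (Wp.zeta_pow n hn.ne')
    rwa [map_pow, map_one, pow_eq_one_iff_left hn.ne'] at this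
  · rw [← map_natCast (algebraMap ℂ FF), W_const hG]
    exact v_nat_eq hv (Nat.Coprime.coprime_dvd_left hm hidx)
  · rintro _ ⟨γ, hγ, rfl⟩ hd
    exact ⟨γ, borel hG h hq hc hv hγ hd, rfl⟩
  · rintro _ ⟨γ, hγ, rfl⟩ f hf
    exact h.gal_comm hM _ hγ hf
  · rintro _ ⟨γ, hγ, rfl⟩
    obtain ⟨hγ1, hγ2⟩ := (h.zero _).1 (h.le hγ)
    obtain ⟨δ, e1, f1, f2, f3, f4⟩ := dg_conj hq.pos hγ2
    have hδ : δ ∈ Γ := h.sat hγ1 (by
      have := h.dvd γ hγ1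
      rw [← f3] at this
      push_cast at this
      linear_combination (u : ZMod L) * this - ((δ 1 0 : ℤ) : ZMod L) * eL) (by rw [f4])
    obtain ⟨i1, i2, i3, i4⟩ := inv_apply w
    refine ⟨w * δ * w⁻¹, h.flip γ hγ _ ((h.zero _).2
      ⟨mul_mem (mul_mem hw hδ) (inv_mem hw), ?_⟩) ?_ ?_, ?_⟩
    · rw [mul_apply, mul_apply, mul_apply, i1, i3, a3, a4, f2]
      push_cast
      rw [ZMod.natCast_self]; ring
    · rw [mul_apply, mul_apply, mul_apply, i2, i4, a1, a2, a3, a4, f4]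
      push_cast
      rw [ZMod.natCast_self, h.dvd δ hδ]
      linear_combination ((γ 1 1 : ℤ) : ZMod L) * eL
    · rw [mul_apply, mul_apply, mul_apply, i2, i4, a1, a2, a3, a4, f1, f2]
      push_cast
      rw [ZMod.natCast_self]
      linear_combination -((γ 0 0 : ℤ) : ZMod q) * eq
    · rw [inv_inv, mul_assoc (Mf.sq w), e1, map_mul, map_mul, map_inv]; group
  · have hs' : (τ : ℂ →+* ℂ) (Wp.zeta (L * q)) = Wp.zeta (L * q) ^ s := hs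
    obtain ⟨δ, e1⟩ := exists_tw (isUnit_of_map_zeta hs') w
    have h1 := gal_inv_smul hM hs' (fun g hg => mem_Fx_map.1 hf g (h.gamma_le hg)) e1
    rw [mul_inv_rev, mul_smul, mul_smul, gal_diag _ d3 d2, ← map_inv, ← map_inv, ← sl_smul,
      ← sl_smul, ← sl_smul, ← h1, ← mul_smul, ← mul_inv_rev]
    refine congrArg (fun y : FF => (dg q)⁻¹ • gal (τ : ℂ →+* ℂ) y) ?_
    obtain ⟨-, t2, t3, t4⟩ := tw_dvd (dvd_mul_left q L) e1
    obtain ⟨i1, i2, i3, i4⟩ := inv_apply δ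
    have c1 := ((h.zero _).1 hχ).2
    obtain ⟨t5, -⟩ := tw_dvd (dvd_mul_right L q) e1
    rw [a1] at t5
    rw [a4] at t4
    rw [a2] at t2
    push_cast at t4
    rw [ZMod.natCast_self, mul_zero] at t4
    refine smul_congr hf (h.one₁ _ ((h.zero _).2 ⟨mul_mem (mul_mem (h.le₀ hχ) hw)
      (inv_mem (h.tw_mem e1 hw)), ?_⟩) ?_ ?_)
    · rw [mul_apply, mul_apply, mul_apply, i1, i3, a4]
      push_cast
      rw [ZMod.natCast_self, c1, ← t4]; ring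
    · rw [mul_apply, mul_apply, mul_apply, i2, i4, a3, a4]
      push_cast
      rw [ZMod.natCast_self, h.dvd _ (h.le₀ hχ), hχL, ← t5]
      push_cast
      linear_combination eL
    · rw [mul_apply, mul_apply, mul_apply, i2, i4, a3, a4]
      push_cast
      rw [ZMod.natCast_self, c1, hχ']
      linear_combination (L : ZMod q) * t2 - eq
  · rintro _ ⟨γ, hγ, rfl⟩
    obtain ⟨i1, i2, i3, i4⟩ := inv_apply d
    have c1 := h.dvd γ hγ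
    refine ⟨d⁻¹ * γ * d, h.sat hγ ?_ ?_, by simp⟩
    · rw [mul_apply, mul_apply, mul_apply, i3, i4]
      push_cast
      rw [hd, c1]; ring
    · rw [mul_apply, mul_apply, mul_apply, i3, i4]
      push_cast
      rw [hd, c1]
      linear_combination ((γ 1 1 : ℤ) : ZMod L) * a_mul_d hd
  · have hqq : (0 : ℤ) < q * q - 0 * 0 := by simpa using hq.ne_zero
    have hz := gm_val hqq
    have e2 : dg q * (Mf.sq w * dg q) = Mf.sq w' * gm q 0 0 q := by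
      have h2 : (0 : ℤ) < q * 1 - 0 * 0 := by simpa using hq.pos
      have h3 : (0 : ℤ) < 1 * (u * q) - t * L := by rw [one_mul, e]; exact one_pos
      rw [sq_eq_gm, sq_eq_gm, a1, a2, a3, a4, b1, b2, b3, b4, dg, ← mul_assoc, gm_mul h2 h3,
        gm_mul (by nlinarith [hq.pos]) h2, gm_mul (by rw [mul_comm, e]; exact one_pos) hqq]
      congr 1 <;> ring
    rw [← mul_smul, ← mul_inv_rev, e2, mul_inv_rev, mul_smul,
      scal_smul (by rw [hz]; simp) (by rw [hz]; simp) (by rw [hz]; simp), ← map_inv, ← sl_smul,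
      ← sl_smul]
    refine smul_congr hf (h.one _ ?_ ?_)
    · rw [mul_apply, b3]
      push_cast
      rw [ZMod.natCast_self, hd]; ring
    · rw [mul_apply, b3, b4]
      push_cast
      rw [ZMod.natCast_self, hd']; linear_combination eL
  · have := pr_dg hq hv hσv hσ d3 (by rw [d1, d4, div_one]) d2 (f := σ • f)
      (hG.rep (by rw [aut_smul]; simpa using hf))
    rw [inv_smul_smul, aut_smul, ← gal_diag _ d3 d2] at this
    exact np_of_pr hG hn _ this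

end Crest.Agent.T15.Twi
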