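import Mathlib
import Crest.Agent.T15.TwiD_21
import Crest.Agent.T15.CgI_84
import Crest.Agent.T15.BetCus_91
import Crest.Agent.T15.HkTw_62

/-!
# T15 / TwiE (helper21): inertia at an auxiliary prime on the localised cohomology

`twi_K` (any step `Stp` and covering `Cov`), `tw_EQ` (the Taylor-Wiles level of `Aux`).
-/

set_option autoImplicit false
set_option linter.all false
set_option maxHeartbeats 400000

noncomputable section

namespace Crest.Agent.T15.Twi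

open scoped NNReal MatrixGroups
open CongruenceSubgroup
open Crest.Agent.T15.Mf Crest.Agent.T15.Hs Crest.Agent.T15.Cg Crest.Agent.T15.Lv
open Crest.Agent.T15.Bet Crest.Agent.T15.Hk Crest.Agent.R007

variable {n : ℕ} [NeZero n] {v : Valuation ℂ ℝ≥0}

theorem isK_conj {Γ Γ' : Subgroup GQ} {x : FF} {φ : HH Γ (ZMod n)} (h : IsK n Γ x φ) {g : GQ}
    (hg : ∀ γ ∈ Γ', g * γ * g⁻¹ ∈ Γ) {ψ : HH Γ' (ZMod n)}
    (hψ : ∀ γ ∈ Γ', val ψ γ = val φ (g * γ * g⁻¹)) : IsK n Γ' (g⁻¹ • x) ψ := by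
  have := h.corr_e (e_mem_corr (O := ℤ) hg)
  rwa [show T (ZMod n) ⟨_, e_mem_corr (O := ℤ) hg⟩ φ = ψ from HH.ext fun γ hγ => by
    rw [val_T_e _ _ hγ (hg γ hγ), hψ γ hγ]] at this

theorem pr_of_P1 {W : Valuation FF ℝ≥0} (h : IsG v qx W) {u : FF} (hu : P1 W u) : Pr v (qx u) := by
  by_cases h0 : u - 1 = 0
  · rw [sub_eq_zero.1 h0, map_one]
    exact ⟨1, 1, 1, one_ne_zero, UnS.one, fun g => by simp, by simp⟩
  obtain ⟨c, a, b, ha, hb, e, hw⟩ := h _ h0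
  refine ⟨1, b + HahnSeries.C c * a, b, one_ne_zero, hb, fun g => ?_, ?_⟩
  · rw [HahnSeries.coeff_add, add_sub_cancel_left, HahnSeries.C_mul_eq_smul, HahnSeries.coeff_smul,
      smul_eq_mul, map_mul, ← hw]
    exact mul_lt_one_of_nonneg_of_lt_one_left zero_le hu (ha.1 g)
  · rw [map_sub, map_one] at e
    rw [map_one]
    linear_combination e

theorem pow_of_inj {L : ℕ} {H : Subgroup (ZMod L)ˣ} (hL : L ≠ 0)
    {E : Set (HH (Gq L H) (ZMod n))} (hI : Inj v n _ E) {φ : HH (Gq L H) (ZMod n)} (hφ : φ ∈ E)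
    {f : FF} (hf : IsK n _ f φ) (hp : NP (gw v) (Gq L H) n f) :
    ∃ g ∈ Fx FF (Gq L H), f = g ^ n := by
  obtain ⟨g, hg, hp⟩ := hp
  have hg0 : g ≠ 0 := by
    rintro rfl
    exact hp.ne (by rw [zero_pow (NeZero.ne n), div_zero])
  have h1 := hf.div (IsK.of_fixed hg0 hg)
  rw [sub_zero] at h1
  obtain rfl := hI _ _ hφ h1 (pr_of_P1 (isG v) hp)
  obtain ⟨y, hy, e⟩ := hf.exists_pow hL fun γ hγ => sq_mem.2 (Gamma_le_GH hγ)
  exact ⟨y, hy, e.symm⟩

variable {O : Type*} [CommRing O]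

theorem eq_zero_of_LN {M : Type*} [AddCommGroup M] [Module O M] {f : Module.End O M} {a b : O}
    {x : M} (h : LN (f - a • 1) x) (e : f x = b • x) (hu : IsUnit (a - b)) : x = 0 := by
  have h1 : LN ((b - a) • (1 : Module.End O M)) x := h.of_eq
    ((Commute.one_right _).smul_right _) (by
      rw [LinearMap.sub_apply, e, LinearMap.smul_apply, LinearMap.smul_apply, sub_smul]; rfl)
  obtain ⟨k, hk⟩ := h1.of_smul (by rw [← neg_sub]; exact hu.neg)
  simpa using hk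

theorem unit_of_Un {q s α : O} (h : Lev.Un q s α) (hq : IsNilpotent (q - 1)) :
    IsUnit (s ^ 2 - (q + 1) ^ 2) := by
  have h1 : IsNilpotent (-(4 * (α ^ 2 - s * α + q)) - (q - 1) * (q - 1)) :=
    (Commute.all _ _).isNilpotent_sub ((Commute.all _ _).isNilpotent_mul_left h.h0).neg
      ((Commute.all _ _).isNilpotent_mul_left hq)
  have := h1.isUnit_add_left_of_commute (h.h1.pow 2) (Commute.all _ _)
  rwa [show (s - 2 * α) ^ 2 + (-(4 * (α ^ 2 - s * α + q)) - (q - 1) * (q - 1)) =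
    s ^ 2 - (q + 1) ^ 2 by ring] at this

variable {A : Type*} [AddCommGroup A] [Module O A] [Finite A]

/-- **inertia at the auxiliary prime `q`** -/
theorem twi_K {L M q : ℕ} {H : Subgroup (ZMod L)ˣ} {H₀ H₁ : Subgroup (ZMod M)ˣ} (h : Stp q H H₀)
    (hL : L ≠ 0) (h4 : 4 ∣ L) (hH : ∀ u ∈ H, ZMod.unitsMap h4 u = 1) (hle : H₁ ≤ H₀)
    (hfl : ∀ u ∈ H₁, ∀ u', ZMod.unitsMap h.dvd u' = ZMod.unitsMap h.dvd u →
      ZMod.unitsMap h.dvd' (u' * u) = 1 → u' ∈ H₁)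
    {Δ : Type*} [CommGroup Δ] [Fintype Δ] {π : Gq M H₀ →* Δ} (hc : Cov π (Gq M H₁))
    {p k : ℕ} (hp : p.Prime) (hΔ : IsPGroup p Δ) (hpq : p ≠ q) (hm : ∀ c : A, n • c = 0)
    (hn : n ∣ p ^ k) [Finite (HH (Gq M H₁) A)] (hv : v (q : ℂ) < 1) {σ τ : ℂ ≃+* ℂ}
    (hσv : ∀ c, v (σ c) = v c) (hσ : ∀ c, v c ≤ 1 → v (σ c - c ^ q) < 1)
    (hτ : ∀ c, v c ≤ 1 → v (τ c - c) < 1) {s : ℤ} (hs : τ (Wp.zeta M) = Wp.zeta M ^ s)
    (g : Gq M H₀) (hg : (dU M g.1 : ZMod M) = s) {t : Module.End O (HH (Gq M H₁) A)}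
    (ht : ActK n (AddMonoidHom.id _) τ t) {S : Module.End O (HH (Gq L H) A)}
    (hS : ActK n (AddMonoidHom.id _) σ S)
    (E₁ : Submodule O (HH (Gq M H₁) A)) (E : Submodule O (HH (Gq L H) A))
    (tE : ∀ x ∈ E₁, t x ∈ E₁) (dE : ∀ δ, ∀ x ∈ E₁, hc.dia O A δ x ∈ E₁)
    (SE : ∀ x ∈ E, S x ∈ E) (TE : ∀ x ∈ E, TT O A L H q x ∈ E)
    (old : ∀ x ∈ E₁, (∀ δ, hc.dia O A δ x = x) → ∃ y ∈ E, ∃ z ∈ E,
      x = res O A hc.le (res O A h.le y) + res O A hc.le (h.dgn O A z))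
    {E' : Set (HH (Gq L H) (ZMod n))} (hI : Inj v n _ E')
    (hE : ∀ (l : A →+ ZMod n), ∀ x ∈ E, l.comp x ∈ E') (hq : IsUnit (q : O)) {a : O}
    (hu : IsUnit (a ^ 2 - (q + 1) ^ 2)) (hN : ∀ x ∈ E, LN (TT O A L H q - a • 1) x) :
    ∀ x ∈ E₁, t (t x - hc.dia O A (π g) x) = t x - hc.dia O A (π g) x := by
  haveI : Fact p.Prime := ⟨hp⟩
  obtain rfl := h.eq
  have hq' := h.prime
  have hM : L * q ≠ 0 := mul_ne_zero hL hq'.ne_zero
  have hcop : Nat.Coprime L q := ((Nat.Prime.coprime_iff_not_dvd hq').2 h.ndvd).symm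
  have h4' : 4 ∣ L * q := h4.mul_right q
  have hH₁ : ∀ u ∈ H₁, ZMod.unitsMap h4' u = 1 := fun u hu => by
    rw [← hH _ ((h.mem h.dvd u).1 (hle hu)), ← MonoidHom.comp_apply, ZMod.unitsMap_comp]
  have hex₁ := hex_Gq (n := n) hM h4' hH₁
  have hex := hex_Gq (n := n) hL h4 hH
  obtain ⟨g, χ, hχ, rfl⟩ := g
  have hidx : Nat.Coprime ((Gq (L * q) H₁).relIndex (Gq (L * q) H₀)) q := by
    have e : (Gq (L * q) H₁).subgroupOf (Gq (L * q) H₀) = π.ker := by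
      ext γ; rw [Subgroup.mem_subgroupOf, MonoidHom.mem_ker, hc.ker]
    obtain ⟨j, hj⟩ := hΔ.exists_card_eq
    rw [Subgroup.relIndex, e, Subgroup.index_ker, MonoidHom.range_eq_top.2 hc.surj,
      Subgroup.card_top, hj]
    exact Nat.Coprime.pow_left _ ((Nat.coprime_primes hp hq').2 hpq)
  obtain ⟨ω, hG⟩ := geo (isG v) (lv3_GH hcop rfl (h.mem _) hle hfl) hq' hcop
    (le_trans (by norm_num) (Nat.le_of_dvd (Nat.pos_of_ne_zero hM) h4')) hv (NeZero.pos n) hσv hσ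
    hτ hs (χ := χ) (d := sgZ L q) hχ.1 (by rw [← hg]; exact (dU_sq (GH_mono le_top hχ)).symm)
    (sgZ_mem L q).1 (by rw [sgZ_d h.cop, Int.cast_natCast]) hidx
  have hdia : ∀ (γ : Gq (L * q) H₀) (l : A →+ ZMod n) x f, IsK n (Gq (L * q) H₁) f (l.comp x) →
      IsK n (Gq (L * q) H₁) (γ.1⁻¹ • f) (l.comp (hc.dia O A (π γ) x)) := fun γ l x f hf =>
    isK_conj hf (fun δ hδ => hc.conj_mem γ hδ) fun δ hδ => by
      rw [val_comp, val_comp, hc.val_dia γ x hδ]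
  have hqx : ∀ x : HH (Gq L H) A, q • x = 0 → x = 0 := fun x hx => by
    rwa [← Nat.cast_smul_eq_nsmul O, hq.smul_eq_zero] at hx
  have hTS : ∀ x, TT O A L H q (S x) = S (TT O A L H q x) := fun x =>
    (comm_V hm Function.injective_id hex hS ⟨Tp ℤ L q, Tp_corr hq'⟩
      (fun _ h0 hf => aut_Tp hL hq'.ne_zero σ h0 hf) (fun x => TT_int hq' x) x).symm
  have hES : ∀ x ∈ E, S (S x) - TT O A L H q (S x) + q • x = 0 := fun x hx => by
    have : TT O A L H q (S x) = S (S x) + q • x := Bc.HH_sep hm fun l => by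
      obtain ⟨f, hf⟩ := hex (l.comp x)
      have e : l.comp (S (S x) + q • x) = l.comp (S (S x)) + q • l.comp x := by
        rw [AddMonoidHom.comp_add]
        exact congrArg _ (AddMonoidHom.ext fun γ => map_nsmul l q _)
      have h1 := hS l x f hf
      rw [e]
      refine es_K hI (isG v) hq' h.ndvd hv hσv hσ h1
        (by rw [TT_int hq', ← Bc.comp_T]; exact h1.corr ⟨Tp ℤ L q, Tp_corr hq'⟩) (hS l _ _ h1) ?_ ?_
      · rw [← aut_Dia hL σ _ hf.fixed, inv_smul_smul, Dia, nrm_e]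
        exact isK_conj hf (fun γ hγ => conj_mem (sg_mem L q) hγ) fun γ hγ =>
          (h.val_sg _ _ hγ).symm
      · rw [← e, ← AddMonoidHom.comp_sub]
        exact hE l _ (sub_mem (TE _ (SE x hx)) (add_mem (SE _ (SE x hx)) (nsmul_mem hx q)))
    rw [this]; abel
  have hu' : IsUnit (a - (q + 1)) ∧ IsUnit (a - -(q + 1)) := by
    rw [← IsUnit.mul_iff]
    rwa [show (a - (q + 1)) * (a - -(q + 1)) = a ^ 2 - (q + 1) ^ 2 by ring]
  have u1 : ∀ x ∈ E, TT O A L H q x - q • x - x = 0 → x = 0 := fun x hx e =>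
    eq_zero_of_LN (hN x hx) (by
      rw [add_smul, one_smul, Nat.cast_smul_eq_nsmul, ← sub_eq_zero, ← e]; abel) hu'.1
  have u2 : ∀ x ∈ E, TT O A L H q (TT O A L H q x) - (q + 1) ^ 2 • x = 0 → x = 0 := fun x hx e => by
    refine u1 x hx (eq_zero_of_LN (hN _ (sub_mem (sub_mem (TE x hx) (nsmul_mem hx q)) hx)) ?_ hu'.2)
    rw [map_sub, map_sub, sub_eq_zero.1 e, map_nsmul, neg_smul, ← Nat.cast_succ,
      Nat.cast_smul_eq_nsmul]
    generalize TT O A L H q x = y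
    module
  have r₁ : Rel (Gq (L * q) H₁) n fun (l : A →+ ZMod n) (x : HH (Gq (L * q) H₁) A) (f : FF) =>
      IsK n (Gq (L * q) H₁) f (l.comp x) :=
    rel hM Gamma_le_GH (.inr (neg_one_notMem h4' hH₁)) hm (AddMonoidHom.id _) Function.injective_id
  have r : Rel (Gq L H) n fun (l : A →+ ZMod n) (x : HH (Gq L H) A) (f : FF) =>
      IsK n (Gq L H) f (l.comp x) :=
    rel hL Gamma_le_GH (.inr (neg_one_notMem h4 hH)) hm (AddMonoidHom.id _) Function.injective_id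
  exact twi (Γ₁ := Gq (L * q) H₁) (Γ₀ := Gq (L * q) H₀) (Γ := Gq L H) hG r₁ r hΔ (fun δ => (hc.dia O A δ).toAddMonoidHom) (fun x => by rw [map_one]; rfl)
    (fun a b x => by rw [map_mul]; rfl)
    (fun x => ⟨k, by
      obtain ⟨c, hc'⟩ := hn
      rw [hc', mul_comm n c, mul_smul, show n • x = 0 from AddMonoidHom.ext fun γ => hm _, smul_zero]⟩)
    t.toAddMonoidHom (hc.dia O A (π ⟨_, χ, hχ, rfl⟩)).toAddMonoidHom S.toAddMonoidHom
    (AddMonoidHom.id _) ((res O A hc.le).comp (res O A h.le)).toAddMonoidHom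
    ((res O A hc.le).comp (h.dgn O A)).toAddMonoidHom
    (fun {l x f} hf => ht l x f hf) (fun {l x f} hf => hdia ⟨_, χ, hχ, rfl⟩ l x f hf)
    (fun {l x f} hf => hS l x f hf)
    (fun {l x f} hf => by
      rw [← inv_inv (Mf.sq (sgZ L q))]
      refine isK_conj hf (fun γ hγ => conj_mem (inv_mem (sg_mem L q)) hγ) fun γ hγ => ?_
      refine Eq.trans ?_ (h.val_sg _ _ (conj_mem (inv_mem (sg_mem L q)) hγ))
      congr 1
      group)
    (fun {l x f} hf => IsK.of_val hf (hc.le.trans h.le) fun γ hγ => by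
      rw [val_comp, val_comp]
      exact congrArg l ((val_res hc.le _ hγ).trans (val_res h.le _ (hc.le hγ))))
    (fun {l x f} hf => isK_conj hf (fun γ hγ => h.dg_mem (hc.le hγ)) fun γ hγ => by
      rw [val_comp, val_comp]
      exact congrArg l ((val_res hc.le _ hγ).trans (h.val_dgn O A _ (hc.le hγ))))
    (fun δ x => Bc.HH_sep hm fun l => by
      obtain ⟨f, hf⟩ := hex₁ (l.comp x)
      obtain ⟨γ, rfl⟩ := hc.surj δ
      have h1 := hdia γ l _ _ (ht l x f hf)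
      have h2 := ht l _ _ (hdia γ l x f hf)
      rw [aut_comm0 hM τ (fun g hg => hf.fixed g (Gq_mono bot_le hg)) (Gq_mono le_top γ.2)] at h2
      exact h1.unique h2)
    (fun δ x => by
      change (hc.dia O A δ * hc.dia O A _) x = (hc.dia O A _ * hc.dia O A δ) x
      rw [← map_mul, ← map_mul, mul_comm δ])
    E₁.toAddSubgroup E.toAddSubgroup tE (dE _) dE SE (fun x hx => hx) old
    (fun {l x f} hx hf hp => pow_of_inj hL hI (hE l x hx) hf hp)
    (es_inj₁ E.toAddSubgroup S.toAddMonoidHom (TT O A L H q).toAddMonoidHom (AddMonoidHom.id _) q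
      hES hqx u1)
    (es_inj₂ E.toAddSubgroup S.toAddMonoidHom (TT O A L H q).toAddMonoidHom (AddMonoidHom.id _)
      (AddMonoidHom.id _) q hES hqx (fun x hx => hx) (fun _ => rfl) hTS (fun _ => rfl)
      (fun _ => rfl) u2)

section EQ

open Finset

variable {r L m : ℕ} {q : Fin r → ℕ} [NeZero m] {P : ℕ → Prop} {a α : ℕ → O}

theorem flip_H1 (h : Aux L q m) (i : Fin r) : ∀ u ∈ H1 L q m, ∀ u',
    ZMod.unitsMap (h.stp i).dvd u' = ZMod.unitsMap (h.stp i).dvd u →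
      ZMod.unitsMap (h.stp i).dvd' (u' * u) = 1 → u' ∈ H1 L q m := fun u hu u' h1 h2 => by
  obtain ⟨h3, h4⟩ := h.chi_single i (u := u' * u⁻¹) (by rw [map_mul, map_inv, h1, mul_inv_cancel])
  have h5 : chi L q m u = 1 := hu.2
  refine ⟨by simpa using mul_mem h3 hu.1, ?_⟩
  have h6 : chi1 (q i) m (ZMod.unitsMap (q_dvd_LQ L q i) u) = 1 := congrFun h5 i
  have h7 : ZMod.unitsMap (q_dvd_LQ L q i) u' = (ZMod.unitsMap (q_dvd_LQ L q i) u)⁻¹ :=
    eq_inv_of_mul_eq_one_left (by rw [← map_mul]; exact h2)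
  rw [map_mul, map_inv, h5, inv_one, mul_one, map_mul, map_inv, h7, map_mul, map_inv, h6, inv_one,
    mul_one, Pi.mulSingle_one] at h4
  exact h4

/-- **the local identity on the Taylor-Wiles module** -/
theorem tw_EQ (h : Aux L q m) (s : Sy L q P a α) (i : Fin r) {p k : ℕ} (hp : p.Prime)
    (hΔ : IsPGroup p (Dl m r)) (hpq : p ≠ q i) (hm : ∀ c : A, n • c = 0) (hn : n ∣ p ^ k)
    (hu : IsUnit (a (q i) ^ 2 - (q i + 1) ^ 2)) (hv : v (q i : ℂ) < 1) {σ τ : ℂ ≃+* ℂ}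
    (hσv : ∀ c, v (σ c) = v c) (hσ : ∀ c, v c ≤ 1 → v (σ c - c ^ q i) < 1)
    (hτ : ∀ c, v c ≤ 1 → v (τ c - c) < 1) {e : ℤ}
    (he : τ (Wp.zeta (LQ L q)) = Wp.zeta (LQ L q) ^ e) {c : (ZMod (LQ L q))ˣ}
    (hc : (c : ZMod (LQ L q)) = e) {t : Module.End O (HH (Gq (LQ L q) (H1 L q m)) A)}
    (ht : ActK n (AddMonoidHom.id _) τ t)
    {S : Module.End O (HH (Gq (LQ' L q i) (H0 (LQ' L q i))) A)}
    (hS : ActK n (AddMonoidHom.id _) σ S)
    {E : Set (HH (Gq (LQ' L q i) (H0 (LQ' L q i))) (ZMod n))} (hI : Inj v n _ E)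
    (hE : ∀ (l : A →+ ZMod n), ∀ x ∈ EL A P (aS ((univ.image q).erase (q i)) a α) (LQ' L q i)
      (H0 (LQ' L q i)), l.comp x ∈ E) :
    ∀ x ∈ EQ A L q m P a α,
      t (t x - h.dia O A (chi L q m c) x) = t x - h.dia O A (chi L q m c) x := by
  have h0 := (h.neZero' i).ne
  have h1 := h.neZero.ne
  have h4 : 4 ∣ LQ' L q i := h.four.trans (dvd_LQ' L q i)
  have hst := h.stp i
  have hcop : Nat.Coprime (LQ' L q i) (q i) :=
    ((Nat.Prime.coprime_iff_not_dvd hst.prime).2 hst.ndvd).symm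
  have he1 : (e : ZMod (LQ' L q i)) = 1 :=
    exp_one h0 hst.prime.ne_zero (v_nat_eq hv hcop) (τ := (τ : ℂ →+* ℂ)) hτ (hst.eq ▸ he)
  have hc0 : c ∈ H0 (LQ L q) := (h.chi_single i (Units.ext (by
    rw [ZMod.unitsMap_val, hc, ZMod.cast_intCast hst.dvd, he1, Units.val_one]))).1
  obtain ⟨g, hg, rfl⟩ := dU_surj c
  haveI := h.fin₁ A
  have hex₁ := hex_Gq (n := n) h1 h.four' fun u (hu : u ∈ H1 L q m) => (mem_H0 h.four').1 hu.1
  have hex := hex_Gq (n := n) h0 h4 fun u (hu : u ∈ H0 _) => (mem_H0 h4).1 hu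
  exact twi_K hst h0 h4 (fun u hu => (mem_H0 h4).1 hu) (H1_le L q m) (flip_H1 h i) h.cov hp hΔ hpq
    hm hn hv hσv hσ hτ he ⟨g, mem_Gq_iff.2 ⟨hg, hc0⟩⟩ hc ht hS (EQ A L q m P a α) _
    (fun x hx => EL_comm hx fun l hl => LinearMap.ext fun y =>
      comm_V hm Function.injective_id hex₁ ht ⟨Tp ℤ _ l, Tp_corr (s.prime l hl)⟩
        (fun _ f0 hf => aut_Tp h1 (s.prime l hl).ne_zero τ f0 hf)
        (fun x => TT_int (s.prime l hl) x) y)
    (fun δ x hx => h.dia_mem A δ hx)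
    (fun x hx => EL_comm hx fun l hl => LinearMap.ext fun y =>
      comm_V hm Function.injective_id hex hS ⟨Tp ℤ _ l, Tp_corr (s.prime l hl)⟩
        (fun _ f0 hf => aut_Tp h0 (s.prime l hl).ne_zero σ f0 hf)
        (fun x => TT_int (s.prime l hl) x) y)
    (fun x hx => EL_TT hx _) (fun x hx hd => h.old A s i hx hd) hI hE (s.un i).hq hu
    (fun x hx => by
      have := mem_EL.1 hx (q i) (s.hq i)
      rwa [aS, if_neg (notMem_erase _ _)] at this)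

end EQ

end Crest.Agent.T15.Twi
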