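import Crest.Agent.T15.FlDef_80

/-!
# Row 15, block Fl: the maximal unramified extension at `3` (helper75)

`Tei Ω` is the set of Teichmüller representatives, `Fnr F Ω = F(Tei Ω)`.  It has the value group of
`F`, the residue field of `Ω`, and its fixing subgroup is the inertia group.
-/

set_option autoImplicit false

noncomputable section

namespace Crest.Agent.T15.Fl

open scoped NNReal
open Polynomial

/-- Teichmüller representatives -/
def Tei (Ω : Type*) [Field Ω] : Set Ω := {z | ∃ n : ℕ, 0 < n ∧ z ^ 3 ^ n = z}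

/-- the maximal unramified extension -/
def Fnr (F Ω : Type*) [Field F] [Field Ω] [Algebra F Ω] : IntermediateField F Ω :=
  IntermediateField.adjoin F (Tei Ω)

namespace Unr

variable {Ω : Type*} [Field Ω] {w : Valuation Ω ℝ≥0}

lemma w_natCast_le (w : Valuation Ω ℝ≥0) (n : ℕ) : w n ≤ 1 := natCast_mem w.integer n

lemma w_intCast_le (w : Valuation Ω ℝ≥0) (n : ℤ) : w n ≤ 1 := intCast_mem w.integer n

lemma w_natCast (h3 : w 3 < 1) {n : ℕ} (hn : ¬ 3 ∣ n) : w n = 1 := by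
  refine le_antisymm (w_natCast_le w n) (not_lt.1 fun h => ?_)
  obtain ⟨a, b, hab⟩ := Nat.isCoprime_iff_coprime.2
    ((Nat.Prime.coprime_iff_not_dvd Nat.prime_three).2 hn)
  have e : (a : Ω) * 3 + (b : Ω) * n = 1 := by exact_mod_cast congrArg (Int.cast : ℤ → Ω) hab
  have : w ((a : Ω) * 3 + (b : Ω) * n) < 1 := by
    refine lt_of_le_of_lt (w.map_add _ _) (max_lt ?_ ?_) <;> rw [map_mul]
    · exact mul_lt_one_of_nonneg_of_lt_one_right (w_intCast_le w a) zero_le h3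
    · exact mul_lt_one_of_nonneg_of_lt_one_right (w_intCast_le w b) zero_le h
  rw [e, map_one] at this
  exact lt_irrefl _ this

lemma pow_pow_mul {z : Ω} {n : ℕ} (h : z ^ 3 ^ n = z) : ∀ m : ℕ, z ^ 3 ^ (n * m) = z
  | 0 => by simp
  | m + 1 => by rw [Nat.mul_succ, pow_add, pow_mul, pow_pow_mul h m, h]

lemma pow_sub_one_eq {z : Ω} {n : ℕ} (h : z ^ 3 ^ n = z) (hz : z ≠ 0) : z ^ (3 ^ n - 1) = 1 := by
  refine mul_right_cancel₀ hz ?_
  rw [← pow_succ, Nat.sub_add_cancel (Nat.one_le_pow _ _ (by norm_num)), h, one_mul]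

lemma three_pow_sub_one_ne {n : ℕ} (hn : 0 < n) : 3 ^ n - 1 ≠ 0 :=
  Nat.sub_ne_zero_of_lt (Nat.one_lt_pow hn.ne' (by norm_num))

lemma not_dvd_three_pow_sub_one {n : ℕ} (hn : 0 < n) : ¬ 3 ∣ 3 ^ n - 1 := fun h => by
  have h1 : 3 ∣ 3 ^ n := dvd_pow_self 3 hn.ne'
  have h2 := Nat.dvd_sub h1 h
  rw [Nat.sub_sub_self (Nat.one_le_pow _ _ (by norm_num))] at h2
  exact absurd h2 (by norm_num)

lemma w_eq_one_of_pow {z : Ω} {m : ℕ} (hm : m ≠ 0) (h : z ^ m = 1) : w z = 1 := by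
  have := congrArg w h
  rw [map_pow, map_one] at this
  exact (pow_eq_one_iff_of_nonneg zero_le hm).1 this

lemma w_tei {z : Ω} (hz : z ∈ Tei Ω) (h0 : z ≠ 0) : w z = 1 := by
  obtain ⟨n, hn, h⟩ := hz
  exact w_eq_one_of_pow (three_pow_sub_one_ne hn) (pow_sub_one_eq h h0)

lemma w_tei_le {z : Ω} (hz : z ∈ Tei Ω) : w z ≤ 1 := by
  by_cases h0 : z = 0
  · simp [h0]
  · exact (w_tei hz h0).le

lemma zero_mem_tei : (0 : Ω) ∈ Tei Ω := ⟨1, one_pos, by simp⟩

lemma pow_mem_tei {z : Ω} (hz : z ∈ Tei Ω) (k : ℕ) : z ^ k ∈ Tei Ω := by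
  obtain ⟨n, hn, h⟩ := hz
  exact ⟨n, hn, by rw [← pow_mul, mul_comm, pow_mul, h]⟩

lemma map_mem_tei {Ω' Φ : Type*} [Field Ω'] [FunLike Φ Ω Ω'] [MonoidHomClass Φ Ω Ω'] (σ : Φ)
    {z : Ω} (hz : z ∈ Tei Ω) : σ z ∈ Tei Ω' := by
  obtain ⟨n, hn, h⟩ := hz
  exact ⟨n, hn, by rw [← map_pow, h]⟩

/-- a root of unity of order prime to `3` is a Teichmüller representative -/
lemma mem_tei_of_pow {z : Ω} {m : ℕ} (hm : ¬ 3 ∣ m) (h : z ^ m = 1) : z ∈ Tei Ω := by
  have hm0 : 0 < m := Nat.pos_of_ne_zero fun h0 => hm (h0 ▸ dvd_zero 3)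
  have hc : Nat.Coprime 3 m := (Nat.Prime.coprime_iff_not_dvd Nat.prime_three).2 hm
  refine ⟨m.totient, Nat.totient_pos.2 hm0, ?_⟩
  obtain ⟨k, hk⟩ := (Nat.modEq_iff_dvd' (Nat.one_le_pow _ _ (by norm_num))).1
    (Nat.ModEq.pow_totient hc).symm
  rw [show 3 ^ m.totient = m * k + 1 by
    rw [← hk, Nat.sub_add_cancel (Nat.one_le_pow _ _ (by norm_num))], pow_succ, pow_mul, h, one_pow,
    one_mul]

/-- Teichmüller representatives are distinct modulo the maximal ideal -/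
lemma tei_eq (h3 : w 3 < 1) {z z' : Ω} (hz : z ∈ Tei Ω) (hz' : z' ∈ Tei Ω)
    (h : w (z - z') < 1) : z = z' := by
  have h1 := w_tei_le (w := w) hz'
  obtain ⟨n, hn, e⟩ := hz
  obtain ⟨m, hm, e'⟩ := hz'
  have e1 := pow_pow_mul e m
  have e2 := pow_pow_mul e' n
  rw [mul_comm] at e2
  obtain ⟨r, hr⟩ := exists_add_pow_prime_pow_eq (R := w.integer) Nat.prime_three ⟨z', h1⟩
    ⟨z - z', h.le⟩ (n * m)
  have hr' : (z' + (z - z')) ^ 3 ^ (n * m) =
      z' ^ 3 ^ (n * m) + (z - z') ^ 3 ^ (n * m) + 3 * z' * (z - z') * (r : Ω) := by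
    have := congrArg (w.integer.subtype) hr
    simp only [map_add, map_mul, map_pow, map_natCast] at this
    exact_mod_cast this
  rw [add_sub_cancel, e1, e2] at hr'
  by_contra hne
  have hd : z - z' ≠ 0 := sub_ne_zero.2 hne
  have hq := three_pow_sub_one_ne (Nat.mul_pos hn hm)
  have e3 : (1 : Ω) = (z - z') ^ (3 ^ (n * m) - 1) + 3 * z' * r := by
    refine mul_right_cancel₀ hd ?_
    rw [add_mul, ← pow_succ, Nat.sub_add_cancel (Nat.one_le_pow _ _ (by norm_num))]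
    linear_combination hr'
  have : w ((z - z') ^ (3 ^ (n * m) - 1) + 3 * z' * r) < 1 := by
    refine lt_of_le_of_lt (w.map_add _ _) (max_lt ?_ ?_)
    · rw [map_pow]; exact pow_lt_one₀ zero_le h hq
    · rw [map_mul, map_mul, mul_assoc]
      exact mul_lt_one_of_nonneg_of_lt_one_left zero_le h3 (mul_le_one' h1 r.2)
  rw [← e3, map_one] at this
  exact lt_irrefl _ this

/-- an approximate Teichmüller representative is close to a true one -/
lemma exists_tei [IsAlgClosed Ω] {x : Ω} {n : ℕ} (hn : 0 < n) (h : w (x ^ 3 ^ n - x) < 1) :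
    ∃ z ∈ Tei Ω, w (x - z) < 1 := by
  have hq : 1 < 3 ^ n := Nat.one_lt_pow hn.ne' (by norm_num)
  let f : Polynomial Ω := X ^ 3 ^ n - X
  have hf : f.Monic := monic_X_pow_sub (by rw [degree_X]; exact_mod_cast hq)
  have e : f.eval x = (f.roots.map fun a => x - a).prod := by
    conv_lhs => rw [(IsAlgClosed.splits f).eq_prod_roots_of_monic hf]
    rw [eval_multiset_prod, Multiset.map_map]
    simp
  by_contra hc
  push Not at hc
  have : 1 ≤ w (f.eval x) := by
    rw [e, map_multiset_prod, Multiset.map_map]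
    refine Multiset.one_le_prod_of_one_le fun a ha => ?_
    obtain ⟨z, hz, rfl⟩ := Multiset.mem_map.1 ha
    refine hc z ⟨n, hn, ?_⟩
    have := (mem_roots hf.ne_zero).1 hz
    simpa [f, sub_eq_zero] using this
  simp only [f, eval_sub, eval_pow, eval_X] at this
  exact absurd h (not_lt.2 this)

/-- residues of algebraic integers are algebraic over `𝔽₃` -/
lemma exists_pow_of_integral (h3 : w 3 < 1) {x : Ω} (hx : IsIntegral ℤ x) :
    ∃ n : ℕ, 0 < n ∧ w (x ^ 3 ^ n - x) < 1 := by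
  let O := w.valuationSubring
  have hxO : x ∈ O := by
    have : IsIntegral O x := hx.tower_top
    obtain ⟨y, hy⟩ := IsIntegrallyClosed.isIntegral_iff.1 this
    rw [← hy]; exact y.2
  have hlt : ∀ y : O, IsLocalRing.residue O y = 0 ↔ w y < 1 := fun y => by
    rw [IsLocalRing.residue_eq_zero_iff, ValuationSubring.valuation_lt_one_iff,
      (Valuation.isEquiv_valuation_valuationSubring w).lt_one_iff_lt_one]
  have : Fact (Nat.Prime 3) := ⟨Nat.prime_three⟩
  have : CharP (IsLocalRing.ResidueField O) 3 := by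
    refine (CharP.charP_iff_prime_eq_zero Nat.prime_three).2 ?_
    rw [← map_natCast (IsLocalRing.residue O), hlt]
    exact h3
  let := ZMod.algebra (IsLocalRing.ResidueField O) 3
  let y := IsLocalRing.residue O ⟨x, hxO⟩
  have h1 : IsIntegral ℤ (⟨x, hxO⟩ : O) :=
    (isIntegral_algHom_iff (O.subtype.toIntAlgHom) Subtype.val_injective).1 hx
  have h4 : IsIntegral (ZMod 3) y := by
    obtain ⟨g, hg, hg0⟩ := h1
    refine ⟨g.map (Int.castRingHom _), hg.map _, ?_⟩
    have := congrArg (IsLocalRing.residue O) hg0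
    rw [hom_eval₂, map_zero] at this
    rw [eval₂_map, RingHom.ext_int (RingHom.comp _ _)
      ((IsLocalRing.residue O).comp (algebraMap ℤ O))]
    exact this
  let K := IntermediateField.adjoin (ZMod 3) {y}
  have : FiniteDimensional (ZMod 3) K := IntermediateField.adjoin.finiteDimensional h4
  have : Finite K := Module.finite_of_finite (ZMod 3)
  have := Fintype.ofFinite K
  have : CharP K 3 := charP_of_injective_algebraMap (algebraMap (ZMod 3) K).injective 3
  obtain ⟨n, -, hn⟩ := FiniteField.card K 3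
  have h5 := FiniteField.pow_card (⟨y, IntermediateField.mem_adjoin_simple_self _ y⟩ : K)
  rw [hn] at h5
  have h6 : y ^ 3 ^ (n : ℕ) = y := congrArg Subtype.val h5
  refine ⟨n, n.pos, ?_⟩
  have := (hlt (⟨x, hxO⟩ ^ 3 ^ (n : ℕ) - ⟨x, hxO⟩)).1 (by rw [map_sub, map_pow]; exact sub_eq_zero.2 h6)
  simpa using this

variable {F : Type*} [Field F] [Algebra F Ω]

lemma tei_mem {z : Ω} (hz : z ∈ Tei Ω) : z ∈ Fnr F Ω := IntermediateField.subset_adjoin _ _ hz

lemma mem_fix_iff (σ : Ω ≃ₐ[F] Ω) :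
    σ ∈ (Fnr F Ω).fixingSubgroup ↔ ∀ z ∈ Tei Ω, σ z = z := by
  rw [IntermediateField.mem_fixingSubgroup_iff]
  refine ⟨fun h z hz => h z (tei_mem hz), fun h x hx => ?_⟩
  induction hx using IntermediateField.adjoin_induction with
  | mem x hx => exact h x hx
  | algebraMap x => exact σ.commutes x
  | add x y _ _ hx hy => rw [map_add, hx, hy]
  | inv x _ hx => rw [map_inv₀, hx]
  | mul x y _ _ hx hy => rw [map_mul, hx, hy]

/-- the fixing subgroup of `Fnr` is the inertia group -/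
theorem mem_fix_iff_res (h3 : w 3 < 1) (hinv : ∀ (σ : Ω ≃ₐ[F] Ω) x, w (σ x) = w x)
    (hT : ∀ x, w x ≤ 1 → ∃ z ∈ Tei Ω, w (x - z) < 1) (σ : Ω ≃ₐ[F] Ω) :
    σ ∈ (Fnr F Ω).fixingSubgroup ↔ ∀ x, w x ≤ 1 → w (σ x - x) < 1 := by
  rw [mem_fix_iff]
  refine ⟨fun h x hx => ?_, fun h z hz => tei_eq h3 (map_mem_tei σ hz) hz (h z (w_tei_le hz))⟩
  obtain ⟨z, hz, hxz⟩ := hT x hx
  have e : σ x - x = σ (x - z) - (x - z) := by rw [map_sub, h z hz]; ring
  rw [e]
  exact lt_of_le_of_lt (w.map_sub _ _) (max_lt (by rwa [hinv]) hxz)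

/-- commutators lie in the inertia group -/
theorem comm_mem_fix (σ τ : Ω ≃ₐ[F] Ω) : σ * τ * σ⁻¹ * τ⁻¹ ∈ (Fnr F Ω).fixingSubgroup := by
  rw [mem_fix_iff]
  intro z hz
  by_cases h0 : z = 0
  · simp [h0]
  obtain ⟨n, hn, h⟩ := hz
  have hq := three_pow_sub_one_ne hn
  have : NeZero (3 ^ n - 1) := ⟨hq⟩
  let u : rootsOfUnity (3 ^ n - 1) Ω := rootsOfUnity.mkOfPowEq z (pow_sub_one_eq h h0)
  have key : ∀ ρ : Ω ≃ₐ[F] Ω, ∃ m : ℕ, ∀ t : rootsOfUnity (3 ^ n - 1) Ω,
      ρ ((t : Ωˣ) : Ω) = ((t ^ m : rootsOfUnity (3 ^ n - 1) Ω) : Ωˣ) := fun ρ => by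
    obtain ⟨m, hm⟩ := rootsOfUnity.integer_power_of_ringEquiv' (3 ^ n - 1) ρ.toRingEquiv
    refine ⟨(m % ((3 ^ n - 1 : ℕ) : ℤ)).toNat, fun t => ?_⟩
    refine (hm t.1 t.2).trans ?_
    congr 1
    have ht : (t : Ωˣ) ^ (3 ^ n - 1) = 1 := t.2
    rw [SubgroupClass.coe_pow, ← zpow_natCast,
      Int.toNat_of_nonneg (Int.emod_nonneg _ (by exact_mod_cast hq)),
      ← zpow_eq_zpow_emod' m ht]
  obtain ⟨a, ha⟩ := key σ⁻¹
  obtain ⟨b, hb⟩ := key τ⁻¹
  have e : σ⁻¹ (τ⁻¹ z) = τ⁻¹ (σ⁻¹ z) := by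
    change σ⁻¹ (τ⁻¹ ((u : Ωˣ) : Ω)) = τ⁻¹ (σ⁻¹ ((u : Ωˣ) : Ω))
    rw [ha, hb, ha, hb, ← pow_mul, ← pow_mul, mul_comm]
  simp only [AlgEquiv.mul_apply]
  rw [e]
  simp

/-- **the value group of `Fnr` is that of `F`** -/
theorem exists_w_eq [IsGalois F Ω] (h3 : w 3 < 1) (hinv : ∀ (σ : Ω ≃ₐ[F] Ω) x, w (σ x) = w x)
    {a : Ω} (ha : a ∈ Fnr F Ω) : ∃ b : F, w (algebraMap F Ω b) = w a := by
  classical
  obtain ⟨S, hS, haS⟩ := IntermediateField.exists_finset_of_mem_adjoin ha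
  obtain ⟨n, hn, hSn⟩ : ∃ n : ℕ, 0 < n ∧ ∀ z ∈ S, z ^ 3 ^ n = z := by
    clear haS
    induction S using Finset.induction_on with
    | empty => exact ⟨1, one_pos, by simp⟩
    | insert z S _ ih =>
      obtain ⟨n, hn, h⟩ := ih fun y hy => hS (by simp [show y ∈ S from hy])
      obtain ⟨m, hm, h'⟩ := hS (show z ∈ ((insert z S : Finset Ω) : Set Ω) by simp)
      refine ⟨n * m, Nat.mul_pos hn hm, fun y hy => ?_⟩
      rcases Finset.mem_insert.1 hy with rfl | hy
      · rw [mul_comm]; exact pow_pow_mul h' n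
      · exact pow_pow_mul (h y hy) m
  have hq := three_pow_sub_one_ne hn
  have : NeZero (3 ^ n - 1) := ⟨hq⟩
  set U := rootsOfUnity (3 ^ n - 1) Ω
  have := Fintype.ofFinite U
  let K : IntermediateField F Ω := IntermediateField.adjoin F (Set.range fun t : U => ((t : Ωˣ) : Ω))
  have haK : a ∈ K := by
    refine (IntermediateField.adjoin_le_iff.2 fun z hz => ?_ :
      IntermediateField.adjoin F (S : Set Ω) ≤ K) haS
    by_cases h0 : z = 0
    · rw [h0]; exact K.zero_mem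
    · exact IntermediateField.subset_adjoin _ _
        ⟨rootsOfUnity.mkOfPowEq z (pow_sub_one_eq (hSn z hz) h0), rfl⟩
  have hUK : ∀ t : U, ((t : Ωˣ) : Ω) ∈ K := fun t => IntermediateField.subset_adjoin _ _ ⟨t, rfl⟩
  have : FiniteDimensional F K :=
    IntermediateField.finiteDimensional_adjoin fun x _ => Algebra.IsIntegral.isIntegral x
  have hUm : ∀ (σ : Ω ≃ₐ[F] Ω) (t : U), ∃ s : U, σ ((t : Ωˣ) : Ω) = ((s : Ωˣ) : Ω) := fun σ t =>
    ⟨restrictRootsOfUnity σ _ t, rfl⟩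
  have : Normal F K := by
    refine (IntermediateField.normal_iff_forall_map_le').2 fun σ => ?_
    rw [IntermediateField.adjoin_map, IntermediateField.adjoin_le_iff]
    rintro _ ⟨_, ⟨t, rfl⟩, rfl⟩
    obtain ⟨s, hs⟩ := hUm σ t
    exact hs ▸ hUK s
  have : IsGalois F K := {}
  let u : U → K := fun t => ⟨_, hUK t⟩
  let a' : K := ⟨a, haK⟩
  have hw : ∀ (σ : K ≃ₐ[F] K) (x : K), w (σ x : Ω) = w x := fun σ x => by
    rw [← hinv (σ.liftNormal Ω) x]
    exact congrArg w (σ.liftNormal_commutes Ω x).symm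
  have hwu : ∀ t, w (u t : Ω) = 1 := fun t =>
    w_eq_one_of_pow hq ((Units.val_pow_eq_pow_val _ _).symm.trans
      (congrArg Units.val (show (t : Ωˣ) ^ (3 ^ n - 1) = 1 from t.2)))
  have hu0 : ∀ t, u t ≠ 0 := fun t h => by
    have := hwu t
    rw [h] at this
    simp at this
  -- orthogonality
  have horth : ∀ σ : K ≃ₐ[F] K, σ ≠ 1 → ∑ t, σ (u t) * (u t)⁻¹ = 0 := fun σ hσ => by
    let χ : U →* K := MonoidHom.mk' (M := U) (G := Kˣ)
      (fun t => Units.mk0 (σ (u t) * (u t)⁻¹) (by simp [hu0 t]))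
      (fun s t => by
        have e : u (s * t) = u s * u t := rfl
        ext1
        simp only [Units.val_mk0, Units.val_mul, e, map_mul, mul_inv]
        ring) |> (Units.coeHom K).comp
    refine sum_hom_units_eq_zero χ fun h => hσ ?_
    have h1 : ∀ t, σ (u t) = u t := fun t => by
      have : σ (u t) * (u t)⁻¹ = 1 := DFunLike.congr_fun h t
      rwa [mul_inv_eq_one₀ (hu0 t)] at this
    have h2 : σ.liftNormal Ω ∈ K.fixingSubgroup := by
      rw [IntermediateField.mem_fixingSubgroup_iff]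
      intro x hx
      induction hx using IntermediateField.adjoin_induction with
      | mem x hx =>
        obtain ⟨t, rfl⟩ := hx
        exact (σ.liftNormal_commutes Ω (u t)).trans (congrArg Subtype.val (h1 t))
      | algebraMap x => exact AlgEquiv.commutes _ x
      | add x y _ _ hx hy => rw [map_add, hx, hy]
      | inv x _ hx => rw [map_inv₀, hx]
      | mul x y _ _ hx hy => rw [map_mul, hx, hy]
    ext x
    exact (σ.liftNormal_commutes Ω x).symm.trans
      ((IntermediateField.mem_fixingSubgroup_iff _ _).1 h2 x x.2)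
  have hsum : ∑ t, (∑ σ : K ≃ₐ[F] K, σ (a' * u t)) * (u t)⁻¹ = (Fintype.card U : K) * a' := by
    simp only [Finset.sum_mul, map_mul, mul_assoc]
    rw [Finset.sum_comm, Finset.sum_eq_single 1]
    · simp [hu0]
    · intro σ _ hσ
      rw [← Finset.mul_sum, horth σ hσ, mul_zero]
    · simp
  have hcard : w (Fintype.card U : Ω) = 1 := by
    refine w_natCast h3 fun h => not_dvd_three_pow_sub_one hn (h.trans ?_)
    obtain ⟨g, hg⟩ := IsCyclic.exists_ofOrder_eq_natCard (α := U)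
    rw [← Nat.card_eq_fintype_card, ← hg]
    exact orderOf_dvd_of_pow_eq_one (Subtype.ext g.2)
  have hle : ∀ t, w ((∑ σ : K ≃ₐ[F] K, σ (a' * u t) : K) : Ω) ≤ w a := fun t => by
    rw [AddSubmonoidClass.coe_finsetSum]
    refine w.map_sum_le fun σ _ => ?_
    rw [hw, MulMemClass.coe_mul, map_mul, hwu, mul_one]
  by_cases h0 : a = 0
  · exact ⟨0, by simp [h0]⟩
  obtain ⟨t, ht⟩ : ∃ t, w ((∑ σ : K ≃ₐ[F] K, σ (a' * u t) : K) : Ω) = w a := by
    by_contra hc
    push Not at hc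
    have h1 := congrArg (fun x : K => w (x : Ω)) hsum
    beta_reduce at h1
    rw [AddSubmonoidClass.coe_finsetSum, MulMemClass.coe_mul, map_mul, SubringClass.coe_natCast,
      hcard, one_mul] at h1
    refine absurd h1 (ne_of_lt (w.map_sum_lt ((Valuation.ne_zero_iff _).2 h0) fun t _ => ?_))
    rw [MulMemClass.coe_mul, IntermediateField.coe_inv, map_mul, map_inv₀, hwu, inv_one, mul_one]
    exact lt_of_le_of_ne (hle t) (hc t)
  refine ⟨Algebra.trace F K (a' * u t), ?_⟩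
  rw [← ht, ← trace_eq_sum_automorphisms]
  rfl

/-- the local context passes to `Fnr` -/
theorem ctx_nr [IsGalois F Ω] (h : Ctx F w) : Ctx (Fnr F Ω) w where
  inv σ x := h.inv (σ.restrictScalars F) x
  w3 := h.w3
  disc a ha := by
    obtain ⟨b, hb⟩ := exists_w_eq h.w3 h.inv a.2
    have h0 : b ≠ 0 := fun h0 => by
      rw [h0, map_zero, map_zero, eq_comm, Valuation.zero_iff] at hb
      exact ha (Subtype.ext hb)
    obtain ⟨n, hn⟩ := h.disc b h0
    exact ⟨n, hb.symm.trans hn⟩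

/-- an open normal subgroup is the fixing subgroup of a finite Galois extension -/
theorem exists_field [IsGalois F Ω] (H : Subgroup (Ω ≃ₐ[F] Ω)) (hH : IsOpen (H : Set (Ω ≃ₐ[F] Ω))) :
    ∃ L : IntermediateField F Ω, FiniteDimensional F L ∧ L.fixingSubgroup = H ∧
      (H.Normal → IsGalois F L) := by
  have e : (IntermediateField.fixedField H).fixingSubgroup = H :=
    InfiniteGalois.fixingSubgroup_fixedField ⟨H, H.isClosed_of_isOpen hH⟩
  refine ⟨IntermediateField.fixedField H, (InfiniteGalois.isOpen_iff_finite _).1 (by rw [e]; exact hH),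
    e, fun hn => (InfiniteGalois.normal_iff_isGalois _).1 (by rwa [e])⟩

end Unr

end Crest.Agent.T15.Fl

end
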