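import Crest.Agent.R013.A2a_275

/-!
# Row 15, block Ht (helper48): tools for the valued set-up

conjugacy of places, extension of derivations, Frobenius lifts.
-/

set_option autoImplicit false

noncomputable section

namespace Crest.Agent.T15.Vs

open scoped NNReal
open Polynomial Crest.Agent.R013.A2a_275

/-- two points of a Galois stable ring that agree on the base are conjugate -/
theorem conj_hom {F Ω k : Type*} [Field F] [Field Ω] [Algebra F Ω] [IsGalois F Ω] [CommRing k]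
    [IsDomain k] (B : Subring Ω) (hB : ∀ (g : Ω ≃ₐ[F] Ω), ∀ b ∈ B, g b ∈ B) (π₁ π₂ : B →+* k)
    (h : ∀ b : B, (b : Ω) ∈ Set.range (algebraMap F Ω) → π₁ b = π₂ b) :
    ∃ g : Ω ≃ₐ[F] Ω, ∀ b : B, π₁ b = π₂ ⟨g b, hB g b b.2⟩ := by
  classical
  let r : (Ω ≃ₐ[F] Ω) → B →+* B := fun g => (g : Ω →+* Ω).restrict B B (hB g)
  have rr : ∀ g g' b, r g (r g' b) = r (g * g') b := fun _ _ _ => rfl
  have r1 : ∀ b, r 1 b = b := fun _ => rfl
  have hcl : ∀ b : B, IsClosed {g : Ω ≃ₐ[F] Ω | π₁ b = π₂ (r g b)} := fun b => by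
    refine IsLocallyConstant.isClosed_fiber (f := fun g => decide (π₁ b = π₂ (r g b))) ?_ true
      |>.preimage continuous_id |> fun h => by simpa using h
    refine IsLocallyConstant.comp (f := fun g : Ω ≃ₐ[F] Ω => r g b) ?_
      fun c => decide (π₁ b = π₂ c)
    rw [IsLocallyConstant.iff_exists_open]
    intro g₀
    refine ⟨(fun g => g₀⁻¹ * g) ⁻¹' (MulAction.stabilizer (Ω ≃ₐ[F] Ω) (b : Ω) : Set _),
      (stabilizer_isOpen_of_isIntegral (b : Ω)).preimage (by fun_prop), by simp, fun g hg => ?_⟩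
    have h1 : g₀⁻¹ (g b) = b := hg
    exact Subtype.ext (g₀.symm_apply_eq.1 h1)
  have fin : ∀ T : Finset B, ∃ g, ∀ b ∈ T, π₁ b = π₂ (r g b) := fun T => by
    let o : (Ω ≃ₐ[F] Ω) → MvPolynomial T B := fun g =>
      ∑ b : T, MvPolynomial.monomial (Finsupp.single b 1) (r g b)
    have oc : ∀ g (b : T), (o g).coeff (Finsupp.single b 1) = r g b := fun g b => by
      simp only [o, MvPolynomial.coeff_sum, MvPolynomial.coeff_monomial,
        Finsupp.single_left_inj one_ne_zero]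
      simp
    have om : ∀ g g', MvPolynomial.map (r g) (o g') = o (g * g') := fun g g' => by
      simp only [o, map_sum, MvPolynomial.map_monomial, rr]
    have hO : (Set.range o).Finite := by
      have h1 : (Set.range fun (g : Ω ≃ₐ[F] Ω) (b : T) => r g b).Finite := by
        refine (Set.Finite.pi' (t := fun b : T =>
          Subtype.val ⁻¹' (minpoly F (b.1 : Ω)).rootSet Ω) fun b =>
          (rootSet_finite _ _).preimage Subtype.val_injective.injOn).subset ?_
        rintro _ ⟨g, rfl⟩ b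
        refine mem_rootSet.2 ⟨minpoly.ne_zero (Algebra.IsIntegral.isIntegral _), ?_⟩
        change aeval (g (b.1 : Ω)) _ = 0
        rw [aeval_algEquiv, AlgHom.comp_apply, minpoly.aeval, map_zero]
      refine (h1.image fun c : T → B =>
        ∑ b : T, MvPolynomial.monomial (Finsupp.single b 1) (c b)).subset ?_
      rintro _ ⟨g, rfl⟩
      exact ⟨_, ⟨g, rfl⟩, rfl⟩
    let Q : (MvPolynomial T B)[X] := ∏ y ∈ hO.toFinset, (X - C y)
    have hQ : ∀ g, Q.map (MvPolynomial.map (r g)) = Q := fun g => by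
      simp only [Q, Polynomial.map_prod, Polynomial.map_sub, map_X, map_C]
      refine Finset.prod_nbij' (MvPolynomial.map (r g)) (MvPolynomial.map (r g⁻¹)) ?_ ?_ ?_ ?_
        fun _ _ => rfl
      all_goals
        intro y hy
        obtain ⟨g', rfl⟩ := hO.mem_toFinset.1 hy
        simp [om]
    have hπ : Q.map (MvPolynomial.map π₁) = Q.map (MvPolynomial.map π₂) := by
      ext n m
      rw [coeff_map, coeff_map, MvPolynomial.coeff_map, MvPolynomial.coeff_map]
      refine h _ ((InfiniteGalois.mem_range_algebraMap_iff_fixed _).2 fun g => ?_)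
      have := congrArg (fun P : (MvPolynomial T B)[X] => (((P.coeff n).coeff m : B) : Ω)) (hQ g)
      simp only [coeff_map, MvPolynomial.coeff_map] at this
      exact this
    have h0 : (Q.map (MvPolynomial.map π₂)).eval (MvPolynomial.map π₁ (o 1)) = 0 := by
      rw [← hπ, eval_map, eval₂_at_apply, eval_prod,
        Finset.prod_eq_zero (hO.mem_toFinset.2 ⟨1, rfl⟩) (by simp), map_zero]
    simp only [Q, Polynomial.map_prod, Polynomial.map_sub, map_X, map_C, eval_prod, eval_sub,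
      eval_X, eval_C, Finset.prod_eq_zero_iff, sub_eq_zero] at h0
    obtain ⟨y, hy, e⟩ := h0
    obtain ⟨g, rfl⟩ := hO.mem_toFinset.1 hy
    refine ⟨g, fun b hb => ?_⟩
    have := congrArg (MvPolynomial.coeff (Finsupp.single (⟨b, hb⟩ : T) 1)) e
    rwa [MvPolynomial.coeff_map, MvPolynomial.coeff_map, oc, oc] at this
  obtain ⟨g, -, hg⟩ := isCompact_univ.inter_iInter_nonempty _ hcl fun T =>
    let ⟨g, hg⟩ := fin T
    ⟨g, trivial, Set.mem_iInter₂.2 hg⟩
  exact ⟨g, fun b => Set.mem_iInter.1 hg b⟩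

theorem lift_hom {R B T : Type} [CommRing R] [CommRing B] [CommRing T] [Algebra R B]
    [Algebra.FormallySmooth R B] (f : R →+* T) (π : T →+* B) (hπ : Function.Surjective π)
    (hn : IsNilpotent (RingHom.ker π)) (h : ∀ r, π (f r) = algebraMap R B r) :
    ∃ g : B →+* T, (∀ b, π (g b) = b) ∧ ∀ r, g (algebraMap R B r) = f r := by
  let := f.toAlgebra
  let π' : T →ₐ[R] B := { π with commutes' := h }
  exact ⟨Algebra.FormallySmooth.liftOfSurjective (AlgHom.id R B) π' hπ hn,
    Algebra.FormallySmooth.liftOfSurjective_apply (AlgHom.id R B) π' hπ hn,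
    (Algebra.FormallySmooth.liftOfSurjective (AlgHom.id R B) π' hπ hn).commutes⟩

/-- Leibniz rule along `i` -/
def Lb {R B : Type*} [CommRing R] [CommRing B] (i : R →+* B) (D : R →+ B) : Prop :=
  ∀ a b, D (a * b) = i a * D b + i b * D a

lemma Lb.one {R B : Type*} [CommRing R] [CommRing B] {i : R →+* B} {D : R →+ B} (h : Lb i D) :
    D 1 = 0 := by simpa using h 1 1

lemma Lb.pow {R B : Type*} [CommRing R] [CommRing B] {i : R →+* B} {D : R →+ B} (h : Lb i D)
    (a : R) (n : ℕ) : D (a ^ (n + 1)) = (n + 1) * i a ^ n * D a := by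
  induction n with
  | zero => simp
  | succ n ih => rw [pow_succ, h, ih, map_pow]; push_cast; ring

/-- extension of derivations -/
theorem ext_der {R B : Type} [CommRing R] [CommRing B] [Algebra R B] [Algebra.FormallySmooth R B]
    (D : R →+ B) (hD : Lb (algebraMap R B) D) :
    ∃ d : B →+ B, Lb (RingHom.id B) d ∧ ∀ r, d (algebraMap R B r) = D r := by
  let f : R →+* TrivSqZeroExt B B :=
    { toFun := fun r => TrivSqZeroExt.inl (algebraMap R B r) + TrivSqZeroExt.inr (D r)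
      map_one' := by ext <;> simp [hD.one]
      map_mul' := fun a b => by ext <;> simp [hD a b, mul_comm]
      map_zero' := by ext <;> simp
      map_add' := fun a b => by ext <;> simp }
  obtain ⟨g, h1, h2⟩ := lift_hom f (TrivSqZeroExt.fstHom B B B).toRingHom
    (fun b => ⟨TrivSqZeroExt.inl b, rfl⟩) ⟨2, TrivSqZeroExt.kerIdeal_sq B B⟩ fun r => by simp [f]
  have h1' : ∀ b, (g b).fst = b := h1
  refine ⟨{ toFun := fun b => (g b).snd, map_zero' := by simp, map_add' := fun a b => by simp },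
    fun a b => ?_, fun r => ?_⟩
  · simp [h1', mul_comm]
  · simp [h2, f]

/-- a derivation that kills `R` kills the elements algebraic over `R` -/
theorem Lb.zero_of_alg {R L B : Type*} [CommRing R] [IsDomain R] [CharZero R] [Field L] [Field B]
    {i : L →+* B} {D : L →+ B} (h : Lb i D) (f : R →+* L) (hf : Function.Injective f)
    (h0 : ∀ r, D (f r) = 0) {a : L} {P : R[X]} (hP : P ≠ 0) (ha : P.eval₂ f a = 0) : D a = 0 := by
  have key : ∀ P : R[X], D (P.eval₂ f a) = i (P.derivative.eval₂ f a) * D a := fun P => by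
    induction P using Polynomial.induction_on with
    | C c => simp [h0]
    | add P Q hP hQ => simp [eval₂_add, hP, hQ, add_mul]
    | monomial n c _ =>
      rw [eval₂_mul, eval₂_C, eval₂_X_pow, h, h0, h.pow, derivative_C_mul_X_pow]
      simp [eval₂_mul, eval₂_X_pow, eval₂_add]
      ring
  by_contra hne
  induction hn : P.natDegree using Nat.strong_induction_on generalizing P with
  | _ n ih =>
    have h1 := key P
    rw [ha, map_zero, eq_comm, mul_eq_zero, map_eq_zero_iff i i.injective] at h1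
    by_cases hd : P.natDegree = 0
    · rw [eq_C_of_natDegree_eq_zero hd, eval₂_C, map_eq_zero_iff f hf] at ha
      exact hP (by rw [eq_C_of_natDegree_eq_zero hd, ha, C_0])
    · exact ih _ (hn ▸ natDegree_derivative_lt hd)
        (fun e => hd (derivative_eq_zero.1 e)) (h1.resolve_right hne) rfl

lemma pow_sub_lt {Ω : Type*} [Field Ω] (W : Valuation Ω ℝ≥0) {a b : Ω} (ha : W a ≤ 1)
    (h : W (a - b) < 1) (q : ℕ) : W (a ^ q - b ^ q) < 1 := by
  have hb : W b ≤ 1 := by
    rw [show b = a - (a - b) by ring]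
    exact (W.map_sub _ _).trans (max_le ha h.le)
  rw [← Commute.geom_sum₂_mul (Commute.all _ _), map_mul]
  refine mul_lt_one_of_nonneg_of_lt_one_right (Valuation.map_sum_le _ fun i _ => ?_) zero_le h
  rw [map_mul, map_pow, map_pow]
  exact mul_le_one' (pow_le_one' ha _) (pow_le_one' hb _)

theorem frob_conj {F Ω : Type*} [Field F] [Field Ω] [Algebra F Ω] [IsGalois F Ω]
    (W : Valuation Ω ℝ≥0) {p : ℕ} (hp : p.Prime) (hw : W p < 1) (S₀ : Ω →+* Ω)
    (i₀ : ∀ a, W (S₀ a) = W a) (ig : ∀ (g : Ω ≃ₐ[F] Ω) a, W (g a) = W a)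
    (hF : ∀ y : F, W (algebraMap F Ω y) ≤ 1 →
      W (S₀ (algebraMap F Ω y) - algebraMap F Ω y ^ p) < 1) :
    ∃ g : Ω ≃ₐ[F] Ω, ∀ a, W a ≤ 1 → W (S₀ (g a) - a ^ p) < 1 := by
  let O := W.valuationSubring
  let k := IsLocalRing.ResidueField O
  have hres : ∀ a : O, IsLocalRing.residue O a = 0 ↔ W a < 1 := fun a => by
    rw [IsLocalRing.residue_eq_zero_iff, Valuation.mem_maximalIdeal_iff]
  have : Fact p.Prime := ⟨hp⟩
  have : CharP k p := (CharP.charP_iff_prime_eq_zero hp).2 (by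
    rw [← map_natCast (IsLocalRing.residue O), hres]
    change W (O.subtype p) < 1
    rwa [map_natCast])
  let π₁ : O →+* k := (frobenius k p).comp (IsLocalRing.residue O)
  let π₂ : O →+* k := (IsLocalRing.residue O).comp
    (S₀.restrict O O fun a ha => (i₀ a).trans_le ha)
  have e : ∀ a b : O, π₁ a = π₂ b ↔ W (S₀ b - a ^ p) < 1 := fun a b => by
    change IsLocalRing.residue O a ^ p = IsLocalRing.residue O _ ↔ _
    rw [← map_pow, eq_comm, ← sub_eq_zero, ← map_sub, hres]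
    rfl
  obtain ⟨g, hg⟩ := conj_hom (F := F) O.toSubring (fun g b hb => (ig g b).trans_le hb) π₁ π₂
    fun b ⟨y, hy⟩ => (e b b).2 (by
      have := hF y (by rw [hy]; exact b.2)
      rwa [hy] at this)
  exact ⟨g, fun a ha => (e ⟨a, ha⟩ _).1 (hg ⟨a, ha⟩)⟩

theorem exists_W (K Ω : Type*) [NontriviallyNormedField K] [IsUltrametricDist K] [CompleteSpace K]
    [Field Ω] [Algebra K Ω] [Algebra.IsAlgebraic K Ω] :
    ∃ W : Valuation Ω ℝ≥0, (∀ y, (W (algebraMap K Ω y) : ℝ) = ‖y‖) ∧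
      ∀ S : Ω →+* Ω, (∀ y, (W (S (algebraMap K Ω y)) : ℝ) = ‖y‖) → ∀ a, W (S a) = W a := by
  let W : Valuation Ω ℝ≥0 :=
    { toFun := fun a => (spectralNorm K Ω a).toNNReal
      map_zero' := by rw [spectralNorm_zero, Real.toNNReal_zero]
      map_one' := by rw [spectralNorm_one, Real.toNNReal_one]
      map_mul' := fun x y => by
        rw [← Real.toNNReal_mul (spectralNorm_nonneg _)]
        exact congrArg _ (spectralAlgNorm_mul x y)
      map_add_le_max' := fun x y => by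
        rw [le_max_iff]
        exact (le_max_iff.mp (isNonarchimedean_spectralNorm (K := K) (L := Ω) x y)).imp
          Real.toNNReal_le_toNNReal Real.toNNReal_le_toNNReal }
  have hW : ∀ a, (W a : ℝ) = spectralNorm K Ω a := fun a =>
    Real.coe_toNNReal _ (spectralNorm_nonneg _)
  refine ⟨W, fun y => by rw [hW, spectralNorm_extends], fun S hS a => NNReal.coe_injective ?_⟩
  rw [hW a]
  exact spectralNorm_unique_field_norm_ext (f := absOf (W.comap S)) hS a

theorem exists_lift {K Ω T : Type*} [Field K] [Field Ω] [Algebra K Ω] [Algebra.IsAlgebraic K Ω]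
    [Field T] [IsAlgClosed T] (f : K →+* T) :
    ∃ S : Ω →+* T, ∀ y, S (algebraMap K Ω y) = f y := by
  let := f.toAlgebra
  let S₀ : Ω →ₐ[K] T := IsAlgClosed.lift
  exact ⟨S₀, S₀.commutes⟩

theorem frob_normed (K Ω : Type*) [NontriviallyNormedField K] [IsUltrametricDist K]
    [CompleteSpace K] [Field Ω] [Algebra K Ω] [IsAlgClosed Ω] [IsGalois K Ω] {p : ℕ}
    (hp : p.Prime) (hw : ‖(p : K)‖ < 1) (τ : K →+* K) (hτ : ∀ y, ‖τ y‖ = ‖y‖)
    (hf : ∀ y, ‖y‖ ≤ 1 → ‖τ y - y ^ p‖ < 1) :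
    ∃ (W : Valuation Ω ℝ≥0) (S : Ω →+* Ω), (∀ y, (W (algebraMap K Ω y) : ℝ) = ‖y‖) ∧
      (∀ y, S (algebraMap K Ω y) = algebraMap K Ω (τ y)) ∧ (∀ a, W (S a) = W a) ∧
      ∀ a, W a ≤ 1 → W (S a - a ^ p) < 1 := by
  obtain ⟨W, hW, iso⟩ := exists_W K Ω
  obtain ⟨S₀, hS₀⟩ := exists_lift (Ω := Ω) ((algebraMap K Ω).comp τ)
  have hS : ∀ y, S₀ (algebraMap K Ω y) = algebraMap K Ω (τ y) := hS₀
  have i₀ := iso S₀ fun y => by rw [hS, hW, hτ]
  have ig : ∀ (g : Ω ≃ₐ[K] Ω) a, W (g a) = W a := fun g =>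
    iso (g : Ω →+* Ω) fun y => by rw [RingHom.coe_coe, g.commutes, hW]
  obtain ⟨g, hg⟩ := frob_conj W hp
    (by rwa [← map_natCast (algebraMap K Ω), ← NNReal.coe_lt_coe, hW]) S₀ i₀ ig fun y hy => by
      rw [← NNReal.coe_le_coe, hW] at hy
      rw [hS, ← map_pow, ← map_sub, ← NNReal.coe_lt_coe, hW]
      exact hf y hy
  refine ⟨W, S₀.comp (g : Ω →+* Ω), hW, fun y => ?_, fun a => (i₀ _).trans (ig g a), hg⟩
  change S₀ (g _) = _
  rw [g.commutes, hS]

lemma norm_pow_sub_lt {K : Type*} [NormedField K] [IsUltrametricDist K] {a b : K} (ha : ‖a‖ ≤ 1)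
    (hb : ‖b‖ ≤ 1) (h : ‖a - b‖ < 1) (q : ℕ) : ‖a ^ q - b ^ q‖ < 1 := by
  rw [← Commute.geom_sum₂_mul (Commute.all _ _), norm_mul]
  refine mul_lt_one_of_nonneg_of_lt_one_right
    (IsUltrametricDist.norm_sum_le_of_forall_le_of_nonneg zero_le_one fun i _ => ?_)
    (norm_nonneg _) h
  rw [norm_mul, norm_pow, norm_pow]
  exact mul_le_one₀ (pow_le_one₀ (norm_nonneg _) ha) (by positivity)
    (pow_le_one₀ (norm_nonneg _) hb)

/-- a Frobenius lift extends to an algebraically closed valued field -/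
theorem exists_frob {M : Type} [Field M] [CharZero M] (w : Valuation M ℝ≥0) {p : ℕ} (hp : p.Prime)
    (hw : w p < 1) (φ : M →+* M) (hφ : ∀ a, w (φ a) = w a)
    (hf : ∀ a, w a ≤ 1 → w (φ a - a ^ p) < 1) :
    ∃ (Ω : Type) (_ : Field Ω) (_ : IsAlgClosed Ω) (j : M →+* Ω) (W : Valuation Ω ℝ≥0)
      (S : Ω →+* Ω), (∀ a, W (j a) = w a) ∧ (∀ a, S (j a) = j (φ a)) ∧ (∀ a, W (S a) = W a) ∧
      ∀ a, W a ≤ 1 → W (S a - a ^ p) < 1 := by
  have hnt : ∃ a : M, 1 < w a := ⟨(p : M)⁻¹, by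
    rw [map_inv₀]
    exact (one_lt_inv₀ ((Valuation.pos_iff _).2 (by exact_mod_cast hp.ne_zero))).2 hw⟩
  have : CharZero (Cpl w) := charZero_of_injective_ringHom (toCpl w).injective
  obtain ⟨τ, hτ, hτn⟩ := exists_extend w φ hφ
  have h1 : ‖(p : Cpl w)‖ < 1 := by
    rw [← map_natCast (toCpl w), norm_toCpl]; exact_mod_cast hw
  have h2 : ∀ y : Cpl w, ‖y‖ ≤ 1 → ‖τ y - y ^ p‖ < 1 := fun y hy => by
    obtain ⟨x, hx⟩ := (denseRange_toCpl w).exists_dist_lt y one_pos
    rw [dist_eq_norm] at hx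
    have hx1 : ‖toCpl w x‖ ≤ 1 := by
      rw [show toCpl w x = y + -(y - toCpl w x) by ring]
      exact (IsUltrametricDist.norm_add_le_max _ _).trans (max_le hy (by rw [norm_neg]; exact hx.le))
    rw [show τ y - y ^ p = τ (y - toCpl w x) + toCpl w (φ x - x ^ p) + -(y ^ p - toCpl w x ^ p) by
      rw [map_sub, map_sub, hτ, map_pow]; ring]
    refine lt_of_le_of_lt (IsUltrametricDist.norm_add_le_max _ _) (max_lt (lt_of_le_of_lt
      (IsUltrametricDist.norm_add_le_max _ _) (max_lt ((hτn _).trans_lt hx) ?_)) ?_)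
    · rw [norm_toCpl] at hx1 ⊢
      exact_mod_cast hf x (by exact_mod_cast hx1)
    · rw [norm_neg]; exact norm_pow_sub_lt hy hx1 hx p
  have hg : IsGalois (Cpl w) (AlgebraicClosure (Cpl w)) := inferInstance
  obtain ⟨W, S, a1, a2, a3, a4⟩ := @frob_normed (Cpl w) (AlgebraicClosure (Cpl w)) (nnf w hnt) _ _ _
    _ _ hg p hp h1 τ hτn h2
  refine ⟨_, inferInstance, inferInstance, (algebraMap (Cpl w) _).comp (toCpl w), W, S,
    fun a => NNReal.coe_injective ((a1 _).trans (norm_toCpl w a)), fun a => ?_, a3, a4⟩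
  exact (a2 _).trans (congrArg _ (hτ a))

end Crest.Agent.T15.Vs

end
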