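import Crest.Agent.T15.VsA_48
import Crest.Agent.R013.GR4_921

/-!
# Row 15, block Ht (helper48): algebraic elements along ring maps, residue fields
-/

set_option autoImplicit false

noncomputable section

namespace Crest.Agent.T15.Vs

open scoped NNReal
open Polynomial Crest.Agent.R013.GR4_921

/-- algebraic along `e` -/
def Al {R H : Type*} [CommRing R] [CommRing H] (e : R →+* H) (a : H) : Prop :=
  ∃ P : R[X], P ≠ 0 ∧ P.eval₂ e a = 0

section al

variable {R R' H H' : Type*} [CommRing R] [CommRing R'] [CommRing H] [CommRing H']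

theorem al_iff [Algebra R H] (a : H) : Al (algebraMap R H) a ↔ IsAlgebraic R a := Iff.rfl

theorem Al.tr {e : R →+* H} (he : Function.Injective e) {f : R' →+* H}
    (h : ∀ r, e r ∈ Set.range f) {a : H} (ha : Al e a) : Al f a := by
  obtain ⟨P, h0, hP⟩ := ha
  obtain ⟨Q, hQ⟩ := (mem_lifts (f := f) (P.map e)).1
    ((lifts_iff_coeff_lifts _).2 fun n => by rw [coeff_map]; exact h _)
  refine ⟨Q, fun h1 => h0 (map_injective e he ?_), ?_⟩
  · rw [← hQ, h1, Polynomial.map_zero, Polynomial.map_zero]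
  · rw [← eval_map, hQ, eval_map, hP]

theorem Al.map {e : R →+* H} {e' : R' →+* H'} (ψ : R →+* R') (hψ : Function.Injective ψ)
    (g : H →+* H') (h : ∀ r, g (e r) = e' (ψ r)) {a : H} (ha : Al e a) : Al e' (g a) := by
  obtain ⟨P, h0, hP⟩ := ha
  refine ⟨P.map ψ, fun h1 => h0 (map_injective ψ hψ (by simpa using h1)), ?_⟩
  rw [eval₂_map, show e'.comp ψ = g.comp e from RingHom.ext fun r => (h r).symm, ← hom_eval₂, hP,
    map_zero]

theorem Al.of_map {e : R →+* H} {e' : R →+* H'} (g : H →+* H') (hg : Function.Injective g)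
    (h : ∀ r, g (e r) = e' r) {a : H} (ha : Al e' (g a)) : Al e a := by
  obtain ⟨P, h0, hP⟩ := ha
  refine ⟨P, h0, hg ?_⟩
  rw [hom_eval₂, show g.comp e = e' from RingHom.ext h, hP, map_zero]

theorem Al.self [Nontrivial R] (e : R →+* H) (r : R) : Al e (e r) :=
  ⟨X - C r, X_sub_C_ne_zero r, by simp [eval₂_sub]⟩

end al

theorem Al.mem_range {T H : Type*} [Field T] [IsAlgClosed T] [Field H] {f : T →+* H} {a : H}
    (ha : Al f a) : a ∈ Set.range f := by
  obtain ⟨P, h0, hP⟩ := ha
  exact (IsAlgClosed.splits P).mem_range_of_isRoot h0 (i := f) (by rwa [IsRoot, eval_map])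

theorem exists_sub {R H : Type} [CommRing R] [IsDomain R] [Field H] [IsAlgClosed H] (e : R →+* H)
    (he : Function.Injective e) : ∃ Ω : Subfield H, (∀ a, a ∈ Ω ↔ Al e a) ∧ IsAlgClosed Ω := by
  let := e.toAlgebra
  have : FaithfulSMul R H := (faithfulSMul_iff_algebraMap_injective R H).2 he
  let := FractionRing.liftAlgebra R H
  have := FractionRing.isScalarTower_liftAlgebra R H
  refine ⟨(algebraicClosure (FractionRing R) H).toSubfield, fun a => ?_,
    (algebraicClosure.isAlgClosure (FractionRing R) H).isAlgClosed⟩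
  exact (mem_algebraicClosure_iff).trans (IsFractionRing.isAlgebraic_iff R (FractionRing R) H).symm

theorem ext_der_alg {R Ω : Type} [CommRing R] [IsDomain R] [Field Ω] [CharZero Ω] (e : R →+* Ω)
    (he : Function.Injective e) (hal : ∀ a, Al e a) (D : R →+ Ω) (hD : Lb e D) :
    ∃ d : Ω →+ Ω, Lb (RingHom.id Ω) d ∧ ∀ r, d (e r) = D r := by
  let := e.toAlgebra
  have : FaithfulSMul R Ω := (faithfulSMul_iff_algebraMap_injective R Ω).2 he
  let := FractionRing.liftAlgebra R Ω
  have := FractionRing.isScalarTower_liftAlgebra R Ω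
  have : CharZero (FractionRing R) := (algebraMap (FractionRing R) Ω).charZero
  have : Algebra.IsAlgebraic (FractionRing R) Ω :=
    ⟨fun a => (IsFractionRing.isAlgebraic_iff R (FractionRing R) Ω).1 (hal a)⟩
  have := Algebra.FormallyEtale.of_isSeparable (FractionRing R) Ω
  have : Algebra.FormallySmooth R (FractionRing R) :=
    Algebra.FormallySmooth.of_isLocalization (nonZeroDivisors R)
  have := Algebra.FormallySmooth.comp R (FractionRing R) Ω
  exact ext_der D hD

theorem exists_restr {C Ω : Type*} [Field C] [IsAlgClosed C] [CharZero C] [Algebra.IsAlgebraic ℚ C]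
    [Field Ω] [CharZero Ω] (κ : C →+* Ω) (T : Ω →+* Ω) :
    ∃ s : C ≃+* C, ∀ c, T (κ c) = κ (s c) := by
  have h : ∀ c, T (κ c) ∈ Set.range κ := fun c => by
    have h1 : Al (algebraMap ℚ C) c := Algebra.IsAlgebraic.isAlgebraic c
    have h2 : Al (algebraMap ℚ Ω) ((T.comp κ) c) :=
      h1.map (RingHom.id ℚ) Function.injective_id _ fun r => by simp
    exact (h2.tr (f := κ) (algebraMap ℚ Ω).injective fun r => ⟨r, by simp⟩).mem_range
  choose t ht using h
  let t' : C →+* C :=
    { toFun := t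
      map_one' := κ.injective (by simp [ht])
      map_mul' := fun a b => κ.injective (by simp [ht])
      map_zero' := κ.injective (by simp [ht])
      map_add' := fun a b => κ.injective (by simp [ht]) }
  exact ⟨RingEquiv.ofBijective t' (Algebra.IsAlgebraic.algHom_bijective t'.toRatAlgHom),
    fun c => (ht c).symm⟩

theorem closed_res {C : Type*} [Field C] [IsAlgClosed C] (O : ValuationSubring C) :
    IsAlgClosed (IsLocalRing.ResidueField O) := by
  apply IsAlgClosed.of_exists_root
  intro p hp hirr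
  obtain ⟨q, hq, -, hqm⟩ := lifts_and_degree_eq_and_monic ((lifts_iff_coeff_lifts p).2 fun n =>
    IsLocalRing.residue_surjective (R := O) _) hp
  have hdeg : (q.map (algebraMap O C)).degree ≠ 0 := by
    rw [hqm.degree_map, ← hqm.degree_map (IsLocalRing.residue O), hq]
    exact (degree_pos_of_irreducible hirr).ne'
  obtain ⟨z, hz⟩ := IsAlgClosed.exists_root _ hdeg
  rw [IsRoot, eval_map] at hz
  obtain ⟨z', rfl⟩ := IsIntegrallyClosed.isIntegral_iff.1 (show IsIntegral O z from ⟨q, hqm, hz⟩)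
  have h3 : q.eval z' = 0 := Subtype.ext (by rw [eval₂_at_apply] at hz; exact hz)
  exact ⟨IsLocalRing.residue O z', by rw [← hq, eval_map, eval₂_at_apply, h3, map_zero]⟩

theorem exists_resmap {C Ω k k' : Type*} [Field C] [Field Ω] [Field k] [Field k'] (κ : C →+* Ω)
    {v : Valuation Ω ℝ≥0} {ρ : Ω → k'} {ρC : C → k} (h : IsRes v ρ) (hC : IsRes (v.comap κ) ρC) :
    ∃ θ : k →+* k', ∀ c, v (κ c) ≤ 1 → ρ (κ c) = θ (ρC c) := by
  choose x hx hx' using hC.surj
  have key : ∀ c, v (κ c) ≤ 1 → ρ (κ (x (ρC c))) = ρ (κ c) := fun c hc =>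
    (h.eq_iff (hx _) hc).2 (by rw [← map_sub]; exact (hC.eq_iff (hx _) hc).1 (hx' _))
  refine ⟨{ toFun := fun y => ρ (κ (x y)), map_one' := ?_, map_mul' := fun a b => ?_,
            map_zero' := ?_, map_add' := fun a b => ?_ }, fun c hc => (key c hc).symm⟩
  · rw [← hC.one, key 1 (by simp), map_one, h.one]
  · rw [← h.mul _ _ (hx a) (hx b), ← map_mul, ← key (x a * x b)
      (by rw [map_mul, map_mul]; exact mul_le_one' (hx a) (hx b)), hC.mul _ _ (hx a) (hx b), hx', hx']
  · rw [← hC.zero, key 0 (by simp), map_zero, h.zero]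
  · rw [← h.add _ _ (hx a) (hx b), ← map_add, ← key (x a + x b)
      (by rw [map_add]; exact (v.map_add _ _).trans (max_le (hx a) (hx b))),
      hC.add _ _ (hx a) (hx b), hx', hx']

/-- a Gauss point has a transcendental residue -/
theorem not_near {K0 Ω : Type*} [Field K0] [Field Ω] (v : Valuation Ω ℝ≥0) (f : K0 →+* Ω) {t c : Ω}
    (ht : v t ≤ 1) (hg : ∀ (P : K0[X]) n, v (f (P.coeff n)) ≤ v (P.eval₂ f t))
    (hc : Al f c) : ¬ v (t - c) < 1 := fun h => by
  obtain ⟨P, h0, hP⟩ := hc
  have h1 : v (P.eval₂ f t) ≠ 0 := fun h1 => by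
    have := hg P P.natDegree
    rw [h1, nonpos_iff_eq_zero, v.zero_iff, map_eq_zero] at this
    exact h0 (leadingCoeff_eq_zero.1 this)
  refine lt_irrefl (v (P.eval₂ f t)) ?_
  conv_lhs => rw [← sub_zero (P.eval₂ f t), ← hP, eval₂_eq_sum_range, eval₂_eq_sum_range,
    ← Finset.sum_sub_distrib]
  refine v.map_sum_lt h1 fun i _ => ?_
  rw [← mul_sub, map_mul]
  calc _ ≤ v (P.eval₂ f t) * v (t ^ i - c ^ i) := mul_le_mul_left (hg P i) _
    _ < v (P.eval₂ f t) * 1 := mul_lt_mul_of_pos_left (pow_sub_lt v ht h i) (pos_iff_ne_zero.2 h1)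
    _ = _ := mul_one _

/-- `X d/dX` on polynomials -/
def thP {K0 : Type*} [Field K0] : K0[X] →+ K0[X] where
  toFun P := X * derivative P
  map_zero' := by simp
  map_add' a b := by simp [mul_add]

/-- the Frobenius on polynomials -/
def frP {K0 : Type*} [Field K0] (σ : K0 →+* K0) (p : ℕ) : K0[X] →+* K0[X] :=
  (expand K0 p).toRingHom.comp (mapRingHom σ)

theorem thP_mul {K0 : Type*} [Field K0] (a b : K0[X]) : thP (a * b) = a * thP b + b * thP a := by
  simp only [thP, AddMonoidHom.coe_mk, ZeroHom.coe_mk, derivative_mul]; ring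

theorem thP_frP {K0 : Type*} [Field K0] (σ : K0 →+* K0) {p : ℕ} (hp : p ≠ 0) (a : K0[X]) :
    thP (frP σ p a) = p * frP σ p (thP a) := by
  obtain ⟨q, rfl⟩ := Nat.exists_eq_succ_of_ne_zero hp
  simp [thP, frP, derivative_expand, pow_succ]
  ring

theorem frP_inj {K0 : Type*} [Field K0] (σ : K0 →+* K0) {p : ℕ} (hp : p ≠ 0) :
    Function.Injective (frP σ p) :=
  (expand_injective (Nat.pos_of_ne_zero hp)).comp (map_injective σ σ.injective)

end Crest.Agent.T15.Vs

end
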