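import Crest.Agent.T15.HonDef_54

/-!
# Row 15, block Ht (helper48): the Gauss field of bounded series, words and leaves
-/

set_option autoImplicit false

noncomputable section

namespace Crest.Agent.T15.Vs

open scoped NNReal PowerSeries
open Crest.Agent.T15.Hon

variable {K0 : Type} [Field K0]

/-- the bounded series -/
def Bd (v0 : Valuation K0 ℝ≥0) : Subring K0⟦X⟧ where
  carrier := {f | ∃ c, PI v0 c f}
  zero_mem' := ⟨0, fun n => by simp⟩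
  one_mem' := ⟨1, fun n => by
    rw [PowerSeries.coeff_one]; split_ifs <;> simp⟩
  add_mem' := fun ⟨c, hc⟩ ⟨e, he⟩ => ⟨max c e, fun n => by
    rw [map_add]; exact (v0.map_add _ _).trans (max_le_max (hc n) (he n))⟩
  neg_mem' := fun ⟨c, hc⟩ => ⟨c, fun n => by rw [map_neg, v0.map_neg]; exact hc n⟩
  mul_mem' := fun ⟨c, hc⟩ ⟨e, he⟩ => ⟨c * e, fun n => by
    rw [PowerSeries.coeff_mul]
    exact v0.map_sum_le fun x _ => by rw [map_mul]; exact mul_le_mul' (hc _) (he _)⟩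

/-- the fraction field of the bounded series -/
abbrev E (v0 : Valuation K0 ℝ≥0) : Type := FractionRing (Bd v0)

/-- the inclusion -/
abbrev iE (v0 : Valuation K0 ℝ≥0) : Bd v0 →+* E v0 := algebraMap (Bd v0) (E v0)

/-- `w` is the Gauss norm -/
structure Gv (v0 : Valuation K0 ℝ≥0) (w : Valuation (E v0) ℝ≥0) : Prop where
  le_w : ∀ (f : Bd v0) n, v0 (PowerSeries.coeff n f.1) ≤ w (iE v0 f)
  att : ∀ f : Bd v0, ∃ n, w (iE v0 f) = v0 (PowerSeries.coeff n f.1)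

theorem Gv.w_le {v0 : Valuation K0 ℝ≥0} {w : Valuation (E v0) ℝ≥0} (h : Gv v0 w) (f : Bd v0)
    {c : ℝ≥0} (hc : PI v0 c f.1) : w (iE v0 f) ≤ c := by
  obtain ⟨n, hn⟩ := h.att f
  exact hn.trans_le (hc n)

/-- leaf G1: the Gauss norm exists and is discrete -/
def G1 : Prop :=
  ∀ (K0 : Type) [Field K0] [CharZero K0] (v0 : Valuation K0 ℝ≥0) (p : ℕ) (σ : K0 →+* K0),
    Un v0 p σ → ∃ w : Valuation (E v0) ℝ≥0, Gv v0 w ∧ ∀ y, w y < 1 → w y ≤ v0 p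

/-- leaf G2: the Frobenius lift -/
def G2 : Prop :=
  ∀ (K0 : Type) [Field K0] [CharZero K0] (v0 : Valuation K0 ℝ≥0) (p : ℕ) (hp : p ≠ 0)
    (σ : K0 →+* K0), Un v0 p σ → ∀ w : Valuation (E v0) ℝ≥0, Gv v0 w →
    ∃ (φ0 : Bd v0 →+* Bd v0) (φ : E v0 →+* E v0), (∀ f, (φ0 f).1 = fr σ p hp f.1) ∧
      (∀ f, φ (iE v0 f) = iE v0 (φ0 f)) ∧ (∀ a, w (φ a) = w a) ∧
      ∀ a, w a ≤ 1 → w (φ a - a ^ p) < 1

/-- leaf G3: the derivation -/
def G3 : Prop :=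
  ∀ (K0 : Type) [Field K0] [CharZero K0] (v0 : Valuation K0 ℝ≥0) (p : ℕ) (σ : K0 →+* K0),
    Un v0 p σ → ∀ w : Valuation (E v0) ℝ≥0, Gv v0 w →
    ∃ (D0 : Bd v0 →+ Bd v0) (D : E v0 →+ E v0), (∀ f, (D0 f).1 = th f.1) ∧
      (∀ f, D (iE v0 f) = iE v0 (D0 f)) ∧ (∀ a b, D (a * b) = a * D b + b * D a) ∧
      (∀ a, w (D a) ≤ w a) ∧
      ∀ f : Bd v0, (∀ N : ℕ, ∃ H, w H ≤ v0 p ∧ w (iE v0 f - D H) ≤ v0 p ^ N) →
        ∀ n, v0 (PowerSeries.coeff n f.1) ≤ v0 p * v0 n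

end Crest.Agent.T15.Vs

end
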