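import Crest.Agent.T15.Zer0_7
import Crest.Agent.R018.PowResA_693

/-!
# Row 15, block C: local lemmas for the reciprocity step
-/

set_option autoImplicit false

noncomputable section

namespace Crest.Agent.T15.Zr

open NumberField IsDedekindDomain Crest.Agent.R018.Placesx484 Crest.Agent.T15.Ps
  Crest.Agent.T15.Art Crest.Agent.T15.Ex Crest.Agent.T15.C

section val

variable {K : Type} [Field K] [NumberField K] [Algebra K Om]

theorem isEquiv_pr (P : Place Om) :
    (P.v.comap (algebraMap K Om)).IsEquiv ((pr K P).valuation K) :=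
  Valuation.isEquiv_iff_val_le_one.2 fun {x} => by
    rw [Valuation.comap_apply, ← Place.v_res_le_one_iff K P x, Place.numberField_val_iff]
    rfl

theorem v_ne {P : Place Om} {x : Om} (h : P.v x = 1) : x ≠ 0 := fun e => by simp [e] at h

theorem frob_val {P : Place Om} {g : Gam} {q : ℕ} (hq : q ≠ 0) (h : IsFr P q g) {a : Om}
    (ha : P.v a ≤ 1) : P.v (g a - a ^ q) < 1 := by
  have hg : g • P = P := by
    rw [Place.smul_eq_iff]
    intro x hx
    have := P.ideal.add_mem (h x) (P.ideal.pow_mem_of_mem hx _ (Nat.pos_of_ne_zero hq))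
    rwa [sub_add_cancel] at this
  obtain ⟨u, s, hs, e⟩ := (P.v_le_one_iff a).1 ha
  have hs1 : P.v (algebraMap (𝓞 Om) Om s) = 1 :=
    le_antisymm (P.v_int_le_one s) (not_lt.1 (mt (P.v_int_lt_one_iff s).1 hs))
  have h1 := (P.v_int_lt_one_iff _).2 (h s)
  have h2 := (P.v_int_lt_one_iff _).2 (h u)
  rw [map_sub, map_pow, Place.smul_coe, AlgEquiv.smul_def] at h1 h2
  have h3 : P.v (g a) ≤ 1 := (Place.v_smul_eq g P hg a).trans_le ha
  have e2 : (g a - a ^ q) * algebraMap (𝓞 Om) Om s ^ q = (g (algebraMap (𝓞 Om) Om u) -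
      algebraMap (𝓞 Om) Om u ^ q) - g a * (g (algebraMap (𝓞 Om) Om s) -
      algebraMap (𝓞 Om) Om s ^ q) := by
    rw [← e, map_mul, mul_pow]; ring
  have h4 := congrArg P.v e2
  rw [map_mul, map_pow, hs1, one_pow, mul_one] at h4
  rw [h4]
  refine P.v.map_sub_lt h2 ?_
  rw [map_mul]
  exact mul_lt_one_of_nonneg_of_lt_one_right h3 zero_le h1

theorem v_pow_sub {P : Place Om} {x y : Om} (hx : P.v x ≤ 1) (hy : P.v y ≤ 1)
    (h : P.v (x - y) < 1) (n : ℕ) : P.v (x ^ n - y ^ n) < 1 := by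
  induction n with
  | zero => simp
  | succ n ih =>
    have e : x ^ (n + 1) - y ^ (n + 1) = x * (x ^ n - y ^ n) + y ^ n * (x - y) := by ring
    rw [e]
    refine P.v.map_add_lt ?_ ?_ <;> rw [map_mul]
    · exact mul_lt_one_of_nonneg_of_lt_one_right hx zero_le ih
    · exact mul_lt_one_of_nonneg_of_lt_one_right (by rw [map_pow]; exact pow_le_one₀ zero_le hy)
        zero_le h

theorem v_trans {P : Place Om} {x y z : Om} (h : P.v (x - y) < 1) (h' : P.v (y - z) < 1) :
    P.v (x - z) < 1 := by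
  have := P.v.map_add_lt h h'
  rwa [sub_add_sub_cancel] at this

theorem v_symm {P : Place Om} {x y : Om} (h : P.v (x - y) < 1) : P.v (y - x) < 1 := by
  rwa [Valuation.map_sub_swap]

/-- the tame character depends only on the valuation -/
theorem ratio_congr {P : Place Om} {t : Gam} (ht : t ∈ In P) {y z : Om} (hz : z ≠ 0)
    (h : P.v y = P.v z) : P.v (t y / y - t z / z) < 1 := by
  have z0 : P.v z ≠ 0 := (Valuation.ne_zero_iff _).2 hz
  have hy : y ≠ 0 := (Valuation.ne_zero_iff _).1 (h ▸ z0)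
  have h1 : P.v (y / z) = 1 := by rw [map_div₀, h, div_self z0]
  have h2 := Place.v_smul_sub_lt_one P ht _ h1.le
  have h3 : P.v (t z) = P.v z := Place.v_smul_eq t P (Place.smul_eq_of_mem_inertia P ht) z
  have h4 : t z ≠ 0 := by simpa using hz
  have e : t y / y - t z / z = t z / y * (t • (y / z) - y / z) := by
    rw [AlgEquiv.smul_def, map_div₀]; field_simp
  rwa [e, map_mul, map_div₀, h3, h, div_self z0, one_mul]

theorem not_dvd_qv (P : Place Om) [IsGalois K Om] : ¬ P.rchar ∣ P.qv K - 1 := fun h => by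
  obtain ⟨f, hf, e⟩ := Place.exists_qv_eq (F := K) P
  have h1 : P.rchar ∣ P.qv K := e ▸ dvd_pow_self _ hf.ne'
  have h2 := Place.one_lt_qv (F := K) P
  have := (Nat.dvd_sub_iff_right h2.le h1).1 h
  exact P.rchar_prime.one_lt.ne' (Nat.dvd_one.1 this)

/-- a generator of tame inertia -/
theorem exists_gen [IsGalois K Om] (P : Place Om) {π : K} (hI : ∀ t ∈ In P,
      t (algebraMap K Om π) = algebraMap K Om π)
    (hπ : (pr K P).valuation K π = WithZero.exp (-1 : ℤ)) {z : Om}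
    (hz : z ^ (P.qv K - 1) = algebraMap K Om π) :
    ∃ τ ∈ In P, IsPrimitiveRoot (τ z / z) (P.qv K - 1) := by
  have hn := not_dvd_qv (K := K) P
  set n := P.qv K - 1
  have n0 : n ≠ 0 := fun e => hn (e ▸ dvd_zero _)
  have : NeZero (n : Om) := ⟨Nat.cast_ne_zero.2 n0⟩
  obtain ⟨ζ, hζ⟩ := HasEnoughRootsOfUnity.exists_primitiveRoot Om n
  obtain ⟨a, ha⟩ := IsAlgClosed.exists_pow_nat_eq (P.rchar : Om) (Nat.pos_of_ne_zero n0)
  obtain ⟨τ, hτ, h⟩ := R018.PowResAx693.exists_tame P hn hζ ha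
  have π0 : π ≠ 0 := fun e => by
    rw [e, map_zero] at hπ
    exact WithZero.exp_ne_zero hπ.symm
  have z0 : z ≠ 0 := fun e => by
    rw [e, zero_pow n0] at hz
    exact π0 ((map_eq_zero _).1 hz.symm)
  have q0 : (P.rchar : K) ≠ 0 := Nat.cast_ne_zero.2 P.rchar_prime.ne_zero
  have a0 : a ≠ 0 := fun e => by
    rw [e, zero_pow n0] at ha
    exact P.rchar_prime.ne_zero (Nat.cast_eq_zero.1 ha.symm)
  obtain ⟨e, he⟩ : ∃ e : ℕ, (pr K P).valuation K (P.rchar : K) = (pr K P).valuation K (π ^ e) := by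
    have h1 : (pr K P).valuation K (P.rchar : K) ≤ 1 := by
      simpa using (pr K P).valuation_le_one (K := K) (P.rchar : 𝓞 K)
    have h2 : (pr K P).valuation K (P.rchar : K) ≠ 0 := (Valuation.ne_zero_iff _).2 q0
    rw [← WithZero.exp_log h2, ← WithZero.exp_zero, WithZero.exp_le_exp] at h1
    refine ⟨(-WithZero.log ((pr K P).valuation K (P.rchar : K))).toNat, ?_⟩
    rw [map_pow, hπ, ← WithZero.exp_nsmul, ← WithZero.exp_log h2, WithZero.log_exp]
    congr 1
    rw [nsmul_eq_mul, Int.toNat_of_nonneg (by omega)]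
    ring
  have h1 : P.v a = P.v (z ^ e) := by
    have := (isEquiv_pr P).eq_iff.2 he
    rw [Valuation.comap_apply, Valuation.comap_apply, map_natCast, map_pow, ← ha, ← hz,
      pow_right_comm, map_pow, map_pow _ (z ^ e)] at this
    exact (pow_left_inj₀ zero_le zero_le n0).1 this
  have h2 := ratio_congr hτ (pow_ne_zero e z0) h1
  have h3 : (τ z / z) ^ n = 1 := by
    rw [div_pow, ← map_pow, hz, hI τ hτ, div_self (by simpa using π0)]
  rw [h, mul_div_cancel_right₀ _ a0, map_pow, ← div_pow] at h2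
  have h4 := Place.root_eq_of_sub P hn hζ.pow_eq_one (by rw [pow_right_comm, h3, one_pow]) h2
  exact ⟨τ, hτ, h3, fun l hl => hζ.dvd_of_pow_eq_one l (by rw [h4, pow_right_comm, hl, one_pow])⟩

theorem exists_res {P : Place Om} {η x : Om} {n : ℕ} (hη : IsPrimitiveRoot η n) (n0 : n ≠ 0)
    (h : P.v (x ^ n - 1) < 1) : ∃ m : ℕ, P.v (x - η ^ m) < 1 := by
  have : NeZero n := ⟨n0⟩
  by_contra hc
  push Not at hc
  have e := hη.pow_sub_pow_eq_prod_sub_mul (x := x) (y := 1) (Nat.pos_of_ne_zero n0)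
  rw [one_pow] at e
  rw [e, map_prod] at h
  refine h.not_ge (Finset.one_le_prod' fun ζ hζ => ?_)
  obtain ⟨i, -, hi⟩ := hη.eq_pow_of_pow_eq_one ((Polynomial.mem_nthRootsFinset
    (Nat.pos_of_ne_zero n0) 1).1 hζ)
  rw [mul_one, ← hi]
  exact hc i

theorem qv_dvd [IsGalois K Om] {P : Place Om} {S : Gam} {Q : ℕ} (hQ : Q ≠ 0) (h : IsFr P Q S)
    (hS : ∀ x : K, S (algebraMap K Om x) = algebraMap K Om x) : P.qv K - 1 ∣ Q - 1 := by
  have := Place.finite_residue (P.res K)
  have := (P.res K).isMaximal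
  let _ := Ideal.Quotient.field (P.res K).ideal
  have := Fintype.ofFinite (𝓞 K ⧸ (P.res K).ideal)
  rw [Place.qv_def, Nat.card_eq_fintype_card, ← FiniteField.forall_pow_eq_one_iff]
  intro u
  obtain ⟨x, hx⟩ := Ideal.Quotient.mk_surjective (u : 𝓞 K ⧸ (P.res K).ideal)
  have h1 : S • algebraMap (𝓞 K) (𝓞 Om) x = algebraMap (𝓞 K) (𝓞 Om) x :=
    RingOfIntegers.coe_injective (hS x)
  have h2 := h (algebraMap (𝓞 K) (𝓞 Om) x)
  rw [h1, ← map_pow, ← map_sub, ← Place.mem_res, ← Ideal.Quotient.eq, map_pow, hx] at h2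
  have h3 : u ^ Q = u := Units.ext (by rw [Units.val_pow_eq_pow_val, ← h2])
  obtain ⟨Q, rfl⟩ := Nat.exists_eq_succ_of_ne_zero hQ
  rwa [pow_succ, mul_eq_right] at h3

theorem v_fermat [IsGalois K Om] [IsScalarTower ℚ K Om] {P : Place Om} {x : K}
    (hx : P.v (algebraMap K Om x) = 1) : P.v (algebraMap K Om x ^ (P.qv K - 1) - 1) < 1 := by
  obtain ⟨φ, hφ⟩ := exists_isF (K := K) P
  have h2 := Place.one_lt_qv (F := K) P
  have h1 := frob_val (g := φ.restrictScalars ℚ) (q := P.qv K) (by omega) hφ hx.le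
  have e : (φ.restrictScalars ℚ) (algebraMap K Om x) - algebraMap K Om x ^ P.qv K =
      -algebraMap K Om x * (algebraMap K Om x ^ (P.qv K - 1) - 1) := by
    rw [AlgEquiv.restrictScalars_apply, φ.commutes, mul_sub, neg_mul, ← pow_succ',
      Nat.sub_add_cancel h2.le]
    ring
  rwa [e, map_mul, Valuation.map_neg, hx, one_mul] at h1

end val

theorem not_three_dvd {q i f J : ℕ} (hq : 1 < q) (h3 : 3 ∣ q - 1) (hi : ¬ 3 ∣ i)
    (h : q ^ i - 1 = (q ^ f - 1) * J) : ¬ 3 ∣ J := fun hJ => by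
  have e1 := Nat.geomSum_eq hq i
  have e2 : q - 1 ∣ q ^ f - 1 := Nat.sub_one_dvd_pow_sub_one q f
  obtain ⟨G, hG⟩ := e2
  rw [h, hG, mul_assoc, Nat.mul_div_cancel_left _ (by omega)] at e1
  have h1 : q ≡ 1 [MOD 3] := ((Nat.modEq_iff_dvd' hq.le).2 h3).symm
  have h2 : ((∑ k ∈ Finset.range i, q ^ k : ℕ) : ZMod 3) = i := by
    have : (q : ZMod 3) = 1 := by exact_mod_cast (ZMod.natCast_eq_natCast_iff q 1 3).2 h1
    simp [this]
  rw [e1, (ZMod.natCast_eq_zero_iff _ 3).2 (hJ.mul_left G)] at h2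
  exact hi ((ZMod.natCast_eq_zero_iff _ 3).1 h2.symm)

theorem kum_nat {k : Type} [Field k] [CharP k 3] {g : Gam} {u : Om} (hu : u ≠ 0) {j : ℕ}
    (h : g (rt u) = om ^ j * rt u) : kum k g u = j := by
  rw [Tw.kum_eq (i := (j : ZMod 3)) hu, map_natCast]
  rw [h, ZMod.val_natCast, ← pow_eq_pow_mod j om_spec.pow_eq_one]

/-- the cubic Kummer pairing at a Frobenius element is the cubic residue symbol -/
theorem kum_res {k : Type} [Field k] [CharP k 3] {P : Place Om} {S : Gam} {D b m : ℕ} {η x : Om}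
    (h3 : P.rchar ≠ 3) (hS : IsFr P (3 * D + 1) S) (hx : S x = x) (hv : P.v x = 1)
    (hη : η ^ D = om ^ b) (h : P.v (x - η ^ m) < 1) : kum k S x = (b * m : ℕ) := by
  have x0 := v_ne hv
  have hr : P.v (rt x) = 1 := Place.pow_eq_one_aux three_ne_zero (by rw [← map_pow, rt_spec, hv])
  have r0 := v_ne hr
  refine kum_nat x0 ?_
  rw [← div_eq_iff r0]
  have hom : (om ^ (b * m)) ^ 3 = 1 := by rw [pow_right_comm, om_spec.pow_eq_one, one_pow]
  refine Place.root_eq_of_sub P (n := 3)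
    (fun e => h3 ((Nat.prime_dvd_prime_iff_eq P.rchar_prime Nat.prime_three).1 e))
    (by rw [div_pow, ← map_pow, rt_spec, hx, div_self x0]) hom ?_
  have h1 := frob_val (by omega) hS hr.le
  have e : S (rt x) - rt x ^ (3 * D + 1) = rt x * (S (rt x) / rt x - x ^ D) := by
    rw [pow_succ, pow_mul, rt_spec]; field_simp
  rw [e, map_mul, hr, one_mul] at h1
  refine v_trans h1 ?_
  have h2 : P.v (η ^ m) ≤ 1 := by
    have := P.v.map_sub x (x - η ^ m)
    rw [sub_sub_cancel] at this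
    exact this.trans (max_le hv.le h.le)
  have h4 := v_pow_sub hv.le h2 h D
  rwa [pow_right_comm, hη, ← pow_mul] at h4

end Crest.Agent.T15.Zr
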