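import Crest.Agent.T15.Zer1_7

/-!
# Row 15, block C: the reciprocity step; a class with independent Taylor-Wiles primes is unramified
-/

set_option autoImplicit false

noncomputable section

namespace Crest.Agent.T15.Zr

open NumberField IsDedekindDomain Crest.Agent.R018.Placesx484 Crest.Agent.T15.Ps
  Crest.Agent.T15.Art Crest.Agent.T15.Ex Crest.Agent.T15.C Crest.Agent.R018.SLatx824

/-- product formula for a character that is tamely ramified at `T` -/
theorem prod_formula (hA : ArtStmt) (hT : TameStmt) {K : Type} [Field K] [NumberField K]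
    [IsTotallyComplex K] [Algebra K Om] [IsGalois K Om] {A : Type} [CommGroup A]
    {ξ : (Om ≃ₐ[K] Om) →* A} {N : ℕ} {T : Finset (Pr K)} {f : Pr K → A}
    (ho : IsOpen (ξ.ker : Set (Om ≃ₐ[K] Om))) (hN : N ≠ 0) (hξ : ∀ g, ξ g ^ N = 1)
    (h1 : ∀ w ∈ T, f w = 1) (hav : Av T f ξ) (hTN : ∀ w ∈ T, w.valuation K (N : K) = 1) (u : Kˣ)
    (hu : ∀ w ∈ T, w.valuation K (u : K) = 1) :
    ∃ F : Pr K → A, ev f u = ∏ w ∈ T, F w ∧ ∀ (P : Place Om) (π : K) (z : Om) (t : Om ≃ₐ[K] Om),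
      pr K P ∈ T → (pr K P).valuation K π = WithZero.exp (-1 : ℤ) →
      P.v z ^ (P.qv K - 1) = P.v (algebraMap K Om π) → t ∈ P.ideal.inertia (Om ≃ₐ[K] Om) →
      P.v (t z / z - algebraMap K Om u) < 1 → F (pr K P) = ξ t := by
  classical
  have key : ∀ w : Pr K, ∃ y : Kˣ, ∀ w' ∈ T,
      w'.valuation K ((y : K) - if w' = w then (u : K) else 1) < 1 := by
    intro w
    obtain ⟨e, he⟩ := IsDedekindDomain.exists_forall_sub_mem_ideal (s := T)
      (fun w' : Pr K => w'.asIdeal) (fun _ => 1) (fun w' _ => w'.prime)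
      (fun a _ b _ hab h => hab (HeightOneSpectrum.ext h)) fun w' => if w'.1 = w then 1 else 0
    have hy : ∀ w' ∈ T, w'.valuation K
        (1 + (e : K) * ((u : K) - 1) - if w' = w then (u : K) else 1) < 1 := fun w' hw' => by
      have h2 : w'.valuation K ((u : K) - 1) ≤ 1 :=
        w'.valuation K |>.map_sub_le (hu w' hw').le (map_one _).le
      have h3 := (w'.valuation_lt_one_iff_mem (K := K) _).2 (pow_one w'.asIdeal ▸ he w' hw')
      have e2 : (1 + (e : K) * ((u : K) - 1) - if w' = w then (u : K) else 1) = ((u : K) - 1) *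
          algebraMap (𝓞 K) K (e - if w' = w then 1 else 0) := by
        split_ifs <;> simp <;> ring
      rw [e2, map_mul]
      exact mul_lt_one_of_nonneg_of_lt_one_right h2 zero_le h3
    by_cases h0 : 1 + (e : K) * ((u : K) - 1) = 0
    · refine ⟨1, fun w' hw' => absurd (hy w' hw') ?_⟩
      rw [h0, zero_sub, Valuation.map_neg]
      split_ifs
      · exact (hu w' hw').not_lt
      · simp
    · exact ⟨Units.mk0 _ h0, hy⟩
  choose y hy using key
  refine ⟨fun w => ev f (y w), ?_, fun P π z t hP hπ hz ht h => ?_⟩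
  · rw [← map_prod, eq_comm, ← div_eq_one, ← map_div]
    refine artin_av hA ho hN hξ h1 hav _ fun w hw => ?_
    have e : ((((∏ w' ∈ T, y w') / u : Kˣ)) : K) =
        ∏ w' ∈ T, ((y w' : K) / if w = w' then (u : K) else 1) := by
      rw [Finset.prod_div_distrib, Finset.prod_ite_eq, if_pos hw]
      simp
    rw [hTN w hw, one_pow, e]
    refine v_prod_sub_one _ _ _ one_ne_zero le_rfl fun w' _ => ?_
    have h2 := hy w' w hw
    split_ifs at h2 ⊢
    · rwa [div_sub_one u.ne_zero, map_div₀, hu w hw, div_one]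
    · rwa [div_one]
  · refine hT K A ξ N T f ho hN hξ h1 hav P π z t (y _) hP ?_ hπ hz ht (v_trans h ?_)
      fun w hw hne => ?_
    · rw [← P.v_natCast_eq_one_iff, ← map_natCast (algebraMap K Om)]
      exact (isEquiv_pr (K := K) P).eq_one_iff_eq_one.2 (hTN _ hP)
    · have h2 := hy (pr K P) _ hP
      rw [if_pos rfl] at h2
      rw [Valuation.map_sub_swap, ← map_sub]
      exact (isEquiv_pr (K := K) P).lt_one_iff_lt_one.2 h2
    · have h2 := hy (pr K P) w hw
      rw [if_neg hne] at h2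
      rwa [hTN w hw, one_pow]

section transport

attribute [local instance] actH

variable {F : Type} [Field F] [Algebra F Om] (K : IntermediateField F Om) [NumberField K]
  [Normal F K]

theorem pr_smul_eq (g : Om ≃ₐ[F] Om) (P : Place Om) :
    pr K (g • P) = AlgEquiv.restrictNormalHom K g • pr K P := by
  ext x
  change algebraMap _ _ x ∈ (g • P).ideal ↔ _
  rw [smul_asIdeal, Ideal.mem_pointwise_smul_iff_inv_smul_mem, Place.mem_smul_ideal, ← map_inv,
    ← res_int]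
  rfl

theorem qv_smul (g : Om ≃ₐ[F] Om) (P : Place Om) : (g • P).qv K = P.qv K :=
  (Nat.card_congr (Ideal.quotientEquiv (P.res K).ideal ((g • P).res K).ideal
    (MulSemiringAction.toRingEquiv _ _ (AlgEquiv.restrictNormalHom K g))
    (congrArg HeightOneSpectrum.asIdeal (pr_smul_eq K g P))).toEquiv).symm

theorem exists_unif (g : Om ≃ₐ[F] Om) (P : Place Om) (π : K) : ∃ π' : K, (π' : Om) = g π ∧
    (pr K (g • P)).valuation K π' = (pr K P).valuation K π :=
  ⟨AlgEquiv.restrictNormalHom K g π, AlgEquiv.restrictNormal_commutes g K π, by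
    rw [pr_smul_eq, val_smul]⟩

theorem pr_congr (g : Om ≃ₐ[F] Om) {P P' : Place Om} :
    pr K (g • P) = pr K (g • P') ↔ pr K P = pr K P' := by
  rw [pr_smul_eq, pr_smul_eq, smul_left_cancel_iff]

end transport

variable {k : Type} [Field k] [CharP k 3] {ρ : Gam →* M2 k} {c : Gam → M2 k}

/-- the class on the inertia group at a Taylor-Wiles prime -/
theorem loc_tw (hT : TameStmt) (h : Hyp ρ) (hc : Cls ρ c) [NumberField (Kf ρ)]
    {T : Finset (Pr (Kf ρ))} {f : Pr (Kf ρ) → Multiplicative (M2 k)} (h1 : ∀ w ∈ T, f w = 1)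
    (hav : Av T f (hc.xi h.opn)) (hT3 : ∀ w ∈ T, w.valuation (Kf ρ) ((3 : ℕ) : Kf ρ) = 1)
    {q : ℕ} {P : Place Om} {s : Gam} (hq : TWq ρ q P s) (hP : pr (Kf ρ) P ∈ T) :
    ∃ (w : M2 k) (π : Kf ρ) (z : Om), w.trace = 0 ∧ ρ s * w = w * ρ s ∧
      (pr (Kf ρ) P).valuation (Kf ρ) π = WithZero.exp (-1 : ℤ) ∧ z ^ (P.qv (Kf ρ) - 1) = π ∧
      (w = 0 → Triv ρ c (In P)) ∧ ∀ x : Om, (∀ n ∈ ρ.ker, n x = x) → P.v x = 1 →
        ∃ t ∈ In P, P.v (t z / z - x) < 1 ∧ c t = kum k (s ^ ρ.ker.index) x • w := by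
  have := tc_Kf h
  have hn := not_dvd_qv (K := Kf ρ) P
  have q1 := hq.prime.one_lt
  have h3 : P.rchar ≠ 3 := fun e => by
    have := hq.three
    rw [← hq.rchar, e] at this
    omega
  obtain ⟨π, hπ⟩ := (pr (Kf ρ) P).valuation_exists_uniformizer (Kf ρ)
  have n0 : P.qv (Kf ρ) - 1 ≠ 0 := fun e => hn (e ▸ dvd_zero _)
  obtain ⟨z, hz⟩ := IsAlgClosed.exists_pow_nat_eq (π : Om) (Nat.pos_of_ne_zero n0)
  have hI : ∀ t ∈ In P, t (π : Om) = π := fun t ht => π.2 ⟨t, hq.unr ht⟩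
  obtain ⟨τ, hτ, hη⟩ := exists_gen P hI hπ hz
  have π0 : (π : Om) ≠ 0 := fun e => by
    rw [show π = 0 from Subtype.ext e, map_zero] at hπ
    exact WithZero.exp_ne_zero hπ.symm
  have z0 : z ≠ 0 := fun e => π0 (by rw [← hz, e, zero_pow n0])
  set η := τ z / z with hηd
  have η1 : P.v η = 1 := Place.v_root_of_unity P n0 hη.pow_eq_one
  have hfix : ∀ t ∈ In P, t η = η := fun t ht => Place.inertia_root P ht hn hη.pow_eq_one
  have hτm : ∀ m : ℕ, (τ ^ m) z = η ^ m * z := fun m => by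
    induction m with
    | zero => simp
    | succ m ih =>
      rw [pow_succ', AlgEquiv.mul_apply, ih, map_mul, map_pow, hfix τ hτ, pow_succ, mul_assoc,
        hηd, div_mul_cancel₀ _ z0]
  have L : ∀ t ∈ In P, ∀ m : ℕ, P.v (t z / z - η ^ m) < 1 → c t = m • c τ := fun t ht m hm => by
    have h4 : t * (τ ^ m)⁻¹ ∈ In P := mul_mem ht (inv_mem (pow_mem hτ m))
    obtain ⟨t', ht'⟩ := exists_rs_Kf h.opn (hq.unr h4)
    have h5 : t z = η ^ m * t' z := by
      rw [← rs_apply, ht', ← hfix _ h4, ← map_pow, ← map_mul, ← hτm, ← AlgEquiv.mul_apply,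
        inv_mul_cancel_right]
    have h6 := hT (Kf ρ) _ (hc.xi h.opn) 3 T f (hc.xi_open _) three_ne_zero (hc.xi_pow _) h1 hav P π
      z t' 1 hP (fun e => h3 ((Nat.prime_dvd_prime_iff_eq P.rchar_prime Nat.prime_three).1 e)) hπ
      (by rw [← map_pow, hz]; rfl) (by rw [← rs_inertia, ht']; exact h4) (by
        rw [h5, mul_div_assoc, ← mul_sub_one, map_mul, map_pow, η1, one_pow, one_mul] at hm
        simpa using hm) fun w hw _ => by rw [hT3 w hw]; simp
    rw [map_one, hc.xi_apply, ht', eq_comm, ofAdd_eq_one] at h6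
    have h7 := hc.add _ (τ ^ m) (hq.unr h4) (hq.unr (pow_mem hτ m))
    rwa [inv_mul_cancel_right, h6, zero_add, hc.pow (hq.unr hτ)] at h7
  -- arithmetic of the exponents
  have hS : IsFr P (q ^ ρ.ker.index) (s ^ ρ.ker.index) := pow_act P hq.fr _
  have hSk : s ^ ρ.ker.index ∈ ρ.ker := ρ.ker.pow_index_mem s
  obtain ⟨J, hJ⟩ := qv_dvd (K := Kf ρ) (pow_ne_zero _ hq.prime.ne_zero) hS fun x => x.2 ⟨_, hSk⟩
  obtain ⟨f', -, hf'⟩ := Place.exists_qv_eq (F := Kf ρ) P
  rw [hq.rchar] at hf'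
  have hJ3 := not_three_dvd q1 hq.three h.idx (hf' ▸ hJ)
  obtain ⟨n, hn3⟩ : 3 ∣ P.qv (Kf ρ) - 1 := hf' ▸ hq.three.trans (Nat.sub_one_dvd_pow_sub_one q f')
  have h8 : IsPrimitiveRoot ((η ^ n) ^ J) 3 :=
    (hη.pow (Nat.pos_of_ne_zero n0) (hn3.trans (mul_comm _ _))).pow_of_coprime J
      ((Nat.Prime.coprime_iff_not_dvd Nat.prime_three).2 hJ3).symm
  obtain ⟨b, hb, hb'⟩ := om_spec.eq_pow_of_pow_eq_one h8.pow_eq_one
  have hb2 : ((b * b : ℕ) : k) = 1 := by
    have h30 : (3 : k) = 0 := by exact_mod_cast CharP.cast_eq_zero k 3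
    interval_cases b
    · exact absurd (hb'.symm.trans (pow_zero _)) (h8.ne_one (by norm_num))
    · simp
    · push_cast; linear_combination h30
  have hS' : IsFr P (3 * (n * J) + 1) (s ^ ρ.ker.index) := by
    have := Nat.one_le_pow ρ.ker.index q (by omega)
    rwa [← mul_assoc, ← hn3, ← hJ, Nat.sub_add_cancel this]
  refine ⟨b • c τ, π, z, ?_, ?_, hπ, hz, fun h0 t ht _ => ?_, fun x hx hv => ?_⟩
  · rw [Matrix.trace_smul, hc.tr τ (hq.unr hτ), smul_zero]
  · have hsP : s • P = P := by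
      rw [Place.smul_eq_iff]
      intro x hx
      have := P.ideal.add_mem (hq.fr x) (P.ideal.pow_mem_of_mem hx _ hq.prime.pos)
      rwa [sub_add_cancel] at this
    have h9 := ratio_congr hτ z0 (Place.v_smul_eq s⁻¹ P (by rw [inv_smul_eq_iff, hsP]) z)
    rw [← Place.v_smul_eq s P hsP, smul_sub, ← hηd, Place.frob_root P hq.fr hn hη.pow_eq_one,
      AlgEquiv.smul_def, map_div₀, ← AlgEquiv.smul_def s (s⁻¹ • z), smul_inv_smul] at h9
    have h10 := L _ (conj_inertia hsP hτ) q h9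
    obtain ⟨a, ha⟩ := hq.three
    have h11 : q • c τ = c τ := by
      rw [show q = 3 * a + 1 by omega, add_smul, one_smul, ← Nat.cast_smul_eq_nsmul k, Nat.cast_mul,
        CharP.cast_eq_zero, zero_mul, zero_smul, zero_add]
    rw [hc.conj s τ (hq.unr hτ), h11, Tw.conj_eq_iff] at h10
    rw [mul_smul_comm, smul_mul_assoc, h10]
  · have h9 : (t z / z) ^ (P.qv (Kf ρ) - 1) = 1 := by
      rw [div_pow, ← map_pow, hz, hI t ht, div_self π0]
    have : NeZero (P.qv (Kf ρ) - 1) := ⟨n0⟩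
    obtain ⟨m, -, hm⟩ := hη.eq_pow_of_pow_eq_one h9
    have h10 : c τ = 0 := by
      rw [← one_smul k (c τ), ← hb2, Nat.cast_smul_eq_nsmul, mul_smul, h0, smul_zero]
    rw [L t ht m (by rw [hm]; simp), h10, smul_zero]
  · obtain ⟨m, hm⟩ := exists_res hη n0 (v_fermat (K := Kf ρ) (x := ⟨x, fun n => hx n n.2⟩) hv)
    have e : (τ ^ m) z / z = η ^ m := by rw [hτm, mul_div_cancel_right₀ _ z0]
    refine ⟨τ ^ m, pow_mem hτ m, by rw [e]; exact v_symm hm, ?_⟩
    rw [kum_res h3 hS' (hx _ hSk) hv (by rw [pow_mul, hb']) hm, hc.pow (hq.unr hτ),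
      ← Nat.cast_smul_eq_nsmul k b, smul_smul, ← Nat.cast_mul, mul_right_comm, Nat.cast_mul, hb2,
      one_mul, Nat.cast_smul_eq_nsmul]

/-- a sum over a finite group of a function of the prime `g P` -/
theorem sum_fibre {G X A : Type} [Group G] [Fintype G] [DecidableEq X] [AddCommMonoid A]
    (β : G → X) (hβ : ∀ a g h, β (a * g) = β (a * h) ↔ β g = β h) :
    ∃ n : ℕ, n ∣ Fintype.card G ∧
      ∀ F : X → A, ∑ g, F (β g) = n • ∑ x ∈ Finset.univ.image β, F x := by
  have key : ∀ x ∈ Finset.univ.image β,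
      (Finset.univ.filter fun g => β g = x).card = (Finset.univ.filter fun g => β g = β 1).card := by
    intro x hx
    obtain ⟨a, -, rfl⟩ := Finset.mem_image.1 hx
    refine (Finset.card_equiv (Equiv.mulLeft a) fun g => ?_).symm
    simp only [Finset.mem_filter, Finset.mem_univ, true_and, Equiv.coe_mulLeft]
    rw [← hβ a, mul_one]
  refine ⟨(Finset.univ.filter fun g => β g = β 1).card, ?_, fun F => ?_⟩
  · rw [← Finset.card_univ, Finset.card_eq_sum_card_image β Finset.univ, Finset.sum_congr rfl key,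
      Finset.sum_const, smul_eq_mul]
    exact dvd_mul_left _ _
  · rw [Finset.sum_comp F β, Finset.smul_sum]
    exact Finset.sum_congr rfl fun x hx => by rw [key x hx]

omit [CharP k 3] in
theorem triv_smul (hc : Cls ρ c) {P : Place Om} (h : Triv ρ c (In P)) (g : Gam) :
    Triv ρ c (In (g • P)) := fun t ht h1 => by
  have h2 : ρ (g⁻¹ * t * g) = 1 := (MonoidHom.normal_ker ρ).conj_mem' t h1 g
  have h3 := hc.conj g _ h2
  rw [h _ (fun x => by
    have := (Place.mem_smul_ideal g P _).1 (ht (g • x))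
    rwa [smul_sub, inv_smul_smul, ← mul_smul, ← mul_smul] at this) h2] at h3
  simpa [mul_assoc] using h3

theorem zero1 (hA : ArtStmt) (hT : TameStmt) (h : Hyp ρ) {M : ℕ} (hM : M ≠ 0) {Q : Finset ℕ}
    {P : ℕ → Place Om} {s : ℕ → Gam} (hQ : ∀ q ∈ Q, TWq ρ q (P q) (s q) ∧ M < q)
    (hi : Indep ρ M Q s) (hc : Cls ρ c) (hD : ∀ P : Place Om, P.rchar ∣ M → Triv ρ c (De P))
    (hI : ∀ P : Place Om, P.rchar ∉ Q → Triv ρ c (In P)) (P' : Place Om) : Triv ρ c (In P') := by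
  classical
  have := nf_Kf h.opn
  have := tc_Kf h
  have := (facts ρ.ker h.opn).2.2
  have := Subgroup.quotient_finite_of_isOpen ρ.ker h.opn
  have := Fintype.ofFinite (Gam ⧸ ρ.ker)
  let β : ℕ → Gam ⧸ ρ.ker → Pr (Kf ρ) := fun q g => pr _ (g.out • P q)
  have hout : ∀ (g : Gam) (R : Place Om),
      pr (Kf ρ) ((g : Gam ⧸ ρ.ker).out • R) = pr (Kf ρ) (g • R) := fun g R => by
    obtain ⟨n, hn⟩ := QuotientGroup.mk_out_eq_mul ρ.ker g
    obtain ⟨n', hn'⟩ := exists_rs_Kf h.opn n.2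
    rw [hn, mul_smul, pr_congr, ← hn', rs_place, pr_smul]
  let T : Finset (Pr (Kf ρ)) := Q.biUnion fun q => Finset.univ.image (β q)
  have hrc : ∀ {R R' : Place Om}, pr (Kf ρ) R = pr (Kf ρ) R' → R.rchar = R'.rchar := fun e => by
    rw [← Place.rchar_res (Kf ρ), pr_eq_iff.1 e, Place.rchar_res]
  have hmem : ∀ R : Place Om, pr (Kf ρ) R ∈ T ↔ R.rchar ∈ Q := fun R => by
    simp only [T, Finset.mem_biUnion, Finset.mem_image, Finset.mem_univ, true_and]
    refine ⟨fun ⟨q, hq, g, e⟩ => ?_, fun hq => ?_⟩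
    · rwa [← hrc e, Place.rchar_smul, (hQ q hq).1.rchar]
    · obtain ⟨g, hg⟩ := Cheb.exists_smul_eq (hQ _ hq).1.rchar
      exact ⟨_, hq, g, (hout g _).trans (by rw [hg])⟩
  obtain ⟨f, h1, hav⟩ := exists_av T (hc.xi h.opn) fun R hR t ht =>
    congrArg Multiplicative.ofAdd (hI R (mt (hmem R).2 hR) _ ht (rho_rs h.opn t))
  have hT3 : ∀ w ∈ T, w.valuation (Kf ρ) ((3 : ℕ) : Kf ρ) = 1 := fun w hw => by
    obtain ⟨R, rfl⟩ := exists_pr (E := Om) w
    rw [← (isEquiv_pr R).eq_one_iff_eq_one, Valuation.comap_apply, map_natCast,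
      Place.v_natCast_eq_one_iff]
    intro e
    have := (hQ _ ((hmem R).1 hw)).1.three
    rw [(Nat.prime_dvd_prime_iff_eq R.rchar_prime Nat.prime_three).1 e] at this
    omega
  choose! w π z w1 w2 w3 w4 w5 w6 using fun q (hq : q ∈ Q) =>
    loc_tw hT h hc h1 hav hT3 (hQ q hq).1 ((hmem _).2 (by rwa [(hQ q hq).1.rchar]))
  choose n n1 n2 using fun q => sum_fibre (A := M2 k) (β q) fun a g g' => by
    simp only [β]
    rw [← a.out_eq', ← g.out_eq', ← g'.out_eq', ← QuotientGroup.mk_mul, ← QuotientGroup.mk_mul,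
      hout, hout, hout, hout, mul_smul, mul_smul, pr_congr]
  have n0 : ∀ q, (n q : k) ≠ 0 := fun q e => h.idx
    (((CharP.cast_eq_zero_iff k 3 _).1 e).trans (by
      rw [Subgroup.index_eq_card, Nat.card_eq_fintype_card]; exact n1 q))
  have key := hi (fun q => (n q : k)⁻¹ • w q) (fun q hq => ⟨by
    rw [Matrix.trace_smul, w1 q hq, smul_zero], by
    rw [mul_smul_comm, smul_mul_assoc, w2 q hq]⟩) fun u hu => ?_
  · by_cases hP : P'.rchar ∈ Q
    · obtain ⟨g, hg⟩ := Cheb.exists_smul_eq (hQ _ hP).1.rchar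
      exact hg ▸ triv_smul hc (w5 _ hP ((smul_eq_zero_iff_right (inv_ne_zero (n0 _))).1
        (key _ hP))) g
    · exact hI P' hP
  have hv : ∀ R : Place Om, R.rchar ∈ Q → R.v (u : Om) = 1 := fun R hR =>
    hu.2 R fun e => (hQ _ hR).2.not_ge (Nat.le_of_dvd (Nat.pos_of_ne_zero hM) e)
  let u' : (Kf ρ)ˣ := Units.mk0 ⟨u, fun n => hu.1 n n.2⟩ fun e => u.ne_zero (congrArg Subtype.val e)
  obtain ⟨F, hF, hF'⟩ := prod_formula hA hT (hc.xi_open h.opn) three_ne_zero (hc.xi_pow _) h1 hav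
    hT3 u' fun w hw => by
      obtain ⟨R, rfl⟩ := exists_pr (E := Om) w
      exact (isEquiv_pr R).eq_one_iff_eq_one.1 (hv R ((hmem R).1 hw))
  have hev : ev f u' = 1 := by
    rw [ev_congr (g := fun _ => 1) fun w hw => ?_]
    · simp [ev_apply]
    obtain ⟨R, rfl⟩ := exists_pr (E := Om) w
    have hR : R.rchar ∣ M := by
      by_contra e
      exact hw ((ord_eq_zero_iff _ _).2 ((isEquiv_pr R).eq_one_iff_eq_one.1 (hu.2 R e)))
    by_cases hw' : pr (Kf ρ) R ∈ T
    · exact h1 _ hw'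
    obtain ⟨φ, hφ⟩ := exists_isF (K := Kf ρ) R
    rw [← hav R hw' φ hφ]
    exact congrArg Multiplicative.ofAdd
      (hD R hR _ ((rs_place φ R).trans hφ.smul_eq) (rho_rs h.opn φ))
  have hq : ∀ q ∈ Q, av ρ (s q) ((n q : k)⁻¹ • w q) u =
      ∑ x ∈ Finset.univ.image (β q), (F x).toAdd := fun q hq => by
    rw [← inv_smul_smul₀ (n0 q) (∑ x ∈ Finset.univ.image (β q), (F x).toAdd),
      Nat.cast_smul_eq_nsmul, ← n2, av, finsum_eq_sum_of_fintype, Finset.smul_sum]
    refine Finset.sum_congr rfl fun g _ => ?_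
    have hr : (g.out • P q).rchar ∈ Q := by rwa [Place.rchar_smul, (hQ q hq).1.rchar]
    obtain ⟨t, t1, t2, t3⟩ := w6 q hq (g.out⁻¹ u) (Tw.fix_smul hu.1 _) (by
      rw [← Tw.v_smul_one g.out, ← AlgEquiv.mul_apply, mul_inv_cancel]
      exact hv _ hr)
    have t4 : ρ t = 1 := (hQ q hq).1.unr t1
    obtain ⟨t', ht'⟩ := exists_rs_Kf h.opn ((MonoidHom.normal_ker ρ).conj_mem t t4 g.out)
    obtain ⟨π', p1, p2⟩ := exists_unif (Kf ρ) g.out (P q) (π q)
    have e := hF' (g.out • P q) π' (g.out (z q)) t' ((hmem _).2 hr) (p2.trans (w3 q hq)) (by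
      rw [qv_smul, ← map_pow, ← map_pow, w4 q hq, ← p1]; rfl) (by
        rw [← rs_inertia, ht']
        intro x
        refine (Place.mem_smul_ideal g.out (P q) _).2 ?_
        rw [smul_sub, mul_smul, mul_smul, inv_smul_smul]
        exact t1 _) (by
        rw [← Place.v_smul_smul_lt_one g.out, AlgEquiv.smul_def, map_sub, map_div₀,
          ← AlgEquiv.mul_apply g.out g.out⁻¹, mul_inv_cancel] at t2
        rw [← rs_apply, ht', AlgEquiv.mul_apply, AlgEquiv.mul_apply,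
          ← AlgEquiv.mul_apply g.out⁻¹, inv_mul_cancel]
        exact t2)
    simp only [β]
    rw [e, hc.xi_apply, toAdd_ofAdd, ht', hc.conj _ _ t4, t3]
    simp only [mul_smul_comm, smul_mul_assoc]
    rw [smul_comm]
  rw [Finset.sum_congr rfl hq, ← Finset.sum_biUnion, ← toAdd_prod, ← hF, hev, toAdd_one]
  intro q h2 q' h3 hne
  refine Finset.disjoint_left.2 fun x hx hx' => hne ?_
  obtain ⟨g, -, rfl⟩ := Finset.mem_image.1 hx
  obtain ⟨g', -, e⟩ := Finset.mem_image.1 hx'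
  have := hrc e
  rwa [Place.rchar_smul, Place.rchar_smul, (hQ q h2).1.rchar, (hQ q' h3).1.rchar, eq_comm] at this

end Crest.Agent.T15.Zr
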